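import Claimed.Open.R278.TKBridge

/-!
# Toolkit, leaf TK-3: further calculus of weak gradients on `Space` (what is not in kit FS)

* `tk_grad_of_even`: as `IsWeakGrad.grad_of_odd` (`IsWeakGrad.comp_reflZ` + uniqueness `IsWeakGrad.ae_eq`).
* `tk_const_of_grad_zero`: `wsMol k u` is smooth with gradient `wsMol k g = 0` (`wsMol_gradient`), hence constant `c_k`; `wsMol k u → u` in `L¹_loc`
  (`wsLoc_mol`), so `u` is a.e. constant.
* `tk_weakGrad_eq_gradient_on`: for `χ ∈ C_c^∞(O)`, `χ u` is `C¹` on `Space`; compare `ws_weakGrad_mul` with `ws_weakGrad_of_contDiff`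
  (`ws_weakGrad_unique`); cover `O` by countably many balls.
* `tk_weakGrad_comp_loc`: for a test function supported in `ball 0 R` the range `u '' closedBall 0 R` is a compact subset of `I`; modify `Θ` off a neighbourhood of
  it to a `C¹` function with bounded derivative (multiply by a smooth cutoff), or clip `u` and use `ws_weakGrad_comp_Icc` piecewise.
-/

open MeasureTheory
open Claimed.Agent.R259 (WeakGrad H1 dm IsTest)
open scoped ContDiff InnerProductSpace ENNReal Topology

noncomputable section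

namespace Claimed.Open.R278

/-- the gradient of an even function. -/
theorem tk_grad_of_even {u : Space → ℝ} {g : Space → Space} (h : IsWeakGrad u g)
    (hev : ∀ᵐ x, u (reflZ x) = u x) : ∀ᵐ x, g (reflZ x) = reflZ (g x) := by
  have h1 : IsWeakGrad u (fun x => reflZ (g (reflZ x))) :=
    h.comp_reflZ.congr_ae hev (Filter.EventuallyEq.refl _ _)
  filter_upwards [Claimed.Agent.R259.ws_weakGrad_unique (isWeakGrad_iff_weakGrad.1 h)
    (isWeakGrad_iff_weakGrad.1 h1)] with x hx
  rw [hx, reflZ_reflZ]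

theorem tk_const_of_grad_zero {u : Space → ℝ} {g : Space → Space} (h : IsWeakGrad u g) (hg : g =ᵐ[volume] 0) :
    ∃ c : ℝ, u =ᵐ[volume] fun _ => c := by
  have hw := isWeakGrad_iff_weakGrad.1 h
  have hconst : ∀ k x, Claimed.Agent.R259.wsMol k u x = Claimed.Agent.R259.wsMol k u 0 := by
    intro k x
    have hsm := Claimed.Agent.R259.wsMol_contDiff k hw.1
    refine is_const_of_fderiv_eq_zero (𝕜 := ℝ) (hsm.differentiable (by simp)) (fun y => ?_) x 0
    have h1 : gradient (Claimed.Agent.R259.wsMol k u) y = 0 := by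
      rw [Claimed.Agent.R259.wsMol_gradient hw k, Claimed.Agent.R259.wsMol_congr k hg]
      exact congrFun (Claimed.Agent.R259.wsMol_const k (0 : Space)) y
    ext v
    rw [← inner_gradient_left, h1, inner_zero_left]
    rfl
  have hlim := Claimed.Agent.R259.wsMol_tendsto_ae hw.1
  obtain ⟨x₀, hx₀⟩ := hlim.exists
  refine ⟨u x₀, ?_⟩
  filter_upwards [hlim] with x hx
  simp only [hconst _ x] at hx
  simp only [hconst _ x₀] at hx₀
  exact tendsto_nhds_unique hx hx₀

theorem tk3_ae_comp_reflZ {p : Space → Prop} (h : ∀ᵐ x, p x) : ∀ᵐ x, p (reflZ x) :=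
  measurePreserving_reflZ.quasiMeasurePreserving.ae h

theorem tk3_measurableEmbedding_reflZ : MeasurableEmbedding reflZ :=
  (reflZIsometry.toLinearIsometryEquiv rfl).toHomeomorph.measurableEmbedding

/-- a function which is a.e. equal to a constant and odd vanishes. -/
theorem tk_odd_const_zero {u : Space → ℝ} {c : ℝ} (h : u =ᵐ[volume] fun _ => c)
    (hodd : ∀ᵐ x, u (reflZ x) = -u x) : c = 0 := by
  have h2 : ∀ᵐ x, u (reflZ x) = c := tk3_ae_comp_reflZ h
  obtain ⟨x, h1, h2, h3⟩ := (h.and (h2.and hodd)).exists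
  have h1' : u x = c := h1
  linarith

/-- integrals of odd functions vanish. -/
theorem tk_integral_odd {f : Space → ℝ} (hodd : ∀ᵐ x, f (reflZ x) = -f x) : ∫ x, f x = 0 := by
  have h1 : ∫ x, f (reflZ x) = ∫ x, f x :=
    measurePreserving_reflZ.integral_comp tk3_measurableEmbedding_reflZ f
  have h2 : ∫ x, f (reflZ x) = - ∫ x, f x := by
    rw [← integral_neg]
    exact integral_congr_ae hodd
  linarith

theorem tk3_plane_null : volume {x : Space | x 2 = 0} = 0 := by
  have h1 : {x : Space | x 2 = 0}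
      = ((LinearMap.ker (EuclideanSpace.proj (2 : Fin 3) : Space →L[ℝ] ℝ).toLinearMap :
        Submodule ℝ Space) : Set Space) := by
    ext x
    simp
  rw [h1]
  refine Measure.addHaar_submodule volume _ ?_
  intro htop
  have : (EuclideanSpace.single (2 : Fin 3) (1 : ℝ) : Space)
      ∈ LinearMap.ker (EuclideanSpace.proj (2 : Fin 3) : Space →L[ℝ] ℝ).toLinearMap := by
    rw [htop]; trivial
  simp at this

/-- integrals of even functions: twice the upper half. -/
theorem tk_integral_even {f : Space → ℝ} (hf : Integrable f) (hev : ∀ᵐ x, f (reflZ x) = f x) :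
    ∫ x, f x = 2 * ∫ x in upperHalf, f x := by
  have hcont : Continuous fun x : Space => x 2 := by fun_prop
  have hm : MeasurableSet upperHalf := (isOpen_lt continuous_const hcont).measurableSet
  have h1 := integral_add_compl hm hf
  set lower : Set Space := {x | x 2 < 0} with hlower
  have h2 : ∫ x in upperHalfᶜ, f x = ∫ x in lower, f x := by
    refine setIntegral_congr_set ?_
    have hsub : upperHalfᶜ = lower ∪ {x : Space | x 2 = 0} := by
      ext x
      simp only [upperHalf, hlower, Set.mem_compl_iff, Set.mem_ofPred_eq, Set.mem_union, not_lt]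
      exact le_iff_lt_or_eq
    rw [hsub]
    exact union_ae_eq_left_of_ae_eq_empty (ae_eq_empty.2 tk3_plane_null)
  have h3 : ∫ x in lower, f x = ∫ x in upperHalf, f (reflZ x) := by
    have := measurePreserving_reflZ.setIntegral_preimage_emb tk3_measurableEmbedding_reflZ f lower
    rw [← this]
    congr 2
    ext x
    simp [upperHalf, hlower]
  have h4 : ∫ x in upperHalf, f (reflZ x) = ∫ x in upperHalf, f x :=
    integral_congr_ae (ae_restrict_of_ae hev)
  rw [← h1, h2, h3, h4]
  ring

theorem tk3_contDiff_mul_of_tsupport {E : Type*} [NormedAddCommGroup E] [NormedSpace ℝ E]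
    {χ u : E → ℝ} {O : Set E} (hO : IsOpen O) (hχ : ContDiff ℝ 1 χ) (hs : tsupport χ ⊆ O)
    (hu : ContDiffOn ℝ 1 u O) : ContDiff ℝ 1 (fun x => χ x * u x) := by
  rw [contDiff_iff_contDiffAt]
  intro x
  by_cases hx : x ∈ O
  · exact hχ.contDiffAt.mul (hu.contDiffAt (hO.mem_nhds hx))
  · have hx' : x ∉ tsupport χ := fun h => hx (hs h)
    have : (fun y => χ y * u y) =ᶠ[𝓝 x] fun _ => 0 := by
      filter_upwards [(isClosed_tsupport χ).isOpen_compl.mem_nhds hx'] with y hy
      rw [image_eq_zero_of_notMem_tsupport hy, zero_mul]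
    exact contDiffAt_const.congr_of_eventuallyEq this

theorem tk_weakGrad_eq_gradient_on {u : Space → ℝ} {g : Space → Space} (h : IsWeakGrad u g) {O : Set Space}
    (hO : IsOpen O) (hu : ContDiffOn ℝ 1 u O) : ∀ᵐ x, x ∈ O → g x = gradient u x := by
  have hw := isWeakGrad_iff_weakGrad.1 h
  rw [ae_iff]
  refine measure_null_of_locally_null _ fun x₀ hx₀ => ?_
  have hx₀O : x₀ ∈ O := by
    by_contra hno
    exact hx₀ fun h' => absurd h' hno
  obtain ⟨ε, hε, hεO⟩ := Metric.isOpen_iff.1 hO x₀ hx₀O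
  let χ : ContDiffBump x₀ := ⟨ε / 4, ε / 2, by positivity, by linarith⟩
  have hχ1 : ContDiff ℝ 1 (χ : Space → ℝ) := χ.contDiff (n := 1)
  have hts : tsupport (χ : Space → ℝ) ⊆ O := by
    rw [χ.tsupport_eq]
    exact (Metric.closedBall_subset_ball (by show ε / 2 < ε; linarith)).trans hεO
  have hC1 := tk3_contDiff_mul_of_tsupport hO hχ1 hts hu
  have hae := Claimed.Agent.R259.ws_weakGrad_unique (Claimed.Agent.R259.ws_weakGrad_mul hw hχ1)
    (Claimed.Agent.R259.ws_weakGrad_of_contDiff hC1)
  refine ⟨{x | ¬(x ∈ O → g x = gradient u x)} ∩ Metric.ball x₀ (ε / 4),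
    inter_mem_nhdsWithin _ (Metric.ball_mem_nhds x₀ (by positivity)), ?_⟩
  refine measure_mono_null ?_ (ae_iff.1 hae)
  rintro x ⟨hx1, hx2⟩ hcontra
  apply hx1
  intro _
  have hnear : (χ : Space → ℝ) =ᶠ[𝓝 x] fun _ => 1 := by
    filter_upwards [Metric.isOpen_ball.mem_nhds hx2] with y hy
    exact χ.one_of_mem_closedBall (Metric.ball_subset_closedBall hy)
  have e1 : χ x = 1 := hnear.self_of_nhds
  have e2 : gradient (χ : Space → ℝ) x = 0 := by
    unfold gradient
    rw [hnear.fderiv_eq]
    simp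
  have e3 : gradient (fun y => χ y * u y) x = gradient u x := by
    unfold gradient
    congr 1
    apply Filter.EventuallyEq.fderiv_eq
    filter_upwards [hnear] with y hy
    rw [hy, one_mul]
  have hcontra' : χ x • g x + u x • gradient (χ : Space → ℝ) x
      = gradient (fun y => χ y * u y) x := hcontra
  rw [e1, e2, e3] at hcontra'
  simpa using hcontra'

open scoped Manifold in
theorem tk3_cutoff {K I : Set ℝ} (hK : IsCompact K) (hI : IsOpen I) (hKI : K ⊆ I) {Θ : ℝ → ℝ}
    (hΘ : ContDiffOn ℝ 1 Θ I) :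
    ∃ Θ' : ℝ → ℝ, ContDiff ℝ 1 Θ' ∧ (∃ C : ℝ, ∀ z, |deriv Θ' z| ≤ C) ∧
      ∀ z ∈ K, Θ' z = Θ z ∧ deriv Θ' z = deriv Θ z := by
  obtain ⟨δ, hδ, hδI⟩ := hK.exists_cthickening_subset_open hI hKI
  have hT : IsCompact (Metric.cthickening δ K) := hK.cthickening
  have hKT : K ⊆ interior (Metric.cthickening δ K) :=
    (Metric.self_subset_thickening hδ K).trans
      (interior_maximal (Metric.thickening_subset_cthickening δ K) Metric.isOpen_thickening)
  obtain ⟨χ, h1, h0, -⟩ := exists_contMDiffMap_one_nhds_of_subset_interior (n := 1) 𝓘(ℝ, ℝ)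
    hK.isClosed hKT
  have hχ : ContDiff ℝ 1 (χ : ℝ → ℝ) := contMDiff_iff_contDiff.1 χ.contMDiff
  have hts : tsupport (χ : ℝ → ℝ) ⊆ Metric.cthickening δ K :=
    closure_minimal (fun x hx => by_contra fun h => hx (h0 x h)) hT.isClosed
  have hC1 : ContDiff ℝ 1 (fun z => χ z * Θ z) :=
    tk3_contDiff_mul_of_tsupport hI hχ (hts.trans hδI) hΘ
  refine ⟨fun z => χ z * Θ z, hC1, ?_, ?_⟩
  · have hcs0 : HasCompactSupport (χ : ℝ → ℝ) := hT.of_isClosed_subset (isClosed_tsupport _) hts
    have hcs : HasCompactSupport (fun z => χ z * Θ z) := hcs0.mul_right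
    have hd : Continuous (deriv fun z => χ z * Θ z) := hC1.continuous_deriv le_rfl
    obtain ⟨C, hC⟩ := hcs.deriv.exists_bound_of_continuous hd
    exact ⟨C, fun z => by simpa using hC z⟩
  · intro z hz
    have hnear : ∀ᶠ y in 𝓝 z, χ y = 1 := (eventually_nhdsSet_iff_forall.1 h1) z hz
    have heq : (fun z => χ z * Θ z) =ᶠ[𝓝 z] Θ := by
      filter_upwards [hnear] with y hy
      rw [hy, one_mul]
    exact ⟨heq.self_of_nhds, heq.deriv_eq⟩

/-- chain rule: `u` continuous with values in the open set `I`, `Θ` of class `C¹` on `I`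
(for `√n`, `1/n`, `log n`, `1/√n` with `n` continuous and positive; `tan θ` with `|θ| < π/2`). -/
theorem tk_weakGrad_comp_loc {u : Space → ℝ} {g : Space → Space} (h : IsWeakGrad u g) (hc : Continuous u)
    {I : Set ℝ} (hI : IsOpen I) (hu : ∀ x, u x ∈ I) {Θ : ℝ → ℝ} (hΘ : ContDiffOn ℝ 1 Θ I) :
    IsWeakGrad (fun x => Θ (u x)) (fun x => deriv Θ (u x) • g x) := by
  have hw := isWeakGrad_iff_weakGrad.1 h
  rw [isWeakGrad_iff_weakGrad]
  -- local replacement
  have hloc : ∀ R : ℝ, ∃ Θ' : ℝ → ℝ,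
      WeakGrad (fun x => Θ' (u x)) (fun x => deriv Θ' (u x) • g x) ∧
      ∀ x ∈ Metric.closedBall (0 : Space) R, Θ' (u x) = Θ (u x) ∧ deriv Θ' (u x) = deriv Θ (u x) := by
    intro R
    have hK : IsCompact (u '' Metric.closedBall (0 : Space) R) :=
      (isCompact_closedBall (0 : Space) R).image hc
    obtain ⟨Θ', h1, ⟨C, hC⟩, h3⟩ := tk3_cutoff hK hI (by rintro _ ⟨x, -, rfl⟩; exact hu x) hΘ
    exact ⟨Θ', Claimed.Agent.R259.ws_weakGrad_comp hw h1 hC,
      fun x hx => h3 _ (Set.mem_image_of_mem u hx)⟩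
  have hcont : Continuous fun x => Θ (u x) :=
    hΘ.continuousOn.comp_continuous hc hu
  refine ⟨hcont.locallyIntegrable, ?_, fun ζ hζ => ?_⟩
  · intro x
    obtain ⟨Θ', hW, hE⟩ := hloc (‖x‖ + 1)
    refine ⟨Metric.closedBall 0 (‖x‖ + 1), Metric.closedBall_mem_nhds_of_mem (by simp), ?_⟩
    refine (hW.2.1.integrableOn_isCompact (isCompact_closedBall (0 : Space) (‖x‖ + 1))).congr_fun
      (fun y hy => ?_) measurableSet_closedBall
    simp only [(hE y hy).2]
  · obtain ⟨R, hR⟩ := hζ.2.isCompact.isBounded.subset_closedBall (0 : Space)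
    obtain ⟨Θ', hW, hE⟩ := hloc R
    have key := hW.2.2 ζ hζ
    have e1 : ∀ x, Θ (u x) • gradient ζ x = Θ' (u x) • gradient ζ x := by
      intro x
      by_cases hx : x ∈ Metric.closedBall (0 : Space) R
      · rw [(hE x hx).1]
      · have : gradient ζ x = 0 := by
          have h0 : fderiv ℝ ζ x = 0 := by
            by_contra hne
            exact hx (hR (support_fderiv_subset ℝ hne))
          unfold gradient
          rw [h0, map_zero]
        rw [this, smul_zero, smul_zero]
    have e2 : ∀ x, ζ x • (deriv Θ (u x) • g x) = ζ x • (deriv Θ' (u x) • g x) := by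
      intro x
      by_cases hx : x ∈ Metric.closedBall (0 : Space) R
      · rw [(hE x hx).2]
      · rw [image_eq_zero_of_notMem_tsupport fun h' => hx (hR h'), zero_smul, zero_smul]
    simp only [e1, e2]
    exact key

end Claimed.Open.R278
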