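import Claimed.Open.R278.TKTest
import Claimed.Open.R278.TKCalc

/-!
# Package AN, leaves AN-M1 (nondegeneracy), AN-M2 (variation), AN-M3 (multiplier: existence, sign, uniqueness)

AN-M1.  `an_energy_pos`: if the energy vanishes then `G = 0` a.e. (`n > 0`), `ϑ` is a.e. constant (`tk_const_of_grad_zero`), the constant is `0` by oddness
(`tk_odd_const_zero`), contradiction with `∫ n sin² ϑ = 1`.
`an_exists_test`: otherwise `∫ n sin(2θ) φ = 0` for all odd tests; for any test `ψ`, `ψ - ψ ∘ reflZ` is an odd test and `n sin 2θ` is odd a.e., so `∫ n sin(2θ) ψ = 0` for ALL tests,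
so `sin 2θ = 0` a.e. (`ae_eq_zero_of_integral_contDiff_smul_eq_zero`).  With `|θ| ≤ π/2` a.e.: `θ ∈ {0, ±π/2}` a.e., so `G = 0` a.e. (`IsWeakGrad.ae_eq_zero_of_level`), contradicting `an_energy_pos`.

AN-M2.  `an_variation` (no implicit function theorem).  `C(s,t) = ∫ n sin² (θ + s ψ + t φ₀)`.  Taylor in `(s,t)` with `|∂² sin²| ≤ 2`:
`|C(s,t) - 1 - s c_ψ - t c₀| ≤ K (s² + t²)`, `c_ψ = ∫ n sin(2θ) ψ = 0`, `c₀ = ∫ n sin(2θ) φ₀ ≠ 0`, `K = 2 ∫ n (ψ² + φ₀²)`.  For small `s` and `t_± = ± 2 K s²/|c₀|` the numbers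
`C(s,t_±) - 1` have opposite signs; `t ↦ C(s,t)` is continuous: IVT gives `t(s)`, `|t(s)| ≤ 2 K s²/|c₀|`, with `C(s,t(s)) = 1`.  `θ + s ψ + t(s) φ₀` is admissible, so by minimality
`0 ≤ 2 s ∫ n ⟨G,∇ψ⟩ + 2 t(s) ∫ n ⟨G,∇φ₀⟩ + ∫ n |s ∇ψ + t(s) ∇φ₀|²`; divide by `s → 0±`.

AN-M3.  `d := ∫ n ⟨G,∇φ₀⟩ / c₀`.  Odd tests: apply `an_variation` to `ψ = φ - (c_φ/c₀) φ₀`.  Even tests: both sides vanish (`tk_integral_odd`, `IsWeakGrad.grad_of_odd`, `n` even).
General test = even part + odd part.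
`an_multiplier_pos`: test (`DriftEq.test`/`tk_test_ext_eq`) with `χ_k θ` (`χ_k = cutoff k` of Mollify.lean or `wsCut k`): `∫ n χ_k |G|² + ∫ n θ ⟨G,∇χ_k⟩ = d ∫ n χ_k θ sin 2θ`; `k → ∞`
(`|θ| ≤ π/2`, `|∇χ_k| ≤ C/k`, `∫ n < ∞`, finite energy): `E = d ∫ n θ sin 2θ`, `E > 0`, `θ sin 2θ ≥ 0`.
-/

open MeasureTheory Filter
open scoped ContDiff InnerProductSpace ENNReal Topology

noncomputable section

namespace Claimed.Open.R278

variable {n : Space → ℝ}

/-! ### helpers -/

theorem anm_int_G (hn : DensityBasic n) {ϑ : Space → ℝ} {G : Space → Space} (h : IsAdmissibleAngle n ϑ G) :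
    Integrable fun x => n x * ‖G x‖ ^ 2 := by
  have hnm : AEStronglyMeasurable n volume := hn.continuous.aestronglyMeasurable
  have hGm : AEStronglyMeasurable G volume := h.1.2.1.aestronglyMeasurable
  refine h.2.1.mono' (hnm.mul (hGm.norm.pow 2)) (Eventually.of_forall fun x => ?_)
  rw [Real.norm_eq_abs, abs_of_nonneg (mul_nonneg (hn.pos x).le (sq_nonneg _))]
  exact mul_le_mul_of_nonneg_left (le_add_of_nonneg_left (sq_nonneg _)) (hn.pos x).le

theorem anm_abs_le {θ : Space → ℝ} (hf : IsFolded θ) (hodd : ∀ᵐ x, θ (reflZ x) = -θ x) :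
    ∀ᵐ x, |θ x| ≤ Real.pi / 2 := by
  have hplane : ∀ᵐ x : Space, x 2 ≠ 0 := by
    rw [ae_iff]
    simpa only [not_not] using tk3_plane_null
  have hf' : ∀ᵐ x : Space, 0 < (reflZ x) 2 → 0 ≤ θ (reflZ x) ∧ θ (reflZ x) ≤ Real.pi / 2 :=
    tk3_ae_comp_reflZ hf
  filter_upwards [hf, hf', hodd, hplane] with x h1 h2 h3 h4
  rcases lt_or_gt_of_ne h4 with hx | hx
  · have := h2 (by simpa using hx)
    rw [h3] at this
    rw [abs_le]
    constructor <;> linarith [this.1, this.2, Real.pi_pos]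
  · have := h1 hx
    rw [abs_le]
    constructor <;> linarith [this.1, this.2, Real.pi_pos]

theorem anm_contDiff_reflZ : ContDiff ℝ ∞ reflZ := reflZIsometry.contDiff

theorem anm_hasCompactSupport_comp_reflZ {ψ : Space → ℝ} (hc : HasCompactSupport ψ) :
    HasCompactSupport fun x => ψ (reflZ x) :=
  hc.comp_homeomorph (reflZIsometry.toLinearIsometryEquiv rfl).toHomeomorph

/-- the weight `n sin 2θ`. -/
theorem anm_w_integrable (hn : DensityBasic n) {θ : Space → ℝ} (hθm : AEStronglyMeasurable θ volume) :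
    Integrable fun x => n x * Real.sin (2 * θ x) := by
  refine hn.integrable.mono' (hn.continuous.aestronglyMeasurable.mul
    (Real.continuous_sin.comp_aestronglyMeasurable (hθm.const_mul 2))) (Eventually.of_forall fun x => ?_)
  rw [Real.norm_eq_abs, abs_mul, abs_of_pos (hn.pos x)]
  exact mul_le_of_le_one_right (hn.pos x).le (Real.abs_sin_le_one _)

theorem anm_w_odd (hn : DensityBasic n) {θ : Space → ℝ} (hodd : ∀ᵐ x, θ (reflZ x) = -θ x) :
    ∀ᵐ x, n (reflZ x) * Real.sin (2 * θ (reflZ x)) = -(n x * Real.sin (2 * θ x)) := by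
  filter_upwards [hodd] with x hx
  rw [hn.even, hx, mul_neg, Real.sin_neg, mul_neg]

/-- integrable times continuous compactly supported. -/
theorem anm_integrable_mul_test {w ψ : Space → ℝ} (hw : Integrable w) (hψ : Continuous ψ)
    (hc : HasCompactSupport ψ) : Integrable fun x => w x * ψ x := by
  obtain ⟨C, hC⟩ := hc.exists_bound_of_continuous hψ
  refine (hw.norm.mul_const C).mono' (hw.1.mul hψ.aestronglyMeasurable) (Eventually.of_forall fun x => ?_)
  rw [norm_mul]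
  exact mul_le_mul_of_nonneg_left (hC x) (norm_nonneg _)

/-! ### AN-M1 -/

theorem an_energy_pos (hn : DensityBasic n) {ϑ : Space → ℝ} {G : Space → Space} (h : IsAdmissibleAngle n ϑ G) :
    0 < angleEnergy n G := by
  have hi := anm_int_G hn h
  have h0 : 0 ≤ angleEnergy n G := integral_nonneg fun x => mul_nonneg (hn.pos x).le (sq_nonneg _)
  rcases h0.lt_or_eq with hlt | heq
  · exact hlt
  exfalso
  have hz : (fun x => n x * ‖G x‖ ^ 2) =ᵐ[volume] 0 :=
    (integral_eq_zero_iff_of_nonneg (fun x => mul_nonneg (hn.pos x).le (sq_nonneg _)) hi).1 heq.symm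
  have hG : G =ᵐ[volume] 0 := by
    filter_upwards [hz] with x hx
    have h2 : n x * ‖G x‖ ^ 2 = 0 := hx
    rcases mul_eq_zero.1 h2 with h1 | h1
    · exact absurd h1 (hn.pos x).ne'
    · simpa using h1
  obtain ⟨c, hc⟩ := tk_const_of_grad_zero h.1 hG
  have hc0 := tk_odd_const_zero hc h.2.2.1
  have h3 : ∫ x, n x * Real.sin (ϑ x) ^ 2 = 0 := by
    refine integral_eq_zero_of_ae ?_
    filter_upwards [hc] with x hx
    rw [hx, hc0]
    simp
  rw [h.2.2.2] at h3
  exact one_ne_zero h3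

theorem an_exists_test (hn : DensityBasic n) {θ : Space → ℝ} {G : Space → Space} (h : IsAdmissibleAngle n θ G)
    (hf : IsFolded θ) :
    ∃ φ₀ : Space → ℝ, ContDiff ℝ ∞ φ₀ ∧ HasCompactSupport φ₀ ∧ (∀ x, φ₀ (reflZ x) = -φ₀ x) ∧
      (∫ x, n x * Real.sin (2 * θ x) * φ₀ x) ≠ 0 := by
  by_contra hcon
  push Not at hcon
  have hθm : AEStronglyMeasurable θ volume := h.1.1.aestronglyMeasurable
  have hwi := anm_w_integrable hn hθm
  have hwodd := anm_w_odd hn h.2.2.1
  have hall : ∀ ψ : Space → ℝ, ContDiff ℝ ∞ ψ → HasCompactSupport ψ →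
      ∫ x, ψ x • (n x * Real.sin (2 * θ x)) = 0 := by
    intro ψ hψ hψc
    have hψc' := anm_hasCompactSupport_comp_reflZ hψc
    have hodd := hcon (fun x => ψ x - ψ (reflZ x)) (hψ.sub (hψ.comp anm_contDiff_reflZ))
      (hψc.sub hψc') (fun x => by simp only [reflZ_reflZ]; ring)
    have e1 : ∫ x, n x * Real.sin (2 * θ x) * ψ (reflZ x) = - ∫ x, n x * Real.sin (2 * θ x) * ψ x := by
      have := measurePreserving_reflZ.integral_comp tk3_measurableEmbedding_reflZ
        (fun x => n x * Real.sin (2 * θ x) * ψ (reflZ x))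
      rw [← this, ← integral_neg]
      refine integral_congr_ae ?_
      filter_upwards [hwodd] with x hx
      simp only [reflZ_reflZ, hx]
      ring
    have i1 := anm_integrable_mul_test hwi hψ.continuous hψc
    have i2 : Integrable fun x => n x * Real.sin (2 * θ x) * ψ (reflZ x) :=
      anm_integrable_mul_test hwi (ψ := fun x => ψ (reflZ x))
        (hψ.continuous.comp anm_contDiff_reflZ.continuous) hψc'
    have e2 : ∫ x, n x * Real.sin (2 * θ x) * (ψ x - ψ (reflZ x))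
        = (∫ x, n x * Real.sin (2 * θ x) * ψ x) - ∫ x, n x * Real.sin (2 * θ x) * ψ (reflZ x) := by
      rw [← integral_sub i1 i2]
      refine integral_congr_ae (Eventually.of_forall fun x => ?_)
      simp only
      ring
    rw [e2, e1] at hodd
    have e3 : ∫ x, ψ x • (n x * Real.sin (2 * θ x)) = ∫ x, n x * Real.sin (2 * θ x) * ψ x := by
      refine integral_congr_ae (Eventually.of_forall fun x => ?_)
      simp only [smul_eq_mul]
      ring
    rw [e3]
    linarith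
  have hw0 := ae_eq_zero_of_integral_contDiff_smul_eq_zero hwi.locallyIntegrable hall
  have hG : ∀ᵐ x, G x = 0 := by
    filter_upwards [hw0, anm_abs_le hf h.2.2.1, h.1.ae_eq_zero_of_level 0,
      h.1.ae_eq_zero_of_level (Real.pi / 2), h.1.ae_eq_zero_of_level (-(Real.pi / 2))]
      with x h1 h2 h3 h4 h5
    have hs : Real.sin (2 * θ x) = 0 := by
      rcases mul_eq_zero.1 h1 with h6 | h6
      · exact absurd h6 (hn.pos x).ne'
      · exact h6
    obtain ⟨k, hk⟩ := Real.sin_eq_zero_iff.1 hs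
    rw [abs_le] at h2
    have hk1 : (k : ℝ) < 2 := by
      by_contra hge
      push Not at hge
      nlinarith [Real.pi_pos]
    have hk2 : (-2 : ℝ) < k := by
      by_contra hge
      push Not at hge
      nlinarith [Real.pi_pos]
    have hk1' : k < 2 := by exact_mod_cast hk1
    have hk2' : -2 < k := by exact_mod_cast hk2
    have : k = -1 ∨ k = 0 ∨ k = 1 := by omega
    rcases this with rfl | rfl | rfl
    · exact h5 (by push_cast at hk; linarith)
    · exact h3 (by push_cast at hk; linarith)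
    · exact h4 (by push_cast at hk; linarith)
  have hE : angleEnergy n G = 0 := by
    refine integral_eq_zero_of_ae ?_
    filter_upwards [hG] with x hx
    rw [hx]
    simp
  exact absurd hE (an_energy_pos hn h).ne'

/-! ### AN-M2 : real-variable lemmas -/

theorem anm_sin_sub_le (h : ℝ) : |Real.sin h - h| ≤ 2 * h ^ 2 := by
  rcases le_or_gt |h| 1 with h1 | h1
  · have hb := Real.sin_bound h1
    have h0 : 0 ≤ |h| := abs_nonneg h
    have e : Real.sin h - h = (Real.sin h - (h - h ^ 3 / 6)) - h ^ 3 / 6 := by ring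
    have h3 : |h ^ 3 / 6| = |h| ^ 3 / 6 := by
      rw [abs_div, abs_pow, abs_of_pos (by norm_num : (0 : ℝ) < 6)]
    have hsq : h ^ 2 = |h| ^ 2 := (sq_abs h).symm
    calc |Real.sin h - h| ≤ |Real.sin h - (h - h ^ 3 / 6)| + |h ^ 3 / 6| := by
          rw [e]; exact abs_sub _ _
      _ ≤ |h| ^ 5 / 100 + |h| ^ 3 / 6 := by rw [h3]; linarith
      _ ≤ 2 * h ^ 2 := by
          rw [hsq]
          have a1 : |h| ^ 3 ≤ |h| ^ 2 := pow_le_pow_of_le_one h0 h1 (by norm_num)
          have a2 : |h| ^ 5 ≤ |h| ^ 2 := pow_le_pow_of_le_one h0 h1 (by norm_num)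
          nlinarith [sq_nonneg |h|]
  · have hsq : h ^ 2 = |h| ^ 2 := (sq_abs h).symm
    calc |Real.sin h - h| ≤ |Real.sin h| + |h| := abs_sub _ _
      _ ≤ 1 + |h| := by linarith [Real.abs_sin_le_one h]
      _ ≤ 2 * h ^ 2 := by rw [hsq]; nlinarith

theorem anm_taylor (a h : ℝ) :
    |Real.sin (a + h) ^ 2 - Real.sin a ^ 2 - Real.sin (2 * a) * h| ≤ 3 * h ^ 2 := by
  have e0 : ∀ x y : ℝ, Real.sin x ^ 2 - Real.sin y ^ 2 = Real.sin (x + y) * Real.sin (x - y) := by
    intro x y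
    rw [Real.sin_add, Real.sin_sub]
    have c1 := Real.sin_sq_add_cos_sq x
    have c2 := Real.sin_sq_add_cos_sq y
    have c1' : Real.cos x ^ 2 = 1 - Real.sin x ^ 2 := by linarith
    have c2' : Real.cos y ^ 2 = 1 - Real.sin y ^ 2 := by linarith
    have : (Real.sin x * Real.cos y + Real.cos x * Real.sin y)
        * (Real.sin x * Real.cos y - Real.cos x * Real.sin y)
        = Real.sin x ^ 2 * Real.cos y ^ 2 - Real.cos x ^ 2 * Real.sin y ^ 2 := by ring
    rw [this, c1', c2']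
    ring
  have e1 : Real.sin (a + h) ^ 2 - Real.sin a ^ 2 = Real.sin (2 * a + h) * Real.sin h := by
    rw [e0 (a + h) a]
    congr 2 <;> ring
  have e2 : Real.sin (a + h) ^ 2 - Real.sin a ^ 2 - Real.sin (2 * a) * h
      = Real.sin (2 * a + h) * (Real.sin h - h) + h * (Real.sin (2 * a + h) - Real.sin (2 * a)) := by
    rw [e1]; ring
  rw [e2]
  have b1 : |Real.sin (2 * a + h) * (Real.sin h - h)| ≤ 2 * h ^ 2 := by
    rw [abs_mul]
    calc |Real.sin (2 * a + h)| * |Real.sin h - h| ≤ 1 * |Real.sin h - h| :=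
          mul_le_mul_of_nonneg_right (Real.abs_sin_le_one _) (abs_nonneg _)
      _ ≤ 2 * h ^ 2 := by rw [one_mul]; exact anm_sin_sub_le h
  have b2 : |h * (Real.sin (2 * a + h) - Real.sin (2 * a))| ≤ h ^ 2 := by
    rw [abs_mul]
    have := Real.abs_sin_sub_sin_le (2 * a + h) (2 * a)
    rw [add_sub_cancel_left] at this
    calc |h| * |Real.sin (2 * a + h) - Real.sin (2 * a)| ≤ |h| * |h| :=
          mul_le_mul_of_nonneg_left this (abs_nonneg _)
      _ = h ^ 2 := by rw [← sq, sq_abs]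
  calc _ ≤ |Real.sin (2 * a + h) * (Real.sin h - h)|
        + |h * (Real.sin (2 * a + h) - Real.sin (2 * a))| := abs_add_le _ _
    _ ≤ 3 * h ^ 2 := by linarith

/-- the implicit function argument by the intermediate value theorem. -/
theorem anm_real_lemma {C : ℝ → ℝ → ℝ} {c₀ K A B M : ℝ} (hC : ∀ s, Continuous (C s)) (hc₀ : c₀ ≠ 0)
    (hK : 0 < K) (hest : ∀ s t, |C s t - 1 - t * c₀| ≤ K * (s ^ 2 + t ^ 2))
    (hmin : ∀ s t, C s t = 1 → 0 ≤ 2 * s * A + 2 * t * B + M * (s ^ 2 + t ^ 2)) : A = 0 := by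
  by_contra hA
  have hc : 0 < |c₀| := abs_pos.2 hc₀
  set L : ℝ := 2 * K / |c₀| with hL
  have hLpos : 0 < L := by positivity
  have hstep : ∀ s : ℝ, s ≠ 0 → L * |s| < 1 → ∃ t, |t| ≤ L * s ^ 2 ∧ t ^ 2 ≤ s ^ 2 ∧ C s t = 1 := by
    intro s hs hsL
    set τ : ℝ := L * s ^ 2 with hτ
    have hs2 : 0 < s ^ 2 := by positivity
    have hτpos : 0 < τ := by positivity
    have hτ2 : τ ^ 2 < s ^ 2 := by
      have h0 : 0 ≤ L * |s| := by positivity
      have h1 : (L * |s|) ^ 2 < 1 := by nlinarith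
      calc τ ^ 2 = (L * |s|) ^ 2 * s ^ 2 := by
            rw [hτ, mul_pow, mul_pow, sq_abs]; ring
        _ < 1 * s ^ 2 := mul_lt_mul_of_pos_right h1 hs2
        _ = s ^ 2 := one_mul _
    have hbound : K * (s ^ 2 + τ ^ 2) < τ * |c₀| := by
      have : τ * |c₀| = 2 * K * s ^ 2 := by
        rw [hτ, hL]; field_simp
      rw [this]
      nlinarith
    have e1 := hest s τ
    have e2 := hest s (-τ)
    rw [neg_sq] at e2
    rw [abs_le] at e1 e2
    have hfin : ∀ t ∈ Set.Icc (-τ) τ, |t| ≤ τ ∧ t ^ 2 ≤ s ^ 2 := by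
      intro t ht
      have h1 : |t| ≤ τ := abs_le.2 ht
      refine ⟨h1, ?_⟩
      have : t ^ 2 ≤ τ ^ 2 := by
        rw [← sq_abs t]
        exact pow_le_pow_left₀ (abs_nonneg _) h1 2
      linarith
    rcases lt_or_gt_of_ne hc₀ with hneg | hpos
    · rw [abs_of_neg hneg] at hbound
      have hmem : (1 : ℝ) ∈ Set.Icc (C s τ) (C s (-τ)) := ⟨by nlinarith [e1.2], by nlinarith [e2.1]⟩
      obtain ⟨t, ht, hCt⟩ := intermediate_value_Icc' (by linarith : -τ ≤ τ) (hC s).continuousOn hmem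
      exact ⟨t, (hfin t ht).1, (hfin t ht).2, hCt⟩
    · rw [abs_of_pos hpos] at hbound
      have hmem : (1 : ℝ) ∈ Set.Icc (C s (-τ)) (C s τ) := ⟨by nlinarith [e2.2], by nlinarith [e1.1]⟩
      obtain ⟨t, ht, hCt⟩ := intermediate_value_Icc (by linarith : -τ ≤ τ) (hC s).continuousOn hmem
      exact ⟨t, (hfin t ht).1, (hfin t ht).2, hCt⟩
  have hApos : 0 < |A| := abs_pos.2 hA
  set M' : ℝ := 2 * L * |B| + 2 * |M| with hM'
  have hM'0 : 0 ≤ M' := by positivity
  set σ : ℝ := min (1 / (2 * L)) (|A| / (M' + 1)) with hσ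
  have hσpos : 0 < σ := lt_min (by positivity) (by positivity)
  have hσ1 : L * σ < 1 := by
    have : σ ≤ 1 / (2 * L) := min_le_left _ _
    calc L * σ ≤ L * (1 / (2 * L)) := mul_le_mul_of_nonneg_left this hLpos.le
      _ = 1 / 2 := by field_simp
      _ < 1 := by norm_num
  have hσ2 : M' * σ < 2 * |A| := by
    have h1 : σ ≤ |A| / (M' + 1) := min_le_right _ _
    have h2 : σ * (M' + 1) ≤ |A| := (le_div_iff₀ (by positivity)).1 h1
    nlinarith
  -- the sign
  obtain ⟨s, hsabs, hsA⟩ : ∃ s : ℝ, |s| = σ ∧ s * A = -(σ * |A|) := by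
    rcases lt_or_gt_of_ne hA with hneg | hpos
    · exact ⟨σ, abs_of_pos hσpos, by rw [abs_of_neg hneg]; ring⟩
    · exact ⟨-σ, by rw [abs_neg, abs_of_pos hσpos], by rw [abs_of_pos hpos]; ring⟩
  have hs0 : s ≠ 0 := by
    intro h
    rw [h, abs_zero] at hsabs
    exact hσpos.ne hsabs
  obtain ⟨t, ht1, ht2, hCt⟩ := hstep s hs0 (by rw [hsabs]; exact hσ1)
  have hm := hmin s t hCt
  have hs2 : s ^ 2 = σ ^ 2 := by rw [← sq_abs, hsabs]
  rw [hs2] at ht1 ht2 hm
  have b1 : t * B ≤ L * σ ^ 2 * |B| := by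
    calc t * B ≤ |t * B| := le_abs_self _
      _ = |t| * |B| := abs_mul _ _
      _ ≤ L * σ ^ 2 * |B| := mul_le_mul_of_nonneg_right ht1 (abs_nonneg _)
  have b2 : M * (σ ^ 2 + t ^ 2) ≤ |M| * (2 * σ ^ 2) := by
    calc M * (σ ^ 2 + t ^ 2) ≤ |M| * (σ ^ 2 + t ^ 2) :=
          mul_le_mul_of_nonneg_right (le_abs_self _) (by positivity)
      _ ≤ |M| * (2 * σ ^ 2) := mul_le_mul_of_nonneg_left (by linarith) (abs_nonneg _)
  have hfinal : 0 ≤ σ * (M' * σ - 2 * |A|) := by
    have : σ * (M' * σ - 2 * |A|) = 2 * (-(σ * |A|)) + 2 * (L * σ ^ 2 * |B|) + |M| * (2 * σ ^ 2) := by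
      rw [hM']; ring
    rw [this, ← hsA]
    nlinarith
  have : σ * (M' * σ - 2 * |A|) < 0 := mul_neg_of_pos_of_neg hσpos (by linarith)
  linarith

/-! ### AN-M2 : integral lemmas -/

theorem anm_int_sq (hn : DensityBasic n) {ψ : Space → ℝ} (h1 : Continuous ψ) (hc : HasCompactSupport ψ) :
    Integrable fun x => n x * ψ x ^ 2 := by
  refine (hn.continuous.mul (h1.pow 2)).integrable_of_hasCompactSupport ?_
  refine HasCompactSupport.mul_left ?_
  rw [pow_two ψ]
  exact hc.mul_left (f := ψ)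

theorem anm_int_normsq (hn : DensityBasic n) {V : Space → Space} (h1 : Continuous V) (hc : HasCompactSupport V) :
    Integrable fun x => n x * ‖V x‖ ^ 2 :=
  anm_int_sq hn h1.norm hc.norm

theorem anm_int_test (hn : DensityBasic n) {ψ : Space → ℝ} (h1 : ContDiff ℝ 1 ψ) (hc : HasCompactSupport ψ) :
    Integrable fun x => n x * (ψ x ^ 2 + ‖gradient ψ x‖ ^ 2) := by
  have := (anm_int_sq hn h1.continuous hc).add (anm_int_normsq hn
    (Claimed.Agent.R259.ws_gradient_continuous h1) (Claimed.Agent.R259.ws_gradient_hasCompactSupport hc))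
  refine this.congr (Eventually.of_forall fun x => ?_)
  simp only [Pi.add_apply]
  ring

theorem anm_gradient_lin {ψ φ : Space → ℝ} (hψ : Differentiable ℝ ψ) (hφ : Differentiable ℝ φ) (s t : ℝ)
    (x : Space) : gradient (fun y => s * ψ y + t * φ y) x = s • gradient ψ x + t • gradient φ x := by
  unfold gradient
  have : fderiv ℝ (fun y => s * ψ y + t * φ y) x = s • fderiv ℝ ψ x + t • fderiv ℝ φ x := by
    rw [fderiv_fun_add ((hψ x).const_mul s) ((hφ x).const_mul t), fderiv_const_mul (hψ x),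
      fderiv_const_mul (hφ x)]
  rw [this, map_add, map_smul, map_smul]

theorem anm_int_sinsq (hn : DensityBasic n) {ϑ : Space → ℝ} (hm : AEStronglyMeasurable ϑ volume) :
    Integrable fun x => n x * Real.sin (ϑ x) ^ 2 := by
  refine hn.integrable.mono' (hn.continuous.aestronglyMeasurable.mul
    ((Real.continuous_sin.comp_aestronglyMeasurable hm).pow 2)) (Eventually.of_forall fun x => ?_)
  rw [Real.norm_eq_abs, abs_mul, abs_of_pos (hn.pos x), abs_of_nonneg (sq_nonneg _)]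
  exact mul_le_of_le_one_right (hn.pos x).le (Real.sin_sq_le_one _)

theorem anm_constraint_expand (hn : DensityBasic n) {θ η : Space → ℝ} (hθm : AEStronglyMeasurable θ volume)
    (hη : Continuous η) (hc : HasCompactSupport η) :
    |(∫ x, n x * Real.sin (θ x + η x) ^ 2) - (∫ x, n x * Real.sin (θ x) ^ 2)
      - ∫ x, n x * Real.sin (2 * θ x) * η x| ≤ 3 * ∫ x, n x * η x ^ 2 := by
  have i1 : Integrable fun x => n x * Real.sin (θ x + η x) ^ 2 :=
    anm_int_sinsq hn (hθm.add hη.aestronglyMeasurable)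
  have i2 := anm_int_sinsq hn hθm
  have i3 := anm_integrable_mul_test (anm_w_integrable hn hθm) hη hc
  have i4 := anm_int_sq hn hη hc
  have i12 : Integrable fun x => n x * Real.sin (θ x + η x) ^ 2 - n x * Real.sin (θ x) ^ 2 := i1.sub i2
  rw [← integral_sub i1 i2, ← integral_sub i12 i3, ← integral_const_mul, ← Real.norm_eq_abs]
  refine norm_integral_le_of_norm_le (i4.const_mul 3) (Eventually.of_forall fun x => ?_)
  have e : (n x * Real.sin (θ x + η x) ^ 2 - n x * Real.sin (θ x) ^ 2) - n x * Real.sin (2 * θ x) * η x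
      = n x * (Real.sin (θ x + η x) ^ 2 - Real.sin (θ x) ^ 2 - Real.sin (2 * θ x) * η x) := by ring
  rw [e, Real.norm_eq_abs, abs_mul, abs_of_pos (hn.pos x)]
  calc n x * |Real.sin (θ x + η x) ^ 2 - Real.sin (θ x) ^ 2 - Real.sin (2 * θ x) * η x|
      ≤ n x * (3 * η x ^ 2) := mul_le_mul_of_nonneg_left (anm_taylor _ _) (hn.pos x).le
    _ = 3 * (n x * η x ^ 2) := by ring

theorem anm_int_cross (hn : DensityBasic n) {θ : Space → ℝ} {G : Space → Space} (h : IsAdmissibleAngle n θ G)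
    {V : Space → Space} (hV : Continuous V) (hVc : HasCompactSupport V) :
    Integrable fun x => n x * ⟪G x, V x⟫_ℝ := by
  have hGm : AEStronglyMeasurable G volume := h.1.2.1.aestronglyMeasurable
  refine ((anm_int_G hn h).add (anm_int_normsq hn hV hVc)).mono'
    (hn.continuous.aestronglyMeasurable.mul (hGm.inner hV.aestronglyMeasurable))
    (Eventually.of_forall fun x => ?_)
  rw [Real.norm_eq_abs, abs_mul, abs_of_pos (hn.pos x)]
  simp only [Pi.add_apply]
  rw [← mul_add]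
  refine mul_le_mul_of_nonneg_left ?_ (hn.pos x).le
  have := abs_real_inner_le_norm (G x) (V x)
  nlinarith [sq_nonneg (‖G x‖ - ‖V x‖), norm_nonneg (G x), norm_nonneg (V x)]

theorem anm_energy_expand (hn : DensityBasic n) {θ : Space → ℝ} {G : Space → Space}
    (h : IsAdmissibleAngle n θ G) {V : Space → Space} (hV : Continuous V) (hVc : HasCompactSupport V) :
    (∫ x, n x * ‖G x + V x‖ ^ 2)
      = (∫ x, n x * ‖G x‖ ^ 2) + 2 * (∫ x, n x * ⟪G x, V x⟫_ℝ) + ∫ x, n x * ‖V x‖ ^ 2 := by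
  have i1 := anm_int_G hn h
  have i2 := anm_int_cross hn h hV hVc
  have i3 := anm_int_normsq hn hV hVc
  have i12 : Integrable fun x => n x * ‖G x‖ ^ 2 + 2 * (n x * ⟪G x, V x⟫_ℝ) := i1.add (i2.const_mul 2)
  rw [← integral_const_mul, ← integral_add i1 (i2.const_mul 2), ← integral_add i12 i3]
  refine integral_congr_ae (Eventually.of_forall fun x => ?_)
  simp only
  rw [norm_add_sq_real]
  ring

theorem anm_int_lin_le {F : Type*} [NormedAddCommGroup F] [NormedSpace ℝ F] (hn : DensityBasic n)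
    {U V : Space → F} (hU : Integrable fun x => n x * ‖U x‖ ^ 2) (hV : Integrable fun x => n x * ‖V x‖ ^ 2)
    (s t : ℝ) :
    (∫ x, n x * ‖s • U x + t • V x‖ ^ 2)
      ≤ 2 * s ^ 2 * (∫ x, n x * ‖U x‖ ^ 2) + 2 * t ^ 2 * ∫ x, n x * ‖V x‖ ^ 2 := by
  rw [← integral_const_mul, ← integral_const_mul,
    ← integral_add (hU.const_mul _) (hV.const_mul _)]
  refine integral_mono_of_nonneg (Eventually.of_forall fun x => mul_nonneg (hn.pos x).le (sq_nonneg _))
    ((hU.const_mul _).add (hV.const_mul _)) (Eventually.of_forall fun x => ?_)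
  simp only
  have h1 : ‖s • U x + t • V x‖ ≤ |s| * ‖U x‖ + |t| * ‖V x‖ := by
    refine (norm_add_le _ _).trans ?_
    rw [norm_smul, norm_smul, Real.norm_eq_abs, Real.norm_eq_abs]
  have h2 : ‖s • U x + t • V x‖ ^ 2 ≤ (|s| * ‖U x‖ + |t| * ‖V x‖) ^ 2 :=
    pow_le_pow_left₀ (norm_nonneg _) h1 2
  have h3 : (|s| * ‖U x‖ + |t| * ‖V x‖) ^ 2 ≤ 2 * s ^ 2 * ‖U x‖ ^ 2 + 2 * t ^ 2 * ‖V x‖ ^ 2 := by
    have : (|s| * ‖U x‖ + |t| * ‖V x‖) ^ 2 + (|s| * ‖U x‖ - |t| * ‖V x‖) ^ 2
        = 2 * s ^ 2 * ‖U x‖ ^ 2 + 2 * t ^ 2 * ‖V x‖ ^ 2 := by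
      rw [← sq_abs s, ← sq_abs t]; ring
    nlinarith [sq_nonneg (|s| * ‖U x‖ - |t| * ‖V x‖)]
  calc n x * ‖s • U x + t • V x‖ ^ 2 ≤ n x * (2 * s ^ 2 * ‖U x‖ ^ 2 + 2 * t ^ 2 * ‖V x‖ ^ 2) :=
        mul_le_mul_of_nonneg_left (h2.trans h3) (hn.pos x).le
    _ = 2 * s ^ 2 * (n x * ‖U x‖ ^ 2) + 2 * t ^ 2 * (n x * ‖V x‖ ^ 2) := by ring

/-- perturbations of an admissible angle by odd test functions stay in the energy space. -/
theorem an_admissible_add (hn : DensityBasic n) {θ : Space → ℝ} {G : Space → Space} (h : IsAdmissibleAngle n θ G)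
    {ψ : Space → ℝ} (hψ : ContDiff ℝ ∞ ψ) (hψc : HasCompactSupport ψ) (hψo : ∀ x, ψ (reflZ x) = -ψ x)
    (hcon : (∫ x, n x * Real.sin (θ x + ψ x) ^ 2) = 1) :
    IsAdmissibleAngle n (fun x => θ x + ψ x) (fun x => G x + gradient ψ x) := by
  obtain ⟨hw, hi, ho, hs⟩ := h
  have hψ1 : ContDiff ℝ 1 ψ := hψ.of_le (by simp)
  have hwψ : IsWeakGrad ψ (gradient ψ) :=
    isWeakGrad_iff_weakGrad.2 (Claimed.Agent.R259.ws_weakGrad_of_contDiff hψ1)
  have hadd := hw.add hwψ
  refine ⟨hadd, ?_, ?_, hcon⟩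
  · have hψi := anm_int_test hn hψ1 hψc
    refine ((hi.add hψi).const_mul 2).mono' (hn.continuous.aestronglyMeasurable.mul
      ((hadd.1.aestronglyMeasurable.pow 2).add (hadd.2.1.aestronglyMeasurable.norm.pow 2)))
      (Eventually.of_forall fun x => ?_)
    rw [Real.norm_eq_abs, abs_of_nonneg (mul_nonneg (hn.pos x).le (by positivity))]
    simp only [Pi.add_apply]
    rw [← mul_add, ← mul_assoc, mul_comm 2 (n x), mul_assoc]
    refine mul_le_mul_of_nonneg_left ?_ (hn.pos x).le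
    have h1 : ‖G x + gradient ψ x‖ ^ 2 ≤ (‖G x‖ + ‖gradient ψ x‖) ^ 2 :=
      pow_le_pow_left₀ (norm_nonneg _) (norm_add_le _ _) 2
    nlinarith [sq_nonneg (θ x - ψ x), sq_nonneg (‖G x‖ - ‖gradient ψ x‖)]
  · filter_upwards [ho] with x hx
    rw [hx, hψo]
    ring

theorem an_variation (hn : DensityBasic n) {θ : Space → ℝ} {G : Space → Space} (h : IsWeakFoldedMin n θ G)
    {ψ φ₀ : Space → ℝ} (hψ : ContDiff ℝ ∞ ψ) (hψc : HasCompactSupport ψ) (hψo : ∀ x, ψ (reflZ x) = -ψ x)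
    (hφ : ContDiff ℝ ∞ φ₀) (hφc : HasCompactSupport φ₀) (hφo : ∀ x, φ₀ (reflZ x) = -φ₀ x)
    (hc₀ : (∫ x, n x * Real.sin (2 * θ x) * φ₀ x) ≠ 0) (hcψ : (∫ x, n x * Real.sin (2 * θ x) * ψ x) = 0) :
    (∫ x, n x * ⟪G x, gradient ψ x⟫_ℝ) = 0 := by
  obtain ⟨hadm, -, hmin⟩ := h
  have hθm : AEStronglyMeasurable θ volume := hadm.1.1.aestronglyMeasurable
  have hψ1 : ContDiff ℝ 1 ψ := hψ.of_le (by simp)
  have hφ1 : ContDiff ℝ 1 φ₀ := hφ.of_le (by simp)
  have hgψ : Continuous (gradient ψ) := Claimed.Agent.R259.ws_gradient_continuous hψ1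
  have hgφ : Continuous (gradient φ₀) := Claimed.Agent.R259.ws_gradient_continuous hφ1
  have hgψc : HasCompactSupport (gradient ψ) := Claimed.Agent.R259.ws_gradient_hasCompactSupport hψc
  have hgφc : HasCompactSupport (gradient φ₀) := Claimed.Agent.R259.ws_gradient_hasCompactSupport hφc
  have hηs : ∀ s t : ℝ, ContDiff ℝ ∞ (fun x => s * ψ x + t * φ₀ x) := fun s t =>
    (contDiff_const.mul hψ).add (contDiff_const.mul hφ)
  have hηc : ∀ s t : ℝ, HasCompactSupport (fun x => s * ψ x + t * φ₀ x) := fun s t =>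
    (hψc.mul_left (f := fun _ => s)).add (hφc.mul_left (f := fun _ => t))
  have hηo : ∀ (s t : ℝ) (x : Space), s * ψ (reflZ x) + t * φ₀ (reflZ x) = -(s * ψ x + t * φ₀ x) := by
    intro s t x
    rw [hψo, hφo]
    ring
  have hηg : ∀ (s t : ℝ), gradient (fun x => s * ψ x + t * φ₀ x)
      = fun x => s • gradient ψ x + t • gradient φ₀ x := fun s t => funext fun x =>
    anm_gradient_lin (hψ1.differentiable one_ne_zero) (hφ1.differentiable one_ne_zero) s t x
  have iP := anm_int_sq hn hψ.continuous hψc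
  have iQ := anm_int_sq hn hφ.continuous hφc
  have iP' := anm_int_normsq hn hgψ hgψc
  have iQ' := anm_int_normsq hn hgφ hgφc
  have hP0 : 0 ≤ ∫ x, n x * ψ x ^ 2 := integral_nonneg fun x => mul_nonneg (hn.pos x).le (sq_nonneg _)
  have hQ0 : 0 ≤ ∫ x, n x * φ₀ x ^ 2 := integral_nonneg fun x => mul_nonneg (hn.pos x).le (sq_nonneg _)
  have hP'0 : 0 ≤ ∫ x, n x * ‖gradient ψ x‖ ^ 2 :=
    integral_nonneg fun x => mul_nonneg (hn.pos x).le (sq_nonneg _)
  have hQ'0 : 0 ≤ ∫ x, n x * ‖gradient φ₀ x‖ ^ 2 :=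
    integral_nonneg fun x => mul_nonneg (hn.pos x).le (sq_nonneg _)
  have hwi := anm_w_integrable hn hθm
  refine anm_real_lemma (C := fun s t => ∫ x, n x * Real.sin (θ x + (s * ψ x + t * φ₀ x)) ^ 2)
    (c₀ := ∫ x, n x * Real.sin (2 * θ x) * φ₀ x)
    (K := 6 * ((∫ x, n x * ψ x ^ 2) + ∫ x, n x * φ₀ x ^ 2) + 1)
    (B := ∫ x, n x * ⟪G x, gradient φ₀ x⟫_ℝ)
    (M := 2 * ((∫ x, n x * ‖gradient ψ x‖ ^ 2) + ∫ x, n x * ‖gradient φ₀ x‖ ^ 2)) ?_ hc₀ (by positivity)
    ?_ ?_
  · intro s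
    refine continuous_of_dominated (bound := n) ?_ ?_ hn.integrable ?_
    · intro t
      exact (anm_int_sinsq hn (hθm.add (hηs s t).continuous.aestronglyMeasurable)).1
    · intro t
      refine Eventually.of_forall fun x => ?_
      rw [Real.norm_eq_abs, abs_mul, abs_of_pos (hn.pos x), abs_of_nonneg (sq_nonneg _)]
      exact mul_le_of_le_one_right (hn.pos x).le (Real.sin_sq_le_one _)
    · refine Eventually.of_forall fun x => ?_
      fun_prop
  · intro s t
    have h1 := anm_constraint_expand hn hθm (hηs s t).continuous (hηc s t)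
    rw [hadm.2.2.2] at h1
    have e1 : ∫ x, n x * Real.sin (2 * θ x) * (s * ψ x + t * φ₀ x)
        = t * ∫ x, n x * Real.sin (2 * θ x) * φ₀ x := by
      have j1 := anm_integrable_mul_test hwi hψ.continuous hψc
      have j2 := anm_integrable_mul_test hwi hφ.continuous hφc
      have : ∫ x, n x * Real.sin (2 * θ x) * (s * ψ x + t * φ₀ x)
          = s * (∫ x, n x * Real.sin (2 * θ x) * ψ x) + t * ∫ x, n x * Real.sin (2 * θ x) * φ₀ x := by
        rw [← integral_const_mul, ← integral_const_mul, ← integral_add (j1.const_mul s) (j2.const_mul t)]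
        refine integral_congr_ae (Eventually.of_forall fun x => ?_)
        simp only
        ring
      rw [this, hcψ, mul_zero, zero_add]
    rw [e1] at h1
    refine h1.trans ?_
    have h2 := anm_int_lin_le (F := ℝ) hn (U := ψ) (V := φ₀)
      (by simpa only [Real.norm_eq_abs, sq_abs] using iP) (by simpa only [Real.norm_eq_abs, sq_abs] using iQ) s t
    simp only [Real.norm_eq_abs, sq_abs, smul_eq_mul] at h2
    nlinarith [sq_nonneg s, sq_nonneg t, mul_nonneg hP0 (sq_nonneg t), mul_nonneg hQ0 (sq_nonneg s)]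
  · intro s t hC1
    have hA := an_admissible_add hn hadm (hηs s t) (hηc s t) (hηo s t) hC1
    have hle := hmin _ _ hA
    unfold angleEnergy at hle
    rw [hηg s t] at hle
    have hVc : Continuous fun x => s • gradient ψ x + t • gradient φ₀ x :=
      (hgψ.const_smul s).add (hgφ.const_smul t)
    have hVs : HasCompactSupport fun x => s • gradient ψ x + t • gradient φ₀ x :=
      (hgψc.smul_left (f := fun _ => s)).add (hgφc.smul_left (f := fun _ => t))
    rw [anm_energy_expand hn hadm hVc hVs] at hle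
    have e1 : ∫ x, n x * ⟪G x, s • gradient ψ x + t • gradient φ₀ x⟫_ℝ
        = s * (∫ x, n x * ⟪G x, gradient ψ x⟫_ℝ) + t * ∫ x, n x * ⟪G x, gradient φ₀ x⟫_ℝ := by
      have j1 := anm_int_cross hn hadm hgψ hgψc
      have j2 := anm_int_cross hn hadm hgφ hgφc
      rw [← integral_const_mul, ← integral_const_mul, ← integral_add (j1.const_mul s) (j2.const_mul t)]
      refine integral_congr_ae (Eventually.of_forall fun x => ?_)
      simp only
      rw [inner_add_right, inner_smul_right, inner_smul_right]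
      ring
    rw [e1] at hle
    have h2 := anm_int_lin_le hn iP' iQ' s t
    nlinarith [sq_nonneg s, sq_nonneg t, mul_nonneg hP'0 (sq_nonneg t), mul_nonneg hQ'0 (sq_nonneg s)]

/-! ### AN-M3 -/

theorem anm_cross_lin (hn : DensityBasic n) {θ : Space → ℝ} {G : Space → Space} (h : IsAdmissibleAngle n θ G)
    {ψ φ : Space → ℝ} (hψ : ContDiff ℝ 1 ψ) (hψc : HasCompactSupport ψ) (hφ : ContDiff ℝ 1 φ)
    (hφc : HasCompactSupport φ) (s t : ℝ) :
    ∫ x, n x * ⟪G x, gradient (fun y => s * ψ y + t * φ y) x⟫_ℝ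
      = s * (∫ x, n x * ⟪G x, gradient ψ x⟫_ℝ) + t * ∫ x, n x * ⟪G x, gradient φ x⟫_ℝ := by
  have j1 := anm_int_cross hn h (Claimed.Agent.R259.ws_gradient_continuous hψ)
    (Claimed.Agent.R259.ws_gradient_hasCompactSupport hψc)
  have j2 := anm_int_cross hn h (Claimed.Agent.R259.ws_gradient_continuous hφ)
    (Claimed.Agent.R259.ws_gradient_hasCompactSupport hφc)
  rw [← integral_const_mul, ← integral_const_mul, ← integral_add (j1.const_mul s) (j2.const_mul t)]
  refine integral_congr_ae (Eventually.of_forall fun x => ?_)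
  simp only
  rw [anm_gradient_lin (hψ.differentiable one_ne_zero) (hφ.differentiable one_ne_zero),
    inner_add_right, inner_smul_right, inner_smul_right]
  ring

theorem anm_w_lin (hn : DensityBasic n) {θ : Space → ℝ} (hθm : AEStronglyMeasurable θ volume)
    {ψ φ : Space → ℝ} (hψ : Continuous ψ) (hψc : HasCompactSupport ψ) (hφ : Continuous φ)
    (hφc : HasCompactSupport φ) (s t : ℝ) :
    ∫ x, n x * Real.sin (2 * θ x) * (s * ψ x + t * φ x)
      = s * (∫ x, n x * Real.sin (2 * θ x) * ψ x) + t * ∫ x, n x * Real.sin (2 * θ x) * φ x := by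
  have hwi := anm_w_integrable hn hθm
  have j1 := anm_integrable_mul_test hwi hψ hψc
  have j2 := anm_integrable_mul_test hwi hφ hφc
  rw [← integral_const_mul, ← integral_const_mul, ← integral_add (j1.const_mul s) (j2.const_mul t)]
  refine integral_congr_ae (Eventually.of_forall fun x => ?_)
  simp only
  ring

theorem an_even_test (hn : DensityBasic n) {θ : Space → ℝ} {G : Space → Space} (h : IsAdmissibleAngle n θ G)
    {φ : Space → ℝ} (hφ : ContDiff ℝ ∞ φ) (hφc : HasCompactSupport φ) (hφe : ∀ x, φ (reflZ x) = φ x) :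
    (∫ x, n x * ⟪G x, gradient φ x⟫_ℝ) = 0 ∧ (∫ x, n x * Real.sin (2 * θ x) * φ x) = 0 := by
  have hφ1 : ContDiff ℝ 1 φ := hφ.of_le (by simp)
  have hwφ : IsWeakGrad φ (gradient φ) :=
    isWeakGrad_iff_weakGrad.2 (Claimed.Agent.R259.ws_weakGrad_of_contDiff hφ1)
  constructor
  · refine tk_integral_odd ?_
    filter_upwards [h.1.grad_of_odd h.2.2.1, tk_grad_of_even hwφ (Eventually.of_forall hφe)] with x h1 h2
    have h3 : ⟪reflZ (G x), reflZ (gradient φ x)⟫_ℝ = ⟪G x, gradient φ x⟫_ℝ :=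
      reflZIsometry.inner_map_map _ _
    rw [hn.even, h1, h2, inner_neg_left, h3]
    ring
  · refine tk_integral_odd ?_
    filter_upwards [anm_w_odd hn h.2.2.1] with x hx
    rw [hx, hφe]
    ring

theorem an_weak_multiplier (hn : DensityBasic n) {θ : Space → ℝ} {G : Space → Space}
    (h : IsWeakFoldedMin n θ G) : ∃ d : ℝ, IsWeakMultiplier n θ G d := by
  obtain ⟨φ₀, h1, h2, h3, h4⟩ := an_exists_test hn h.1 h.2.1
  have hθm : AEStronglyMeasurable θ volume := h.1.1.1.aestronglyMeasurable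
  have h11 : ContDiff ℝ 1 φ₀ := h1.of_le (by simp)
  -- odd tests
  have hodd : ∀ φ : Space → ℝ, ContDiff ℝ ∞ φ → HasCompactSupport φ → (∀ x, φ (reflZ x) = -φ x) →
      (∫ x, n x * ⟪G x, gradient φ x⟫_ℝ)
        = (∫ x, n x * ⟪G x, gradient φ₀ x⟫_ℝ) / (∫ x, n x * Real.sin (2 * θ x) * φ₀ x)
          * ∫ x, n x * Real.sin (2 * θ x) * φ x := by
    intro φ hφ hφc hφo
    have hφ1 : ContDiff ℝ 1 φ := hφ.of_le (by simp)
    set t : ℝ := -((∫ x, n x * Real.sin (2 * θ x) * φ x) / ∫ x, n x * Real.sin (2 * θ x) * φ₀ x) with ht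
    have hv := an_variation hn h (ψ := fun x => 1 * φ x + t * φ₀ x)
      ((contDiff_const.mul hφ).add (contDiff_const.mul h1))
      ((hφc.mul_left (f := fun _ => (1 : ℝ))).add (h2.mul_left (f := fun _ => t)))
      (fun x => by rw [hφo, h3]; ring) h1 h2 h3 h4
      (by
        rw [anm_w_lin hn hθm hφ.continuous hφc h1.continuous h2, ht]
        field_simp
        ring)
    rw [anm_cross_lin hn h.1 hφ1 hφc h11 h2, ht] at hv
    field_simp
    field_simp at hv
    linarith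
  refine ⟨(∫ x, n x * ⟪G x, gradient φ₀ x⟫_ℝ) / (∫ x, n x * Real.sin (2 * θ x) * φ₀ x),
    fun φ hφ hφc => ?_⟩
  have hφR : ContDiff ℝ ∞ fun x => φ (reflZ x) := hφ.comp anm_contDiff_reflZ
  have hφRc := anm_hasCompactSupport_comp_reflZ hφc
  have he : ContDiff ℝ ∞ fun x => (1 / 2 : ℝ) * φ x + (1 / 2 : ℝ) * φ (reflZ x) :=
    (contDiff_const.mul hφ).add (contDiff_const.mul hφR)
  have ho : ContDiff ℝ ∞ fun x => (1 / 2 : ℝ) * φ x + (-(1 / 2) : ℝ) * φ (reflZ x) :=
    (contDiff_const.mul hφ).add (contDiff_const.mul hφR)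
  have hec : HasCompactSupport fun x => (1 / 2 : ℝ) * φ x + (1 / 2 : ℝ) * φ (reflZ x) :=
    (hφc.mul_left (f := fun _ => (1 / 2 : ℝ))).add (hφRc.mul_left (f := fun _ => (1 / 2 : ℝ)))
  have hoc : HasCompactSupport fun x => (1 / 2 : ℝ) * φ x + (-(1 / 2) : ℝ) * φ (reflZ x) :=
    (hφc.mul_left (f := fun _ => (1 / 2 : ℝ))).add (hφRc.mul_left (f := fun _ => (-(1 / 2) : ℝ)))
  obtain ⟨E1, E2⟩ := an_even_test hn h.1 he hec (fun x => by rw [reflZ_reflZ]; ring)
  have O1 := hodd _ ho hoc (fun x => by rw [reflZ_reflZ]; ring)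
  have hsplit : φ = fun x => 1 * ((1 / 2 : ℝ) * φ x + (1 / 2 : ℝ) * φ (reflZ x))
      + 1 * ((1 / 2 : ℝ) * φ x + (-(1 / 2) : ℝ) * φ (reflZ x)) := by
    funext x
    ring
  have A1 := anm_cross_lin hn h.1 (he.of_le (by simp)) hec (ho.of_le (by simp)) hoc 1 1
  have A2 := anm_w_lin hn hθm he.continuous hec ho.continuous hoc 1 1
  rw [← hsplit] at A1
  have A2' : ∫ x, n x * Real.sin (2 * θ x) * φ x
      = ∫ x, n x * Real.sin (2 * θ x) * (1 * ((1 / 2 : ℝ) * φ x + (1 / 2 : ℝ) * φ (reflZ x))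
      + 1 * ((1 / 2 : ℝ) * φ x + (-(1 / 2) : ℝ) * φ (reflZ x))) := by
    refine integral_congr_ae (Eventually.of_forall fun x => ?_)
    simp only
    ring
  rw [A1, A2', A2, E1, E2, O1]
  ring

theorem an_multiplier_pos (hn : DensityBasic n) {θ : Space → ℝ} {G : Space → Space}
    (h : IsAdmissibleAngle n θ G) (hf : IsFolded θ) {d : ℝ} (hd : IsWeakMultiplier n θ G d) : 0 < d := by
  have hH := h.h1 hn
  obtain ⟨φ, hφ, t1, t2⟩ := Claimed.Agent.R259.ws_dense hn.continuous hn.pos hH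
  have hθm : AEStronglyMeasurable θ volume := h.1.1.aestronglyMeasurable
  have hSm : AEStronglyMeasurable (fun x => Real.sin (2 * θ x)) volume :=
    Real.continuous_sin.comp_aestronglyMeasurable (hθm.const_mul 2)
  have hS : MemLp (fun x => Real.sin (2 * θ x)) 2 (Claimed.Agent.R259.dm n) := by
    refine (memLp_dm_iff hn.continuous hn.pos hSm).2 ?_
    have := anm_int_sinsq hn (hθm.const_mul 2)
    simpa only [Real.norm_eq_abs, sq_abs] using this
  have hφH : ∀ k, Claimed.Agent.R259.H1 (Claimed.Agent.R259.dm n) (φ k) (gradient (φ k)) := fun k =>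
    Claimed.Agent.R259.wsh_of_test hn.continuous (hφ k)
  have L1 : Tendsto (fun k => ∫ x, ⟪G x, gradient (φ k) x⟫_ℝ ∂(Claimed.Agent.R259.dm n)) atTop
      (𝓝 (∫ x, ⟪G x, G x⟫_ℝ ∂(Claimed.Agent.R259.dm n))) :=
    Claimed.Agent.R259.ws_tendsto_inner (fun _ => hH.2.2) hH.2.2 (fun k => (hφH k).2.2) hH.2.2
      (by simp) t2
  have L2 : Tendsto (fun k => ∫ x, Real.sin (2 * θ x) * φ k x ∂(Claimed.Agent.R259.dm n)) atTop
      (𝓝 (∫ x, Real.sin (2 * θ x) * θ x ∂(Claimed.Agent.R259.dm n))) :=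
    Claimed.Agent.R259.ws_tendsto_mul (fun _ => hS) hS (fun k => (hφH k).2.1) hH.2.1 (by simp) t1
  have hk : ∀ k, ∫ x, ⟪G x, gradient (φ k) x⟫_ℝ ∂(Claimed.Agent.R259.dm n)
      = d * ∫ x, Real.sin (2 * θ x) * φ k x ∂(Claimed.Agent.R259.dm n) := by
    intro k
    rw [integral_dm_eq hn.continuous hn.pos, integral_dm_eq hn.continuous hn.pos,
      hd (φ k) (hφ k).1 (hφ k).2]
    congr 1
    refine integral_congr_ae (Eventually.of_forall fun x => ?_)
    simp only
    ring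
  have hlim := tendsto_nhds_unique L1 ((L2.const_mul d).congr fun k => (hk k).symm)
  rw [integral_dm_eq hn.continuous hn.pos, integral_dm_eq hn.continuous hn.pos] at hlim
  have hE : 0 < ∫ x, n x * ⟪G x, G x⟫_ℝ := by
    have := an_energy_pos hn h
    unfold angleEnergy at this
    simpa only [real_inner_self_eq_norm_sq] using this
  have hJ : 0 ≤ ∫ x, n x * (Real.sin (2 * θ x) * θ x) := by
    refine integral_nonneg_of_ae ?_
    filter_upwards [anm_abs_le hf h.2.2.1] with x hx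
    rw [abs_le] at hx
    refine mul_nonneg (hn.pos x).le ?_
    rcases le_total 0 (θ x) with h0 | h0
    · exact mul_nonneg (Real.sin_nonneg_of_nonneg_of_le_pi (by linarith) (by linarith [hx.2])) h0
    · exact mul_nonneg_of_nonpos_of_nonpos
        (Real.sin_nonpos_of_nonpos_of_neg_pi_le (by linarith) (by linarith [hx.1])) h0
  by_contra hd0
  push Not at hd0
  have := mul_nonpos_of_nonpos_of_nonneg hd0 hJ
  linarith

theorem an_multiplier_unique (hn : DensityBasic n) {θ : Space → ℝ} {G : Space → Space}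
    (h : IsAdmissibleAngle n θ G) (hf : IsFolded θ) {d d' : ℝ} (hd : IsWeakMultiplier n θ G d)
    (hd' : IsWeakMultiplier n θ G d') : d = d' := by
  obtain ⟨φ₀, h1, h2, -, h4⟩ := an_exists_test hn h hf
  have e := (hd φ₀ h1 h2).symm.trans (hd' φ₀ h1 h2)
  exact mul_right_cancel₀ h4 e

/-- the Euler-Lagrange equation as a `DriftEq`. -/
theorem IsWeakMultiplier.driftEq (hn : DensityBasic n) {θ : Space → ℝ} {G : Space → Space}
    (h : IsAdmissibleAngle n θ G) {d : ℝ} (hd : IsWeakMultiplier n θ G d) :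
    DriftEq n θ (fun x => d * Real.sin (2 * θ x)) G := by
  have hθm : AEStronglyMeasurable θ volume := h.1.1.aestronglyMeasurable
  refine ⟨isWeakGrad_iff_weakGrad.1 h.1, anL2loc_of_memLp_dm hn.continuous hn.pos (h.h1 hn).2.2, ?_, ?_⟩
  · exact (Real.continuous_sin.comp_aestronglyMeasurable (hθm.const_mul 2)).const_mul d
  · intro φ hφ hc
    rw [hd φ hφ hc, ← integral_const_mul]
    refine integral_congr_ae (Eventually.of_forall fun x => ?_)
    simp only
    ring

end Claimed.Open.R278
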