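import Claimed.Open.R278.ANDefs

/-!
# Package AN, leaf AN-R4: the quantitative Young ladder (pure measure theory in `ℝ≥0∞`)

TEMPLATE: `Claimed/Agent/R259/RegLadder.lean` (`reg_lad_loc`, `reg_lad_ind`, `reg_lad_step`, `reg_lad_final`) + `RegYoung.lean` (`reg_young`, `reg_holder_conv`).

`U ≤ H₀ + P * (a U + F)` a.e. on a big ball, `P ∈ L^{5/4}` supported in `‖w‖ < 2`, `a ∈ L⁶`, `U ∈ L²`.  Exponents `1/p_k = t_k = 1/2 - k/30`, `k = 0..14`; radii `r_k = ρ + 32 - 2k`.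
STEP `k → k+1` (`k ≤ 13`): on `ball r_{k+1}` only `y ∈ ball r_k` matter.  Hölder: `‖a U‖_{q} ≤ ‖a‖_6 ‖U‖_{p_k}` with `1/q = t_k + 1/6`; Young with `1/p_{k+1} = 1/q + 4/5 - 1 = t_k - 1/30`.
`H₀` and `F` are constants on bounded balls.  LAST STEP (`t_14 = 1/30`): `1/q = 1/30 + 1/6 = 1/5 = 1 - 4/5`, so Hölder (`reg_holder_conv`) gives the sup bound on `ball (ρ+2)`.
All constants depend only on `ρ, A, B, H₀, F, ∫ P^{5/4}`.
-/

open MeasureTheory
open scoped ContDiff InnerProductSpace ENNReal Topology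

noncomputable section

namespace Claimed.Open.R278

theorem an4_ind {S : Set Space} (hS : MeasurableSet S) (Gn : Space → ℝ≥0∞) {p : ℝ} (hp : 0 < p) :
    ∫⁻ y, (S.indicator Gn y) ^ p = ∫⁻ y in S, Gn y ^ p := by
  rw [← lintegral_indicator hS]
  refine lintegral_congr fun y => ?_
  by_cases hy : y ∈ S
  · rw [Set.indicator_of_mem hy, Set.indicator_of_mem hy]
  · rw [Set.indicator_of_notMem hy, Set.indicator_of_notMem hy, ENNReal.zero_rpow_of_pos hp]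

theorem an4_loc {P : Space → ℝ≥0∞} (hPs : ∀ w, 2 ≤ ‖w‖ → P w = 0) (Gn : Space → ℝ≥0∞) (r : ℝ)
    {x : Space} (hx : x ∈ Metric.ball (0 : Space) r) :
    ∫⁻ y, P (x - y) * Gn y
      = ∫⁻ y, P (x - y) * (Metric.ball (0 : Space) (r + 2)).indicator Gn y := by
  refine lintegral_congr fun y => ?_
  by_cases hy : y ∈ Metric.ball (0 : Space) (r + 2)
  · rw [Set.indicator_of_mem hy]
  · rw [Set.indicator_of_notMem hy, mul_zero, hPs, zero_mul]
    rw [mem_ball_zero_iff] at hx hy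
    have := norm_sub_norm_le y x
    rw [norm_sub_rev] at this
    push Not at hy
    linarith

/-- the source term `a U + F` in `L^p`, `1/p = t + 1/6`. -/
theorem an4_G {S : Set Space} (hS : MeasurableSet S) (hSfin : volume S < ⊤) {t : ℝ} (ht0 : 0 < t)
    (ht2 : t ≤ 1 / 2) {A B F : ℝ≥0∞} (hA : A < ⊤) (hB : B < ⊤) (hF : F < ⊤) :
    ∃ D : ℝ≥0∞, D < ⊤ ∧ ∀ U a : Space → ℝ≥0∞, AEMeasurable U volume → AEMeasurable a volume →
      ∫⁻ x in S, a x ^ (6 : ℝ) ≤ A → ∫⁻ x in S, U x ^ (1 / t) ≤ B →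
      ∫⁻ y, (S.indicator (fun y => a y * U y + F) y) ^ (1 / (t + 1 / 6)) ≤ D := by
  set d : ℝ := t + 1 / 6 with hd
  have hd0 : 0 < d := by positivity
  have hd1 : d ≤ 1 := by rw [hd]; linarith
  set p : ℝ := 1 / d with hp
  have hp1 : 1 ≤ p := by rw [hp, le_div_iff₀ hd0]; linarith
  have hp0 : 0 < p := by linarith
  have hK : (2 : ℝ≥0∞) ^ (p - 1) < ⊤ := ENNReal.rpow_lt_top_of_nonneg (by linarith) (by norm_num)
  refine ⟨2 ^ (p - 1) * (A ^ (1 / (6 * d)) * B ^ (1 / (d / t)) + F ^ p * volume S), ?_, ?_⟩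
  · refine ENNReal.mul_lt_top hK (ENNReal.add_lt_top.2 ⟨ENNReal.mul_lt_top ?_ ?_,
      ENNReal.mul_lt_top ?_ hSfin⟩)
    · exact ENNReal.rpow_lt_top_of_nonneg (by positivity) hA.ne
    · exact ENNReal.rpow_lt_top_of_nonneg (by positivity) hB.ne
    · exact ENNReal.rpow_lt_top_of_nonneg hp0.le hF.ne
  intro U a hU ha hA' hB'
  have hc : (6 * d).HolderConjugate (d / t) := by
    rw [Real.holderConjugate_iff]
    refine ⟨by rw [hd]; linarith, ?_⟩
    rw [hd]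
    field_simp
    ring
  have hH : ∫⁻ y in S, (a y * U y) ^ p ≤ A ^ (1 / (6 * d)) * B ^ (1 / (d / t)) := by
    have h1 := ENNReal.lintegral_mul_le_Lp_mul_Lq (volume.restrict S) hc
      (f := fun y => a y ^ p) (g := fun y => U y ^ p) (ha.restrict.pow_const p)
      (hU.restrict.pow_const p)
    have e1 : ∀ y, (a y ^ p) ^ (6 * d) = a y ^ (6 : ℝ) := fun y => by
      rw [← ENNReal.rpow_mul]
      congr 1
      rw [hp]; field_simp
    have e2 : ∀ y, (U y ^ p) ^ (d / t) = U y ^ (1 / t) := fun y => by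
      rw [← ENNReal.rpow_mul]
      congr 1
      rw [hp]; field_simp
    simp only [e1, e2, Pi.mul_apply] at h1
    calc ∫⁻ y in S, (a y * U y) ^ p = ∫⁻ y in S, a y ^ p * U y ^ p :=
          lintegral_congr fun y => ENNReal.mul_rpow_of_nonneg _ _ hp0.le
      _ ≤ _ := h1
      _ ≤ _ := by
          gcongr
  rw [an4_ind hS _ hp0]
  calc ∫⁻ y in S, (a y * U y + F) ^ p
      ≤ ∫⁻ y in S, 2 ^ (p - 1) * ((a y * U y) ^ p + F ^ p) :=
        lintegral_mono fun y => ENNReal.rpow_add_le_mul_rpow_add_rpow _ _ hp1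
    _ = 2 ^ (p - 1) * ((∫⁻ y in S, (a y * U y) ^ p) + F ^ p * volume S) := by
        rw [lintegral_const_mul' _ _ hK.ne, lintegral_add_right _ measurable_const]
        simp
    _ ≤ _ := by gcongr

/-- one step of the ladder. -/
theorem an_ladder_step {P : Space → ℝ≥0∞} (hP : Measurable P) (hPr : ∫⁻ w, P w ^ (5 / 4 : ℝ) < ⊤)
    (hPs : ∀ w, 2 ≤ ‖w‖ → P w = 0) (r : ℝ) {t : ℝ} (ht : 1 / 30 < t) (ht2 : t ≤ 1 / 2)
    {A B H₀ F : ℝ≥0∞} (hA : A < ⊤) (hB : B < ⊤) (hH : H₀ < ⊤) (hF : F < ⊤) :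
    ∃ C : ℝ≥0∞, C < ⊤ ∧ ∀ U a : Space → ℝ≥0∞, AEMeasurable U volume → AEMeasurable a volume →
      (∀ᵐ x, x ∈ Metric.ball (0 : Space) r → U x ≤ H₀ + ∫⁻ y, P (x - y) * (a y * U y + F)) →
      ∫⁻ x in Metric.ball (0 : Space) (r + 2), a x ^ (6 : ℝ) ≤ A →
      ∫⁻ x in Metric.ball (0 : Space) (r + 2), U x ^ (1 / t) ≤ B →
      ∫⁻ x in Metric.ball (0 : Space) r, U x ^ (1 / (t - 1 / 30)) ≤ C := by
  have ht0 : 0 < t := by linarith
  obtain ⟨D, hD, hDle⟩ := an4_G (measurableSet_ball (x := (0 : Space)) (ε := r + 2))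
    measure_ball_lt_top ht0 ht2 hA hB hF
  have hd0 : 0 < t + 1 / 6 := by positivity
  have ht' : 0 < t - 1 / 30 := by linarith
  set q : ℝ := 1 / (t - 1 / 30) with hq
  set p : ℝ := 1 / (t + 1 / 6) with hp
  have hq1 : 1 ≤ q := by rw [hq, le_div_iff₀ ht']; linarith
  have hp1 : 1 ≤ p := by rw [hp, le_div_iff₀ hd0]; linarith
  have hq0 : 0 < q := by linarith
  have hp0 : 0 < p := by linarith
  have hpqr : 1 / p + 1 / (5 / 4 : ℝ) = 1 + 1 / q := by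
    rw [hp, hq, one_div_one_div, one_div_one_div]; ring
  have hK : (2 : ℝ≥0∞) ^ (q - 1) < ⊤ := ENNReal.rpow_lt_top_of_nonneg (by linarith) (by norm_num)
  refine ⟨2 ^ (q - 1) * (H₀ ^ q * volume (Metric.ball (0 : Space) r)
    + (∫⁻ w, P w ^ (5 / 4 : ℝ)) ^ (q / (5 / 4)) * D ^ (q / p)), ?_, ?_⟩
  · refine ENNReal.mul_lt_top hK (ENNReal.add_lt_top.2 ⟨ENNReal.mul_lt_top ?_ measure_ball_lt_top,
      ENNReal.mul_lt_top ?_ ?_⟩)
    · exact ENNReal.rpow_lt_top_of_nonneg hq0.le hH.ne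
    · exact ENNReal.rpow_lt_top_of_nonneg (by positivity) hPr.ne
    · exact ENNReal.rpow_lt_top_of_nonneg (by positivity) hD.ne
  intro U a hU ha hUle hA' hB'
  set G' : Space → ℝ≥0∞ :=
    (Metric.ball (0 : Space) (r + 2)).indicator (fun y => a y * U y + F) with hG'
  have hG'm : AEMeasurable G' volume :=
    ((ha.mul hU).add aemeasurable_const).indicator measurableSet_ball
  set Y : Space → ℝ≥0∞ := fun x => ∫⁻ y, P (x - y) * G' y with hY
  have hYq : ∫⁻ x, Y x ^ q ≤ (∫⁻ w, P w ^ (5 / 4 : ℝ)) ^ (q / (5 / 4)) * D ^ (q / p) := by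
    refine (Claimed.Agent.R259.reg_young hp1 hq1 (by norm_num) hpqr hP hG'm).trans ?_
    have := hDle U a hU ha hA' hB'
    gcongr
  have hae : ∀ᵐ x ∂(volume.restrict (Metric.ball (0 : Space) r)),
      U x ^ q ≤ 2 ^ (q - 1) * (H₀ ^ q + Y x ^ q) := by
    rw [ae_restrict_iff' measurableSet_ball]
    filter_upwards [hUle] with x hx hxB
    have h1 : U x ≤ H₀ + Y x := by
      refine (hx hxB).trans ?_
      rw [an4_loc hPs _ r hxB]
    exact (ENNReal.rpow_le_rpow h1 hq0.le).trans (ENNReal.rpow_add_le_mul_rpow_add_rpow _ _ hq1)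
  calc ∫⁻ x in Metric.ball (0 : Space) r, U x ^ q
      ≤ ∫⁻ x in Metric.ball (0 : Space) r, 2 ^ (q - 1) * (H₀ ^ q + Y x ^ q) :=
        lintegral_mono_ae hae
    _ = 2 ^ (q - 1) * (H₀ ^ q * volume (Metric.ball (0 : Space) r)
          + ∫⁻ x in Metric.ball (0 : Space) r, Y x ^ q) := by
        rw [lintegral_const_mul' _ _ hK.ne, lintegral_add_left measurable_const]; simp
    _ ≤ _ := by
        have := (setLIntegral_le_lintegral (Metric.ball (0 : Space) r) fun x => Y x ^ q).trans hYq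
        gcongr

/-- the last step. -/
theorem an_ladder_final {P : Space → ℝ≥0∞} (hP : Measurable P) (hPr : ∫⁻ w, P w ^ (5 / 4 : ℝ) < ⊤)
    (hPs : ∀ w, 2 ≤ ‖w‖ → P w = 0) (r : ℝ)
    {A B H₀ F : ℝ≥0∞} (hA : A < ⊤) (hB : B < ⊤) (hH : H₀ < ⊤) (hF : F < ⊤) :
    ∃ C : ℝ≥0∞, C < ⊤ ∧ ∀ U a : Space → ℝ≥0∞, AEMeasurable U volume → AEMeasurable a volume →
      (∀ᵐ x, x ∈ Metric.ball (0 : Space) r → U x ≤ H₀ + ∫⁻ y, P (x - y) * (a y * U y + F)) →
      ∫⁻ x in Metric.ball (0 : Space) (r + 2), a x ^ (6 : ℝ) ≤ A →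
      ∫⁻ x in Metric.ball (0 : Space) (r + 2), U x ^ (30 : ℝ) ≤ B →
      ∀ᵐ x, x ∈ Metric.ball (0 : Space) r → U x ≤ C := by
  obtain ⟨D, hD, hDle⟩ := an4_G (measurableSet_ball (x := (0 : Space)) (ε := r + 2))
    measure_ball_lt_top (t := 1 / 30) (by norm_num) (by norm_num) hA hB hF
  have e30 : (1 / (1 / 30 : ℝ)) = 30 := by norm_num
  have e5 : (1 / (1 / 30 + 1 / 6 : ℝ)) = 5 := by norm_num
  rw [e30, e5] at hDle
  refine ⟨H₀ + (∫⁻ w, P w ^ (5 / 4 : ℝ)) ^ (1 / (5 / 4 : ℝ)) * D ^ (1 / (5 : ℝ)), ?_, ?_⟩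
  · refine ENNReal.add_lt_top.2 ⟨hH, ENNReal.mul_lt_top
      (ENNReal.rpow_lt_top_of_nonneg (by positivity) hPr.ne)
      (ENNReal.rpow_lt_top_of_nonneg (by positivity) hD.ne)⟩
  intro U a hU ha hUle hA' hB'
  have hG'm : AEMeasurable
      ((Metric.ball (0 : Space) (r + 2)).indicator (fun y => a y * U y + F)) volume :=
    ((ha.mul hU).add aemeasurable_const).indicator measurableSet_ball
  filter_upwards [hUle] with x hx hxB
  refine (hx hxB).trans ?_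
  rw [an4_loc hPs _ r hxB]
  have h1 := Claimed.Agent.R259.reg_holder_conv (p := 5) (r := 5 / 4) (by norm_num) (by norm_num)
    (by norm_num) hP hG'm x
  have h2 := hDle U a hU ha hA' hB'
  refine add_le_add le_rfl (h1.trans ?_)
  gcongr

/-- **The ladder**: from `L²` to `L^∞`, losing `32` in the radius. -/
theorem an_ladder {P : Space → ℝ≥0∞} (hP : Measurable P) (hPr : ∫⁻ w, P w ^ (5 / 4 : ℝ) < ⊤)
    (hPs : ∀ w, 2 ≤ ‖w‖ → P w = 0) (ρ : ℝ)
    {A B H₀ F : ℝ≥0∞} (hA : A < ⊤) (hB : B < ⊤) (hH : H₀ < ⊤) (hF : F < ⊤) :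
    ∃ C : ℝ≥0∞, C < ⊤ ∧ ∀ U a : Space → ℝ≥0∞, AEMeasurable U volume → AEMeasurable a volume →
      (∀ᵐ x, x ∈ Metric.ball (0 : Space) (ρ + 32) → U x ≤ H₀ + ∫⁻ y, P (x - y) * (a y * U y + F)) →
      ∫⁻ x in Metric.ball (0 : Space) (ρ + 32), a x ^ (6 : ℝ) ≤ A →
      ∫⁻ x in Metric.ball (0 : Space) (ρ + 32), U x ^ (2 : ℝ) ≤ B →
      ∀ᵐ x, x ∈ Metric.ball (0 : Space) ρ → U x ≤ C := by
  have hind : ∀ k : ℕ, k ≤ 14 → ∃ Bk : ℝ≥0∞, Bk < ⊤ ∧ ∀ U a : Space → ℝ≥0∞,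
      AEMeasurable U volume → AEMeasurable a volume →
      (∀ᵐ x, x ∈ Metric.ball (0 : Space) (ρ + 32) →
        U x ≤ H₀ + ∫⁻ y, P (x - y) * (a y * U y + F)) →
      ∫⁻ x in Metric.ball (0 : Space) (ρ + 32), a x ^ (6 : ℝ) ≤ A →
      ∫⁻ x in Metric.ball (0 : Space) (ρ + 32), U x ^ (2 : ℝ) ≤ B →
      ∫⁻ x in Metric.ball (0 : Space) (ρ + 32 - 2 * k), U x ^ (1 / (1 / 2 - (k : ℝ) / 30)) ≤ Bk := by
    intro k
    induction k with
    | zero =>
      intro _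
      refine ⟨B, hB, fun U a _ _ _ _ h2 => ?_⟩
      have e : (1 / (1 / 2 - ((0 : ℕ) : ℝ) / 30)) = 2 := by norm_num
      rw [e]
      simpa using h2
    | succ k ih =>
      intro hk
      obtain ⟨Bk, hBk, hBkle⟩ := ih (by omega)
      have hk13 : (k : ℝ) ≤ 13 := by exact_mod_cast (by omega : k ≤ 13)
      have hk0 : (0 : ℝ) ≤ k := Nat.cast_nonneg k
      obtain ⟨C, hC, hCle⟩ := an_ladder_step hP hPr hPs (ρ + 32 - 2 * ((k + 1 : ℕ) : ℝ))
        (t := 1 / 2 - (k : ℝ) / 30) (by linarith) (by linarith) hA hBk hH hF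
      refine ⟨C, hC, fun U a hU ha h1 hA' h2 => ?_⟩
      have er : ρ + 32 - 2 * ((k + 1 : ℕ) : ℝ) + 2 = ρ + 32 - 2 * k := by push_cast; ring
      have et : 1 / 2 - (k : ℝ) / 30 - 1 / 30 = 1 / 2 - ((k + 1 : ℕ) : ℝ) / 30 := by
        push_cast; ring
      rw [er, et] at hCle
      refine hCle U a hU ha ?_ ?_ (hBkle U a hU ha h1 hA' h2)
      · filter_upwards [h1] with x hx hxB
        refine hx (Metric.ball_subset_ball ?_ hxB)
        have : (0 : ℝ) ≤ ((k + 1 : ℕ) : ℝ) := Nat.cast_nonneg _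
        linarith
      · refine (lintegral_mono_set (Metric.ball_subset_ball ?_)).trans hA'
        linarith
  obtain ⟨B14, hB14, hB14le⟩ := hind 14 le_rfl
  obtain ⟨C, hC, hCle⟩ := an_ladder_final hP hPr hPs (ρ + 2) hA hB14 hH hF
  refine ⟨C, hC, fun U a hU ha h1 hA' h2 => ?_⟩
  have h14 := hB14le U a hU ha h1 hA' h2
  have er : ρ + 32 - 2 * ((14 : ℕ) : ℝ) = ρ + 2 + 2 := by push_cast; ring
  have et : (1 / (1 / 2 - ((14 : ℕ) : ℝ) / 30)) = 30 := by push_cast; norm_num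
  rw [er, et] at h14
  have h3 := hCle U a hU ha ?_ ?_ h14
  · filter_upwards [h3] with x hx hxB
    exact hx (Metric.ball_subset_ball (by linarith) hxB)
  · filter_upwards [h1] with x hx hxB
    exact hx (Metric.ball_subset_ball (by linarith) hxB)
  · exact (lintegral_mono_set (Metric.ball_subset_ball (by linarith))).trans hA'

end Claimed.Open.R278
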