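import Claimed.Open.R278.ANRegB

/-!
# Package AN, leaf AN-R5: `T₁ : L⁶_loc → C^{0,1/2}_loc`, and `T G ∈ C¹` with `D (T G) = T₁ G` for `G ∈ L⁶_loc`

Write `κ = Dψ` (smooth, supported in `‖z‖² < 2`), `κ_s = regScale κ s`.  For `x ∈ ball 0 R`, `0 < s ≤ 1`, `N = ‖G‖_{L⁶(ball (R+2))}`:
* `‖regAvg κ G s x‖ = ‖∫ G(x - s z) κ(z) dz‖ ≤ (∫_{‖z‖<2} |G(x - s z)|⁶ dz)^{1/6} ‖κ‖_{6/5} ≤ s^{-1/2} N ‖κ‖_{6/5}`    (change of variables `y = x - s z`);
* `‖regAvg κ G s x - regAvg κ G s y‖ ≤ ‖x - y‖ s^{-3/2} N ‖Dκ‖_{6/5}`-type bound (`regAvg κ G s` is `C¹` with derivative `s⁻¹ regAvg (Dκ) G s`; mean value inequality on the segment, which stays in the ball).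
Integrate in `s`: `∫_0^1 s^{-1/2} ds = 2` gives the sup bound; with `h = ‖x - y‖ ≤ 1`: `∫_0^h 2 s^{-1/2} ds + h ∫_h^1 s^{-3/2} ds ≤ 4 h^{1/2} + 2 h^{1/2}`; for `h ≥ 1` use the sup bound.
`an_T_C1`: copy the proof of `reg_T_C1` (`R259/RegPotA.lean`), replacing the uniform bound `regpa_bound` by the integrable majorant `C s^{-1/2}` (`hasFDerivAt_integral_of_dominated_of_fderiv_le`), continuity of `T₁ G` from the Hölder bound.
-/

open MeasureTheory
open Claimed.Agent.R259 (regT regT1 regAvg regRho regPsi regScale)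
open scoped ContDiff InnerProductSpace ENNReal Topology

noncomputable section

namespace Claimed.Open.R278

section kit

variable {V : Type} [NormedAddCommGroup V] [NormedSpace ℝ V]

/-- the `L^{6/5}` norm of a kernel, as an extended nonnegative real. -/
def an5K (k : Space → V) : ℝ≥0∞ := (∫⁻ z, ‖k z‖ₑ ^ (6 / 5 : ℝ)) ^ (5 / 6 : ℝ)

theorem an5_holder {G : Space → ℝ} {k : Space → V} (hG : AEStronglyMeasurable G volume)
    (hk : AEStronglyMeasurable k volume) :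
    ‖∫ t, G t • k t‖ₑ ≤ eLpNorm G 6 volume * an5K k := by
  have hc : (6 : ℝ).HolderConjugate (6 / 5) := by
    rw [Real.holderConjugate_iff]
    constructor <;> norm_num
  calc ‖∫ t, G t • k t‖ₑ ≤ ∫⁻ t, ‖G t • k t‖ₑ := enorm_integral_le_lintegral_enorm _
    _ = ∫⁻ t, ((fun t => ‖G t‖ₑ) * (fun t => ‖k t‖ₑ)) t := by
        refine lintegral_congr fun t => ?_
        simp [enorm_smul]
    _ ≤ (∫⁻ t, ‖G t‖ₑ ^ (6 : ℝ)) ^ (1 / 6 : ℝ) * (∫⁻ t, ‖k t‖ₑ ^ (6 / 5 : ℝ)) ^ (1 / (6 / 5) : ℝ) :=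
        ENNReal.lintegral_mul_le_Lp_mul_Lq volume hc hG.enorm hk.enorm
    _ = eLpNorm G 6 volume * an5K k := by
        rw [eLpNorm_eq_lintegral_rpow_enorm_toReal (by norm_num) (by norm_num), an5K]
        norm_num

theorem an5_scal {s : ℝ} (hs : 0 < s) :
    (((s ^ 3)⁻¹) ^ (6 / 5 : ℝ) * s ^ 3) ^ (5 / 6 : ℝ) = s ^ (-(1 / 2) : ℝ) := by
  have h3 : s ^ 3 = s ^ (3 : ℝ) := by
    rw [← Real.rpow_natCast]; norm_num
  rw [h3, ← Real.rpow_neg hs.le, ← Real.rpow_mul hs.le, ← Real.rpow_add hs, ← Real.rpow_mul hs.le]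
  norm_num

theorem an5_K_scale {κ : Space → V} (hκ : Continuous κ) {s : ℝ} (hs : 0 < s) (x : Space) :
    an5K (fun t => regScale κ s (x - t)) = ENNReal.ofReal (s ^ (-(1 / 2) : ℝ)) * an5K κ := by
  have hm : Measurable fun z : Space => ‖κ z‖ₑ ^ (6 / 5 : ℝ) :=
    ((continuous_enorm.comp hκ).measurable).pow_const _
  have hfr : Module.finrank ℝ Space = 3 := by simp
  have hpos : (0 : ℝ) < (s ^ 3)⁻¹ := by positivity
  have h1 : ∫⁻ t, ‖regScale κ s (x - t)‖ₑ ^ (6 / 5 : ℝ)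
      = ENNReal.ofReal (((s ^ 3)⁻¹) ^ (6 / 5 : ℝ) * s ^ 3) * ∫⁻ z, ‖κ z‖ₑ ^ (6 / 5 : ℝ) := by
    rw [lintegral_sub_left_eq_self (fun w => ‖regScale κ s w‖ₑ ^ (6 / 5 : ℝ)) x]
    have h2 : ∀ w : Space, ‖regScale κ s w‖ₑ ^ (6 / 5 : ℝ)
        = ENNReal.ofReal (((s ^ 3)⁻¹) ^ (6 / 5 : ℝ)) * ‖κ (s⁻¹ • w)‖ₑ ^ (6 / 5 : ℝ) := by
      intro w
      unfold regScale
      rw [hfr, enorm_smul, ENNReal.mul_rpow_of_nonneg _ _ (by norm_num), Real.enorm_eq_ofReal hpos.le,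
        ENNReal.ofReal_rpow_of_pos hpos]
    simp_rw [h2]
    have hm' : Measurable fun w : Space => ‖κ (s⁻¹ • w)‖ₑ ^ (6 / 5 : ℝ) :=
      hm.comp (measurable_const_smul s⁻¹)
    rw [lintegral_const_mul _ hm',
      Claimed.Agent.R259.reglk_lintegral_comp_inv_smul hm hs, hfr, ← mul_assoc,
      ← ENNReal.ofReal_mul (by positivity)]
  unfold an5K
  rw [h1, ENNReal.mul_rpow_of_nonneg _ _ (by norm_num), ENNReal.ofReal_rpow_of_pos (by positivity),
    an5_scal hs]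

theorem an5_compact {κ : Space → V} (hc : ∀ z, 2 ≤ ‖z‖ ^ 2 → κ z = 0) : HasCompactSupport κ := by
  refine HasCompactSupport.intro (isCompact_closedBall (0 : Space) 2) fun z hz => hc z ?_
  rw [Metric.mem_closedBall, dist_zero_right, not_le] at hz
  nlinarith

theorem an5_K_lt_top {κ : Space → V} (hκ : Continuous κ) (hc : ∀ z, 2 ≤ ‖z‖ ^ 2 → κ z = 0) :
    an5K κ < ⊤ := by
  have h1 : ∀ z : Space, ‖κ z‖ₑ ^ (6 / 5 : ℝ) = ENNReal.ofReal (‖κ z‖ ^ (6 / 5 : ℝ)) := fun z => by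
    rw [← ofReal_norm, ENNReal.ofReal_rpow_of_nonneg (norm_nonneg _) (by norm_num)]
  have hcont : Continuous fun z : Space => ‖κ z‖ ^ (6 / 5 : ℝ) :=
    hκ.norm.rpow_const fun _ => Or.inr (by norm_num)
  have hs : HasCompactSupport fun z : Space => ‖κ z‖ ^ (6 / 5 : ℝ) :=
    an5_compact (V := ℝ) fun z hz => by
      simp only [hc z hz, norm_zero]; exact Real.zero_rpow (by norm_num)
  unfold an5K
  simp_rw [h1]
  exact ENNReal.rpow_lt_top_of_nonneg (by norm_num)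
    (hcont.integrable_of_hasCompactSupport hs).lintegral_lt_top.ne

/-- the constant `(2 |B(0,2)|)^{5/6}`. -/
def an5c : ℝ≥0∞ := (2 * volume (Metric.ball (0 : Space) 2)) ^ (5 / 6 : ℝ)

theorem an5c_lt_top : an5c < ⊤ := by
  unfold an5c
  exact ENNReal.rpow_lt_top_of_nonneg (by norm_num)
    (ENNReal.mul_ne_top (by norm_num) measure_ball_lt_top.ne)

theorem an5_K_diff {κ : Space → V} {L : NNReal} (hL : LipschitzWith L κ)
    (hc : ∀ z, 2 ≤ ‖z‖ ^ 2 → κ z = 0) (h : Space) :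
    an5K (fun z => κ z - κ (z + h)) ≤ ENNReal.ofReal (L * ‖h‖) * an5c := by
  set S : Set Space := Metric.ball 0 2 ∪ Metric.ball (-h) 2 with hS
  have hSm : MeasurableSet S := measurableSet_ball.union measurableSet_ball
  have hz0 : ∀ z : Space, z ∉ Metric.ball (0 : Space) 2 → κ z = 0 := by
    intro z hz
    rw [Metric.mem_ball, dist_zero_right, not_lt] at hz
    exact hc z (by nlinarith)
  have hpt : ∀ z : Space, ‖κ z - κ (z + h)‖ₑ ^ (6 / 5 : ℝ)
      ≤ S.indicator (fun _ => ENNReal.ofReal (L * ‖h‖) ^ (6 / 5 : ℝ)) z := by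
    intro z
    by_cases hz : z ∈ S
    · rw [Set.indicator_of_mem hz]
      refine ENNReal.rpow_le_rpow ?_ (by norm_num)
      rw [← ofReal_norm]
      refine ENNReal.ofReal_le_ofReal ?_
      have := hL.dist_le_mul z (z + h)
      rw [dist_eq_norm, dist_eq_norm] at this
      simpa using this
    · rw [Set.indicator_of_notMem hz]
      have h1 : z ∉ Metric.ball (0 : Space) 2 := fun h' => hz (Or.inl h')
      have h2 : z + h ∉ Metric.ball (0 : Space) 2 := by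
        intro h'
        refine hz (Or.inr ?_)
        rw [Metric.mem_ball, dist_zero_right] at h'
        rw [Metric.mem_ball, dist_eq_norm]
        simpa using h'
      rw [hz0 z h1, hz0 _ h2]
      simp
  have hvol : volume S ≤ 2 * volume (Metric.ball (0 : Space) 2) := by
    calc volume S ≤ volume (Metric.ball (0 : Space) 2) + volume (Metric.ball (-h) 2) :=
          measure_union_le _ _
      _ = 2 * volume (Metric.ball (0 : Space) 2) := by
          rw [Measure.addHaar_ball_center volume (-h) 2, two_mul]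
  unfold an5K an5c
  calc (∫⁻ z, ‖κ z - κ (z + h)‖ₑ ^ (6 / 5 : ℝ)) ^ (5 / 6 : ℝ)
      ≤ (ENNReal.ofReal (L * ‖h‖) ^ (6 / 5 : ℝ) * (2 * volume (Metric.ball (0 : Space) 2)))
          ^ (5 / 6 : ℝ) := by
        refine ENNReal.rpow_le_rpow ?_ (by norm_num)
        calc ∫⁻ z, ‖κ z - κ (z + h)‖ₑ ^ (6 / 5 : ℝ)
            ≤ ∫⁻ z, S.indicator (fun _ => ENNReal.ofReal (L * ‖h‖) ^ (6 / 5 : ℝ)) z :=
              lintegral_mono hpt
          _ = ENNReal.ofReal (L * ‖h‖) ^ (6 / 5 : ℝ) * volume S := by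
              rw [lintegral_indicator hSm, setLIntegral_const]
          _ ≤ _ := by gcongr
    _ = ENNReal.ofReal (L * ‖h‖) * (2 * volume (Metric.ball (0 : Space) 2)) ^ (5 / 6 : ℝ) := by
        rw [ENNReal.mul_rpow_of_nonneg _ _ (by norm_num), ← ENNReal.rpow_mul]
        norm_num

theorem an5_avg_eq (κ : Space → V) (G : Space → ℝ) {s : ℝ} (hs : 0 < s) (x : Space) :
    regAvg κ G s x = ∫ t, G t • regScale κ s (x - t) := by
  rw [Claimed.Agent.R259.regAvg_eq_conv κ G hs x, convolution_def]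
  rfl

theorem an5_scale_continuous {κ : Space → V} (hκ : Continuous κ) (s : ℝ) :
    Continuous (regScale κ s) := by
  unfold regScale
  exact continuous_const.smul (hκ.comp (continuous_const_smul s⁻¹))

/-- sup bound at scale `s`, global `L⁶` version. -/
theorem an5_avg_enorm_le {κ : Space → V} (hκ : Continuous κ) {G : Space → ℝ}
    (hG : AEStronglyMeasurable G volume) {s : ℝ} (hs : 0 < s) (x : Space) :
    ‖regAvg κ G s x‖ₑ ≤ eLpNorm G 6 volume * (ENNReal.ofReal (s ^ (-(1 / 2) : ℝ)) * an5K κ) := by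
  rw [an5_avg_eq κ G hs x, ← an5_K_scale hκ hs x]
  have hcont : Continuous fun t : Space => regScale κ s (x - t) :=
    (an5_scale_continuous hκ s).comp (continuous_const.sub continuous_id)
  exact an5_holder hG hcont.aestronglyMeasurable

theorem an5_avg_integrable {κ : Space → V} (hκ : Continuous κ) (hc : ∀ z, 2 ≤ ‖z‖ ^ 2 → κ z = 0)
    {G : Space → ℝ} (hG : LocallyIntegrable G volume) {s : ℝ} (hs : 0 < s) (x : Space) :
    Integrable (fun t => G t • regScale κ s (x - t)) volume :=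
  (Claimed.Agent.R259.regpa_scale_compact hc hs).convolutionExists_right
    (ContinuousLinearMap.lsmul ℝ ℝ) hG (an5_scale_continuous hκ s) x

theorem an5_avg_sub {κ : Space → V} (hκ : Continuous κ) (hc : ∀ z, 2 ≤ ‖z‖ ^ 2 → κ z = 0)
    {G : Space → ℝ} (hG : LocallyIntegrable G volume) {s : ℝ} (hs : 0 < s) (x y : Space) :
    regAvg κ G s x - regAvg κ G s y
      = ∫ t, G t • regScale (fun z => κ z - κ (z + s⁻¹ • (y - x))) s (x - t) := by
  rw [an5_avg_eq κ G hs x, an5_avg_eq κ G hs y,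
    ← integral_sub (an5_avg_integrable hκ hc hG hs x) (an5_avg_integrable hκ hc hG hs y)]
  refine integral_congr_ae (Filter.Eventually.of_forall fun t => ?_)
  simp only [regScale]
  rw [← smul_sub, ← smul_sub, ← smul_add]
  congr 4
  abel_nf

/-- difference bound at scale `s`, global `L⁶` version. -/
theorem an5_avg_sub_enorm_le {κ : Space → V} {L : NNReal} (hL : LipschitzWith L κ)
    (hc : ∀ z, 2 ≤ ‖z‖ ^ 2 → κ z = 0) {G : Space → ℝ} (hG : LocallyIntegrable G volume) {s : ℝ}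
    (hs : 0 < s) (x y : Space) :
    ‖regAvg κ G s x - regAvg κ G s y‖ₑ ≤ eLpNorm G 6 volume *
      (ENNReal.ofReal (s ^ (-(1 / 2) : ℝ)) * (ENNReal.ofReal (L * (s⁻¹ * ‖x - y‖)) * an5c)) := by
  have hκ := hL.continuous
  have hκ' : Continuous fun z => κ z - κ (z + s⁻¹ • (y - x)) :=
    hκ.sub (hκ.comp (continuous_id.add continuous_const))
  rw [an5_avg_sub hκ hc hG hs x y]
  have hcont : Continuous fun t : Space =>
      regScale (fun z => κ z - κ (z + s⁻¹ • (y - x))) s (x - t) :=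
    (an5_scale_continuous hκ' s).comp (continuous_const.sub continuous_id)
  refine (an5_holder hG.aestronglyMeasurable hcont.aestronglyMeasurable).trans ?_
  rw [an5_K_scale hκ' hs x]
  have h1 := an5_K_diff hL hc (s⁻¹ • (y - x))
  rw [norm_smul, Real.norm_of_nonneg (inv_pos.2 hs).le, norm_sub_rev y x] at h1
  gcongr

end kit

section real

variable {V : Type} [NormedAddCommGroup V] [NormedSpace ℝ V]

theorem an5_norm_le_of_enorm_le {a : V} {r : ℝ} (hr : 0 ≤ r) (h : ‖a‖ₑ ≤ ENNReal.ofReal r) :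
    ‖a‖ ≤ r := by
  rw [← ofReal_norm] at h
  exact (ENNReal.ofReal_le_ofReal_iff hr).1 h

theorem an5_avg_norm_le {κ : Space → V} (hκ : Continuous κ) (hc : ∀ z, 2 ≤ ‖z‖ ^ 2 → κ z = 0)
    {G : Space → ℝ} (hG : AEStronglyMeasurable G volume) {N : ℝ} (hN : 0 ≤ N)
    (hGN : eLpNorm G 6 volume ≤ ENNReal.ofReal N) {s : ℝ} (hs : 0 < s) (x : Space) :
    ‖regAvg κ G s x‖ ≤ N * (an5K κ).toReal * s ^ (-(1 / 2) : ℝ) := by
  have hs' : 0 ≤ s ^ (-(1 / 2) : ℝ) := Real.rpow_nonneg hs.le _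
  refine an5_norm_le_of_enorm_le (by positivity) ?_
  refine (an5_avg_enorm_le hκ hG hs x).trans ?_
  rw [mul_assoc, ENNReal.ofReal_mul hN, mul_comm (an5K κ).toReal, ENNReal.ofReal_mul hs',
    ENNReal.ofReal_toReal (an5_K_lt_top hκ hc).ne]
  gcongr

theorem an5_avg_sub_norm_le {κ : Space → V} {L : NNReal} (hL : LipschitzWith L κ)
    (hc : ∀ z, 2 ≤ ‖z‖ ^ 2 → κ z = 0) {G : Space → ℝ} (hG : LocallyIntegrable G volume) {N : ℝ}
    (hN : 0 ≤ N) (hGN : eLpNorm G 6 volume ≤ ENNReal.ofReal N) {s : ℝ} (hs : 0 < s)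
    (x y : Space) :
    ‖regAvg κ G s x - regAvg κ G s y‖
      ≤ N * (L * an5c.toReal) * ‖x - y‖ * s ^ (-(3 / 2) : ℝ) := by
  have hs' : 0 ≤ s ^ (-(1 / 2) : ℝ) := Real.rpow_nonneg hs.le _
  have hs3 : s ^ (-(3 / 2) : ℝ) = s ^ (-(1 / 2) : ℝ) * s⁻¹ := by
    rw [← Real.rpow_neg_one s, ← Real.rpow_add hs]
    norm_num
  have hL0 : (0 : ℝ) ≤ L * (s⁻¹ * ‖x - y‖) := by positivity
  have e : N * (L * an5c.toReal) * ‖x - y‖ * s ^ (-(3 / 2) : ℝ)
      = N * (s ^ (-(1 / 2) : ℝ) * (L * (s⁻¹ * ‖x - y‖) * an5c.toReal)) := by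
    rw [hs3]; ring
  rw [e]
  refine an5_norm_le_of_enorm_le (by positivity) ?_
  refine (an5_avg_sub_enorm_le hL hc hG hs x y).trans ?_
  rw [ENNReal.ofReal_mul hN, ENNReal.ofReal_mul hs', ENNReal.ofReal_mul hL0,
    ENNReal.ofReal_toReal an5c_lt_top.ne]
  gcongr

theorem an5_integrableOn_rpow : IntegrableOn (fun s : ℝ => s ^ (-(1 / 2) : ℝ)) (Set.Ioc 0 1) := by
  rw [← intervalIntegrable_iff_integrableOn_Ioc_of_le zero_le_one]
  exact intervalIntegral.intervalIntegrable_rpow' (by norm_num)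

theorem an5_integral_rpow {h : ℝ} : ∫ s in (0 : ℝ)..h, s ^ (-(1 / 2) : ℝ) = 2 * h ^ (1 / 2 : ℝ) := by
  rw [integral_rpow (Or.inl (by norm_num))]
  have : (-(1 / 2) + 1 : ℝ) = 1 / 2 := by norm_num
  rw [this, Real.zero_rpow (by norm_num)]
  ring

theorem an5_sup {F : ℝ → V} {A : ℝ}
    (h1 : ∀ s ∈ Set.Ioc (0 : ℝ) 1, ‖F s‖ ≤ A * s ^ (-(1 / 2) : ℝ)) :
    ‖∫ s in Set.Ioc (0 : ℝ) 1, F s‖ ≤ 2 * A := by
  have h2 : ‖∫ s in Set.Ioc (0 : ℝ) 1, F s‖ ≤ ∫ s in Set.Ioc (0 : ℝ) 1, A * s ^ (-(1 / 2) : ℝ) :=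
    norm_integral_le_of_norm_le (an5_integrableOn_rpow.const_mul A)
      (ae_restrict_of_forall_mem measurableSet_Ioc h1)
  have h3 : ∫ s in Set.Ioc (0 : ℝ) 1, s ^ (-(1 / 2) : ℝ) = 2 := by
    rw [← intervalIntegral.integral_of_le zero_le_one, an5_integral_rpow]
    simp
  rw [integral_const_mul, h3] at h2
  linarith

theorem an5_split {F : ℝ → V} {A B h : ℝ} (hB : 0 ≤ B) (hh : 0 < h) (hh1 : h ≤ 1)
    (hm : AEStronglyMeasurable F (volume.restrict (Set.Ioc (0 : ℝ) 1)))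
    (h1 : ∀ s ∈ Set.Ioc (0 : ℝ) 1, ‖F s‖ ≤ A * s ^ (-(1 / 2) : ℝ))
    (h2 : ∀ s ∈ Set.Ioc (0 : ℝ) 1, ‖F s‖ ≤ B * h * s ^ (-(3 / 2) : ℝ)) :
    ‖∫ s in Set.Ioc (0 : ℝ) 1, F s‖ ≤ (2 * A + 2 * B) * h ^ (1 / 2 : ℝ) := by
  have hint : IntegrableOn F (Set.Ioc 0 1) :=
    (an5_integrableOn_rpow.const_mul A).mono' hm (ae_restrict_of_forall_mem measurableSet_Ioc h1)
  have hi1 : IntervalIntegrable F volume 0 h := by
    rw [intervalIntegrable_iff_integrableOn_Ioc_of_le hh.le]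
    exact hint.mono_set (Set.Ioc_subset_Ioc_right hh1)
  have hi2 : IntervalIntegrable F volume h 1 := by
    rw [intervalIntegrable_iff_integrableOn_Ioc_of_le hh1]
    exact hint.mono_set (Set.Ioc_subset_Ioc_left hh.le)
  rw [← intervalIntegral.integral_of_le zero_le_one,
    ← intervalIntegral.integral_add_adjacent_intervals hi1 hi2]
  have hn0 : (0 : ℝ) ∉ Set.uIcc h 1 := Set.notMem_uIcc_of_lt hh one_pos
  have b1 : ‖∫ s in (0 : ℝ)..h, F s‖ ≤ 2 * A * h ^ (1 / 2 : ℝ) := by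
    have := intervalIntegral.norm_integral_le_of_norm_le (μ := volume) hh.le
      (f := F) (g := fun s => A * s ^ (-(1 / 2) : ℝ))
      (Filter.Eventually.of_forall fun s hs => h1 s ⟨hs.1, hs.2.trans hh1⟩)
      ((intervalIntegral.intervalIntegrable_rpow' (by norm_num)).const_mul A)
    rw [intervalIntegral.integral_const_mul, an5_integral_rpow] at this
    linarith
  have b2 : ‖∫ s in h..(1 : ℝ), F s‖ ≤ 2 * B * h ^ (1 / 2 : ℝ) := by
    have := intervalIntegral.norm_integral_le_of_norm_le (μ := volume) hh1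
      (f := F) (g := fun s => B * h * s ^ (-(3 / 2) : ℝ))
      (Filter.Eventually.of_forall fun s hs => h2 s ⟨hh.trans hs.1, hs.2⟩)
      ((intervalIntegral.intervalIntegrable_rpow (Or.inr hn0)).const_mul (B * h))
    rw [intervalIntegral.integral_const_mul, integral_rpow (Or.inr ⟨by norm_num, hn0⟩)] at this
    have e1 : (-(3 / 2) + 1 : ℝ) = -(1 / 2) := by norm_num
    rw [e1, Real.one_rpow] at this
    have e2 : h * h ^ (-(1 / 2) : ℝ) = h ^ (1 / 2 : ℝ) := by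
      nth_rewrite 1 [← Real.rpow_one h]
      rw [← Real.rpow_add hh]
      norm_num
    have e3 : B * h * ((1 - h ^ (-(1 / 2) : ℝ)) / -(1 / 2))
        = 2 * B * (h * h ^ (-(1 / 2) : ℝ)) - 2 * B * h := by ring
    rw [e3, e2] at this
    have : 0 ≤ 2 * B * h := by positivity
    linarith
  calc ‖(∫ s in (0 : ℝ)..h, F s) + ∫ s in h..(1 : ℝ), F s‖
      ≤ ‖∫ s in (0 : ℝ)..h, F s‖ + ‖∫ s in h..(1 : ℝ), F s‖ := norm_add_le _ _
    _ ≤ 2 * A * h ^ (1 / 2 : ℝ) + 2 * B * h ^ (1 / 2 : ℝ) := add_le_add b1 b2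
    _ = _ := by ring

end real

/-- the kernel `Dψ`. -/
theorem an5_dpsi_lip : ∃ L : NNReal, LipschitzWith L (fderiv ℝ (regPsi : Space → ℝ)) :=
  ContDiff.lipschitzWith_of_hasCompactSupport (𝕂 := ℝ)
    (an5_compact Claimed.Agent.R259.regpa_dpsi_zero)
    Claimed.Agent.R259.regpa_dpsi_contDiff (by simp)

theorem an5_locInt {G : Space → ℝ} (hG : MemLp G 6 volume) : LocallyIntegrable G volume :=
  hG.locallyIntegrable (by norm_num)

theorem an5_global : ∃ C : ℝ, 0 ≤ C ∧ ∀ (G : Space → ℝ) (N : ℝ), MemLp G 6 volume → 0 ≤ N →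
    eLpNorm G 6 volume ≤ ENNReal.ofReal N →
    (∀ x, ‖regT1 G x‖ ≤ C * N) ∧
    ∀ x y, ‖regT1 G x - regT1 G y‖ ≤ C * N * ‖x - y‖ ^ (1 / 2 : ℝ) := by
  obtain ⟨L, hL⟩ := an5_dpsi_lip
  set κ : Space → (Space →L[ℝ] ℝ) := fderiv ℝ (regPsi : Space → ℝ) with hκdef
  have hκ : Continuous κ := hL.continuous
  have hκs : ContDiff ℝ ∞ κ := Claimed.Agent.R259.regpa_dpsi_contDiff
  have hc : ∀ z, 2 ≤ ‖z‖ ^ 2 → κ z = 0 := Claimed.Agent.R259.regpa_dpsi_zero
  set K : ℝ := (an5K κ).toReal with hK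
  set c : ℝ := L * an5c.toReal with hcdef
  have hK0 : 0 ≤ K := ENNReal.toReal_nonneg
  have hc0 : 0 ≤ c := mul_nonneg L.2 ENNReal.toReal_nonneg
  refine ⟨4 * K + 2 * c, by positivity, fun G N hG hN hGN => ?_⟩
  have hloc := an5_locInt hG
  have hsup : ∀ x, ‖regT1 G x‖ ≤ 2 * (N * K) := fun x =>
    an5_sup fun s hs => an5_avg_norm_le hκ hc hG.1 hN hGN hs.1 x
  have hmeas : ∀ x, AEStronglyMeasurable (fun s => regAvg κ G s x)
      (volume.restrict (Set.Ioc (0 : ℝ) 1)) := fun x =>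
    Claimed.Agent.R259.regpa_avg_meas hκs hc hloc x
  have hint : ∀ x, IntegrableOn (fun s => regAvg κ G s x) (Set.Ioc (0 : ℝ) 1) := fun x =>
    (an5_integrableOn_rpow.const_mul (N * K)).mono' (hmeas x)
      (ae_restrict_of_forall_mem measurableSet_Ioc fun s hs =>
        an5_avg_norm_le hκ hc hG.1 hN hGN hs.1 x)
  refine ⟨fun x => (hsup x).trans (by nlinarith [mul_nonneg hK0 hN, mul_nonneg hc0 hN]), ?_⟩
  intro x y
  rcases le_or_gt ‖x - y‖ 1 with h1 | h1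
  · rcases (norm_nonneg (x - y)).eq_or_lt with h0 | h0
    · have : x = y := by
        rw [← sub_eq_zero, ← norm_eq_zero]; exact h0.symm
      rw [this]
      simp
    · have hsub : regT1 G x - regT1 G y
          = ∫ s in Set.Ioc (0 : ℝ) 1, (regAvg κ G s x - regAvg κ G s y) := by
        unfold regT1
        rw [integral_sub (hint x) (hint y)]
      rw [hsub]
      have := an5_split (F := fun s => regAvg κ G s x - regAvg κ G s y) (A := 2 * (N * K))
        (B := N * c) (by positivity) h0 h1 ((hmeas x).sub (hmeas y))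
        (fun s hs => by
          have hx := an5_avg_norm_le hκ hc hG.1 hN hGN hs.1 x
          have hy := an5_avg_norm_le hκ hc hG.1 hN hGN hs.1 y
          calc ‖regAvg κ G s x - regAvg κ G s y‖ ≤ ‖regAvg κ G s x‖ + ‖regAvg κ G s y‖ :=
                norm_sub_le _ _
            _ ≤ _ := by linarith)
        (fun s hs => an5_avg_sub_norm_le hL hc hloc hN hGN hs.1 x y)
      refine this.trans (le_of_eq ?_)
      ring
  · have hp : 1 ≤ ‖x - y‖ ^ (1 / 2 : ℝ) := Real.one_le_rpow h1.le (by norm_num)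
    calc ‖regT1 G x - regT1 G y‖ ≤ ‖regT1 G x‖ + ‖regT1 G y‖ := norm_sub_le _ _
      _ ≤ 2 * (N * K) + 2 * (N * K) := add_le_add (hsup x) (hsup y)
      _ ≤ (4 * K + 2 * c) * N * 1 := by nlinarith [mul_nonneg hK0 hN, mul_nonneg hc0 hN]
      _ ≤ (4 * K + 2 * c) * N * ‖x - y‖ ^ (1 / 2 : ℝ) := by gcongr

section loc

variable {V : Type} [NormedAddCommGroup V] [NormedSpace ℝ V]

theorem an5_avg_indicator {κ : Space → V} (hc : ∀ z, 2 ≤ ‖z‖ ^ 2 → κ z = 0) (G : Space → ℝ)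
    {R s : ℝ} (hs : 0 < s) (hs1 : s ≤ 1) {x : Space} (hx : x ∈ Metric.ball (0 : Space) R) :
    regAvg κ G s x = regAvg κ ((Metric.ball (0 : Space) (R + 2)).indicator G) s x := by
  rw [an5_avg_eq κ G hs x, an5_avg_eq κ _ hs x]
  refine integral_congr_ae (Filter.Eventually.of_forall fun t => ?_)
  simp only
  by_cases ht : t ∈ Metric.ball (0 : Space) (R + 2)
  · rw [Set.indicator_of_mem ht]
  · rw [Metric.mem_ball, dist_zero_right, not_lt] at ht
    rw [Metric.mem_ball, dist_zero_right] at hx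
    have h1 : 2 * s ≤ ‖x - t‖ := by
      have := norm_sub_norm_le t x
      rw [norm_sub_rev] at this
      linarith
    rw [Claimed.Agent.R259.reg_scale_zero hc hs h1]
    simp

theorem an5_indicator_memLp {G : Space → ℝ} (hG : AEStronglyMeasurable G volume) {R N : ℝ}
    (hGN : eLpNorm G 6 (volume.restrict (Metric.ball 0 (R + 2))) ≤ ENNReal.ofReal N) :
    MemLp ((Metric.ball (0 : Space) (R + 2)).indicator G) 6 volume ∧
      eLpNorm ((Metric.ball (0 : Space) (R + 2)).indicator G) 6 volume ≤ ENNReal.ofReal N := by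
  refine ⟨(memLp_indicator_iff_restrict measurableSet_ball).2
    ⟨hG.restrict, hGN.trans_lt ENNReal.ofReal_lt_top⟩, ?_⟩
  rw [eLpNorm_indicator_eq_eLpNorm_restrict measurableSet_ball]
  exact hGN

theorem an5_avg_norm_le_loc {κ : Space → V} (hκ : Continuous κ) (hc : ∀ z, 2 ≤ ‖z‖ ^ 2 → κ z = 0)
    {G : Space → ℝ} (hG : AEStronglyMeasurable G volume) {R N : ℝ} (hN : 0 ≤ N)
    (hGN : eLpNorm G 6 (volume.restrict (Metric.ball 0 (R + 2))) ≤ ENNReal.ofReal N) {s : ℝ}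
    (hs : s ∈ Set.Ioc (0 : ℝ) 1) {x : Space} (hx : x ∈ Metric.ball (0 : Space) R) :
    ‖regAvg κ G s x‖ ≤ N * (an5K κ).toReal * s ^ (-(1 / 2) : ℝ) := by
  obtain ⟨h1, h2⟩ := an5_indicator_memLp hG hGN
  rw [an5_avg_indicator hc G hs.1 hs.2 hx]
  exact an5_avg_norm_le hκ hc h1.1 hN h2 hs.1 x

end loc

theorem an5_T1_indicator (G : Space → ℝ) {R : ℝ} {x : Space} (hx : x ∈ Metric.ball (0 : Space) R) :
    regT1 G x = regT1 ((Metric.ball (0 : Space) (R + 2)).indicator G) x := by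
  unfold regT1
  exact setIntegral_congr_fun measurableSet_Ioc fun s hs =>
    an5_avg_indicator Claimed.Agent.R259.regpa_dpsi_zero G hs.1 hs.2 hx

theorem an_T1_holder : ∃ C : ℝ, 0 ≤ C ∧ ∀ (G : Space → ℝ) (R N : ℝ), AEStronglyMeasurable G volume → 0 ≤ N →
    eLpNorm G 6 (volume.restrict (Metric.ball 0 (R + 2))) ≤ ENNReal.ofReal N →
    (∀ x ∈ Metric.ball (0 : Space) R, ‖regT1 G x‖ ≤ C * N) ∧
    ∀ x ∈ Metric.ball (0 : Space) R, ∀ y ∈ Metric.ball (0 : Space) R,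
      ‖regT1 G x - regT1 G y‖ ≤ C * N * ‖x - y‖ ^ (1 / 2 : ℝ) := by
  obtain ⟨C, hC0, hC⟩ := an5_global
  refine ⟨C, hC0, fun G R N hG hN hGN => ?_⟩
  obtain ⟨h1, h2⟩ := an5_indicator_memLp hG hGN
  obtain ⟨h3, h4⟩ := hC _ N h1 hN h2
  refine ⟨fun x hx => ?_, fun x hx y hy => ?_⟩
  · rw [an5_T1_indicator G hx]
    exact h3 x
  · rw [an5_T1_indicator G hx, an5_T1_indicator G hy]
    exact h4 x y

theorem an_T_C1 {G : Space → ℝ} (hG : ∀ R : ℝ, MemLp G 6 (volume.restrict (Metric.ball 0 R))) :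
    ContDiff ℝ 1 (regT G) ∧ ∀ x, fderiv ℝ (regT G) x = regT1 G x := by
  have hloc : LocallyIntegrable G volume := by
    intro x
    refine ⟨Metric.ball 0 (‖x‖ + 1), Metric.isOpen_ball.mem_nhds (by simp), ?_⟩
    have : IsFiniteMeasure (volume.restrict (Metric.ball (0 : Space) (‖x‖ + 1))) :=
      ⟨by rw [Measure.restrict_apply_univ]; exact measure_ball_lt_top⟩
    exact (hG (‖x‖ + 1)).integrable (by norm_num)
  have hGm : AEStronglyMeasurable G volume := hloc.aestronglyMeasurable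
  have hψ : ContDiff ℝ ∞ (regPsi : Space → ℝ) := Claimed.Agent.R259.reg_psi_test.1
  have hψ0 : ∀ z : Space, 2 ≤ ‖z‖ ^ 2 → regPsi z = 0 := fun z hz =>
    Claimed.Agent.R259.reg_psi_zero hz
  have hκs : ContDiff ℝ ∞ (fderiv ℝ (regPsi : Space → ℝ)) :=
    Claimed.Agent.R259.regpa_dpsi_contDiff
  have hκ0 : ∀ z : Space, 2 ≤ ‖z‖ ^ 2 → fderiv ℝ (regPsi : Space → ℝ) z = 0 :=
    Claimed.Agent.R259.regpa_dpsi_zero
  have hnear : ∀ x₀ x : Space, x ∈ Metric.ball x₀ 1 → x ∈ Metric.ball (0 : Space) (‖x₀‖ + 1) := by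
    intro x₀ x hx
    rw [Metric.mem_ball, dist_eq_norm] at hx
    rw [Metric.mem_ball, dist_zero_right]
    have := norm_sub_norm_le x x₀
    linarith
  have hNx : ∀ x₀ : Space, ∃ N : ℝ, 0 ≤ N ∧
      eLpNorm G 6 (volume.restrict (Metric.ball 0 (‖x₀‖ + 1 + 2))) ≤ ENNReal.ofReal N := by
    intro x₀
    refine ⟨(eLpNorm G 6 (volume.restrict (Metric.ball 0 (‖x₀‖ + 1 + 2)))).toReal,
      ENNReal.toReal_nonneg, ?_⟩
    rw [ENNReal.ofReal_toReal (hG _).2.ne]
  have hder : ∀ x₀, HasFDerivAt (regT G) (regT1 G x₀) x₀ := by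
    intro x₀
    obtain ⟨N, hN, hGN⟩ := hNx x₀
    unfold regT regT1
    refine hasFDerivAt_integral_of_dominated_of_fderiv_le (𝕜 := ℝ)
      (F := fun x s => s * regAvg regPsi G s x) (F' := fun x s => regAvg (fderiv ℝ regPsi) G s x)
      (bound := fun s => N * (an5K (fderiv ℝ (regPsi : Space → ℝ))).toReal * s ^ (-(1 / 2) : ℝ))
      (Metric.ball_mem_nhds x₀ one_pos) ?_ ?_ ?_ ?_ (an5_integrableOn_rpow.const_mul _) ?_
    · exact Filter.Eventually.of_forall fun x =>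
        (measurable_id.aestronglyMeasurable).mul (Claimed.Agent.R259.regpa_avg_meas hψ hψ0 hloc x)
    · refine (an5_integrableOn_rpow.const_mul (N * (an5K (regPsi : Space → ℝ)).toReal)).mono'
        ((measurable_id.aestronglyMeasurable).mul
          (Claimed.Agent.R259.regpa_avg_meas hψ hψ0 hloc x₀)) ?_
      refine ae_restrict_of_forall_mem measurableSet_Ioc fun s hs => ?_
      have h1 := an5_avg_norm_le_loc hψ.continuous hψ0 hGm hN hGN hs
        (hnear x₀ x₀ (Metric.mem_ball_self one_pos))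
      rw [norm_mul, Real.norm_of_nonneg hs.1.le]
      calc s * ‖regAvg regPsi G s x₀‖ ≤ 1 * ‖regAvg regPsi G s x₀‖ :=
            mul_le_mul_of_nonneg_right hs.2 (norm_nonneg _)
        _ ≤ _ := by rw [one_mul]; exact h1
    · exact Claimed.Agent.R259.regpa_avg_meas hκs hκ0 hloc x₀
    · refine ae_restrict_of_forall_mem measurableSet_Ioc fun s hs x hx => ?_
      exact an5_avg_norm_le_loc hκs.continuous hκ0 hGm hN hGN hs (hnear x₀ x hx)
    · refine ae_restrict_of_forall_mem measurableSet_Ioc fun s hs x _ => ?_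
      exact Claimed.Agent.R259.regpa_hasFDerivAt hloc hs.1 x
  have hfd : ∀ x, fderiv ℝ (regT G) x = regT1 G x := fun x => (hder x).fderiv
  refine ⟨?_, hfd⟩
  rw [contDiff_one_iff_fderiv]
  refine ⟨fun x => (hder x).differentiableAt, ?_⟩
  have : fderiv ℝ (regT G) = regT1 G := funext hfd
  rw [this, continuous_iff_continuousAt]
  intro x₀
  obtain ⟨N, hN, hGN⟩ := hNx x₀
  unfold regT1
  refine continuousAt_of_dominated
    (bound := fun s => N * (an5K (fderiv ℝ (regPsi : Space → ℝ))).toReal * s ^ (-(1 / 2) : ℝ))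
    ?_ ?_ (an5_integrableOn_rpow.const_mul _) ?_
  · exact Filter.Eventually.of_forall fun x => Claimed.Agent.R259.regpa_avg_meas hκs hκ0 hloc x
  · filter_upwards [Metric.ball_mem_nhds x₀ one_pos] with x hx
    refine ae_restrict_of_forall_mem measurableSet_Ioc fun s hs => ?_
    exact an5_avg_norm_le_loc hκs.continuous hκ0 hGm hN hGN hs (hnear x₀ x hx)
  · refine ae_restrict_of_forall_mem measurableSet_Ioc fun s hs => ?_
    exact (Claimed.Agent.R259.regpa_avg_continuous hκs hκ0 hloc hs.1).continuousAt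

/-- generates the equation lemmas of the definitions above in this file (unique names). -/
theorem an5_eqns_cite : True := by
  have := @an5K.eq_1
  have := @an5c.eq_1
  trivial

end Claimed.Open.R278
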