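import Claimed.Open.R278.ANRegA
import Claimed.Open.R278.ANRegC
import Claimed.Open.R278.ANRegD

/-!
# Package AN, leaf AN-R6: assembly of the regularity theorem (`C¹` version, uniform `C^{1,1/2}` estimates)

`G = ⟨∇n/n, g⟩ + f`.  `an_nondiv`, `an_grad_repr`, `an_avg_bounds`, `an_T1_enorm_le` give a.e.
`‖g x‖ₑ ≤ H₀ + ∫⁻ anP1 (x - y) (‖anDrift n y‖ₑ ‖g y‖ₑ + F)`, `H₀ = C F`.  `an_ladder` with `P = anP1`, `a = ‖anDrift n‖ₑ` (`anDrift_eLpNorm_le`), `U = ‖g‖ₑ` ⇒ `an_grad_bound`.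
Then `G ∈ L⁶(ball)` with norm `≤ K Λ/c + F |ball|^{1/6}`; `an_T_C1`, `reg_repr` ⇒ `v = ρ₁ * u + T G` is a `C¹` version (`an_C1_version`: constants `c, Λ, E` for each `R` from `DensityBasic`, `DriftEq.g2`);
`an_T1_holder`, `an_avg_bounds` ⇒ `an_C1_estimate` (a.e. identities between continuous functions hold everywhere; `‖x-y‖ ≤ (2R)^{1/2} ‖x - y‖^{1/2}` on the ball).
-/

open MeasureTheory
open Claimed.Agent.R259 (WeakGrad RegVW regT regT1 regAvg regRho regPsi regScale)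
open scoped ContDiff InnerProductSpace ENNReal Topology

noncomputable section

namespace Claimed.Open.R278

theorem an6_drift_aesm {n : Space → ℝ} (hn : DensityBasic n) :
    AEStronglyMeasurable (anDrift n) volume := by
  have h1 : AEStronglyMeasurable (gradient n) volume := hn.weakGrad.2.1.aestronglyMeasurable
  have h2 : Continuous fun x => (n x)⁻¹ := hn.continuous.inv₀ fun x => (hn.pos x).ne'
  exact h2.aestronglyMeasurable.smul h1

theorem an6_enorm_inner_le (a b : Space) : ‖⟪a, b⟫_ℝ‖ₑ ≤ ‖a‖ₑ * ‖b‖ₑ := by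
  rw [← ofReal_norm, ← ofReal_norm, ← ofReal_norm, ← ENNReal.ofReal_mul (norm_nonneg _)]
  exact ENNReal.ofReal_le_ofReal (norm_inner_le_norm _ _)

theorem an6_lintegral_six {μ : Measure Space} {a : Space → Space} {L : ℝ≥0∞}
    (h : eLpNorm a 6 μ ≤ L) : ∫⁻ x, ‖a x‖ₑ ^ (6 : ℝ) ∂μ ≤ L ^ (6 : ℝ) := by
  rw [eLpNorm_eq_lintegral_rpow_enorm_toReal (by norm_num) (by norm_num)] at h
  have e : (6 : ℝ≥0∞).toReal = 6 := by norm_num
  rw [e] at h
  have h2 := ENNReal.rpow_le_rpow h (by norm_num : (0 : ℝ) ≤ 6)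
  rwa [← ENNReal.rpow_mul, one_div, inv_mul_cancel₀ (by norm_num), ENNReal.rpow_one] at h2

theorem an6_lintegral_two {μ : Measure Space} {g : Space → Space} (hg : MemLp g 2 μ) :
    ∫⁻ x, ‖g x‖ₑ ^ (2 : ℝ) ∂μ = ENNReal.ofReal (∫ x, ‖g x‖ ^ 2 ∂μ) := by
  rw [ofReal_integral_eq_lintegral_ofReal ((memLp_two_iff_integrable_sq_norm hg.1).1 hg)
    (Filter.Eventually.of_forall fun x => by positivity)]
  refine lintegral_congr fun x => ?_
  rw [← ofReal_norm, ENNReal.ofReal_rpow_of_nonneg (norm_nonneg _) (by norm_num)]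
  congr 1
  rw [← Real.rpow_natCast]
  norm_num

theorem an_grad_bound (R c Λ F E : ℝ) (hc : 0 < c) :
    ∃ K : ℝ, ∀ (n u f : Space → ℝ) (g : Space → Space), DensityBasic n → DensLoc n (R + 32) c Λ →
      DriftEq n u f g → (∀ᵐ x, |u x| ≤ F) → (∀ᵐ x, |f x| ≤ F) →
      (∫ x in Metric.ball (0 : Space) (R + 32), ‖g x‖ ^ 2) ≤ E →
      ∀ᵐ x, x ∈ Metric.ball (0 : Space) R → ‖g x‖ ≤ K := by
  obtain ⟨C₀, hC₀, hC₀b⟩ := an_avg_bounds
  obtain ⟨C, hC, hCle⟩ := an_ladder anP1_measurable anP1_rpow (fun w hw => anP1_zero hw) R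
    (A := ENNReal.ofReal (Λ / c) ^ (6 : ℝ)) (B := ENNReal.ofReal E)
    (H₀ := ENNReal.ofReal (C₀ * F)) (F := ENNReal.ofReal F)
    (ENNReal.rpow_lt_top_of_nonneg (by norm_num) ENNReal.ofReal_ne_top)
    ENNReal.ofReal_lt_top ENNReal.ofReal_lt_top ENNReal.ofReal_lt_top
  refine ⟨C.toReal, fun n u f g hn hDL h hu hf hE => ?_⟩
  have hVW := an_nondiv hn h hf
  have hrep := an_grad_repr hVW h.wg
  obtain ⟨hb1, -⟩ := hC₀b u F h.wg.1 hu
  have hdm := an6_drift_aesm hn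
  have hgm : AEStronglyMeasurable g volume := h.wg.2.1.aestronglyMeasurable
  have key : ∀ᵐ x, x ∈ Metric.ball (0 : Space) (R + 32) → ‖g x‖ₑ ≤ ENNReal.ofReal (C₀ * F)
      + ∫⁻ y, anP1 (x - y) * (‖anDrift n y‖ₑ * ‖g y‖ₑ + ENNReal.ofReal F) := by
    filter_upwards [hrep] with x hx _
    rw [hx]
    refine (enorm_add_le _ _).trans (add_le_add ?_ ?_)
    · rw [← ofReal_norm]
      exact ENNReal.ofReal_le_ofReal (hb1 x)
    · have e : ‖anT1 (fun x => ⟪anDrift n x, g x⟫_ℝ + f x) x‖ₑ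
          = ‖regT1 (fun x => ⟪anDrift n x, g x⟫_ℝ + f x) x‖ₑ := by
        rw [← ofReal_norm, ← ofReal_norm, anT1_norm]
      rw [e]
      refine (an_T1_enorm_le hVW.2.1.aestronglyMeasurable x).trans ?_
      refine lintegral_mono_ae ?_
      filter_upwards [hf] with y hy
      refine mul_le_mul_right ?_ _
      refine (enorm_add_le _ _).trans (add_le_add (an6_enorm_inner_le _ _) ?_)
      rw [← ofReal_norm, Real.norm_eq_abs]
      exact ENNReal.ofReal_le_ofReal hy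
  have hA' : ∫⁻ x in Metric.ball (0 : Space) (R + 32), ‖anDrift n x‖ₑ ^ (6 : ℝ)
      ≤ ENNReal.ofReal (Λ / c) ^ (6 : ℝ) := an6_lintegral_six (anDrift_eLpNorm_le hn hc hDL)
  have hB' : ∫⁻ x in Metric.ball (0 : Space) (R + 32), ‖g x‖ₑ ^ (2 : ℝ) ≤ ENNReal.ofReal E := by
    rw [an6_lintegral_two (h.g2 _)]
    exact ENNReal.ofReal_le_ofReal hE
  filter_upwards [hCle _ _ hgm.enorm hdm.enorm key hA' hB'] with x hx hxB
  have := hx hxB
  rw [← ofReal_norm] at this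
  exact (ENNReal.ofReal_le_iff_le_toReal hC.ne).1 this

theorem an6_G_eLpNorm {n f : Space → ℝ} {g : Space → Space} (hn : DensityBasic n)
    (hgm : AEStronglyMeasurable g volume) (hfm : AEStronglyMeasurable f volume) {r K F : ℝ}
    (hg : ∀ᵐ x, x ∈ Metric.ball (0 : Space) r → ‖g x‖ ≤ K) (hf : ∀ᵐ x, |f x| ≤ F) :
    eLpNorm (fun x => ⟪anDrift n x, g x⟫_ℝ + f x) 6 (volume.restrict (Metric.ball 0 r))
      ≤ ENNReal.ofReal K * eLpNorm (anDrift n) 6 (volume.restrict (Metric.ball 0 r))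
        + volume (Metric.ball (0 : Space) r) ^ (6 : ℝ)⁻¹ * ENNReal.ofReal F := by
  have hdm := an6_drift_aesm hn
  have h1 : AEStronglyMeasurable (fun x => ⟪anDrift n x, g x⟫_ℝ)
      (volume.restrict (Metric.ball (0 : Space) r)) := (hdm.inner hgm).restrict
  refine (eLpNorm_add_le h1 hfm.restrict (by norm_num)).trans (add_le_add ?_ ?_)
  · refine eLpNorm_le_mul_eLpNorm_of_ae_le_mul ?_ 6
    rw [ae_restrict_iff' measurableSet_ball]
    filter_upwards [hg] with x hx hxB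
    calc ‖⟪anDrift n x, g x⟫_ℝ‖ ≤ ‖anDrift n x‖ * ‖g x‖ := norm_inner_le_norm _ _
      _ ≤ ‖anDrift n x‖ * K := by gcongr; exact hx hxB
      _ = K * ‖anDrift n x‖ := mul_comm _ _
  · have := eLpNorm_le_of_ae_bound (p := 6) (μ := volume.restrict (Metric.ball (0 : Space) r))
      (f := f) (C := F) (ae_restrict_of_ae (hf.mono fun x hx => by rwa [Real.norm_eq_abs]))
    simpa using this

theorem an6_G_memLp {n f : Space → ℝ} {g : Space → Space} (hn : DensityBasic n)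
    (hgm : AEStronglyMeasurable g volume) (hfm : AEStronglyMeasurable f volume) {r K F : ℝ}
    (hg : ∀ᵐ x, x ∈ Metric.ball (0 : Space) r → ‖g x‖ ≤ K) (hf : ∀ᵐ x, |f x| ≤ F) :
    MemLp (fun x => ⟪anDrift n x, g x⟫_ℝ + f x) 6 (volume.restrict (Metric.ball 0 r)) := by
  refine ⟨(((an6_drift_aesm hn).inner hgm).add hfm).restrict, ?_⟩
  refine (an6_G_eLpNorm hn hgm hfm hg hf).trans_lt ?_
  exact ENNReal.add_lt_top.2 ⟨ENNReal.mul_lt_top ENNReal.ofReal_lt_top (anDrift_memLp hn r).2,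
    ENNReal.mul_lt_top (ENNReal.rpow_lt_top_of_nonneg (by norm_num) measure_ball_lt_top.ne)
      ENNReal.ofReal_lt_top⟩

theorem an_C1_version {n u f : Space → ℝ} {g : Space → Space} (hn : DensityBasic n) (h : DriftEq n u f g)
    {F : ℝ} (hu : ∀ᵐ x, |u x| ≤ F) (hf : ∀ᵐ x, |f x| ≤ F) :
    ∃ v : Space → ℝ, ContDiff ℝ 1 v ∧ u =ᵐ[volume] v := by
  have hVW := an_nondiv hn h hf
  have hgm : AEStronglyMeasurable g volume := h.wg.2.1.aestronglyMeasurable
  have hG6 : ∀ R : ℝ, MemLp (fun x => ⟪anDrift n x, g x⟫_ℝ + f x) 6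
      (volume.restrict (Metric.ball 0 R)) := by
    intro R
    obtain ⟨c, hc, hcle⟩ := exists_lower_bound_on_ball hn.continuous hn.pos (R + 32)
    obtain ⟨K, hK⟩ := an_grad_bound R c
      (eLpNorm (gradient n) 6 (volume.restrict (Metric.ball 0 (R + 32)))).toReal F
      (∫ x in Metric.ball (0 : Space) (R + 32), ‖g x‖ ^ 2) hc
    have hDL : DensLoc n (R + 32) c
        (eLpNorm (gradient n) 6 (volume.restrict (Metric.ball 0 (R + 32)))).toReal :=
      ⟨fun x hx => hcle x hx.le, by rw [ENNReal.ofReal_toReal (hn.grad_L6 _).2.ne]⟩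
    exact an6_G_memLp hn hgm h.fm (hK n u f g hn hDL h hu hf le_rfl) hf
  obtain ⟨hT, -⟩ := an_T_C1 hG6
  exact ⟨fun x => regAvg regRho u 1 x + regT (fun x => ⟪anDrift n x, g x⟫_ℝ + f x) x,
    ((Claimed.Agent.R259.reg_avg_rho_contDiff h.wg.1).of_le (by simp)).add hT,
    Claimed.Agent.R259.reg_repr hVW⟩

/-- **Uniform local `C^{1,1/2}` estimate.** -/
theorem an_C1_estimate (R c Λ F E : ℝ) (hc : 0 < c) :
    ∃ K : ℝ, ∀ (n u f : Space → ℝ), DensityBasic n → DensLoc n (R + 40) c Λ → ContDiff ℝ 1 u →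
      DriftEq n u f (gradient u) → (∀ x, |u x| ≤ F) → (∀ᵐ x, |f x| ≤ F) →
      (∫ x in Metric.ball (0 : Space) (R + 40), ‖gradient u x‖ ^ 2) ≤ E →
      (∀ x ∈ Metric.ball (0 : Space) R, ‖gradient u x‖ ≤ K) ∧
      ∀ x ∈ Metric.ball (0 : Space) R, ∀ y ∈ Metric.ball (0 : Space) R,
        ‖gradient u x - gradient u y‖ ≤ K * ‖x - y‖ ^ (1 / 2 : ℝ) := by
  obtain ⟨C₀, hC₀, hC₀b⟩ := an_avg_bounds
  obtain ⟨C₁, hC₁, hC₁b⟩ := an_T1_holder
  obtain ⟨K₁, hK₁⟩ := an_grad_bound (R + 8) c Λ F E hc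
  set v : ℝ := (volume (Metric.ball (0 : Space) (R + 2)) ^ (6 : ℝ)⁻¹).toReal with hv
  have hvtop : volume (Metric.ball (0 : Space) (R + 2)) ^ (6 : ℝ)⁻¹ ≠ ⊤ :=
    (ENNReal.rpow_lt_top_of_nonneg (by norm_num) measure_ball_lt_top.ne).ne
  have hv0 : 0 ≤ v := ENNReal.toReal_nonneg
  set N : ℝ := |K₁| * (|Λ| / c) + v * |F| with hNdef
  have hN : 0 ≤ N := by positivity
  set s : ℝ := (2 * |R|) ^ (1 / 2 : ℝ) with hs
  have hs0 : 0 ≤ s := Real.rpow_nonneg (by positivity) _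
  refine ⟨C₀ * |F| * (1 + s) + C₁ * N, fun n u f hn hDL hu h huF hf hE => ?_⟩
  have hF0 : 0 ≤ F := (abs_nonneg _).trans (huF 0)
  have hFabs : |F| = F := abs_of_nonneg hF0
  have e40 : R + 8 + 32 = R + 40 := by ring
  have hgK := hK₁ n u f (gradient u) hn (by rwa [e40]) h (Filter.Eventually.of_forall huF) hf
    (by rwa [e40])
  have hVW := an_nondiv hn h hf
  have hgc : Continuous (gradient u) := Claimed.Agent.R259.ws_gradient_continuous hu
  have hgm : AEStronglyMeasurable (gradient u) volume := hgc.aestronglyMeasurable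
  set G : Space → ℝ := fun x => ⟪anDrift n x, gradient u x⟫_ℝ + f x with hG
  have hGN : eLpNorm G 6 (volume.restrict (Metric.ball 0 (R + 2))) ≤ ENNReal.ofReal N := by
    have hgK' : ∀ᵐ x, x ∈ Metric.ball (0 : Space) (R + 2) → ‖gradient u x‖ ≤ |K₁| :=
      hgK.mono fun x hx hxB =>
        (hx (Metric.ball_subset_ball (by linarith) hxB)).trans (le_abs_self _)
    refine (an6_G_eLpNorm hn hgm h.fm hgK' hf).trans ?_
    have hd : eLpNorm (anDrift n) 6 (volume.restrict (Metric.ball 0 (R + 2)))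
        ≤ ENNReal.ofReal (|Λ| / c) :=
      (eLpNorm_mono_measure _ (Measure.restrict_mono
        (Metric.ball_subset_ball (by linarith)) le_rfl)).trans
        ((anDrift_eLpNorm_le hn hc hDL).trans
          (ENNReal.ofReal_le_ofReal (div_le_div_of_nonneg_right (le_abs_self Λ) hc.le)))
    rw [hNdef, ENNReal.ofReal_add (by positivity) (by positivity),
      ENNReal.ofReal_mul (abs_nonneg _), ENNReal.ofReal_mul hv0, hv, ENNReal.ofReal_toReal hvtop,
      hFabs]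
    gcongr
  obtain ⟨hsup, hhol⟩ := hC₁b G R N hVW.2.1.aestronglyMeasurable hN hGN
  obtain ⟨hb1, hb2⟩ := hC₀b u F h.wg.1 (Filter.Eventually.of_forall huF)
  have hG6 : ∀ r : ℝ, MemLp G 6 (volume.restrict (Metric.ball 0 r)) := by
    intro r
    obtain ⟨M, hM⟩ := (isCompact_closedBall (0 : Space) r).exists_bound_of_continuousOn
      hgc.continuousOn
    exact an6_G_memLp hn hgm h.fm
      (Filter.Eventually.of_forall fun x hx => hM x (Metric.ball_subset_closedBall hx)) hf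
  obtain ⟨hT, hTd⟩ := an_T_C1 hG6
  have hT1c : Continuous (regT1 G) := by
    have := hT.continuous_fderiv (by simp)
    rwa [funext hTd] at this
  have hanT1c : Continuous (anT1 G) := (InnerProductSpace.toDual ℝ Space).symm.continuous.comp hT1c
  have hc1 : Continuous (gradient (regAvg regRho u 1)) :=
    Claimed.Agent.R259.ws_gradient_continuous
      ((Claimed.Agent.R259.reg_avg_rho_contDiff h.wg.1).of_le (by simp))
  have heq : gradient u = fun x => gradient (regAvg regRho u 1) x + anT1 G x :=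
    (Continuous.ae_eq_iff_eq volume hgc (hc1.add hanT1c)).1 (an_grad_repr hVW h.wg)
  have hC₀F : 0 ≤ C₀ * F := by positivity
  have hC₁N : 0 ≤ C₁ * N := by positivity
  refine ⟨fun x hx => ?_, fun x hx y hy => ?_⟩
  · rw [heq, hFabs]
    calc ‖gradient (regAvg regRho u 1) x + anT1 G x‖
        ≤ ‖gradient (regAvg regRho u 1) x‖ + ‖anT1 G x‖ := norm_add_le _ _
      _ ≤ C₀ * F + C₁ * N := add_le_add (hb1 x) (by rw [anT1_norm]; exact hsup x hx)
      _ ≤ C₀ * F * (1 + s) + C₁ * N := by nlinarith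
  · set δ : ℝ := ‖x - y‖ with hδ
    have hδ0 : 0 ≤ δ := norm_nonneg _
    have hδR : δ ≤ 2 * |R| := by
      rw [mem_ball_zero_iff] at hx hy
      have := norm_sub_le x y
      have := le_abs_self R
      linarith
    have hδh0 : 0 ≤ δ ^ (1 / 2 : ℝ) := Real.rpow_nonneg hδ0 _
    have hδs : δ ≤ s * δ ^ (1 / 2 : ℝ) := by
      have e : δ = δ ^ (1 / 2 : ℝ) * δ ^ (1 / 2 : ℝ) := by
        rw [← Real.rpow_add_of_nonneg hδ0 (by norm_num) (by norm_num)]
        norm_num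
      calc δ = δ ^ (1 / 2 : ℝ) * δ ^ (1 / 2 : ℝ) := e
        _ ≤ s * δ ^ (1 / 2 : ℝ) :=
            mul_le_mul_of_nonneg_right (Real.rpow_le_rpow hδ0 hδR (by norm_num)) hδh0
    have hT1 : ‖anT1 G x - anT1 G y‖ = ‖regT1 G x - regT1 G y‖ := by
      unfold anT1
      rw [← map_sub, LinearIsometryEquiv.norm_map]
    rw [heq, hFabs]
    calc ‖gradient (regAvg regRho u 1) x + anT1 G x - (gradient (regAvg regRho u 1) y + anT1 G y)‖
        = ‖(gradient (regAvg regRho u 1) x - gradient (regAvg regRho u 1) y)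
            + (anT1 G x - anT1 G y)‖ := by congr 1; abel
      _ ≤ ‖gradient (regAvg regRho u 1) x - gradient (regAvg regRho u 1) y‖
            + ‖anT1 G x - anT1 G y‖ := norm_add_le _ _
      _ ≤ C₀ * F * δ + C₁ * N * δ ^ (1 / 2 : ℝ) :=
          add_le_add (hb2 x y) (by rw [hT1]; exact hhol x hx y hy)
      _ ≤ C₀ * F * (s * δ ^ (1 / 2 : ℝ)) + C₁ * N * δ ^ (1 / 2 : ℝ) := by gcongr
      _ ≤ (C₀ * F * (1 + s) + C₁ * N) * δ ^ (1 / 2 : ℝ) := by nlinarith [mul_nonneg hC₀F hδh0]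

end Claimed.Open.R278
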