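import Claimed.Open.R278.ANExist
import Claimed.Open.R278.ANMult
import Claimed.Open.R278.ANRegE

/-!
# Package AN: top theorem `an_exists_foldedMinimizer` (= `exists_foldedMinimizer` of `Top.lean`) and the basic facts about EVERY folded minimizer

Leaf AN-T: the sorries of this file (all are transfers between a.e. and pointwise statements for continuous functions).
-/

open MeasureTheory
open scoped ContDiff InnerProductSpace ENNReal Topology

noncomputable section

namespace Claimed.Open.R278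

variable {n θ : Space → ℝ}

theorem IsFoldedMinimizer.weak (h : IsFoldedMinimizer n θ) : IsWeakFoldedMin n θ (gradient θ) :=
  ⟨h.2.1, Filter.Eventually.of_forall h.2.2.1, h.2.2.2⟩

theorem isMultiplier_iff_weak {d : ℝ} : IsMultiplier n θ d ↔ IsWeakMultiplier n θ (gradient θ) d := Iff.rfl

/-- a `C¹` version of a weak folded minimizer is a folded minimizer in the sense of `Statement.lean`.
(`gradient θ = G₀` a.e. by uniqueness of weak gradients; all integrals agree; the pointwise folding bounds follow from the a.e. bounds by continuity on the open half space.) -/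
theorem an_transfer (hn : DensityBasic n) {θ₀ : Space → ℝ} {G₀ : Space → Space} (h : IsWeakFoldedMin n θ₀ G₀)
    {d : ℝ} (hd : IsWeakMultiplier n θ₀ G₀ d) (hθ : ContDiff ℝ 1 θ) (he : θ₀ =ᵐ[volume] θ) :
    IsFoldedMinimizer n θ ∧ IsMultiplier n θ d := by
  obtain ⟨⟨hw, hi, ho, hs⟩, hf, hmin⟩ := h
  have hwθ : IsWeakGrad θ (gradient θ) :=
    isWeakGrad_iff_weakGrad.2 (Claimed.Agent.R259.ws_weakGrad_of_contDiff hθ)
  have hG : G₀ =ᵐ[volume] gradient θ :=
    Claimed.Agent.R259.ws_weakGrad_unique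
      (isWeakGrad_iff_weakGrad.1 (hw.congr_ae he (Filter.EventuallyEq.refl _ _)))
      (isWeakGrad_iff_weakGrad.1 hwθ)
  have he' : ∀ᵐ x, θ₀ (reflZ x) = θ (reflZ x) := tk3_ae_comp_reflZ he
  have hE : (∫ x, n x * ‖gradient θ x‖ ^ 2) = angleEnergy n G₀ := by
    unfold angleEnergy
    refine integral_congr_ae ?_
    filter_upwards [hG] with x hx
    rw [hx]
  refine ⟨⟨hθ, ⟨hwθ, ?_, ?_, ?_⟩, ?_, ?_⟩, ?_⟩
  · refine hi.congr ?_
    filter_upwards [he, hG] with x h1 h2
    rw [h1, h2]
  · filter_upwards [he, he', ho] with x h1 h2 h3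
    rw [← h1, ← h2, h3]
  · rw [← hs]
    refine integral_congr_ae ?_
    filter_upwards [he] with x h1
    rw [h1]
  · -- pointwise folding bounds
    have hcl : IsClosed {x : Space | 0 ≤ θ x ∧ θ x ≤ Real.pi / 2} :=
      (isClosed_le continuous_const hθ.continuous).inter (isClosed_le hθ.continuous continuous_const)
    have hop : IsOpen {x : Space | 0 < x 2} :=
      isOpen_lt continuous_const (EuclideanSpace.proj (2 : Fin 3) : Space →L[ℝ] ℝ).continuous
    intro x hx
    by_contra hbad
    have hU : IsOpen ({x : Space | 0 < x 2} ∩ {x : Space | 0 ≤ θ x ∧ θ x ≤ Real.pi / 2}ᶜ) :=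
      hop.inter hcl.isOpen_compl
    have hpos : 0 < volume ({x : Space | 0 < x 2} ∩ {x : Space | 0 ≤ θ x ∧ θ x ≤ Real.pi / 2}ᶜ) :=
      hU.measure_pos volume ⟨x, hx, hbad⟩
    have hnull : volume ({x : Space | 0 < x 2} ∩ {x : Space | 0 ≤ θ x ∧ θ x ≤ Real.pi / 2}ᶜ) = 0 := by
      have hae : ∀ᵐ y : Space, y ∉ ({x : Space | 0 < x 2} ∩ {x : Space | 0 ≤ θ x ∧ θ x ≤ Real.pi / 2}ᶜ) := by
        filter_upwards [he, hf] with y h1 h2 hy
        exact hy.2 (by
          have := h2 hy.1
          rw [h1] at this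
          exact this)
      have := ae_iff.1 hae
      simpa only [not_not, Set.ofPred_mem_eq] using this
    exact absurd hnull hpos.ne'
  · intro ϑ G hadm
    rw [hE]
    exact hmin ϑ G hadm
  · intro φ hφ hc
    have e1 : (∫ x, n x * ⟪gradient θ x, gradient φ x⟫_ℝ) = ∫ x, n x * ⟪G₀ x, gradient φ x⟫_ℝ := by
      refine integral_congr_ae ?_
      filter_upwards [hG] with x hx
      rw [hx]
    have e2 : (∫ x, n x * Real.sin (2 * θ x) * φ x) = ∫ x, n x * Real.sin (2 * θ₀ x) * φ x := by
      refine integral_congr_ae ?_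
      filter_upwards [he] with x hx
      rw [hx]
    rw [e1, e2]
    exact hd φ hφ hc

/-- **Proposition 4.1** (existence). -/
theorem an_exists_foldedMinimizer (hn : DensityBasic n) :
    ∃ (θ : Space → ℝ) (dθ : ℝ), IsFoldedMinimizer n θ ∧ IsMultiplier n θ dθ := by
  obtain ⟨θ₀, G₀, h⟩ := an_exists_weak hn
  obtain ⟨d, hd⟩ := an_weak_multiplier hn h
  have hb := an_abs_le_of_folded h.2.1 h.1.2.2.1
  have hf : ∀ᵐ x, |d * Real.sin (2 * θ₀ x)| ≤ max (Real.pi / 2) |d| := by
    refine Filter.Eventually.of_forall fun x => ?_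
    rw [abs_mul]
    calc |d| * |Real.sin (2 * θ₀ x)| ≤ |d| * 1 :=
          mul_le_mul_of_nonneg_left (Real.abs_sin_le_one _) (abs_nonneg _)
      _ ≤ max (Real.pi / 2) |d| := by rw [mul_one]; exact le_max_right _ _
  have hu : ∀ᵐ x, |θ₀ x| ≤ max (Real.pi / 2) |d| := by
    filter_upwards [hb] with x hx using hx.trans (le_max_left _ _)
  obtain ⟨θ, hθ, he⟩ := an_C1_version hn (hd.driftEq hn h.1) hu hf
  exact ⟨θ, d, an_transfer hn h hd hθ he⟩

/-- every folded minimizer has a multiplier. -/
theorem IsFoldedMinimizer.exists_multiplier (hn : DensityBasic n) (h : IsFoldedMinimizer n θ) :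
    ∃ d : ℝ, IsMultiplier n θ d :=
  an_weak_multiplier hn h.weak

theorem IsFoldedMinimizer.multiplier_pos (hn : DensityBasic n) (h : IsFoldedMinimizer n θ) {d : ℝ}
    (hd : IsMultiplier n θ d) : 0 < d :=
  an_multiplier_pos hn h.2.1 h.weak.2.1 hd

theorem IsFoldedMinimizer.multiplier_unique (hn : DensityBasic n) (h : IsFoldedMinimizer n θ) {d d' : ℝ}
    (hd : IsMultiplier n θ d) (hd' : IsMultiplier n θ d') : d = d' :=
  an_multiplier_unique hn h.2.1 h.weak.2.1 hd hd'

/-- pointwise oddness. -/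
theorem IsFoldedMinimizer.odd (h : IsFoldedMinimizer n θ) (x : Space) : θ (reflZ x) = -θ x := by
  have hc : Continuous θ := h.1.continuous
  have hr : Continuous reflZ := reflZIsometry.continuous
  have key : (fun x => θ (reflZ x)) = fun x => -θ x :=
    (Continuous.ae_eq_iff_eq (volume : Measure Space) (hc.comp hr) hc.neg).1 h.2.1.2.2.1
  exact congrFun key x

theorem IsFoldedMinimizer.eq_zero_of_plane (h : IsFoldedMinimizer n θ) {x : Space} (hx : x 2 = 0) : θ x = 0 := by
  have hr : reflZ x = x := by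
    apply space_ext <;> simp [hx]
  have := h.odd x
  rw [hr] at this
  linarith

theorem IsFoldedMinimizer.abs_le (h : IsFoldedMinimizer n θ) (x : Space) : |θ x| ≤ Real.pi / 2 := by
  rcases lt_trichotomy (x 2) 0 with hx | hx | hx
  · have h1 : 0 < (reflZ x) 2 := by simpa using hx
    have h2 := h.2.2.1 (reflZ x) h1
    rw [h.odd x] at h2
    rw [_root_.abs_le]
    constructor <;> linarith [h2.1, h2.2, Real.pi_pos]
  · rw [h.eq_zero_of_plane hx, abs_zero]
    positivity
  · have h2 := h.2.2.1 x hx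
    rw [_root_.abs_le]
    constructor <;> linarith [h2.1, h2.2, Real.pi_pos]

theorem IsFoldedMinimizer.cos_nonneg (h : IsFoldedMinimizer n θ) (x : Space) : 0 ≤ Real.cos (θ x) :=
  Real.cos_nonneg_of_neg_pi_div_two_le_of_le (_root_.abs_le.1 (h.abs_le x)).1 (_root_.abs_le.1 (h.abs_le x)).2

/-- the Euler-Lagrange equation of a folded minimizer as a `DriftEq`. -/
theorem IsFoldedMinimizer.driftEq (hn : DensityBasic n) (h : IsFoldedMinimizer n θ) {d : ℝ}
    (hd : IsMultiplier n θ d) : DriftEq n θ (fun x => d * Real.sin (2 * θ x)) (gradient θ) :=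
  IsWeakMultiplier.driftEq hn h.2.1 hd

end Claimed.Open.R278
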