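import Claimed.Open.R278.FSHardy
import Claimed.Open.R270.W2Rellich

/-!
# Result 278, kit FS, file 5: weak compactness, Rellich, the "direct method package", lower semicontinuity

* `WeakTo 𝕜 x y`: weak convergence of a sequence in a Hilbert space, WITHOUT the weak topology
  (`∀ z, ⟪z, x n⟫ → ⟪z, y⟫`).
* `exists_weak_subseq`: bounded sequences have weakly convergent subsequences (no separability assumption: work in the
  closed span of the sequence; Mathlib: `WeakDual.isSeqCompact_closedBall` for separable spaces + `InnerProductSpace.toDual`,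
  or a direct diagonal argument on the countable family `z = x k` + density + Riesz).
* Rellich: `Claimed.Open.R270.w2_totallyBounded_aux` (sorry-free; `X` normed, Haar measure, `C¹` functions bounded in `H¹`
  and in `L²(‖x‖ dx)` are totally bounded in `L²`).
* packages: one theorem returns the subsequence, the limit, its weak derivatives, strong `L²_loc`, a.e. and weak convergence.

Each section is ONE LEAF.
-/

open MeasureTheory Filter Topology Set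
open scoped ContDiff InnerProductSpace

noncomputable section

set_option linter.unusedSectionVars false

namespace Claimed.Open.R278

/-! ## LEAF FS-C1: weak convergence in Hilbert spaces -/

section C1

variable {𝕜 : Type*} [RCLike 𝕜] {H : Type*} [NormedAddCommGroup H] [InnerProductSpace 𝕜 H]

variable (𝕜) in
/-- weak convergence of a sequence. -/
def WeakTo (x : ℕ → H) (y : H) : Prop := ∀ z : H, Tendsto (fun n => ⟪z, x n⟫_𝕜) atTop (𝓝 ⟪z, y⟫_𝕜)

theorem WeakTo.of_tendsto {x : ℕ → H} {y : H} (h : Tendsto x atTop (𝓝 y)) : WeakTo 𝕜 x y :=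
  fun _ => tendsto_const_nhds.inner h

theorem WeakTo.comp {x : ℕ → H} {y : H} (h : WeakTo 𝕜 x y) {φ : ℕ → ℕ} (hφ : StrictMono φ) :
    WeakTo 𝕜 (x ∘ φ) y :=
  fun z => (h z).comp hφ.tendsto_atTop

theorem WeakTo.unique {x : ℕ → H} {y y' : H} (h : WeakTo 𝕜 x y) (h' : WeakTo 𝕜 x y') : y = y' :=
  ext_inner_left 𝕜 fun z => tendsto_nhds_unique (h z) (h' z)

theorem WeakTo.add {x x' : ℕ → H} {y y' : H} (h : WeakTo 𝕜 x y) (h' : WeakTo 𝕜 x' y') :
    WeakTo 𝕜 (fun n => x n + x' n) (y + y') := fun z => by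
  simpa only [inner_add_right] using (h z).add (h' z)

theorem WeakTo.sub {x x' : ℕ → H} {y y' : H} (h : WeakTo 𝕜 x y) (h' : WeakTo 𝕜 x' y') :
    WeakTo 𝕜 (fun n => x n - x' n) (y - y') := fun z => by
  simpa only [inner_sub_right] using (h z).sub (h' z)

theorem WeakTo.const_smul {x : ℕ → H} {y : H} (c : 𝕜) (h : WeakTo 𝕜 x y) : WeakTo 𝕜 (fun n => c • x n) (c • y) :=
  fun z => by simpa only [inner_smul_right] using (h z).const_mul c

theorem WeakTo.inner_left {x : ℕ → H} {y : H} (h : WeakTo 𝕜 x y) (z : H) :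
    Tendsto (fun n => ⟪x n, z⟫_𝕜) atTop (𝓝 ⟪y, z⟫_𝕜) := by
  have := (RCLike.continuous_conj.tendsto _).comp (h z)
  simpa only [Function.comp_def, inner_conj_symm] using this

/-- lower semicontinuity of the norm. -/
theorem WeakTo.norm_le {x : ℕ → H} {y : H} (h : WeakTo 𝕜 x y) {M : ℝ} (hM : ∃ᶠ n in atTop, ‖x n‖ ≤ M) :
    ‖y‖ ≤ M := by
  have h1 : Tendsto (fun n => ‖⟪y, x n⟫_𝕜‖) atTop (𝓝 ‖⟪y, y⟫_𝕜‖) := (h y).norm
  have h2 : ‖⟪y, y⟫_𝕜‖ ≤ ‖y‖ * M :=
    le_of_tendsto_of_frequently h1 (hM.mono fun n hn =>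
      (norm_inner_le_norm _ _).trans (mul_le_mul_of_nonneg_left hn (norm_nonneg _)))
  have e0 : ‖⟪y, y⟫_𝕜‖ = ‖y‖ * ‖y‖ := by
    rw [inner_self_eq_norm_sq_to_K, norm_pow, RCLike.norm_ofReal, abs_of_nonneg (norm_nonneg _), sq]
  rw [e0] at h2
  rcases (norm_nonneg y).eq_or_lt with h0 | h0
  · obtain ⟨n, hn⟩ := hM.exists
    rw [← h0]
    exact (norm_nonneg _).trans hn
  · exact le_of_mul_le_mul_left h2 h0

/-- weak convergence + convergence of the norms = strong convergence. -/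
theorem WeakTo.tendsto_of_norm {x : ℕ → H} {y : H} (h : WeakTo 𝕜 x y)
    (hn : Tendsto (fun n => ‖x n‖) atTop (𝓝 ‖y‖)) : Tendsto x atTop (𝓝 y) := by
  rw [tendsto_iff_norm_sub_tendsto_zero]
  have h1 : Tendsto (fun n => RCLike.re ⟪x n, y⟫_𝕜) atTop (𝓝 (RCLike.re ⟪y, y⟫_𝕜)) :=
    (RCLike.continuous_re.tendsto _).comp (h.inner_left y)
  have h2 : Tendsto (fun n => ‖x n - y‖ ^ 2) atTop (𝓝 0) := by
    have h3 := ((hn.pow 2).sub (h1.const_mul 2)).add (tendsto_const_nhds (x := ‖y‖ ^ 2))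
    rw [inner_self_eq_norm_sq (𝕜 := 𝕜)] at h3
    have e : ‖y‖ ^ 2 - 2 * ‖y‖ ^ 2 + ‖y‖ ^ 2 = 0 := by ring
    rw [e] at h3
    refine h3.congr fun n => ?_
    rw [norm_sub_sq (𝕜 := 𝕜)]
  have h3 := (Real.continuous_sqrt.tendsto 0).comp h2
  simpa [Function.comp_def, Real.sqrt_sq (norm_nonneg _)] using h3

/-- weak times strong. -/
theorem WeakTo.inner_tendsto {x z : ℕ → H} {y w : H} (h : WeakTo 𝕜 x y) {M : ℝ} (hM : ∀ n, ‖x n‖ ≤ M)
    (hz : Tendsto z atTop (𝓝 w)) : Tendsto (fun n => ⟪z n, x n⟫_𝕜) atTop (𝓝 ⟪w, y⟫_𝕜) := by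
  have h1 : Tendsto (fun n => ⟪z n - w, x n⟫_𝕜) atTop (𝓝 0) := by
    rw [tendsto_zero_iff_norm_tendsto_zero]
    have h2 : Tendsto (fun n => ‖z n - w‖ * M) atTop (𝓝 0) := by
      simpa using (tendsto_iff_norm_sub_tendsto_zero.1 hz).mul_const M
    exact squeeze_zero (fun n => norm_nonneg _) (fun n => (norm_inner_le_norm _ _).trans
      (mul_le_mul_of_nonneg_left (hM n) (norm_nonneg _))) h2
  have h3 := h1.add (h w)
  rw [zero_add] at h3
  refine h3.congr fun n => ?_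
  rw [inner_sub_left, sub_add_cancel]

/-- it suffices to test on a set with dense span, for bounded sequences. -/
theorem WeakTo.of_dense {x : ℕ → H} {y : H} {M : ℝ} (hM : ∀ n, ‖x n‖ ≤ M) {S : Set H}
    (hS : Dense (Submodule.span 𝕜 S : Set H))
    (h : ∀ z ∈ S, Tendsto (fun n => ⟪z, x n⟫_𝕜) atTop (𝓝 ⟪z, y⟫_𝕜)) : WeakTo 𝕜 x y := by
  have hspan : ∀ z ∈ Submodule.span 𝕜 S, Tendsto (fun n => ⟪z, x n⟫_𝕜) atTop (𝓝 ⟪z, y⟫_𝕜) := by
    intro z hz
    induction hz using Submodule.span_induction with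
    | mem z hz => exact h z hz
    | zero => simp
    | add a b _ _ ha hb => simpa only [inner_add_left] using ha.add hb
    | smul c a _ ha => simpa only [inner_smul_left] using ha.const_mul _
  have hM0 : 0 ≤ M := (norm_nonneg _).trans (hM 0)
  intro z
  rw [Metric.tendsto_atTop]
  intro ε hε
  set δ : ℝ := ε / (2 * (M + ‖y‖ + 1)) with hδ
  have hpos : 0 < M + ‖y‖ + 1 := by positivity
  have hδpos : 0 < δ := by positivity
  obtain ⟨z', hz', hzz'⟩ := Metric.dense_iff.1 hS z δ hδpos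
  rw [Metric.mem_ball, dist_eq_norm] at hz'
  obtain ⟨N, hN⟩ := Metric.tendsto_atTop.1 (hspan z' hzz') (ε / 2) (by positivity)
  refine ⟨N, fun n hn => ?_⟩
  have h1 := hN n hn
  rw [dist_eq_norm] at h1 ⊢
  have e : ⟪z, x n⟫_𝕜 - ⟪z, y⟫_𝕜 = (⟪z', x n⟫_𝕜 - ⟪z', y⟫_𝕜) - ⟪z' - z, x n⟫_𝕜 + ⟪z' - z, y⟫_𝕜 := by
    simp only [inner_sub_left]; ring
  have h2 : ‖⟪z' - z, x n⟫_𝕜‖ ≤ δ * M :=
    (norm_inner_le_norm _ _).trans (mul_le_mul hz'.le (hM n) (norm_nonneg _) hδpos.le)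
  have h3 : ‖⟪z' - z, y⟫_𝕜‖ ≤ δ * ‖y‖ :=
    (norm_inner_le_norm _ _).trans (mul_le_mul_of_nonneg_right hz'.le (norm_nonneg _))
  have h4 : δ * M + δ * ‖y‖ < ε / 2 := by
    have : δ * (2 * (M + ‖y‖ + 1)) = ε := by
      rw [hδ]; field_simp
    nlinarith
  calc ‖⟪z, x n⟫_𝕜 - ⟪z, y⟫_𝕜‖
      ≤ ‖⟪z', x n⟫_𝕜 - ⟪z', y⟫_𝕜‖ + ‖⟪z' - z, x n⟫_𝕜‖ + ‖⟪z' - z, y⟫_𝕜‖ := by
        rw [e]
        exact (norm_add_le _ _).trans (add_le_add_left (norm_sub_le _ _) _)
    _ < ε := by linarith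

/-- a sequence which converges along `φ` converges along every strictly increasing `φ'` whose values eventually
lie in the range of `φ`. -/
theorem fsc_tendsto_of_range {α : Type*} {u : ℕ → α} {l : Filter α} {φ φ' : ℕ → ℕ}
    (h : Tendsto (fun n => u (φ n)) atTop l) (hφ' : StrictMono φ')
    (hr : ∀ᶠ n in atTop, φ' n ∈ Set.range φ) : Tendsto (fun n => u (φ' n)) atTop l := by
  classical
  set m : ℕ → ℕ := fun n => if hn : φ' n ∈ Set.range φ then hn.choose else 0 with hm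
  have hm1 : ∀ᶠ n in atTop, φ (m n) = φ' n := by
    filter_upwards [hr] with n hn
    simp only [hm, dif_pos hn]
    exact hn.choose_spec
  have hm2 : Tendsto m atTop atTop := by
    rw [tendsto_atTop]
    intro N
    have h1 : ∀ᶠ n in atTop, (Finset.range N).sup φ < φ' n :=
      hφ'.tendsto_atTop.eventually_gt_atTop _
    filter_upwards [hm1, h1] with n hn1 hn2
    by_contra hlt
    have : φ (m n) ≤ (Finset.range N).sup φ := Finset.le_sup (Finset.mem_range.2 (not_le.1 hlt))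
    omega
  refine (h.comp hm2).congr' ?_
  filter_upwards [hm1] with n hn
  simp only [Function.comp_apply, hn]

/-- simultaneous extraction for finitely many properties. -/
theorem fsc_exists_subseq_finset {ι : Type*} (s : Finset ι) {Q : ι → (ℕ → ℕ) → Prop}
    (hext : ∀ j (φ : ℕ → ℕ), StrictMono φ → ∃ ψ : ℕ → ℕ, StrictMono ψ ∧ Q j (φ ∘ ψ))
    (hsub : ∀ j (φ ψ : ℕ → ℕ), Q j φ → StrictMono ψ → Q j (φ ∘ ψ)) :
    ∃ φ : ℕ → ℕ, StrictMono φ ∧ ∀ j ∈ s, Q j φ := by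
  classical
  induction s using Finset.induction_on with
  | empty => exact ⟨id, strictMono_id, by simp⟩
  | insert a s _ ih =>
    obtain ⟨φ, hφ, hQ⟩ := ih
    obtain ⟨ψ, hψ, hQa⟩ := hext a φ hφ
    refine ⟨φ ∘ ψ, hφ.comp hψ, fun j hj => ?_⟩
    rcases Finset.mem_insert.1 hj with rfl | hj
    · exact hQa
    · exact hsub j φ ψ (hQ j hj) hψ

variable [CompleteSpace H]

theorem WeakTo.clm {H' : Type*} [NormedAddCommGroup H'] [InnerProductSpace 𝕜 H'] [CompleteSpace H']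
    {x : ℕ → H} {y : H} (h : WeakTo 𝕜 x y) (T : H →L[𝕜] H') : WeakTo 𝕜 (fun n => T (x n)) (T y) := fun z => by
  simpa only [ContinuousLinearMap.adjoint_inner_left] using h (ContinuousLinearMap.adjoint T z)

/-- closed subspaces are weakly sequentially closed. -/
theorem WeakTo.mem_submodule {x : ℕ → H} {y : H} (h : WeakTo 𝕜 x y) {K : Submodule 𝕜 H}
    (hK : IsClosed (K : Set H)) (hx : ∃ᶠ n in atTop, x n ∈ K) : y ∈ K := by
  have : CompleteSpace K := hK.completeSpace_coe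
  rw [← Submodule.orthogonal_orthogonal K, Submodule.mem_orthogonal]
  intro z hz
  by_contra hne
  have h1 := (h z).eventually_ne hne
  obtain ⟨n, hn1, hn2⟩ := (hx.and_eventually h1).exists
  exact hn2 (Submodule.inner_left_of_mem_orthogonal hn1 hz)

variable (𝕜) in
/-- **weak sequential compactness of bounded sets.** -/
theorem exists_weak_subseq {x : ℕ → H} {M : ℝ} (hx : ∀ n, ‖x n‖ ≤ M) :
    ∃ (φ : ℕ → ℕ) (y : H), StrictMono φ ∧ ‖y‖ ≤ M ∧ WeakTo 𝕜 (x ∘ φ) y := by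
  classical
  set K : Submodule 𝕜 H := (Submodule.span 𝕜 (Set.range x)).topologicalClosure with hK
  have hKc : IsClosed (K : Set H) := Submodule.isClosed_topologicalClosure _
  have : CompleteSpace K := hKc.completeSpace_coe
  have : TopologicalSpace.SeparableSpace K := by
    have h1 : TopologicalSpace.IsSeparable (K : Set H) := by
      rw [hK, Submodule.topologicalClosure_coe]
      exact ((Set.countable_range x).isSeparable.span (R := 𝕜)).closure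
    exact h1.separableSpace
  have hxK : ∀ n, x n ∈ K := fun n =>
    Submodule.le_topologicalClosure _ (Submodule.subset_span ⟨n, rfl⟩)
  set xK : ℕ → K := fun n => ⟨x n, hxK n⟩ with hxKdef
  set ℓ : ℕ → WeakDual 𝕜 K := fun n => StrongDual.toWeakDual (InnerProductSpace.toDual 𝕜 K (xK n)) with hℓ
  have hmem : ∀ n, ℓ n ∈ WeakDual.toStrongDual ⁻¹' Metric.closedBall (0 : StrongDual 𝕜 K) M := by
    intro n
    simp only [hℓ, Set.mem_preimage, mem_closedBall_zero_iff]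
    show ‖InnerProductSpace.toDual 𝕜 K (xK n)‖ ≤ M
    rw [LinearIsometryEquiv.norm_map]
    exact hx n
  obtain ⟨a, -, φ, hφ, hlim⟩ := WeakDual.isSeqCompact_closedBall 𝕜 K 0 M hmem
  set yK : K := (InnerProductSpace.toDual 𝕜 K).symm (WeakDual.toStrongDual a) with hyK
  have hpt : ∀ z : K, Tendsto (fun n => ⟪xK (φ n), z⟫_𝕜) atTop (𝓝 ⟪yK, z⟫_𝕜) := by
    intro z
    have h1 := ((WeakDual.eval_continuous z).tendsto a).comp hlim
    have e : a z = ⟪yK, z⟫_𝕜 := by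
      rw [hyK, InnerProductSpace.toDual_symm_apply]
      rfl
    rw [e] at h1
    exact h1
  have hw : WeakTo 𝕜 (x ∘ φ) (yK : H) := by
    intro z
    have h1 := (RCLike.continuous_conj.tendsto _).comp (hpt (K.orthogonalProjectionOnto z))
    simp only [Function.comp_def, inner_conj_symm] at h1
    have e : ∀ u : K, ⟪K.orthogonalProjectionOnto z, u⟫_𝕜 = ⟪z, (u : H)⟫_𝕜 := fun u =>
      Submodule.inner_orthogonalProjectionOnto_eq_of_mem_right u z
    simp only [e] at h1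
    exact h1
  exact ⟨φ, yK, hφ, hw.norm_le (Frequently.of_forall fun n => hx _), hw⟩

variable (𝕜) in
/-- simultaneous extraction for finitely many sequences. -/
theorem exists_weak_subseq_fin {ι : Type*} [Finite ι] {x : ι → ℕ → H} {M : ℝ} (hx : ∀ i n, ‖x i n‖ ≤ M) :
    ∃ (φ : ℕ → ℕ) (y : ι → H), StrictMono φ ∧ ∀ i, ‖y i‖ ≤ M ∧ WeakTo 𝕜 (x i ∘ φ) (y i) := by
  classical
  have := Fintype.ofFinite ι
  obtain ⟨φ, hφ, hQ⟩ := fsc_exists_subseq_finset (Finset.univ : Finset ι)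
    (Q := fun i φ => ∃ y : H, ‖y‖ ≤ M ∧ WeakTo 𝕜 (x i ∘ φ) y)
    (fun i φ _ => by
      obtain ⟨ψ, y, hψ, hy, hw⟩ := exists_weak_subseq 𝕜 (x := x i ∘ φ) (M := M) fun n => hx i _
      exact ⟨ψ, hψ, y, hy, hw⟩)
    (fun i φ ψ ⟨y, hy, hw⟩ hψ => ⟨y, hy, hw.comp hψ⟩)
  choose y hy using fun i => hQ i (Finset.mem_univ i)
  exact ⟨φ, y, hφ, hy⟩

/-- the abstract diagonal principle: `P k φ` = "the subsequence `φ` is good at level `k`"; goodness passes to
subsequences-up-to-finitely-many-terms, and every subsequence has a further subsequence which is good at level `k`. -/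
theorem exists_diagonal_subseq {P : ℕ → (ℕ → ℕ) → Prop}
    (hext : ∀ k (φ : ℕ → ℕ), StrictMono φ → ∃ ψ : ℕ → ℕ, StrictMono ψ ∧ P k (φ ∘ ψ))
    (hsub : ∀ k (φ φ' : ℕ → ℕ), P k φ → StrictMono φ' → (∀ᶠ n in atTop, φ' n ∈ Set.range φ) → P k φ') :
    ∃ φ : ℕ → ℕ, StrictMono φ ∧ ∀ k, P k φ := by
  classical
  choose! ψ hψ1 hψ2 using hext
  set Φ : ℕ → (ℕ → ℕ) := fun k => Nat.rec (id ∘ ψ 0 id) (fun k Φk => Φk ∘ ψ (k + 1) Φk) k with hΦ
  have hΦ0 : Φ 0 = id ∘ ψ 0 id := rfl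
  have hΦs : ∀ k, Φ (k + 1) = Φ k ∘ ψ (k + 1) (Φ k) := fun k => rfl
  have hmono : ∀ k, StrictMono (Φ k) := by
    intro k
    induction k with
    | zero => rw [hΦ0]; exact strictMono_id.comp (hψ1 0 id strictMono_id)
    | succ k ih => rw [hΦs]; exact ih.comp (hψ1 (k + 1) _ ih)
  have hP : ∀ k, P k (Φ k) := by
    intro k
    cases k with
    | zero => rw [hΦ0]; exact hψ2 0 id strictMono_id
    | succ k => rw [hΦs]; exact hψ2 (k + 1) _ (hmono k)
  have hrange : ∀ k n, k ≤ n → Set.range (Φ n) ⊆ Set.range (Φ k) := by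
    intro k n hkn
    induction n, hkn using Nat.le_induction with
    | base => exact subset_rfl
    | succ n _ ih =>
      refine subset_trans ?_ ih
      rw [hΦs]
      exact Set.range_comp_subset_range _ _
  refine ⟨fun n => Φ n n, strictMono_nat_of_lt_succ fun n => ?_, fun k => ?_⟩
  · show Φ n n < Φ (n + 1) (n + 1)
    rw [hΦs]
    exact hmono n (lt_of_lt_of_le (Nat.lt_succ_self n) ((hψ1 (n + 1) _ (hmono n)).le_apply))
  · refine hsub k (Φ k) _ (hP k) (strictMono_nat_of_lt_succ fun n => ?_) ?_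
    · show Φ n n < Φ (n + 1) (n + 1)
      rw [hΦs]
      exact hmono n (lt_of_lt_of_le (Nat.lt_succ_self n) ((hψ1 (n + 1) _ (hmono n)).le_apply))
    · filter_upwards [eventually_ge_atTop k] with n hn
      exact hrange k n hn ⟨n, rfl⟩

variable (𝕜) in
/-- simultaneous (diagonal) extraction for countably many sequences, each with its own bound. -/
theorem exists_weak_subseq_nat {x : ℕ → ℕ → H} {M : ℕ → ℝ} (hx : ∀ k n, ‖x k n‖ ≤ M k) :
    ∃ (φ : ℕ → ℕ) (y : ℕ → H), StrictMono φ ∧ ∀ k, ‖y k‖ ≤ M k ∧ WeakTo 𝕜 (x k ∘ φ) (y k) := by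
  obtain ⟨φ, hφ, hQ⟩ := exists_diagonal_subseq
    (P := fun k φ => ∃ y : H, ‖y‖ ≤ M k ∧ WeakTo 𝕜 (x k ∘ φ) y)
    (fun k φ _ => by
      obtain ⟨ψ, y, hψ, hy, hw⟩ := exists_weak_subseq 𝕜 (x := x k ∘ φ) (M := M k) fun n => hx k _
      exact ⟨ψ, hψ, y, hy, hw⟩)
    (fun k φ φ' ⟨y, hy, hw⟩ hφ' hr => ⟨y, hy, fun z =>
      fsc_tendsto_of_range (u := fun n => ⟪z, x k n⟫_𝕜) (hw z) hφ' hr⟩)
  choose y hy using hQ
  exact ⟨φ, y, hφ, hy⟩

end C1

variable {X : Type*} [NormedAddCommGroup X] [NormedSpace ℝ X] [FiniteDimensional ℝ X]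
  [MeasurableSpace X] [BorelSpace X] {μ : Measure X} [μ.IsAddHaarMeasure]
  {𝕜 : Type*} [RCLike 𝕜] {H : Type*} [NormedAddCommGroup H] [InnerProductSpace 𝕜 H] [NormedSpace ℝ H]
  [CompleteSpace H]

/-! ## LEAF FS-C2: weak convergence of raw `L²` functions; weak `L²_loc` compactness -/

section C2

variable (𝕜) in
/-- weak `L²` convergence of raw functions. -/
def WeakL2 (μ : Measure X) (f : ℕ → X → H) (f' : X → H) : Prop :=
  ∀ w : X → H, MemLp w 2 μ → Tendsto (fun n => ∫ x, ⟪w x, f n x⟫_𝕜 ∂μ) atTop (𝓝 (∫ x, ⟪w x, f' x⟫_𝕜 ∂μ))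

theorem fsc_int_sq {α : Type*} [MeasurableSpace α] {ν : Measure α} {E' : Type*} [NormedAddCommGroup E']
    {a : α → E'} (ha : MemLp a 2 ν) : Integrable (fun x => ‖a x‖ ^ 2) ν :=
  (memLp_two_iff_integrable_sq_norm ha.1).1 ha

theorem fsc_inner_toLp (w : Lp H 2 μ) {a : X → H} (ha : MemLp a 2 μ) :
    ⟪w, ha.toLp a⟫_𝕜 = ∫ x, ⟪w x, a x⟫_𝕜 ∂μ := by
  rw [L2.inner_def]
  refine integral_congr_ae ?_
  filter_upwards [ha.coeFn_toLp] with x hx
  rw [hx]

theorem fsc_inner_toLp_toLp {w a : X → H} (hw : MemLp w 2 μ) (ha : MemLp a 2 μ) :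
    ⟪hw.toLp w, ha.toLp a⟫_𝕜 = ∫ x, ⟪w x, a x⟫_𝕜 ∂μ := by
  rw [fsc_inner_toLp]
  refine integral_congr_ae ?_
  filter_upwards [hw.coeFn_toLp] with x hx
  rw [hx]

theorem weakL2_iff_weakTo {f : ℕ → X → H} {f' : X → H} (hf : ∀ n, MemLp (f n) 2 μ) (hf' : MemLp f' 2 μ) :
    WeakL2 𝕜 μ f f' ↔ WeakTo 𝕜 (fun n => (hf n).toLp (f n)) (hf'.toLp f') := by
  constructor
  · intro h z
    simp only [fsc_inner_toLp]
    exact h z (Lp.memLp z)
  · intro h w hw
    have := h (hw.toLp w)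
    simpa only [fsc_inner_toLp_toLp] using this

theorem WeakL2.integral_norm_sq_le {f : ℕ → X → H} {f' : X → H} (h : WeakL2 𝕜 μ f f')
    (hf : ∀ n, MemLp (f n) 2 μ) (hf' : MemLp f' 2 μ) {B : ℝ} (hB : ∃ᶠ n in atTop, ∫ x, ‖f n x‖ ^ 2 ∂μ ≤ B) :
    ∫ x, ‖f' x‖ ^ 2 ∂μ ≤ B := by
  have h1 := ((weakL2_iff_weakTo hf hf').1 h).norm_le (M := √B) (hB.mono fun n hn => by
    rw [fs_norm_toLp]
    exact Real.sqrt_le_sqrt hn)
  rw [fs_norm_toLp] at h1
  obtain ⟨n, hn⟩ := hB.exists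
  have hB0 : 0 ≤ B := (integral_nonneg fun x => sq_nonneg _).trans hn
  exact (Real.sqrt_le_sqrt_iff hB0).1 h1

variable (𝕜) in
theorem exists_weakL2_subseq {f : ℕ → X → H} (hf : ∀ n, MemLp (f n) 2 μ) {B : ℝ}
    (hB : ∀ n, ∫ x, ‖f n x‖ ^ 2 ∂μ ≤ B) :
    ∃ (φ : ℕ → ℕ) (f' : X → H), StrictMono φ ∧ MemLp f' 2 μ ∧ ∫ x, ‖f' x‖ ^ 2 ∂μ ≤ B ∧
      WeakL2 𝕜 μ (f ∘ φ) f' := by
  obtain ⟨φ, y, hφ, -, hw⟩ := exists_weak_subseq 𝕜 (x := fun n => (hf n).toLp (f n)) (M := √B) fun n => by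
    rw [fs_norm_toLp]
    exact Real.sqrt_le_sqrt (hB n)
  have hw' : WeakL2 𝕜 μ (f ∘ φ) y := by
    refine (weakL2_iff_weakTo (f := f ∘ φ) (fun n => hf (φ n)) (Lp.memLp y)).2 ?_
    rw [Lp.toLp_coeFn]
    exact hw
  exact ⟨φ, y, hφ, Lp.memLp y, hw'.integral_norm_sq_le (fun n => hf (φ n)) (Lp.memLp y)
    (Frequently.of_forall fun n => hB (φ n)), hw'⟩

/-- the weak derivative passes to weak `L²_loc` limits. -/
theorem fsc_wd_of_weak_loc {v : X} {f g : ℕ → X → H} {f' g' : X → H} (h : ∀ n, WD μ v (f n) (g n))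
    (hf' : LocallyIntegrable f' μ) (hg' : LocallyIntegrable g' μ)
    (h1 : ∀ w : X → H, MemLp w 2 μ → HasCompactSupport w →
      Tendsto (fun n => ∫ x, ⟪w x, f n x⟫_𝕜 ∂μ) atTop (𝓝 (∫ x, ⟪w x, f' x⟫_𝕜 ∂μ)))
    (h2 : ∀ w : X → H, MemLp w 2 μ → HasCompactSupport w →
      Tendsto (fun n => ∫ x, ⟪w x, g n x⟫_𝕜 ∂μ) atTop (𝓝 (∫ x, ⟪w x, g' x⟫_𝕜 ∂μ))) : WD μ v f' g' := by
  refine ⟨hf', hg', fun φ hφ hc => ?_⟩
  have hφ1 : ContDiff ℝ 1 φ := hφ.of_le fs_one_le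
  refine ext_inner_left 𝕜 fun z => ?_
  -- moving the scalar test function into the first slot
  have key : ∀ (ψ : X → ℝ), Continuous ψ → HasCompactSupport ψ → ∀ u : X → H, LocallyIntegrable u μ →
      ⟪z, ∫ x, ψ x • u x ∂μ⟫_𝕜 = ∫ x, ⟪ψ x • z, u x⟫_𝕜 ∂μ := by
    intro ψ hψ hψc u hu
    have := (innerB 𝕜 H z).integral_comp_comm (fs_int hu hψ hψc)
    rw [innerB_apply] at this
    rw [← this]
    refine integral_congr_ae (Eventually.of_forall fun x => ?_)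
    simp only [innerB_apply]
    rw [fs_inner_smul_left, fs_inner_smul_right]
  have hmem : ∀ (ψ : X → ℝ), Continuous ψ → HasCompactSupport ψ →
      MemLp (fun x => ψ x • z) 2 μ ∧ HasCompactSupport (fun x => ψ x • z) := by
    intro ψ hψ hψc
    have hc' : HasCompactSupport (fun x => ψ x • z) := hψc.smul_right
    exact ⟨(hψ.smul continuous_const).memLp_of_hasCompactSupport hc', hc'⟩
  have hd : Continuous fun x => fderiv ℝ φ x v := fs_cont_d hφ1 v
  have hdc : HasCompactSupport fun x => fderiv ℝ φ x v := hc.fderiv_apply (𝕜 := ℝ) v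
  have t1 := h1 _ (hmem _ hd hdc).1 (hmem _ hd hdc).2
  have t2 := h2 _ (hmem _ hφ1.continuous hc).1 (hmem _ hφ1.continuous hc).2
  have e : ∀ n, ∫ x, ⟪fderiv ℝ φ x v • z, f n x⟫_𝕜 ∂μ = - ∫ x, ⟪φ x • z, g n x⟫_𝕜 ∂μ := by
    intro n
    rw [← key _ hd hdc _ (h n).locf, ← key _ hφ1.continuous hc _ (h n).locg, (h n).weak φ hφ hc, inner_neg_right]
  simp only [e] at t1
  rw [key _ hd hdc _ hf', inner_neg_right, key _ hφ1.continuous hc _ hg']
  exact tendsto_nhds_unique t1 t2.neg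

/-- the weak derivative passes to weak limits. -/
theorem WD2.of_weakL2 {v : X} {f g : ℕ → X → H} {f' g' : X → H} (h : ∀ n, WD2 μ v (f n) (g n))
    (hf' : MemLp f' 2 μ) (hg' : MemLp g' 2 μ) (h1 : WeakL2 𝕜 μ f f') (h2 : WeakL2 𝕜 μ g g') : WD2 μ v f' g' :=
  ⟨hf', hg', (fsc_wd_of_weak_loc (𝕜 := 𝕜) (fun n => (h n).wd) (hf'.locallyIntegrable (by norm_num))
    (hg'.locallyIntegrable (by norm_num)) (fun w hw _ => h1 w hw) (fun w hw _ => h2 w hw)).weak⟩

/-- the annuli `{⌈‖x‖⌉₊ = k}`: a measurable partition of `X` into bounded sets. -/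
def fscAnn (X : Type*) [NormedAddCommGroup X] (k : ℕ) : Set X := {x | ⌈‖x‖⌉₊ = k}

theorem fscAnn_measurable (k : ℕ) : MeasurableSet (fscAnn X k) := by
  have : Measurable fun x : X => ⌈‖x‖⌉₊ := Nat.measurable_ceil.comp measurable_norm
  exact this (measurableSet_singleton k)

theorem fscAnn_subset (k : ℕ) : fscAnn X k ⊆ Metric.closedBall 0 k := by
  intro x hx
  rw [mem_closedBall_zero_iff]
  have : ⌈‖x‖⌉₊ = k := hx
  rw [← this]
  exact Nat.le_ceil _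

theorem fsc_integral_indicator_sq {s : Set X} (hs : MeasurableSet s) (f : X → H) :
    ∫ x, ‖s.indicator f x‖ ^ 2 ∂μ = ∫ x in s, ‖f x‖ ^ 2 ∂μ := by
  rw [← integral_indicator hs]
  refine integral_congr_ae (Eventually.of_forall fun x => ?_)
  by_cases hx : x ∈ s <;> simp [hx]

theorem fsc_sum_ann {G : Type*} [AddCommMonoid G] {m : ℕ} {x : X} (hx : ‖x‖ ≤ m) (u : ℕ → X → G) :
    ∑ k ∈ Finset.range (m + 1), (fscAnn X k).indicator (u k) x = u ⌈‖x‖⌉₊ x := by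
  have hk : ⌈‖x‖⌉₊ ≤ m := Nat.ceil_le.2 hx
  rw [Finset.sum_eq_single ⌈‖x‖⌉₊]
  · exact Set.indicator_of_mem (show x ∈ fscAnn X ⌈‖x‖⌉₊ from rfl) _
  · intro k _ hne
    have hx' : x ∉ fscAnn X k := fun h : ⌈‖x‖⌉₊ = k => hne h.symm
    exact Set.indicator_of_notMem hx' _
  · intro h
    exact absurd (Finset.mem_range.2 (Nat.lt_succ_of_le hk)) h

theorem fsc_inner_eq_sum {w : X → H} {m : ℕ} (hw : ∀ x, (m : ℝ) < ‖x‖ → w x = 0) (u : X → H) (x : X) :
    ⟪w x, u x⟫_𝕜 = ∑ k ∈ Finset.range (m + 1), ⟪w x, (fscAnn X k).indicator u x⟫_𝕜 := by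
  by_cases hx : (m : ℝ) < ‖x‖
  · simp [hw x hx]
  · rw [← inner_sum, fsc_sum_ann (not_lt.1 hx) fun _ => u]

theorem fsc_exists_nat_of_compactSupport {G : Type*} [Zero G] {w : X → G} (hc : HasCompactSupport w) :
    ∃ m : ℕ, ∀ x, (m : ℝ) < ‖x‖ → w x = 0 := by
  obtain ⟨R, hR⟩ := hc.isCompact.isBounded.exists_norm_le
  refine ⟨⌈R⌉₊, fun x hx => image_eq_zero_of_notMem_tsupport fun hxs => ?_⟩
  exact absurd ((hR x hxs).trans (Nat.le_ceil R)) (not_le.2 hx)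

variable (𝕜) in
/-- **weak `L²_loc` compactness** (replaces weak-* compactness in `L^∞`): diagonal extraction over the balls. -/
theorem exists_weak_L2loc_subseq {f : ℕ → X → H} (hf : ∀ n, L2Loc μ (f n))
    (hB : ∀ K : Set X, IsCompact K → ∃ B : ℝ, ∀ n, ∫ x in K, ‖f n x‖ ^ 2 ∂μ ≤ B) :
    ∃ (φ : ℕ → ℕ) (f' : X → H), StrictMono φ ∧ L2Loc μ f' ∧
      ∀ w : X → H, MemLp w 2 μ → HasCompactSupport w →
        Tendsto (fun n => ∫ x, ⟪w x, f (φ n) x⟫_𝕜 ∂μ) atTop (𝓝 (∫ x, ⟪w x, f' x⟫_𝕜 ∂μ)) := by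
  classical
  have : ProperSpace X := FiniteDimensional.proper ℝ X
  choose B hB' using fun k : ℕ => hB (Metric.closedBall (0 : X) k) (isCompact_closedBall _ _)
  have hm : ∀ k n, MemLp ((fscAnn X k).indicator (f n)) 2 μ := fun k n =>
    (memLp_indicator_iff_restrict (fscAnn_measurable k)).2
      ((hf n _ (isCompact_closedBall 0 k)).mono_measure (Measure.restrict_mono (fscAnn_subset k) le_rfl))
  have hb : ∀ k n, ‖(hm k n).toLp _‖ ≤ √(B k) := fun k n => by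
    rw [fs_norm_toLp, fsc_integral_indicator_sq (fscAnn_measurable k)]
    refine Real.sqrt_le_sqrt (le_trans ?_ (hB' k n))
    exact setIntegral_mono_set (fsc_int_sq (hf n _ (isCompact_closedBall 0 k)))
      (Eventually.of_forall fun x => sq_nonneg _) (fscAnn_subset k).eventuallyLE
  obtain ⟨φ, y, hφ, hy⟩ := exists_weak_subseq_nat 𝕜 hb
  set f' : X → H := fun x => y ⌈‖x‖⌉₊ x with hf'
  -- (I) convergence on each annulus
  have hI : ∀ k (w : X → H), MemLp w 2 μ →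
      Tendsto (fun n => ∫ x, ⟪w x, (fscAnn X k).indicator (f (φ n)) x⟫_𝕜 ∂μ) atTop
        (𝓝 (∫ x, ⟪w x, y k x⟫_𝕜 ∂μ)) := by
    intro k w hw
    have h1 := (hy k).2 (hw.toLp w)
    have e : ⟪hw.toLp w, y k⟫_𝕜 = ∫ x, ⟪w x, y k x⟫_𝕜 ∂μ := by
      rw [← fsc_inner_toLp_toLp hw (Lp.memLp (y k)), Lp.toLp_coeFn]
    rw [e] at h1
    simpa only [Function.comp_apply, fsc_inner_toLp_toLp] using h1
  -- (II) the limits live on the annuli
  have hII : ∀ k (w : X → H), MemLp w 2 μ →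
      ∫ x, ⟪w x, y k x⟫_𝕜 ∂μ = ∫ x, ⟪w x, (fscAnn X k).indicator f' x⟫_𝕜 ∂μ := by
    intro k w hw
    have h1 := hI k w hw
    have h2 := hI k _ (hw.indicator (fscAnn_measurable k))
    have e1 : ∀ n, ∫ x, ⟪(fscAnn X k).indicator w x, (fscAnn X k).indicator (f (φ n)) x⟫_𝕜 ∂μ
        = ∫ x, ⟪w x, (fscAnn X k).indicator (f (φ n)) x⟫_𝕜 ∂μ := fun n =>
      integral_congr_ae (Eventually.of_forall fun x => by
        by_cases hx : x ∈ fscAnn X k <;> simp [hx])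
    simp only [e1] at h2
    rw [tendsto_nhds_unique h1 h2]
    refine integral_congr_ae (Eventually.of_forall fun x => ?_)
    by_cases hx : x ∈ fscAnn X k
    · have hx' : ⌈‖x‖⌉₊ = k := hx
      simp only [Set.indicator_of_mem hx, hf', hx']
    · simp [hx]
  have hmf' : ∀ k, MemLp ((fscAnn X k).indicator f') 2 μ := by
    intro k
    have e : (fscAnn X k).indicator f' = (fscAnn X k).indicator (y k) := by
      funext x
      by_cases hx : x ∈ fscAnn X k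
      · have hx' : ⌈‖x‖⌉₊ = k := hx
        simp only [Set.indicator_of_mem hx, hf', hx']
      · simp [hx]
    rw [e]
    exact (Lp.memLp (y k)).indicator (fscAnn_measurable k)
  refine ⟨φ, f', hφ, ?_, ?_⟩
  · intro K hK
    obtain ⟨R, hR⟩ := hK.isBounded.exists_norm_le
    have h1 : MemLp (fun x => ∑ k ∈ Finset.range (⌈R⌉₊ + 1), (fscAnn X k).indicator f' x) 2 μ :=
      memLp_finsetSum _ fun k _ => hmf' k
    refine (h1.restrict K).ae_eq ?_
    filter_upwards [ae_restrict_mem hK.measurableSet] with x hx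
    exact fsc_sum_ann ((hR x hx).trans (Nat.le_ceil R)) fun _ => f'
  · intro w hw hc
    obtain ⟨m, hm0⟩ := fsc_exists_nat_of_compactSupport hc
    have e1 : ∀ n, ∫ x, ⟪w x, f (φ n) x⟫_𝕜 ∂μ
        = ∑ k ∈ Finset.range (m + 1), ∫ x, ⟪w x, (fscAnn X k).indicator (f (φ n)) x⟫_𝕜 ∂μ := by
      intro n
      rw [← integral_finsetSum _ fun k _ => fs_integrable_inner hw (hm k (φ n))]
      exact integral_congr_ae (Eventually.of_forall fun x => fsc_inner_eq_sum hm0 _ x)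
    have e2 : ∫ x, ⟪w x, f' x⟫_𝕜 ∂μ = ∑ k ∈ Finset.range (m + 1), ∫ x, ⟪w x, y k x⟫_𝕜 ∂μ := by
      simp only [hII _ w hw]
      rw [← integral_finsetSum _ fun k _ => fs_integrable_inner hw (hmf' k)]
      exact integral_congr_ae (Eventually.of_forall fun x => fsc_inner_eq_sum hm0 _ x)
    simp only [e1]
    rw [e2]
    exact tendsto_finsetSum _ fun k _ => hI k w hw

/-- pointwise a.e. bounds pass to weak `L²_loc` limits (real valued case). -/
theorem ae_le_of_weak_L2loc {f : ℕ → X → ℝ} {f' : X → ℝ} (hf : ∀ n, L2Loc μ (f n)) (hf' : L2Loc μ f')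
    (h : ∀ w : X → ℝ, MemLp w 2 μ → HasCompactSupport w →
      Tendsto (fun n => ∫ x, w x * f n x ∂μ) atTop (𝓝 (∫ x, w x * f' x ∂μ)))
    {b : X → ℝ} (hb : L2Loc μ b) (hle : ∀ n, ∀ᵐ x ∂μ, f n x ≤ b x) : ∀ᵐ x ∂μ, f' x ≤ b x := by
  have : ProperSpace X := FiniteDimensional.proper ℝ X
  have key : ∀ k : ℕ, ∀ᵐ x ∂μ, x ∈ Metric.closedBall (0 : X) k → f' x ≤ b x := by
    intro k
    set K := Metric.closedBall (0 : X) k with hKdef
    have hK : IsCompact K := isCompact_closedBall _ _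
    set w : X → ℝ := K.indicator (fun x => max (f' x - b x) 0) with hwdef
    have hw : MemLp w 2 μ :=
      (memLp_indicator_iff_restrict hK.measurableSet).2 (((hf' K hK).sub (hb K hK)).pos_part)
    have hwc : HasCompactSupport w := HasCompactSupport.intro hK fun x hx => Set.indicator_of_notMem hx _
    have hw0 : ∀ x, 0 ≤ w x := fun x => Set.indicator_nonneg (fun x _ => le_max_right _ _) x
    have hint : ∀ u : X → ℝ, L2Loc μ u → Integrable (fun x => w x * u x) μ := by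
      intro u hu
      have e : (fun x => w x * u x) = fun x => w x * K.indicator u x := by
        funext x
        by_cases hx : x ∈ K <;> simp [hwdef, hx]
      rw [e]
      exact hw.integrable_mul (fs_memLp_indicator hu hK)
    have h1 : ∀ n, ∫ x, w x * f n x ∂μ ≤ ∫ x, w x * b x ∂μ := fun n =>
      integral_mono_ae (hint _ (hf n)) (hint _ hb) (by
        filter_upwards [hle n] with x hx
        exact mul_le_mul_of_nonneg_left hx (hw0 x))
    have h2 : ∫ x, w x * f' x ∂μ ≤ ∫ x, w x * b x ∂μ := le_of_tendsto' (h w hw hwc) h1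
    have h4 : ∀ x, w x ^ 2 = w x * f' x - w x * b x := by
      intro x
      by_cases hx : x ∈ K
      · simp only [hwdef, Set.indicator_of_mem hx]
        rcases le_total (f' x - b x) 0 with h0 | h0
        · rw [max_eq_right h0]; ring
        · rw [max_eq_left h0]; ring
      · simp [hwdef, hx]
    have h5 : ∫ x, w x ^ 2 ∂μ = 0 := by
      refine le_antisymm ?_ (integral_nonneg fun x => sq_nonneg _)
      simp only [h4]
      rw [integral_sub (hint _ hf') (hint _ hb)]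
      linarith
    have h6 := (integral_eq_zero_iff_of_nonneg (fun x => sq_nonneg _) hw.integrable_sq).1 h5
    filter_upwards [h6] with x hx hxK
    have h7 : w x = 0 := by simpa using hx
    simp only [hwdef, Set.indicator_of_mem hxK] at h7
    have := le_max_left (f' x - b x) 0
    linarith
  rw [← ae_all_iff] at key
  filter_upwards [key] with x hx
  obtain ⟨k, hk⟩ := exists_nat_ge ‖x‖
  exact hx k (mem_closedBall_zero_iff.2 hk)

end C2

/-! ## LEAF FS-C3: Rellich and the direct method package for raw functions (finite dimensional values) -/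

section C3

/-- in finite dimension the full derivative is controlled by the derivatives along a spanning family. -/
theorem exists_norm_fderiv_le {ι : Type*} [Fintype ι] {v : ι → X} (hv : Submodule.span ℝ (Set.range v) = ⊤) :
    ∃ C : ℝ, 0 ≤ C ∧ ∀ (E : Type _) [NormedAddCommGroup E] [NormedSpace ℝ E] (L : X →L[ℝ] E),
      ‖L‖ ^ 2 ≤ C * ∑ j, ‖L (v j)‖ ^ 2 := by
  classical
  have hr : LinearMap.range (Fintype.linearCombination ℝ v) = ⊤ := by
    rw [Fintype.range_linearCombination, hv]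
  obtain ⟨S, hS⟩ := (Fintype.linearCombination ℝ v).exists_rightInverse_of_surjective hr
  set Sc : X →L[ℝ] (ι → ℝ) := LinearMap.toContinuousLinearMap S with hSc
  refine ⟨‖Sc‖ ^ 2 * Fintype.card ι, by positivity, fun E _ _ L => ?_⟩
  have hx : ∀ x, ‖L x‖ ≤ (‖Sc‖ * ∑ j, ‖L (v j)‖) * ‖x‖ := by
    intro x
    have e : x = ∑ j, S x j • v j := by
      have := congrArg (fun T => T x) hS
      simpa [Fintype.linearCombination_apply] using this.symm
    calc ‖L x‖ = ‖∑ j, S x j • L (v j)‖ := by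
          conv_lhs => rw [e]
          simp
      _ ≤ ∑ j, ‖S x j • L (v j)‖ := norm_sum_le _ _
      _ ≤ ∑ j, (‖Sc‖ * ‖x‖) * ‖L (v j)‖ := by
          refine Finset.sum_le_sum fun j _ => ?_
          rw [norm_smul]
          gcongr
          exact (norm_le_pi_norm (Sc x) j).trans (Sc.le_opNorm x)
      _ = _ := by rw [← Finset.mul_sum]; ring
  have h1 : ‖L‖ ≤ ‖Sc‖ * ∑ j, ‖L (v j)‖ :=
    L.opNorm_le_bound (mul_nonneg (norm_nonneg _) (Finset.sum_nonneg fun _ _ => norm_nonneg _)) hx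
  calc ‖L‖ ^ 2 ≤ (‖Sc‖ * ∑ j, ‖L (v j)‖) ^ 2 := by gcongr
    _ = ‖Sc‖ ^ 2 * (∑ j, ‖L (v j)‖) ^ 2 := by ring
    _ ≤ ‖Sc‖ ^ 2 * (Fintype.card ι * ∑ j, ‖L (v j)‖ ^ 2) := by
        gcongr
        simpa using sq_sum_le_card_mul_sum_sq (s := Finset.univ) (f := fun j => ‖L (v j)‖)
    _ = _ := by ring

/-- the mollification of a function vanishing outside a ball vanishes outside the ball of radius `+1`. -/
theorem fsc_moll_eq_zero (n : ℕ) {f : X → H} {R : ℝ} (hs : ∀ x, R < ‖x‖ → f x = 0) {x : X}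
    (hx : R + 1 < ‖x‖) : moll μ (mollSeq μ n) f x = 0 := by
  rw [moll_apply]
  refine integral_eq_zero_of_ae (Eventually.of_forall fun t => ?_)
  by_cases ht : 1 / ((n : ℝ) + 1) ≤ ‖t‖
  · simp [fs_mollSeq_eq_zero ht]
  · have h1 : ‖t‖ < 1 := lt_of_lt_of_le (not_le.1 ht) (fs_rOut_le_one n)
    have h2 : R < ‖x - t‖ := by
      have := norm_sub_norm_le x t
      linarith
    simp [hs _ h2]

/-- squared distance in `Lp` as an integral. -/
theorem fsc_norm_toLp_sub {α : Type*} [MeasurableSpace α] {ν : Measure α} {E' : Type*} [NormedAddCommGroup E']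
    {a : α → E'} (ha : MemLp a 2 ν) (b : Lp E' 2 ν) :
    ‖ha.toLp a - b‖ ^ 2 = ∫ x, ‖a x - b x‖ ^ 2 ∂ν := by
  have e : ha.toLp a - b = (ha.sub (Lp.memLp b)).toLp (a - (b : α → E')) := by
    rw [MemLp.toLp_sub ha (Lp.memLp b), Lp.toLp_coeFn]
  rw [e, fs_norm_toLp, Real.sq_sqrt (integral_nonneg fun x => sq_nonneg _)]
  rfl

theorem fsc_norm_add_sq_le {E' : Type*} [SeminormedAddCommGroup E'] (a b : E') :
    ‖a + b‖ ^ 2 ≤ 2 * ‖a‖ ^ 2 + 2 * ‖b‖ ^ 2 := by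
  have h : ‖a + b‖ ≤ ‖a‖ + ‖b‖ := norm_add_le _ _
  have h2 : ‖a + b‖ ^ 2 ≤ (‖a‖ + ‖b‖) ^ 2 := pow_le_pow_left₀ (norm_nonneg _) h 2
  nlinarith [sq_nonneg (‖a‖ - ‖b‖)]

/-- triangle inequality for squared `L²` distances. -/
theorem fsc_integral_sub_sq_le {α : Type*} [MeasurableSpace α] {ν : Measure α} {E' : Type*}
    [NormedAddCommGroup E'] {a b c : α → E'} (ha : MemLp a 2 ν) (hb : MemLp b 2 ν) (hc : MemLp c 2 ν) :
    ∫ x, ‖a x - c x‖ ^ 2 ∂ν ≤ 2 * ∫ x, ‖a x - b x‖ ^ 2 ∂ν + 2 * ∫ x, ‖b x - c x‖ ^ 2 ∂ν := by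
  have i1 : Integrable (fun x => ‖a x - b x‖ ^ 2) ν := fsc_int_sq (ha.sub hb)
  have i2 : Integrable (fun x => ‖b x - c x‖ ^ 2) ν := fsc_int_sq (hb.sub hc)
  rw [← integral_const_mul, ← integral_const_mul, ← integral_add (i1.const_mul 2) (i2.const_mul 2)]
  refine integral_mono (fsc_int_sq (ha.sub hc)) ((i1.const_mul 2).add (i2.const_mul 2)) fun x => ?_
  have := fsc_norm_add_sq_le (a x - b x) (b x - c x)
  simpa using this

/-- **Rellich**, compactly supported form: `H¹`-bounded functions supported in a fixed compact set have an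
`L²`-convergent subsequence. -/
theorem rellich_of_support [ProperSpace H] {ι : Type*} [Fintype ι] {v : ι → X}
    (hv : Submodule.span ℝ (Set.range v) = ⊤) {f : ℕ → X → H} {g : ℕ → ι → X → H}
    (h : ∀ n j, WD2 μ (v j) (f n) (g n j)) {C : ℝ}
    (hC : ∀ n, ∫ x, ‖f n x‖ ^ 2 ∂μ + ∑ j, ∫ x, ‖g n j x‖ ^ 2 ∂μ ≤ C)
    {K : Set X} (hK : IsCompact K) (hs : ∀ n x, x ∉ K → f n x = 0) :
    ∃ (φ : ℕ → ℕ) (f' : X → H), StrictMono φ ∧ MemLp f' 2 μ ∧
      Tendsto (fun n => ∫ x, ‖f (φ n) x - f' x‖ ^ 2 ∂μ) atTop (𝓝 0) := by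
  classical
  -- the functions are in `L²` (also when `ι` is empty)
  have hmem : ∀ n, MemLp (f n) 2 μ := by
    intro n
    rcases isEmpty_or_nonempty ι with hι | ⟨⟨j⟩⟩
    · have hsub : Subsingleton X := by
        have : (⊥ : Submodule ℝ X) = ⊤ := by
          rw [← hv, Set.range_eq_empty v, Submodule.span_empty]
        exact (Submodule.subsingleton_iff ℝ).1 (subsingleton_of_bot_eq_top this)
      have hfin : IsFiniteMeasure μ := ⟨by
        have : (Set.univ : Set X) = {0} := by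
          ext x; simp [Subsingleton.elim x 0]
        rw [this]
        exact isCompact_singleton.measure_lt_top⟩
      have e : f n = fun _ => f n 0 := by
        funext x; rw [Subsingleton.elim x 0]
      rw [e]
      exact memLp_const _
    · exact (h n j).memf
  obtain ⟨C0, hC0, hL⟩ := exists_norm_fderiv_le hv
  obtain ⟨R, hR⟩ : ∃ R, ∀ x ∈ K, ‖x‖ ≤ R := hK.isBounded.exists_norm_le
  have hs' : ∀ n x, |R| < ‖x‖ → f n x = 0 := fun n x hx =>
    hs n x fun hxK => absurd (hR x hxK) (not_le.2 ((le_abs_self R).trans_lt hx))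
  have hnn : ∀ n j, 0 ≤ ∫ x, ‖g n j x‖ ^ 2 ∂μ := fun n j => integral_nonneg fun x => sq_nonneg _
  have hfC : ∀ n, ∫ x, ‖f n x‖ ^ 2 ∂μ ≤ C := fun n => by
    have := hC n
    have h2 : 0 ≤ ∑ j, ∫ x, ‖g n j x‖ ^ 2 ∂μ := Finset.sum_nonneg fun j _ => hnn n j
    linarith
  have hgC : ∀ n, ∑ j, ∫ x, ‖g n j x‖ ^ 2 ∂μ ≤ C := fun n => by
    have := hC n
    have h2 : 0 ≤ ∫ x, ‖f n x‖ ^ 2 ∂μ := integral_nonneg fun x => sq_nonneg _
    linarith
  have hCnn : 0 ≤ C := (integral_nonneg fun x => sq_nonneg _).trans (hfC 0)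
  -- mollify
  have hex : ∀ n : ℕ, ∃ N : ℕ, ∫ x, ‖moll μ (mollSeq μ N) (f n) x - f n x‖ ^ 2 ∂μ ≤ 1 / ((n : ℝ) + 1) := by
    intro n
    obtain ⟨N, hN⟩ := exists_moll_close (hmem n) (show 0 < 1 / ((n : ℝ) + 1) by positivity)
    exact ⟨N, hN N le_rfl⟩
  choose N hN using hex
  set u : ℕ → X → H := fun n => moll μ (mollSeq μ (N n)) (f n) with hu
  have hloc : ∀ n, LocallyIntegrable (f n) μ := fun n => (hmem n).locallyIntegrable (by norm_num)
  have hu1 : ∀ n, ContDiff ℝ 1 (u n) := fun n =>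
    (contDiff_moll (contDiff_mollSeq _) (hasCompactSupport_mollSeq _) (hloc n)).of_le fs_one_le
  have hu2 : ∀ n, MemLp (u n) 2 μ ∧ ∫ x, ‖u n x‖ ^ 2 ∂μ ≤ ∫ x, ‖f n x‖ ^ 2 ∂μ := fun n =>
    memLp_moll (continuous_mollSeq _) (hasCompactSupport_mollSeq _) (mollSeq_nonneg _) (integral_mollSeq _)
      (hmem n)
  have hu3 : ∀ n j x, fderiv ℝ (u n) x (v j) = moll μ (mollSeq μ (N n)) (g n j) x := fun n j x =>
    fderiv_moll (contDiff_mollSeq _) (hasCompactSupport_mollSeq _) (hloc n) (h n j).weak x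
  have hu4 : ∀ n j, MemLp (moll μ (mollSeq μ (N n)) (g n j)) 2 μ ∧
      ∫ x, ‖moll μ (mollSeq μ (N n)) (g n j) x‖ ^ 2 ∂μ ≤ ∫ x, ‖g n j x‖ ^ 2 ∂μ := fun n j =>
    memLp_moll (continuous_mollSeq _) (hasCompactSupport_mollSeq _) (mollSeq_nonneg _) (integral_mollSeq _)
      (h n j).memg
  have hu5 : ∀ n x, |R| + 1 < ‖x‖ → u n x = 0 := fun n x hx => fsc_moll_eq_zero _ (hs' n) hx
  set C' : ℝ := 1 + C + C0 * C + (|R| + 1) * C with hC'
  have hC'pos : 0 < C' := by positivity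
  have hcomp : IsCompact (closure {Φ : Lp H 2 μ | ∃ φ : X → H, ContDiff ℝ 1 φ ∧ Φ =ᵐ[μ] φ ∧
      ∫⁻ x, ‖φ x‖ₑ ^ 2 ∂μ ≤ ENNReal.ofReal C' ∧
      ∫⁻ x, ‖fderiv ℝ φ x‖ₑ ^ 2 ∂μ ≤ ENNReal.ofReal C' ∧
      ∫⁻ x, ‖x‖ₑ * ‖φ x‖ₑ ^ 2 ∂μ ≤ ENNReal.ofReal C'}) :=
    (Claimed.Open.R270.w2_totallyBounded_aux (F := H) μ hC'pos).closure.isCompact_of_isClosed isClosed_closure
  have hU : ∀ n, (hu2 n).1.toLp (u n) ∈ closure {Φ : Lp H 2 μ | ∃ φ : X → H, ContDiff ℝ 1 φ ∧ Φ =ᵐ[μ] φ ∧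
      ∫⁻ x, ‖φ x‖ₑ ^ 2 ∂μ ≤ ENNReal.ofReal C' ∧
      ∫⁻ x, ‖fderiv ℝ φ x‖ₑ ^ 2 ∂μ ≤ ENNReal.ofReal C' ∧
      ∫⁻ x, ‖x‖ₑ * ‖φ x‖ₑ ^ 2 ∂μ ≤ ENNReal.ofReal C'} := by
    intro n
    refine subset_closure ⟨u n, hu1 n, MemLp.coeFn_toLp _, ?_, ?_, ?_⟩
    · rw [fs_lintegral_sq (hu2 n).1]
      refine ENNReal.ofReal_le_ofReal ?_
      have := (hu2 n).2.trans (hfC n)
      have h3 : 0 ≤ C0 * C + (|R| + 1) * C := by positivity
      linarith
    · have hi : Integrable (fun x => C0 * ∑ j, ‖moll μ (mollSeq μ (N n)) (g n j) x‖ ^ 2) μ :=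
        (integrable_finsetSum _ fun j _ => fsc_int_sq (hu4 n j).1).const_mul _
      calc ∫⁻ x, ‖fderiv ℝ (u n) x‖ₑ ^ 2 ∂μ
          ≤ ∫⁻ x, ENNReal.ofReal (C0 * ∑ j, ‖moll μ (mollSeq μ (N n)) (g n j) x‖ ^ 2) ∂μ := by
            refine lintegral_mono fun x => ?_
            rw [← ofReal_norm, ← ENNReal.ofReal_pow (norm_nonneg _)]
            refine ENNReal.ofReal_le_ofReal ?_
            have := hL H (fderiv ℝ (u n) x)
            simpa only [hu3] using this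
        _ = ENNReal.ofReal (∫ x, C0 * ∑ j, ‖moll μ (mollSeq μ (N n)) (g n j) x‖ ^ 2 ∂μ) :=
            (ofReal_integral_eq_lintegral_ofReal hi (Eventually.of_forall fun x => by positivity)).symm
        _ ≤ ENNReal.ofReal C' := by
            refine ENNReal.ofReal_le_ofReal ?_
            rw [integral_const_mul, integral_finsetSum _ fun j _ => fsc_int_sq (hu4 n j).1]
            have h3 : ∑ j, ∫ x, ‖moll μ (mollSeq μ (N n)) (g n j) x‖ ^ 2 ∂μ ≤ C :=
              (Finset.sum_le_sum fun j _ => (hu4 n j).2).trans (hgC n)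
            have h4 : C0 * ∑ j, ∫ x, ‖moll μ (mollSeq μ (N n)) (g n j) x‖ ^ 2 ∂μ ≤ C0 * C :=
              mul_le_mul_of_nonneg_left h3 hC0
            have h5 : 0 ≤ (|R| + 1) * C := by positivity
            linarith
    · calc ∫⁻ x, ‖x‖ₑ * ‖u n x‖ₑ ^ 2 ∂μ
          ≤ ∫⁻ x, ENNReal.ofReal (|R| + 1) * ‖u n x‖ₑ ^ 2 ∂μ := by
            refine lintegral_mono fun x => ?_
            by_cases hx : |R| + 1 < ‖x‖
            · simp [hu5 n x hx]
            · gcongr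
              rw [← ofReal_norm]
              exact ENNReal.ofReal_le_ofReal (not_lt.1 hx)
        _ = ENNReal.ofReal (|R| + 1) * ∫⁻ x, ‖u n x‖ₑ ^ 2 ∂μ :=
            lintegral_const_mul' _ _ ENNReal.ofReal_ne_top
        _ = ENNReal.ofReal ((|R| + 1) * ∫ x, ‖u n x‖ ^ 2 ∂μ) := by
            rw [fs_lintegral_sq (hu2 n).1, ENNReal.ofReal_mul (by positivity)]
        _ ≤ ENNReal.ofReal C' := by
            refine ENNReal.ofReal_le_ofReal ?_
            have h3 : (|R| + 1) * ∫ x, ‖u n x‖ ^ 2 ∂μ ≤ (|R| + 1) * C :=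
              mul_le_mul_of_nonneg_left ((hu2 n).2.trans (hfC n)) (by positivity)
            have h4 : 0 ≤ C0 * C := by positivity
            linarith
  obtain ⟨a, -, φ, hφ, hlim⟩ := hcomp.tendsto_subseq hU
  refine ⟨φ, a, hφ, Lp.memLp a, ?_⟩
  have h1 : Tendsto (fun n => ∫ x, ‖u (φ n) x - a x‖ ^ 2 ∂μ) atTop (𝓝 0) := by
    have h2 := (tendsto_iff_norm_sub_tendsto_zero.1 hlim).pow 2
    simp only [Function.comp_apply, fsc_norm_toLp_sub] at h2
    simpa using h2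
  have h2 : Tendsto (fun n : ℕ => 1 / (((φ n : ℕ) : ℝ) + 1)) atTop (𝓝 0) :=
    tendsto_one_div_add_atTop_nhds_zero_nat.comp hφ.tendsto_atTop
  have h3 : Tendsto (fun n : ℕ => 2 * (1 / (((φ n : ℕ) : ℝ) + 1)) + 2 * ∫ x, ‖u (φ n) x - a x‖ ^ 2 ∂μ)
      atTop (𝓝 0) := by
    simpa using (h2.const_mul 2).add (h1.const_mul 2)
  refine squeeze_zero (fun n => integral_nonneg fun x => sq_nonneg _) (fun n => ?_) h3
  refine (fsc_integral_sub_sq_le (hmem (φ n)) (hu2 (φ n)).1 (Lp.memLp a)).trans ?_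
  have h4 : ∫ x, ‖f (φ n) x - u (φ n) x‖ ^ 2 ∂μ ≤ 1 / (((φ n : ℕ) : ℝ) + 1) := by
    have := hN (φ n)
    simpa only [norm_sub_rev] using this
  linarith

theorem fsc_norm_toLp_sub_toLp {α : Type*} [MeasurableSpace α] {ν : Measure α} {E' : Type*}
    [NormedAddCommGroup E'] {a b : α → E'} (ha : MemLp a 2 ν) (hb : MemLp b 2 ν) :
    ‖ha.toLp a - hb.toLp b‖ ^ 2 = ∫ x, ‖a x - b x‖ ^ 2 ∂ν := by
  rw [← MemLp.toLp_sub, fs_norm_toLp, Real.sq_sqrt (integral_nonneg fun x => sq_nonneg _)]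
  rfl

theorem fsc_integral_smul_sq_le {u : X → H} (hu : L2Loc μ u) {ψ : X → ℝ} {K' : Set X} (hK' : IsCompact K')
    (h0 : ∀ x, x ∉ K' → ψ x = 0) {D : ℝ} (hD : ∀ x, |ψ x| ≤ D) :
    ∫ x, ‖ψ x • u x‖ ^ 2 ∂μ ≤ D ^ 2 * ∫ x in K', ‖u x‖ ^ 2 ∂μ := by
  rw [← integral_indicator hK'.measurableSet, ← integral_const_mul]
  refine integral_mono_of_nonneg (Eventually.of_forall fun x => sq_nonneg _)
    ((IntegrableOn.integrable_indicator (fsc_int_sq (hu K' hK')) hK'.measurableSet).const_mul _)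
    (Eventually.of_forall fun x => ?_)
  by_cases hx : x ∈ K'
  · simp only [Set.indicator_of_mem hx, norm_smul, Real.norm_eq_abs, mul_pow]
    have : |ψ x| ^ 2 ≤ D ^ 2 := pow_le_pow_left₀ (abs_nonneg _) (hD x) 2
    exact mul_le_mul_of_nonneg_right this (sq_nonneg _)
  · simp [h0 x hx, hx]

/-- **strong `L²_loc` convergence of the whole sequence**: a sequence which is bounded in `H¹_loc` and converges
weakly in `L²_loc` converges strongly in `L²_loc` (Rellich + uniqueness of the limit). -/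
theorem fsc_strong_loc [ProperSpace H] {ι : Type*} [Fintype ι] {v : ι → X}
    (hv : Submodule.span ℝ (Set.range v) = ⊤) {f : ℕ → X → H} {g : ℕ → ι → X → H}
    (h : ∀ n j, WD μ (v j) (f n) (g n j)) (hf : ∀ n, L2Loc μ (f n)) (hg : ∀ n j, L2Loc μ (g n j))
    (hC : ∀ K : Set X, IsCompact K → ∃ C : ℝ, ∀ n,
      ∫ x in K, ‖f n x‖ ^ 2 ∂μ + ∑ j, ∫ x in K, ‖g n j x‖ ^ 2 ∂μ ≤ C)
    {f' : X → H} (hf' : L2Loc μ f')
    (hw : ∀ w : X → H, MemLp w 2 μ → HasCompactSupport w →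
      Tendsto (fun n => ∫ x, ⟪w x, f n x⟫_𝕜 ∂μ) atTop (𝓝 (∫ x, ⟪w x, f' x⟫_𝕜 ∂μ)))
    {K : Set X} (hK : IsCompact K) :
    Tendsto (fun n => ∫ x in K, ‖f n x - f' x‖ ^ 2 ∂μ) atTop (𝓝 0) := by
  classical
  obtain ⟨R, hR⟩ := hK.isBounded.exists_norm_le
  set χ : X → ℝ := cutoff ⌈R⌉₊ with hχdef
  have hχ1 : ContDiff ℝ 1 χ := (contDiff_cutoff _).of_le fs_one_le
  have hχc : HasCompactSupport χ := hasCompactSupport_cutoff _
  have hχK : ∀ x ∈ K, χ x = 1 := fun x hx => cutoff_eq_one (by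
    have := (hR x hx).trans (Nat.le_ceil R)
    linarith)
  have hχb : ∀ x, |χ x| ≤ 1 := fun x => by
    rw [abs_of_nonneg (cutoff_nonneg _ x)]
    exact cutoff_le_one _ x
  set K' : Set X := tsupport χ with hK'def
  have hK' : IsCompact K' := hχc.isCompact
  have hχ0 : ∀ x, x ∉ K' → χ x = 0 := fun x hx => image_eq_zero_of_notMem_tsupport hx
  have hd0 : ∀ j x, x ∉ K' → fderiv ℝ χ x (v j) = 0 := fun j x hx => by
    have : x ∉ tsupport (fderiv ℝ χ) := fun h' => hx (tsupport_fderiv_subset ℝ h')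
    rw [image_eq_zero_of_notMem_tsupport this]
    rfl
  have hDex : ∀ j, ∃ D : ℝ, ∀ x, |fderiv ℝ χ x (v j)| ≤ D := fun j =>
    (hχc.fderiv_apply (𝕜 := ℝ) (v j)).exists_bound_of_continuous (fs_cont_d hχ1 (v j))
  choose D hD using hDex
  set F : ℕ → X → H := fun n x => χ x • f n x with hF
  set G : ℕ → ι → X → H := fun n j x => fderiv ℝ χ x (v j) • f n x + χ x • g n j x with hG
  have hWD : ∀ n j, WD2 μ (v j) (F n) (G n j) := fun n j =>
    WD.smul_left_wd2 (h n j) (hf n) (hg n j) hχ1 hχc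
  have hFm : ∀ n, MemLp (F n) 2 μ := fun n => fs_memLp_smul_of_compact (hf n) hχ1.continuous hχc
  have hF'm : MemLp (fun x => χ x • f' x) 2 μ := fs_memLp_smul_of_compact hf' hχ1.continuous hχc
  obtain ⟨C, hC'⟩ := hC K' hK'
  have hnnf : ∀ n, 0 ≤ ∫ x in K', ‖f n x‖ ^ 2 ∂μ := fun n => integral_nonneg fun x => sq_nonneg _
  have hnng : ∀ n j, 0 ≤ ∫ x in K', ‖g n j x‖ ^ 2 ∂μ := fun n j => integral_nonneg fun x => sq_nonneg _
  have hfC : ∀ n, ∫ x in K', ‖f n x‖ ^ 2 ∂μ ≤ C := fun n => by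
    have := hC' n
    have h2 : 0 ≤ ∑ j, ∫ x in K', ‖g n j x‖ ^ 2 ∂μ := Finset.sum_nonneg fun j _ => hnng n j
    linarith
  have hgC : ∀ n, ∑ j, ∫ x in K', ‖g n j x‖ ^ 2 ∂μ ≤ C := fun n => by
    have := hC' n
    linarith [hnnf n]
  have hbound : ∀ n, ∫ x, ‖F n x‖ ^ 2 ∂μ + ∑ j, ∫ x, ‖G n j x‖ ^ 2 ∂μ
      ≤ C + (2 * (∑ j, D j ^ 2) * C + 2 * C) := by
    intro n
    have h1 : ∫ x, ‖F n x‖ ^ 2 ∂μ ≤ C := by
      have := fsc_integral_smul_sq_le (hf n) hK' hχ0 hχb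
      simp only [one_pow, one_mul] at this
      exact this.trans (hfC n)
    have h2 : ∀ j, ∫ x, ‖G n j x‖ ^ 2 ∂μ ≤ 2 * (D j ^ 2 * C) + 2 * ∫ x in K', ‖g n j x‖ ^ 2 ∂μ := by
      intro j
      have m1 : MemLp (fun x => fderiv ℝ χ x (v j) • f n x) 2 μ :=
        fs_memLp_smul_of_compact (hf n) (fs_cont_d hχ1 (v j)) (hχc.fderiv_apply (𝕜 := ℝ) (v j))
      have m2 : MemLp (fun x => χ x • g n j x) 2 μ := fs_memLp_smul_of_compact (hg n j) hχ1.continuous hχc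
      have a1 := fsc_integral_smul_sq_le (hf n) hK' (hd0 j) (hD j)
      have a2 := fsc_integral_smul_sq_le (hg n j) hK' hχ0 hχb
      simp only [one_pow, one_mul] at a2
      have a3 : ∫ x, ‖G n j x‖ ^ 2 ∂μ ≤ 2 * ∫ x, ‖fderiv ℝ χ x (v j) • f n x‖ ^ 2 ∂μ
          + 2 * ∫ x, ‖χ x • g n j x‖ ^ 2 ∂μ := by
        rw [← integral_const_mul, ← integral_const_mul,
          ← integral_add ((fsc_int_sq m1).const_mul 2) ((fsc_int_sq m2).const_mul 2)]
        exact integral_mono (fsc_int_sq (hWD n j).memg)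
          (((fsc_int_sq m1).const_mul 2).add ((fsc_int_sq m2).const_mul 2)) fun x => fsc_norm_add_sq_le _ _
      have a4 : D j ^ 2 * ∫ x in K', ‖f n x‖ ^ 2 ∂μ ≤ D j ^ 2 * C :=
        mul_le_mul_of_nonneg_left (hfC n) (sq_nonneg _)
      linarith
    have h3 : ∑ j, ∫ x, ‖G n j x‖ ^ 2 ∂μ ≤ ∑ j, (2 * (D j ^ 2 * C) + 2 * ∫ x in K', ‖g n j x‖ ^ 2 ∂μ) :=
      Finset.sum_le_sum fun j _ => h2 j
    have h4 : ∑ j, (2 * (D j ^ 2 * C) + 2 * ∫ x in K', ‖g n j x‖ ^ 2 ∂μ)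
        = 2 * (∑ j, D j ^ 2) * C + 2 * ∑ j, ∫ x in K', ‖g n j x‖ ^ 2 ∂μ := by
      rw [Finset.sum_add_distrib, ← Finset.mul_sum, ← Finset.mul_sum, ← Finset.sum_mul]
      ring
    have := hgC n
    linarith
  -- weak convergence of the cut-off sequence
  have hweak : WeakTo 𝕜 (fun n => (hFm n).toLp (F n)) (hF'm.toLp _) := by
    refine (weakL2_iff_weakTo hFm hF'm).1 fun w hwm => ?_
    have m1 : MemLp (fun x => χ x • w x) 2 μ := fs_memLp_smul_of_bdd hwm hχ1.continuous hχb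
    have c1 : HasCompactSupport (fun x => χ x • w x) := hχc.smul_right
    have := hw _ m1 c1
    simpa only [hF, fs_inner_smul_left, fs_inner_smul_right] using this
  -- every subsequence has a strongly convergent subsequence, with the right limit
  have hstrong : Tendsto (fun n => ∫ x, ‖F n x - χ x • f' x‖ ^ 2 ∂μ) atTop (𝓝 0) := by
    refine tendsto_of_subseq_tendsto fun ns hns => ?_
    obtain ⟨φ, h0, hφ, hh0, hlim⟩ := rellich_of_support hv (f := fun n => F (ns n))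
      (g := fun n j => G (ns n) j) (fun n j => hWD (ns n) j) (fun n => hbound (ns n)) hK'
      (fun n x hx => by simp only [hF, hχ0 x hx, zero_smul])
    refine ⟨φ, ?_⟩
    have t1 : Tendsto (fun n => (hFm (ns (φ n))).toLp (F (ns (φ n)))) atTop (𝓝 (hh0.toLp h0)) :=
      fs_tendsto_toLp (fun n => hFm (ns (φ n))) hh0 hlim
    have w1 : WeakTo 𝕜 (fun n => (hFm (ns (φ n))).toLp (F (ns (φ n)))) (hh0.toLp h0) := WeakTo.of_tendsto t1
    have w2 : WeakTo 𝕜 (fun n => (hFm (ns (φ n))).toLp (F (ns (φ n)))) (hF'm.toLp _) := fun z =>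
      (hweak z).comp (hns.comp hφ.tendsto_atTop)
    rw [w1.unique w2] at t1
    have t2 := (tendsto_iff_norm_sub_tendsto_zero.1 t1).pow 2
    simp only [fsc_norm_toLp_sub_toLp] at t2
    simpa using t2
  refine squeeze_zero (fun n => integral_nonneg fun x => sq_nonneg _) (fun n => ?_) hstrong
  calc ∫ x in K, ‖f n x - f' x‖ ^ 2 ∂μ = ∫ x in K, ‖F n x - χ x • f' x‖ ^ 2 ∂μ := by
        refine setIntegral_congr_fun hK.measurableSet fun x hx => ?_
        simp only [hF, hχK x hx, one_smul]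
    _ ≤ ∫ x, ‖F n x - χ x • f' x‖ ^ 2 ∂μ :=
        setIntegral_le_integral (fsc_int_sq ((hFm n).sub hF'm)) (Eventually.of_forall fun x => sq_nonneg _)

/-- strong `L²_loc` convergence gives an a.e. convergent subsequence (diagonal extraction over the balls). -/
theorem fsc_exists_ae_subseq {f : ℕ → X → H} {f' : X → H} (hf : ∀ n, L2Loc μ (f n)) (hf' : L2Loc μ f')
    (hs : ∀ K, IsCompact K → Tendsto (fun n => ∫ x in K, ‖f n x - f' x‖ ^ 2 ∂μ) atTop (𝓝 0)) :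
    ∃ φ : ℕ → ℕ, StrictMono φ ∧ ∀ᵐ x ∂μ, Tendsto (fun n => f (φ n) x) atTop (𝓝 (f' x)) := by
  have : ProperSpace X := FiniteDimensional.proper ℝ X
  obtain ⟨φ, hφ, hP⟩ := exists_diagonal_subseq
    (P := fun k φ => ∀ᵐ x ∂(μ.restrict (Metric.closedBall (0 : X) k)),
      Tendsto (fun n => f (φ n) x) atTop (𝓝 (f' x)))
    (fun k φ hφ => by
      have hK : IsCompact (Metric.closedBall (0 : X) k) := isCompact_closedBall _ _
      have t1 := fs_tendsto_toLp (fun n => hf (φ n) _ hK) (hf' _ hK) ((hs _ hK).comp hφ.tendsto_atTop)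
      obtain ⟨ψ, hψ, hae⟩ := (tendstoInMeasure_of_tendsto_Lp t1).exists_seq_tendsto_ae
      refine ⟨ψ, hψ, ?_⟩
      have h1 : ∀ᵐ x ∂(μ.restrict (Metric.closedBall (0 : X) k)), ∀ n,
          ((hf (φ n) _ hK).toLp (f (φ n)) : X → H) x = f (φ n) x :=
        ae_all_iff.2 fun n => (hf (φ n) _ hK).coeFn_toLp
      filter_upwards [hae, h1, (hf' _ hK).coeFn_toLp] with x hx1 hx2 hx3
      simpa only [hx2, hx3, Function.comp_apply] using hx1)
    (fun k φ φ' hP hφ' hr => hP.mono fun x hx => fsc_tendsto_of_range (u := fun n => f n x) hx hφ' hr)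
  refine ⟨φ, hφ, ?_⟩
  have h1 : ∀ᵐ x ∂μ, ∀ k : ℕ, x ∈ Metric.closedBall (0 : X) k →
      Tendsto (fun n => f (φ n) x) atTop (𝓝 (f' x)) :=
    ae_all_iff.2 fun k => (ae_restrict_iff' measurableSet_closedBall).1 (hP k)
  filter_upwards [h1] with x hx
  obtain ⟨k, hk⟩ := exists_nat_ge ‖x‖
  exact hx k (mem_closedBall_zero_iff.2 hk)

variable (𝕜) in
/-- **the direct method package**. -/
theorem exists_subseq_H1 [ProperSpace H] {ι : Type*} [Fintype ι] {v : ι → X}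
    (hv : Submodule.span ℝ (Set.range v) = ⊤) {f : ℕ → X → H} {g : ℕ → ι → X → H}
    (h : ∀ n j, WD2 μ (v j) (f n) (g n j)) (hf : ∀ n, MemLp (f n) 2 μ) {C : ℝ}
    (hC : ∀ n, ∫ x, ‖f n x‖ ^ 2 ∂μ + ∑ j, ∫ x, ‖g n j x‖ ^ 2 ∂μ ≤ C) :
    ∃ (φ : ℕ → ℕ) (f' : X → H) (g' : ι → X → H), StrictMono φ ∧ MemLp f' 2 μ ∧ (∀ j, WD2 μ (v j) f' (g' j)) ∧
      (∀ K, IsCompact K → Tendsto (fun n => ∫ x in K, ‖f (φ n) x - f' x‖ ^ 2 ∂μ) atTop (𝓝 0)) ∧
      (∀ᵐ x ∂μ, Tendsto (fun n => f (φ n) x) atTop (𝓝 (f' x))) ∧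
      WeakL2 𝕜 μ (f ∘ φ) f' ∧ ∀ j, WeakL2 𝕜 μ (fun n => g (φ n) j) (g' j) := by
  classical
  have hnnf : ∀ n, 0 ≤ ∫ x, ‖f n x‖ ^ 2 ∂μ := fun n => integral_nonneg fun x => sq_nonneg _
  have hnng : ∀ n j, 0 ≤ ∫ x, ‖g n j x‖ ^ 2 ∂μ := fun n j => integral_nonneg fun x => sq_nonneg _
  have hfC : ∀ n, ∫ x, ‖f n x‖ ^ 2 ∂μ ≤ C := fun n => by
    have := hC n
    have h2 : 0 ≤ ∑ j, ∫ x, ‖g n j x‖ ^ 2 ∂μ := Finset.sum_nonneg fun j _ => hnng n j
    linarith
  have hgC : ∀ n j, ∫ x, ‖g n j x‖ ^ 2 ∂μ ≤ C := fun n j => by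
    have := hC n
    have h2 : ∫ x, ‖g n j x‖ ^ 2 ∂μ ≤ ∑ j, ∫ x, ‖g n j x‖ ^ 2 ∂μ :=
      Finset.single_le_sum (f := fun j => ∫ x, ‖g n j x‖ ^ 2 ∂μ) (fun j _ => hnng n j) (Finset.mem_univ j)
    linarith [hnnf n]
  set xx : Option ι → ℕ → X → H := fun o n => o.elim (f n) (g n) with hxx
  have hm : ∀ o n, MemLp (xx o n) 2 μ := by
    intro o n
    cases o with
    | none => exact hf n
    | some j => exact (h n j).memg
  have hb : ∀ o n, ‖(hm o n).toLp (xx o n)‖ ≤ √C := by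
    intro o n
    rw [fs_norm_toLp]
    refine Real.sqrt_le_sqrt ?_
    cases o with
    | none => exact hfC n
    | some j => exact hgC n j
  obtain ⟨φ1, y, hφ1, hy⟩ := exists_weak_subseq_fin 𝕜 hb
  have hW : ∀ o, WeakL2 𝕜 μ (fun n => xx o (φ1 n)) (y o) := by
    intro o
    refine (weakL2_iff_weakTo (fun n => hm o (φ1 n)) (Lp.memLp (y o))).2 ?_
    rw [Lp.toLp_coeFn]
    exact (hy o).2
  have hWD : ∀ j, WD2 μ (v j) (y none) (y (some j)) := fun j =>
    WD2.of_weakL2 (𝕜 := 𝕜) (fun n => h (φ1 n) j) (Lp.memLp _) (Lp.memLp _) (hW none) (hW (some j))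
  have hstrong : ∀ K, IsCompact K →
      Tendsto (fun n => ∫ x in K, ‖f (φ1 n) x - y none x‖ ^ 2 ∂μ) atTop (𝓝 0) := fun K hK =>
    fsc_strong_loc (𝕜 := 𝕜) hv (fun n j => (h (φ1 n) j).wd) (fun n => MemLp.l2Loc (hf (φ1 n)))
      (fun n j => MemLp.l2Loc (h (φ1 n) j).memg)
      (fun K' _ => ⟨C, fun n => le_trans (add_le_add
        (setIntegral_le_integral (fsc_int_sq (hf (φ1 n))) (Eventually.of_forall fun x => sq_nonneg _))
        (Finset.sum_le_sum fun j _ => setIntegral_le_integral (fsc_int_sq (h (φ1 n) j).memg)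
          (Eventually.of_forall fun x => sq_nonneg _))) (hC (φ1 n))⟩)
      (MemLp.l2Loc (Lp.memLp (y none))) (fun w hw _ => hW none w hw) hK
  obtain ⟨φ2, hφ2, hae⟩ := fsc_exists_ae_subseq (fun n => MemLp.l2Loc (hf (φ1 n)))
    (MemLp.l2Loc (Lp.memLp (y none))) hstrong
  exact ⟨φ1 ∘ φ2, y none, fun j => y (some j), hφ1.comp hφ2, Lp.memLp _, hWD,
    fun K hK => (hstrong K hK).comp hφ2.tendsto_atTop, hae,
    fun w hw => (hW none w hw).comp hφ2.tendsto_atTop,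
    fun j w hw => (hW (some j) w hw).comp hφ2.tendsto_atTop⟩

variable (𝕜) in
/-- local version: sequences bounded in `H¹(K)` for every compact `K`. -/
theorem exists_subseq_H1loc [ProperSpace H] {ι : Type*} [Fintype ι] {v : ι → X}
    (hv : Submodule.span ℝ (Set.range v) = ⊤) {f : ℕ → X → H} {g : ℕ → ι → X → H}
    (h : ∀ n j, WD μ (v j) (f n) (g n j)) (hf : ∀ n, L2Loc μ (f n)) (hg : ∀ n j, L2Loc μ (g n j))
    (hC : ∀ K : Set X, IsCompact K → ∃ C : ℝ, ∀ n,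
      ∫ x in K, ‖f n x‖ ^ 2 ∂μ + ∑ j, ∫ x in K, ‖g n j x‖ ^ 2 ∂μ ≤ C) :
    ∃ (φ : ℕ → ℕ) (f' : X → H) (g' : ι → X → H), StrictMono φ ∧ L2Loc μ f' ∧ (∀ j, L2Loc μ (g' j)) ∧
      (∀ j, WD μ (v j) f' (g' j)) ∧
      (∀ K, IsCompact K → Tendsto (fun n => ∫ x in K, ‖f (φ n) x - f' x‖ ^ 2 ∂μ) atTop (𝓝 0)) ∧
      (∀ᵐ x ∂μ, Tendsto (fun n => f (φ n) x) atTop (𝓝 (f' x))) ∧
      ∀ j, ∀ w : X → H, MemLp w 2 μ → HasCompactSupport w →
        Tendsto (fun n => ∫ x, ⟪w x, g (φ n) j x⟫_𝕜 ∂μ) atTop (𝓝 (∫ x, ⟪w x, g' j x⟫_𝕜 ∂μ)) := by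
  classical
  set xx : Option ι → ℕ → X → H := fun o n => o.elim (f n) (g n) with hxx
  have hm : ∀ o n, L2Loc μ (xx o n) := by
    intro o n
    cases o with
    | none => exact hf n
    | some j => exact hg n j
  have hb : ∀ o (K : Set X), IsCompact K → ∃ B : ℝ, ∀ n, ∫ x in K, ‖xx o n x‖ ^ 2 ∂μ ≤ B := by
    intro o K hK
    obtain ⟨C, hC'⟩ := hC K hK
    refine ⟨C, fun n => ?_⟩
    have hnnf : 0 ≤ ∫ x in K, ‖f n x‖ ^ 2 ∂μ := integral_nonneg fun x => sq_nonneg _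
    have hnng : ∀ j, 0 ≤ ∫ x in K, ‖g n j x‖ ^ 2 ∂μ := fun j => integral_nonneg fun x => sq_nonneg _
    have := hC' n
    cases o with
    | none =>
      have h2 : 0 ≤ ∑ j, ∫ x in K, ‖g n j x‖ ^ 2 ∂μ := Finset.sum_nonneg fun j _ => hnng j
      show ∫ x in K, ‖f n x‖ ^ 2 ∂μ ≤ C
      linarith
    | some j =>
      have h2 : ∫ x in K, ‖g n j x‖ ^ 2 ∂μ ≤ ∑ j, ∫ x in K, ‖g n j x‖ ^ 2 ∂μ :=
        Finset.single_le_sum (f := fun j => ∫ x in K, ‖g n j x‖ ^ 2 ∂μ) (fun j _ => hnng j) (Finset.mem_univ j)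
      show ∫ x in K, ‖g n j x‖ ^ 2 ∂μ ≤ C
      linarith
  obtain ⟨φ1, hφ1, hQ⟩ := fsc_exists_subseq_finset (Finset.univ : Finset (Option ι))
    (Q := fun o φ => ∃ y : X → H, L2Loc μ y ∧ ∀ w : X → H, MemLp w 2 μ → HasCompactSupport w →
      Tendsto (fun n => ∫ x, ⟪w x, xx o (φ n) x⟫_𝕜 ∂μ) atTop (𝓝 (∫ x, ⟪w x, y x⟫_𝕜 ∂μ)))
    (fun o φ _ => by
      obtain ⟨ψ, y, hψ, hy, hw⟩ := exists_weak_L2loc_subseq 𝕜 (f := fun n => xx o (φ n)) (fun n => hm o (φ n))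
        (fun K hK => by
          obtain ⟨B, hB⟩ := hb o K hK
          exact ⟨B, fun n => hB (φ n)⟩)
      exact ⟨ψ, hψ, y, hy, hw⟩)
    (fun o φ ψ ⟨y, hy, hw⟩ hψ => ⟨y, hy, fun w hwm hwc => (hw w hwm hwc).comp hψ.tendsto_atTop⟩)
  choose y hy hW using fun o => hQ o (Finset.mem_univ o)
  have hWD : ∀ j, WD μ (v j) (y none) (y (some j)) := fun j =>
    fsc_wd_of_weak_loc (𝕜 := 𝕜) (fun n => h (φ1 n) j) (hy none).locallyIntegrable (hy (some j)).locallyIntegrable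
      (hW none) (hW (some j))
  have hstrong : ∀ K, IsCompact K →
      Tendsto (fun n => ∫ x in K, ‖f (φ1 n) x - y none x‖ ^ 2 ∂μ) atTop (𝓝 0) := fun K hK =>
    fsc_strong_loc (𝕜 := 𝕜) hv (fun n j => h (φ1 n) j) (fun n => hf (φ1 n)) (fun n j => hg (φ1 n) j)
      (fun K' hK' => by
        obtain ⟨C, hC'⟩ := hC K' hK'
        exact ⟨C, fun n => hC' (φ1 n)⟩)
      (hy none) (hW none) hK
  obtain ⟨φ2, hφ2, hae⟩ := fsc_exists_ae_subseq (fun n => hf (φ1 n)) (hy none) hstrong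
  exact ⟨φ1 ∘ φ2, y none, fun j => y (some j), hφ1.comp hφ2, hy none, fun j => hy (some j), hWD,
    fun K hK => (hstrong K hK).comp hφ2.tendsto_atTop, hae,
    fun j w hw hc => (hW (some j) w hw hc).comp hφ2.tendsto_atTop⟩

end C3

/-! ## LEAF FS-C4: the packages in the languages of `Statement.lean` -/

section C4

variable {m : ℕ}

theorem span_range_dir : Submodule.span ℝ (Set.range (dir : Fin m × Fin 3 → Config m)) = ⊤ := by
  refine eq_top_iff.2 fun v _ => ?_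
  rw [config_eq_sum_dir v]
  exact Submodule.sum_mem _ fun j _ => Submodule.smul_mem _ _ (Submodule.subset_span ⟨j, rfl⟩)

theorem MemH1.exists_subseq {Ψn : ℕ → L2 m} (h : ∀ n, MemH1 (Ψn n)) {C : ℝ}
    (hC : ∀ n, ‖Ψn n‖ ^ 2 + kin (Ψn n) ≤ C) :
    ∃ (φ : ℕ → ℕ) (Ψ : L2 m), StrictMono φ ∧ MemH1 Ψ ∧ WeakTo ℂ (Ψn ∘ φ) Ψ ∧
      (∀ j, WeakTo ℂ (fun n => weakGrad (Ψn (φ n)) j) (weakGrad Ψ j)) ∧
      (∀ K, IsCompact K → Tendsto (fun n => ∫ x in K, ‖Ψn (φ n) x - Ψ x‖ ^ 2) atTop (𝓝 0)) ∧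
      ∀ᵐ x, Tendsto (fun n => (Ψn (φ n) x : SpinSpace m)) atTop (𝓝 (Ψ x)) := by
  obtain ⟨φ, f', g', hφ, hf', hWD, hs, hae, hw, hwg⟩ := exists_subseq_H1 ℂ (μ := (volume : Measure (Config m)))
    (H := SpinSpace m) span_range_dir (f := fun n => (Ψn n : Config m → SpinSpace m))
    (g := fun n j => (weakGrad (Ψn n) j : Config m → SpinSpace m)) (fun n j => (h n).wd2 j)
    (fun n => L2.memLp _) (C := C) (fun n => by
      rw [← L2.norm_sq_eq, ← kin_eq_integral]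
      exact hC n)
  have hg' : ∀ j, MemLp (g' j) 2 volume := fun j => (hWD j).memg
  have hwk : ∀ j, HasWeakDeriv volume (dir j) f' (g' j) := fun j => (hWD j).weak
  have hco := hf'.coeFn_toLp
  refine ⟨φ, hf'.toLp f', hφ, memH1_toLp hf' hg' hwk, ?_, fun j => ?_, fun K hK => ?_, ?_⟩
  · have := (weakL2_iff_weakTo (fun n => L2.memLp (Ψn (φ n))) hf').1 hw
    simp only [Lp.toLp_coeFn] at this
    exact this
  · rw [weakGrad_toLp hf' hg' hwk]
    have := (weakL2_iff_weakTo (fun n => L2.memLp (weakGrad (Ψn (φ n)) j)) (hg' j)).1 (hwg j)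
    simpa only [Lp.toLp_coeFn] using this
  · refine (hs K hK).congr fun n => ?_
    refine integral_congr_ae (ae_restrict_of_ae ?_)
    filter_upwards [hco] with x hx
    rw [hx]
  · filter_upwards [hae, hco] with x hx1 hx2
    rw [hx2]
    exact hx1

theorem fsc_exists_ae_subseq_L2 {u : ℕ → L2 m} {x : L2 m} (hu : Tendsto u atTop (𝓝 x)) :
    ∃ ns : ℕ → ℕ, StrictMono ns ∧
      ∀ᵐ y : Config m, Tendsto (fun k => (u (ns k) : Config m → SpinSpace m) y) atTop (𝓝 (x y)) :=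
  (tendstoInMeasure_of_tendsto_Lp hu).exists_seq_tendsto_ae

theorem fsc_isClosed_antisymmetric : IsClosed {Ψ : L2 m | IsAntisymmetric Ψ} := by
  refine IsSeqClosed.isClosed fun u x hu hx π => ?_
  obtain ⟨ns, -, hns⟩ := fsc_exists_ae_subseq_L2 hx
  have h1 : ∀ᵐ y : Config m, ∀ k, ∀ s : SpinConfig m,
      u (ns k) (y ∘ π) (s ∘ π) = ((Equiv.Perm.sign π : ℤ) : ℂ) * u (ns k) y s :=
    ae_all_iff.2 fun k => hu (ns k) π
  have h2 : ∀ᵐ y : Config m,
      Tendsto (fun k => (u (ns k) : Config m → SpinSpace m) (y ∘ π)) atTop (𝓝 (x (y ∘ π))) :=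
    (measurePreserving_comp_perm π).quasiMeasurePreserving.ae hns
  filter_upwards [hns, h1, h2] with y hy h1y h2y s
  have c1 : Tendsto (fun k => (u (ns k) : Config m → SpinSpace m) (y ∘ π) (s ∘ π)) atTop (𝓝 (x (y ∘ π) (s ∘ π))) :=
    ((EuclideanSpace.proj (𝕜 := ℂ) (s ∘ π)).continuous.tendsto _).comp h2y
  have c2 : Tendsto (fun k => ((Equiv.Perm.sign π : ℤ) : ℂ) * (u (ns k) : Config m → SpinSpace m) y s) atTop
      (𝓝 (((Equiv.Perm.sign π : ℤ) : ℂ) * x y s)) :=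
    (((EuclideanSpace.proj (𝕜 := ℂ) s).continuous.tendsto _).comp hy).const_mul _
  refine tendsto_nhds_unique c1 (c2.congr fun k => (h1y k s).symm)

theorem fsc_isClosed_sector (μ : ℚ) : IsClosed {Ψ : L2 m | InSpinSector μ Ψ} := by
  refine IsSeqClosed.isClosed fun u x hu hx => ?_
  obtain ⟨ns, -, hns⟩ := fsc_exists_ae_subseq_L2 hx
  have h1 : ∀ᵐ y : Config m, ∀ k, ∀ s : SpinConfig m, spinZ s ≠ μ → u (ns k) y s = 0 :=
    ae_all_iff.2 fun k => hu (ns k)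
  filter_upwards [hns, h1] with y hy h1y s hs
  have c1 : Tendsto (fun k => (u (ns k) : Config m → SpinSpace m) y s) atTop (𝓝 (x y s)) :=
    ((EuclideanSpace.proj (𝕜 := ℂ) s).continuous.tendsto _).comp hy
  exact tendsto_nhds_unique c1 (tendsto_const_nhds.congr fun k => (h1y k s hs).symm)

theorem IsAntisymmetric.of_weakTo {Ψn : ℕ → L2 m} {Ψ : L2 m} (h : ∀ n, IsAntisymmetric (Ψn n))
    (hw : WeakTo ℂ Ψn Ψ) : IsAntisymmetric Ψ := by
  let K : Submodule ℂ (L2 m) :=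
    { carrier := {Ψ | IsAntisymmetric Ψ}
      add_mem' := fun h h' => h.add h'
      zero_mem' := IsAntisymmetric.zero
      smul_mem' := fun c _ h => h.smul c }
  exact hw.mem_submodule (K := K) fsc_isClosed_antisymmetric (Frequently.of_forall h)

theorem InSpinSector.of_weakTo {μ : ℚ} {Ψn : ℕ → L2 m} {Ψ : L2 m} (h : ∀ n, InSpinSector μ (Ψn n))
    (hw : WeakTo ℂ Ψn Ψ) : InSpinSector μ Ψ := by
  let K : Submodule ℂ (L2 m) :=
    { carrier := {Ψ | InSpinSector μ Ψ}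
      add_mem' := fun h h' => h.add h'
      zero_mem' := by
        show InSpinSector μ (0 : L2 m)
        filter_upwards [Lp.coeFn_zero (SpinSpace m) 2 (volume : Measure (Config m))] with x hx s _
        rw [hx]; rfl
      smul_mem' := fun c _ h => InSpinSector.smul c h }
  exact hw.mem_submodule (K := K) (fsc_isClosed_sector μ) (Frequently.of_forall h)

/-- weak lower semicontinuity of the kinetic energy. -/
theorem kin_le_of_weakTo {Ψn : ℕ → L2 m} {Ψ : L2 m}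
    (hg : ∀ j, WeakTo ℂ (fun n => weakGrad (Ψn n) j) (weakGrad Ψ j)) {B : ℝ}
    (hB : ∃ᶠ n in atTop, kin (Ψn n) ≤ B) : kin Ψ ≤ B := by
  have hB0 : 0 ≤ B := by
    obtain ⟨n, hn⟩ := hB.exists
    exact (kin_nonneg _).trans hn
  have h1 : Tendsto (fun n => ∑ j, ‖⟪weakGrad Ψ j, weakGrad (Ψn n) j⟫_ℂ‖) atTop
      (𝓝 (∑ j, ‖⟪weakGrad Ψ j, weakGrad Ψ j⟫_ℂ‖)) :=
    tendsto_finsetSum _ fun j _ => (hg j (weakGrad Ψ j)).norm
  have e0 : ∑ j, ‖⟪weakGrad Ψ j, weakGrad Ψ j⟫_ℂ‖ = kin Ψ := by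
    refine Finset.sum_congr rfl fun j _ => ?_
    rw [inner_self_eq_norm_sq_to_K, norm_pow, RCLike.norm_ofReal, abs_of_nonneg (norm_nonneg _)]
  rw [e0] at h1
  have h2 : kin Ψ ≤ √(kin Ψ) * √B := by
    refine le_of_tendsto_of_frequently h1 (hB.mono fun n hn => ?_)
    calc ∑ j, ‖⟪weakGrad Ψ j, weakGrad (Ψn n) j⟫_ℂ‖
        ≤ ∑ j, ‖weakGrad Ψ j‖ * ‖weakGrad (Ψn n) j‖ := Finset.sum_le_sum fun j _ => norm_inner_le_norm _ _
      _ ≤ √(∑ j, ‖weakGrad Ψ j‖ ^ 2) * √(∑ j, ‖weakGrad (Ψn n) j‖ ^ 2) :=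
          Real.sum_mul_le_sqrt_mul_sqrt _ _ _
      _ ≤ √(kin Ψ) * √B := mul_le_mul_of_nonneg_left (Real.sqrt_le_sqrt hn) (Real.sqrt_nonneg _)
  rcases (kin_nonneg Ψ).eq_or_lt with h0 | h0
  · rw [← h0]; exact hB0
  · have h3 : √(kin Ψ) * √(kin Ψ) ≤ √(kin Ψ) * √B := by
      rw [Real.mul_self_sqrt h0.le]; exact h2
    exact (Real.sqrt_le_sqrt_iff hB0).1 (le_of_mul_le_mul_left h3 (Real.sqrt_pos.2 h0))

/-- a weak `L2 m` limit of an `H¹`-bounded sequence is in `H¹` and the gradients converge weakly. -/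
theorem MemH1.of_weakTo {Ψn : ℕ → L2 m} {Ψ : L2 m} (h : ∀ n, MemH1 (Ψn n)) (hw : WeakTo ℂ Ψn Ψ) {C : ℝ}
    (hC : ∀ n, kin (Ψn n) ≤ C) :
    MemH1 Ψ ∧ ∀ j, WeakTo ℂ (fun n => weakGrad (Ψn n) j) (weakGrad Ψ j) := by
  have hb : ∀ (j : Fin m × Fin 3) n, ‖weakGrad (Ψn n) j‖ ≤ √C := by
    intro j n
    refine Real.le_sqrt_of_sq_le (le_trans ?_ (hC n))
    exact Finset.single_le_sum (f := fun j => ‖weakGrad (Ψn n) j‖ ^ 2) (fun j _ => sq_nonneg _)
      (Finset.mem_univ j)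
  -- along every sequence of indices there is a subsequence whose gradients converge weakly to a weak gradient
  have key : ∀ ns : ℕ → ℕ, Tendsto ns atTop atTop → ∃ (φ : ℕ → ℕ) (G : Fin m × Fin 3 → L2 m),
      IsWeakGradient Ψ G ∧ ∀ j, WeakTo ℂ (fun n => weakGrad (Ψn (ns (φ n))) j) (G j) := by
    intro ns hns
    obtain ⟨φ, G, hφ, hG⟩ := exists_weak_subseq_fin ℂ (x := fun j n => weakGrad (Ψn (ns n)) j)
      fun j n => hb j (ns n)
    refine ⟨φ, G, ?_, fun j => (hG j).2⟩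
    exact IsWeakGradient.of_tendsto_weak (Ψn := fun n => Ψn (ns (φ n)))
      (Gn := fun n => weakGrad (Ψn (ns (φ n)))) (fun n => (h _).isWeakGradient)
      (fun Φ => (hw Φ).comp (hns.comp hφ.tendsto_atTop)) (fun j Φ => (hG j).2 Φ)
  obtain ⟨-, G, hG, -⟩ := key id tendsto_id
  refine ⟨⟨G, hG⟩, fun j z => tendsto_of_subseq_tendsto fun ns hns => ?_⟩
  obtain ⟨φ, G', hG', hw'⟩ := key ns hns
  refine ⟨φ, ?_⟩
  rw [hG'.weakGrad_eq]
  exact hw' j z

theorem fsc_span_single :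
    Submodule.span ℝ (Set.range fun a : Fin 3 => (EuclideanSpace.single a (1 : ℝ) : Space)) = ⊤ := by
  refine eq_top_iff.2 fun v _ => ?_
  have e2 : ∑ a, v a • (EuclideanSpace.single a (1 : ℝ) : Space) = v := by
    ext b
    simp [Finset.sum_apply, Pi.single_apply]
  rw [← e2]
  exact Submodule.sum_mem _ fun a _ => Submodule.smul_mem _ _ (Submodule.subset_span ⟨a, rfl⟩)

theorem fsc_memLp_coord {ν : Measure Space} {G : Space → Space} (hG : MemLp G 2 ν) (a : Fin 3) :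
    MemLp (fun x => G x a) 2 ν := (EuclideanSpace.proj (𝕜 := ℝ) a).comp_memLp' hG

theorem fsc_integral_norm_sq_eq_sum_coord {ν : Measure Space} {G : Space → Space} (hG : MemLp G 2 ν) :
    ∫ x, ‖G x‖ ^ 2 ∂ν = ∑ a, ∫ x, G x a ^ 2 ∂ν := by
  have hi : ∀ a, Integrable (fun x => G x a ^ 2) ν := fun a => (fsc_memLp_coord hG a).integrable_sq
  rw [← integral_finsetSum _ fun a _ => hi a]
  refine integral_congr_ae (Eventually.of_forall fun x => ?_)
  simp [EuclideanSpace.norm_sq_eq]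

theorem fsc_memLp_toLp {ν : Measure Space} {g : Fin 3 → Space → ℝ} (h : ∀ a, MemLp (g a) 2 ν) :
    MemLp (fun x => (WithLp.toLp 2 fun a => g a x : Space)) 2 ν := by
  have e : ∀ x, (WithLp.toLp 2 fun a => g a x : Space) = ∑ a, g a x • EuclideanSpace.single a (1 : ℝ) := by
    intro x
    ext b
    simp [Finset.sum_apply, Pi.single_apply]
  simp only [e]
  exact memLp_finsetSum _ fun a _ =>
    (ContinuousLinearMap.toSpanSingleton ℝ (EuclideanSpace.single a (1 : ℝ))).comp_memLp' (h a)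

theorem fsc_integrable_inner_loc {w u : X → H} (hw : MemLp w 2 μ) (hc : HasCompactSupport w) (hu : L2Loc μ u) :
    Integrable (fun x => ⟪w x, u x⟫_𝕜) μ := by
  have e : (fun x => ⟪w x, u x⟫_𝕜) = fun x => ⟪w x, (tsupport w).indicator u x⟫_𝕜 := by
    funext x
    by_cases hx : x ∈ tsupport w
    · rw [Set.indicator_of_mem hx]
    · rw [image_eq_zero_of_notMem_tsupport hx, inner_zero_left, inner_zero_left]
  rw [e]
  exact fs_integrable_inner hw (fs_memLp_indicator hu hc.isCompact)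

theorem fsc_integral_inner_space {W G : Space → Space}
    (hi : ∀ a, Integrable (fun x => ⟪W x a, G x a⟫_ℝ) (volume : Measure Space)) :
    ∫ x, ⟪W x, G x⟫_ℝ = ∑ a, ∫ x, ⟪W x a, G x a⟫_ℝ := by
  rw [← integral_finsetSum _ fun a _ => hi a]
  exact integral_congr_ae (Eventually.of_forall fun x => PiLp.inner_apply _ _)

theorem IsH1.exists_subseq {fn : ℕ → Space → ℝ} {Fn : ℕ → Space → Space} (h : ∀ n, IsH1 (fn n) (Fn n)) {C : ℝ}
    (hC : ∀ n, (∫ x, fn n x ^ 2) + ∫ x, ‖Fn n x‖ ^ 2 ≤ C) :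
    ∃ (φ : ℕ → ℕ) (f : Space → ℝ) (F : Space → Space), StrictMono φ ∧ IsH1 f F ∧
      (∀ K, IsCompact K → Tendsto (fun n => ∫ x in K, (fn (φ n) x - f x) ^ 2) atTop (𝓝 0)) ∧
      (∀ᵐ x, Tendsto (fun n => fn (φ n) x) atTop (𝓝 (f x))) ∧
      WeakL2 ℝ volume (fn ∘ φ) f ∧ WeakL2 ℝ volume (Fn ∘ φ) F := by
  obtain ⟨φ, f', g', hφ, hf', hWD, hs, hae, hw, hwg⟩ := exists_subseq_H1 ℝ (μ := (volume : Measure Space))
    (H := ℝ) fsc_span_single (f := fn) (g := fun n a x => Fn n x a) (fun n a => (h n).wd2_coord a)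
    (fun n => (h n).1) (C := C) (fun n => by
      simp only [Real.norm_eq_abs, sq_abs]
      rw [← fsc_integral_norm_sq_eq_sum_coord (h n).2.1]
      exact hC n)
  refine ⟨φ, f', fun x => WithLp.toLp 2 fun a => g' a x, hφ, isH1_of_coord hWD, fun K hK => ?_, hae, hw,
    fun W hW => ?_⟩
  · have := hs K hK
    simpa only [Real.norm_eq_abs, sq_abs] using this
  · have e1 : ∀ n, ∫ x, ⟪W x, (Fn ∘ φ) n x⟫_ℝ = ∑ a, ∫ x, ⟪W x a, Fn (φ n) x a⟫_ℝ := fun n =>
      fsc_integral_inner_space fun a =>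
        fs_integrable_inner (fsc_memLp_coord hW a) (fsc_memLp_coord (h (φ n)).2.1 a)
    have e2 : ∫ x, ⟪W x, (WithLp.toLp 2 fun a => g' a x : Space)⟫_ℝ = ∑ a, ∫ x, ⟪W x a, g' a x⟫_ℝ :=
      fsc_integral_inner_space fun a => fs_integrable_inner (fsc_memLp_coord hW a) (hWD a).memg
    simp only [e1]
    rw [e2]
    exact tendsto_finsetSum _ fun a _ => hwg a _ (fsc_memLp_coord hW a)

theorem IsWeakGrad.exists_subseq_loc {fn : ℕ → Space → ℝ} {Fn : ℕ → Space → Space}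
    (h : ∀ n, IsWeakGrad (fn n) (Fn n)) (hf : ∀ n, L2Loc volume (fn n)) (hF : ∀ n, L2Loc volume (Fn n))
    (hC : ∀ K : Set Space, IsCompact K → ∃ C : ℝ, ∀ n, (∫ x in K, fn n x ^ 2) + ∫ x in K, ‖Fn n x‖ ^ 2 ≤ C) :
    ∃ (φ : ℕ → ℕ) (f : Space → ℝ) (F : Space → Space), StrictMono φ ∧ IsWeakGrad f F ∧ L2Loc volume f ∧
      L2Loc volume F ∧
      (∀ K, IsCompact K → Tendsto (fun n => ∫ x in K, (fn (φ n) x - f x) ^ 2) atTop (𝓝 0)) ∧
      (∀ᵐ x, Tendsto (fun n => fn (φ n) x) atTop (𝓝 (f x))) ∧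
      ∀ W : Space → Space, MemLp W 2 volume → HasCompactSupport W →
        Tendsto (fun n => ∫ x, ⟪W x, Fn (φ n) x⟫_ℝ) atTop (𝓝 (∫ x, ⟪W x, F x⟫_ℝ)) := by
  have hFc : ∀ n a, L2Loc volume (fun x => Fn n x a) := fun n a K hK => fsc_memLp_coord (hF n K hK) a
  obtain ⟨φ, f', g', hφ, hf', hg', hWD, hs, hae, hwg⟩ := exists_subseq_H1loc ℝ (μ := (volume : Measure Space))
    (H := ℝ) fsc_span_single (f := fn) (g := fun n a x => Fn n x a) (fun n a => (h n).wd_coord a) hf hFc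
    (fun K hK => by
      obtain ⟨C, hC'⟩ := hC K hK
      refine ⟨C, fun n => ?_⟩
      simp only [Real.norm_eq_abs, sq_abs]
      rw [← fsc_integral_norm_sq_eq_sum_coord (hF n K hK)]
      exact hC' n)
  refine ⟨φ, f', fun x => WithLp.toLp 2 fun a => g' a x, hφ, isWeakGrad_of_coord hWD, hf',
    fun K hK => fsc_memLp_toLp fun a => hg' a K hK, fun K hK => ?_, hae, fun W hW hc => ?_⟩
  · have := hs K hK
    simpa only [Real.norm_eq_abs, sq_abs] using this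
  · have hca : ∀ a, HasCompactSupport fun x => W x a := fun a => hc.comp_left (g := fun v : Space => v a) rfl
    have e1 : ∀ n, ∫ x, ⟪W x, Fn (φ n) x⟫_ℝ = ∑ a, ∫ x, ⟪W x a, Fn (φ n) x a⟫_ℝ := fun n =>
      fsc_integral_inner_space fun a =>
        fsc_integrable_inner_loc (fsc_memLp_coord hW a) (hca a) (hFc (φ n) a)
    have e2 : ∫ x, ⟪W x, (WithLp.toLp 2 fun a => g' a x : Space)⟫_ℝ = ∑ a, ∫ x, ⟪W x a, g' a x⟫_ℝ :=
      fsc_integral_inner_space fun a => fsc_integrable_inner_loc (fsc_memLp_coord hW a) (hca a) (hg' a)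
    simp only [e1]
    rw [e2]
    exact tendsto_finsetSum _ fun a _ => hwg a _ (fsc_memLp_coord hW a) (hca a)

/-- weighted Cauchy–Schwarz inequality. -/
theorem fsc_weighted_cs {α : Type*} [MeasurableSpace α] {ν : Measure α} {a b w : α → ℝ} (hw : ∀ x, 0 ≤ w x)
    (hwm : AEStronglyMeasurable w ν) (ham : AEStronglyMeasurable a ν) (hbm : AEStronglyMeasurable b ν)
    (ha : Integrable (fun x => a x ^ 2 * w x) ν) (hb : Integrable (fun x => b x ^ 2 * w x) ν) :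
    Integrable (fun x => a x * b x * w x) ν ∧
      |∫ x, a x * b x * w x ∂ν| ≤ √(∫ x, a x ^ 2 * w x ∂ν) * √(∫ x, b x ^ 2 * w x ∂ν) := by
  have hsm : AEStronglyMeasurable (fun x => √(w x)) ν :=
    (Real.continuous_sqrt.comp_aestronglyMeasurable hwm)
  have eA : ∀ (u : α → ℝ) x, (u x * √(w x)) ^ 2 = u x ^ 2 * w x := fun u x => by
    rw [mul_pow, Real.sq_sqrt (hw x)]
  have hAm : AEStronglyMeasurable (fun x => a x * √(w x)) ν := ham.mul hsm
  have hBm : AEStronglyMeasurable (fun x => b x * √(w x)) ν := hbm.mul hsm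
  have mA : MemLp (fun x => a x * √(w x)) 2 ν :=
    (memLp_two_iff_integrable_sq hAm).2 (by simpa only [eA] using ha)
  have mB : MemLp (fun x => b x * √(w x)) 2 ν :=
    (memLp_two_iff_integrable_sq hBm).2 (by simpa only [eA] using hb)
  have hcs := fs_cs mA mB
  simp only [Real.norm_eq_abs, sq_abs, eA] at hcs
  have e : ∀ x, a x * b x * w x = (a x * √(w x)) * (b x * √(w x)) := fun x => by
    have := Real.mul_self_sqrt (hw x)
    calc a x * b x * w x = a x * b x * (√(w x) * √(w x)) := by rw [this]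
      _ = _ := by ring
  have hi : Integrable (fun x => a x * b x * w x) ν := by
    simp only [e]
    exact mA.integrable_mul mB
  refine ⟨hi, le_trans ?_ hcs.2⟩
  rw [← Real.norm_eq_abs]
  refine (norm_integral_le_integral_norm _).trans (le_of_eq ?_)
  refine integral_congr_ae (Eventually.of_forall fun x => ?_)
  simp only [e, Real.norm_eq_abs, abs_mul]

/-- the elementary splitting of the Coulomb weight. -/
theorem fsc_coulomb_split {ε r t : ℝ} (hε : 0 < ε) (hr : 0 ≤ r) (ht : 0 ≤ t) :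
    t / r ≤ ε * (t / r ^ 2) + ε⁻¹ * (if r ≤ ε⁻¹ then t else 0) + ε * t := by
  have h1 : 0 ≤ ε * (t / r ^ 2) := by positivity
  have h2 : 0 ≤ ε⁻¹ * (if r ≤ ε⁻¹ then t else 0) := by
    split_ifs <;> positivity
  have h3 : 0 ≤ ε * t := by positivity
  rcases hr.eq_or_lt with h0 | h0
  · rw [← h0, div_zero]
    positivity
  by_cases hA : r < ε
  · have : t / r ≤ ε * (t / r ^ 2) := by
      rw [div_le_iff₀ h0]
      have e : ε * (t / r ^ 2) * r = ε * t / r := by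
        field_simp
      rw [e, le_div_iff₀ h0]
      nlinarith
    linarith
  · by_cases hB : r ≤ ε⁻¹
    · rw [if_pos hB]
      have : t / r ≤ ε⁻¹ * t := by
        rw [div_le_iff₀ h0, mul_assoc, mul_comm t r, ← mul_assoc]
        have : 1 ≤ ε⁻¹ * r := by
          rw [inv_mul_eq_div, le_div_iff₀ hε]
          linarith [not_lt.1 hA]
        nlinarith
      linarith
    · have : t / r ≤ ε * t := by
        rw [div_le_iff₀ h0, mul_assoc, mul_comm t r, ← mul_assoc]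
        have : 1 ≤ ε * r := by
          have := (not_le.1 hB).le
          rwa [inv_le_iff_one_le_mul₀ hε, mul_comm] at this
        nlinarith
      linarith

/-- a sequence bounded in `H¹(ℝ³)` which tends to zero in `L²_loc` has vanishing Coulomb energy. -/
theorem fsc_tendsto_coulomb_zero {dn : ℕ → Space → ℝ} {Dn : ℕ → Space → Space} (h : ∀ n, IsH1 (dn n) (Dn n))
    {M : ℝ} (hM1 : ∀ n, ∫ x, dn n x ^ 2 ≤ M) (hM2 : ∀ n, ∫ x, ‖Dn n x‖ ^ 2 ≤ M)
    (hloc : ∀ K, IsCompact K → Tendsto (fun n => ∫ x in K, dn n x ^ 2) atTop (𝓝 0)) (c : Space) :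
    Tendsto (fun n => ∫ x, dn n x ^ 2 / ‖x - c‖) atTop (𝓝 0) := by
  have hM0 : 0 ≤ M := (integral_nonneg fun x => sq_nonneg _).trans (hM1 0)
  have hbound : ∀ ε : ℝ, 0 < ε → ∀ n, ∫ x, dn n x ^ 2 / ‖x - c‖
      ≤ 5 * M * ε + ε⁻¹ * ∫ x in Metric.closedBall c ε⁻¹, dn n x ^ 2 := by
    intro ε hε n
    have i0 : Integrable (fun x => dn n x ^ 2) := (h n).1.integrable_sq
    have i1 := ((h n).hardy c).1
    have i2 : Integrable (fun x => (Metric.closedBall c ε⁻¹).indicator (fun x => dn n x ^ 2) x) :=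
      i0.indicator measurableSet_closedBall
    have hle : ∫ x, dn n x ^ 2 / ‖x - c‖ ≤ ∫ x, (ε * (dn n x ^ 2 / ‖x - c‖ ^ 2)
        + ε⁻¹ * (Metric.closedBall c ε⁻¹).indicator (fun x => dn n x ^ 2) x + ε * dn n x ^ 2) := by
      refine integral_mono ((h n).coulomb c).1 (((i1.const_mul ε).add (i2.const_mul ε⁻¹)).add (i0.const_mul ε))
        fun x => ?_
      have := fsc_coulomb_split hε (norm_nonneg (x - c)) (sq_nonneg (dn n x))
      have e : (Metric.closedBall c ε⁻¹).indicator (fun x => dn n x ^ 2) x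
          = if ‖x - c‖ ≤ ε⁻¹ then dn n x ^ 2 else 0 := by
        by_cases hx : ‖x - c‖ ≤ ε⁻¹
        · rw [if_pos hx, Set.indicator_of_mem (by rwa [Metric.mem_closedBall, dist_eq_norm])]
        · rw [if_neg hx, Set.indicator_of_notMem (by rwa [Metric.mem_closedBall, dist_eq_norm])]
      rw [← e] at this
      exact this
    have i12 : Integrable (fun x => ε * (dn n x ^ 2 / ‖x - c‖ ^ 2)
        + ε⁻¹ * (Metric.closedBall c ε⁻¹).indicator (fun x => dn n x ^ 2) x) :=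
      (i1.const_mul ε).add (i2.const_mul ε⁻¹)
    rw [integral_add i12 (i0.const_mul ε),
      integral_add (i1.const_mul ε) (i2.const_mul ε⁻¹), integral_const_mul, integral_const_mul,
      integral_const_mul, integral_indicator measurableSet_closedBall] at hle
    have a1 : ε * ∫ x, dn n x ^ 2 / ‖x - c‖ ^ 2 ≤ ε * (4 * M) :=
      mul_le_mul_of_nonneg_left (((h n).hardy c).2.trans (by linarith [hM2 n])) hε.le
    have a2 : ε * ∫ x, dn n x ^ 2 ≤ ε * M := mul_le_mul_of_nonneg_left (hM1 n) hε.le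
    linarith
  rw [Metric.tendsto_atTop]
  intro η hη
  set ε : ℝ := η / (10 * M + 1) with hεdef
  have hε : 0 < ε := by positivity
  have h5 : 5 * M * ε < η / 2 := by
    have e : ε * (10 * M + 1) = η := by
      rw [hεdef]; field_simp
    nlinarith
  have ht := (hloc _ (isCompact_closedBall c ε⁻¹)).const_mul ε⁻¹
  rw [mul_zero] at ht
  obtain ⟨N, hN⟩ := Metric.tendsto_atTop.1 ht (η / 2) (by positivity)
  refine ⟨N, fun n hn => ?_⟩
  have h1 := hN n hn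
  rw [Real.dist_eq, sub_zero] at h1 ⊢
  have h2 := hbound ε hε n
  have h3 : 0 ≤ ∫ x, dn n x ^ 2 / ‖x - c‖ := integral_nonneg fun x => by positivity
  rw [abs_of_nonneg h3]
  have h4 := le_abs_self (ε⁻¹ * ∫ x in Metric.closedBall c ε⁻¹, dn n x ^ 2)
  linarith

/-- the Coulomb energy is weakly continuous on `H¹(ℝ³)`: split `ρ < r` (Hardy: `≤ 4 r ∫|∇f|²`), `r ≤ ρ ≤ R`
(strong `L²_loc` convergence), `ρ > R` (`≤ R⁻¹ ∫ f²`). -/
theorem tendsto_integral_coulomb {fn : ℕ → Space → ℝ} {Fn : ℕ → Space → Space} {f : Space → ℝ} {F : Space → Space}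
    (h : ∀ n, IsH1 (fn n) (Fn n)) (hf : IsH1 f F) {C : ℝ}
    (hC : ∀ n, (∫ x, fn n x ^ 2) + ∫ x, ‖Fn n x‖ ^ 2 ≤ C)
    (hloc : ∀ K, IsCompact K → Tendsto (fun n => ∫ x in K, (fn n x - f x) ^ 2) atTop (𝓝 0)) (c : Space) :
    Tendsto (fun n => ∫ x, fn n x ^ 2 / ‖x - c‖) atTop (𝓝 (∫ x, f x ^ 2 / ‖x - c‖)) := by
  have hd : ∀ n, IsH1 (fun x => fn n x - f x) (fun x => Fn n x - F x) := fun n => (h n).sub hf
  set M : ℝ := 2 * C + 2 * ((∫ x, f x ^ 2) + ∫ x, ‖F x‖ ^ 2) with hMdef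
  have n1 : ∀ n, 0 ≤ ∫ x, fn n x ^ 2 := fun n => integral_nonneg fun x => sq_nonneg _
  have n2 : ∀ n, 0 ≤ ∫ x, ‖Fn n x‖ ^ 2 := fun n => integral_nonneg fun x => sq_nonneg _
  have n3 : 0 ≤ ∫ x, f x ^ 2 := integral_nonneg fun x => sq_nonneg _
  have n4 : 0 ≤ ∫ x, ‖F x‖ ^ 2 := integral_nonneg fun x => sq_nonneg _
  have hM1 : ∀ n, ∫ x, (fn n x - f x) ^ 2 ≤ M := by
    intro n
    have := fsc_integral_sub_sq_le (h n).1 (MemLp.zero (ε := ℝ)) hf.1
    simp only [Pi.zero_apply, sub_zero, zero_sub, norm_neg, Real.norm_eq_abs, sq_abs] at this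
    have := hC n
    linarith [n2 n]
  have hM2 : ∀ n, ∫ x, ‖Fn n x - F x‖ ^ 2 ≤ M := by
    intro n
    have := fsc_integral_sub_sq_le (h n).2.1 (MemLp.zero (ε := Space)) hf.2.1
    simp only [Pi.zero_apply, sub_zero, zero_sub, norm_neg] at this
    have := hC n
    linarith [n1 n]
  have hδ := fsc_tendsto_coulomb_zero hd hM1 hM2 hloc c
  -- the cross term
  have hwm : AEStronglyMeasurable (fun x : Space => ‖x - c‖⁻¹) volume :=
    (measurable_norm.comp (measurable_id.sub_const c)).inv.aestronglyMeasurable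
  have hcs : ∀ n, Integrable (fun x => f x * (fn n x - f x) * ‖x - c‖⁻¹) ∧
      |∫ x, f x * (fn n x - f x) * ‖x - c‖⁻¹|
        ≤ √(∫ x, f x ^ 2 * ‖x - c‖⁻¹) * √(∫ x, (fn n x - f x) ^ 2 * ‖x - c‖⁻¹) := fun n =>
    fsc_weighted_cs (fun x => inv_nonneg.2 (norm_nonneg _)) hwm hf.1.1 (hd n).1.1
      (by simpa only [div_eq_mul_inv] using (hf.coulomb c).1)
      (by simpa only [div_eq_mul_inv] using ((hd n).coulomb c).1)
  have e : ∀ n, ∫ x, fn n x ^ 2 / ‖x - c‖ = (∫ x, f x ^ 2 / ‖x - c‖) + ((∫ x, (fn n x - f x) ^ 2 / ‖x - c‖)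
      + 2 * ∫ x, f x * (fn n x - f x) * ‖x - c‖⁻¹) := by
    intro n
    have i12 : Integrable (fun x => (fn n x - f x) ^ 2 / ‖x - c‖ + 2 * (f x * (fn n x - f x) * ‖x - c‖⁻¹)) :=
      ((hd n).coulomb c).1.add ((hcs n).1.const_mul 2)
    rw [← integral_const_mul, ← integral_add ((hd n).coulomb c).1 ((hcs n).1.const_mul 2),
      ← integral_add (hf.coulomb c).1 i12]
    refine integral_congr_ae (Eventually.of_forall fun x => ?_)
    simp only [div_eq_mul_inv]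
    ring
  have hcross : Tendsto (fun n => ∫ x, f x * (fn n x - f x) * ‖x - c‖⁻¹) atTop (𝓝 0) := by
    rw [tendsto_zero_iff_abs_tendsto_zero]
    have h2 : Tendsto (fun n => √(∫ x, f x ^ 2 * ‖x - c‖⁻¹) * √(∫ x, (fn n x - f x) ^ 2 * ‖x - c‖⁻¹))
        atTop (𝓝 0) := by
      have h3 := ((Real.continuous_sqrt.tendsto 0).comp hδ).const_mul (√(∫ x, f x ^ 2 * ‖x - c‖⁻¹))
      simpa only [Real.sqrt_zero, mul_zero, Function.comp_def, div_eq_mul_inv] using h3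
    exact squeeze_zero (fun n => abs_nonneg _) (fun n => (hcs n).2) h2
  simp only [e]
  have := (hδ.add (hcross.const_mul 2)).const_add (∫ x, f x ^ 2 / ‖x - c‖)
  simpa using this

theorem tendsto_integral_nuclear {fn : ℕ → Space → ℝ} {Fn : ℕ → Space → Space} {f : Space → ℝ} {F : Space → Space}
    (h : ∀ n, IsH1 (fn n) (Fn n)) (hf : IsH1 f F) {C : ℝ}
    (hC : ∀ n, (∫ x, fn n x ^ 2) + ∫ x, ‖Fn n x‖ ^ 2 ≤ C)
    (hloc : ∀ K, IsCompact K → Tendsto (fun n => ∫ x in K, (fn n x - f x) ^ 2) atTop (𝓝 0)) (Z R : ℝ) :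
    Tendsto (fun n => ∫ x, nuclearPotential Z R x * (fn n x * fn n x)) atTop
      (𝓝 (∫ x, nuclearPotential Z R x * (f x * f x))) := by
  have e : ∀ {u : Space → ℝ} {U : Space → Space}, IsH1 u U → ∫ x, nuclearPotential Z R x * (u x * u x)
      = -Z * (∫ x, u x ^ 2 / ‖x - R • ez‖) - Z * ∫ x, u x ^ 2 / ‖x - (-(R • ez))‖ := by
    intro u U hu
    rw [← integral_const_mul, ← integral_const_mul,
      ← integral_sub ((hu.coulomb _).1.const_mul _) ((hu.coulomb _).1.const_mul _)]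
    refine integral_congr_ae (Eventually.of_forall fun x => ?_)
    simp only [nuclearPotential, sub_neg_eq_add]
    ring
  simp only [e (h _), e hf]
  exact ((tendsto_integral_coulomb h hf hC hloc _).const_mul _).sub
    ((tendsto_integral_coulomb h hf hC hloc _).const_mul _)

end C4

end Claimed.Open.R278
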