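import Claimed.Open.R278.ENH1

/-!
# Result 278, layer L7: Sobolev inequality `‖f‖₆ ≤ S ‖∇f‖₂` on `H¹(ℝ³)`; potentials in `L^{3/2} + L^∞` as continuous forms on `H¹`
-/

open MeasureTheory Filter
open scoped ContDiff InnerProductSpace ENNReal Topology NNReal
open Claimed.Agent

noncomputable section

namespace Claimed.Open.R278

theorem en_one_le_three_halves : (1 : ℝ≥0∞) ≤ 3 / 2 := by
  rw [ENNReal.le_div_iff_mul_le (by simp) (by simp)]; norm_num

/-! ### Sobolev -/

/-- the Sobolev constant (Mathlib's value) -/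
def enSobC : ℝ≥0 := eLpNormLESNormFDerivOfEqInnerConst (volume : Measure Space) 2

theorem en_sobolev_contDiff {u : Space → ℝ} (hu : ContDiff ℝ 1 u) (hc : HasCompactSupport u) :
    eLpNorm u 6 volume ≤ enSobC * eLpNorm (gradient u) 2 volume := by
  have h := eLpNorm_le_eLpNorm_fderiv_of_eq_inner (volume : Measure Space) hu hc (p := 2) (p' := 6)
    (by norm_num) (by simp) (by simp; norm_num)
  have e : eLpNorm (fderiv ℝ u) 2 volume = eLpNorm (gradient u) 2 volume :=
    eLpNorm_congr_norm_ae (ae_of_all _ fun x => by simp [gradient])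
  have e6 : ((6 : ℝ≥0) : ℝ≥0∞) = 6 := by norm_cast
  have e2 : ((2 : ℝ≥0) : ℝ≥0∞) = 2 := by norm_cast
  rw [e6, e2, e] at h
  exact h

theorem en_sobolev {f : Space → ℝ} {F : Space → Space} (h : IsH1 f F) :
    eLpNorm f 6 volume ≤ enSobC * eLpNorm F 2 volume := by
  obtain ⟨φ, hφ, hφc, h0, h1⟩ := enH1_exists_approx h
  have hφ1 : ∀ n, ContDiff ℝ 1 (φ n) := fun n => (hφ n).of_le (by simp)
  have hH : ∀ n, IsH1 (φ n) (gradient (φ n)) := fun n => enH1_of_contDiff (hφ1 n) (hφc n)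
  have h0' : Tendsto (fun n => eLpNorm (φ n - f) 2 volume) atTop (𝓝 0) :=
    (R259.ws_tendsto_sq_iff_real (g := fun n x => φ n x - f x) (fun n => (hH n).1.sub h.1)).1 h0
  have h1' : Tendsto (fun n => eLpNorm (fun x => gradient (φ n) x - F x) 2 volume) atTop (𝓝 0) :=
    (R259.ws_tendsto_sq_iff (g := fun n x => gradient (φ n) x - F x) (fun n => (hH n).2.1.sub h.2.1)).1 h1
  have hm := tendstoInMeasure_of_tendsto_eLpNorm (by norm_num) (fun n => (hH n).1.1) h.1.1 h0'
  obtain ⟨ns, hns, hae⟩ := hm.exists_seq_tendsto_ae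
  have hF := Lp.eLpNorm_lim_le_liminf_eLpNorm (p := 6) (fun i => (hH (ns i)).1.1) f hae
  refine hF.trans ?_
  have hub : ∀ i, eLpNorm (φ (ns i)) 6 volume
      ≤ enSobC * (eLpNorm (fun x => gradient (φ (ns i)) x - F x) 2 volume + eLpNorm F 2 volume) := by
    intro i
    refine (en_sobolev_contDiff (hφ1 _) (hφc _)).trans ?_
    gcongr
    have : gradient (φ (ns i)) = (fun x => gradient (φ (ns i)) x - F x) + F := by
      funext x; simp
    calc eLpNorm (gradient (φ (ns i))) 2 volume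
        = eLpNorm ((fun x => gradient (φ (ns i)) x - F x) + F) 2 volume := by rw [← this]
      _ ≤ _ := eLpNorm_add_le ((hH _).2.1.sub h.2.1).1 h.2.1.1 (by norm_num)
  have hlim : Tendsto (fun i => (enSobC : ℝ≥0∞) *
      (eLpNorm (fun x => gradient (φ (ns i)) x - F x) 2 volume + eLpNorm F 2 volume)) atTop
      (𝓝 (enSobC * (0 + eLpNorm F 2 volume))) :=
    ENNReal.Tendsto.const_mul ((h1'.comp hns.tendsto_atTop).add_const _) (Or.inr ENNReal.coe_ne_top)
  rw [zero_add] at hlim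
  calc liminf (fun i => eLpNorm (φ (ns i)) 6 volume) atTop
      ≤ liminf (fun i => (enSobC : ℝ≥0∞) *
      (eLpNorm (fun x => gradient (φ (ns i)) x - F x) 2 volume + eLpNorm F 2 volume)) atTop :=
        liminf_le_liminf (Eventually.of_forall hub)
    _ = _ := hlim.liminf_eq

theorem enH1_memLp_six {f : Space → ℝ} {F : Space → Space} (h : IsH1 f F) : MemLp f 6 volume :=
  ⟨h.1.1, (en_sobolev h).trans_lt (ENNReal.mul_lt_top ENNReal.coe_lt_top h.2.1.2)⟩

/-! ### Hölder -/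

instance en_holderTriple_a : ENNReal.HolderTriple 6 6 3 := ⟨by
  rw [← two_mul, show (6 : ℝ≥0∞) = 2 * 3 by norm_num, ENNReal.mul_inv (by simp) (by simp), ← mul_assoc,
    ENNReal.mul_inv_cancel (by simp) (by simp), one_mul]⟩

instance en_holderTriple_b : ENNReal.HolderTriple (3 / 2) 3 1 := ⟨by
  have h1 : ((3 / 2 : ℝ≥0∞))⁻¹ = 2 * 3⁻¹ := by
    rw [div_eq_mul_inv, ENNReal.mul_inv (Or.inl (by norm_num)) (Or.inl (by norm_num)), inv_inv, mul_comm]
  rw [h1, inv_one]
  have h2 : (2 : ℝ≥0∞) * 3⁻¹ + 3⁻¹ = 3 * 3⁻¹ := by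
    have : (3 : ℝ≥0∞) = 2 + 1 := by norm_num
    rw [this, add_mul, one_mul]
  rw [h2]
  exact ENNReal.mul_inv_cancel (by norm_num) (by norm_num)⟩

theorem en_eLpNorm_mul_le {α : Type*} [MeasurableSpace α] {μ : Measure α} (p q r : ℝ≥0∞)
    [ENNReal.HolderTriple p q r] {φ f : α → ℝ} (hφ : AEStronglyMeasurable φ μ)
    (hf : AEStronglyMeasurable f μ) :
    eLpNorm (fun x => φ x * f x) r μ ≤ eLpNorm φ p μ * eLpNorm f q μ := by
  have h := eLpNorm_smul_le_mul_eLpNorm (p := p) (q := q) (r := r) hf hφ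
  have e : φ • f = fun x => φ x * f x := by
    funext x; rw [Pi.smul_apply', smul_eq_mul]
  rwa [e] at h

/-- the basic bound -/
theorem en_pot_bound {v₁ v₂ a b : Space → ℝ} (h₁ : MemLp v₁ (3 / 2) volume) (h₂ : MemLp v₂ ⊤ volume)
    (ha2 : MemLp a 2 volume) (ha6 : MemLp a 6 volume) (hb2 : MemLp b 2 volume) (hb6 : MemLp b 6 volume) :
    Integrable (fun x => (v₁ x + v₂ x) * (a x * b x)) ∧
    ‖∫ x, (v₁ x + v₂ x) * (a x * b x)‖ₑ ≤
      eLpNorm v₁ (3 / 2) volume * (eLpNorm a 6 volume * eLpNorm b 6 volume)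
        + eLpNorm v₂ ⊤ volume * (eLpNorm a 2 volume * eLpNorm b 2 volume) := by
  have ab3 : MemLp (fun x => a x * b x) 3 volume := hb6.mul' ha6
  have n3 : eLpNorm (fun x => a x * b x) 3 volume ≤ eLpNorm a 6 volume * eLpNorm b 6 volume :=
    en_eLpNorm_mul_le 6 6 3 ha6.1 hb6.1
  have ab1 : MemLp (fun x => a x * b x) 1 volume := hb2.mul' ha2
  have n1 : eLpNorm (fun x => a x * b x) 1 volume ≤ eLpNorm a 2 volume * eLpNorm b 2 volume :=
    en_eLpNorm_mul_le 2 2 1 ha2.1 hb2.1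
  have t1 : MemLp (fun x => v₁ x * (a x * b x)) 1 volume := ab3.mul' h₁
  have m1 : eLpNorm (fun x => v₁ x * (a x * b x)) 1 volume
      ≤ eLpNorm v₁ (3 / 2) volume * eLpNorm (fun x => a x * b x) 3 volume :=
    en_eLpNorm_mul_le (3 / 2) 3 1 h₁.1 ab3.1
  have t2 : MemLp (fun x => v₂ x * (a x * b x)) 1 volume := ab1.mul' h₂
  have m2 : eLpNorm (fun x => v₂ x * (a x * b x)) 1 volume
      ≤ eLpNorm v₂ ⊤ volume * eLpNorm (fun x => a x * b x) 1 volume :=
    en_eLpNorm_mul_le ⊤ 1 1 h₂.1 ab1.1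
  have e : (fun x => (v₁ x + v₂ x) * (a x * b x))
      = (fun x => v₁ x * (a x * b x)) + fun x => v₂ x * (a x * b x) := by
    funext x; simp only [Pi.add_apply]; ring
  rw [e]
  refine ⟨memLp_one_iff_integrable.1 (t1.add t2), ?_⟩
  calc ‖∫ x, ((fun x => v₁ x * (a x * b x)) + fun x => v₂ x * (a x * b x)) x‖ₑ
      ≤ ∫⁻ x, ‖((fun x => v₁ x * (a x * b x)) + fun x => v₂ x * (a x * b x)) x‖ₑ :=
        enorm_integral_le_lintegral_enorm _
    _ = eLpNorm ((fun x => v₁ x * (a x * b x)) + fun x => v₂ x * (a x * b x)) 1 volume :=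
        eLpNorm_one_eq_lintegral_enorm.symm
    _ ≤ eLpNorm (fun x => v₁ x * (a x * b x)) 1 volume + eLpNorm (fun x => v₂ x * (a x * b x)) 1 volume :=
        eLpNorm_add_le t1.1 t2.1 le_rfl
    _ ≤ _ := add_le_add (m1.trans (mul_le_mul_right n3 _)) (m2.trans (mul_le_mul_right n1 _))

/-- the `H¹` norm (sum form), in `ℝ≥0∞` -/
def enN (f : Space → ℝ) (F : Space → Space) : ℝ≥0∞ := eLpNorm f 2 volume + eLpNorm F 2 volume

theorem enN_ne_top {f : Space → ℝ} {F : Space → Space} (h : IsH1 f F) : enN f F ≠ ⊤ :=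
  ENNReal.add_ne_top.2 ⟨h.1.2.ne, h.2.1.2.ne⟩

theorem enN_add_le {f₁ f₂ : Space → ℝ} {F₁ F₂ : Space → Space} (h₁ : IsH1 f₁ F₁) (h₂ : IsH1 f₂ F₂) :
    enN (fun x => f₁ x + f₂ x) (fun x => F₁ x + F₂ x) ≤ enN f₁ F₁ + enN f₂ F₂ := by
  unfold enN
  have a1 := eLpNorm_add_le h₁.1.1 h₂.1.1 (p := 2) (by norm_num)
  have a2 := eLpNorm_add_le h₁.2.1.1 h₂.2.1.1 (p := 2) (by norm_num)
  calc _ ≤ (eLpNorm f₁ 2 volume + eLpNorm f₂ 2 volume) + (eLpNorm F₁ 2 volume + eLpNorm F₂ 2 volume) :=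
        add_le_add a1 a2
    _ = _ := by ring

/-- **form bound**: `v ∈ L^{3/2} + L^∞` is a bounded bilinear form on `H¹(ℝ³)` -/
theorem en_form_bound {v : Space → ℝ} (hv : v ∈ PotentialClass) :
    ∃ K : ℝ≥0∞, K ≠ ⊤ ∧ ∀ (a b : Space → ℝ) (A B : Space → Space), IsH1 a A → IsH1 b B →
      Integrable (fun x => v x * (a x * b x)) ∧ ‖∫ x, v x * (a x * b x)‖ₑ ≤ K * (enN a A * enN b B) := by
  obtain ⟨v₁, v₂, h₁, h₂, rfl⟩ := hv
  refine ⟨eLpNorm v₁ (3 / 2) volume * (enSobC * enSobC) + eLpNorm v₂ ⊤ volume, ?_, ?_⟩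
  · exact ENNReal.add_ne_top.2 ⟨ENNReal.mul_ne_top h₁.2.ne (ENNReal.mul_ne_top ENNReal.coe_ne_top
      ENNReal.coe_ne_top), h₂.2.ne⟩
  · intro a b A B ha hb
    obtain ⟨i, hi⟩ := en_pot_bound h₁ h₂ ha.1 (enH1_memLp_six ha) hb.1 (enH1_memLp_six hb)
    refine ⟨i, hi.trans ?_⟩
    have sa := en_sobolev ha
    have sb := en_sobolev hb
    have la : eLpNorm A 2 volume ≤ enN a A := le_add_self
    have lb : eLpNorm B 2 volume ≤ enN b B := le_add_self
    have la' : eLpNorm a 2 volume ≤ enN a A := le_self_add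
    have lb' : eLpNorm b 2 volume ≤ enN b B := le_self_add
    calc eLpNorm v₁ (3 / 2) volume * (eLpNorm a 6 volume * eLpNorm b 6 volume)
          + eLpNorm v₂ ⊤ volume * (eLpNorm a 2 volume * eLpNorm b 2 volume)
        ≤ eLpNorm v₁ (3 / 2) volume * ((enSobC * enN a A) * (enSobC * enN b B))
          + eLpNorm v₂ ⊤ volume * (enN a A * enN b B) := by
          gcongr
          · exact sa.trans (by gcongr)
          · exact sb.trans (by gcongr)
      _ = _ := by ring

theorem en_integrable_pot {v : Space → ℝ} (hv : v ∈ PotentialClass) {f₁ f₂ : Space → ℝ} {F₁ F₂ : Space → Space}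
    (h₁ : IsH1 f₁ F₁) (h₂ : IsH1 f₂ F₂) : Integrable fun x => v x * (f₁ x * f₂ x) := by
  obtain ⟨K, -, hK⟩ := en_form_bound hv
  exact (hK _ _ _ _ h₁ h₂).1

/-- `H¹` convergence in the integral form gives `enN → 0` -/
theorem enN_tendsto {a : Space → ℝ} {A : Space → Space} {an : ℕ → Space → ℝ} {An : ℕ → Space → Space}
    (han : ∀ n, IsH1 (an n) (An n)) (ha : IsH1 a A)
    (h0 : Tendsto (fun n => ∫ x, (an n x - a x) ^ 2) atTop (𝓝 0))
    (h1 : Tendsto (fun n => ∫ x, ‖An n x - A x‖ ^ 2) atTop (𝓝 0)) :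
    Tendsto (fun n => enN (fun x => an n x - a x) (fun x => An n x - A x)) atTop (𝓝 0) := by
  have h0' := (R259.ws_tendsto_sq_iff_real (g := fun n x => an n x - a x) (fun n => (han n).1.sub ha.1)).1 h0
  have h1' := (R259.ws_tendsto_sq_iff (g := fun n x => An n x - A x) (fun n => (han n).2.1.sub ha.2.1)).1 h1
  simpa [enN] using h0'.add h1'

/-- continuity of the potential energy along `H¹` convergent sequences -/
theorem en_tendsto_pot {v : Space → ℝ} (hv : v ∈ PotentialClass) {a b : Space → ℝ} {A B : Space → Space}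
    {an bn : ℕ → Space → ℝ} {An Bn : ℕ → Space → Space}
    (han : ∀ n, IsH1 (an n) (An n)) (ha : IsH1 a A) (hbn : ∀ n, IsH1 (bn n) (Bn n)) (hb : IsH1 b B)
    (a0 : Tendsto (fun n => ∫ x, (an n x - a x) ^ 2) atTop (𝓝 0))
    (a1 : Tendsto (fun n => ∫ x, ‖An n x - A x‖ ^ 2) atTop (𝓝 0))
    (b0 : Tendsto (fun n => ∫ x, (bn n x - b x) ^ 2) atTop (𝓝 0))
    (b1 : Tendsto (fun n => ∫ x, ‖Bn n x - B x‖ ^ 2) atTop (𝓝 0)) :
    Tendsto (fun n => ∫ x, v x * (an n x * bn n x)) atTop (𝓝 (∫ x, v x * (a x * b x))) := by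
  obtain ⟨K, hK, hb'⟩ := en_form_bound hv
  have ta := enN_tendsto han ha a0 a1
  have tb := enN_tendsto hbn hb b0 b1
  rw [tendsto_iff_edist_tendsto_0]
  set εa : ℕ → ℝ≥0∞ := fun n => enN (fun x => an n x - a x) (fun x => An n x - A x) with hεa
  set εb : ℕ → ℝ≥0∞ := fun n => enN (fun x => bn n x - b x) (fun x => Bn n x - B x) with hεb
  have hub : ∀ n, edist (∫ x, v x * (an n x * bn n x)) (∫ x, v x * (a x * b x))
      ≤ K * (εa n * (εb n + enN b B)) + K * (enN a A * εb n) := by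
    intro n
    have da := enH1_sub (han n) ha
    have db := enH1_sub (hbn n) hb
    obtain ⟨i1, e1⟩ := hb' _ _ _ _ da (hbn n)
    obtain ⟨i2, e2⟩ := hb' _ _ _ _ ha db
    have hsplit : (∫ x, v x * (an n x * bn n x)) - (∫ x, v x * (a x * b x))
        = (∫ x, v x * ((an n x - a x) * bn n x)) + ∫ x, v x * (a x * (bn n x - b x)) := by
      rw [← integral_sub (hb' _ _ _ _ (han n) (hbn n)).1 (hb' _ _ _ _ ha hb).1, ← integral_add i1 i2]
      congr 1; funext x; ring
    have hbnN : enN (bn n) (Bn n) ≤ εb n + enN b B := by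
      have := enN_add_le db hb
      simpa using this
    rw [edist_eq_enorm_sub, hsplit]
    refine (enorm_add_le _ _).trans (add_le_add (e1.trans ?_) e2)
    gcongr
  have hlim : Tendsto (fun n => K * (εa n * (εb n + enN b B)) + K * (enN a A * εb n)) atTop (𝓝 0) := by
    have hB := enN_ne_top hb
    have hA := enN_ne_top ha
    have l1 : Tendsto (fun n => εb n + enN b B) atTop (𝓝 (0 + enN b B)) := tb.add_const _
    have l2 : Tendsto (fun n => εa n * (εb n + enN b B)) atTop (𝓝 (0 * (0 + enN b B))) :=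
      ENNReal.Tendsto.mul ta (Or.inr (by simpa using hB)) l1 (Or.inr (by simp))
    have l3 : Tendsto (fun n => K * (εa n * (εb n + enN b B))) atTop (𝓝 (K * (0 * (0 + enN b B)))) :=
      ENNReal.Tendsto.const_mul l2 (Or.inr hK)
    have l4 : Tendsto (fun n => enN a A * εb n) atTop (𝓝 (enN a A * 0)) :=
      ENNReal.Tendsto.const_mul tb (Or.inr hA)
    have l5 : Tendsto (fun n => K * (enN a A * εb n)) atTop (𝓝 (K * (enN a A * 0))) :=
      ENNReal.Tendsto.const_mul l4 (Or.inr hK)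
    simpa using l3.add l5
  exact tendsto_of_tendsto_of_tendsto_of_le_of_le tendsto_const_nhds hlim (fun _ => zero_le) hub

theorem en_potentialClass_aesm {v : Space → ℝ} (hv : v ∈ PotentialClass) :
    AEStronglyMeasurable v volume := by
  obtain ⟨v₁, v₂, h₁, h₂, rfl⟩ := hv
  exact h₁.1.add h₂.1

theorem en_potentialClass_locInt {v : Space → ℝ} (hv : v ∈ PotentialClass) :
    LocallyIntegrable v volume := by
  obtain ⟨v₁, v₂, h₁, h₂, rfl⟩ := hv
  exact (h₁.locallyIntegrable en_one_le_three_halves).add (h₂.locallyIntegrable (by norm_num))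

/-- a locally square integrable function times a bounded compactly supported one is in `L^{3/2}` -/
theorem en_mul_mem_potentialClass {V χ : Space → ℝ} (hV : ∀ R : ℝ, MemLp V 2 (volume.restrict (Metric.ball 0 R)))
    (hχ : Continuous χ) (hc : HasCompactSupport χ) : (fun x => V x * χ x) ∈ PotentialClass := by
  refine ⟨fun x => V x * χ x, 0, ?_, MemLp.zero, by simp⟩
  obtain ⟨R, hR⟩ := hc.isCompact.isBounded.subset_ball 0
  obtain ⟨C, hC⟩ := hc.exists_bound_of_continuous hχ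
  have : IsFiniteMeasure (volume.restrict (Metric.ball (0 : Space) R)) :=
    ⟨by rw [Measure.restrict_apply_univ]; exact measure_ball_lt_top⟩
  have h1 : MemLp (fun x => V x * χ x) 2 (volume.restrict (Metric.ball 0 R)) := by
    refine ((hV R).const_mul C).mono ((hV R).1.mul hχ.aestronglyMeasurable) (ae_of_all _ fun x => ?_)
    rw [norm_mul, norm_mul, mul_comm]
    exact mul_le_mul_of_nonneg_right ((hC x).trans (le_abs_self C)) (norm_nonneg _)
  have h2 : MemLp (fun x => V x * χ x) (3 / 2) (volume.restrict (Metric.ball 0 R)) :=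
    h1.mono_exponent (by
      rw [ENNReal.div_le_iff (by simp) (by simp)]; norm_num)
  have h3 := (memLp_indicator_iff_restrict Metric.isOpen_ball.measurableSet).2 h2
  have e : (Metric.ball (0 : Space) R).indicator (fun x => V x * χ x) = fun x => V x * χ x := by
    funext x
    by_cases hx : x ∈ Metric.ball (0 : Space) R
    · simp [hx]
    · have : χ x = 0 := image_eq_zero_of_notMem_tsupport fun h => hx (hR h)
      simp [hx, this]
  rwa [e] at h3

end Claimed.Open.R278
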