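import Claimed.Open.R278.FSHardy
import Claimed.Open.R278.ENSob

/-!
# Result 278, kit FS, file 4: the Sobolev inequality `‖u‖₆ ≤ S ‖∇u‖₂` on `ℝ³`; potentials in `L^{3/2} + L^∞`

ROUTE.  (S1) Mathlib: `MeasureTheory.eLpNorm_le_eLpNorm_fderiv_of_eq_inner` (`p = 2`, `p' = 6`, `n = 3`) for REAL valued
`C¹_c` functions; density (`IsH1.exists_seq`) + Fatou along an a.e. convergent subsequence give `IsH1.sobolev`.
Hilbert valued functions are reduced to the scalar function `‖f‖` by `WD2.norm` and `abs_re_inner_div_norm_le`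
(no real/complex inner product diamond).
(S2) `v ∈ L^{3/2} + L^∞` is split as (small in `L^{3/2}`) + (bounded): truncate `v₁` at height `K → ∞`.
(S3) many body: inequality for `C¹_c(Config m)` by Fubini in the variable `x i` (slices of `C¹_c` functions are `C¹_c`),
then density (`MemH1.exists_seq`) + Fatou.  No slicing of weak derivatives is needed.

Each section is ONE LEAF.
-/

open MeasureTheory Filter Topology Set
open scoped ContDiff InnerProductSpace ENNReal NNReal

noncomputable section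

set_option linter.unusedSectionVars false

namespace Claimed.Open.R278

/-- the Sobolev constant of `ℝ³` (Mathlib's value). -/
def sobolevC : ℝ := (eLpNormLESNormFDerivOfEqInnerConst (volume : Measure Space) 2 : ℝ≥0)

theorem sobolevC_nonneg : 0 ≤ sobolevC := NNReal.coe_nonneg _

/-! ## LEAF FS-S1: Sobolev inequality on `ℝ³`, scalar and Hilbert valued; Hölder -/

section S1

theorem fs_eLpNorm_two {α : Type*} [MeasurableSpace α] {ν : Measure α} {E' : Type*} [NormedAddCommGroup E']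
    {a : α → E'} (ha : MemLp a 2 ν) : eLpNorm a 2 ν = ENNReal.ofReal (√(∫ x, ‖a x‖ ^ 2 ∂ν)) := by
  rw [← fs_norm_toLp ha, Lp.norm_toLp, ENNReal.ofReal_toReal ha.2.ne]

theorem fs_sobC_mul {α : Type*} [MeasurableSpace α] {ν : Measure α} {E' : Type*} [NormedAddCommGroup E']
    {a : α → E'} (ha : MemLp a 2 ν) :
    (enSobC : ℝ≥0∞) * eLpNorm a 2 ν = ENNReal.ofReal (sobolevC * √(∫ x, ‖a x‖ ^ 2 ∂ν)) := by
  rw [fs_eLpNorm_two ha, ENNReal.ofReal_mul sobolevC_nonneg]
  congr 1
  exact (ENNReal.ofReal_coe_nnreal).symm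

theorem sobolev_contDiff {u : Space → ℝ} (hu : ContDiff ℝ 1 u) (hc : HasCompactSupport u) :
    eLpNorm u 6 volume ≤ ENNReal.ofReal (sobolevC * √(∫ x, ‖gradient u x‖ ^ 2)) := by
  rw [← fs_sobC_mul (isH1_of_contDiff hu hc).2.1]
  exact en_sobolev_contDiff hu hc

theorem IsH1.sobolev {f : Space → ℝ} {F : Space → Space} (h : IsH1 f F) :
    MemLp f 6 volume ∧ eLpNorm f 6 volume ≤ ENNReal.ofReal (sobolevC * √(∫ x, ‖F x‖ ^ 2)) := by
  refine ⟨enH1_memLp_six h, ?_⟩
  rw [← fs_sobC_mul h.2.1]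
  exact en_sobolev h

variable {𝕜 : Type*} [RCLike 𝕜] {H : Type*} [NormedAddCommGroup H] [InnerProductSpace 𝕜 H] [NormedSpace ℝ H]
  [CompleteSpace H]

variable (𝕜) in
include 𝕜 in
theorem WD2.sobolev {f : Space → H} {g : Fin 3 → Space → H} (h : ∀ a, WD2 volume (eA a) f (g a)) :
    MemLp f 6 volume ∧ eLpNorm f 6 volume ≤ ENNReal.ofReal (sobolevC * √(∑ a, ∫ x, ‖g a x‖ ^ 2)) := by
  have w : ∀ a, WD2 volume (eA a) (fun x => ‖f x‖) (fun x => RCLike.re ⟪f x, g a x⟫_𝕜 / ‖f x‖) := fun a =>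
    WD2.norm 𝕜 (h a)
  have hH := isH1_of_coord w
  obtain ⟨m6, h6⟩ := hH.sobolev
  refine ⟨(memLp_norm_iff (h 0).memf.1).1 m6, ?_⟩
  rw [eLpNorm_norm] at h6
  refine h6.trans (ENNReal.ofReal_le_ofReal (mul_le_mul_of_nonneg_left (Real.sqrt_le_sqrt ?_) sobolevC_nonneg))
  rw [integral_norm_sq_eq_sum_coord hH.2.1]
  refine Finset.sum_le_sum fun a _ => ?_
  refine integral_mono_of_nonneg (Eventually.of_forall fun x => sq_nonneg _)
    ((memLp_two_iff_integrable_sq_norm (h a).memg.1).1 (h a).memg) (Eventually.of_forall fun x => ?_)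
  show (RCLike.re ⟪f x, g a x⟫_𝕜 / ‖f x‖) ^ 2 ≤ ‖g a x‖ ^ 2
  rw [← sq_abs]
  exact pow_le_pow_left₀ (abs_nonneg _) (abs_re_inner_div_norm_le 𝕜 _ _) 2

/-- Hölder with exponents `3/2` and `3`. -/
theorem integral_abs_mul_sq_le {E : Type*} [NormedAddCommGroup E] {w : Space → ℝ} (hw : MemLp w (3 / 2) volume)
    {f : Space → E} (hf : MemLp f 6 volume) :
    Integrable (fun x => w x * ‖f x‖ ^ 2) ∧
      ∫ x, |w x| * ‖f x‖ ^ 2 ≤ (eLpNorm w (3 / 2) volume).toReal * (eLpNorm f 6 volume).toReal ^ 2 := by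
  have hn : AEStronglyMeasurable (fun x => ‖f x‖) volume := hf.1.norm
  have h3 : eLpNorm (fun x => ‖f x‖ * ‖f x‖) 3 volume ≤ eLpNorm f 6 volume * eLpNorm f 6 volume := by
    have := en_eLpNorm_mul_le (μ := (volume : Measure Space)) 6 6 3 hn hn
    rwa [eLpNorm_norm] at this
  have h1 : eLpNorm (fun x => w x * (‖f x‖ * ‖f x‖)) 1 volume
      ≤ eLpNorm w (3 / 2) volume * (eLpNorm f 6 volume * eLpNorm f 6 volume) :=
    (en_eLpNorm_mul_le (μ := (volume : Measure Space)) (3 / 2) 3 1 hw.1 (hn.mul hn)).trans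
      (mul_le_mul_right h3 _)
  have hfin : eLpNorm w (3 / 2) volume * (eLpNorm f 6 volume * eLpNorm f 6 volume) ≠ ⊤ :=
    ENNReal.mul_ne_top hw.2.ne (ENNReal.mul_ne_top hf.2.ne hf.2.ne)
  have hi : Integrable (fun x => w x * (‖f x‖ * ‖f x‖)) volume :=
    memLp_one_iff_integrable.1 ⟨hw.1.mul (hn.mul hn), h1.trans_lt hfin.lt_top⟩
  simp only [pow_two]
  refine ⟨hi, ?_⟩
  have e : ∫ x, |w x| * (‖f x‖ * ‖f x‖) = (eLpNorm (fun x => w x * (‖f x‖ * ‖f x‖)) 1 volume).toReal := by
    rw [eLpNorm_one_eq_lintegral_enorm, ← integral_norm_eq_lintegral_enorm hi.1]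
    refine integral_congr_ae (Eventually.of_forall fun x => ?_)
    simp
  rw [e, ← ENNReal.toReal_mul, ← ENNReal.toReal_mul]
  exact ENNReal.toReal_mono hfin h1

variable (𝕜) in
include 𝕜 in
/-- the form bound for an `L^{3/2}` potential on `ℝ³`. -/
theorem WD2.integral_abs_mul_sq_le {w : Space → ℝ} (hw : MemLp w (3 / 2) volume)
    {f : Space → H} {g : Fin 3 → Space → H} (h : ∀ a, WD2 volume (eA a) f (g a)) :
    Integrable (fun x => w x * ‖f x‖ ^ 2) ∧
      ∫ x, |w x| * ‖f x‖ ^ 2 ≤ sobolevC ^ 2 * (eLpNorm w (3 / 2) volume).toReal * ∑ a, ∫ x, ‖g a x‖ ^ 2 := by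
  obtain ⟨m6, h6⟩ := WD2.sobolev 𝕜 h
  obtain ⟨hi, hle⟩ := Claimed.Open.R278.integral_abs_mul_sq_le hw m6
  refine ⟨hi, hle.trans ?_⟩
  have hS : 0 ≤ ∑ a, ∫ x, ‖g a x‖ ^ 2 := Finset.sum_nonneg fun a _ => integral_nonneg fun x => sq_nonneg _
  have h7 : (eLpNorm f 6 volume).toReal ≤ sobolevC * √(∑ a, ∫ x, ‖g a x‖ ^ 2) := by
    have := ENNReal.toReal_mono ENNReal.ofReal_ne_top h6
    rwa [ENNReal.toReal_ofReal (mul_nonneg sobolevC_nonneg (Real.sqrt_nonneg _))] at this
  have h8 : (eLpNorm f 6 volume).toReal ^ 2 ≤ sobolevC ^ 2 * ∑ a, ∫ x, ‖g a x‖ ^ 2 := by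
    have := pow_le_pow_left₀ ENNReal.toReal_nonneg h7 2
    rwa [mul_pow, Real.sq_sqrt hS] at this
  calc _ ≤ (eLpNorm w (3 / 2) volume).toReal * (sobolevC ^ 2 * ∑ a, ∫ x, ‖g a x‖ ^ 2) :=
        mul_le_mul_of_nonneg_left h8 ENNReal.toReal_nonneg
    _ = _ := by ring

end S1

/-! ## LEAF FS-S2: splitting of the potential class; scalar form bounds -/

section S2

/-- `v ∈ L^{3/2} + L^∞` is (small in `L^{3/2}`) + (bounded). -/
theorem PotentialClass.exists_split {v : Space → ℝ} (hv : v ∈ PotentialClass) {ε : ℝ} (hε : 0 < ε) :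
    ∃ (v₁ v₂ : Space → ℝ) (M : ℝ), v = v₁ + v₂ ∧ MemLp v₁ (3 / 2) volume ∧
      (eLpNorm v₁ (3 / 2) volume).toReal ≤ ε ∧ AEStronglyMeasurable v₂ volume ∧ ∀ᵐ x, |v₂ x| ≤ M := by
  obtain ⟨w₁, w₂, h₁, h₂, rfl⟩ := hv
  set u := h₁.1.mk w₁ with hu
  have hum : StronglyMeasurable u := h₁.1.stronglyMeasurable_mk
  have hae : w₁ =ᵐ[volume] u := h₁.1.ae_eq_mk
  have hu1 : MemLp u (3 / 2) volume := h₁.ae_eq hae
  obtain ⟨M, hM0, hM⟩ := hu1.eLpNorm_indicator_norm_ge_pos_le hum hε
  set S : Set Space := {x | M ≤ ‖u x‖₊} with hS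
  have hSm : MeasurableSet S := measurableSet_le measurable_const hum.measurable.nnnorm.coe_nnreal_real
  have m1 : MemLp (S.indicator u) (3 / 2) volume := hu1.indicator hSm
  refine ⟨S.indicator u, (w₁ + w₂) - S.indicator u, M + (eLpNorm w₂ ⊤ volume).toReal, by abel, m1, ?_,
    (h₁.1.add h₂.1).sub m1.1, ?_⟩
  · have := ENNReal.toReal_mono ENNReal.ofReal_ne_top hM
    rwa [ENNReal.toReal_ofReal hε.le] at this
  · have hb : ∀ᵐ x, ‖w₂ x‖ ≤ (eLpNorm w₂ ⊤ volume).toReal := by
      have := ae_le_eLpNormEssSup (f := w₂) (μ := (volume : Measure Space))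
      filter_upwards [this] with x hx
      rw [eLpNorm_exponent_top]
      have h3 := ENNReal.toReal_mono (by simpa using h₂.2.ne) hx
      simpa using h3
    filter_upwards [hae, hb] with x hx hx2
    simp only [Pi.sub_apply, Pi.add_apply, hx]
    by_cases hxS : x ∈ S
    · rw [Set.indicator_of_mem hxS]
      have h4 : |u x + w₂ x - u x| = ‖w₂ x‖ := by rw [add_sub_cancel_left, Real.norm_eq_abs]
      rw [h4]
      linarith
    · rw [Set.indicator_of_notMem hxS, sub_zero]
      have h5 : ‖u x‖ < M := by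
        have : ¬ (M ≤ ‖u x‖₊) := hxS
        simpa using this
      calc |u x + w₂ x| ≤ |u x| + |w₂ x| := abs_add_le _ _
        _ ≤ _ := add_le_add h5.le hx2

theorem PotentialClass.aestronglyMeasurable {v : Space → ℝ} (hv : v ∈ PotentialClass) :
    AEStronglyMeasurable v volume := by
  exact en_potentialClass_aesm hv

theorem PotentialClass.locallyIntegrable {v : Space → ℝ} (hv : v ∈ PotentialClass) :
    LocallyIntegrable v volume := by
  exact en_potentialClass_locInt hv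

/-- (5.13), scalar form: `v` is infinitesimally form bounded with respect to `-Δ`. -/
theorem PotentialClass.form_bound_scalar {v : Space → ℝ} (hv : v ∈ PotentialClass) {ε : ℝ} (hε : 0 < ε) :
    ∃ C : ℝ, 0 ≤ C ∧ ∀ (f : Space → ℝ) (F : Space → Space), IsH1 f F →
      Integrable (fun x => v x * f x ^ 2) ∧
        ∫ x, |v x| * f x ^ 2 ≤ ε * (∫ x, ‖F x‖ ^ 2) + C * ∫ x, f x ^ 2 := by
  have hδ : 0 < ε / (sobolevC ^ 2 + 1) := by positivity
  obtain ⟨v₁, v₂, M, rfl, m1, hsmall, hm2, hb⟩ := PotentialClass.exists_split hv hδ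
  refine ⟨max M 0, le_max_right _ _, fun f F h => ?_⟩
  obtain ⟨m6, h6⟩ := h.sobolev
  obtain ⟨i1, l1⟩ := Claimed.Open.R278.integral_abs_mul_sq_le m1 m6
  simp only [Real.norm_eq_abs, sq_abs] at i1 l1
  have if2 : Integrable (fun x => f x ^ 2) volume := h.1.integrable_sq
  have i2 : Integrable (fun x => v₂ x * f x ^ 2) volume :=
    if2.bdd_mul (c := M) hm2 (by simpa only [Real.norm_eq_abs] using hb)
  have hG : 0 ≤ ∫ x, ‖F x‖ ^ 2 := integral_nonneg fun x => sq_nonneg _
  have h7 : (eLpNorm f 6 volume).toReal ≤ sobolevC * √(∫ x, ‖F x‖ ^ 2) := by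
    have := ENNReal.toReal_mono ENNReal.ofReal_ne_top h6
    rwa [ENNReal.toReal_ofReal (mul_nonneg sobolevC_nonneg (Real.sqrt_nonneg _))] at this
  have h8 : (eLpNorm f 6 volume).toReal ^ 2 ≤ sobolevC ^ 2 * ∫ x, ‖F x‖ ^ 2 := by
    have := pow_le_pow_left₀ ENNReal.toReal_nonneg h7 2
    rwa [mul_pow, Real.sq_sqrt hG] at this
  have e1 : ∫ x, |v₁ x| * f x ^ 2 ≤ ε * ∫ x, ‖F x‖ ^ 2 := by
    refine l1.trans ?_
    calc _ ≤ ε / (sobolevC ^ 2 + 1) * (sobolevC ^ 2 * ∫ x, ‖F x‖ ^ 2) :=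
          mul_le_mul hsmall h8 (sq_nonneg _) hδ.le
      _ = ε * (sobolevC ^ 2 / (sobolevC ^ 2 + 1)) * ∫ x, ‖F x‖ ^ 2 := by ring
      _ ≤ ε * 1 * ∫ x, ‖F x‖ ^ 2 := by
          gcongr
          rw [div_le_one (by positivity)]
          linarith
      _ = _ := by ring
  have j1 : Integrable (fun x => |v₁ x| * f x ^ 2) volume := by
    have := i1.abs
    simpa only [abs_mul, abs_pow, sq_abs] using this
  have j2 : Integrable (fun x => max M 0 * f x ^ 2) volume := if2.const_mul _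
  refine ⟨(i1.add i2).congr (Eventually.of_forall fun x => by simp only [Pi.add_apply, add_mul]), ?_⟩
  calc ∫ x, |(v₁ + v₂) x| * f x ^ 2 ≤ ∫ x, (|v₁ x| * f x ^ 2 + max M 0 * f x ^ 2) := by
        refine integral_mono_of_nonneg (Eventually.of_forall fun x => by positivity) (j1.add j2) ?_
        filter_upwards [hb] with x hx
        show |v₁ x + v₂ x| * f x ^ 2 ≤ |v₁ x| * f x ^ 2 + max M 0 * f x ^ 2
        rw [← add_mul]
        exact mul_le_mul_of_nonneg_right ((abs_add_le _ _).trans (add_le_add le_rfl (hx.trans (le_max_left _ _))))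
          (sq_nonneg _)
    _ = (∫ x, |v₁ x| * f x ^ 2) + max M 0 * ∫ x, f x ^ 2 := by
        rw [integral_add j1 j2, integral_const_mul]
    _ ≤ _ := by gcongr

theorem PotentialClass.integrable_mul_mul {v : Space → ℝ} (hv : v ∈ PotentialClass) {f g : Space → ℝ}
    {F G : Space → Space} (hf : IsH1 f F) (hg : IsH1 g G) : Integrable (fun x => v x * (f x * g x)) := by
  exact en_integrable_pot hv hf hg

end S2

/-! ## LEAF FS-S3: one-body potentials on configuration space -/

section S3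

variable {m : ℕ}

/-! ### Fubini along one electron coordinate (same constructions as `ENFub.lean`, `ENSlice.lean` of helper6, repeated here
because the kit FS must not import `Top.lean`) -/

section ins

variable {n : ℕ} {E : Type*} [NormedAddCommGroup E]

/-- `(y, r) ↦ x` with `x i = r`, the others at `y` -/
def fsIns (n : ℕ) (i : Fin (n + 1)) : Config n × Space ≃ᵐ Config (n + 1) :=
  MeasurableEquiv.prodComm.trans (MeasurableEquiv.piFinSuccAbove (fun _ : Fin (n + 1) => Space) i).symm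

theorem fsIns_apply (i : Fin (n + 1)) (p : Config n × Space) :
    fsIns n i p = (i.insertNth p.2 p.1 : Config (n + 1)) := by
  simp [fsIns, MeasurableEquiv.piFinSuccAbove, Fin.insertNthEquiv, MeasurableEquiv.prodComm]

theorem measurePreserving_fsIns (i : Fin (n + 1)) : MeasurePreserving (fsIns n i) volume volume :=
  ((volume_preserving_piFinSuccAbove (fun _ : Fin (n + 1) => Space) i).symm).comp
    (Measure.measurePreserving_swap (μ := (volume : Measure (Config n))) (ν := (volume : Measure Space)))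

theorem fs_integrable_comp_ins (i : Fin (n + 1)) {F : Config (n + 1) → E} (hF : Integrable F) :
    Integrable (fun p : Config n × Space => F (i.insertNth p.2 p.1 : Config (n + 1))) (volume.prod volume) := by
  have := ((measurePreserving_fsIns i).integrable_comp_emb (fsIns n i).measurableEmbedding).2 hF
  rw [Measure.volume_eq_prod] at this
  simpa [Function.comp_def, fsIns_apply] using this

theorem fs_integral_ins [NormedSpace ℝ E] (i : Fin (n + 1)) {F : Config (n + 1) → E} (hF : Integrable F) :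
    ∫ x, F x = ∫ y : Config n, ∫ r : Space, F (i.insertNth r y : Config (n + 1)) := by
  have h1 : ∫ x, F x = ∫ p : Config n × Space, F (fsIns n i p) :=
    ((measurePreserving_fsIns i).integral_comp' F).symm
  rw [h1]
  have := integral_prod _ (fs_integrable_comp_ins i hF)
  rw [← Measure.volume_eq_prod] at this
  simpa [fsIns_apply] using this

theorem fs_integrable_integral_ins [NormedSpace ℝ E] (i : Fin (n + 1)) {F : Config (n + 1) → E}
    (hF : Integrable F) :
    Integrable fun y : Config n => ∫ r : Space, F (i.insertNth r y : Config (n + 1)) :=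
  (fs_integrable_comp_ins i hF).integral_prod_left

theorem fs_lintegral_ins (i : Fin (n + 1)) {F : Config (n + 1) → ℝ≥0∞} (hF : AEMeasurable F volume) :
    ∫⁻ x, F x = ∫⁻ y : Config n, ∫⁻ r : Space, F (i.insertNth r y : Config (n + 1)) := by
  have h1 : ∫⁻ x, F x = ∫⁻ p : Config n × Space, F (fsIns n i p) :=
    ((measurePreserving_fsIns i).lintegral_comp_emb (fsIns n i).measurableEmbedding F).symm
  have h2 : AEMeasurable (fun p : Config n × Space => F (fsIns n i p)) (volume.prod volume) := by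
    rw [← Measure.volume_eq_prod]
    exact hF.comp_quasiMeasurePreserving (measurePreserving_fsIns i).quasiMeasurePreserving
  rw [h1, Measure.volume_eq_prod, lintegral_prod _ h2]
  simp only [fsIns_apply]

theorem fs_insertNth_eq (i : Fin (n + 1)) (r : Space) (y : Config n) :
    (i.insertNth r y : Config (n + 1))
      = ContinuousLinearMap.single ℝ (fun _ : Fin (n + 1) => Space) i r + (i.insertNth 0 y : Config (n + 1)) := by
  funext j
  rcases Fin.eq_self_or_eq_succAbove i j with rfl | ⟨k, rfl⟩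
  · simp
  · simp

theorem fs_hasFDerivAt_ins (i : Fin (n + 1)) (y : Config n) (r : Space) :
    HasFDerivAt (fun r : Space => (i.insertNth r y : Config (n + 1)))
      (ContinuousLinearMap.single ℝ (fun _ : Fin (n + 1) => Space) i) r := by
  rw [show (fun r : Space => (i.insertNth r y : Config (n + 1))) = _ from funext fun r => fs_insertNth_eq i r y]
  exact ((ContinuousLinearMap.single ℝ (fun _ : Fin (n + 1) => Space) i).hasFDerivAt).add_const _

theorem fs_contDiff_ins (i : Fin (n + 1)) (y : Config n) (k : WithTop ℕ∞) :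
    ContDiff ℝ k (fun r : Space => (i.insertNth r y : Config (n + 1))) := by
  rw [show (fun r : Space => (i.insertNth r y : Config (n + 1))) = _ from funext fun r => fs_insertNth_eq i r y]
  exact ((ContinuousLinearMap.single ℝ (fun _ : Fin (n + 1) => Space) i).contDiff).add contDiff_const

theorem fs_hasCompactSupport_slice {F : Config (n + 1) → E} (hc : HasCompactSupport F) (i : Fin (n + 1))
    (y : Config n) : HasCompactSupport fun r : Space => F (i.insertNth r y : Config (n + 1)) := by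
  obtain ⟨R, hR⟩ := hc.isCompact.isBounded.subset_closedBall 0
  refine HasCompactSupport.of_support_subset_isCompact (isCompact_closedBall (0 : Space) R) fun r hr => ?_
  have h1 : (i.insertNth r y : Config (n + 1)) ∈ tsupport F := subset_tsupport _ hr
  have h2 := hR h1
  rw [mem_closedBall_zero_iff] at h2 ⊢
  have h3 := norm_le_pi_norm (i.insertNth r y : Config (n + 1)) i
  rw [Fin.insertNth_apply_same] at h3
  exact h3.trans h2

variable [NormedSpace ℝ E]

theorem fs_contDiff_slice {F : Config (n + 1) → E} (hF : ContDiff ℝ 1 F) (i : Fin (n + 1)) (y : Config n) :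
    ContDiff ℝ 1 fun r : Space => F (i.insertNth r y : Config (n + 1)) :=
  hF.comp (fs_contDiff_ins i y 1)

theorem fs_hasFDerivAt_slice {F : Config (n + 1) → E} (hF : ContDiff ℝ 1 F) (i : Fin (n + 1)) (y : Config n)
    (r : Space) :
    HasFDerivAt (fun r : Space => F (i.insertNth r y : Config (n + 1)))
      ((fderiv ℝ F (i.insertNth r y : Config (n + 1))).comp
        (ContinuousLinearMap.single ℝ (fun _ : Fin (n + 1) => Space) i)) r :=
  ((hF.differentiable (by simp)) _).hasFDerivAt.comp r (fs_hasFDerivAt_ins i y r)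

end ins

theorem aestronglyMeasurable_comp_eval {w : Space → ℝ} (hw : AEStronglyMeasurable w volume) (i : Fin m) :
    AEStronglyMeasurable (fun x : Config m => w (x i)) volume :=
  hw.comp_quasiMeasurePreserving (Measure.quasiMeasurePreserving_eval (fun _ : Fin m => (volume : Measure Space)) i)

/-- the inequality for `C¹_c` functions (Fubini in `x i`, then `WD2.integral_abs_mul_sq_le` or the classical
Sobolev inequality on the slices). -/
theorem integral_abs_particle_le_of_contDiff {w : Space → ℝ} (hw : MemLp w (3 / 2) volume)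
    {u : Config m → SpinSpace m} (hu : ContDiff ℝ 1 u) (hc : HasCompactSupport u) (i : Fin m) :
    ∫⁻ x, ENNReal.ofReal (|w (x i)| * ‖u x‖ ^ 2)
      ≤ ENNReal.ofReal (sobolevC ^ 2 * (eLpNorm w (3 / 2) volume).toReal
          * ∑ a, ∫ x, ‖fderiv ℝ u x (dir (i, a))‖ ^ 2) := by
  obtain ⟨n, rfl⟩ : ∃ n, m = n + 1 := ⟨m - 1, by have := i.pos; omega⟩
  set K := sobolevC ^ 2 * (eLpNorm w (3 / 2) volume).toReal with hK
  have hK0 : 0 ≤ K := by positivity
  have hDi : ∀ a, Integrable (fun x => ‖fderiv ℝ u x (dir (i, a))‖ ^ 2) volume := fun a =>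
    (memLp_two_iff_integrable_sq_norm (fs_memLp_d hu hc _).1).1 (fs_memLp_d hu hc _)
  have hsl : ∀ (y : Config n) a, WD2 volume (eA a) (fun r => u (i.insertNth r y : Config (n + 1)))
      (fun r => fderiv ℝ u (i.insertNth r y : Config (n + 1)) (dir (i, a))) := by
    intro y a
    have := fs_wd2_C1c (μ := (volume : Measure Space)) (fs_contDiff_slice hu i y)
      (fs_hasCompactSupport_slice hc i y) (eA a)
    have e : ∀ r, fderiv ℝ (fun r => u (i.insertNth r y : Config (n + 1))) r (eA a)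
        = fderiv ℝ u (i.insertNth r y : Config (n + 1)) (dir (i, a)) := by
      intro r
      rw [(fs_hasFDerivAt_slice hu i y r).fderiv]
      rfl
    simpa only [e] using this
  have hy : ∀ y : Config n, ∫⁻ r, ENNReal.ofReal (|w r| * ‖u (i.insertNth r y : Config (n + 1))‖ ^ 2)
      ≤ ENNReal.ofReal (K * ∑ a, ∫ r, ‖fderiv ℝ u (i.insertNth r y : Config (n + 1)) (dir (i, a))‖ ^ 2) := by
    intro y
    obtain ⟨h1, h2⟩ := WD2.integral_abs_mul_sq_le ℂ hw (hsl y)
    have h3 : Integrable (fun r => |w r| * ‖u (i.insertNth r y : Config (n + 1))‖ ^ 2) volume := by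
      have := h1.abs
      simpa only [abs_mul, abs_pow, abs_norm] using this
    rw [← ofReal_integral_eq_lintegral_ofReal h3 (Eventually.of_forall fun r => by positivity)]
    exact ENNReal.ofReal_le_ofReal h2
  have hm : AEMeasurable (fun x : Config (n + 1) => ENNReal.ofReal (|w (x i)| * ‖u x‖ ^ 2)) volume :=
    (((aestronglyMeasurable_comp_eval hw.1 i).norm.mul
      (hu.continuous.norm.pow 2).aestronglyMeasurable).aemeasurable).ennreal_ofReal
  have hI : Integrable (fun y : Config n =>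
      K * ∑ a, ∫ r, ‖fderiv ℝ u (i.insertNth r y : Config (n + 1)) (dir (i, a))‖ ^ 2) volume :=
    (integrable_finsetSum _ fun a _ => fs_integrable_integral_ins i (hDi a)).const_mul K
  rw [fs_lintegral_ins i hm]
  simp only [Fin.insertNth_apply_same]
  refine (lintegral_mono hy).trans (le_of_eq ?_)
  rw [← ofReal_integral_eq_lintegral_ofReal hI (Eventually.of_forall fun y =>
    mul_nonneg hK0 (Finset.sum_nonneg fun a _ => integral_nonneg fun r => sq_nonneg _)),
    integral_const_mul, integral_finsetSum _ fun a _ => fs_integrable_integral_ins i (hDi a)]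
  simp only [← fs_integral_ins i (hDi _)]

theorem integral_abs_particle_le {w : Space → ℝ} (hw : MemLp w (3 / 2) volume) {Ψ : L2 m} (h : MemH1 Ψ)
    (i : Fin m) :
    Integrable (fun x => w (x i) * ‖Ψ x‖ ^ 2) ∧
      ∫ x, |w (x i)| * ‖Ψ x‖ ^ 2 ≤ sobolevC ^ 2 * (eLpNorm w (3 / 2) volume).toReal * kinOf Ψ i := by
  set K := sobolevC ^ 2 * (eLpNorm w (3 / 2) volume).toReal with hK
  have hK0 : 0 ≤ K := by positivity
  obtain ⟨u, hu, hc, U, hUu, hUH, hUg, hU, hUG⟩ := h.exists_seq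
  obtain ⟨ns, hns, hae⟩ := (tendstoInMeasure_of_tendsto_Lp hU).exists_seq_tendsto_ae
  have hwm := aestronglyMeasurable_comp_eval hw.1 i
  -- the bound along the sequence
  have hb : ∀ n, ∫⁻ x, ENNReal.ofReal (|w (x i)| * ‖U n x‖ ^ 2) ≤ ENNReal.ofReal (K * kinOf (U n) i) := by
    intro n
    have h1 := integral_abs_particle_le_of_contDiff hw (hu n) (hc n) i
    have e1 : ∫⁻ x, ENNReal.ofReal (|w (x i)| * ‖U n x‖ ^ 2) = ∫⁻ x, ENNReal.ofReal (|w (x i)| * ‖u n x‖ ^ 2) := by
      refine lintegral_congr_ae ?_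
      filter_upwards [hUu n] with x hx
      rw [hx]
    have e2 : kinOf (U n) i = ∑ a, ∫ x, ‖fderiv ℝ (u n) x (dir (i, a))‖ ^ 2 := by
      unfold kinOf
      refine Finset.sum_congr rfl fun a _ => ?_
      rw [L2.norm_sq_eq]
      refine integral_congr_ae ?_
      filter_upwards [hUg n (i, a)] with x hx
      rw [hx]
    rw [e1, e2]
    exact h1
  have hk : Tendsto (fun n => ENNReal.ofReal (K * kinOf (U (ns n)) i)) atTop (𝓝 (ENNReal.ofReal (K * kinOf Ψ i))) := by
    refine (ENNReal.continuous_ofReal.tendsto _).comp (Tendsto.const_mul K ?_)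
    unfold kinOf
    exact tendsto_finsetSum _ fun a _ => (((hUG (i, a)).comp hns.tendsto_atTop).norm).pow 2
  have hmeas : ∀ n, AEMeasurable (fun x => ENNReal.ofReal (|w (x i)| * ‖U (ns n) x‖ ^ 2)) volume := fun n =>
    ((hwm.norm.mul ((L2.memLp (U (ns n))).1.norm.pow 2)).aemeasurable).ennreal_ofReal
  have hF : ∫⁻ x, ENNReal.ofReal (|w (x i)| * ‖Ψ x‖ ^ 2) ≤ ENNReal.ofReal (K * kinOf Ψ i) := by
    calc ∫⁻ x, ENNReal.ofReal (|w (x i)| * ‖Ψ x‖ ^ 2)
        = ∫⁻ x, liminf (fun n => ENNReal.ofReal (|w (x i)| * ‖U (ns n) x‖ ^ 2)) atTop := by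
          refine lintegral_congr_ae ?_
          filter_upwards [hae] with x hx
          have : Tendsto (fun n => ENNReal.ofReal (|w (x i)| * ‖U (ns n) x‖ ^ 2)) atTop
              (𝓝 (ENNReal.ofReal (|w (x i)| * ‖Ψ x‖ ^ 2))) :=
            (ENNReal.continuous_ofReal.tendsto _).comp (Tendsto.const_mul _ ((hx.norm).pow 2))
          exact this.liminf_eq.symm
      _ ≤ liminf (fun n => ∫⁻ x, ENNReal.ofReal (|w (x i)| * ‖U (ns n) x‖ ^ 2)) atTop := lintegral_liminf_le' hmeas
      _ ≤ liminf (fun n => ENNReal.ofReal (K * kinOf (U (ns n)) i)) atTop :=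
          liminf_le_liminf (Eventually.of_forall fun n => hb (ns n))
      _ = _ := hk.liminf_eq
  have hm2 : AEStronglyMeasurable (fun x => |w (x i)| * ‖Ψ x‖ ^ 2) volume :=
    hwm.norm.mul ((L2.memLp Ψ).1.norm.pow 2)
  have hi : Integrable (fun x => |w (x i)| * ‖Ψ x‖ ^ 2) volume := by
    refine ⟨hm2, ?_⟩
    rw [hasFiniteIntegral_iff_ofReal (Eventually.of_forall fun x => by positivity)]
    exact hF.trans_lt ENNReal.ofReal_lt_top
  refine ⟨?_, ?_⟩
  · refine hi.mono' (hwm.mul ((L2.memLp Ψ).1.norm.pow 2)) (Eventually.of_forall fun x => ?_)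
    rw [norm_mul, Real.norm_eq_abs, norm_pow, norm_norm]
  · rw [← ofReal_integral_eq_lintegral_ofReal hi (Eventually.of_forall fun x => by positivity)] at hF
    exact (ENNReal.ofReal_le_ofReal_iff (mul_nonneg hK0 (kinOf_nonneg Ψ i))).1 hF

/-- (5.13): `v ∈ L^{3/2} + L^∞` is infinitesimally form bounded, uniformly in the number of electrons. -/
theorem PotentialClass.form_bound {v : Space → ℝ} (hv : v ∈ PotentialClass) {ε : ℝ} (hε : 0 < ε) :
    ∃ C : ℝ, 0 ≤ C ∧ ∀ (m : ℕ) (Ψ : L2 m), MemH1 Ψ → ∀ i : Fin m,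
      Integrable (fun x => v (x i) * ‖Ψ x‖ ^ 2) ∧
        ∫ x, |v (x i)| * ‖Ψ x‖ ^ 2 ≤ ε * kinOf Ψ i + C * ‖Ψ‖ ^ 2 := by
  have hδ : 0 < ε / (sobolevC ^ 2 + 1) := by positivity
  obtain ⟨v₁, v₂, M, rfl, m1, hsmall, hm2, hb⟩ := PotentialClass.exists_split hv hδ
  refine ⟨max M 0, le_max_right _ _, fun m Ψ h i => ?_⟩
  obtain ⟨i1, l1⟩ := integral_abs_particle_le m1 h i
  have if2 : Integrable (fun x => ‖Ψ x‖ ^ 2) volume := L2.integrable_norm_sq Ψ
  have hb' : ∀ᵐ x : Config m, |v₂ (x i)| ≤ M :=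
    (Measure.quasiMeasurePreserving_eval (fun _ : Fin m => (volume : Measure Space)) i).ae hb
  have i2 : Integrable (fun x : Config m => v₂ (x i) * ‖Ψ x‖ ^ 2) volume :=
    if2.bdd_mul (c := M) (aestronglyMeasurable_comp_eval hm2 i) (by simpa only [Real.norm_eq_abs] using hb')
  have e1 : ∫ x, |v₁ (x i)| * ‖Ψ x‖ ^ 2 ≤ ε * kinOf Ψ i := by
    refine l1.trans ?_
    calc _ ≤ sobolevC ^ 2 * (ε / (sobolevC ^ 2 + 1)) * kinOf Ψ i := by
          have := kinOf_nonneg Ψ i
          gcongr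
      _ = ε * (sobolevC ^ 2 / (sobolevC ^ 2 + 1)) * kinOf Ψ i := by ring
      _ ≤ ε * 1 * kinOf Ψ i := by
          have := kinOf_nonneg Ψ i
          gcongr
          rw [div_le_one (by positivity)]
          linarith
      _ = _ := by ring
  have j1 : Integrable (fun x : Config m => |v₁ (x i)| * ‖Ψ x‖ ^ 2) volume := by
    have := i1.abs
    simpa only [abs_mul, abs_pow, abs_norm] using this
  have j2 : Integrable (fun x => max M 0 * ‖Ψ x‖ ^ 2) volume := if2.const_mul _
  refine ⟨(i1.add i2).congr (Eventually.of_forall fun x => by simp only [Pi.add_apply, add_mul]), ?_⟩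
  rw [L2.norm_sq_eq]
  calc ∫ x, |(v₁ + v₂) (x i)| * ‖Ψ x‖ ^ 2 ≤ ∫ x, (|v₁ (x i)| * ‖Ψ x‖ ^ 2 + max M 0 * ‖Ψ x‖ ^ 2) := by
        refine integral_mono_of_nonneg (Eventually.of_forall fun x => by positivity) (j1.add j2) ?_
        filter_upwards [hb'] with x hx
        show |v₁ (x i) + v₂ (x i)| * ‖Ψ x‖ ^ 2 ≤ |v₁ (x i)| * ‖Ψ x‖ ^ 2 + max M 0 * ‖Ψ x‖ ^ 2
        rw [← add_mul]
        exact mul_le_mul_of_nonneg_right ((abs_add_le _ _).trans (add_le_add le_rfl (hx.trans (le_max_left _ _))))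
          (sq_nonneg _)
    _ = (∫ x, |v₁ (x i)| * ‖Ψ x‖ ^ 2) + max M 0 * ∫ x, ‖Ψ x‖ ^ 2 := by
        rw [integral_add j1 j2, integral_const_mul]
    _ ≤ _ := by gcongr

theorem PotentialClass.aestronglyMeasurable_oneBody {v : Space → ℝ} (hv : v ∈ PotentialClass) :
    AEStronglyMeasurable (oneBodyPotential v : Config m → ℝ) volume := by
  unfold oneBodyPotential
  exact Finset.aestronglyMeasurable_fun_sum _ fun i _ => aestronglyMeasurable_comp_eval (PotentialClass.aestronglyMeasurable hv) i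

theorem PotentialClass.form_bound_oneBody {v : Space → ℝ} (hv : v ∈ PotentialClass) {ε : ℝ} (hε : 0 < ε) :
    ∃ C : ℝ, 0 ≤ C ∧ ∀ (m : ℕ) (Ψ : L2 m), MemH1 Ψ →
      Integrable (fun x => oneBodyPotential v x * ‖Ψ x‖ ^ 2) ∧
        ∫ x, |oneBodyPotential v x| * ‖Ψ x‖ ^ 2 ≤ ε * kin Ψ + C * (m : ℝ) * ‖Ψ‖ ^ 2 := by
  obtain ⟨C, hC0, hC⟩ := PotentialClass.form_bound hv hε
  refine ⟨C, hC0, fun m Ψ h => ?_⟩
  have i1 : ∀ i : Fin m, Integrable (fun x : Config m => v (x i) * ‖Ψ x‖ ^ 2) volume := fun i => (hC m Ψ h i).1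
  have j1 : ∀ i : Fin m, Integrable (fun x : Config m => |v (x i)| * ‖Ψ x‖ ^ 2) volume := fun i => by
    have := (i1 i).abs
    simpa only [abs_mul, abs_pow, abs_norm] using this
  refine ⟨(integrable_finsetSum Finset.univ fun i _ => i1 i).congr (Eventually.of_forall fun x => ?_), ?_⟩
  · simp only [oneBodyPotential, Finset.sum_mul]
  · calc ∫ x, |oneBodyPotential v x| * ‖Ψ x‖ ^ 2 ≤ ∫ x, ∑ i, |v (x i)| * ‖Ψ x‖ ^ 2 := by
          refine integral_mono_of_nonneg (Eventually.of_forall fun x => by positivity)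
            (integrable_finsetSum _ fun i _ => j1 i) (Eventually.of_forall fun x => ?_)
          show |oneBodyPotential v x| * ‖Ψ x‖ ^ 2 ≤ ∑ i, |v (x i)| * ‖Ψ x‖ ^ 2
          rw [← Finset.sum_mul]
          exact mul_le_mul_of_nonneg_right (Finset.abs_sum_le_sum_abs _ _) (sq_nonneg _)
      _ = ∑ i, ∫ x, |v (x i)| * ‖Ψ x‖ ^ 2 := integral_finsetSum _ fun i _ => j1 i
      _ ≤ ∑ i : Fin m, (ε * kinOf Ψ i + C * ‖Ψ‖ ^ 2) := Finset.sum_le_sum fun i _ => (hC m Ψ h i).2
      _ = _ := by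
          rw [Finset.sum_add_distrib, ← Finset.mul_sum, ← kin_eq_sum_kinOf, Finset.sum_const, Finset.card_univ,
            Fintype.card_fin, nsmul_eq_mul]
          ring

/-- the form domain of `H_s(v)` is the antisymmetric part of `H¹`. -/
theorem PotentialClass.mem_formDomain_iff {v : Space → ℝ} (hv : v ∈ PotentialClass) {Ψ : L2 m} :
    Ψ ∈ FormDomain (oneBodyPotential v) ↔ IsAntisymmetric Ψ ∧ MemH1 Ψ := by
  obtain ⟨C, -, hC⟩ := PotentialClass.form_bound_oneBody hv one_pos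
  exact ⟨fun h => ⟨h.1, h.2.1⟩, fun h => ⟨h.1, h.2, (hC m Ψ h.2).1⟩⟩

theorem PotentialClass.kin_le_energy {v : Space → ℝ} (hv : v ∈ PotentialClass) :
    ∃ C : ℝ, 0 ≤ C ∧ ∀ (m : ℕ) (Ψ : L2 m), MemH1 Ψ →
      kin Ψ ≤ 4 * energy (oneBodyPotential v) Ψ + C * (m : ℝ) * ‖Ψ‖ ^ 2 := by
  obtain ⟨C, hC0, hC⟩ := PotentialClass.form_bound_oneBody hv (show (0 : ℝ) < 1 / 4 by norm_num)
  refine ⟨4 * C, by positivity, fun m Ψ h => ?_⟩
  obtain ⟨i1, l1⟩ := hC m Ψ h
  rw [energy_eq_kin]
  have h2 : -(∫ x, |oneBodyPotential v x| * ‖Ψ x‖ ^ 2) ≤ ∫ x, oneBodyPotential v x * ‖Ψ x‖ ^ 2 := by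
    rw [← integral_neg]
    have j1 : Integrable (fun x => |oneBodyPotential v x| * ‖Ψ x‖ ^ 2) volume := by
      have := i1.abs
      simpa only [abs_mul, abs_pow, abs_norm] using this
    refine integral_mono j1.neg i1 fun x => ?_
    show -(|oneBodyPotential v x| * ‖Ψ x‖ ^ 2) ≤ oneBodyPotential v x * ‖Ψ x‖ ^ 2
    rw [← neg_mul]
    exact mul_le_mul_of_nonneg_right (neg_abs_le _) (sq_nonneg _)
  linarith

end S3

end Claimed.Open.R278
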