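import Claimed.Open.R278.FSCompact
import Claimed.Open.R278.FSSobolev

/-!
# Result 278, kit FS, file 6: `Δu ∈ L²  ⇒  u ∈ H²`; trace on the plane; half-spaces and odd functions; Lipschitz chain rule

`HasWeakDiv μ v g F`:  `∑ⱼ ∂_{v j} (g j) = F` in the sense of distributions (scalar test functions; values in a Banach space).

ROUTE for `exists_second_derivs` (Nirenberg's difference quotients, NO Fourier transform, NO third derivatives):
`D_h u = (u(· + h vᵢ) - u)/h`.  `D_h f ∈ H¹`, `∂ⱼ D_h f = D_h gⱼ`, `∑ⱼ ∂ⱼ D_h gⱼ = D_h F`.  Test with `D_h f`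
(`HasWeakDiv.integral_inner`):  `∑ⱼ ‖D_h gⱼ‖² = -⟨D_h f, D_h F⟩ = -⟨D_{-h} D_h f, F⟩·(±1) ≤ ‖∂ᵢ D_h f‖ ‖F‖ = ‖D_h gᵢ‖ ‖F‖`
(`WD2.translate_sub_le` for `D_h f`), hence `∑ⱼ ‖D_h gⱼ‖² ≤ ‖F‖²`; conclude with `exists_wd2_of_diffQuot`.

Each section is ONE LEAF.
-/

open MeasureTheory Filter Topology Set
open scoped ContDiff InnerProductSpace

noncomputable section

set_option linter.unusedSectionVars false

namespace Claimed.Open.R278

variable {X : Type*} [NormedAddCommGroup X] [NormedSpace ℝ X] [FiniteDimensional ℝ X]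
  [MeasurableSpace X] [BorelSpace X] {μ : Measure X} [μ.IsAddHaarMeasure]
  {E : Type*} [NormedAddCommGroup E] [NormedSpace ℝ E] [CompleteSpace E]
  {𝕜 : Type*} [RCLike 𝕜] {H : Type*} [NormedAddCommGroup H] [InnerProductSpace 𝕜 H] [NormedSpace ℝ H]
  [CompleteSpace H] {ι : Type*} [Fintype ι]

/-- `∑ⱼ ∂_{v j} (g j) = F` weakly. -/
def HasWeakDiv (μ : Measure X) (v : ι → X) (g : ι → X → E) (F : X → E) : Prop :=
  ∀ φ : X → ℝ, ContDiff ℝ ∞ φ → HasCompactSupport φ →
    ∑ j, ∫ x, fderiv ℝ φ x (v j) • g j x ∂μ = - ∫ x, φ x • F x ∂μ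

/-! ## LEAF FS-G1: weak divergence: mollification, `H¹` test functions -/

section G1

/-- if every `g j` has a weak derivative along `v j`, the divergence is their sum. -/
theorem HasWeakDiv.of_wd {v : ι → X} {g k : ι → X → E} (h : ∀ j, WD μ (v j) (g j) (k j)) :
    HasWeakDiv μ v g (fun x => ∑ j, k j x) := by
  intro φ hφ hc
  have h1 : ∀ j, ∫ x, fderiv ℝ φ x (v j) • g j x ∂μ = - ∫ x, φ x • k j x ∂μ := fun j => (h j).weak φ hφ hc
  simp only [h1, Finset.smul_sum]
  rw [integral_finsetSum _ fun j _ => fs_int (h j).locg hφ.continuous hc, Finset.sum_neg_distrib]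

open Convolution in
/-- the derivative of a mollification falls on the mollifier. -/
theorem fs_fderiv_moll_eq {ρ : X → ℝ} (hρ : ContDiff ℝ ∞ ρ) (hρs : HasCompactSupport ρ) {f : X → E}
    (hf : LocallyIntegrable f μ) (x v : X) :
    fderiv ℝ (moll μ ρ f) x v = ∫ t, fderiv ℝ ρ (x - t) v • f t ∂μ := by
  have hρ1 : ContDiff ℝ 1 ρ := hρ.of_le (by simp)
  have e0 : moll μ ρ f = f ⋆[(ContinuousLinearMap.lsmul ℝ ℝ : ℝ →L[ℝ] E →L[ℝ] E).flip, μ] ρ :=
    (convolution_flip _).symm
  have h1 := hρs.hasFDerivAt_convolution_right (ContinuousLinearMap.lsmul ℝ ℝ : ℝ →L[ℝ] E →L[ℝ] E).flip hf hρ1 x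
  rw [e0, h1.fderiv, convolution_precompR_apply _ hf (hρs.fderiv ℝ)
    (hρ1.continuous_fderiv (by simp)) x v, convolution_def]
  rfl

/-- mollification commutes with the weak divergence (same computation as `fderiv_moll`). -/
theorem HasWeakDiv.moll {v : ι → X} {g : ι → X → E} {F : X → E} (h : HasWeakDiv μ v g F)
    (hg : ∀ j, LocallyIntegrable (g j) μ) {ρ : X → ℝ} (hρ : ContDiff ℝ ∞ ρ) (hρs : HasCompactSupport ρ) (x : X) :
    ∑ j, fderiv ℝ (moll μ ρ (g j)) x (v j) = moll μ ρ F x := by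
  have hρ1 : ContDiff ℝ 1 ρ := hρ.of_le (by simp)
  simp only [fs_fderiv_moll_eq hρ hρs (hg _)]
  set φ : X → ℝ := fun t => ρ (x - t) with hφ
  have hφc : ContDiff ℝ ∞ φ := hρ.comp (contDiff_const.sub contDiff_id)
  have hφs : HasCompactSupport φ := hρs.comp_homeomorph (Homeomorph.subLeft x)
  have hd : ∀ t w, fderiv ℝ φ t w = - fderiv ℝ ρ (x - t) w := by
    intro t w
    have h2 : HasFDerivAt φ ((fderiv ℝ ρ (x - t)).comp (0 - ContinuousLinearMap.id ℝ X)) t :=
      ((hρ1.differentiable (by simp)) (x - t)).hasFDerivAt.comp t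
        ((hasFDerivAt_const x t).sub (hasFDerivAt_id t))
    rw [h2.fderiv]; simp
  have h3 := h φ hφc hφs
  simp only [hd, neg_smul, integral_neg, Finset.sum_neg_distrib, neg_inj] at h3
  rw [moll_apply_swap]
  exact h3

theorem HasWeakDiv.translate {v : ι → X} {g : ι → X → E} {F : X → E} (h : HasWeakDiv μ v g F) (a : X) :
    HasWeakDiv μ v (fun j x => g j (x + a)) (fun x => F (x + a)) := by
  intro φ hφ hs
  have hψ : ContDiff ℝ ∞ fun y => φ (y - a) := hφ.comp (contDiff_id.sub contDiff_const)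
  have hψs : HasCompactSupport fun y => φ (y - a) := hs.comp_homeomorph (Homeomorph.subRight a)
  have key := h _ hψ hψs
  simp only [fderiv_comp_sub] at key
  have e1 : ∀ j, ∫ x, fderiv ℝ φ x (v j) • g j (x + a) ∂μ = ∫ y, fderiv ℝ φ (y - a) (v j) • g j y ∂μ := by
    intro j
    have := integral_add_right_eq_self (μ := μ) (fun y => fderiv ℝ φ (y - a) (v j) • g j y) a
    simpa only [add_sub_cancel_right] using this
  have e2 := integral_add_right_eq_self (μ := μ) (fun y => φ (y - a) • F y) a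
  simp only [add_sub_cancel_right] at e2
  simp only [e1]
  rw [e2, key]

theorem HasWeakDiv.sub {v : ι → X} {g g' : ι → X → E} {F F' : X → E} (h : HasWeakDiv μ v g F)
    (h' : HasWeakDiv μ v g' F') (hg : ∀ j, LocallyIntegrable (g j) μ) (hg' : ∀ j, LocallyIntegrable (g' j) μ)
    (hF : LocallyIntegrable F μ) (hF' : LocallyIntegrable F' μ) :
    HasWeakDiv μ v (fun j x => g j x - g' j x) (fun x => F x - F' x) := by
  intro φ hφ hc
  have hφ1 : ContDiff ℝ 1 φ := hφ.of_le (by simp)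
  simp only [smul_sub]
  rw [integral_sub (fs_int hF hφ.continuous hc) (fs_int hF' hφ.continuous hc)]
  simp only [integral_sub (fs_int_d (hg _) hφ1 hc _) (fs_int_d (hg' _) hφ1 hc _)]
  rw [Finset.sum_sub_distrib, h φ hφ hc, h' φ hφ hc]
  abel

theorem HasWeakDiv.const_smul {v : ι → X} {g : ι → X → E} {F : X → E} (h : HasWeakDiv μ v g F) (c : ℝ) :
    HasWeakDiv μ v (fun j x => c • g j x) (fun x => c • F x) := by
  intro φ hφ hc
  simp only [smul_comm _ c, integral_smul]
  rw [← Finset.smul_sum, h φ hφ hc, smul_neg]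

/-- product rule for the weak divergence. -/
theorem HasWeakDiv.smul_left {v : ι → X} {g : ι → X → E} {F : X → E} (h : HasWeakDiv μ v g F)
    (hg : ∀ j, LocallyIntegrable (g j) μ) (hF : LocallyIntegrable F μ) {χ : X → ℝ} (hχ : ContDiff ℝ ∞ χ) :
    HasWeakDiv μ v (fun j x => χ x • g j x) (fun x => χ x • F x + ∑ j, fderiv ℝ χ x (v j) • g j x) := by
  intro φ hφ hc
  have hφ1 : ContDiff ℝ 1 φ := hφ.of_le (by simp)
  have hχ1 : ContDiff ℝ 1 χ := hχ.of_le (by simp)
  have key := h (fun x => φ x * χ x) (hφ.mul hχ) hc.mul_right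
  have hd : ∀ x w, fderiv ℝ (fun x => φ x * χ x) x w = fderiv ℝ φ x w * χ x + φ x * fderiv ℝ χ x w := by
    intro x w
    have h1 := ((hφ1.differentiable (by simp)) x).hasFDerivAt.mul ((hχ1.differentiable (by simp)) x).hasFDerivAt
    have h2 : fderiv ℝ (fun x => φ x * χ x) x = φ x • fderiv ℝ χ x + χ x • fderiv ℝ φ x := h1.fderiv
    rw [h2]
    simp
    ring
  have i1 : ∀ j, Integrable (fun x => fderiv ℝ φ x (v j) • χ x • g j x) μ := fun j => by
    have := fs_int (hg j) ((fs_cont_d hφ1 (v j)).mul hχ.continuous) (hc.fderiv_apply (𝕜 := ℝ) (v j)).mul_right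
    simpa only [Pi.mul_apply, mul_smul] using this
  have i2 : ∀ j, Integrable (fun x => φ x • fderiv ℝ χ x (v j) • g j x) μ := fun j => by
    have := fs_int (hg j) (hφ.continuous.mul (fs_cont_d hχ1 (v j))) hc.mul_right
    simpa only [Pi.mul_apply, mul_smul] using this
  have i3 : Integrable (fun x => φ x • χ x • F x) μ := by
    have := fs_int hF (hφ.continuous.mul hχ.continuous) hc.mul_right
    simpa only [Pi.mul_apply, mul_smul] using this
  simp only [hd, add_smul, mul_smul] at key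
  simp only [integral_add (i1 _) (i2 _)] at key
  rw [Finset.sum_add_distrib] at key
  simp only [smul_add, Finset.smul_sum]
  rw [integral_add i3 (integrable_finsetSum _ fun j _ => i2 j), integral_finsetSum _ fun j _ => i2 j]
  rw [neg_add, ← key]
  abel

/-- convergence of the `L²` pairing in the first slot. -/
theorem fs_tendsto_integral_inner_left {α : Type*} [MeasurableSpace α] {ν : Measure α} {a b : α → H}
    {an : ℕ → α → H} (hb : MemLp b 2 ν) (han : ∀ n, MemLp (an n) 2 ν) (ha : MemLp a 2 ν)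
    (h : Tendsto (fun n => ∫ x, ‖an n x - a x‖ ^ 2 ∂ν) atTop (𝓝 0)) :
    Tendsto (fun n => ∫ x, ⟪an n x, b x⟫_𝕜 ∂ν) atTop (𝓝 (∫ x, ⟪a x, b x⟫_𝕜 ∂ν)) := by
  have := (RCLike.continuous_conj.tendsto _).comp (fs_tendsto_integral_inner (𝕜 := 𝕜) hb han ha h)
  simpa only [Function.comp_def, ← integral_conj, inner_conj_symm] using this

/-- pairing of a continuous compactly supported function with the mollifications of an `L²_loc` function. -/
theorem fs_tendsto_integral_inner_moll {a : X → H} (ha : Continuous a) (hac : HasCompactSupport a) {b : X → H}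
    (hb : L2Loc μ b) :
    Tendsto (fun n => ∫ x, ⟪a x, moll μ (mollSeq μ n) b x⟫_𝕜 ∂μ) atTop (𝓝 (∫ x, ⟪a x, b x⟫_𝕜 ∂μ)) := by
  have hK : IsCompact (tsupport a) := hac
  have e : ∀ c : X → H, ∫ x, ⟪a x, c x⟫_𝕜 ∂μ = ∫ x in tsupport a, ⟪a x, c x⟫_𝕜 ∂μ := fun c =>
    (setIntegral_eq_integral_of_forall_compl_eq_zero fun x hx => by
      rw [image_eq_zero_of_notMem_tsupport hx, inner_zero_left]).symm
  simp only [e]
  exact fs_tendsto_integral_inner (fs_l2Loc_of_continuous ha _ hK)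
    (fun n => fs_l2Loc_moll n hb.locallyIntegrable _ hK) (hb _ hK) (tendsto_moll_L2loc hb hK)

/-- the weak divergence identity tested with `C¹_c(X; H)`. -/
theorem HasWeakDiv.integral_inner_C1 {v : ι → X} {g : ι → X → H} {F : X → H} (h : HasWeakDiv μ v g F)
    (hg : ∀ j, L2Loc μ (g j)) (hF : L2Loc μ F) {u : X → H} (hu : ContDiff ℝ 1 u) (hc : HasCompactSupport u) :
    ∑ j, ∫ x, ⟪fderiv ℝ u x (v j), g j x⟫_𝕜 ∂μ = - ∫ x, ⟪u x, F x⟫_𝕜 ∂μ := by
  set gn : ℕ → ι → X → H := fun n j => Claimed.Open.R278.moll μ (mollSeq μ n) (g j) with hgn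
  set Fn : ℕ → X → H := fun n => Claimed.Open.R278.moll μ (mollSeq μ n) F with hFn
  have hs : ∀ n j, ContDiff ℝ 1 (gn n j) := fun n j =>
    (contDiff_moll (contDiff_mollSeq n) (hasCompactSupport_mollSeq n) (hg j).locallyIntegrable).of_le (by simp)
  have hdiv : ∀ n x, ∑ j, fderiv ℝ (gn n j) x (v j) = Fn n x := fun n x =>
    h.moll (fun j => (hg j).locallyIntegrable) (contDiff_mollSeq n) (hasCompactSupport_mollSeq n) x
  have hdu : ∀ j, Continuous fun x => fderiv ℝ u x (v j) := fun j =>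
    (hu.continuous_fderiv one_ne_zero).clm_apply continuous_const
  have hdg : ∀ n j, Continuous fun x => fderiv ℝ (gn n j) x (v j) := fun n j =>
    ((hs n j).continuous_fderiv one_ne_zero).clm_apply continuous_const
  have i1 : ∀ n j, Integrable (fun x => ⟪fderiv ℝ u x (v j), gn n j x⟫_𝕜) μ := fun n j =>
    ((hdu j).inner (hs n j).continuous).integrable_of_hasCompactSupport
      (hc.mono' fun x hx => by
        by_contra hx'
        exact hx (by simp only [fderiv_of_notMem_tsupport ℝ hx', zero_apply, inner_zero_left]))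
  have i2 : ∀ n j, Integrable (fun x => ⟪u x, fderiv ℝ (gn n j) x (v j)⟫_𝕜) μ := fun n j =>
    (hu.continuous.inner (hdg n j)).integrable_of_hasCompactSupport
      (hc.mono' fun x hx => by
        by_contra hx'
        exact hx (by simp only [image_eq_zero_of_notMem_tsupport hx', inner_zero_left]))
  have i0 : ∀ n j, Integrable (fun x => ⟪u x, gn n j x⟫_𝕜) μ := fun n j =>
    (hu.continuous.inner (hs n j).continuous).integrable_of_hasCompactSupport
      (hc.mono' fun x hx => by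
        by_contra hx'
        exact hx (by simp only [image_eq_zero_of_notMem_tsupport hx', inner_zero_left]))
  have ibp : ∀ n j, ∫ x, ⟪fderiv ℝ u x (v j), gn n j x⟫_𝕜 ∂μ
      = - ∫ x, ⟪u x, fderiv ℝ (gn n j) x (v j)⟫_𝕜 ∂μ := by
    intro n j
    have w := WD.inner (𝕜 := 𝕜) (μ := μ) (HasWeakDeriv.of_contDiff hu (v j)) (HasWeakDeriv.of_contDiff (hs n j) (v j))
      (fs_l2Loc_of_continuous hu.continuous) (fs_l2Loc_of_continuous (hdu j))
      (fs_l2Loc_of_continuous (hs n j).continuous) (fs_l2Loc_of_continuous (hdg n j))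
    have := WD.integral_eq_zero w (i0 n j) ((i1 n j).add (i2 n j))
    rw [integral_add (i1 n j) (i2 n j)] at this
    exact eq_neg_of_add_eq_zero_left this
  have key : ∀ n, ∑ j, ∫ x, ⟪fderiv ℝ u x (v j), gn n j x⟫_𝕜 ∂μ = - ∫ x, ⟪u x, Fn n x⟫_𝕜 ∂μ := by
    intro n
    simp only [ibp, Finset.sum_neg_distrib, ← hdiv, inner_sum]
    rw [integral_finsetSum _ fun j _ => i2 n j]
  have t1 : Tendsto (fun n => ∑ j, ∫ x, ⟪fderiv ℝ u x (v j), gn n j x⟫_𝕜 ∂μ) atTop
      (𝓝 (∑ j, ∫ x, ⟪fderiv ℝ u x (v j), g j x⟫_𝕜 ∂μ)) :=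
    tendsto_finsetSum _ fun j _ =>
      fs_tendsto_integral_inner_moll (hdu j) (hc.fderiv_apply (𝕜 := ℝ) (v j)) (hg j)
  have t2 : Tendsto (fun n => ∫ x, ⟪u x, Fn n x⟫_𝕜 ∂μ) atTop (𝓝 (∫ x, ⟪u x, F x⟫_𝕜 ∂μ)) :=
    fs_tendsto_integral_inner_moll hu.continuous hc hF
  simp only [key] at t1
  exact tendsto_nhds_unique t1 t2.neg

/-- the weak divergence identity tested with Hilbert valued `H¹` functions (mollify `g, F`: classical integration by
parts against `C¹_c(X; H)`, then density of `C¹_c` in `H¹`). -/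
theorem HasWeakDiv.integral_inner {v : ι → X} {g : ι → X → H} {F : X → H} (h : HasWeakDiv μ v g F)
    (hg : ∀ j, MemLp (g j) 2 μ) (hF : MemLp F 2 μ) {w : X → H} {w' : ι → X → H} (hw : ∀ j, WD2 μ (v j) w (w' j))
    (hw2 : MemLp w 2 μ) :
    ∑ j, ∫ x, ⟪w' j x, g j x⟫_𝕜 ∂μ = - ∫ x, ⟪w x, F x⟫_𝕜 ∂μ := by
  obtain ⟨u, hu, hc, h0, h1⟩ := exists_seq_contDiff_approx hw hw2
  have key : ∀ n, ∑ j, ∫ x, ⟪fderiv ℝ (u n) x (v j), g j x⟫_𝕜 ∂μ = - ∫ x, ⟪u n x, F x⟫_𝕜 ∂μ := fun n =>
    h.integral_inner_C1 (fun j => MemLp.l2Loc (hg j)) (MemLp.l2Loc hF) (hu n) (hc n)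
  have t1 : Tendsto (fun n => ∑ j, ∫ x, ⟪fderiv ℝ (u n) x (v j), g j x⟫_𝕜 ∂μ) atTop
      (𝓝 (∑ j, ∫ x, ⟪w' j x, g j x⟫_𝕜 ∂μ)) :=
    tendsto_finsetSum _ fun j _ =>
      fs_tendsto_integral_inner_left (hg j) (fun n => fs_memLp_d (hu n) (hc n) (v j)) (hw j).memg (h1 j)
  have t2 : Tendsto (fun n => ∫ x, ⟪u n x, F x⟫_𝕜 ∂μ) atTop (𝓝 (∫ x, ⟪w x, F x⟫_𝕜 ∂μ)) :=
    fs_tendsto_integral_inner_left hF (fun n => fs_memLp_C1c (hu n).continuous (hc n)) hw2 h0
  simp only [key] at t1
  exact tendsto_nhds_unique t1 t2.neg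

/-- a cutoff of the kit which is `1` near a given compact set. -/
theorem fs_exists_cutoff_eq_one {K : Set X} (hK : IsCompact K) :
    ∃ n : ℕ, ∀ x ∈ K, cutoff n x = 1 ∧ ∀ w, fderiv ℝ (cutoff n : X → ℝ) x w = 0 := by
  obtain ⟨R, hR⟩ := hK.isBounded.subset_closedBall (0 : X)
  obtain ⟨n, hn⟩ := exists_nat_ge R
  refine ⟨n, fun x hx => ?_⟩
  have hx1 : ‖x‖ < (n : ℝ) + 1 := by
    have := hR hx
    rw [mem_closedBall_zero_iff] at this
    linarith
  refine ⟨cutoff_eq_one hx1.le, fun w => ?_⟩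
  have : (cutoff n : X → ℝ) =ᶠ[𝓝 x] fun _ => 1 := by
    filter_upwards [Metric.isOpen_ball.mem_nhds (show x ∈ Metric.ball (0 : X) ((n : ℝ) + 1) by simpa using hx1)]
      with y hy
    exact cutoff_eq_one (by simpa using (mem_ball_zero_iff.1 hy).le)
  rw [this.fderiv_eq]
  simp

/-- local version: `g, F ∈ L²_loc`, the test function has compact support. -/
theorem HasWeakDiv.integral_inner_loc {v : ι → X} {g : ι → X → H} {F : X → H} (h : HasWeakDiv μ v g F)
    (hg : ∀ j, L2Loc μ (g j)) (hF : L2Loc μ F) {w : X → H} {w' : ι → X → H} (hw : ∀ j, WD2 μ (v j) w (w' j))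
    (hw2 : MemLp w 2 μ) (hc : HasCompactSupport w) :
    ∑ j, ∫ x, ⟪w' j x, g j x⟫_𝕜 ∂μ = - ∫ x, ⟪w x, F x⟫_𝕜 ∂μ := by
  obtain ⟨n, hn⟩ := fs_exists_cutoff_eq_one (show IsCompact (tsupport w) from hc)
  set χ : X → ℝ := cutoff n with hχdef
  have hχ : ContDiff ℝ ∞ χ := contDiff_cutoff n
  have hχ1 : ContDiff ℝ 1 χ := hχ.of_le (by simp)
  have hχs : HasCompactSupport χ := hasCompactSupport_cutoff n
  have hdiv := h.smul_left (fun j => (hg j).locallyIntegrable) hF.locallyIntegrable hχ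
  have m1 : ∀ j, MemLp (fun x => χ x • g j x) 2 μ := fun j =>
    fs_memLp_smul_of_compact (hg j) hχ.continuous hχs
  have m2 : MemLp (fun x => χ x • F x + ∑ j, fderiv ℝ χ x (v j) • g j x) 2 μ :=
    (fs_memLp_smul_of_compact hF hχ.continuous hχs).add (memLp_finsetSum _ fun j _ =>
      fs_memLp_smul_of_compact (hg j) (fs_cont_d hχ1 (v j)) (hχs.fderiv_apply (𝕜 := ℝ) (v j)))
  have key := hdiv.integral_inner (𝕜 := 𝕜) m1 m2 hw hw2
  have e2 : ∀ x, ⟪w x, χ x • F x + ∑ j, fderiv ℝ χ x (v j) • g j x⟫_𝕜 = ⟪w x, F x⟫_𝕜 := by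
    intro x
    by_cases hx : x ∈ tsupport w
    · obtain ⟨a, b⟩ := hn x hx
      simp only [a, b, one_smul, zero_smul, Finset.sum_const_zero, add_zero]
    · rw [image_eq_zero_of_notMem_tsupport hx, inner_zero_left, inner_zero_left]
  have e1 : ∀ j, (fun x => ⟪w' j x, χ x • g j x⟫_𝕜) =ᵐ[μ] fun x => ⟪w' j x, g j x⟫_𝕜 := by
    intro j
    have w1 := WD.smul_left (hw j).wd hχ1
    have w2 : WD μ (v j) w (fun x => χ x • w' j x) := by
      refine w1.congr_ae (Eventually.of_forall fun x => ?_) (Eventually.of_forall fun x => ?_)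
      · by_cases hx : x ∈ tsupport w
        · simp only [(hn x hx).1, one_smul]
        · simp only [image_eq_zero_of_notMem_tsupport hx, smul_zero]
      · by_cases hx : x ∈ tsupport w
        · simp only [(hn x hx).2, zero_smul, zero_add]
        · simp only [image_eq_zero_of_notMem_tsupport hx, smul_zero, zero_add]
    filter_upwards [(hw j).wd.unique w2] with x hx
    rw [fs_inner_smul_right, ← fs_inner_smul_left, ← hx]
  simp only [e2] at key
  rw [← key]
  exact Finset.sum_congr rfl fun j _ => (integral_congr_ae (e1 j)).symm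

end G1

/-! ## LEAF FS-G2: `H²` regularity, generic form -/

section G2

theorem WD2.sub {v : X} {f₁ f₂ g₁ g₂ : X → E} (h₁ : WD2 μ v f₁ g₁) (h₂ : WD2 μ v f₂ g₂) :
    WD2 μ v (fun x => f₁ x - f₂ x) (fun x => g₁ x - g₂ x) :=
  ⟨h₁.memf.sub h₂.memf, h₁.memg.sub h₂.memg, (WD.sub h₁.wd h₂.wd).weak⟩

theorem fs_integral_inner_self {α : Type*} [MeasurableSpace α] {ν : Measure α} (a : α → H) :
    ∫ x, ⟪a x, a x⟫_𝕜 ∂ν = ((∫ x, ‖a x‖ ^ 2 ∂ν : ℝ) : 𝕜) := by
  rw [← integral_ofReal]
  refine integral_congr_ae (Eventually.of_forall fun x => ?_)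
  simp only [inner_self_eq_norm_sq_to_K]
  norm_cast

variable (𝕜) in
include 𝕜 in
/-- the difference quotient estimate. -/
theorem diffQuot_grad_le {v : ι → X} {f : X → H} {g : ι → X → H} {F : X → H}
    (h : ∀ j, WD2 μ (v j) f (g j)) (hF : MemLp F 2 μ) (hdiv : HasWeakDiv μ v g F) (i : ι) (t : ℝ) :
    ∑ j, ∫ x, ‖g j (x + t • v i) - g j x‖ ^ 2 ∂μ ≤ t ^ 2 * ∫ x, ‖F x‖ ^ 2 ∂μ := by
  set a : X := t • v i with ha
  set Df : X → H := fun x => f (x + a) - f x with hDf
  set Dg : ι → X → H := fun j x => g j (x + a) - g j x with hDg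
  set DF : X → H := fun x => F (x + a) - F x with hDF
  have hFa : MemLp (fun x => F (x + a)) 2 μ := fs_memLp_translate hF a
  have hD : ∀ j, WD2 μ (v j) Df (Dg j) := fun j => ((h j).translate a).sub (h j)
  have li : ∀ {u : X → H}, MemLp u 2 μ → LocallyIntegrable u μ := fun hu => hu.locallyIntegrable (by norm_num)
  have hdivD : HasWeakDiv μ v Dg DF :=
    (hdiv.translate a).sub hdiv (fun j => li ((h j).translate a).memg) (fun j => li (h j).memg) (li hFa) (li hF)
  have hDFm : MemLp DF 2 μ := hFa.sub hF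
  have key := hdivD.integral_inner (𝕜 := 𝕜) (fun j => (hD j).memg) hDFm hD (hD i).memf
  simp only [fs_integral_inner_self] at key
  rw [← RCLike.ofReal_sum] at key
  set S : ℝ := ∑ j, ∫ x, ‖Dg j x‖ ^ 2 ∂μ with hS
  have hS0 : 0 ≤ S := Finset.sum_nonneg fun j _ => integral_nonneg fun x => sq_nonneg _
  set B : ℝ := ∫ x, ‖F x‖ ^ 2 ∂μ with hB
  have hB0 : 0 ≤ B := integral_nonneg fun x => sq_nonneg _
  set A : ℝ := ∫ x, ‖Dg i x‖ ^ 2 ∂μ with hA
  have hA0 : 0 ≤ A := integral_nonneg fun x => sq_nonneg _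
  have hAS : A ≤ S :=
    Finset.single_le_sum (f := fun j => ∫ x, ‖Dg j x‖ ^ 2 ∂μ) (fun j _ => integral_nonneg fun x => sq_nonneg _)
      (Finset.mem_univ i)
  -- move the translation
  have hDfm : MemLp Df 2 μ := (hD i).memf
  have hDfa : MemLp (fun x => Df (x - a)) 2 μ := by
    have := fs_memLp_translate hDfm (-a)
    simpa only [← sub_eq_add_neg] using this
  have e1 : ∫ x, ⟪Df x, DF x⟫_𝕜 ∂μ = ∫ x, ⟪Df (x - a) - Df x, F x⟫_𝕜 ∂μ := by
    have j1 : Integrable (fun x => ⟪Df x, F (x + a)⟫_𝕜) μ := fs_integrable_inner hDfm hFa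
    have j2 : Integrable (fun x => ⟪Df x, F x⟫_𝕜) μ := fs_integrable_inner hDfm hF
    have j3 : Integrable (fun x => ⟪Df (x - a), F x⟫_𝕜) μ := fs_integrable_inner hDfa hF
    simp only [hDF, inner_sub_right, inner_sub_left]
    rw [integral_sub j1 j2, integral_sub j3 j2]
    congr 1
    have := integral_sub_right_eq_self (μ := μ) (fun x => ⟪Df x, F (x + a)⟫_𝕜) a
    simpa only [sub_add_cancel] using this.symm
  have e2 : ∫ x, ‖Df (x - a) - Df x‖ ^ 2 ∂μ ≤ t ^ 2 * A := by
    have := (hD i).translate_sub_le (-t)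
    simpa only [neg_smul, ← sub_eq_add_neg, neg_sq, ← ha] using this
  have e3 : S ≤ √(∫ x, ‖Df (x - a) - Df x‖ ^ 2 ∂μ) * √B := by
    have h1 := fs_norm_integral_inner_le (𝕜 := 𝕜) (hDfa.sub hDfm) hF
    have h2 : ‖((S : ℝ) : 𝕜)‖ = S := by rw [RCLike.norm_ofReal, abs_of_nonneg hS0]
    rw [← h2, key, norm_neg, e1]
    exact h1
  have e4 : S ^ 2 ≤ t ^ 2 * S * B := by
    have h1 : S ^ 2 ≤ (√(∫ x, ‖Df (x - a) - Df x‖ ^ 2 ∂μ) * √B) ^ 2 := pow_le_pow_left₀ hS0 e3 2
    rw [mul_pow, Real.sq_sqrt (integral_nonneg fun x => sq_nonneg _), Real.sq_sqrt hB0] at h1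
    have h2 : (∫ x, ‖Df (x - a) - Df x‖ ^ 2 ∂μ) * B ≤ t ^ 2 * S * B :=
      mul_le_mul_of_nonneg_right (e2.trans (mul_le_mul_of_nonneg_left hAS (sq_nonneg t))) hB0
    exact h1.trans h2
  rcases hS0.eq_or_lt with h0 | h0
  · rw [← h0]; positivity
  · have : S * S ≤ S * (t ^ 2 * B) := by nlinarith
    exact le_of_mul_le_mul_left this h0

/-- the weak divergence is unique. -/
theorem HasWeakDiv.unique {v : ι → X} {g : ι → X → E} {F F' : X → E} (h : HasWeakDiv μ v g F)
    (h' : HasWeakDiv μ v g F') (hF : LocallyIntegrable F μ) (hF' : LocallyIntegrable F' μ) : F =ᵐ[μ] F' :=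
  ae_eq_of_integral_contDiff_smul_eq hF hF' fun φ hφ hc =>
    neg_injective ((h φ hφ hc).symm.trans (h' φ hφ hc))

variable (𝕜) in
include 𝕜 in
/-- **`f ∈ H¹`, `Δ f = F ∈ L²`  ⇒  all second derivatives are in `L²`.** -/
theorem exists_second_derivs {v : ι → X} {f : X → H} {g : ι → X → H} {F : X → H}
    (h : ∀ j, WD2 μ (v j) f (g j)) (hF : MemLp F 2 μ) (hdiv : HasWeakDiv μ v g F) :
    ∃ k : ι → ι → X → H, (∀ i j, WD2 μ (v i) (g j) (k i j)) ∧
      (∀ i j, ∫ x, ‖k i j x‖ ^ 2 ∂μ ≤ ∫ x, ‖F x‖ ^ 2 ∂μ) ∧ (∀ i j, k i j =ᵐ[μ] k j i) ∧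
      ∀ᵐ x ∂μ, ∑ j, k j j x = F x := by
  have hB0 : 0 ≤ ∫ x, ‖F x‖ ^ 2 ∂μ := integral_nonneg fun x => sq_nonneg _
  have hex : ∀ i j, ∃ k : X → H, WD2 μ (v i) (g j) k ∧ ∫ x, ‖k x‖ ^ 2 ∂μ ≤ ∫ x, ‖F x‖ ^ 2 ∂μ := by
    intro i j
    refine exists_wd2_of_diffQuot 𝕜 (h j).memg hB0 (t := fun n : ℕ => 1 / ((n : ℝ) + 1))
      (fun n => by positivity) tendsto_one_div_add_atTop_nhds_zero_nat fun n => ?_
    have h1 := diffQuot_grad_le 𝕜 h hF hdiv i (1 / ((n : ℝ) + 1))
    have h2 := Finset.single_le_sum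
      (f := fun j => ∫ x, ‖g j (x + (1 / ((n : ℝ) + 1)) • v i) - g j x‖ ^ 2 ∂μ)
      (fun j _ => integral_nonneg fun x => sq_nonneg _) (Finset.mem_univ j)
    rw [mul_comm]
    exact h2.trans h1
  choose k hk hkb using hex
  refine ⟨k, hk, hkb, fun i j => ?_, ?_⟩
  · exact (hk i j).wd.unique (WD.comm (h i).wd (h j).wd (hk j i).wd)
  · exact (HasWeakDiv.of_wd fun j => (hk j j).wd).unique hdiv
      (locallyIntegrable_finsetSum _ fun j _ => (hk j j).wd.locg) (hF.locallyIntegrable (by norm_num))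

theorem HasWeakDiv.add {v : ι → X} {g g' : ι → X → E} {F F' : X → E} (h : HasWeakDiv μ v g F)
    (h' : HasWeakDiv μ v g' F') (hg : ∀ j, LocallyIntegrable (g j) μ) (hg' : ∀ j, LocallyIntegrable (g' j) μ)
    (hF : LocallyIntegrable F μ) (hF' : LocallyIntegrable F' μ) :
    HasWeakDiv μ v (fun j x => g j x + g' j x) (fun x => F x + F' x) := by
  intro φ hφ hc
  have hφ1 : ContDiff ℝ 1 φ := hφ.of_le (by simp)
  simp only [smul_add]
  rw [integral_add (fs_int hF hφ.continuous hc) (fs_int hF' hφ.continuous hc)]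
  simp only [integral_add (fs_int_d (hg _) hφ1 hc _) (fs_int_d (hg' _) hφ1 hc _)]
  rw [Finset.sum_add_distrib, h φ hφ hc, h' φ hφ hc]
  abel

/-- near the points of the ball of radius `n + 1` the cutoff is constant. -/
theorem fs_cutoff_eventuallyEq {n : ℕ} {x : X} (hx : ‖x‖ < (n : ℝ) + 1) :
    (cutoff n : X → ℝ) =ᶠ[𝓝 x] fun _ => 1 := by
  filter_upwards [Metric.isOpen_ball.mem_nhds (show x ∈ Metric.ball (0 : X) ((n : ℝ) + 1) by simpa using hx)]
    with y hy
  exact cutoff_eq_one (by simpa using (mem_ball_zero_iff.1 hy).le)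

theorem fs_fderiv_cutoff_eventuallyEq {n : ℕ} {x : X} (hx : ‖x‖ < (n : ℝ) + 1) (w : X) :
    (fun y => fderiv ℝ (cutoff n : X → ℝ) y w) =ᶠ[𝓝 x] fun _ => 0 :=
  ((fs_cutoff_eventuallyEq hx).fderiv (𝕜 := ℝ)).mono fun y hy => by simp [hy]

theorem fs_fderiv_cutoff_eq_zero {n : ℕ} {x : X} (hx : ‖x‖ < (n : ℝ) + 1) (w : X) :
    fderiv ℝ (cutoff n : X → ℝ) x w = 0 := (fs_fderiv_cutoff_eventuallyEq hx w).eq_of_nhds

theorem fs_fderiv_fderiv_cutoff_eq_zero {n : ℕ} {x : X} (hx : ‖x‖ < (n : ℝ) + 1) (w w' : X) :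
    fderiv ℝ (fun y => fderiv ℝ (cutoff n : X → ℝ) y w) x w' = 0 := by
  rw [(fs_fderiv_cutoff_eventuallyEq hx w).fderiv_eq]
  simp

variable (𝕜) in
include 𝕜 in
/-- second derivatives of the localised function `cutoff n • f`, read on the ball of radius `n + 1`. -/
theorem fs_second_derivs_cutoff {v : ι → X} {f : X → H} {g : ι → X → H} {F : X → H}
    (h : ∀ j, WD μ (v j) f (g j)) (hf : L2Loc μ f) (hg : ∀ j, L2Loc μ (g j)) (hF : L2Loc μ F)
    (hdiv : HasWeakDiv μ v g F) (n : ℕ) :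
    ∃ k : ι → ι → X → H, (∀ i j, MemLp (k i j) 2 μ) ∧
      (∀ i j (φ : X → ℝ), ContDiff ℝ ∞ φ → HasCompactSupport φ → tsupport φ ⊆ Metric.ball 0 ((n : ℝ) + 1) →
          ∫ x, fderiv ℝ φ x (v i) • g j x ∂μ = - ∫ x, φ x • k i j x ∂μ) ∧
      (∀ i j, k i j =ᵐ[μ] k j i) ∧ ∀ᵐ x ∂μ, ‖x‖ < (n : ℝ) + 1 → ∑ j, k j j x = F x := by
  set χ : X → ℝ := cutoff n with hχdef
  have hχ : ContDiff ℝ ∞ χ := contDiff_cutoff n
  have hχ1 : ContDiff ℝ 1 χ := hχ.of_le (by simp)
  have hχs : HasCompactSupport χ := hasCompactSupport_cutoff n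
  set ψ : ι → X → ℝ := fun j x => fderiv ℝ χ x (v j) with hψdef
  have hψ : ∀ j, ContDiff ℝ ∞ (ψ j) := fun j => fs_contDiff_d hχ (v j)
  have hψ1 : ∀ j, ContDiff ℝ 1 (ψ j) := fun j => (hψ j).of_le (by simp)
  have hψs : ∀ j, HasCompactSupport (ψ j) := fun j => hχs.fderiv_apply (𝕜 := ℝ) (v j)
  have hn : ∀ j, WD2 μ (v j) (fun x => χ x • f x) (fun x => ψ j x • f x + χ x • g j x) := fun j =>
    WD.smul_left_wd2 (h j) hf (hg j) hχ1 hχs
  have divA := hdiv.smul_left (fun j => (hg j).locallyIntegrable) hF.locallyIntegrable hχ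
  have wB : ∀ j, WD μ (v j) (fun x => ψ j x • f x) (fun x => fderiv ℝ (ψ j) x (v j) • f x + ψ j x • g j x) :=
    fun j => WD.smul_left (h j) (hψ1 j)
  have divB := HasWeakDiv.of_wd wB
  have mA : MemLp (fun x => χ x • F x + ∑ j, fderiv ℝ χ x (v j) • g j x) 2 μ :=
    (fs_memLp_smul_of_compact hF hχ.continuous hχs).add (memLp_finsetSum _ fun j _ =>
      fs_memLp_smul_of_compact (hg j) (hψ j).continuous (hψs j))
  have mB : MemLp (fun x => ∑ j, (fderiv ℝ (ψ j) x (v j) • f x + ψ j x • g j x)) 2 μ :=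
    memLp_finsetSum _ fun j _ =>
      (fs_memLp_smul_of_compact hf (fs_cont_d (hψ1 j) (v j)) ((hψs j).fderiv_apply (𝕜 := ℝ) (v j))).add
        (fs_memLp_smul_of_compact (hg j) (hψ j).continuous (hψs j))
  have li : ∀ {u : X → H}, MemLp u 2 μ → LocallyIntegrable u μ := fun hu => hu.locallyIntegrable (by norm_num)
  have divn := divB.add divA (fun j => (wB j).locf)
    (fun j => li (fs_memLp_smul_of_compact (hg j) hχ.continuous hχs)) (li mB) (li mA)
  obtain ⟨k, hk, -, hsym, htr⟩ := exists_second_derivs 𝕜 hn (mB.add mA) divn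
  refine ⟨k, fun i j => (hk i j).memg, ?_, hsym, ?_⟩
  · intro i j φ hφ hc hsub
    rw [← (hk i j).weak φ hφ hc]
    refine integral_congr_ae (Eventually.of_forall fun x => ?_)
    by_cases hx : x ∈ tsupport φ
    · have hx' : ‖x‖ < (n : ℝ) + 1 := by simpa using hsub hx
      simp only [hψdef, hχdef, cutoff_eq_one hx'.le, fs_fderiv_cutoff_eq_zero hx', zero_smul, one_smul, zero_add]
    · simp only [fderiv_of_notMem_tsupport ℝ hx, zero_apply, zero_smul]
  · filter_upwards [htr] with x hx hxn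
    rw [hx]
    simp only [Pi.add_apply, hψdef, hχdef, cutoff_eq_one hxn.le, fs_fderiv_cutoff_eq_zero hxn,
      fs_fderiv_fderiv_cutoff_eq_zero hxn, zero_smul, one_smul, zero_add, add_zero, Finset.sum_const_zero]

variable (𝕜) in
include 𝕜 in
/-- local version (multiply by a cutoff `χ`: `Δ(χ f) = χ F + 2 ∑ ∂ⱼχ gⱼ + (Δχ) f`). -/
theorem exists_second_derivs_loc {v : ι → X} {f : X → H} {g : ι → X → H} {F : X → H}
    (h : ∀ j, WD μ (v j) f (g j)) (hf : L2Loc μ f) (hg : ∀ j, L2Loc μ (g j)) (hF : L2Loc μ F)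
    (hdiv : HasWeakDiv μ v g F) :
    ∃ k : ι → ι → X → H, (∀ i j, WD μ (v i) (g j) (k i j)) ∧ (∀ i j, L2Loc μ (k i j)) ∧
      (∀ i j, k i j =ᵐ[μ] k j i) ∧ ∀ᵐ x ∂μ, ∑ j, k j j x = F x := by
  choose K hK2 hKw hKs hKt using fun n => fs_second_derivs_cutoff 𝕜 h hf hg hF hdiv n
  set N : X → ℕ := fun x => ⌈‖x‖⌉₊ with hNdef
  have hN : ∀ x, ‖x‖ < (N x : ℝ) + 1 := fun x => (Nat.le_ceil _).trans_lt (lt_add_one _)
  have li : ∀ {u : X → H}, MemLp u 2 μ → LocallyIntegrable u μ := fun hu => hu.locallyIntegrable (by norm_num)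
  have hcons : ∀ i j, ∀ᵐ x ∂μ, ∀ p n : ℕ, p ≤ n → ‖x‖ < (p : ℝ) + 1 → K p i j x = K n i j x := by
    intro i j
    rw [ae_all_iff]; intro p
    rw [ae_all_iff]; intro n
    by_cases hpn : p ≤ n
    · have hpn' : (p : ℝ) + 1 ≤ (n : ℝ) + 1 := by
        have : (p : ℝ) ≤ n := by exact_mod_cast hpn
        linarith
      have := (Metric.isOpen_ball (x := (0 : X)) (ε := (p : ℝ) + 1)).ae_eq_zero_of_integral_contDiff_smul_eq_zero
        (μ := μ) (f := fun x => K p i j x - K n i j x)
        (((li (hK2 p i j)).sub (li (hK2 n i j))).locallyIntegrableOn _) (fun φ hφ hc hsub => by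
          simp only [smul_sub]
          rw [integral_sub (fs_int (li (hK2 p i j)) hφ.continuous hc) (fs_int (li (hK2 n i j)) hφ.continuous hc)]
          have a := hKw p i j φ hφ hc hsub
          have b := hKw n i j φ hφ hc (hsub.trans (Metric.ball_subset_ball hpn'))
          rw [a, neg_inj] at b
          rw [b, sub_self])
      filter_upwards [this] with x hx _ hxp
      exact sub_eq_zero.1 (hx (by simpa using hxp))
    · exact Eventually.of_forall fun x hh => absurd hh hpn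
  have hstar : ∀ i j, ∀ᵐ x ∂μ, ∀ n, N x ≤ n → K (N x) i j x = K n i j x := fun i j => by
    filter_upwards [hcons i j] with x hx n hn using hx (N x) n hn (hN x)
  have hbd : ∀ S : Set X, IsCompact S → ∃ n : ℕ, ∀ x ∈ S, N x ≤ n ∧ ‖x‖ < (n : ℝ) + 1 := by
    intro S hS
    obtain ⟨R, hR⟩ := hS.isBounded.subset_closedBall (0 : X)
    obtain ⟨n, hn⟩ := exists_nat_ge R
    refine ⟨n, fun x hx => ?_⟩
    have hx1 : ‖x‖ ≤ n := by
      have := hR hx
      rw [mem_closedBall_zero_iff] at this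
      linarith
    exact ⟨Nat.ceil_le.2 hx1, by linarith⟩
  have hL2 : ∀ i j, L2Loc μ (fun x => K (N x) i j x) := by
    intro i j S hS
    obtain ⟨n, hn⟩ := hbd S hS
    refine ((hK2 n i j).restrict S).ae_eq ?_
    filter_upwards [ae_restrict_of_ae (hstar i j), ae_restrict_mem hS.measurableSet] with x hx hxS
    exact (hx n (hn x hxS).1).symm
  refine ⟨fun i j x => K (N x) i j x, fun i j => ⟨(hg j).locallyIntegrable, (hL2 i j).locallyIntegrable,
    fun φ hφ hc => ?_⟩, hL2, fun i j => ?_, ?_⟩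
  · obtain ⟨n, hn⟩ := hbd (tsupport φ) hc
    rw [hKw n i j φ hφ hc fun x hx => by simpa using (hn x hx).2]
    congr 1
    refine integral_congr_ae ?_
    filter_upwards [hstar i j] with x hx
    by_cases hxs : x ∈ tsupport φ
    · rw [hx n (hn x hxs).1]
    · rw [image_eq_zero_of_notMem_tsupport hxs, zero_smul, zero_smul]
  · filter_upwards [ae_all_iff.2 fun n => hKs n i j] with x hx
    exact hx (N x)
  · filter_upwards [ae_all_iff.2 hKt] with x hx
    exact hx (N x) (hN x)

end G2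

/-! ## LEAF FS-G3: `H²` in the languages of `Statement.lean` -/

section G3

variable {m : ℕ}

/-- `Ψ ∈ H²(ℝ^{3m}; ℂ^{2^m})`. -/
def MemH2 (Ψ : L2 m) : Prop := MemH1 Ψ ∧ ∀ j, MemH1 (weakGrad Ψ j)

/-- the form identity gives the weak divergence of the gradient. -/
theorem fs_hasWeakDiv_of_form {Ψ F : L2 m} (h : MemH1 Ψ)
    (hF : ∀ Ξ : L2 m, MemH1 Ξ → ∑ j, ⟪weakGrad Ξ j, weakGrad Ψ j⟫_ℂ = ⟪Ξ, F⟫_ℂ) :
    HasWeakDiv volume (dir : Fin m × Fin 3 → Config m) (fun j => (weakGrad Ψ j : Config m → SpinSpace m))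
      (fun x => - F x) := by
  intro φ hφ hc
  have hφ1 : ContDiff ℝ 1 φ := hφ.of_le (by simp)
  simp only [smul_neg, integral_neg, neg_neg]
  refine ext_inner_left ℂ fun c => ?_
  set u : Config m → SpinSpace m := fun x => φ x • c with hudef
  have hu : ContDiff ℝ 1 u := hφ1.smul contDiff_const
  have hus : HasCompactSupport u := hc.smul_right
  have hdu : ∀ x w, fderiv ℝ u x w = fderiv ℝ φ x w • c := by
    intro x w
    have h1 : HasFDerivAt u ((fderiv ℝ φ x).smulRight c) x :=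
      ((hφ1.differentiable (by simp)) x).hasFDerivAt.smul_const c
    rw [h1.fderiv]
    rfl
  have mu : MemLp u 2 volume := fs_memLp_C1c hu.continuous hus
  have mdu : ∀ j, MemLp (fun x => fderiv ℝ u x (dir j)) 2 volume := fun j => fs_memLp_d hu hus (dir j)
  have hw : ∀ j, HasWeakDeriv volume (dir j) u (fun x => fderiv ℝ u x (dir j)) := fun j =>
    (HasWeakDeriv.of_contDiff hu (dir j)).weak
  have key := hF (mu.toLp u) (memH1_toLp mu mdu hw)
  rw [weakGrad_toLp mu mdu hw] at key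
  simp only [L2.inner_eq] at key
  have e1 : ∀ j, ∫ x, ⟪((mdu j).toLp _ : L2 m) x, weakGrad Ψ j x⟫_ℂ
      = ⟪c, ∫ x, fderiv ℝ φ x (dir j) • weakGrad Ψ j x⟫_ℂ := by
    intro j
    rw [← integral_inner (fs_int_d (L2.locallyIntegrable _) hφ1 hc (dir j)) c]
    refine integral_congr_ae ?_
    filter_upwards [(mdu j).coeFn_toLp] with x hx
    rw [hx, hdu, fs_inner_smul_left, fs_inner_smul_right]
  have e2 : ∫ x, ⟪(mu.toLp u : L2 m) x, F x⟫_ℂ = ⟪c, ∫ x, φ x • F x⟫_ℂ := by
    rw [← integral_inner (fs_int (L2.locallyIntegrable _) hφ.continuous hc) c]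
    refine integral_congr_ae ?_
    filter_upwards [mu.coeFn_toLp] with x hx
    rw [hx, hudef, fs_inner_smul_left, fs_inner_smul_right]
  rw [inner_sum]
  simp only [← e1]
  rw [key, e2]

/-- `-ΔΨ = F` in the form sense, tested with all of `H¹`  ⇒  `Ψ ∈ H²`. -/
theorem memH2_of_form {Ψ F : L2 m} (h : MemH1 Ψ)
    (hF : ∀ Ξ : L2 m, MemH1 Ξ → ∑ j, ⟪weakGrad Ξ j, weakGrad Ψ j⟫_ℂ = ⟪Ξ, F⟫_ℂ) :
    MemH2 Ψ ∧ (∀ i j, ‖weakGrad (weakGrad Ψ j) i‖ ≤ ‖F‖) ∧ ∑ j, weakGrad (weakGrad Ψ j) j = -F := by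
  have hdiv := fs_hasWeakDiv_of_form h hF
  have hFm : MemLp (fun x => - F x) 2 volume := (L2.memLp F).neg
  obtain ⟨k, hk, hkb, -, htr⟩ := exists_second_derivs ℂ (fun j => h.wd2 j) hFm hdiv
  have hG : ∀ j, IsWeakGradient (weakGrad Ψ j) (fun i => (hk i j).memg.toLp (k i j)) := by
    intro j
    rw [isWeakGradient_iff_wd2]
    intro i
    exact ⟨L2.memLp _, L2.memLp _,
      ((hk i j).wd.congr_ae (ae_eq_refl _) (hk i j).memg.coeFn_toLp.symm).weak⟩
  have hwg : ∀ i j, weakGrad (weakGrad Ψ j) i = (hk i j).memg.toLp (k i j) := fun i j =>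
    congrFun (hG j).weakGrad_eq i
  refine ⟨⟨h, fun j => ⟨_, hG j⟩⟩, fun i j => ?_, ?_⟩
  · rw [hwg]
    have h1 : ‖(hk i j).memg.toLp (k i j)‖ ^ 2 ≤ ‖F‖ ^ 2 := by
      rw [L2.norm_toLp_sq, L2.norm_sq_eq]
      simpa only [norm_neg] using hkb i j
    exact (pow_le_pow_iff_left₀ (norm_nonneg _) (norm_nonneg _) two_ne_zero).1 h1
  · simp only [hwg]
    apply Lp.ext
    filter_upwards [Lp.coeFn_fun_finsetSum Finset.univ (fun j => (hk j j).memg.toLp (k j j)), Lp.coeFn_neg F, htr,
      ae_all_iff.2 (fun j => (hk j j).memg.coeFn_toLp)] with x h1 h2 h3 h4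
    rw [h1, h2, Pi.neg_apply, ← h3]
    exact Finset.sum_congr rfl fun j _ => h4 j

/-- it suffices to test with `C¹_c` functions. -/
theorem form_of_contDiff {Ψ F : L2 m} (h : MemH1 Ψ)
    (hF : ∀ u : Config m → SpinSpace m, ContDiff ℝ 1 u → HasCompactSupport u →
      ∑ j, ∫ x, ⟪fderiv ℝ u x (dir j), weakGrad Ψ j x⟫_ℂ = ∫ x, ⟪u x, F x⟫_ℂ) :
    ∀ Ξ : L2 m, MemH1 Ξ → ∑ j, ⟪weakGrad Ξ j, weakGrad Ψ j⟫_ℂ = ⟪Ξ, F⟫_ℂ := by
  intro Ξ hΞ
  obtain ⟨u, hu, hc, U, hU, hUH, hUg, hUt, hUgt⟩ := hΞ.exists_seq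
  have key : ∀ n, ∑ j, ⟪weakGrad (U n) j, weakGrad Ψ j⟫_ℂ = ⟪U n, F⟫_ℂ := by
    intro n
    simp only [L2.inner_eq]
    have e1 : ∀ j, ∫ x, ⟪weakGrad (U n) j x, weakGrad Ψ j x⟫_ℂ
        = ∫ x, ⟪fderiv ℝ (u n) x (dir j), weakGrad Ψ j x⟫_ℂ := fun j =>
      integral_congr_ae ((hUg n j).mono fun x hx => by simp only [hx])
    have e2 : ∫ x, ⟪U n x, F x⟫_ℂ = ∫ x, ⟪u n x, F x⟫_ℂ :=
      integral_congr_ae ((hU n).mono fun x hx => by simp only [hx])
    simp only [e1]
    rw [e2]
    exact hF (u n) (hu n) (hc n)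
  have t1 : Tendsto (fun n => ∑ j, ⟪weakGrad (U n) j, weakGrad Ψ j⟫_ℂ) atTop
      (𝓝 (∑ j, ⟪weakGrad Ξ j, weakGrad Ψ j⟫_ℂ)) :=
    tendsto_finsetSum _ fun j _ => (hUgt j).inner tendsto_const_nhds
  have t2 : Tendsto (fun n => ⟪U n, F⟫_ℂ) atTop (𝓝 ⟪Ξ, F⟫_ℂ) := hUt.inner tendsto_const_nhds
  simp only [key] at t1
  exact tendsto_nhds_unique t1 t2

theorem MemH2.weakGrad_comm {Ψ : L2 m} (h : MemH2 Ψ) (i j : Fin m × Fin 3) :
    weakGrad (weakGrad Ψ j) i = weakGrad (weakGrad Ψ i) j :=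
  Lp.ext (((h.2 j).wd2 i).wd.unique (WD.comm (h.1.wd2 i).wd (h.1.wd2 j).wd ((h.2 i).wd2 j).wd))

/-- `f ∈ H²(ℝ³)`: gradient `F`, rows `S a = ∇ (F · a)` of the Hessian. -/
structure IsH2 (f : Space → ℝ) (F : Space → Space) (S : Fin 3 → Space → Space) : Prop where
  h1 : IsH1 f F
  h2 : ∀ a, IsH1 (fun x => F x a) (S a)

theorem fs_space_eq_sum (y : Space) : y = ∑ a, y a • eA a := by
  ext b
  simp [Finset.sum_apply, Pi.single_apply]

/-- the weak equation `-Δ f = w` as a weak divergence. -/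
theorem fs_hasWeakDiv_of_laplacian {w : Space → ℝ} {F : Space → Space} (hF : LocallyIntegrable F volume)
    (heq : ∀ φ : Space → ℝ, ContDiff ℝ ∞ φ → HasCompactSupport φ →
      ∫ x, ⟪F x, gradient φ x⟫_ℝ = ∫ x, w x * φ x) :
    HasWeakDiv volume eA (fun a x => F x a) (fun x => - w x) := by
  intro φ hφ hc
  have hφ1 : ContDiff ℝ 1 φ := hφ.of_le (by simp)
  have hFa : ∀ a : Fin 3, LocallyIntegrable (fun x => F x a) volume := fun a =>
    fs_li_clm hF (EuclideanSpace.proj a : Space →L[ℝ] ℝ)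
  rw [← integral_finsetSum _ fun a _ => fs_int_d (hFa a) hφ1 hc (eA a)]
  simp only [smul_eq_mul, mul_neg, integral_neg, neg_neg]
  have e : ∀ x, ∑ a, fderiv ℝ φ x (eA a) * F x a = ⟪F x, gradient φ x⟫_ℝ := by
    intro x
    rw [real_inner_comm, inner_gradient_left]
    conv_rhs => rw [fs_space_eq_sum (F x), map_sum]
    simp only [map_smul, smul_eq_mul, mul_comm]
  simp only [e]
  rw [heq φ hφ hc]
  simp only [mul_comm]

/-- `f ∈ H¹(ℝ³)`, `-Δ f = w ∈ L²` weakly  ⇒  `f ∈ H²`. -/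
theorem IsH1.isH2_of_laplacian {f w : Space → ℝ} {F : Space → Space} (h : IsH1 f F) (hw : MemLp w 2 volume)
    (heq : ∀ φ : Space → ℝ, ContDiff ℝ ∞ φ → HasCompactSupport φ →
      ∫ x, ⟪F x, gradient φ x⟫_ℝ = ∫ x, w x * φ x) :
    ∃ S : Fin 3 → Space → Space, IsH2 f F S ∧ (∀ a, ∫ x, ‖S a x‖ ^ 2 ≤ 3 * ∫ x, w x ^ 2) ∧
      (∀ a b, ∀ᵐ x, S a x b = S b x a) ∧ ∀ᵐ x, ∑ a, S a x a = - w x := by
  have hdiv := fs_hasWeakDiv_of_laplacian (h.2.1.locallyIntegrable (by norm_num)) heq
  have hwn : MemLp (fun x => - w x) 2 volume := hw.neg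
  obtain ⟨k, hk, hkb, hsym, htr⟩ := exists_second_derivs ℝ (fun a => h.wd2_coord a) hwn hdiv
  refine ⟨fun b x => WithLp.toLp 2 fun a => k a b x, ⟨h, fun b => isH1_of_coord fun a => hk a b⟩,
    fun b => ?_, fun a b => ?_, ?_⟩
  · rw [integral_norm_sq_eq_sum_coord (isH1_of_coord fun a => hk a b).2.1]
    calc ∑ a, ∫ x, (k a b x) ^ 2 ≤ ∑ _a : Fin 3, ∫ x, w x ^ 2 :=
          Finset.sum_le_sum fun a _ => by simpa only [Real.norm_eq_abs, sq_abs, abs_neg] using hkb a b
      _ = 3 * ∫ x, w x ^ 2 := by simp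
  · filter_upwards [hsym b a] with x hx
    exact hx
  · filter_upwards [htr] with x hx
    exact hx

theorem fs_l2Loc_toLp {k : Fin 3 → Space → ℝ} (hk : ∀ a, L2Loc volume (k a)) :
    L2Loc volume (fun x => (WithLp.toLp 2 fun a => k a x : Space)) := by
  intro K hK
  have e : ∀ x, (WithLp.toLp 2 fun a => k a x : Space) = ∑ a, k a x • eA a := fun x => fs_space_eq_sum _
  simp only [e]
  exact memLp_finsetSum _ fun a _ =>
    (ContinuousLinearMap.toSpanSingleton ℝ (eA a)).comp_memLp' (hk a K hK)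

/-- local version. -/
theorem IsWeakGrad.h2loc_of_laplacian {f w : Space → ℝ} {F : Space → Space} (h : IsWeakGrad f F)
    (hf : L2Loc volume f) (hF : L2Loc volume F) (hw : L2Loc volume w)
    (heq : ∀ φ : Space → ℝ, ContDiff ℝ ∞ φ → HasCompactSupport φ →
      ∫ x, ⟪F x, gradient φ x⟫_ℝ = ∫ x, w x * φ x) :
    ∃ S : Fin 3 → Space → Space, (∀ a, IsWeakGrad (fun x => F x a) (S a)) ∧ (∀ a, L2Loc volume (S a)) ∧
      (∀ a b, ∀ᵐ x, S a x b = S b x a) ∧ ∀ᵐ x, ∑ a, S a x a = - w x := by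
  have hdiv := fs_hasWeakDiv_of_laplacian hF.locallyIntegrable heq
  have hwn : L2Loc volume (fun x => - w x) := fun K hK => (hw K hK).neg
  have hFa : ∀ a : Fin 3, L2Loc volume (fun x => F x a) := fun a K hK =>
    (EuclideanSpace.proj a : Space →L[ℝ] ℝ).comp_memLp' (hF K hK)
  obtain ⟨k, hk, hk2, hsym, htr⟩ := exists_second_derivs_loc ℝ (fun a => h.wd_coord a) hf hFa hwn hdiv
  refine ⟨fun b x => WithLp.toLp 2 fun a => k a b x, fun b => isWeakGrad_of_coord fun a => hk a b,
    fun b => fs_l2Loc_toLp fun a => hk2 a b, fun a b => ?_, ?_⟩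
  · filter_upwards [hsym b a] with x hx
    exact hx
  · filter_upwards [htr] with x hx
    exact hx

/-- the gradient of an `H²` function is in `L⁶`. -/
theorem IsH2.grad_memLp_six {f : Space → ℝ} {F : Space → Space} {S : Fin 3 → Space → Space} (h : IsH2 f F S) :
    MemLp F 6 volume := by
  have e : F = fun x => ∑ a, F x a • eA a := funext fun x => fs_space_eq_sum _
  rw [e]
  exact memLp_finsetSum _ fun a _ =>
    (ContinuousLinearMap.toSpanSingleton ℝ (eA a)).comp_memLp' (h.h2 a).sobolev.1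

end G3

/-! ## LEAF FS-T1: the trace on the plane `z = 0` -/

section T1

/-- the point `(q₁, q₂, z)`. -/
def planePt (q : ℝ × ℝ) (z : ℝ) : Space := !₂[q.1, q.2, z]

/-- `ℝ² × ℝ ≃ ℝ³` as a measurable equivalence. -/
def fstPlaneEquiv : (ℝ × ℝ) × ℝ ≃ᵐ Space :=
  (((MeasurableEquiv.prodCongr (MeasurableEquiv.finTwoArrow (α := ℝ)).symm (MeasurableEquiv.refl ℝ)).trans
    MeasurableEquiv.prodComm).trans
      (MeasurableEquiv.piFinSuccAbove (fun _ : Fin 3 => ℝ) 2).symm).trans (MeasurableEquiv.toLp 2 (Fin 3 → ℝ))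

theorem fstPlaneEquiv_apply (p : (ℝ × ℝ) × ℝ) : fstPlaneEquiv p = planePt p.1 p.2 := by
  have e0 : (0 : Fin 3) = (2 : Fin 3).succAbove (0 : Fin 2) := rfl
  have e1 : (1 : Fin 3) = (2 : Fin 3).succAbove (1 : Fin 2) := rfl
  have h0 : Fin.insertNth (α := fun _ : Fin 3 => ℝ) 2 p.2 ![p.1.1, p.1.2] 0 = p.1.1 := by
    rw [e0, Fin.insertNth_apply_succAbove]; rfl
  have h1 : Fin.insertNth (α := fun _ : Fin 3 => ℝ) 2 p.2 ![p.1.1, p.1.2] 1 = p.1.2 := by
    rw [e1, Fin.insertNth_apply_succAbove]; rfl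
  ext i
  fin_cases i <;>
    simp [fstPlaneEquiv, planePt, MeasurableEquiv.piFinSuccAbove, Fin.insertNthEquiv, MeasurableEquiv.prodComm,
      MeasurableEquiv.finTwoArrow, MeasurableEquiv.prodCongr, h0, h1]

theorem fstPlaneEquiv_measurePreserving : MeasurePreserving fstPlaneEquiv volume volume := by
  have h1 : MeasurePreserving (MeasurableEquiv.prodCongr (MeasurableEquiv.finTwoArrow (α := ℝ)).symm
      (MeasurableEquiv.refl ℝ)) volume volume :=
    (volume_preserving_finTwoArrow ℝ).symm.prod (MeasurePreserving.id volume)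
  have h2 : MeasurePreserving (MeasurableEquiv.prodComm : (Fin 2 → ℝ) × ℝ ≃ᵐ ℝ × (Fin 2 → ℝ)) volume volume :=
    Measure.measurePreserving_swap
  have h3 := (volume_preserving_piFinSuccAbove (fun _ : Fin 3 => ℝ) 2).symm
  have h4 := PiLp.volume_preserving_toLp (Fin 3)
  exact h4.comp (h3.comp (h2.comp h1))

/-- Fubini for `ℝ³ = ℝ² × ℝ`. -/
theorem integral_space_eq_plane {E' : Type*} [NormedAddCommGroup E'] [NormedSpace ℝ E'] (u : Space → E') :
    ∫ x, u x = ∫ p : (ℝ × ℝ) × ℝ, u (planePt p.1 p.2) := by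
  have := fstPlaneEquiv_measurePreserving.integral_comp fstPlaneEquiv.measurableEmbedding u
  simpa only [fstPlaneEquiv_apply] using this.symm

theorem measurePreserving_planePt :
    MeasurePreserving (fun p : (ℝ × ℝ) × ℝ => planePt p.1 p.2) volume volume := by
  have := fstPlaneEquiv_measurePreserving
  have e : (fstPlaneEquiv : (ℝ × ℝ) × ℝ → Space) = fun p => planePt p.1 p.2 := funext fstPlaneEquiv_apply
  rwa [e] at this

theorem fst_planePt_eq (q : ℝ × ℝ) (z : ℝ) :
    planePt q z = q.1 • EuclideanSpace.single 0 1 + q.2 • EuclideanSpace.single 1 1 + z • ez := by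
  apply space_ext <;> simp [planePt, ez]

theorem fst_continuous_planePt : Continuous fun p : (ℝ × ℝ) × ℝ => planePt p.1 p.2 := by
  simp only [fst_planePt_eq]
  fun_prop

theorem fst_hasDerivAt_planePt (q : ℝ × ℝ) (z : ℝ) : HasDerivAt (fun z => planePt q z) ez z := by
  simp only [fst_planePt_eq]
  have := ((hasDerivAt_id z).smul_const ez).const_add
    (q.1 • (EuclideanSpace.single 0 1 : Space) + q.2 • EuclideanSpace.single 1 1)
  simpa using this

theorem fst_abs_le_norm (q : ℝ × ℝ) (z : ℝ) : |z| ≤ ‖planePt q z‖ :=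
  PiLp.norm_apply_le (planePt q z) 2

theorem fst_norm_le_norm (q : ℝ × ℝ) (z : ℝ) : ‖q‖ ≤ ‖planePt q z‖ :=
  max_le (PiLp.norm_apply_le (planePt q z) 0) (PiLp.norm_apply_le (planePt q z) 1)

theorem trace_plane_of_contDiff {u : Space → ℝ} (hu : ContDiff ℝ 1 u) (hc : HasCompactSupport u) (z₀ : ℝ) :
    ∫ q : ℝ × ℝ, u (planePt q z₀) ^ 2
      ≤ ∫ x in {x : Space | z₀ < x 2}, (u x ^ 2 + fderiv ℝ u x ez ^ 2) := by
  obtain ⟨R, hR⟩ := hc.isCompact.isBounded.exists_norm_le
  have hu0 : ∀ x : Space, R < ‖x‖ → u x = 0 := fun x hx =>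
    image_eq_zero_of_notMem_tsupport fun hxs => absurd (hR x hxs) (not_le.2 hx)
  have hd0 : ∀ x : Space, R < ‖x‖ → fderiv ℝ u x ez = 0 := fun x hx => by
    have : x ∉ tsupport (fderiv ℝ u) := fun h' =>
      absurd (hR x (tsupport_fderiv_subset ℝ h')) (not_le.2 hx)
    rw [image_eq_zero_of_notMem_tsupport this]
    rfl
  have hcu : Continuous u := hu.continuous
  have hcd : Continuous fun x => fderiv ℝ u x ez := fs_cont_d hu ez
  set G : Space → ℝ := fun x => u x ^ 2 + fderiv ℝ u x ez ^ 2 with hG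
  have hGc : Continuous G := (hcu.pow 2).add (hcd.pow 2)
  have hG0 : ∀ x : Space, R < ‖x‖ → G x = 0 := fun x hx => by
    simp only [hG, hu0 x hx, hd0 x hx]; norm_num
  have hGi : Integrable G := hGc.integrable_of_hasCompactSupport
    (HasCompactSupport.intro (isCompact_closedBall (0 : Space) R) fun x hx =>
      hG0 x (by simpa [mem_closedBall_zero_iff] using hx))
  have hline : ∀ q : ℝ × ℝ, Continuous fun z => planePt q z := fun q =>
    fst_continuous_planePt.comp (continuous_const.prodMk continuous_id)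
  -- Step A: the one dimensional inequality
  have hA : ∀ q : ℝ × ℝ, u (planePt q z₀) ^ 2 ≤ ∫ z in Ioi z₀, G (planePt q z) := by
    intro q
    have hcs : ∀ (w : Space → ℝ), Continuous w → (∀ x : Space, R < ‖x‖ → w x = 0) →
        Integrable fun z => w (planePt q z) := fun w hw hw0 =>
      (hw.comp (hline q)).integrable_of_hasCompactSupport
        (HasCompactSupport.intro (isCompact_closedBall (0 : ℝ) R) fun z hz =>
          hw0 _ (lt_of_lt_of_le (by simpa [mem_closedBall_zero_iff] using hz) (fst_abs_le_norm q z)))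
    have hder : ∀ z ∈ Ioi z₀, HasDerivAt (fun z => u (planePt q z) ^ 2)
        (2 * u (planePt q z) * fderiv ℝ u (planePt q z) ez) z := by
      intro z _
      have h1 : HasDerivAt (fun z => u (planePt q z)) (fderiv ℝ u (planePt q z) ez) z :=
        ((hu.differentiable one_ne_zero) (planePt q z)).hasFDerivAt.comp_hasDerivAt z
          (fst_hasDerivAt_planePt q z)
      have h2 : HasDerivAt (fun z => u (planePt q z) ^ 2)
          (((2 : ℕ) : ℝ) * u (planePt q z) ^ (2 - 1) * fderiv ℝ u (planePt q z) ez) z := h1.fun_pow 2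
      simpa using h2
    have hint : Integrable fun z => 2 * u (planePt q z) * fderiv ℝ u (planePt q z) ez :=
      hcs (fun x => 2 * u x * fderiv ℝ u x ez) ((continuous_const.mul hcu).mul hcd) fun x hx => by
        simp only [hu0 x hx]; norm_num
    have hlim : Tendsto (fun z => u (planePt q z) ^ 2) atTop (𝓝 0) := by
      refine tendsto_const_nhds.congr' ?_
      filter_upwards [eventually_gt_atTop R] with z hz
      rw [hu0 _ (lt_of_lt_of_le (hz.trans_le (le_abs_self z)) (fst_abs_le_norm q z))]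
      norm_num
    have hcq : Continuous fun z => u (planePt q z) ^ 2 := (hcu.comp (hline q)).pow 2
    have hftc := integral_Ioi_of_hasDerivAt_of_tendsto hcq.continuousWithinAt hder hint.integrableOn hlim
    have e : u (planePt q z₀) ^ 2 = ∫ z in Ioi z₀, -(2 * u (planePt q z) * fderiv ℝ u (planePt q z) ez) := by
      rw [integral_neg, hftc]; ring
    rw [e]
    refine setIntegral_mono hint.neg.integrableOn (hcs G hGc hG0).integrableOn fun z => ?_
    simp only [hG]
    nlinarith [sq_nonneg (u (planePt q z) + fderiv ℝ u (planePt q z) ez)]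
  -- Step B: Fubini
  have hΦ : Integrable (fun p : (ℝ × ℝ) × ℝ => G (planePt p.1 p.2)) (volume : Measure ((ℝ × ℝ) × ℝ)) := by
    have := (fstPlaneEquiv_measurePreserving.integrable_comp_emb fstPlaneEquiv.measurableEmbedding).2 hGi
    simpa only [Function.comp_def, fstPlaneEquiv_apply] using this
  have hΦ' : Integrable (fun p : (ℝ × ℝ) × ℝ => G (planePt p.1 p.2))
      ((volume : Measure (ℝ × ℝ)).prod ((volume : Measure ℝ).restrict (Ioi z₀))) := by
    have h1 : IntegrableOn (fun p : (ℝ × ℝ) × ℝ => G (planePt p.1 p.2)) (univ ×ˢ Ioi z₀)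
        ((volume : Measure (ℝ × ℝ)).prod (volume : Measure ℝ)) := hΦ.integrableOn
    rw [IntegrableOn, ← Measure.prod_restrict, Measure.restrict_univ] at h1
    exact h1
  have hqc : Continuous fun q : ℝ × ℝ => u (planePt q z₀) ^ 2 :=
    (hcu.comp (fst_continuous_planePt.comp (continuous_id.prodMk continuous_const))).pow 2
  have hq : Integrable fun q : ℝ × ℝ => u (planePt q z₀) ^ 2 :=
    hqc.integrable_of_hasCompactSupport
      (HasCompactSupport.intro (isCompact_closedBall (0 : ℝ × ℝ) R) fun q hq => by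
        have : R < ‖q‖ := by simpa [mem_closedBall_zero_iff] using hq
        rw [hu0 _ (this.trans_le (fst_norm_le_norm q z₀))]
        norm_num)
  calc ∫ q : ℝ × ℝ, u (planePt q z₀) ^ 2 ≤ ∫ q : ℝ × ℝ, ∫ z in Ioi z₀, G (planePt q z) :=
        integral_mono hq hΦ'.integral_prod_left hA
    _ = ∫ p, G (planePt p.1 p.2) ∂((volume : Measure (ℝ × ℝ)).prod ((volume : Measure ℝ).restrict (Ioi z₀))) :=
        (integral_prod _ hΦ').symm
    _ = ∫ p in (fstPlaneEquiv ⁻¹' {x : Space | z₀ < x 2}), G (fstPlaneEquiv p) := by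
        have e : (fstPlaneEquiv ⁻¹' {x : Space | z₀ < x 2}) = univ ×ˢ Ioi z₀ := by
          ext p
          simp only [mem_preimage, fstPlaneEquiv_apply, mem_ofPred_eq, mem_prod, mem_univ, true_and, mem_Ioi]
          rfl
        rw [e]
        simp only [fstPlaneEquiv_apply]
        conv_rhs => rw [Measure.volume_eq_prod, ← Measure.prod_restrict, Measure.restrict_univ]
    _ = ∫ x in {x : Space | z₀ < x 2}, G x :=
        fstPlaneEquiv_measurePreserving.setIntegral_preimage_emb fstPlaneEquiv.measurableEmbedding _ _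

/-- Fatou's lemma with bounds converging to `B`. -/
theorem fst_fatou_tendsto {α : Type*} [MeasurableSpace α] {ν : Measure α} {F : α → ℝ} {Fn : ℕ → α → ℝ}
    {β : ℕ → ℝ} {B : ℝ} (hFm : AEStronglyMeasurable F ν) (hF0 : ∀ x, 0 ≤ F x) (hFn : ∀ n, Integrable (Fn n) ν)
    (hFn0 : ∀ n x, 0 ≤ Fn n x) (hB : ∀ n, ∫ x, Fn n x ∂ν ≤ β n) (hβ : Tendsto β atTop (𝓝 B))
    (hlim : ∀ x, Tendsto (fun n => Fn n x) atTop (𝓝 (F x))) :
    Integrable F ν ∧ ∫ x, F x ∂ν ≤ B := by
  have key : ∀ ε > 0, Integrable F ν ∧ ∫ x, F x ∂ν ≤ B + ε := by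
    intro ε hε
    obtain ⟨N, hN⟩ := eventually_atTop.1 (hβ.eventually (eventually_lt_nhds (lt_add_of_pos_right B hε)))
    exact fsh_fatou hFm hF0 (fun n => hFn (n + N)) (fun n => hFn0 (n + N))
      (fun n => (hB _).trans (hN _ (Nat.le_add_left _ _)).le)
      (fun x _ => (hlim x).comp (tendsto_add_atTop_nat N))
  exact ⟨(key 1 one_pos).1, le_of_forall_pos_le_add fun ε hε => (key ε hε).2⟩

/-- the elementary inequality behind the cutoff estimate. -/
theorem fst_cut_ineq {K C0 s c p d : ℝ} (hK : 1 ≤ K) (hs : |s| ≤ K⁻¹ * C0) (hc0 : 0 ≤ c) (hc1 : c ≤ 1) :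
    (s * p + c * d) ^ 2 ≤ (1 + K⁻¹) * d ^ 2 + 2 * K⁻¹ * C0 ^ 2 * p ^ 2 := by
  have hK0 : 0 < K := by linarith
  have hη : 0 < K⁻¹ := inv_pos.2 hK0
  have hη1 : K⁻¹ ≤ 1 := inv_le_one_of_one_le₀ hK
  have hKη : K * K⁻¹ = 1 := mul_inv_cancel₀ hK0.ne'
  have h1 : 2 * (s * p) * (c * d) ≤ K * (s * p) ^ 2 + K⁻¹ * (c * d) ^ 2 := by
    have h := mul_nonneg hη.le (sq_nonneg (K * (s * p) - c * d))
    have e : K⁻¹ * (K * (s * p) - c * d) ^ 2
        = (K * K⁻¹) * K * (s * p) ^ 2 - 2 * (K * K⁻¹) * (s * p) * (c * d) + K⁻¹ * (c * d) ^ 2 := by ring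
    rw [e, hKη] at h
    linarith
  have h2 : s ^ 2 ≤ (K⁻¹ * C0) ^ 2 := by
    rw [← sq_abs s]
    exact pow_le_pow_left₀ (abs_nonneg _) hs 2
  have h3 : (s * p) ^ 2 ≤ (K⁻¹ * C0) ^ 2 * p ^ 2 := by
    rw [mul_pow]
    exact mul_le_mul_of_nonneg_right h2 (sq_nonneg _)
  have h4 : (c * d) ^ 2 ≤ d ^ 2 := by
    rw [mul_pow]
    have : c ^ 2 ≤ 1 := by nlinarith
    nlinarith [sq_nonneg d]
  have h5 : K * (s * p) ^ 2 ≤ K⁻¹ * C0 ^ 2 * p ^ 2 := by
    have := mul_le_mul_of_nonneg_left h3 hK0.le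
    have e : K * ((K⁻¹ * C0) ^ 2 * p ^ 2) = (K * K⁻¹) * K⁻¹ * C0 ^ 2 * p ^ 2 := by ring
    rw [e, hKη] at this
    linarith
  have h6 : (s * p) ^ 2 ≤ K⁻¹ * C0 ^ 2 * p ^ 2 := by
    have e : (K⁻¹ * C0) ^ 2 * p ^ 2 = K⁻¹ * (K⁻¹ * (C0 ^ 2 * p ^ 2)) := by ring
    rw [e] at h3
    have : K⁻¹ * (C0 ^ 2 * p ^ 2) ≤ 1 * (C0 ^ 2 * p ^ 2) :=
      mul_le_mul_of_nonneg_right hη1 (by positivity)
    have := mul_le_mul_of_nonneg_left this hη.le
    linarith
  have h7 : K⁻¹ * (c * d) ^ 2 ≤ K⁻¹ * d ^ 2 := mul_le_mul_of_nonneg_left h4 hη.le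
  have e : (s * p + c * d) ^ 2 = (s * p) ^ 2 + 2 * (s * p) * (c * d) + (c * d) ^ 2 := by ring
  rw [e]
  linarith

/-- **trace inequality** for continuous `H¹` functions (cutoff + mollify: locally uniform convergence, then Fatou). -/
theorem IsH1.trace_plane {f : Space → ℝ} {F : Space → Space} (h : IsH1 f F) (hc : Continuous f) (z₀ : ℝ) :
    Integrable (fun q : ℝ × ℝ => f (planePt q z₀) ^ 2) ∧
      ∫ q : ℝ × ℝ, f (planePt q z₀) ^ 2 ≤ (∫ x, f x ^ 2) + ∫ x, ‖F x‖ ^ 2 := by
  have hwd : WD2 volume ez f (fun x => ⟪F x, ez⟫_ℝ) := (isH1_iff_wd2.1 h).2 ez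
  obtain ⟨C0, hC0, hC⟩ := exists_fderiv_cutBump_bound (X := Space) ez
  set v : ℕ → Space → ℝ := fun n => moll volume (mollSeq volume n) f with hv
  set w : ℕ → Space → ℝ := fun n => moll volume (mollSeq volume n) (fun x => ⟪F x, ez⟫_ℝ) with hw
  have hloc : LocallyIntegrable f volume := hwd.memf.locallyIntegrable (by norm_num)
  have hv1 : ∀ n, ContDiff ℝ 1 (v n) := fun n =>
    (contDiff_moll (contDiff_mollSeq _) (hasCompactSupport_mollSeq _) hloc).of_le fs_one_le
  have hv2 : ∀ n, MemLp (v n) 2 volume ∧ ∫ x, ‖v n x‖ ^ 2 ≤ ∫ x, ‖f x‖ ^ 2 := fun n =>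
    memLp_moll (continuous_mollSeq _) (hasCompactSupport_mollSeq _) (mollSeq_nonneg _) (integral_mollSeq _)
      hwd.memf
  have hw2 : ∀ n, MemLp (w n) 2 volume ∧ ∫ x, ‖w n x‖ ^ 2 ≤ ∫ x, ‖⟪F x, ez⟫_ℝ‖ ^ 2 := fun n =>
    memLp_moll (continuous_mollSeq _) (hasCompactSupport_mollSeq _) (mollSeq_nonneg _) (integral_mollSeq _)
      hwd.memg
  have hvw : ∀ n x, fderiv ℝ (v n) x ez = w n x := fun n x =>
    fderiv_moll (contDiff_mollSeq _) (hasCompactSupport_mollSeq _) hloc hwd.weak x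
  simp only [Real.norm_eq_abs, sq_abs] at hv2 hw2
  set u : ℕ → Space → ℝ := fun n x => cutoff n x * v n x with hu
  have hχ1 : ∀ n, ContDiff ℝ 1 (cutoff n : Space → ℝ) := fun n => (contDiff_cutoff n).of_le fs_one_le
  have hu1 : ∀ n, ContDiff ℝ 1 (u n) := fun n => (hχ1 n).mul (hv1 n)
  have huc : ∀ n, HasCompactSupport (u n) := fun n => (hasCompactSupport_cutoff n).mul_right
  have hud : ∀ n x, fderiv ℝ (u n) x ez = fderiv ℝ (cutoff n) x ez * v n x + cutoff n x * w n x := by
    intro n x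
    have h1 := (((hχ1 n).differentiable one_ne_zero) x).hasFDerivAt.mul
      (((hv1 n).differentiable one_ne_zero) x).hasFDerivAt
    have h2 : fderiv ℝ (u n) x = cutoff n x • fderiv ℝ (v n) x + v n x • fderiv ℝ (cutoff n) x := h1.fderiv
    rw [h2]
    simp only [add_apply, smul_apply, smul_eq_mul, hvw]
    ring
  set A : ℝ := ∫ x, f x ^ 2 with hA
  set Bz : ℝ := ∫ x, ⟪F x, ez⟫_ℝ ^ 2 with hBz
  have hBzle : Bz ≤ ∫ x, ‖F x‖ ^ 2 := by
    refine integral_mono hwd.memg.integrable_sq (fsc_int_sq h.2.1) fun x => ?_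
    have h1 : |⟪F x, ez⟫_ℝ| ≤ ‖F x‖ := by
      have := abs_real_inner_le_norm (F x) ez
      have hez : ‖ez‖ = 1 := by simp [ez]
      rwa [hez, mul_one] at this
    rw [← sq_abs]
    exact pow_le_pow_left₀ (abs_nonneg _) h1 2
  set β : ℕ → ℝ := fun n => (1 + 2 * (1 / ((n : ℝ) + 1)) * C0 ^ 2) * A + (1 + 1 / ((n : ℝ) + 1)) * Bz with hβ
  have hβlim : Tendsto β atTop (𝓝 (A + Bz)) := by
    have h0 := tendsto_one_div_add_atTop_nhds_zero_nat (𝕜 := ℝ)
    have h1 := ((((h0.const_mul 2).mul_const (C0 ^ 2)).const_add 1).mul_const A).add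
      ((h0.const_add 1).mul_const Bz)
    have h2 : (1 + 2 * 0 * C0 ^ 2) * A + (1 + 0) * Bz = A + Bz := by ring
    rw [h2] at h1
    exact h1
  have hbound : ∀ n, ∫ q : ℝ × ℝ, u n (planePt q z₀) ^ 2 ≤ β n := by
    intro n
    have hK : (1 : ℝ) ≤ (n : ℝ) + 1 := by
      have : (0 : ℝ) ≤ n := Nat.cast_nonneg n
      linarith
    have i1 : Integrable (fun x => u n x ^ 2 + fderiv ℝ (u n) x ez ^ 2) := by
      have hcont : Continuous (fun x => u n x ^ 2 + fderiv ℝ (u n) x ez ^ 2) :=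
        ((hu1 n).continuous.pow 2).add ((fs_cont_d (hu1 n) ez).pow 2)
      refine hcont.integrable_of_hasCompactSupport (HasCompactSupport.intro (huc n).isCompact fun x hx => ?_)
      have h1 : u n x = 0 := image_eq_zero_of_notMem_tsupport hx
      have h2 : fderiv ℝ (u n) x = 0 :=
        image_eq_zero_of_notMem_tsupport fun h' => hx (tsupport_fderiv_subset ℝ h')
      rw [h1, h2]
      simp
    have i2 : Integrable (fun x => (1 + 2 * (1 / ((n : ℝ) + 1)) * C0 ^ 2) * v n x ^ 2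
        + (1 + 1 / ((n : ℝ) + 1)) * w n x ^ 2) :=
      ((hv2 n).1.integrable_sq.const_mul _).add ((hw2 n).1.integrable_sq.const_mul _)
    calc ∫ q : ℝ × ℝ, u n (planePt q z₀) ^ 2
        ≤ ∫ x in {x : Space | z₀ < x 2}, (u n x ^ 2 + fderiv ℝ (u n) x ez ^ 2) :=
          trace_plane_of_contDiff (hu1 n) (huc n) z₀
      _ ≤ ∫ x, (u n x ^ 2 + fderiv ℝ (u n) x ez ^ 2) :=
          setIntegral_le_integral i1 (Eventually.of_forall fun x => by positivity)
      _ ≤ ∫ x, ((1 + 2 * (1 / ((n : ℝ) + 1)) * C0 ^ 2) * v n x ^ 2 + (1 + 1 / ((n : ℝ) + 1)) * w n x ^ 2) := by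
          refine integral_mono i1 i2 fun x => ?_
          have hs : |fderiv ℝ (cutoff n) x ez| ≤ ((n : ℝ) + 1)⁻¹ * C0 := by
            rw [fderiv_cutoff, abs_mul, abs_of_pos (by positivity : (0 : ℝ) < ((n : ℝ) + 1)⁻¹)]
            exact mul_le_mul_of_nonneg_left (hC _) (by positivity)
          have h1 := fst_cut_ineq (p := v n x) (d := w n x) hK hs (cutoff_nonneg n x) (cutoff_le_one n x)
          have h2 : u n x ^ 2 ≤ v n x ^ 2 := by
            simp only [hu, mul_pow]
            have : cutoff n x ^ 2 ≤ 1 := by nlinarith [cutoff_nonneg n x, cutoff_le_one n x]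
            nlinarith [sq_nonneg (v n x)]
          simp only [hud, one_div]
          linarith
      _ = (1 + 2 * (1 / ((n : ℝ) + 1)) * C0 ^ 2) * (∫ x, v n x ^ 2)
            + (1 + 1 / ((n : ℝ) + 1)) * ∫ x, w n x ^ 2 := by
          rw [integral_add ((hv2 n).1.integrable_sq.const_mul _) ((hw2 n).1.integrable_sq.const_mul _),
            integral_const_mul, integral_const_mul]
      _ ≤ β n := by
          simp only [hβ]
          exact add_le_add (mul_le_mul_of_nonneg_left (hv2 n).2 (by positivity))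
            (mul_le_mul_of_nonneg_left (hw2 n).2 (by positivity))
  have hplane : Continuous fun q : ℝ × ℝ => planePt q z₀ :=
    fst_continuous_planePt.comp (continuous_id.prodMk continuous_const)
  have hint : ∀ n, Integrable fun q : ℝ × ℝ => u n (planePt q z₀) ^ 2 := by
    intro n
    obtain ⟨R, hR⟩ := (huc n).isCompact.isBounded.exists_norm_le
    have hcq : Continuous fun q : ℝ × ℝ => u n (planePt q z₀) ^ 2 := ((hu1 n).continuous.comp hplane).pow 2
    refine hcq.integrable_of_hasCompactSupport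
      (HasCompactSupport.intro (isCompact_closedBall (0 : ℝ × ℝ) R) fun q hq => ?_)
    have h1 : R < ‖q‖ := by simpa [mem_closedBall_zero_iff] using hq
    have h2 : u n (planePt q z₀) = 0 := image_eq_zero_of_notMem_tsupport fun hxs =>
      absurd (hR _ hxs) (not_le.2 (h1.trans_le (fst_norm_le_norm q z₀)))
    rw [h2]
    norm_num
  have hpt : ∀ x : Space, Tendsto (fun n => u n x) atTop (𝓝 (f x)) := by
    intro x
    have h1 : Tendsto (fun n => v n x) atTop (𝓝 (f x)) := by
      have hr : Tendsto (fun n : ℕ => (bumpSeq n : ContDiffBump (0 : Space)).rOut) atTop (𝓝 0) :=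
        tendsto_one_div_add_atTop_nhds_zero_nat
      exact ContDiffBump.convolution_tendsto_right_of_continuous hr hc x
    refine h1.congr' ?_
    obtain ⟨N, hN⟩ := exists_nat_ge ‖x‖
    filter_upwards [eventually_ge_atTop N] with n hn
    have : ‖x‖ ≤ (n : ℝ) + 1 := by
      have : (N : ℝ) ≤ n := by exact_mod_cast hn
      linarith
    simp only [hu, cutoff_eq_one this, one_mul]
  have hfat := fst_fatou_tendsto (F := fun q : ℝ × ℝ => f (planePt q z₀) ^ 2)
    (Fn := fun n q => u n (planePt q z₀) ^ 2) ((hc.comp hplane).pow 2).aestronglyMeasurable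
    (fun q => sq_nonneg _) hint (fun n q => sq_nonneg _) hbound hβlim (fun q => (hpt _).pow 2)
  exact ⟨hfat.1, hfat.2.trans (by linarith)⟩

end T1

/-! ## LEAF FS-T2: odd functions, half-spaces, gluing -/

section T2

variable {f : Space → ℝ} {F : Space → Space}

/-- the reflection as a linear isometric equivalence. -/
def fstRefl : Space ≃ₗᵢ[ℝ] Space := reflZIsometry.toLinearIsometryEquiv rfl

theorem fstRefl_apply (x : Space) : fstRefl x = reflZ x := rfl

theorem fstRefl_symm_apply (x : Space) : fstRefl.symm x = reflZ x := by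
  rw [LinearIsometryEquiv.symm_apply_eq, fstRefl_apply, reflZ_reflZ]

/-- reflection of a weak gradient. -/
theorem IsWeakGrad.comp_reflZ (h : IsWeakGrad f F) : IsWeakGrad (fun x => f (reflZ x)) (fun x => reflZ (F (reflZ x))) := by
  have := h.comp_isometry fstRefl
  simpa only [fstRefl_apply, fstRefl_symm_apply] using this

/-- odd extension (of a function which lives on the upper half-space). -/
theorem IsWeakGrad.odd_extension (h : IsWeakGrad f F) :
    IsWeakGrad (fun x => f x - f (reflZ x)) (fun x => F x - reflZ (F (reflZ x))) :=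
  h.sub h.comp_reflZ

theorem fst_reflZ_neg (w : Space) : reflZ (-w) = - reflZ w := reflZIsometry.map_neg w

/-- the gradient of an odd function is "odd" a.e. -/
theorem IsWeakGrad.grad_of_odd (h : IsWeakGrad f F) (hodd : ∀ᵐ x, f (reflZ x) = - f x) :
    ∀ᵐ x, F (reflZ x) = - reflZ (F x) := by
  have h1 : IsWeakGrad (fun x => - f x) (fun x => reflZ (F (reflZ x))) :=
    h.comp_reflZ.congr_ae hodd (Eventually.of_forall fun _ => rfl)
  filter_upwards [h1.ae_eq h.neg] with x hx
  have := congrArg reflZ hx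
  rwa [reflZ_reflZ, fst_reflZ_neg] at this

/-- closedness of the weak gradient under `L¹_loc` convergence. -/
theorem fst_isWeakGrad_of_tendsto {fn : ℕ → Space → ℝ} {Fn : ℕ → Space → Space}
    (h : ∀ n, IsWeakGrad (fn n) (Fn n)) (hf : LocallyIntegrable f volume) (hF : LocallyIntegrable F volume)
    (h1 : ∀ K, IsCompact K → Tendsto (fun n => ∫ x in K, ‖fn n x - f x‖) atTop (𝓝 0))
    (h2 : ∀ K, IsCompact K → Tendsto (fun n => ∫ x in K, ‖Fn n x - F x‖) atTop (𝓝 0)) : IsWeakGrad f F := by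
  refine isWeakGrad_iff_wd.2 ⟨hF, fun v => WD.of_tendsto (fun n => (h n).wd v) hf
    (fs_li_clm hF ((innerSL ℝ).flip v)) h1 fun K hK => ?_⟩
  have h3 : Tendsto (fun n => (∫ x in K, ‖Fn n x - F x‖) * ‖v‖) atTop (𝓝 0) := by
    simpa using (h2 K hK).mul_const ‖v‖
  refine squeeze_zero (fun n => integral_nonneg fun x => norm_nonneg _) (fun n => ?_) h3
  rw [← integral_mul_const]
  refine integral_mono_of_nonneg (Eventually.of_forall fun x => norm_nonneg _)
    ((((h n).2.1.sub hF).integrableOn_isCompact hK).norm.mul_const _) (Eventually.of_forall fun x => ?_)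
  show ‖⟪Fn n x, v⟫_ℝ - ⟪F x, v⟫_ℝ‖ ≤ ‖Fn n x - F x‖ * ‖v‖
  rw [← inner_sub_left]
  exact norm_inner_le_norm _ _

/-- dominated convergence on a compact set, for uniformly bounded functions which eventually vanish pointwise. -/
theorem fst_tendsto_setIntegral_zero {E' : Type*} [NormedAddCommGroup E'] {K : Set Space} (hK : IsCompact K)
    {a : ℕ → Space → E'} (hm : ∀ n, AEStronglyMeasurable (a n) volume) {B : ℝ}
    (hB : ∀ n, ∀ x ∈ K, ‖a n x‖ ≤ B) (hlim : ∀ x, ∀ᶠ n in atTop, a n x = 0) :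
    Tendsto (fun n => ∫ x in K, ‖a n x‖) atTop (𝓝 0) := by
  have : IsFiniteMeasure ((volume : Measure Space).restrict K) :=
    ⟨by rw [Measure.restrict_apply_univ]; exact hK.measure_lt_top⟩
  have h := tendsto_integral_of_dominated_convergence (μ := (volume : Measure Space).restrict K)
    (F := fun n x => ‖a n x‖) (f := fun _ => (0 : ℝ)) (fun _ => B)
    (fun n => (hm n).norm.restrict) (integrable_const B)
    (fun n => (ae_restrict_mem hK.measurableSet).mono fun x hx => by simpa using hB n x hx)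
    (Eventually.of_forall fun x => by
      refine tendsto_const_nhds.congr' ?_
      filter_upwards [hlim x] with n hn
      simp [hn])
  simpa using h

theorem fst_deriv_st_eq_zero {t : ℝ} (ht : t < 0 ∨ 1 < t) : deriv Real.smoothTransition t = 0 := by
  rcases ht with ht | ht
  · have : Real.smoothTransition =ᶠ[𝓝 t] fun _ => 0 := by
      filter_upwards [Iio_mem_nhds ht] with s hs
      exact Real.smoothTransition.zero_of_nonpos (le_of_lt hs)
    rw [this.deriv_eq]; simp
  · have : Real.smoothTransition =ᶠ[𝓝 t] fun _ => 1 := by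
      filter_upwards [Ioi_mem_nhds ht] with s hs
      exact Real.smoothTransition.one_of_one_le (le_of_lt hs)
    rw [this.deriv_eq]; simp

theorem fst_exists_deriv_st_bound : ∃ D : ℝ, 0 ≤ D ∧ ∀ t, |deriv Real.smoothTransition t| ≤ D := by
  have hc : Continuous (deriv Real.smoothTransition) :=
    (Real.smoothTransition.contDiff (n := 1)).continuous_deriv le_rfl
  have hs : HasCompactSupport (deriv Real.smoothTransition) :=
    HasCompactSupport.intro (isCompact_Icc (a := (0 : ℝ)) (b := 1)) fun t ht => by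
      apply fst_deriv_st_eq_zero
      by_contra hcon
      push Not at hcon
      exact ht ⟨hcon.1, hcon.2⟩
  obtain ⟨D, hD⟩ := hs.exists_bound_of_continuous hc
  exact ⟨D, (norm_nonneg _).trans (hD 0), hD⟩

/-- the cutoffs `η_n(x) = st((n+1) x₂)`. -/
def fstEta (n : ℕ) (x : Space) : ℝ := Real.smoothTransition (((n : ℝ) + 1) * x 2)

theorem fstEta_hasFDerivAt (n : ℕ) (x : Space) : HasFDerivAt (fstEta n)
    ((deriv Real.smoothTransition (((n : ℝ) + 1) * x 2)) •
      (((n : ℝ) + 1) • (EuclideanSpace.proj (2 : Fin 3) : Space →L[ℝ] ℝ))) x := by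
  have h1 : HasFDerivAt (fun x : Space => ((n : ℝ) + 1) * x 2)
      (((n : ℝ) + 1) • (EuclideanSpace.proj (2 : Fin 3) : Space →L[ℝ] ℝ)) x :=
    (EuclideanSpace.proj (2 : Fin 3) : Space →L[ℝ] ℝ).hasFDerivAt.const_mul _
  have h2 : HasDerivAt Real.smoothTransition (deriv Real.smoothTransition (((n : ℝ) + 1) * x 2))
      (((n : ℝ) + 1) * x 2) :=
    ((Real.smoothTransition.contDiff (n := 1)).differentiable one_ne_zero _).hasDerivAt
  exact h2.comp_hasFDerivAt x h1

theorem fstEta_contDiff (n : ℕ) : ContDiff ℝ 1 (fstEta n) :=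
  Real.smoothTransition.contDiff.comp
    (contDiff_const.mul (EuclideanSpace.proj (2 : Fin 3) : Space →L[ℝ] ℝ).contDiff)

theorem fstEta_norm_gradient_le (n : ℕ) (x : Space) :
    ‖gradient (fstEta n) x‖ ≤ |deriv Real.smoothTransition (((n : ℝ) + 1) * x 2)| * ((n : ℝ) + 1) := by
  have e : ‖gradient (fstEta n) x‖ = ‖fderiv ℝ (fstEta n) x‖ := by
    unfold gradient
    exact LinearIsometryEquiv.norm_map _ _
  have hp : ‖(EuclideanSpace.proj (2 : Fin 3) : Space →L[ℝ] ℝ)‖ ≤ 1 :=
    ContinuousLinearMap.opNorm_le_bound _ zero_le_one fun y => by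
      simpa using PiLp.norm_apply_le y (2 : Fin 3)
  have hn : (0 : ℝ) ≤ (n : ℝ) + 1 := by positivity
  rw [e, (fstEta_hasFDerivAt n x).fderiv, norm_smul, norm_smul, Real.norm_eq_abs, Real.norm_eq_abs,
    abs_of_nonneg hn]
  have : ((n : ℝ) + 1) * ‖(EuclideanSpace.proj (2 : Fin 3) : Space →L[ℝ] ℝ)‖ ≤ ((n : ℝ) + 1) * 1 :=
    mul_le_mul_of_nonneg_left hp hn
  rw [mul_one] at this
  exact mul_le_mul_of_nonneg_left this (abs_nonneg _)

/-- a `C¹` function vanishing on the plane is `O(x₂)` on balls. -/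
theorem fst_abs_le_of_vanish (hf : ContDiff ℝ 1 f) (h0 : ∀ x : Space, x 2 = 0 → f x = 0) {R M : ℝ}
    (hM : ∀ y ∈ Metric.closedBall (0 : Space) R, ‖fderiv ℝ f y‖ ≤ M) {x : Space}
    (hx : x ∈ Metric.closedBall (0 : Space) R) : |f x| ≤ M * |x 2| := by
  set x' : Space := x - x 2 • ez with hx'
  have c0 : x' 0 = x 0 := by simp [hx', ez]
  have c1 : x' 1 = x 1 := by simp [hx', ez]
  have c2 : x' 2 = 0 := by simp [hx', ez]
  have hn : ‖x'‖ ≤ ‖x‖ := by
    have : ‖x'‖ ^ 2 ≤ ‖x‖ ^ 2 := by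
      rw [norm_sq_space, norm_sq_space, c0, c1, c2]
      nlinarith [sq_nonneg (x 2)]
    exact (pow_le_pow_iff_left₀ (norm_nonneg _) (norm_nonneg _) two_ne_zero).1 this
  have hx'm : x' ∈ Metric.closedBall (0 : Space) R := by
    rw [mem_closedBall_zero_iff] at hx ⊢
    exact hn.trans hx
  have := (convex_closedBall (0 : Space) R).norm_image_sub_le_of_norm_fderiv_le
    (fun y _ => (hf.differentiable one_ne_zero) y) hM hx'm hx
  rw [h0 x' c2, sub_zero, Real.norm_eq_abs] at this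
  have e : ‖x - x'‖ = |x 2| := by
    have hez : ‖ez‖ = 1 := by simp [ez]
    rw [hx', sub_sub_cancel, norm_smul, hez, mul_one, Real.norm_eq_abs]
  rwa [e] at this

/-- a `C¹` function vanishing on the plane `z = 0`, cut to the upper half-space
(multiply by `η(z/ε)`, `|f| ≤ C z` on compact sets). -/
theorem isWeakGrad_indicator_upper_of_contDiff (hf : ContDiff ℝ 1 f) (h0 : ∀ x : Space, x 2 = 0 → f x = 0) :
    IsWeakGrad (fun x => if 0 < x 2 then f x else 0) (fun x => if 0 < x 2 then gradient f x else 0) := by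
  obtain ⟨D, hD0, hD⟩ := fst_exists_deriv_st_bound
  have hz : Continuous fun x : Space => x 2 := (EuclideanSpace.proj (𝕜 := ℝ) (2 : Fin 3)).continuous
  have hS : MeasurableSet {x : Space | 0 < x 2} := (isOpen_lt continuous_const hz).measurableSet
  have hg : Continuous (gradient f) := continuous_gradient hf
  have e1 : (fun x : Space => if 0 < x 2 then f x else 0) = {x : Space | 0 < x 2}.indicator f := by
    funext x
    by_cases hx : 0 < x 2
    · rw [if_pos hx, Set.indicator_of_mem (show x ∈ {x : Space | 0 < x 2} from hx)]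
    · rw [if_neg hx, Set.indicator_of_notMem (show x ∉ {x : Space | 0 < x 2} from hx)]
  have e2 : (fun x : Space => if 0 < x 2 then gradient f x else 0)
      = {x : Space | 0 < x 2}.indicator (gradient f) := by
    funext x
    by_cases hx : 0 < x 2
    · rw [if_pos hx, Set.indicator_of_mem (show x ∈ {x : Space | 0 < x 2} from hx)]
    · rw [if_neg hx, Set.indicator_of_notMem (show x ∉ {x : Space | 0 < x 2} from hx)]
  have hn : ∀ n, IsWeakGrad (fun x => fstEta n x * f x)
      (fun x => fstEta n x • gradient f x + f x • gradient (fstEta n) x) := fun n =>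
    (isWeakGrad_gradient hf).mul_contDiff (fstEta_contDiff n)
  -- facts on the cutoffs
  have hη0 : ∀ n (x : Space), x 2 ≤ 0 → fstEta n x = 0 := fun n x hx =>
    Real.smoothTransition.zero_of_nonpos (mul_nonpos_of_nonneg_of_nonpos (by positivity) hx)
  have hbig : ∀ x : Space, 0 < x 2 → ∀ᶠ n : ℕ in atTop, 1 < ((n : ℝ) + 1) * x 2 := by
    intro x hx
    obtain ⟨N, hN⟩ := exists_nat_ge (1 / x 2)
    filter_upwards [eventually_ge_atTop N] with n hn
    have h1 : (N : ℝ) ≤ n := by exact_mod_cast hn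
    have h2 : 1 / x 2 < (n : ℝ) + 1 := by linarith
    rwa [div_lt_iff₀ hx] at h2
  have hη1 : ∀ n (x : Space), 0 ≤ 1 - fstEta n x ∧ 1 - fstEta n x ≤ 1 := fun n x =>
    ⟨sub_nonneg.2 (Real.smoothTransition.le_one _), by
      have : 0 ≤ fstEta n x := Real.smoothTransition.nonneg _
      linarith⟩
  have hgrad0 : ∀ (n : ℕ) (x : Space), (((n : ℝ) + 1) * x 2 < 0 ∨ 1 < ((n : ℝ) + 1) * x 2) →
      gradient (fstEta n) x = 0 := by
    intro n x ht
    have := fstEta_norm_gradient_le n x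
    rw [fst_deriv_st_eq_zero ht, abs_zero, zero_mul] at this
    exact norm_le_zero_iff.1 this
  refine fst_isWeakGrad_of_tendsto hn (by rw [e1]; exact hf.continuous.locallyIntegrable.indicator hS)
    (by rw [e2]; exact hg.locallyIntegrable.indicator hS) (fun K hK => ?_) (fun K hK => ?_)
  · obtain ⟨B, hB⟩ := hK.exists_bound_of_continuousOn hf.continuous.continuousOn
    refine fst_tendsto_setIntegral_zero hK
      (a := fun n x => fstEta n x * f x - if 0 < x 2 then f x else 0) (fun n => ?_) (B := B)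
      (fun n x hx => ?_) (fun x => ?_)
    · refine (((fstEta_contDiff n).continuous.mul hf.continuous).aestronglyMeasurable).sub ?_
      rw [e1]
      exact hf.continuous.aestronglyMeasurable.indicator hS
    · by_cases hx2 : 0 < x 2
      · simp only [if_pos hx2]
        have e : fstEta n x * f x - f x = -((1 - fstEta n x) * f x) := by ring
        rw [e, norm_neg, norm_mul, Real.norm_eq_abs, abs_of_nonneg (hη1 n x).1]
        exact le_trans (mul_le_of_le_one_left (norm_nonneg _) (hη1 n x).2) (hB x hx)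
      · simp only [if_neg hx2, hη0 n x (not_lt.1 hx2), zero_mul, sub_zero, norm_zero]
        exact (norm_nonneg _).trans (hB x hx)
    · by_cases hx2 : 0 < x 2
      · filter_upwards [hbig x hx2] with n hn
        have : fstEta n x = 1 := Real.smoothTransition.one_of_one_le hn.le
        simp only [if_pos hx2, this, one_mul, sub_self]
      · refine Eventually.of_forall fun n => ?_
        simp only [if_neg hx2, hη0 n x (not_lt.1 hx2), zero_mul, sub_zero]
  · obtain ⟨R, hR⟩ := hK.isBounded.exists_norm_le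
    obtain ⟨M, hM⟩ := (isCompact_closedBall (0 : Space) R).exists_bound_of_continuousOn
      (hf.continuous_fderiv one_ne_zero).continuousOn
    have hKR : ∀ x ∈ K, x ∈ Metric.closedBall (0 : Space) R := fun x hx =>
      mem_closedBall_zero_iff.2 (hR x hx)
    have hgM : ∀ x ∈ K, ‖gradient f x‖ ≤ M := fun x hx => by
      have e : ‖gradient f x‖ = ‖fderiv ℝ f x‖ := by
        unfold gradient
        exact LinearIsometryEquiv.norm_map _ _
      rw [e]
      exact hM x (hKR x hx)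
    refine fst_tendsto_setIntegral_zero hK
      (a := fun n x => fstEta n x • gradient f x + f x • gradient (fstEta n) x
        - if 0 < x 2 then gradient f x else 0) (fun n => ?_) (B := M + D * M)
      (fun n x hx => ?_) (fun x => ?_)
    · refine ((((fstEta_contDiff n).continuous.smul hg).add
        (hf.continuous.smul (continuous_gradient (fstEta_contDiff n)))).aestronglyMeasurable).sub ?_
      rw [e2]
      exact hg.aestronglyMeasurable.indicator hS
    · have hM0 : 0 ≤ M := (norm_nonneg _).trans (hgM x hx)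
      -- the term with the derivative of the cutoff
      have h2 : ‖f x • gradient (fstEta n) x‖ ≤ D * M := by
        by_cases ht : ((n : ℝ) + 1) * x 2 < 0 ∨ 1 < ((n : ℝ) + 1) * x 2
        · rw [hgrad0 n x ht, smul_zero, norm_zero]
          positivity
        · push Not at ht
          have hx2 : 0 ≤ x 2 := by
            by_contra hneg
            have : ((n : ℝ) + 1) * x 2 < 0 := mul_neg_of_pos_of_neg (by positivity) (not_le.1 hneg)
            linarith [ht.1]
          have a1 := fst_abs_le_of_vanish hf h0 hM (hKR x hx)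
          rw [abs_of_nonneg hx2] at a1
          have a2 := fstEta_norm_gradient_le n x
          have a3 : ‖gradient (fstEta n) x‖ ≤ D * ((n : ℝ) + 1) :=
            a2.trans (mul_le_mul_of_nonneg_right (hD _) (by positivity))
          rw [norm_smul, Real.norm_eq_abs]
          calc |f x| * ‖gradient (fstEta n) x‖ ≤ (M * x 2) * (D * ((n : ℝ) + 1)) :=
                mul_le_mul a1 a3 (norm_nonneg _) (by positivity)
            _ = D * M * (((n : ℝ) + 1) * x 2) := by ring
            _ ≤ D * M * 1 := mul_le_mul_of_nonneg_left ht.2 (by positivity)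
            _ = D * M := mul_one _
      have h1 : ‖fstEta n x • gradient f x - if 0 < x 2 then gradient f x else 0‖ ≤ M := by
        by_cases hx2 : 0 < x 2
        · simp only [if_pos hx2]
          have e : fstEta n x • gradient f x - gradient f x = -((1 - fstEta n x) • gradient f x) := by
            rw [sub_smul, one_smul]; abel
          rw [e, norm_neg, norm_smul, Real.norm_eq_abs, abs_of_nonneg (hη1 n x).1]
          exact le_trans (mul_le_of_le_one_left (norm_nonneg _) (hη1 n x).2) (hgM x hx)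
        · simp only [if_neg hx2, hη0 n x (not_lt.1 hx2), zero_smul, sub_zero, norm_zero]
          exact hM0
      have e : fstEta n x • gradient f x + f x • gradient (fstEta n) x - (if 0 < x 2 then gradient f x else 0)
          = (fstEta n x • gradient f x - if 0 < x 2 then gradient f x else 0)
            + f x • gradient (fstEta n) x := by abel
      rw [e]
      exact (norm_add_le _ _).trans (add_le_add h1 h2)
    · rcases lt_trichotomy (x 2) 0 with hx2 | hx2 | hx2
      · refine Eventually.of_forall fun n => ?_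
        have ht : ((n : ℝ) + 1) * x 2 < 0 := mul_neg_of_pos_of_neg (by positivity) hx2
        simp only [if_neg (not_lt.2 hx2.le), hη0 n x hx2.le, hgrad0 n x (Or.inl ht), zero_smul, smul_zero,
          add_zero, sub_zero]
      · refine Eventually.of_forall fun n => ?_
        simp only [if_neg (not_lt.2 hx2.le), hη0 n x hx2.le, h0 x hx2, zero_smul, add_zero, sub_zero]
      · filter_upwards [hbig x hx2] with n hn
        have : fstEta n x = 1 := Real.smoothTransition.one_of_one_le hn.le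
        simp only [if_pos hx2, this, one_smul, hgrad0 n x (Or.inr hn), smul_zero, add_zero, sub_self]

theorem fst_ite_eq_indicator {E' : Type*} [Zero E'] (a : Space → E') :
    (fun x : Space => if 0 < x 2 then a x else 0) = {x : Space | 0 < x 2}.indicator a := by
  funext x
  by_cases hx : 0 < x 2
  · rw [if_pos hx, Set.indicator_of_mem (show x ∈ {x : Space | 0 < x 2} from hx)]
  · rw [if_neg hx, Set.indicator_of_notMem (show x ∉ {x : Space | 0 < x 2} from hx)]

theorem fst_measurableSet_upper : MeasurableSet {x : Space | 0 < x 2} :=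
  (isOpen_lt continuous_const (EuclideanSpace.proj (𝕜 := ℝ) (2 : Fin 3)).continuous).measurableSet

theorem fst_preimage_preimage (K : Set Space) : reflZ ⁻¹' (reflZ ⁻¹' K) = K := by
  ext x
  simp [reflZ_reflZ]

theorem fst_measurableEmbedding_reflZ : MeasurableEmbedding reflZ :=
  fstRefl.toHomeomorph.measurableEmbedding

/-- change of variables `x ↦ reflZ x` on a set. -/
theorem fst_setIntegral_comp_reflZ (g : Space → ℝ) (K : Set Space) :
    ∫ x in K, g (reflZ x) = ∫ x in reflZ ⁻¹' K, g x := by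
  have h := measurePreserving_reflZ.setIntegral_preimage_emb fst_measurableEmbedding_reflZ g (reflZ ⁻¹' K)
  rwa [fst_preimage_preimage] at h

/-- the odd part of an `L¹_loc` approximation of an odd function, cut to the upper half-space. -/
theorem fst_tendsto_odd_part {E' : Type*} [NormedAddCommGroup E'] [NormedSpace ℝ E'] {S : E' →L[ℝ] E'}
    (hS : ∀ w, ‖S w‖ ≤ ‖w‖) {an : ℕ → Space → E'} {a : Space → E'}
    (han : ∀ n, LocallyIntegrable (an n) volume) (ha : LocallyIntegrable a volume)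
    (hodd : ∀ᵐ x, S (a (reflZ x)) = - a x)
    (hlim : ∀ K, IsCompact K → Tendsto (fun n => ∫ x in K, ‖an n x - a x‖) atTop (𝓝 0))
    {K : Set Space} (hK : IsCompact K) :
    Tendsto (fun n => ∫ x in K, ‖(if 0 < x 2 then (1 / 2 : ℝ) • (an n x - S (an n (reflZ x))) else 0)
      - (if 0 < x 2 then a x else 0)‖) atTop (𝓝 0) := by
  have hK' : IsCompact (reflZ ⁻¹' K) := fstRefl.toHomeomorph.isCompact_preimage.2 hK
  have h3 : Tendsto (fun n => (1 / 2 : ℝ) * (∫ x in K, ‖an n x - a x‖)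
      + (1 / 2) * ∫ x in reflZ ⁻¹' K, ‖an n x - a x‖) atTop (𝓝 0) := by
    have h4 := ((hlim K hK).const_mul (1 / 2 : ℝ)).add ((hlim _ hK').const_mul (1 / 2 : ℝ))
    rw [mul_zero, add_zero] at h4
    exact h4
  refine squeeze_zero (fun n => integral_nonneg fun x => norm_nonneg _) (fun n => ?_) h3
  have i1 : IntegrableOn (fun x => ‖an n x - a x‖) K := (((han n).sub ha).integrableOn_isCompact hK).norm
  have i2 : IntegrableOn (fun x => ‖an n (reflZ x) - a (reflZ x)‖) K := by
    have i3 : IntegrableOn (fun x => ‖an n x - a x‖) (reflZ ⁻¹' K) :=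
      (((han n).sub ha).integrableOn_isCompact hK').norm
    have := (measurePreserving_reflZ.integrableOn_comp_preimage fst_measurableEmbedding_reflZ).2 i3
    rwa [fst_preimage_preimage] at this
  rw [← fst_setIntegral_comp_reflZ (fun x => ‖an n x - a x‖) K, ← integral_const_mul, ← integral_const_mul,
    ← integral_add (i1.const_mul _) (i2.const_mul _)]
  refine integral_mono_of_nonneg (Eventually.of_forall fun x => norm_nonneg _)
    ((i1.const_mul _).add (i2.const_mul _)) ?_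
  filter_upwards [ae_restrict_of_ae hodd] with x hx
  by_cases hx2 : 0 < x 2
  · simp only [if_pos hx2]
    have e : (1 / 2 : ℝ) • (an n x - S (an n (reflZ x))) - a x
        = (1 / 2 : ℝ) • (an n x - a x) - (1 / 2 : ℝ) • S (an n (reflZ x) - a (reflZ x)) := by
      rw [map_sub, hx]
      module
    rw [e]
    refine (norm_sub_le _ _).trans ?_
    rw [norm_smul, norm_smul]
    have h12 : ‖(1 / 2 : ℝ)‖ = 1 / 2 := by norm_num
    rw [h12]
    exact add_le_add le_rfl (mul_le_mul_of_nonneg_left (hS _) (by norm_num))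
  · simp only [if_neg hx2, sub_zero, norm_zero]
    positivity

/-- the mollification of a `W^{1,1}_loc` function has the mollified gradient. -/
theorem fst_isWeakGrad_moll (h : IsWeakGrad f F) (n : ℕ) :
    IsWeakGrad (moll volume (mollSeq volume n) f) (moll volume (mollSeq volume n) F) := by
  have hu : ContDiff ℝ 1 (moll volume (mollSeq volume n) f) :=
    (contDiff_moll (contDiff_mollSeq _) (hasCompactSupport_mollSeq _) h.1).of_le fs_one_le
  refine isWeakGrad_iff_wd.2 ⟨fs_li_moll n h.2.1, fun v => ?_⟩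
  refine (HasWeakDeriv.of_contDiff hu v).congr_ae (Eventually.of_forall fun _ => rfl)
    (Eventually.of_forall fun x => ?_)
  show fderiv ℝ (moll volume (mollSeq volume n) f) x v = ⟪moll volume (mollSeq volume n) F x, v⟫_ℝ
  rw [fderiv_moll (contDiff_mollSeq _) (hasCompactSupport_mollSeq _) h.1 (h.wd v).weak, moll_apply, moll_apply]
  have hint : Integrable (fun t => mollSeq volume n t • F (x - t)) (volume : Measure Space) :=
    ((hasCompactSupport_mollSeq n).convolutionExists_left (ContinuousLinearMap.lsmul ℝ ℝ)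
      (continuous_mollSeq n) h.2.1 x).integrable
  have := ((innerSL ℝ).flip v).integral_comp_comm hint
  simp only [ContinuousLinearMap.flip_apply, innerSL_apply_apply, inner_smul_left, RCLike.conj_to_real] at this
  simpa only [smul_eq_mul] using this

/-- **an odd `W^{1,1}_loc` function has zero trace on the median plane**: its restriction to the upper half-space,
extended by zero, has the restricted gradient.  (`u_n = moll .. f` is smooth; `x ↦ (u_n x - u_n (reflZ x))/2` is smooth, odd,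
and converges to `f` in `W^{1,1}_loc`; previous lemma; `WD.of_tendsto`.  No symmetry of the mollifier is needed.) -/
theorem IsWeakGrad.indicator_upper_of_odd (h : IsWeakGrad f F) (hodd : ∀ᵐ x, f (reflZ x) = - f x) :
    IsWeakGrad (fun x => if 0 < x 2 then f x else 0) (fun x => if 0 < x 2 then F x else 0) := by
  set u : ℕ → Space → ℝ := fun n => moll volume (mollSeq volume n) f with hudef
  set U : ℕ → Space → Space := fun n => moll volume (mollSeq volume n) F with hUdef
  have hu : ∀ n, ContDiff ℝ 1 (u n) := fun n =>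
    (contDiff_moll (contDiff_mollSeq _) (hasCompactSupport_mollSeq _) h.1).of_le fs_one_le
  have hU : ∀ n, IsWeakGrad (u n) (U n) := fun n => fst_isWeakGrad_moll h n
  have hO : ∀ n, IsWeakGrad (fun x => (1 / 2 : ℝ) * (u n x - u n (reflZ x)))
      (fun x => (1 / 2 : ℝ) • (U n x - reflZ (U n (reflZ x)))) := fun n =>
    (hU n).odd_extension.const_mul (1 / 2)
  have ho1 : ∀ n, ContDiff ℝ 1 (fun x => (1 / 2 : ℝ) * (u n x - u n (reflZ x))) := fun n =>
    contDiff_const.mul ((hu n).sub ((hu n).comp reflZIsometry.contDiff))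
  have ho0 : ∀ n (x : Space), x 2 = 0 → (1 / 2 : ℝ) * (u n x - u n (reflZ x)) = 0 := by
    intro n x hx
    have : reflZ x = x := by apply space_ext <;> simp [hx]
    rw [this, sub_self, mul_zero]
  have hcut : ∀ n, IsWeakGrad (fun x => if 0 < x 2 then (1 / 2 : ℝ) * (u n x - u n (reflZ x)) else 0)
      (fun x => if 0 < x 2 then (1 / 2 : ℝ) • (U n x - reflZ (U n (reflZ x))) else 0) := by
    intro n
    refine (isWeakGrad_indicator_upper_of_contDiff (ho1 n) (ho0 n)).congr_ae
      (Eventually.of_forall fun _ => rfl) ?_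
    filter_upwards [(isWeakGrad_gradient (ho1 n)).ae_eq (hO n)] with x hx
    simp only [hx]
  have hoddF : ∀ᵐ x, reflZ (F (reflZ x)) = - F x := by
    filter_upwards [h.grad_of_odd hodd] with x hx
    rw [hx, fst_reflZ_neg, reflZ_reflZ]
  refine fst_isWeakGrad_of_tendsto hcut
    (by rw [fst_ite_eq_indicator]; exact h.1.indicator fst_measurableSet_upper)
    (by rw [fst_ite_eq_indicator]; exact h.2.1.indicator fst_measurableSet_upper)
    (fun K hK => ?_) (fun K hK => ?_)
  · have := fst_tendsto_odd_part (S := ContinuousLinearMap.id ℝ ℝ) (fun w => le_rfl)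
      (fun n => fs_li_moll n h.1) h.1 hodd (fun K hK => tendsto_moll_L1loc h.1 hK) hK
    simpa only [smul_eq_mul, ContinuousLinearMap.id_apply] using this
  · exact fst_tendsto_odd_part (S := reflZIsometry.toContinuousLinearMap) (fun w => (norm_reflZ w).le)
      (fun n => fs_li_moll n h.2.1) h.2.1 hoddF (fun K hK => tendsto_moll_L1loc h.2.1 hK) hK

end T2

/-! ## LEAF FS-T3: chain rule for Lipschitz, piecewise `C¹` functions -/

section T3

variable {f : Space → ℝ} {F : Space → Space}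

/-- a Lipschitz function on the line, differentiable off a countable set, has `deriv` as its weak derivative. -/
theorem fs_weakGrad_lipschitz {Θ : ℝ → ℝ} {C : NNReal} (hL : LipschitzWith C Θ)
    {N : Set ℝ} (hN : N.Countable) (hd : ∀ z ∉ N, DifferentiableAt ℝ Θ z) :
    Claimed.Agent.R259.WeakGrad Θ (deriv Θ) := by
  have hb : ∀ z, ‖deriv Θ z‖ ≤ C := fun z => norm_deriv_le_of_lipschitz hL
  have hm : Measurable (deriv Θ) := measurable_deriv Θ
  have l2 : LocallyIntegrable (deriv Θ) volume := by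
    refine (locallyIntegrable_const (C : ℝ)).mono hm.aestronglyMeasurable (Eventually.of_forall fun z => ?_)
    simpa using hb z
  refine ⟨hL.continuous.locallyIntegrable, l2, fun ζ hζ => ?_⟩
  have hζ1 : ContDiff ℝ 1 ζ := hζ.1.of_le (by simp)
  have hζd : Differentiable ℝ ζ := hζ1.differentiable (by simp)
  have hζc : Continuous (deriv ζ) := hζ1.continuous_deriv (by simp)
  obtain ⟨R, hR⟩ := hζ.2.isCompact.isBounded.subset_closedBall (0 : ℝ)
  have hz0 : ∀ z, R < |z| → ζ z = 0 := by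
    intro z hz
    refine image_eq_zero_of_notMem_tsupport fun h => ?_
    have := hR h
    rw [mem_closedBall_zero_iff, Real.norm_eq_abs] at this
    linarith
  have hR0 : ∀ z, R < |z| → deriv ζ z = 0 := by
    intro z hz
    have : z ∉ tsupport (deriv ζ) := fun h => by
      have := hR (tsupport_deriv_subset h)
      rw [mem_closedBall_zero_iff, Real.norm_eq_abs] at this
      linarith
    exact image_eq_zero_of_notMem_tsupport this
  set b : ℝ := |R| + 1 with hbdef
  have hb0 : 0 < b := by positivity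
  have hRb : R < b := by linarith [le_abs_self R]
  have i1 : Integrable (fun x => Θ x * deriv ζ x) volume :=
    (hL.continuous.mul hζc).integrable_of_hasCompactSupport (hζ.2.deriv).mul_left
  have i2 : Integrable (fun x => ζ x * deriv Θ x) volume :=
    l2.integrable_smul_left_of_hasCompactSupport hζ.1.continuous hζ.2
  have key : ∫ x in (-b)..b, (Θ x * deriv ζ x + ζ x * deriv Θ x) = Θ b * ζ b - Θ (-b) * ζ (-b) := by
    refine integral_eq_of_hasDerivAt_off_countable_of_le (fun x => Θ x * ζ x) _ (by linarith) hN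
      (hL.continuous.mul hζ.1.continuous).continuousOn (fun x hx => ?_) (i1.add i2).intervalIntegrable
    have := (hd x hx.2).hasDerivAt.mul (hζd x).hasDerivAt
    exact this.congr_deriv (by ring)
  rw [hz0 b (by rw [abs_of_pos hb0]; exact hRb), hz0 (-b) (by rw [abs_neg, abs_of_pos hb0]; exact hRb),
    intervalIntegral.integral_eq_integral_of_support_subset, integral_add i1 i2] at key
  · simp only [gradient_eq_deriv', smul_eq_mul]
    linarith
  · intro x hx
    by_contra hx'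
    apply hx
    have : R < |x| := by
      rw [mem_Ioc, not_and_or, not_lt, not_le] at hx'
      rcases hx' with h | h
      · rw [abs_of_neg (by linarith)]; linarith
      · rw [abs_of_pos (by linarith)]; linarith
    simp only [hz0 x this, hR0 x this, mul_zero, zero_mul, add_zero]


/-- `Θ` Lipschitz, `C¹` off a closed countable set `N` (Lean: `deriv Θ = 0` where `Θ` is not differentiable; the gradient
`F` vanishes a.e. on `f ⁻¹' N` by `IsWeakGrad.ae_eq_zero_of_level`).  Route: mollify `Θ`, dominated convergence. -/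
theorem IsWeakGrad.comp_lipschitz (h : IsWeakGrad f F) {Θ : ℝ → ℝ} {C : NNReal} (hL : LipschitzWith C Θ)
    {N : Set ℝ} (hN : N.Countable) (hNc : IsClosed N) (hd : ContDiffOn ℝ 1 Θ Nᶜ) :
    IsWeakGrad (fun x => Θ (f x)) (fun x => deriv Θ (f x) • F x) := by
  have hw := h.ws
  have hdiff : ∀ z ∉ N, DifferentiableAt ℝ Θ z := fun z hz =>
    (hd.differentiableOn (by simp)).differentiableAt (hNc.isOpen_compl.mem_nhds hz)
  have hΘw := fs_weakGrad_lipschitz hL hN hdiff
  set Θk : ℕ → ℝ → ℝ := fun k => Claimed.Agent.R259.wsMol k Θ with hΘkdef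
  have hΘk : ∀ k, ContDiff ℝ 1 (Θk k) := fun k => (Claimed.Agent.R259.wsMol_contDiff k hΘw.1).of_le (by simp)
  have hder : ∀ k z, deriv (Θk k) z = Claimed.Agent.R259.wsMol k (deriv Θ) z := by
    intro k z
    rw [← gradient_eq_deriv', Claimed.Agent.R259.wsMol_gradient hΘw k]
  have hC : ∀ k z, |deriv (Θk k) z| ≤ C := by
    intro k z
    rw [hder]
    exact Claimed.Agent.R259.wsMol_norm_le k (Eventually.of_forall fun z => norm_deriv_le_of_lipschitz hL) z
  have h1 : ∀ z, Tendsto (fun k => Θk k z) atTop (𝓝 (Θ z)) :=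
    fun z => (Claimed.Agent.R259.wsMol_tendstoUniformly hL.uniformContinuous).tendsto_at z
  have h2 : ∀ z ∉ N, Tendsto (fun k => deriv (Θk k) z) atTop (𝓝 (deriv Θ z)) := by
    intro z hz
    simp only [hder]
    have hc : ContinuousAt (deriv Θ) z :=
      (hd.continuousOn_deriv_of_isOpen hNc.isOpen_compl (by simp)).continuousAt (hNc.isOpen_compl.mem_nhds hz)
    rw [Metric.tendsto_atTop]
    intro ε hε
    obtain ⟨δ, hδ, hδ'⟩ := Metric.continuousAt_iff.1 hc (ε / 2) (half_pos hε)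
    have e1 : ∀ᶠ k : ℕ in atTop, 1 / ((k : ℝ) + 1) < δ :=
      (tendsto_one_div_add_atTop_nhds_zero_nat (𝕜 := ℝ)).eventually (gt_mem_nhds hδ)
    obtain ⟨k0, hk0⟩ := eventually_atTop.1 e1
    refine ⟨k0, fun k hk => lt_of_le_of_lt
      (Claimed.Agent.R259.wsMol_dist_le k (measurable_deriv Θ).aestronglyMeasurable fun y hy => ?_) (half_lt_self hε)⟩
    exact (hδ' (lt_trans (Metric.mem_ball.1 hy) (hk0 k hk))).le
  have hzero : ∀ᵐ x, f x ∈ N → F x = 0 := by
    have : ∀ᵐ x, ∀ c ∈ N, f x = c → F x = 0 :=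
      (ae_ball_iff hN).2 fun c _ => h.ae_eq_zero_of_level c
    filter_upwards [this] with x hx hxN
    exact hx _ hxN rfl
  apply isWeakGrad_of_ws
  have hC0 : (0:ℝ) ≤ C := C.2
  have hum : AEStronglyMeasurable f volume := hw.1.aestronglyMeasurable
  have hgm : AEStronglyMeasurable F volume := hw.2.1.aestronglyMeasurable
  have hk : ∀ k, Claimed.Agent.R259.WeakGrad (fun x => Θk k (f x)) (fun x => deriv (Θk k) (f x) • F x) :=
    fun k => Claimed.Agent.R259.wsg_comp hw (hΘk k) (hC k)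
  obtain ⟨B, hB⟩ : ∃ B : ℝ, ∀ k, |Θk k 0| ≤ B := by
    obtain ⟨B, hB⟩ := (Metric.isBounded_range_of_tendsto _ (h1 0)).exists_norm_le
    exact ⟨B, fun k => hB _ ⟨k, rfl⟩⟩
  have hbd : ∀ k z, |Θk k z| ≤ B + C * |z| := by
    intro k z
    have e1 := Claimed.Agent.R259.ws_lip_of_deriv (hΘk k) (hC k) z 0
    rw [sub_zero] at e1
    have e2 : |Θk k z| ≤ |Θk k 0| + |Θk k z - Θk k 0| := by
      have := abs_add_le (Θk k 0) (Θk k z - Θk k 0)
      simpa using this
    linarith [hB k]
  have m1 : ∀ k, AEStronglyMeasurable (fun x => Θk k (f x)) volume :=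
    fun k => (hΘk k).continuous.comp_aestronglyMeasurable hum
  have m2 : ∀ k, AEStronglyMeasurable (fun x => deriv (Θk k) (f x) • F x) volume :=
    fun k => (((hΘk k).continuous_deriv (by simp)).comp_aestronglyMeasurable hum).smul hgm
  have b1 : LocallyIntegrable (fun x => B + C * ‖f x‖) volume :=
    (locallyIntegrable_const _).add ((Claimed.Agent.R259.ws_li_norm hw.1).smul (C : ℝ))
  have b2 : LocallyIntegrable (fun x => C * ‖F x‖) volume := (Claimed.Agent.R259.ws_li_norm hw.2.1).smul (C : ℝ)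
  have t1 : ∀ x, Tendsto (fun k => Θk k (f x)) atTop (𝓝 (Θ (f x))) := fun x => h1 _
  have t2 : ∀ᵐ x, Tendsto (fun k => deriv (Θk k) (f x) • F x) atTop (𝓝 (deriv Θ (f x) • F x)) := by
    filter_upwards [hzero] with x hx
    by_cases hxN : f x ∈ N
    · simp only [hx hxN, smul_zero]
      exact tendsto_const_nhds
    · exact (h2 _ hxN).smul_const _
  have l1 : LocallyIntegrable (fun x => Θ (f x)) volume := by
    refine b1.mono (aestronglyMeasurable_of_tendsto_ae atTop m1 (Eventually.of_forall t1))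
      (Eventually.of_forall fun x => ?_)
    have e1 : |Θ (f x)| ≤ B + C * |f x| :=
      le_of_tendsto (t1 x).abs (Eventually.of_forall fun k => hbd k _)
    rw [Real.norm_eq_abs, Real.norm_eq_abs, Real.norm_eq_abs]
    exact e1.trans (le_abs_self _)
  have l2 : LocallyIntegrable (fun x => deriv Θ (f x) • F x) volume := by
    refine b2.mono (aestronglyMeasurable_of_tendsto_ae atTop m2 t2) (Eventually.of_forall fun x => ?_)
    have e1 : ‖deriv Θ (f x) • F x‖ ≤ C * ‖F x‖ := by
      rw [norm_smul]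
      exact mul_le_mul_of_nonneg_right (norm_deriv_le_of_lipschitz hL) (norm_nonneg _)
    exact e1.trans (le_abs_self _)
  refine Claimed.Agent.R259.ws_weakGrad_of_loc hk l1 l2 ?_ ?_
  · exact Claimed.Agent.R259.wsLoc_of_dominated m1 b1 (fun k => Eventually.of_forall fun x => hbd k _)
      (Eventually.of_forall t1)
  · refine Claimed.Agent.R259.wsLoc_of_dominated m2 b2 (fun k => Eventually.of_forall fun x => ?_) t2
    rw [norm_smul]
    exact mul_le_mul_of_nonneg_right (hC k _) (norm_nonneg _)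



theorem fs_wsLoc_of_dominated_loc {P : Type} [NormedAddCommGroup P] [NormedSpace ℝ P] [CompleteSpace P]
    {p : ℕ → Space → P} {p' : Space → P}
    (hm : ∀ k, AEStronglyMeasurable (p k) volume)
    (hb : ∀ K : Set Space, IsCompact K → ∃ bound : Space → ℝ, IntegrableOn bound K volume ∧
      ∀ k, ∀ᵐ x, x ∈ K → ‖p k x‖ ≤ bound x)
    (hlim : ∀ᵐ x, Tendsto (fun k => p k x) atTop (𝓝 (p' x))) : Claimed.Agent.R259.WsLoc p p' := by
  intro K hK
  obtain ⟨bound, hbi, hle⟩ := hb K hK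
  have := tendsto_lintegral_norm_of_dominated_convergence (μ := volume.restrict K)
    (fun k => (hm k).restrict) hbi.2
    (fun k => (ae_restrict_iff' hK.measurableSet).2 (hle k)) (ae_restrict_of_ae hlim)
  simpa only [ofReal_norm] using this

theorem fs_li_of_loc_le {P : Type} [NormedAddCommGroup P] {p : Space → P} (hm : AEStronglyMeasurable p volume)
    (hb : ∀ K : Set Space, IsCompact K → ∃ bound : Space → ℝ, IntegrableOn bound K volume ∧
      ∀ᵐ x, x ∈ K → ‖p x‖ ≤ bound x) : LocallyIntegrable p volume :=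
  locallyIntegrable_iff.2 fun K hK => by
    obtain ⟨bound, hbi, hle⟩ := hb K hK
    exact hbi.mono' hm.restrict ((ae_restrict_iff' hK.measurableSet).2 hle)

theorem fs_wsMol_norm_le_loc {P : Type} [NormedAddCommGroup P] [NormedSpace ℝ P] [CompleteSpace P]
    {g : Space → P} {K : Set Space} {C : ℝ} (hC0 : 0 ≤ C)
    (h : ∀ᵐ x, x ∈ Metric.cthickening 1 K → ‖g x‖ ≤ C) (k : ℕ) {x : Space} (hx : x ∈ K) :
    ‖Claimed.Agent.R259.wsMol k g x‖ ≤ C := by
  rw [Claimed.Agent.R259.wsMol_eq_of_eqOn k (f' := (Metric.cthickening 1 K).indicator g)]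
  · refine Claimed.Agent.R259.wsMol_norm_le k ?_ x
    filter_upwards [h] with y hy
    by_cases hyK : y ∈ Metric.cthickening 1 K
    · rw [indicator_of_mem hyK]; exact hy hyK
    · rw [indicator_of_notMem hyK, norm_zero]; exact hC0
  · intro y hy
    rw [indicator_of_mem]
    refine Metric.mem_cthickening_of_dist_le y x 1 K hx ?_
    exact (Metric.mem_ball.1 hy).le.trans (Claimed.Agent.R259.wsB_rOut_le_one (E := Space) k)

/-- local version. -/
theorem IsWeakGrad.mul_bdd {g : Space → ℝ} {G : Space → Space} (h : IsWeakGrad f F) (hg : IsWeakGrad g G)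
    (h0 : ∀ K : Set Space, IsCompact K → ∃ C : ℝ, ∀ᵐ x, x ∈ K → |g x| ≤ C ∧ ‖G x‖ ≤ C) :
    IsWeakGrad (fun x => g x * f x) (fun x => g x • F x + f x • G x) := by
  have hw := h.ws
  have hgw := hg.ws
  apply isWeakGrad_of_ws
  have hfm := hw.1.aestronglyMeasurable
  have hFm := hw.2.1.aestronglyMeasurable
  have hgm := hgw.1.aestronglyMeasurable
  have hGm := hgw.2.1.aestronglyMeasurable
  have hsm : ∀ j, ContDiff ℝ 1 (Claimed.Agent.R259.wsMol j g) := fun j => (Claimed.Agent.R259.wsMol_contDiff j hgw.1).of_le (by simp)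
  have hsm' : ∀ j, Continuous (Claimed.Agent.R259.wsMol j G) := fun j => (Claimed.Agent.R259.wsMol_contDiff j hgw.2.1).continuous
  have hk : ∀ j, Claimed.Agent.R259.WeakGrad (fun x => Claimed.Agent.R259.wsMol j g x * f x)
      (fun x => Claimed.Agent.R259.wsMol j g x • F x + f x • Claimed.Agent.R259.wsMol j G x) := by
    intro j
    have := Claimed.Agent.R259.wsg_mul hw (hsm j)
    rw [Claimed.Agent.R259.wsMol_gradient hgw j] at this
    exact this
  have hcst : ∀ K : Set Space, IsCompact K → ∃ C : ℝ, 0 ≤ C ∧ (∀ᵐ x, x ∈ K → |g x| ≤ C ∧ ‖G x‖ ≤ C) ∧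
      ∀ j, ∀ x ∈ K, ‖Claimed.Agent.R259.wsMol j g x‖ ≤ C ∧ ‖Claimed.Agent.R259.wsMol j G x‖ ≤ C := by
    intro K hK
    obtain ⟨C, hC⟩ := h0 _ (hK.cthickening (r := 1))
    have hC' : ∀ᵐ x, x ∈ Metric.cthickening 1 K → |g x| ≤ Max.max C 0 ∧ ‖G x‖ ≤ Max.max C 0 := by
      filter_upwards [hC] with x hx hxK
      exact ⟨(hx hxK).1.trans (le_max_left _ _), (hx hxK).2.trans (le_max_left _ _)⟩
    refine ⟨Max.max C 0, le_max_right _ _, ?_, fun j x hx => ⟨?_, ?_⟩⟩
    · filter_upwards [hC'] with x hx hxK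
      exact hx (Metric.self_subset_cthickening K hxK)
    · refine fs_wsMol_norm_le_loc (le_max_right _ _) ?_ j hx
      filter_upwards [hC'] with y hy hyK
      exact (hy hyK).1
    · refine fs_wsMol_norm_le_loc (le_max_right _ _) ?_ j hx
      filter_upwards [hC'] with y hy hyK
      exact (hy hyK).2
  have bf : ∀ (C : ℝ) (K : Set Space), IsCompact K → IntegrableOn (fun x => C * ‖f x‖) K volume :=
    fun C K hK => ((hw.1.integrableOn_isCompact hK).norm).const_mul C
  have bF : ∀ (C : ℝ) (K : Set Space), IsCompact K → IntegrableOn (fun x => C * ‖F x‖) K volume :=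
    fun C K hK => ((hw.2.1.integrableOn_isCompact hK).norm).const_mul C
  have l1 : LocallyIntegrable (fun x => g x * f x) volume := by
    refine fs_li_of_loc_le (hgm.mul hfm) fun K hK => ?_
    obtain ⟨C, hC0, hC, -⟩ := hcst K hK
    refine ⟨_, bf C K hK, ?_⟩
    filter_upwards [hC] with x hx hxK
    rw [norm_mul]
    exact mul_le_mul_of_nonneg_right (hx hxK).1 (norm_nonneg _)
  have l2 : LocallyIntegrable (fun x => g x • F x) volume := by
    refine fs_li_of_loc_le (hgm.smul hFm) fun K hK => ?_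
    obtain ⟨C, hC0, hC, -⟩ := hcst K hK
    refine ⟨_, bF C K hK, ?_⟩
    filter_upwards [hC] with x hx hxK
    rw [norm_smul]
    exact mul_le_mul_of_nonneg_right (hx hxK).1 (norm_nonneg _)
  have l3 : LocallyIntegrable (fun x => f x • G x) volume := by
    refine fs_li_of_loc_le (hfm.smul hGm) fun K hK => ?_
    obtain ⟨C, hC0, hC, -⟩ := hcst K hK
    refine ⟨_, bf C K hK, ?_⟩
    filter_upwards [hC] with x hx hxK
    rw [norm_smul, mul_comm]
    exact mul_le_mul_of_nonneg_right (hx hxK).2 (norm_nonneg _)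
  refine Claimed.Agent.R259.ws_weakGrad_of_loc hk l1 (l2.add l3) ?_ ?_
  · refine fs_wsLoc_of_dominated_loc (fun j => ((hsm j).continuous.aestronglyMeasurable).mul hfm)
      (fun K hK => ?_) ?_
    · obtain ⟨C, hC0, -, hC⟩ := hcst K hK
      refine ⟨_, bf C K hK, fun j => Eventually.of_forall fun x hxK => ?_⟩
      rw [norm_mul]
      exact mul_le_mul_of_nonneg_right (hC j x hxK).1 (norm_nonneg _)
    · filter_upwards [Claimed.Agent.R259.wsMol_tendsto_ae hgw.1] with x hx
      exact hx.mul_const _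
  · refine Claimed.Agent.R259.WsLoc.add ?_ ?_ (fun j => (((hsm j).continuous.aestronglyMeasurable).smul hFm).sub
      (hgm.smul hFm))
    · refine fs_wsLoc_of_dominated_loc (fun j => ((hsm j).continuous.aestronglyMeasurable).smul hFm)
        (fun K hK => ?_) ?_
      · obtain ⟨C, hC0, -, hC⟩ := hcst K hK
        refine ⟨_, bF C K hK, fun j => Eventually.of_forall fun x hxK => ?_⟩
        rw [norm_smul]
        exact mul_le_mul_of_nonneg_right (hC j x hxK).1 (norm_nonneg _)
      · filter_upwards [Claimed.Agent.R259.wsMol_tendsto_ae hgw.1] with x hx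
        exact hx.smul_const _
    · refine fs_wsLoc_of_dominated_loc (fun j => hfm.smul (hsm' j).aestronglyMeasurable)
        (fun K hK => ?_) ?_
      · obtain ⟨C, hC0, -, hC⟩ := hcst K hK
        refine ⟨_, bf C K hK, fun j => Eventually.of_forall fun x hxK => ?_⟩
        rw [norm_smul, mul_comm]
        exact mul_le_mul_of_nonneg_right (hC j x hxK).2 (norm_nonneg _)
      · filter_upwards [Claimed.Agent.R259.wsMol_tendsto_ae hgw.2.1] with x hx
        exact hx.const_smul _

/-- product with a bounded function with bounded weak gradient (Lipschitz weights `e^{a min(ρ,T)}`). -/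
theorem IsH1.mul_bdd {g : Space → ℝ} {G : Space → Space} (h : IsH1 f F) (hg : IsWeakGrad g G) {C : ℝ}
    (h0 : ∀ᵐ x, |g x| ≤ C) (h1 : ∀ᵐ x, ‖G x‖ ≤ C) :
    IsH1 (fun x => g x * f x) (fun x => g x • F x + f x • G x) := by
  have hgm := hg.1.aestronglyMeasurable
  have hGm := hg.2.1.aestronglyMeasurable
  refine ⟨?_, ?_, IsWeakGrad.mul_bdd h.2.2 hg fun K _ => ⟨C, ?_⟩⟩
  · refine h.1.of_le_mul (c := C) (hgm.mul h.1.1) ?_
    filter_upwards [h0] with x hx
    rw [norm_mul]
    exact mul_le_mul_of_nonneg_right hx (norm_nonneg _)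
  · refine MemLp.add ?_ ?_
    · refine h.2.1.of_le_mul (c := C) (hgm.smul h.2.1.1) ?_
      filter_upwards [h0] with x hx
      rw [norm_smul]
      exact mul_le_mul_of_nonneg_right hx (norm_nonneg _)
    · refine h.1.of_le_mul (c := C) (h.1.1.smul hGm) ?_
      filter_upwards [h1] with x hx
      rw [norm_smul, mul_comm]
      exact mul_le_mul_of_nonneg_right hx (norm_nonneg _)
  · filter_upwards [h0, h1] with x hx hx' _
    exact ⟨hx, hx'⟩



/-- the regularised distance `ρ(x) = √(1+|x|²)`. -/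
theorem contDiff_japanese : ContDiff ℝ ∞ (fun x : Space => √(1 + ‖x‖ ^ 2)) :=
  (contDiff_const.add (contDiff_norm_sq ℝ)).sqrt fun x => by positivity

theorem fs_gradient_japanese (x : Space) :
    gradient (fun x : Space => √(1 + ‖x‖ ^ 2)) x = (√(1 + ‖x‖ ^ 2))⁻¹ • x := by
  have h1 : HasFDerivAt (fun x : Space => 1 + ‖x‖ ^ 2) (2 • innerSL ℝ x) x :=
    ((hasStrictFDerivAt_norm_sq x).hasFDerivAt).const_add 1
  have h2 := h1.sqrt (by positivity)
  refine HasGradientAt.gradient ?_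
  rw [hasGradientAt_iff_hasFDerivAt]
  have e : (InnerProductSpace.toDual ℝ Space) ((√(1 + ‖x‖ ^ 2))⁻¹ • x)
      = (1 / (2 * √(1 + ‖x‖ ^ 2))) • (2 • innerSL ℝ x : Space →L[ℝ] ℝ) := by
    ext v
    have : √(1 + ‖x‖ ^ 2) ≠ 0 := by positivity
    simp only [InnerProductSpace.toDual_apply_apply, inner_smul_left, smul_apply,
      innerSL_apply_apply, smul_eq_mul, nsmul_eq_mul, RCLike.conj_to_real]
    field_simp
    norm_num
  rw [e]
  exact h2

theorem norm_gradient_japanese_le (x : Space) : ‖gradient (fun x : Space => √(1 + ‖x‖ ^ 2)) x‖ ≤ 1 := by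
  rw [fs_gradient_japanese, norm_smul, norm_inv, Real.norm_eq_abs, abs_of_nonneg (Real.sqrt_nonneg _),
    inv_mul_le_iff₀ (by positivity), mul_one]
  exact Real.le_sqrt_of_sq_le (by linarith)

/-- the Agmon weight `e^{a min(ρ, T)}`: bounded, with bounded weak gradient. -/
theorem isWeakGrad_agmonWeight (a T : ℝ) :
    IsWeakGrad (fun x : Space => Real.exp (a * min (√(1 + ‖x‖ ^ 2)) T))
      (fun x => if √(1 + ‖x‖ ^ 2) < T
        then (a * Real.exp (a * √(1 + ‖x‖ ^ 2))) • gradient (fun x : Space => √(1 + ‖x‖ ^ 2)) x else 0) := by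
  apply isWeakGrad_of_ws
  have h1 : Claimed.Agent.R259.WeakGrad (fun x : Space => √(1 + ‖x‖ ^ 2)) (gradient fun x : Space => √(1 + ‖x‖ ^ 2)) :=
    Claimed.Agent.R259.wsg_of_contDiff (contDiff_japanese.of_le (by simp))
  have h2 := Claimed.Agent.R259.wsg_min_const h1 T
  have hΘ : ContDiff ℝ 1 (fun z : ℝ => Real.exp (a * z)) := Real.contDiff_exp.comp (contDiff_const.mul contDiff_id)
  have h3 := Claimed.Agent.R259.wsg_comp_Icc (Θ := fun z : ℝ => Real.exp (a * z)) (a := min 1 T) (b := T) h2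
    (Eventually.of_forall fun x => ⟨?_, min_le_right _ _⟩) hΘ.contDiffOn
  · refine Claimed.Agent.R259.wsg_congr h3 (Eventually.of_forall fun x => rfl) (Eventually.of_forall fun x => ?_)
    have hder : ∀ z : ℝ, deriv (fun z : ℝ => Real.exp (a * z)) z = a * Real.exp (a * z) := by
      intro z
      have : HasDerivAt (fun z : ℝ => Real.exp (a * z)) (Real.exp (a * z) * (a * 1)) z :=
        ((hasDerivAt_id z).const_mul a).exp
      rw [this.deriv]
      ring
    simp only [hder]
    by_cases hx : √(1 + ‖x‖ ^ 2) < T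
    · rw [if_pos hx, indicator_of_mem (by simpa using hx), min_eq_left hx.le]
    · rw [if_neg hx, indicator_of_notMem (by simpa using hx), smul_zero]
  · refine min_le_min_right _ ?_
    exact Real.le_sqrt_of_sq_le (by nlinarith [sq_nonneg ‖x‖])

end T3

end Claimed.Open.R278
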