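import Claimed.Open.R278.FSH2

/-!
# Result 278, kit SL: the embedding `H²(ℝ³; H) ⊂ C_b` with a modulus of continuity (Hilbert valued)

(Parts (a), (b) of BP-SL = slices `Space → K` and the `W^{k+3,1} → C^k` embedding are in helper9's `AGSlice`, `AGEmbed`;
part (c) = Newton potential: `Claimed/Agent/R259/Reg*.lean`, used directly by the angle layer.)

ROUTE (Fourier, Mathlib only).  `H` a COMPLEX Hilbert space.  For `u ∈ C_c^∞(ℝ³; H)` (a Schwartz function:
`HasCompactSupport.toSchwartzMap`) Fourier inversion gives `u x = ∫ e^{2πi⟨x,ξ⟩} û(ξ) dξ`, so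
  `‖u x‖ ≤ ∫ ‖û‖ ≤ (∫ (1+‖ξ‖²)⁻²)^{1/2} ‖(1+‖ξ‖²) û‖₂`,   `(1+‖ξ‖²) û = 𝓕 (u - (2π)⁻² Δu)`
(`SchwartzMap.laplacian_eq_fourierMultiplierCLM`), and Plancherel (`SchwartzMap.toLp_fourier_eq`, `Lp.norm_fourier_eq`).
The same with `|e^{2πi⟨x,ξ⟩} - e^{2πi⟨y,ξ⟩}| ≤ min(2, 2π‖x-y‖‖ξ‖)` gives the modulus of continuity.
`∫ (1+‖ξ‖²)⁻² < ∞`: `integrable_rpow_neg_one_add_norm_sq`.
General `f`: `u_n = cutoff n • moll .. f` is smooth with compact support, `u_n → f`, `Δ u_n → F` in `L²`; `u_n` is uniformly Cauchy.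

Each section is ONE LEAF.
-/

open MeasureTheory Filter Topology Set
open scoped ContDiff InnerProductSpace Laplacian

noncomputable section

set_option linter.unusedSectionVars false

namespace Claimed.Open.R278

/-- the modulus of continuity of the unit ball of `H²(ℝ³)`. -/
def h2Mod (t : ℝ) : ℝ := √(∫ ξ : Space, min 4 ((2 * Real.pi * t * ‖ξ‖) ^ 2) * ((1 + ‖ξ‖ ^ 2) ^ 2)⁻¹)

/-- the embedding constant. -/
def h2C : ℝ := √(∫ ξ : Space, ((1 + ‖ξ‖ ^ 2) ^ 2)⁻¹)

variable {H : Type*} [NormedAddCommGroup H] [InnerProductSpace ℂ H] [CompleteSpace H]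

/-! ## LEAF SL-E1: the inequalities for smooth compactly supported functions -/

section E1

theorem integrable_h2_weight : Integrable (fun ξ : Space => ((1 + ‖ξ‖ ^ 2) ^ 2)⁻¹) := by
  have h := integrable_rpow_neg_one_add_norm_sq (E := Space) (μ := volume) (r := 4) (by simp; norm_num)
  refine h.congr (Eventually.of_forall fun ξ => ?_)
  have h1 : (0 : ℝ) < 1 + ‖ξ‖ ^ 2 := by positivity
  show (1 + ‖ξ‖ ^ 2) ^ (-(4 : ℝ) / 2) = _
  rw [show (-(4 : ℝ) / 2) = -((2 : ℕ) : ℝ) by norm_num, Real.rpow_neg h1.le, Real.rpow_natCast]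

theorem h2C_nonneg : 0 ≤ h2C := Real.sqrt_nonneg _

theorem h2Mod_nonneg (t : ℝ) : 0 ≤ h2Mod t := Real.sqrt_nonneg _

theorem sl_continuous_min (t : ℝ) : Continuous fun ξ : Space => min 4 ((2 * Real.pi * t * ‖ξ‖) ^ 2) := by
  fun_prop

theorem sl_integrable_mod (t : ℝ) :
    Integrable (fun ξ : Space => min 4 ((2 * Real.pi * t * ‖ξ‖) ^ 2) * ((1 + ‖ξ‖ ^ 2) ^ 2)⁻¹) :=
  integrable_h2_weight.bdd_mul (c := 4) (sl_continuous_min t).aestronglyMeasurable
    (Eventually.of_forall fun ξ => by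
      rw [Real.norm_eq_abs, abs_of_nonneg (le_min (by norm_num) (sq_nonneg _))]
      exact min_le_left _ _)

theorem h2Mod_le (t : ℝ) : h2Mod t ≤ 2 * h2C := by
  have e : 2 * h2C = √(∫ ξ : Space, 4 * ((1 + ‖ξ‖ ^ 2) ^ 2)⁻¹) := by
    rw [integral_const_mul, Real.sqrt_mul (by norm_num), show (4 : ℝ) = 2 ^ 2 by norm_num,
      Real.sqrt_sq (by norm_num)]
    rfl
  rw [e]
  unfold h2Mod
  refine Real.sqrt_le_sqrt (integral_mono (sl_integrable_mod t) (integrable_h2_weight.const_mul 4) fun ξ => ?_)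
  exact mul_le_mul_of_nonneg_right (min_le_left _ _) (by positivity)

theorem h2Mod_mono {s t : ℝ} (hs : 0 ≤ s) (hst : s ≤ t) : h2Mod s ≤ h2Mod t := by
  unfold h2Mod
  refine Real.sqrt_le_sqrt (integral_mono (sl_integrable_mod s) (sl_integrable_mod t) fun ξ => ?_)
  refine mul_le_mul_of_nonneg_right (min_le_min le_rfl ?_) (by positivity)
  have := Real.pi_pos
  gcongr

theorem tendsto_h2Mod : Tendsto h2Mod (𝓝 0) (𝓝 0) := by
  have h1 : Tendsto (fun t : ℝ => ∫ ξ : Space, min 4 ((2 * Real.pi * t * ‖ξ‖) ^ 2) * ((1 + ‖ξ‖ ^ 2) ^ 2)⁻¹)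
      (𝓝 0) (𝓝 (∫ _ξ : Space, (0 : ℝ))) := by
    refine tendsto_integral_filter_of_dominated_convergence (fun ξ : Space => 4 * ((1 + ‖ξ‖ ^ 2) ^ 2)⁻¹)
      (Eventually.of_forall fun t => (sl_integrable_mod t).1) (Eventually.of_forall fun t =>
        Eventually.of_forall fun ξ => ?_) (integrable_h2_weight.const_mul 4) (Eventually.of_forall fun ξ => ?_)
    · rw [Real.norm_eq_abs, abs_of_nonneg (mul_nonneg (le_min (by norm_num) (sq_nonneg _)) (by positivity))]
      exact mul_le_mul_of_nonneg_right (min_le_left _ _) (by positivity)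
    · have hc : Continuous fun t : ℝ => min 4 ((2 * Real.pi * t * ‖ξ‖) ^ 2) * ((1 + ‖ξ‖ ^ 2) ^ 2)⁻¹ := by
        fun_prop
      have := hc.tendsto 0
      simpa using this
  have h2 := (Real.continuous_sqrt.tendsto _).comp h1
  have e : h2Mod = fun t => √(∫ ξ : Space, min 4 ((2 * Real.pi * t * ‖ξ‖) ^ 2) * ((1 + ‖ξ‖ ^ 2) ^ 2)⁻¹) := rfl
  rw [e]
  simpa [Function.comp_def] using h2

open FourierTransform SchwartzMap in
/-- Fourier side description of a smooth compactly supported function. -/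
theorem sl_fourier_key {u : Space → H} (hu : ContDiff ℝ ∞ u) (hc : HasCompactSupport u) :
    ∃ v : Space → H, Continuous v ∧ Integrable v ∧ (∀ x, u x = ∫ ξ, Real.fourierChar ⟪ξ, x⟫_ℝ • v ξ) ∧
      MemLp (fun ξ => (1 + ‖ξ‖ ^ 2) • v ξ) 2 volume ∧
      √(∫ ξ, ‖(1 + ‖ξ‖ ^ 2) • v ξ‖ ^ 2) ≤ √(∫ y, ‖u y‖ ^ 2) + √(∫ y, ‖Δ u y‖ ^ 2) := by
  set S : 𝓢(Space, H) := hc.toSchwartzMap hu with hS
  set c : ℝ := ((2 * Real.pi) ^ 2)⁻¹ with hcdef
  have hc0 : 0 ≤ c := by positivity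
  have hc1 : c ≤ 1 := by
    apply inv_le_one_of_one_le₀
    have := Real.pi_gt_three
    nlinarith
  set T : 𝓢(Space, H) := S + (-c) • Δ S with hT
  have hg : (fun ξ : Space => ‖ξ‖ ^ 2).HasTemperateGrowth := by fun_prop
  have hFT : ∀ ξ, 𝓕 T ξ = (1 + ‖ξ‖ ^ 2) • 𝓕 S ξ := by
    intro ξ
    have h1 : 𝓕 (Δ S) = (-(2 * Real.pi) ^ 2) • smulLeftCLM H (fun ξ : Space => ‖ξ‖ ^ 2) (𝓕 S) := by
      rw [laplacian_eq_fourierMultiplierCLM, fourierMultiplierCLM_apply, FourierTransform.fourier_smul,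
        FourierTransform.fourier_fourierInv_eq]
    rw [hT, FourierTransform.fourier_add, FourierTransform.fourier_smul, h1]
    simp only [add_apply, smul_apply, smulLeftCLM_apply_apply hg, smul_smul]
    have h2 : -c * -(2 * Real.pi) ^ 2 = 1 := by
      rw [hcdef]
      have : (2 * Real.pi) ^ 2 ≠ 0 := by positivity
      field_simp
    rw [h2, add_smul, one_smul, one_mul]
  refine ⟨fun ξ => (𝓕 S : 𝓢(Space, H)) ξ, (𝓕 S : 𝓢(Space, H)).continuous, (𝓕 S : 𝓢(Space, H)).integrable,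
    fun x => ?_, ?_, ?_⟩
  · have h1 : 𝓕⁻ (𝓕 S) = S := FourierTransform.fourierInv_fourier_eq S
    have h2 : u x = (𝓕⁻ (𝓕 S)) x := by rw [h1]; rfl
    rw [h2, fourierInv_coe, Real.fourierInv_eq]
  · have := (𝓕 T).memLp 2 volume
    exact this.ae_eq (Eventually.of_forall hFT)
  · simp only [← hFT]
    rw [integral_norm_sq_fourier T]
    have mS : MemLp (S : Space → H) 2 volume := S.memLp 2 volume
    set DS : 𝓢(Space, H) := Δ S with hDS
    have mD : MemLp (DS : Space → H) 2 volume := DS.memLp 2 volume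
    have h3 : √(∫ y, ‖T y‖ ^ 2) ≤ √(∫ y, ‖S y‖ ^ 2) + c * √(∫ y, ‖DS y‖ ^ 2) := by
      have m2 := mD.const_smul c
      rw [← fs_norm_toLp mS, ← fs_norm_toLp mD, ← fs_norm_toLp (T.memLp 2 volume)]
      have e2 : (T.memLp 2 volume).toLp T = mS.toLp S + (-c) • mD.toLp DS := rfl
      rw [e2]
      refine (norm_add_le _ _).trans ?_
      rw [norm_smul, Real.norm_eq_abs, abs_neg, abs_of_nonneg hc0]
    have e3 : ∀ y, DS y = Δ u y := fun y => SchwartzMap.laplacian_apply S y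
    simp only [e3] at h3
    refine h3.trans (add_le_add le_rfl (mul_le_of_le_one_left (Real.sqrt_nonneg _) hc1))

/-- weighted Cauchy–Schwarz on the Fourier side. -/
theorem sl_weighted_cs {v : Space → H} (hv : MemLp (fun ξ => (1 + ‖ξ‖ ^ 2) • v ξ) 2 volume) {m : Space → ℝ}
    (hm : Continuous m) (hm0 : ∀ ξ, 0 ≤ m ξ) (hi : Integrable (fun ξ => m ξ ^ 2 * ((1 + ‖ξ‖ ^ 2) ^ 2)⁻¹)) :
    Integrable (fun ξ => m ξ * ‖v ξ‖) ∧
      ∫ ξ, m ξ * ‖v ξ‖ ≤ √(∫ ξ, m ξ ^ 2 * ((1 + ‖ξ‖ ^ 2) ^ 2)⁻¹) * √(∫ ξ, ‖(1 + ‖ξ‖ ^ 2) • v ξ‖ ^ 2) := by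
  have hac : Continuous fun ξ : Space => m ξ * (1 + ‖ξ‖ ^ 2)⁻¹ :=
    hm.mul (Continuous.inv₀ (by fun_prop) fun ξ => by positivity)
  have ha : MemLp (fun ξ : Space => m ξ * (1 + ‖ξ‖ ^ 2)⁻¹) 2 volume := by
    rw [memLp_two_iff_integrable_sq hac.aestronglyMeasurable]
    refine hi.congr (Eventually.of_forall fun ξ => ?_)
    show m ξ ^ 2 * ((1 + ‖ξ‖ ^ 2) ^ 2)⁻¹ = (m ξ * (1 + ‖ξ‖ ^ 2)⁻¹) ^ 2
    rw [mul_pow, inv_pow]
  obtain ⟨i1, l1⟩ := fs_cs ha hv
  have e1 : ∀ ξ : Space, ‖m ξ * (1 + ‖ξ‖ ^ 2)⁻¹‖ * ‖(1 + ‖ξ‖ ^ 2) • v ξ‖ = m ξ * ‖v ξ‖ := by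
    intro ξ
    have h1 : (0 : ℝ) < 1 + ‖ξ‖ ^ 2 := by positivity
    rw [norm_smul, Real.norm_eq_abs, Real.norm_eq_abs, abs_of_pos h1,
      abs_of_nonneg (mul_nonneg (hm0 ξ) (inv_nonneg.2 h1.le))]
    field_simp
  have e2 : ∀ ξ : Space, ‖m ξ * (1 + ‖ξ‖ ^ 2)⁻¹‖ ^ 2 = m ξ ^ 2 * ((1 + ‖ξ‖ ^ 2) ^ 2)⁻¹ := by
    intro ξ
    rw [Real.norm_eq_abs, sq_abs, mul_pow, inv_pow]
  simp only [e1, e2] at i1 l1
  exact ⟨i1, l1⟩

theorem norm_le_of_smooth {u : Space → H} (hu : ContDiff ℝ ∞ u) (hc : HasCompactSupport u) (x : Space) :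
    ‖u x‖ ≤ h2C * (√(∫ y, ‖u y‖ ^ 2) + √(∫ y, ‖Δ u y‖ ^ 2)) := by
  obtain ⟨v, -, -, hinv, hm, hle⟩ := sl_fourier_key hu hc
  obtain ⟨i1, l1⟩ := sl_weighted_cs hm (m := fun _ => 1) continuous_const (fun _ => zero_le_one)
    (by simpa using integrable_h2_weight)
  simp only [one_mul, one_pow] at i1 l1
  rw [hinv x]
  calc ‖∫ ξ, Real.fourierChar ⟪ξ, x⟫_ℝ • v ξ‖ ≤ ∫ ξ, ‖Real.fourierChar ⟪ξ, x⟫_ℝ • v ξ‖ :=
        norm_integral_le_integral_norm _
    _ = ∫ ξ, ‖v ξ‖ := by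
        refine integral_congr_ae (Eventually.of_forall fun ξ => ?_)
        show ‖Real.fourierChar ⟪ξ, x⟫_ℝ • v ξ‖ = ‖v ξ‖
        rw [Circle.smul_def, norm_smul, Circle.norm_coe, one_mul]
    _ ≤ _ := l1
    _ ≤ _ := mul_le_mul_of_nonneg_left hle (Real.sqrt_nonneg _)

theorem sl_char_sub_le (a b : ℝ) :
    ‖(Real.fourierChar a : ℂ) - Real.fourierChar b‖ ≤ √(min 4 ((2 * Real.pi * (a - b)) ^ 2)) := by
  apply Real.le_sqrt_of_sq_le
  refine le_min ?_ ?_
  · have h1 : ‖(Real.fourierChar a : ℂ) - Real.fourierChar b‖ ≤ 1 + 1 := by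
      refine (norm_sub_le _ _).trans ?_
      rw [Circle.norm_coe, Circle.norm_coe]
    have h0 := norm_nonneg ((Real.fourierChar a : ℂ) - Real.fourierChar b)
    nlinarith
  · have h1 : (Real.fourierChar a : ℂ) - Real.fourierChar b
        = Real.fourierChar b * (Complex.exp (Complex.I * ((2 * Real.pi * (a - b) : ℝ) : ℂ)) - 1) := by
      rw [Real.fourierChar_apply, Real.fourierChar_apply, mul_sub, mul_one, ← Complex.exp_add]
      congr 2
      push_cast
      ring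
    rw [h1, norm_mul, Circle.norm_coe, one_mul, ← sq_abs (2 * Real.pi * (a - b))]
    exact pow_le_pow_left₀ (norm_nonneg _) Real.norm_exp_I_mul_ofReal_sub_one_le 2

theorem norm_sub_le_of_smooth {u : Space → H} (hu : ContDiff ℝ ∞ u) (hc : HasCompactSupport u) (x y : Space) :
    ‖u x - u y‖ ≤ h2Mod ‖x - y‖ * (√(∫ y, ‖u y‖ ^ 2) + √(∫ y, ‖Δ u y‖ ^ 2)) := by
  obtain ⟨v, hvc, hvi, hinv, hm, hle⟩ := sl_fourier_key hu hc
  set t := ‖x - y‖ with ht
  have hsq : ∀ ξ : Space, √(min 4 ((2 * Real.pi * t * ‖ξ‖) ^ 2)) ^ 2 = min 4 ((2 * Real.pi * t * ‖ξ‖) ^ 2) :=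
    fun ξ => Real.sq_sqrt (le_min (by norm_num) (sq_nonneg _))
  obtain ⟨i1, l1⟩ := sl_weighted_cs hm (m := fun ξ => √(min 4 ((2 * Real.pi * t * ‖ξ‖) ^ 2)))
    (Real.continuous_sqrt.comp (sl_continuous_min t)) (fun _ => Real.sqrt_nonneg _)
    (by simpa only [hsq] using sl_integrable_mod t)
  simp only [hsq] at l1
  have hI : ∀ z : Space, Integrable (fun ξ => Real.fourierChar ⟪ξ, z⟫_ℝ • v ξ) volume := by
    intro z
    refine hvi.norm.mono' ?_ (Eventually.of_forall fun ξ => ?_)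
    · have h1 : Continuous fun ξ : Space => (Real.fourierChar ⟪ξ, z⟫_ℝ : ℂ) • v ξ := by
        have : Continuous fun ξ : Space => (Real.fourierChar ⟪ξ, z⟫_ℝ : ℂ) :=
          continuous_induced_dom.comp (Real.continuous_fourierChar.comp (by fun_prop))
        exact this.smul hvc
      exact h1.aestronglyMeasurable
    · rw [Circle.smul_def, norm_smul, Circle.norm_coe, one_mul]
  rw [hinv x, hinv y, ← integral_sub (hI x) (hI y)]
  calc ‖∫ ξ, (Real.fourierChar ⟪ξ, x⟫_ℝ • v ξ - Real.fourierChar ⟪ξ, y⟫_ℝ • v ξ)‖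
      ≤ ∫ ξ, ‖Real.fourierChar ⟪ξ, x⟫_ℝ • v ξ - Real.fourierChar ⟪ξ, y⟫_ℝ • v ξ‖ :=
        norm_integral_le_integral_norm _
    _ ≤ ∫ ξ, √(min 4 ((2 * Real.pi * t * ‖ξ‖) ^ 2)) * ‖v ξ‖ := by
        refine integral_mono_of_nonneg (Eventually.of_forall fun ξ => norm_nonneg _) i1
          (Eventually.of_forall fun ξ => ?_)
        show ‖Real.fourierChar ⟪ξ, x⟫_ℝ • v ξ - Real.fourierChar ⟪ξ, y⟫_ℝ • v ξ‖ ≤ _
        rw [Circle.smul_def, Circle.smul_def, ← sub_smul, norm_smul]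
        refine mul_le_mul_of_nonneg_right ((sl_char_sub_le _ _).trans (Real.sqrt_le_sqrt ?_)) (norm_nonneg _)
        refine min_le_min le_rfl ?_
        rw [← inner_sub_right, ← sq_abs (2 * Real.pi * ⟪ξ, x - y⟫_ℝ), abs_mul,
          abs_of_pos (by positivity : (0 : ℝ) < 2 * Real.pi)]
        refine pow_le_pow_left₀ (by positivity) ?_ 2
        rw [mul_assoc (2 * Real.pi) t]
        refine mul_le_mul_of_nonneg_left ?_ (by positivity : (0 : ℝ) ≤ 2 * Real.pi)
        rw [mul_comm]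
        exact abs_real_inner_le_norm _ _
    _ ≤ _ := l1
    _ ≤ _ := mul_le_mul_of_nonneg_left hle (Real.sqrt_nonneg _)

end E1

/-! ## LEAF SL-E2: the continuous representative of an `H²` function -/

section E2

open scoped ZeroAtInfty

section gen
variable {X : Type*} [NormedAddCommGroup X] [NormedSpace ℝ X] [FiniteDimensional ℝ X]
  [MeasurableSpace X] [BorelSpace X] {μ : Measure X} [μ.IsAddHaarMeasure]
  {E : Type*} [NormedAddCommGroup E] [NormedSpace ℝ E] [CompleteSpace E]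

theorem sl_fderiv_fderiv_cutoff (n : ℕ) (x v : X) :
    fderiv ℝ (fun y => fderiv ℝ (cutoff n) y v) x v
      = (((n : ℝ) + 1)⁻¹) ^ 2 * fderiv ℝ (fun z => fderiv ℝ (cutBump : ContDiffBump (0 : X)) z v)
          (((n : ℝ) + 1)⁻¹ • x) v := by
  have e : (fun y => fderiv ℝ (cutoff n) y v)
      = fun y : X => ((n : ℝ) + 1)⁻¹ * fderiv ℝ (cutBump : ContDiffBump (0 : X)) (((n : ℝ) + 1)⁻¹ • y) v :=
    funext fun y => fderiv_cutoff n y v
  rw [e]
  have hD : ContDiff ℝ ∞ fun z => fderiv ℝ (cutBump : ContDiffBump (0 : X)) z v :=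
    fs_contDiff_d (cutBump : ContDiffBump (0 : X)).contDiff v
  have h1 : HasFDerivAt (fun y : X => ((n : ℝ) + 1)⁻¹ • y)
      (((n : ℝ) + 1)⁻¹ • ContinuousLinearMap.id ℝ X) x := (hasFDerivAt_id x).const_smul _
  have h2 := (hD.differentiable (by simp) (((n : ℝ) + 1)⁻¹ • x)).hasFDerivAt
  have h3 := (h2.comp x h1).const_mul (((n : ℝ) + 1)⁻¹)
  have h4 : fderiv ℝ (fun y : X => ((n : ℝ) + 1)⁻¹
      * fderiv ℝ (cutBump : ContDiffBump (0 : X)) (((n : ℝ) + 1)⁻¹ • y) v) x = _ := h3.fderiv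
  rw [h4]
  simp only [smul_apply, ContinuousLinearMap.comp_apply, ContinuousLinearMap.id_apply, map_smul, smul_eq_mul]
  ring

theorem sl_exists_bound2 (v : X) :
    ∃ C : ℝ, 0 ≤ C ∧ ∀ y : X, |fderiv ℝ (fun z => fderiv ℝ (cutBump : ContDiffBump (0 : X)) z v) y v| ≤ C := by
  have hD : ContDiff ℝ ∞ fun z => fderiv ℝ (cutBump : ContDiffBump (0 : X)) z v :=
    fs_contDiff_d (cutBump : ContDiffBump (0 : X)).contDiff v
  have hc : Continuous fun y : X => fderiv ℝ (fun z => fderiv ℝ (cutBump : ContDiffBump (0 : X)) z v) y v :=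
    fs_cont_d (hD.of_le fs_one_le) v
  have hs : HasCompactSupport
      fun y : X => fderiv ℝ (fun z => fderiv ℝ (cutBump : ContDiffBump (0 : X)) z v) y v :=
    ((cutBump : ContDiffBump (0 : X)).hasCompactSupport.fderiv_apply (𝕜 := ℝ) v).fderiv_apply (𝕜 := ℝ) v
  obtain ⟨C, hC⟩ := hs.exists_bound_of_continuous hc
  exact ⟨C, (norm_nonneg _).trans (hC 0), hC⟩

/-- `L²` null sequences. -/
def TZ (μ : Measure X) (a : ℕ → X → E) : Prop :=
  (∀ n, MemLp (a n) 2 μ) ∧ Tendsto (fun n => ∫ x, ‖a n x‖ ^ 2 ∂μ) atTop (𝓝 0)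

theorem TZ.add {a b : ℕ → X → E} (ha : TZ μ a) (hb : TZ μ b) : TZ μ (fun n x => a n x + b n x) := by
  refine ⟨fun n => (ha.1 n).add (hb.1 n), ?_⟩
  have h2 : Tendsto (fun n => 2 * ∫ x, ‖a n x‖ ^ 2 ∂μ + 2 * ∫ x, ‖b n x‖ ^ 2 ∂μ) atTop (𝓝 0) := by
    simpa using (ha.2.const_mul 2).add (hb.2.const_mul 2)
  refine squeeze_zero (fun n => integral_nonneg fun x => sq_nonneg _) (fun n => ?_) h2
  have i1 := (memLp_two_iff_integrable_sq_norm (ha.1 n).1).1 (ha.1 n)
  have i2 := (memLp_two_iff_integrable_sq_norm (hb.1 n).1).1 (hb.1 n)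
  rw [← integral_const_mul, ← integral_const_mul, ← integral_add (i1.const_mul 2) (i2.const_mul 2)]
  refine integral_mono_of_nonneg (Eventually.of_forall fun x => sq_nonneg _)
    ((i1.const_mul 2).add (i2.const_mul 2)) (Eventually.of_forall fun x => ?_)
  show ‖a n x + b n x‖ ^ 2 ≤ 2 * ‖a n x‖ ^ 2 + 2 * ‖b n x‖ ^ 2
  have h5 : ‖a n x + b n x‖ ^ 2 ≤ (‖a n x‖ + ‖b n x‖) ^ 2 := pow_le_pow_left₀ (norm_nonneg _) (norm_add_le _ _) 2
  nlinarith [sq_nonneg (‖a n x‖ - ‖b n x‖)]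

theorem TZ.zero : TZ μ (fun _ _ => (0 : E)) := ⟨fun _ => MemLp.zero, by simp⟩

theorem TZ.sum {ι : Type*} (s : Finset ι) {a : ι → ℕ → X → E} (h : ∀ i ∈ s, TZ μ (a i)) :
    TZ μ (fun n x => ∑ i ∈ s, a i n x) := by
  classical
  induction s using Finset.induction_on with
  | empty => simpa using TZ.zero
  | insert i s hi ih =>
    simp only [Finset.sum_insert hi]
    exact (h i (Finset.mem_insert_self i s)).add (ih fun j hj => h j (Finset.mem_insert_of_mem hj))

/-- small continuous coefficients. -/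
theorem TZ.of_coeff {c : ℕ → X → ℝ} (hc : ∀ n, Continuous (c n)) {δ : ℕ → ℝ} (hδ : Tendsto δ atTop (𝓝 0))
    (hb : ∀ n x, |c n x| ≤ δ n) {f : X → E} (hf : MemLp f 2 μ) : TZ μ (fun n x => c n x • f x) := by
  refine ⟨fun n => fs_memLp_smul_of_bdd hf (hc n) (hb n), ?_⟩
  have h2 : Tendsto (fun n => δ n ^ 2 * ∫ x, ‖f x‖ ^ 2 ∂μ) atTop (𝓝 0) := by
    simpa using (hδ.pow 2).mul_const (∫ x, ‖f x‖ ^ 2 ∂μ)
  refine squeeze_zero (fun n => integral_nonneg fun x => sq_nonneg _) (fun n => ?_) h2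
  have i1 := (memLp_two_iff_integrable_sq_norm hf.1).1 hf
  rw [← integral_const_mul]
  refine integral_mono_of_nonneg (Eventually.of_forall fun x => sq_nonneg _) (i1.const_mul _)
    (Eventually.of_forall fun x => ?_)
  show ‖c n x • f x‖ ^ 2 ≤ δ n ^ 2 * ‖f x‖ ^ 2
  rw [norm_smul, mul_pow, Real.norm_eq_abs]
  exact mul_le_mul_of_nonneg_right (pow_le_pow_left₀ (abs_nonneg _) (hb n x) 2) (sq_nonneg _)

theorem TZ.cutoff {f : X → E} (hf : MemLp f 2 μ) : TZ μ (fun n x => (Claimed.Open.R278.cutoff n x - 1) • f x) := by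
  refine ⟨fun n => fs_memLp_smul_of_bdd (C := 1) hf ((contDiff_cutoff n).continuous.sub continuous_const)
    fun x => ?_, ?_⟩
  · have h0 := cutoff_nonneg n x
    have h1 := cutoff_le_one n x
    rw [abs_le]; constructor <;> linarith
  · refine (tendsto_integral_one_sub_cutoff hf).congr fun n => ?_
    refine integral_congr_ae (Eventually.of_forall fun x => ?_)
    show (1 - Claimed.Open.R278.cutoff n x) ^ 2 * ‖f x‖ ^ 2 = ‖(Claimed.Open.R278.cutoff n x - 1) • f x‖ ^ 2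
    rw [norm_smul, mul_pow, Real.norm_eq_abs, sq_abs]
    ring

variable {ι : Type*} [Fintype ι]

/-- product rule for the weak divergence of the gradient: `Δ(χ f) = χ F + 2 ∑ ∂ⱼχ gⱼ + (Δχ) f`. -/
theorem HasWeakDiv.smul_grad {v : ι → X} {f : X → E} {g : ι → X → E} {F : X → E}
    (h : ∀ j, WD μ (v j) f (g j)) (hf : LocallyIntegrable f μ) (hF : LocallyIntegrable F μ)
    (hdiv : HasWeakDiv μ v g F) {χ : X → ℝ} (hχ : ContDiff ℝ ∞ χ) :
    HasWeakDiv μ v (fun j x => fderiv ℝ χ x (v j) • f x + χ x • g j x)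
      (fun x => χ x • F x + (∑ j, (2 * fderiv ℝ χ x (v j)) • g j x)
        + (∑ j, fderiv ℝ (fun y => fderiv ℝ χ y (v j)) x (v j)) • f x) := by
  intro φ hφ hc
  have hφ1 : ContDiff ℝ 1 φ := hφ.of_le fs_one_le
  have hχ1 : ContDiff ℝ 1 χ := hχ.of_le fs_one_le
  have hdχ : ∀ j, ContDiff ℝ ∞ fun x => fderiv ℝ χ x (v j) := fun j => fs_contDiff_d hχ (v j)
  have hdχ1 : ∀ j, ContDiff ℝ 1 fun x => fderiv ℝ χ x (v j) := fun j => (hdχ j).of_le fs_one_le
  have cφ := hφ1.continuous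
  have cχ := hχ1.continuous
  have cdφ : ∀ j, Continuous fun x => fderiv ℝ φ x (v j) := fun j => fs_cont_d hφ1 _
  have cdχ : ∀ j, Continuous fun x => fderiv ℝ χ x (v j) := fun j => fs_cont_d hχ1 _
  have cddχ : ∀ j, Continuous fun x => fderiv ℝ (fun y => fderiv ℝ χ y (v j)) x (v j) := fun j =>
    fs_cont_d (hdχ1 j) _
  have sdφ : ∀ j, HasCompactSupport fun x => fderiv ℝ φ x (v j) := fun j => hc.fderiv_apply (𝕜 := ℝ) _
  -- the five families of integrals
  have iA : ∀ j, Integrable (fun x => (fderiv ℝ φ x (v j) * fderiv ℝ χ x (v j)) • f x) μ := fun j =>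
    fs_int hf ((cdφ j).mul (cdχ j)) (sdφ j).mul_right
  have iB : ∀ j, Integrable (fun x => (fderiv ℝ φ x (v j) * χ x) • g j x) μ := fun j =>
    fs_int (h j).locg ((cdφ j).mul cχ) (sdφ j).mul_right
  have iC : ∀ j, Integrable (fun x => (φ x * fderiv ℝ χ x (v j)) • g j x) μ := fun j =>
    fs_int (h j).locg (cφ.mul (cdχ j)) hc.mul_right
  have iD : ∀ j, Integrable
      (fun x => (φ x * fderiv ℝ (fun y => fderiv ℝ χ y (v j)) x (v j)) • f x) μ := fun j =>
    fs_int hf (cφ.mul (cddχ j)) hc.mul_right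
  have iF : Integrable (fun x => (φ x * χ x) • F x) μ := fs_int hF (cφ.mul cχ) hc.mul_right
  -- (1) the divergence identity tested with `φ χ`
  have k1 : ∑ j, ((∫ x, (φ x * fderiv ℝ χ x (v j)) • g j x ∂μ) + ∫ x, (fderiv ℝ φ x (v j) * χ x) • g j x ∂μ)
      = - ∫ x, (φ x * χ x) • F x ∂μ := by
    have := hdiv (fun x => φ x * χ x) (hφ.mul hχ) hc.mul_right
    rw [← this]
    refine Finset.sum_congr rfl fun j _ => ?_
    rw [← integral_add (iC j) (iB j)]
    refine integral_congr_ae (Eventually.of_forall fun x => ?_)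
    have e : fderiv ℝ (fun x => φ x * χ x) x (v j) = φ x * fderiv ℝ χ x (v j) + fderiv ℝ φ x (v j) * χ x := by
      rw [fderiv_fun_mul (hφ1.differentiable one_ne_zero x) (hχ1.differentiable one_ne_zero x)]
      simp [mul_comm]
    show _ = fderiv ℝ (fun x => φ x * χ x) x (v j) • g j x
    rw [e, add_smul]
  -- (2) the weak derivative of `f` tested with `φ ∂ⱼχ`
  have k2 : ∀ j, (∫ x, (φ x * fderiv ℝ (fun y => fderiv ℝ χ y (v j)) x (v j)) • f x ∂μ)
      + ∫ x, (fderiv ℝ φ x (v j) * fderiv ℝ χ x (v j)) • f x ∂μ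
      = - ∫ x, (φ x * fderiv ℝ χ x (v j)) • g j x ∂μ := by
    intro j
    have := (h j).weak (fun x => φ x * fderiv ℝ χ x (v j)) (hφ.mul (hdχ j)) hc.mul_right
    rw [← this, ← integral_add (iD j) (iA j)]
    refine integral_congr_ae (Eventually.of_forall fun x => ?_)
    have e : fderiv ℝ (fun x => φ x * fderiv ℝ χ x (v j)) x (v j)
        = φ x * fderiv ℝ (fun y => fderiv ℝ χ y (v j)) x (v j) + fderiv ℝ φ x (v j) * fderiv ℝ χ x (v j) := by
      rw [fderiv_fun_mul (hφ1.differentiable one_ne_zero x) ((hdχ1 j).differentiable one_ne_zero x)]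
      simp [mul_comm]
    show _ = fderiv ℝ (fun x => φ x * fderiv ℝ χ x (v j)) x (v j) • f x
    rw [e, add_smul]
  -- left-hand side
  have l1 : ∀ j, ∫ x, fderiv ℝ φ x (v j) • (fderiv ℝ χ x (v j) • f x + χ x • g j x) ∂μ
      = (∫ x, (fderiv ℝ φ x (v j) * fderiv ℝ χ x (v j)) • f x ∂μ)
        + ∫ x, (fderiv ℝ φ x (v j) * χ x) • g j x ∂μ := by
    intro j
    rw [← integral_add (iA j) (iB j)]
    refine integral_congr_ae (Eventually.of_forall fun x => ?_)
    simp only [smul_add, smul_smul]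
  -- right-hand side
  have r1 : ∫ x, φ x • (χ x • F x + (∑ j, (2 * fderiv ℝ χ x (v j)) • g j x)
        + (∑ j, fderiv ℝ (fun y => fderiv ℝ χ y (v j)) x (v j)) • f x) ∂μ
      = (∫ x, (φ x * χ x) • F x ∂μ) + (∑ j, (2 : ℝ) • ∫ x, (φ x * fderiv ℝ χ x (v j)) • g j x ∂μ)
        + ∑ j, ∫ x, (φ x * fderiv ℝ (fun y => fderiv ℝ χ y (v j)) x (v j)) • f x ∂μ := by
    have iC2 : ∀ j, Integrable (fun x => (2 : ℝ) • (φ x * fderiv ℝ χ x (v j)) • g j x) μ := fun j =>
      (iC j).smul (2 : ℝ)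
    simp only [← integral_smul]
    have iS1 : Integrable (fun x => ∑ j, (2 : ℝ) • (φ x * fderiv ℝ χ x (v j)) • g j x) μ :=
      integrable_finsetSum _ fun j _ => iC2 j
    have iS2 : Integrable
        (fun x => ∑ j, (φ x * fderiv ℝ (fun y => fderiv ℝ χ y (v j)) x (v j)) • f x) μ :=
      integrable_finsetSum _ fun j _ => iD j
    have iS3 : Integrable (fun x => (φ x * χ x) • F x
        + ∑ j, (2 : ℝ) • (φ x * fderiv ℝ χ x (v j)) • g j x) μ := iF.add iS1
    rw [← integral_finsetSum _ fun j _ => iC2 j, ← integral_finsetSum _ fun j _ => iD j,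
      ← integral_add iF iS1, ← integral_add iS3 iS2]
    refine integral_congr_ae (Eventually.of_forall fun x => ?_)
    simp only [smul_add, smul_smul, Finset.smul_sum, Finset.sum_smul]
    congr 2
    refine Finset.sum_congr rfl fun j _ => ?_
    congr 1
    ring
  simp only [l1]
  rw [r1, Finset.sum_add_distrib]
  have k2' : ∑ j, ∫ x, (fderiv ℝ φ x (v j) * fderiv ℝ χ x (v j)) • f x ∂μ
      = - (∑ j, ∫ x, (φ x * fderiv ℝ χ x (v j)) • g j x ∂μ)
        - ∑ j, ∫ x, (φ x * fderiv ℝ (fun y => fderiv ℝ χ y (v j)) x (v j)) • f x ∂μ := by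
    rw [← Finset.sum_neg_distrib, ← Finset.sum_sub_distrib]
    refine Finset.sum_congr rfl fun j _ => ?_
    rw [← k2 j]; abel
  rw [Finset.sum_add_distrib] at k1
  have k1' : ∑ j, ∫ x, (fderiv ℝ φ x (v j) * χ x) • g j x ∂μ
      = - (∫ x, (φ x * χ x) • F x ∂μ) - ∑ j, ∫ x, (φ x * fderiv ℝ χ x (v j)) • g j x ∂μ := by
    rw [← k1]; abel
  rw [k2', k1']
  simp only [two_smul, Finset.sum_add_distrib]
  abel

end gen

/-- the Laplacian as the sum of the iterated directional derivatives. -/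
theorem sl_laplacian_eq {u : Space → H} (hu : ContDiff ℝ ∞ u) (x : Space) :
    Δ u x = ∑ a, fderiv ℝ (fun y => fderiv ℝ u y (eA a)) x (eA a) := by
  rw [InnerProductSpace.laplacian_eq_iteratedFDeriv_orthonormalBasis u (EuclideanSpace.basisFun (Fin 3) ℝ)]
  refine Finset.sum_congr rfl fun a _ => ?_
  rw [iteratedFDeriv_two_apply]
  have hd : DifferentiableAt ℝ (fderiv ℝ u) x :=
    ((hu.fderiv_right (m := ∞) (by simp)).differentiable (by simp)) x
  have := (hd.hasFDerivAt.clm_apply (hasFDerivAt_const (eA a) x)).fderiv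
  rw [this]
  simp

/-- mollification of a compactly supported `H²` function. -/
theorem sl_moll_step {f : Space → H} {g : Fin 3 → Space → H} {F : Space → H}
    (h : ∀ a, WD2 volume (eA a) f (g a)) (hdiv : HasWeakDiv volume eA g F) (hc : HasCompactSupport f) (k : ℕ) :
    ContDiff ℝ ∞ (moll volume (mollSeq volume k) f) ∧ HasCompactSupport (moll volume (mollSeq volume k) f) ∧
      ∀ x, Δ (moll volume (mollSeq volume k) f) x = moll volume (mollSeq volume k) F x := by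
  have hfl := (h 0).wd.locf
  have hs : ContDiff ℝ ∞ (moll volume (mollSeq volume k) f) :=
    contDiff_moll (contDiff_mollSeq k) (hasCompactSupport_mollSeq k) hfl
  refine ⟨hs, ?_, fun x => ?_⟩
  · exact HasCompactSupport.convolution _ (hasCompactSupport_mollSeq k) hc
  · rw [sl_laplacian_eq hs]
    have e : ∀ a, (fun y => fderiv ℝ (moll volume (mollSeq volume k) f) y (eA a))
        = moll volume (mollSeq volume k) (g a) := fun a => funext fun y =>
      fderiv_moll (contDiff_mollSeq k) (hasCompactSupport_mollSeq k) hfl (h a).weak y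
    simp only [e]
    exact hdiv.moll (fun a => (h a).wd.locg) (contDiff_mollSeq (μ := (volume : Measure Space)) k)
      (hasCompactSupport_mollSeq k) x


theorem sl_tendsto_inv : Tendsto (fun n : ℕ => ((n : ℝ) + 1)⁻¹) atTop (𝓝 0) := by
  simpa [one_div] using tendsto_one_div_add_atTop_nhds_zero_nat (𝕜 := ℝ)

theorem exists_seq_smooth_laplacian {f : Space → H} {g : Fin 3 → Space → H} {F : Space → H}
    (h : ∀ a, WD2 volume (eA a) f (g a)) (hF : MemLp F 2 volume) (hdiv : HasWeakDiv volume eA g F) :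
    ∃ u : ℕ → Space → H, (∀ n, ContDiff ℝ ∞ (u n)) ∧ (∀ n, HasCompactSupport (u n)) ∧
      Tendsto (fun n => ∫ x, ‖u n x - f x‖ ^ 2) atTop (𝓝 0) ∧
      Tendsto (fun n => ∫ x, ‖Δ (u n) x - F x‖ ^ 2) atTop (𝓝 0) := by
  have hf2 := (h 0).memf
  set χ : ℕ → Space → ℝ := fun n => cutoff n with hχdef
  set fn : ℕ → Space → H := fun n x => χ n x • f x with hfn
  set gn : ℕ → Fin 3 → Space → H := fun n a x => fderiv ℝ (χ n) x (eA a) • f x + χ n x • g a x with hgn
  set Fn : ℕ → Space → H := fun n x => χ n x • F x + (∑ a, (2 * fderiv ℝ (χ n) x (eA a)) • g a x)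
    + (∑ a, fderiv ℝ (fun y => fderiv ℝ (χ n) y (eA a)) x (eA a)) • f x with hFn
  have hχ : ∀ n, ContDiff ℝ ∞ (χ n) := fun n => contDiff_cutoff n
  have hχ1 : ∀ n, ContDiff ℝ 1 (χ n) := fun n => (hχ n).of_le fs_one_le
  have hw : ∀ n a, WD2 volume (eA a) (fn n) (gn n a) := fun n a =>
    WD.smul_left_wd2 (h a).wd (MemLp.l2Loc (h a).memf) (MemLp.l2Loc (h a).memg) (hχ1 n)
      (hasCompactSupport_cutoff n)
  have hd : ∀ n, HasWeakDiv volume eA (gn n) (Fn n) := fun n =>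
    HasWeakDiv.smul_grad (fun a => (h a).wd) (hf2.locallyIntegrable (by norm_num))
      (hF.locallyIntegrable (by norm_num)) hdiv (hχ n)
  have hcs : ∀ n, HasCompactSupport (fn n) := fun n => (hasCompactSupport_cutoff n).smul_right
  -- null sequences
  have z1 : TZ volume (fun n x => fn n x - f x) := by
    have := TZ.cutoff (μ := (volume : Measure Space)) hf2
    simpa only [sub_smul, one_smul] using this
  choose C1 hC10 hC1 using fun a : Fin 3 => exists_fderiv_cutBump_bound (X := Space) (eA a)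
  choose C2 hC20 hC2 using fun a : Fin 3 => sl_exists_bound2 (X := Space) (eA a)
  have z2a : ∀ a, TZ volume (fun n x => (2 * fderiv ℝ (χ n) x (eA a)) • g a x) := by
    intro a
    refine TZ.of_coeff (c := fun n x => 2 * fderiv ℝ (χ n) x (eA a)) (δ := fun n => 2 * (((n : ℝ) + 1)⁻¹ * C1 a))
      (fun n => continuous_const.mul (fs_cont_d (hχ1 n) _)) ?_ (fun n x => ?_) (h a).memg
    · simpa using (sl_tendsto_inv.mul_const (C1 a)).const_mul 2
    · show |2 * fderiv ℝ (cutoff n) x (eA a)| ≤ _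
      rw [abs_mul, abs_two, fderiv_cutoff, abs_mul, abs_of_pos (by positivity : (0 : ℝ) < ((n : ℝ) + 1)⁻¹)]
      have := hC1 a (((n : ℝ) + 1)⁻¹ • x)
      gcongr
  have z2b : TZ volume (fun n x => (∑ a, fderiv ℝ (fun y => fderiv ℝ (χ n) y (eA a)) x (eA a)) • f x) := by
    refine TZ.of_coeff (c := fun n x => ∑ a, fderiv ℝ (fun y => fderiv ℝ (χ n) y (eA a)) x (eA a))
      (δ := fun n => ∑ a, (((n : ℝ) + 1)⁻¹) ^ 2 * C2 a)
      (fun n => continuous_finsetSum _ fun a _ => fs_cont_d ((fs_contDiff_d (hχ n) _).of_le fs_one_le) _) ?_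
      (fun n x => ?_) hf2
    · have : Tendsto (fun n : ℕ => ∑ a, (((n : ℝ) + 1)⁻¹) ^ 2 * C2 a) atTop (𝓝 (∑ a, (0 : ℝ) ^ 2 * C2 a)) :=
        tendsto_finsetSum _ fun a _ => (sl_tendsto_inv.pow 2).mul_const (C2 a)
      simpa using this
    · refine (Finset.abs_sum_le_sum_abs _ _).trans (Finset.sum_le_sum fun a _ => ?_)
      show |fderiv ℝ (fun y => fderiv ℝ (cutoff n) y (eA a)) x (eA a)| ≤ _
      rw [sl_fderiv_fderiv_cutoff, abs_mul, abs_of_nonneg (sq_nonneg _)]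
      exact mul_le_mul_of_nonneg_left (hC2 a _) (sq_nonneg _)
  have z2 : TZ volume (fun n x => Fn n x - F x) := by
    have := ((TZ.cutoff (μ := (volume : Measure Space)) hF).add (TZ.sum Finset.univ fun a _ => z2a a)).add z2b
    refine ⟨fun n => (this.1 n).ae_eq (Eventually.of_forall fun x => ?_), this.2.congr fun n => ?_⟩
    · simp only [hFn, sub_smul, one_smul]; abel
    · refine integral_congr_ae (Eventually.of_forall fun x => ?_)
      simp only [hFn, sub_smul, one_smul]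
      congr 2
      abel
  have mFn : ∀ n, MemLp (Fn n) 2 volume := fun n => by
    have := (z2.1 n).add hF
    refine this.ae_eq (Eventually.of_forall fun x => ?_)
    simp
  have hex : ∀ n : ℕ, ∃ k : ℕ,
      ∫ x, ‖moll volume (mollSeq volume k) (fn n) x - fn n x‖ ^ 2 ≤ 1 / ((n : ℝ) + 1) ∧
      ∫ x, ‖moll volume (mollSeq volume k) (Fn n) x - Fn n x‖ ^ 2 ≤ 1 / ((n : ℝ) + 1) := by
    intro n
    obtain ⟨N1, h1⟩ := exists_moll_close (hw n 0).memf (show 0 < 1 / ((n : ℝ) + 1) by positivity)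
    obtain ⟨N2, h2⟩ := exists_moll_close (mFn n) (show 0 < 1 / ((n : ℝ) + 1) by positivity)
    exact ⟨max N1 N2, h1 _ (le_max_left _ _), h2 _ (le_max_right _ _)⟩
  choose k hk1 hk2 using hex
  have mm : ∀ (n : ℕ) {w : Space → H}, MemLp w 2 volume → MemLp (moll volume (mollSeq volume (k n)) w) 2 volume :=
    fun n w hw' => (memLp_moll (continuous_mollSeq _) (hasCompactSupport_mollSeq _) (mollSeq_nonneg _)
      (integral_mollSeq _) hw').1
  refine ⟨fun n => moll volume (mollSeq volume (k n)) (fn n), fun n => (sl_moll_step (hw n) (hd n) (hcs n) (k n)).1,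
    fun n => (sl_moll_step (hw n) (hd n) (hcs n) (k n)).2.1, ?_, ?_⟩
  · have z3 : TZ volume (fun n x => moll volume (mollSeq volume (k n)) (fn n) x - fn n x) :=
      ⟨fun n => (mm n (hw n 0).memf).sub (hw n 0).memf,
        squeeze_zero (fun n => integral_nonneg fun x => sq_nonneg _) hk1 tendsto_one_div_add_atTop_nhds_zero_nat⟩
    have := (z3.add z1).2
    simpa only [sub_add_sub_cancel] using this
  · have z3 : TZ volume (fun n x => moll volume (mollSeq volume (k n)) (Fn n) x - Fn n x) :=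
      ⟨fun n => (mm n (mFn n)).sub (mFn n),
        squeeze_zero (fun n => integral_nonneg fun x => sq_nonneg _) hk2 tendsto_one_div_add_atTop_nhds_zero_nat⟩
    have := (z3.add z2).2
    simpa only [sub_add_sub_cancel, (sl_moll_step (hw _) (hd _) (hcs _) (k _)).2.2] using this

theorem sl_sqrt_triangle {α : Type*} [MeasurableSpace α] {ν : Measure α} {E' : Type*} [NormedAddCommGroup E']
    {a b c : α → E'} (ha : MemLp a 2 ν) (hb : MemLp b 2 ν) (hc : MemLp c 2 ν) :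
    √(∫ x, ‖a x - b x‖ ^ 2 ∂ν) ≤ √(∫ x, ‖a x - c x‖ ^ 2 ∂ν) + √(∫ x, ‖b x - c x‖ ^ 2 ∂ν) := by
  have e1 := fs_norm_toLp (ha.sub hb)
  have e2 := fs_norm_toLp (ha.sub hc)
  have e3 := fs_norm_toLp (hb.sub hc)
  simp only [Pi.sub_apply] at e1 e2 e3
  rw [← e1, ← e2, ← e3, MemLp.toLp_sub ha hb, MemLp.toLp_sub ha hc, MemLp.toLp_sub hb hc, ← dist_eq_norm,
    ← dist_eq_norm, ← dist_eq_norm]
  exact dist_triangle_right _ _ _

theorem sl_memLp_laplacian {u : Space → H} (hu : ContDiff ℝ ∞ u) (hc : HasCompactSupport u) :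
    MemLp (Δ u) 2 volume := by
  have h1 := (Δ (hc.toSchwartzMap hu) : SchwartzMap Space H).memLp 2 volume
  exact h1.ae_eq (Eventually.of_forall fun x => SchwartzMap.laplacian_apply (hc.toSchwartzMap hu) x)

theorem sl_tendsto_sqrt {α : Type*} [MeasurableSpace α] {ν : Measure α} {E' : Type*}
    [NormedAddCommGroup E'] {an : ℕ → α → E'} {a : α → E'} (han : ∀ n, MemLp (an n) 2 ν) (ha : MemLp a 2 ν)
    (h : Tendsto (fun n => ∫ x, ‖an n x - a x‖ ^ 2 ∂ν) atTop (𝓝 0)) :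
    Tendsto (fun n => √(∫ x, ‖an n x‖ ^ 2 ∂ν)) atTop (𝓝 (√(∫ x, ‖a x‖ ^ 2 ∂ν))) :=
  (Real.continuous_sqrt.tendsto _).comp (fs_tendsto_integral_sq han ha h)

theorem exists_continuous_rep {f : Space → H} {g : Fin 3 → Space → H} {F : Space → H}
    (h : ∀ a, WD2 volume (eA a) f (g a)) (hF : MemLp F 2 volume) (hdiv : HasWeakDiv volume eA g F) :
    ∃ f' : Space → H, Continuous f' ∧ f' =ᵐ[volume] f ∧
      (∀ x, ‖f' x‖ ≤ h2C * (√(∫ y, ‖f y‖ ^ 2) + √(∫ y, ‖F y‖ ^ 2))) ∧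
      (∀ x y, ‖f' x - f' y‖ ≤ h2Mod ‖x - y‖ * (√(∫ y, ‖f y‖ ^ 2) + √(∫ y, ‖F y‖ ^ 2))) ∧
      Tendsto f' (cocompact Space) (𝓝 0) := by
  obtain ⟨u, hu, hc, t1, t2⟩ := exists_seq_smooth_laplacian h hF hdiv
  have hf2 := (h 0).memf
  have hcont : ∀ n, Continuous (u n) := fun n => (hu n).continuous
  have mu : ∀ n, MemLp (u n) 2 volume := fun n => fs_memLp_C1c (hcont n) (hc n)
  have mΔ : ∀ n, MemLp (Δ (u n)) 2 volume := fun n => sl_memLp_laplacian (hu n) (hc n)
  set A : ℕ → ℝ := fun n => √(∫ x, ‖u n x - f x‖ ^ 2) + √(∫ x, ‖Δ (u n) x - F x‖ ^ 2) with hA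
  have hA0 : Tendsto (fun n => h2C * A n) atTop (𝓝 0) := by
    have h1 := (Real.continuous_sqrt.tendsto 0).comp t1
    have h2 := (Real.continuous_sqrt.tendsto 0).comp t2
    simpa [Function.comp_def] using (h1.add h2).const_mul h2C
  have key : ∀ n m x, ‖u n x - u m x‖ ≤ h2C * A n + h2C * A m := by
    intro n m x
    have h1 := norm_le_of_smooth (u := u n - u m) ((hu n).sub (hu m)) ((hc n).sub (hc m)) x
    have e : ∀ y, Δ (u n - u m) y = Δ (u n) y - Δ (u m) y := fun y =>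
      ((hu n).contDiffAt.of_le (WithTop.coe_le_coe.2 le_top)).laplacian_sub
        ((hu m).contDiffAt.of_le (WithTop.coe_le_coe.2 le_top))
    simp only [e, Pi.sub_apply] at h1
    refine h1.trans ?_
    rw [← mul_add]
    refine mul_le_mul_of_nonneg_left ?_ h2C_nonneg
    have a1 := sl_sqrt_triangle (mu n) (mu m) hf2
    have a2 := sl_sqrt_triangle (mΔ n) (mΔ m) hF
    simp only [hA]
    linarith
  have hz : ∀ n, Tendsto (u n) (cocompact Space) (𝓝 0) := by
    intro n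
    have h1 := hasCompactSupport_iff_eventuallyEq.1 (hc n)
    rw [coclosedCompact_eq_cocompact] at h1
    exact tendsto_const_nhds.congr' (h1.symm)
  set U : ℕ → C₀(Space, H) := fun n => ⟨⟨u n, hcont n⟩, hz n⟩ with hU
  have hdist : ∀ n m, dist (U n) (U m) ≤ h2C * A n + h2C * A m := by
    intro n m
    have hnn : 0 ≤ h2C * A n + h2C * A m := (norm_nonneg _).trans (key n m 0)
    rw [← ZeroAtInftyContinuousMap.dist_toBCF_eq_dist, BoundedContinuousFunction.dist_le hnn]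
    intro x
    rw [dist_eq_norm]
    exact key n m x
  have hCau : CauchySeq U := by
    rw [Metric.cauchySeq_iff]
    intro ε hε
    obtain ⟨N, hN⟩ := (hA0.eventually (gt_mem_nhds (half_pos hε))).exists_forall_of_atTop
    exact ⟨N, fun m hm n hn => (hdist m n).trans_lt (by linarith [hN m hm, hN n hn])⟩
  obtain ⟨f', hf'⟩ := cauchySeq_tendsto_of_complete hCau
  have hpt : ∀ x, Tendsto (fun n => u n x) atTop (𝓝 (f' x)) := fun x =>
    (ZeroAtInftyContinuousMap.tendsto_iff_tendstoUniformly.1 hf').tendsto_at x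
  have s1 := sl_tendsto_sqrt mu hf2 t1
  have s2 := sl_tendsto_sqrt mΔ hF t2
  refine ⟨f', f'.continuous, ?_, fun x => ?_, fun x y => ?_, f'.zero_at_infty'⟩
  · obtain ⟨ns, hns, hae⟩ := (tendstoInMeasure_of_tendsto_Lp (fs_tendsto_toLp mu hf2 t1)).exists_seq_tendsto_ae
    have h1 : ∀ᵐ x, ∀ n, ((mu n).toLp (u n) : Space → H) x = u n x := ae_all_iff.2 fun n => (mu n).coeFn_toLp
    filter_upwards [hae, h1, hf2.coeFn_toLp] with x hx h1x h2x
    simp only [h1x, h2x] at hx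
    exact tendsto_nhds_unique ((hpt x).comp hns.tendsto_atTop) hx
  · exact le_of_tendsto_of_tendsto' (hpt x).norm ((s1.add s2).const_mul h2C) fun n =>
      norm_le_of_smooth (hu n) (hc n) x
  · exact le_of_tendsto_of_tendsto' ((hpt x).sub (hpt y)).norm ((s1.add s2).const_mul _) fun n =>
      norm_sub_le_of_smooth (hu n) (hc n) x y

/-- two continuous functions which agree a.e. agree everywhere. -/
theorem eq_of_continuous_ae_eq {E : Type*} [TopologicalSpace E] [T2Space E] {u w : Space → E} (hu : Continuous u)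
    (hw : Continuous w) (h : u =ᵐ[volume] w) : u = w :=
  Measure.eq_of_ae_eq h hu hw

end E2

/-! ## LEAF SL-E3: scalar versions -/

section E3

section gen
variable {X : Type*} [NormedAddCommGroup X] [NormedSpace ℝ X] [FiniteDimensional ℝ X]
  [MeasurableSpace X] [BorelSpace X] {μ : Measure X} [μ.IsAddHaarMeasure]
  {E : Type*} [NormedAddCommGroup E] [NormedSpace ℝ E] [CompleteSpace E]
  {E' : Type*} [NormedAddCommGroup E'] [NormedSpace ℝ E'] [CompleteSpace E']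
  {ι : Type*} [Fintype ι]

theorem HasWeakDiv.clm (T : E →L[ℝ] E') {v : ι → X} {g : ι → X → E} {F : X → E} (h : HasWeakDiv μ v g F)
    (hg : ∀ j, LocallyIntegrable (g j) μ) (hF : LocallyIntegrable F μ) :
    HasWeakDiv μ v (fun j x => T (g j x)) (fun x => T (F x)) := by
  intro φ hφ hc
  have hφ1 : ContDiff ℝ 1 φ := hφ.of_le fs_one_le
  have e1 : ∀ j, ∫ x, fderiv ℝ φ x (v j) • T (g j x) ∂μ = T (∫ x, fderiv ℝ φ x (v j) • g j x ∂μ) := by
    intro j
    rw [← T.integral_comp_comm (fs_int_d (hg j) hφ1 hc (v j))]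
    simp only [map_smul]
  have e2 : ∫ x, φ x • T (F x) ∂μ = T (∫ x, φ x • F x ∂μ) := by
    rw [← T.integral_comp_comm (fs_int hF hφ1.continuous hc)]
    simp only [map_smul]
  simp only [e1, e2]
  rw [← map_sum, h φ hφ hc, map_neg]

theorem WD2.clm (T : E →L[ℝ] E') {v : X} {f g : X → E} (h : WD2 μ v f g) :
    WD2 μ v (fun x => T (f x)) (fun x => T (g x)) :=
  ⟨T.comp_memLp' h.memf, T.comp_memLp' h.memg, (WD.clm T h.wd).weak⟩

end gen

/-- real valued version of `exists_continuous_rep`. -/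
theorem exists_continuous_rep_real {f : Space → ℝ} {g : Fin 3 → Space → ℝ} {F : Space → ℝ}
    (h : ∀ a, WD2 volume (eA a) f (g a)) (hF : MemLp F 2 volume) (hdiv : HasWeakDiv volume eA g F) :
    ∃ f' : Space → ℝ, Continuous f' ∧ f' =ᵐ[volume] f ∧
      (∀ x, |f' x| ≤ h2C * (√(∫ y, f y ^ 2) + √(∫ y, F y ^ 2))) ∧
      (∀ x y, |f' x - f' y| ≤ h2Mod ‖x - y‖ * (√(∫ y, f y ^ 2) + √(∫ y, F y ^ 2))) ∧
      Tendsto f' (cocompact Space) (𝓝 0) := by
  obtain ⟨k, hk, hae, b1, b2, hz⟩ := exists_continuous_rep (H := ℂ) (fun a => WD2.clm Complex.ofRealCLM (h a))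
    (Complex.ofRealCLM.comp_memLp' hF)
    (HasWeakDiv.clm Complex.ofRealCLM hdiv (fun a => (h a).wd.locg) (hF.locallyIntegrable (by norm_num)))
  simp only [Function.comp_apply, Complex.ofRealCLM_apply, Complex.norm_real, Real.norm_eq_abs, sq_abs] at b1 b2
  refine ⟨fun x => (k x).re, Complex.continuous_re.comp hk, ?_, fun x => ?_, fun x y => ?_, ?_⟩
  · filter_upwards [hae] with x hx
    rw [hx]; simp
  · exact (Complex.abs_re_le_norm _).trans (b1 x)
  · rw [← Complex.sub_re]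
    exact (Complex.abs_re_le_norm _).trans (b2 x y)
  · have := (Complex.continuous_re.tendsto 0).comp hz
    simpa [Function.comp_def] using this

theorem sl_gradient_apply (φ : Space → ℝ) (r : Space) (a : Fin 3) :
    gradient φ r a = fderiv ℝ φ r (eA a) := by
  have h1 : ⟪gradient φ r, EuclideanSpace.single a (1 : ℝ)⟫_ℝ = fderiv ℝ φ r (EuclideanSpace.single a 1) := by
    unfold gradient
    rw [InnerProductSpace.toDual_symm_apply]
  rw [← h1, EuclideanSpace.inner_single_right]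
  simp

/-- the weak equation `-Δ f = w` in the language of `HasWeakDiv`. -/
theorem sl_hasWeakDiv_of_eq {w : Space → ℝ} {F : Space → Space} (hF : LocallyIntegrable F volume)
    (heq : ∀ φ : Space → ℝ, ContDiff ℝ ∞ φ → HasCompactSupport φ →
      ∫ x, ⟪F x, gradient φ x⟫_ℝ = ∫ x, w x * φ x) :
    HasWeakDiv volume eA (fun a x => F x a) (fun x => - w x) := by
  intro φ hφ hc
  have hφ1 : ContDiff ℝ 1 φ := hφ.of_le fs_one_le
  have hl : ∀ a, LocallyIntegrable (fun x => F x a) volume := fun a =>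
    fs_li_clm hF (EuclideanSpace.proj (𝕜 := ℝ) a)
  rw [← integral_finsetSum _ fun a _ => fs_int_d (hl a) hφ1 hc (eA a)]
  have e1 : ∀ x, ∑ a, fderiv ℝ φ x (eA a) • F x a = ⟪F x, gradient φ x⟫_ℝ := by
    intro x
    rw [PiLp.inner_apply]
    refine Finset.sum_congr rfl fun a _ => ?_
    rw [sl_gradient_apply]
    simp
  simp only [e1]
  rw [heq φ hφ hc]
  simp only [smul_eq_mul, mul_neg, integral_neg, neg_neg, mul_comm]

theorem IsH1.exists_continuous_rep {f w : Space → ℝ} {F : Space → Space} (h : IsH1 f F) (hw : MemLp w 2 volume)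
    (heq : ∀ φ : Space → ℝ, ContDiff ℝ ∞ φ → HasCompactSupport φ →
      ∫ x, ⟪F x, gradient φ x⟫_ℝ = ∫ x, w x * φ x) :
    ∃ f' : Space → ℝ, Continuous f' ∧ f' =ᵐ[volume] f ∧
      (∀ x, |f' x| ≤ h2C * (√(∫ y, f y ^ 2) + √(∫ y, w y ^ 2))) ∧
      (∀ x y, |f' x - f' y| ≤ h2Mod ‖x - y‖ * (√(∫ y, f y ^ 2) + √(∫ y, w y ^ 2))) ∧
      Tendsto f' (cocompact Space) (𝓝 0) := by
  have := exists_continuous_rep_real (fun a => h.wd2_coord a) hw.neg
    (sl_hasWeakDiv_of_eq (h.2.1.locallyIntegrable (by norm_num)) heq)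
  simpa only [Pi.neg_apply, neg_sq] using this

theorem IsWeakGrad.exists_continuous_rep {f w : Space → ℝ} {F : Space → Space} (h : IsWeakGrad f F)
    (hf : L2Loc volume f) (hF : L2Loc volume F) (hw : L2Loc volume w)
    (heq : ∀ φ : Space → ℝ, ContDiff ℝ ∞ φ → HasCompactSupport φ →
      ∫ x, ⟪F x, gradient φ x⟫_ℝ = ∫ x, w x * φ x) :
    ∃ f' : Space → ℝ, Continuous f' ∧ f' =ᵐ[volume] f := by
  have hdiv := sl_hasWeakDiv_of_eq h.2.1 heq
  have hwd : ∀ a, WD volume (eA a) f (fun x => F x a) := fun a => h.wd_coord a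
  have hFa : ∀ a, L2Loc volume (fun x => F x a) := fun a K hK =>
    (EuclideanSpace.proj (𝕜 := ℝ) a).comp_memLp' (hF K hK)
  have hwn : L2Loc volume (fun x => - w x) := fun K hK => (hw K hK).neg
  have step : ∀ n : ℕ, ∃ k : Space → ℝ, Continuous k ∧ k =ᵐ[volume] fun x => cutoff n x • f x := by
    intro n
    have hχ := contDiff_cutoff (X := Space) n
    have hχ1 := hχ.of_le fs_one_le
    have hcs := hasCompactSupport_cutoff (X := Space) n
    have w2 : ∀ a, WD2 volume (eA a) (fun x => cutoff n x • f x)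
        (fun x => fderiv ℝ (cutoff n) x (eA a) • f x + cutoff n x • F x a) := fun a =>
      WD.smul_left_wd2 (hwd a) hf (hFa a) hχ1 hcs
    have d2 := HasWeakDiv.smul_grad hwd h.1 hwn.locallyIntegrable hdiv hχ
    have m2 : MemLp (fun x => cutoff n x • (- w x) + (∑ a, (2 * fderiv ℝ (cutoff n) x (eA a)) • F x a)
        + (∑ a, fderiv ℝ (fun y => fderiv ℝ (cutoff n) y (eA a)) x (eA a)) • f x) 2 volume := by
      refine ((fs_memLp_smul_of_compact hwn hχ1.continuous hcs).add (memLp_finsetSum _ fun a _ =>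
        fs_memLp_smul_of_compact (hFa a) (continuous_const.mul (fs_cont_d hχ1 _))
          (hcs.fderiv_apply (𝕜 := ℝ) _).mul_left)).add ?_
      simp only [Finset.sum_smul]
      exact memLp_finsetSum _ fun a _ => fs_memLp_smul_of_compact hf
        (fs_cont_d ((fs_contDiff_d hχ _).of_le fs_one_le) _)
        ((hcs.fderiv_apply (𝕜 := ℝ) _).fderiv_apply (𝕜 := ℝ) _)
    obtain ⟨k, hk, hae, -⟩ := exists_continuous_rep_real w2 m2 d2
    exact ⟨k, hk, hae⟩
  choose k hk hae using step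
  set B : ℕ → Set Space := fun n => Metric.ball 0 ((n : ℝ) + 1) with hBdef
  have hB : ∀ n, ∀ᵐ x, x ∈ B n → k n x = f x := by
    intro n
    filter_upwards [hae n] with x hx hxB
    rw [hx, cutoff_eq_one (mem_ball_zero_iff.1 hxB).le, one_smul]
  have hmono : ∀ n m, n ≤ m → B n ⊆ B m := fun n m hnm =>
    Metric.ball_subset_ball (by have : (n : ℝ) ≤ m := by exact_mod_cast hnm
                                linarith)
  have cons : ∀ n m, n ≤ m → EqOn (k n) (k m) (B n) := by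
    intro n m hnm
    refine Measure.eqOn_open_of_ae_eq (μ := volume) ?_ Metric.isOpen_ball (hk n).continuousOn (hk m).continuousOn
    rw [Filter.EventuallyEq, ae_restrict_iff' measurableSet_ball]
    filter_upwards [hB n, hB m] with x h1 h2 hx
    rw [h1 hx, h2 (hmono n m hnm hx)]
  have hmem : ∀ x : Space, x ∈ B ⌈‖x‖⌉₊ := fun x => by
    rw [hBdef, mem_ball_zero_iff]
    have := Nat.le_ceil ‖x‖
    linarith
  have hglue : ∀ n, EqOn (fun x => k ⌈‖x‖⌉₊ x) (k n) (B n) := by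
    intro n x hx
    rcases le_total ⌈‖x‖⌉₊ n with h1 | h1
    · exact cons _ _ h1 (hmem x)
    · exact (cons _ _ h1 hx).symm
  refine ⟨fun x => k ⌈‖x‖⌉₊ x, continuous_iff_continuousAt.2 fun x => ?_, ?_⟩
  · refine (hk ⌈‖x‖⌉₊).continuousAt.congr ?_
    filter_upwards [Metric.isOpen_ball.mem_nhds (hmem x)] with y hy
    exact (hglue _ hy).symm
  · filter_upwards [ae_all_iff.2 hB] with x hx
    exact hx _ (hmem x)

theorem exists_continuous_rep_of_orbital_eq {f : Space → ℝ} {F : Space → Space} (h : IsH1 f F) {ε : ℝ}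
    (heq : ∀ g G, IsH1 g G → orbitalForm g f G F = ε * ∫ x, g x * f x) :
    ∃ f' : Space → ℝ, Continuous f' ∧ f' =ᵐ[volume] f ∧ Tendsto f' (cocompact Space) (𝓝 0) := by
  have mV : MemLp (fun x => nuclearPotential 1 bigD x * f x) 2 volume := h.memLp_nuclear_mul 1 bigD
  have mw : MemLp (fun x => 2 * (ε * f x - nuclearPotential 1 bigD x * f x)) 2 volume :=
    ((h.1.const_mul ε).sub mV).const_mul 2
  suffices hq : ∀ φ : Space → ℝ, ContDiff ℝ ∞ φ → HasCompactSupport φ → ∫ x, ⟪F x, gradient φ x⟫_ℝ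
      = ∫ x, 2 * (ε * f x - nuclearPotential 1 bigD x * f x) * φ x by
    obtain ⟨f', h1, h2, -, -, h3⟩ := IsH1.exists_continuous_rep h mw hq
    exact ⟨f', h1, h2, h3⟩
  intro φ hφ hc
  · have hφ1 : ContDiff ℝ 1 φ := hφ.of_le fs_one_le
    have hH := isH1_of_contDiff hφ1 hc
    have key := heq φ (gradient φ) hH
    unfold orbitalForm at key
    have i1 : Integrable (fun x => f x * φ x) volume := h.1.integrable_mul hH.1
    have i2 : Integrable (fun x => nuclearPotential 1 bigD x * f x * φ x) volume := mV.integrable_mul hH.1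
    have e1 : ∫ x, 2 * (ε * f x - nuclearPotential 1 bigD x * f x) * φ x
        = 2 * (ε * ∫ x, f x * φ x) - 2 * ∫ x, nuclearPotential 1 bigD x * f x * φ x := by
      rw [← integral_const_mul, ← integral_const_mul, ← integral_const_mul,
        ← integral_sub ((i1.const_mul ε).const_mul 2) (i2.const_mul 2)]
      refine integral_congr_ae (Eventually.of_forall fun x => ?_)
      ring
    have e2 : ∫ x, nuclearPotential 1 bigD x * (φ x * f x) = ∫ x, nuclearPotential 1 bigD x * f x * φ x :=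
      integral_congr_ae (Eventually.of_forall fun x => by ring)
    have e3 : ∫ x, φ x * f x = ∫ x, f x * φ x := integral_congr_ae (Eventually.of_forall fun x => by ring)
    have e4 : ∫ x, ⟪gradient φ x, F x⟫_ℝ = ∫ x, ⟪F x, gradient φ x⟫_ℝ :=
      integral_congr_ae (Eventually.of_forall fun x => real_inner_comm _ _)
    rw [e2, e3, e4] at key
    rw [e1]
    linarith

end E3

end Claimed.Open.R278
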