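import Claimed.Open.R278.ChargeLemmas

/-!
# Result 278: definitions of the interfaces between the layers

Definitions and structures only (no `sorry`, no theorem).  EVERY LAYER FILE IMPORTS THIS FILE (not
`Top.lean`): `Top.lean` will in the end import the layers and cite their top theorems, so a layer
file importing `Top.lean` would create a cycle.
-/

open MeasureTheory
open scoped ContDiff InnerProductSpace ComplexConjugate ENNReal Topology Laplacian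

noncomputable section

namespace Claimed.Open.R278

/-! ## Notation -/

/-- The two nuclei `± D e_z` of the scaled problem. -/
def nuclei : Set Space := {bigD • ez, -(bigD • ez)}

/-- `A(r) = e^{-kr} r^β`. -/
def radialA (k β r : ℝ) : ℝ := Real.exp (-(k * r)) * r ^ β

/-- The horizontal radius `p = (x₁² + x₂²)^{1/2}`. -/
def hrad (x : Space) : ℝ := √(x 0 ^ 2 + x 1 ^ 2)

/-- `β_t = (2 - 2t)/k - 1`. -/
def AuxData.β (d : AuxData) (t : ℝ) : ℝ := (2 - 2 * t) / d.k - 1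

/-! ## L1: the two-centre problem -/

/-- Proposition 2.2 with the numerical information for `D = 10^200`. -/
structure TwoCentre (b e : Space → ℝ) (εb εe : ℝ) : Prop where
  data : IsTwoCentreData b e εb εe
  εb_neg : εb < 0
  εe_neg : εe < 0
  /-- `γ < 1.01`, `k₀ > 0.99` (2.5). -/
  gamma_lt : √(-(2 * εb)) < 1.01
  k0_gt : 0.99 < √(-(2 * εe))
  /-- `d_* = ε_e - ε_b < 100 / D`. -/
  split_lt : εe - εb < 100 / bigD
  /-- `δ₀ = γ - k₀ < 200 / D`. -/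
  rate_lt : √(-(2 * εb)) - √(-(2 * εe)) < 200 / bigD
  /-- the spectrum on `{b,e}^⊥` lies more than `0.2` above `ε_e`. -/
  third : ∀ g G, IsH1 g G → (∫ x, g x * b x) = 0 → (∫ x, g x * e x) = 0 →
    (εe + 0.2) * (∫ x, g x ^ 2) ≤ orbitalForm g g G G
  smooth_b : ContDiffOn ℝ ∞ b nucleiᶜ
  smooth_e : ContDiffOn ℝ ∞ e nucleiᶜ

/-! ## What Sections 4-7 consume about a density -/

/-- Lemma 2.4 + symmetry + smoothness away from the nuclei.  All derivatives are the classical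
ones (`gradient`, `Δ`), which exist off the two nuclei, i.e. almost everywhere. -/
structure DensityBasic (n : Space → ℝ) : Prop where
  continuous : Continuous n
  pos : ∀ x, 0 < n x
  even : ∀ x, n (reflZ x) = n x
  axisymmetric : ∀ a x, n (rotZ a x) = n x
  integrable : Integrable n
  integral_eq : (∫ x, n x) = 3
  /-- smoothness away from the nuclei (cluster derivative method). -/
  smooth : ContDiffOn ℝ 2 n nucleiᶜ
  /-- the classical gradient is the weak gradient on all of `ℝ³` -/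
  weakGrad : IsWeakGrad n (gradient n)
  /-- `∇ n ∈ L⁶_loc` (from `n ∈ H²`). -/
  grad_L6 : ∀ R : ℝ, MemLp (gradient n) 6 (volume.restrict (Metric.ball 0 R))
  /-- `√n ∈ H¹(ℝ³)`. -/
  sqrt_h1 : IsH1 (fun x => √(n x)) (gradient fun x => √(n x))
  /-- `√n ∈ H²_loc`: the classical Laplacian of `√n` is in `L²_loc` and is the weak Laplacian. -/
  sqrt_lap_L2 : ∀ R : ℝ, MemLp (Δ (fun x => √(n x))) 2 (volume.restrict (Metric.ball 0 R))
  sqrt_lap_weak : ∀ φ : Space → ℝ, ContDiff ℝ 1 φ → HasCompactSupport φ →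
    (∫ x, ⟪gradient (fun y => √(n y)) x, gradient φ x⟫_ℝ) = -(∫ x, Δ (fun y => √(n y)) x * φ x)
  /-- `Δ n ∈ L¹(ℝ³)`. -/
  lap_L1 : Integrable (Δ n)

/-- (3.4): the plane tail `√n(p,0) ≥ c A(p) p⁻⁴`. -/
def PlaneTail (n : Space → ℝ) (k β : ℝ) : Prop :=
  ∃ c > 0, ∃ P : ℝ, ∀ p ≥ P, c * radialA k β p * p ^ (-4 : ℝ) ≤ √(n (cyl p 0))

/-- (3.5), in uniform form and in `C¹`: for centres `y` in the median plane,
`n(y+x) / (A(|y|)/|y|)² → a² z² e^{-2k ω·x}`, `ω = y/|y|`, locally uniformly in `x` together with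
the gradient in `x`. -/
def PlaneTranslate (n : Space → ℝ) (k β : ℝ) : Prop :=
  ∃ a > 0, ∀ K ε : ℝ, 0 < ε → ∃ P : ℝ, ∀ y : Space, y 2 = 0 → P ≤ ‖y‖ → ∀ x : Space, ‖x‖ ≤ K →
    |n (y + x) / (radialA k β ‖y‖ / ‖y‖) ^ 2
        - a ^ 2 * x 2 ^ 2 * Real.exp (-(2 * k * ⟪‖y‖⁻¹ • y, x⟫_ℝ))| ≤ ε ∧
    ‖((radialA k β ‖y‖ / ‖y‖) ^ 2)⁻¹ • gradient n (y + x)
        - gradient (fun x' : Space =>
            a ^ 2 * x' 2 ^ 2 * Real.exp (-(2 * k * ⟪‖y‖⁻¹ • y, x'⟫_ℝ))) x‖ ≤ ε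

/-- (3.6), in uniform form and in `C¹`: for centres `y` with `|y| → ∞`, `|y_z| → ∞`,
`n(y+x)/n(y) → e^{-2k ω·x}`. -/
def BulkTranslate (n : Space → ℝ) (k : ℝ) : Prop :=
  ∀ K ε : ℝ, 0 < ε → ∃ P : ℝ, ∀ y : Space, P ≤ |y 2| → ∀ x : Space, ‖x‖ ≤ K →
    |n (y + x) / n y - Real.exp (-(2 * k * ⟪‖y‖⁻¹ • y, x⟫_ℝ))| ≤ ε ∧
    ‖(n y)⁻¹ • gradient n (y + x)
        + (2 * k * Real.exp (-(2 * k * ⟪‖y‖⁻¹ • y, x⟫_ℝ))) • (‖y‖⁻¹ • y)‖ ≤ ε

/-- The pointwise content of `H_t(M) < 1`, (7.4): drift bounds, strip bounds, vertical ratio. -/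
structure DriftStrip (n : Space → ℝ) (k : ℝ) (M : ℝ) : Prop where
  radial : ∀ x : Space, M ≤ ‖x‖ →
    |fderiv ℝ (fun y => Real.log (n y)) x (‖x‖⁻¹ • x) + 2 * k| ≤ eta0
  horizontal : ∀ p z : ℝ, M ≤ ‖cyl p z‖ → 0 ≤ z → z ≤ p / 2 →
    |deriv (fun p' => Real.log (n (cyl p' z))) p + 2 * k * p / ‖cyl p z‖| ≤ eta0
  strip : ∀ p z : ℝ, M ≤ p → 0 ≤ z → z ≤ stripL →
    |deriv (fun p' => Real.exp (2 * k * p') * n (cyl p' z)) p|
      + |iteratedDeriv 2 (fun p' => Real.exp (2 * k * p') * n (cyl p' z)) p|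
      ≤ eta0 * (Real.exp (2 * k * p) * n (cyl p z))
  ratio : ∀ p z₁ z₂ : ℝ, M ≤ p → 0 ≤ z₁ → z₁ ≤ z₂ → z₂ ≤ stripL →
    n (cyl p z₁) ≤ 100 * n (cyl p z₂)

/-- (4.26): the weighted spectral gap at the second orbital, for the weight `w = g² = n cos² θ`,
on the whole weighted form domain `H¹(w)`. -/
def WeightedGap (n θ : Space → ℝ) (d : ℝ) : Prop :=
  ∀ (ξ : Space → ℝ) (G : Space → Space), IsWeakGrad ξ G →
    Integrable (fun x => n x * Real.cos (θ x) ^ 2 * (ξ x ^ 2 + ‖G x‖ ^ 2)) →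
    d * ((∫ x, n x * Real.cos (θ x) ^ 2 * ξ x ^ 2)
        - (∫ x, n x * Real.cos (θ x) ^ 2 * ξ x) ^ 2 / (∫ x, n x * Real.cos (θ x) ^ 2))
      ≤ (1 / 2) * ∫ x, n x * Real.cos (θ x) ^ 2 * ‖G x‖ ^ 2

/-! ## Orbitals and the formal potential (Prop 4.4) -/

/-- `g = √n cos θ`. -/
def orbG (n θ : Space → ℝ) (x : Space) : ℝ := √(n x) * Real.cos (θ x)

/-- `h = √n sin θ`. -/
def orbH (n θ : Space → ℝ) (x : Space) : ℝ := √(n x) * Real.sin (θ x)

/-- The formal potential (4.9), `V = Δ√n / (2√n) - |∇θ|²/2 + d sin² θ` (classical derivatives, defined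
off the nuclei).  Only `θ ∈ C¹` is needed for this expression. -/
def formalV (n θ : Space → ℝ) (d : ℝ) (x : Space) : ℝ :=
  Δ (fun y => √(n y)) x / (2 * √(n x)) - ‖gradient θ x‖ ^ 2 / 2 + d * Real.sin (θ x) ^ 2

/-- Proposition 4.4 and (5.9): everything Sections 5 and 6 use about `g, h, V`. -/
structure OrbitalFacts (n θ : Space → ℝ) (d : ℝ) : Prop where
  g_pos : ∀ x, 0 < orbG n θ x
  g_cont : Continuous (orbG n θ)
  h_cont : Continuous (orbH n θ)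
  g_h1 : IsH1 (orbG n θ) (gradient (orbG n θ))
  h_h1 : IsH1 (orbH n θ) (gradient (orbH n θ))
  g_norm : (∫ x, orbG n θ x ^ 2) = 2
  h_norm : (∫ x, orbH n θ x ^ 2) = 1
  orth : (∫ x, orbG n θ x * orbH n θ x) = 0
  g_even : ∀ x, orbG n θ (reflZ x) = orbG n θ x
  h_odd : ∀ x, orbH n θ (reflZ x) = -orbH n θ x
  h_nonneg : ∀ x : Space, 0 < x 2 → 0 ≤ orbH n θ x
  /-- strict positivity of the angle above the plane, off the nucleus (strong maximum principle) -/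
  θ_pos : ∀ x : Space, 0 < x 2 → x ∉ nuclei → 0 < θ x
  V_even : ∀ x, formalV n θ d (reflZ x) = formalV n θ d x
  V_L2loc : ∀ R : ℝ, MemLp (formalV n θ d) 2 (volume.restrict (Metric.ball 0 R))
  V_int : Integrable (fun x => n x * |formalV n θ d x|)
  /-- `(-Δ/2 + V) g = 0` weakly -/
  g_eq : ∀ φ : Space → ℝ, ContDiff ℝ 1 φ → HasCompactSupport φ →
    (1 / 2) * (∫ x, ⟪gradient (orbG n θ) x, gradient φ x⟫_ℝ)
      + (∫ x, formalV n θ d x * orbG n θ x * φ x) = 0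
  /-- `(-Δ/2 + V) h = d h` weakly -/
  h_eq : ∀ φ : Space → ℝ, ContDiff ℝ 1 φ → HasCompactSupport φ →
    (1 / 2) * (∫ x, ⟪gradient (orbH n θ) x, gradient φ x⟫_ℝ)
      + (∫ x, formalV n θ d x * orbH n θ x * φ x) = d * ∫ x, orbH n θ x * φ x

end Claimed.Open.R278
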