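import Claimed.Open.R278.TCAbs
import Claimed.Open.R278.TopDefs
import Claimed.Open.R278.FSCompact
import Claimed.Open.R278.FSH2
import Claimed.Open.R278.SLEmbed

/-!
# Result 278, layer TC (Proposition 2.2), file 2: the one-body forms on `H¹(ℝ³)`

## PLAN OF THE WHOLE LAYER (files `TCAbs, TCForm, TCMin, TCReg, TCVf, TCHyd, TCLoc, TCMain`)

`nucForm Z R` is the bilinear form of `-½Δ - Z/|x - R e_z| - Z/|x + R e_z|`; `orbitalForm = nucForm 1 bigD` (by `rfl`), and
the hydrogen atom at the origin is `nucForm (1/2) 0` (potential `-1/|x|`).  `IsWeakEig Z R E f F`: weak eigenfunction.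

1. (`TCMin`) direct method: on a class `S` of functions that is homogeneous and closed under weak-`L²` + a.e. limits, and
   contains a function of negative energy, the form has a normalised minimiser with `E < 0`.
2. (`TCForm`) minimiser on a linear class ⇒ Euler–Lagrange equation on the class; invariance of the form under the
   isometries that preserve the potential; extension of the equation to all test functions (odd class: parity;
   class `h^⊥`, `h` an eigenfunction: projection).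
3. (`TCReg`) weak eigenfunctions: very weak equation `-Δ f = 2 (E - V) f` (`RegVW` of row 259), continuous representative
   (kit SL), strong positivity (mean value ODE of the Reg kit + Grönwall, works AT the nuclei because `-V ≥ 0`),
   smoothness off the nuclei (local bootstrap with the Reg kit).
4. (`TCVf`, `TCHyd`) the hydrogen atom: `hyd = π^{-1/2} e^{-|x|}`, and the gap `q_H ≥ -1/8` on `hyd^⊥`
   (vector field method for functions vanishing near a plane through the nucleus / near the sphere `|x| = 2`;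
    a minimiser on `hyd^⊥` below `-1/8` would be invariant under all reflections, hence radial, and `f - α hyd` would vanish on
    the sphere `|x| = 2`).
5. (`TCLoc`) one IMS localisation with an explicit `C¹` cutoff:  `q ≥ -1/2 - 4/D - 150/D²`;
   `q ≥ -1/8 - 4/D - 150/D²` on `{T₁,T₂}^⊥`;  an odd trial function with `q ≤ (-1/2 + 300/D²)`.
6. (`TCMain`) `b` = continuous version of `|global minimiser|`, `e` = continuous version of `sign(z) |odd minimiser|`;
   symmetries from the NODAL LEMMA (an eigenfunction at the bottom [of the odd class] with a zero [in `z > 0`] vanishes):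
   `b ∘ A - b` vanishes at `0`, `e ∘ rot - e` vanishes at `e_z`;  `ε_b < ε_e` because `e(0) = 0`;
   `third` from `tc_abs_three`, `second` from `tc_abs_second`;  numerics.

This file: definitions and algebra; it has no `sorry` of its own.
-/

open MeasureTheory Filter Topology Set
open scoped ContDiff InnerProductSpace

noncomputable section

namespace Claimed.Open.R278

/-! ## Definitions -/

/-- The bilinear form of `-½Δ - Z/|x - R e_z| - Z/|x + R e_z|`. -/
def nucForm (Z R : ℝ) (f g : Space → ℝ) (F G : Space → Space) : ℝ :=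
  (1 / 2) * (∫ x, ⟪F x, G x⟫_ℝ) + (∫ x, nuclearPotential Z R x * (f x * g x))

theorem orbitalForm_eq_nucForm : orbitalForm = nucForm 1 bigD := rfl

/-- weak eigenfunction. -/
def IsWeakEig (Z R E : ℝ) (f : Space → ℝ) (F : Space → Space) : Prop :=
  IsH1 f F ∧ ∀ g G, IsH1 g G → nucForm Z R g f G F = E * ∫ x, g x * f x

/-- `E` is a lower bound of the form on the class `S`. -/
def IsBelow (Z R E : ℝ) (S : (Space → ℝ) → Prop) : Prop :=
  ∀ g G, IsH1 g G → S g → E * (∫ x, g x ^ 2) ≤ nucForm Z R g g G G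

/-- the hydrogen form with nucleus at `c`. -/
def hydQ (c : Space) (f : Space → ℝ) (F : Space → Space) : ℝ :=
  (1 / 2) * (∫ x, ‖F x‖ ^ 2) - ∫ x, f x ^ 2 / ‖x - c‖

/-- the class of (a.e.) odd functions. -/
def OddZ (f : Space → ℝ) : Prop := ∀ᵐ x, f (reflZ x) = - f x

/-- the reflection in the median plane and the rotations about the axis as linear isometric equivalences. -/
def reflZE : Space ≃ₗᵢ[ℝ] Space := reflZIsometry.toLinearIsometryEquiv rfl

def rotZE (a : ℝ) : Space ≃ₗᵢ[ℝ] Space := (rotZIsometry a).toLinearIsometryEquiv rfl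

@[simp] theorem reflZE_apply (x : Space) : reflZE x = reflZ x := rfl

@[simp] theorem rotZE_apply (a : ℝ) (x : Space) : rotZE a x = rotZ a x := rfl

theorem reflZE_symm_apply (x : Space) : reflZE.symm x = reflZ x := by
  rw [LinearIsometryEquiv.symm_apply_eq]
  simp [reflZ_reflZ]

/-! ## TC-F1 (proved): raw `L²` tools -/

section F1

variable {f g : Space → ℝ}

theorem tc_integrable_sq (hf : MemLp f 2 volume) : Integrable (fun x => f x ^ 2) := hf.integrable_sq

theorem tc_integrable_mul (hf : MemLp f 2 volume) (hg : MemLp g 2 volume) : Integrable (fun x => f x * g x) :=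
  hf.integrable_mul hg

theorem tc_integrable_norm_sq {F : Space → Space} (hF : MemLp F 2 volume) : Integrable (fun x => ‖F x‖ ^ 2) :=
  hF.norm.integrable_sq

/-- Cauchy–Schwarz. -/
theorem tc_cauchy_schwarz (hf : MemLp f 2 volume) (hg : MemLp g 2 volume) :
    (∫ x, f x * g x) ^ 2 ≤ (∫ x, f x ^ 2) * ∫ x, g x ^ 2 := by
  have hA : 0 ≤ ∫ x, f x ^ 2 := integral_nonneg fun x => sq_nonneg _
  have hC : 0 ≤ ∫ x, g x ^ 2 := integral_nonneg fun x => sq_nonneg _
  have i1 := tc_integrable_sq hf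
  have i2 := tc_integrable_sq hg
  have i3 := tc_integrable_mul hf hg
  -- discriminant
  have key : ∀ t : ℝ, 0 ≤ (∫ x, f x ^ 2) + 2 * t * (∫ x, f x * g x) + t ^ 2 * ∫ x, g x ^ 2 := by
    intro t
    have h1 : 0 ≤ ∫ x, (f x + t * g x) ^ 2 := integral_nonneg fun x => sq_nonneg _
    have h2 : ∫ x, (f x + t * g x) ^ 2
        = (∫ x, f x ^ 2) + 2 * t * (∫ x, f x * g x) + t ^ 2 * ∫ x, g x ^ 2 := by
      have e1 := integral_add (i1.add (i3.const_mul (2 * t))) (i2.const_mul (t ^ 2))
      have e2 := integral_add i1 (i3.const_mul (2 * t))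
      rw [integral_const_mul] at e1 e2
      simp only [Pi.add_apply] at e1
      rw [e2] at e1
      rw [← e1]
      refine integral_congr_ae (Eventually.of_forall fun x => ?_)
      simp only
      ring
    rw [h2] at h1
    exact h1
  set A := ∫ x, f x ^ 2
  set B := ∫ x, f x * g x
  set C := ∫ x, g x ^ 2
  by_cases hC0 : C = 0
  · have hB : B = 0 := by
      have h1 := key (-(A + 1) / (2 * B))
      by_contra hB
      rw [hC0] at h1
      have : 2 * (-(A + 1) / (2 * B)) * B = -(A + 1) := by field_simp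
      nlinarith
    rw [hB, hC0]
    simp
  · have hCpos : 0 < C := lt_of_le_of_ne hC (Ne.symm hC0)
    have h1 := key (-B / C)
    have h2 : A + 2 * (-B / C) * B + (-B / C) ^ 2 * C = A - B ^ 2 / C := by
      field_simp
      ring
    rw [h2] at h1
    have h3 : B ^ 2 / C ≤ A := by linarith
    rwa [div_le_iff₀ hCpos] at h3

theorem tc_ae_zero_of_integral_sq (hf : MemLp f 2 volume) (h : ∫ x, f x ^ 2 = 0) : f =ᵐ[volume] 0 := by
  have h1 := (integral_eq_zero_iff_of_nonneg (fun x => sq_nonneg (f x)) (tc_integrable_sq hf)).1 h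
  filter_upwards [h1] with x hx
  simpa using hx

/-- domination: a measurable function below an `L²` function is in `L²`. -/
theorem tc_memLp_of_abs_le (hg : MemLp g 2 volume) (hm : AEStronglyMeasurable f volume)
    (h : ∀ᵐ x, |f x| ≤ |g x|) : MemLp f 2 volume :=
  hg.mono hm (h.mono fun x hx => by simpa only [Real.norm_eq_abs] using hx)

theorem tc_memLp_of_norm_le {F G : Space → Space} (hG : MemLp G 2 volume) (hm : AEStronglyMeasurable F volume)
    (h : ∀ᵐ x, ‖F x‖ ≤ ‖G x‖) : MemLp F 2 volume :=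
  hG.mono hm h

/-- a continuous function which vanishes a.e. vanishes. -/
theorem tc_eq_zero_of_continuous (hc : Continuous f) (h : f =ᵐ[volume] 0) : ∀ x, f x = 0 := by
  have := (hc.ae_eq_iff_eq (μ := (volume : Measure Space)) (continuous_const (y := (0 : ℝ)))).1 h
  exact fun x => congrFun this x

end F1

/-! ## TC-F2 (proved): `H¹` as a vector space, the two bilinear forms -/

section F2

theorem isH1_zero : IsH1 (fun _ => 0) (fun _ => 0) := by
  refine ⟨MemLp.zero, MemLp.zero, locallyIntegrable_zero, locallyIntegrable_zero, ?_⟩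
  intro φ _ _ v
  simp

/-- pairs (function, weak gradient). -/
def h1Sub : Submodule ℝ ((Space → ℝ) × (Space → Space)) where
  carrier := {p | IsH1 p.1 p.2}
  add_mem' := fun h h' => IsH1.add h h'
  zero_mem' := isH1_zero
  smul_mem' := fun c _ h => IsH1.const_mul c h

/-- the element of `h1Sub` made from an `H¹` function. -/
def IsH1.mk {f : Space → ℝ} {F : Space → Space} (h : IsH1 f F) : h1Sub := ⟨(f, F), h⟩

theorem nucForm_comm (Z R : ℝ) (f g : Space → ℝ) (F G : Space → Space) :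
    nucForm Z R f g F G = nucForm Z R g f G F := by
  unfold nucForm
  simp only [real_inner_comm, mul_comm (f _) (g _)]

theorem nucForm_add_left (Z R : ℝ) {f₁ f₂ g : Space → ℝ} {F₁ F₂ G : Space → Space} (h₁ : IsH1 f₁ F₁)
    (h₂ : IsH1 f₂ F₂) (hg : IsH1 g G) :
    nucForm Z R (fun x => f₁ x + f₂ x) g (fun x => F₁ x + F₂ x) G = nucForm Z R f₁ g F₁ G + nucForm Z R f₂ g F₂ G := by
  unfold nucForm
  have e1 : ∫ x, ⟪F₁ x + F₂ x, G x⟫_ℝ = (∫ x, ⟪F₁ x, G x⟫_ℝ) + ∫ x, ⟪F₂ x, G x⟫_ℝ := by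
    rw [← integral_add (h₁.integrable_inner hg) (h₂.integrable_inner hg)]
    simp only [inner_add_left]
  have e2 : ∫ x, nuclearPotential Z R x * ((f₁ x + f₂ x) * g x)
      = (∫ x, nuclearPotential Z R x * (f₁ x * g x)) + ∫ x, nuclearPotential Z R x * (f₂ x * g x) := by
    rw [← integral_add (h₁.integrable_nuclear hg Z R) (h₂.integrable_nuclear hg Z R)]
    refine integral_congr_ae (Eventually.of_forall fun x => ?_)
    simp only
    ring
  rw [e1, e2]
  ring

theorem nucForm_smul_left (Z R c : ℝ) (f g : Space → ℝ) (F G : Space → Space) :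
    nucForm Z R (fun x => c * f x) g (fun x => c • F x) G = c * nucForm Z R f g F G := by
  unfold nucForm
  have e1 : ∫ x, ⟪c • F x, G x⟫_ℝ = c * ∫ x, ⟪F x, G x⟫_ℝ := by
    rw [← integral_const_mul]
    simp only [real_inner_smul_left]
  have e2 : ∫ x, nuclearPotential Z R x * (c * f x * g x) = c * ∫ x, nuclearPotential Z R x * (f x * g x) := by
    rw [← integral_const_mul]
    refine integral_congr_ae (Eventually.of_forall fun x => ?_)
    simp only
    ring
  rw [e1, e2]
  ring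

theorem nucForm_congr_ae (Z R : ℝ) {f f' g g' : Space → ℝ} {F F' G G' : Space → Space} (h1 : f =ᵐ[volume] f')
    (h2 : g =ᵐ[volume] g') (h3 : F =ᵐ[volume] F') (h4 : G =ᵐ[volume] G') :
    nucForm Z R f g F G = nucForm Z R f' g' F' G' := by
  unfold nucForm
  have a1 : ∫ x, ⟪F x, G x⟫_ℝ = ∫ x, ⟪F' x, G' x⟫_ℝ := by
    refine integral_congr_ae ?_
    filter_upwards [h3, h4] with x e3 e4
    rw [e3, e4]
  have a2 : ∫ x, nuclearPotential Z R x * (f x * g x) = ∫ x, nuclearPotential Z R x * (f' x * g' x) := by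
    refine integral_congr_ae ?_
    filter_upwards [h1, h2] with x e1 e2
    rw [e1, e2]
  rw [a1, a2]

/-- the energy form on `h1Sub`. -/
def nucB (Z R : ℝ) : LinearMap.BilinForm ℝ h1Sub :=
  LinearMap.mk₂ ℝ (fun p q => nucForm Z R p.1.1 q.1.1 p.1.2 q.1.2)
    (fun p p' q => nucForm_add_left Z R p.2 p'.2 q.2)
    (fun c p q => nucForm_smul_left Z R c p.1.1 q.1.1 p.1.2 q.1.2)
    (fun p q q' => by
      rw [nucForm_comm, nucForm_comm Z R p.1.1, nucForm_comm Z R p.1.1]
      exact nucForm_add_left Z R q.2 q'.2 p.2)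
    (fun c p q => by
      rw [nucForm_comm, nucForm_comm Z R p.1.1]
      exact nucForm_smul_left Z R c q.1.1 p.1.1 q.1.2 p.1.2)

/-- pairing with an `L²` function as a linear functional on `h1Sub`. -/
def l2F {T : Space → ℝ} (hT : MemLp T 2 volume) : h1Sub →ₗ[ℝ] ℝ where
  toFun p := ∫ x, p.1.1 x * T x
  map_add' p q := by
    have h1 := tc_integrable_mul p.2.1 hT
    have h2 := tc_integrable_mul q.2.1 hT
    rw [← integral_add h1 h2]
    refine integral_congr_ae (Eventually.of_forall fun x => ?_)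
    simp [add_mul]
  map_smul' c p := by
    rw [smul_eq_mul, ← integral_const_mul]
    refine integral_congr_ae (Eventually.of_forall fun x => ?_)
    simp [mul_assoc]

/-- the `L²` product on `h1Sub`. -/
def l2B : LinearMap.BilinForm ℝ h1Sub :=
  LinearMap.mk₂ ℝ (fun p q => ∫ x, p.1.1 x * q.1.1 x)
    (fun p p' q => (l2F q.2.1).map_add p p')
    (fun c p q => (l2F q.2.1).map_smul c p)
    (fun p q q' => by
      have := (l2F p.2.1).map_add q q'
      simpa only [l2F, LinearMap.coe_mk, AddHom.coe_mk, mul_comm] using this)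
    (fun c p q => by
      have := (l2F p.2.1).map_smul c q
      simpa only [l2F, LinearMap.coe_mk, AddHom.coe_mk, mul_comm] using this)

variable {f g : Space → ℝ} {F G : Space → Space}

@[simp] theorem nucB_mk (Z R : ℝ) (hf : IsH1 f F) (hg : IsH1 g G) : nucB Z R hf.mk hg.mk = nucForm Z R f g F G := rfl

@[simp] theorem l2B_mk (hf : IsH1 f F) (hg : IsH1 g G) : l2B hf.mk hg.mk = ∫ x, f x * g x := rfl

@[simp] theorem l2F_mk {T : Space → ℝ} (hT : MemLp T 2 volume) (hf : IsH1 f F) : l2F hT hf.mk = ∫ x, f x * T x := rfl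

theorem nucB_symm (Z R : ℝ) (p q : h1Sub) : nucB Z R p q = nucB Z R q p := nucForm_comm _ _ _ _ _ _

theorem l2B_symm (p q : h1Sub) : l2B p q = l2B q p := by
  show ∫ x, p.1.1 x * q.1.1 x = ∫ x, q.1.1 x * p.1.1 x
  simp only [mul_comm]

theorem l2B_self (p : h1Sub) : l2B p p = ∫ x, p.1.1 x ^ 2 := by
  show ∫ x, p.1.1 x * p.1.1 x = _
  simp only [sq]

theorem l2B_self_nonneg (p : h1Sub) : 0 ≤ l2B p p := by
  rw [l2B_self]
  exact integral_nonneg fun x => sq_nonneg _

end F2

/-! ## Consequences of `TCAbs` in raw language (proved) -/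

section F3

variable {Z R E B : ℝ}

/-- Euler–Lagrange equation on a linear class. -/
theorem tc_euler_lagrange {S : (Space → ℝ) → Prop} (h0 : S (fun _ => 0))
    (hadd : ∀ f g, S f → S g → S (fun x => f x + g x)) (hsmul : ∀ (c : ℝ) f, S f → S (fun x => c * f x))
    {f : Space → ℝ} {F : Space → Space} (hf : IsH1 f F) (hS : S f)
    (hE : nucForm Z R f f F F = E * ∫ x, f x ^ 2) (hmin : IsBelow Z R E S) :
    ∀ g G, IsH1 g G → S g → nucForm Z R g f G F = E * ∫ x, g x * f x := by
  intro g G hg hSg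
  let S' : Submodule ℝ h1Sub :=
    { carrier := {p | S p.1.1}
      add_mem' := fun {p q} hp hq => hadd _ _ hp hq
      zero_mem' := h0
      smul_mem' := fun c p hp => hsmul c _ hp }
  have := tc_abs_euler (nucB Z R) l2B (nucB_symm Z R) l2B_symm S' (E := E) (f := hf.mk) hS
    (by rw [l2B_self]; exact hE) (fun p hp => by rw [l2B_self]; exact hmin _ _ p.2 hp) hg.mk hSg
  simpa using this

/-- the three-dimensional argument. -/
theorem tc_three {T₁ T₂ : Space → ℝ} (hT₁ : MemLp T₁ 2 volume) (hT₂ : MemLp T₂ 2 volume)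
    (hB : ∀ g G, IsH1 g G → ∫ x, g x * T₁ x = 0 → ∫ x, g x * T₂ x = 0 → B * (∫ x, g x ^ 2) ≤ nucForm Z R g g G G)
    {f₁ f₂ f₃ : Space → ℝ} {F₁ F₂ F₃ : Space → Space} (h₁ : IsH1 f₁ F₁) (h₂ : IsH1 f₂ F₂) (h₃ : IsH1 f₃ F₃)
    (q12 : nucForm Z R f₁ f₂ F₁ F₂ = 0) (q13 : nucForm Z R f₁ f₃ F₁ F₃ = 0) (q23 : nucForm Z R f₂ f₃ F₂ F₃ = 0)
    (m12 : ∫ x, f₁ x * f₂ x = 0) (m13 : ∫ x, f₁ x * f₃ x = 0) (m23 : ∫ x, f₂ x * f₃ x = 0)
    (e1 : nucForm Z R f₁ f₁ F₁ F₁ < B * ∫ x, f₁ x ^ 2) (e2 : nucForm Z R f₂ f₂ F₂ F₂ < B * ∫ x, f₂ x ^ 2)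
    (e3 : nucForm Z R f₃ f₃ F₃ F₃ < B * ∫ x, f₃ x ^ 2) : False := by
  refine tc_abs_three (nucB Z R) l2B (nucB_symm Z R) l2B_symm (l2F hT₁) (l2F hT₂) (B := B)
    (fun p h1 h2 => ?_) (f₁ := h₁.mk) (f₂ := h₂.mk) (f₃ := h₃.mk) q12 q13 q23 m12 m13 m23 ?_ ?_ ?_
  · rw [l2B_self]; exact hB _ _ p.2 h1 h2
  · rw [l2B_self]; exact e1
  · rw [l2B_self]; exact e2
  · rw [l2B_self]; exact e3

theorem IsWeakEig.form_self {f : Space → ℝ} {F : Space → Space} (h : IsWeakEig Z R E f F) :
    nucForm Z R f f F F = E * ∫ x, f x ^ 2 := by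
  rw [h.2 f F h.1]
  simp only [sq]

/-- the third level: `q ≥ B` on `{T₁,T₂}^⊥` and two orthonormal eigenfunctions below `B`  ⇒  `q ≥ B` on `{b,e}^⊥`. -/
theorem tc_third {T₁ T₂ : Space → ℝ} (hT₁ : MemLp T₁ 2 volume) (hT₂ : MemLp T₂ 2 volume)
    (hB : ∀ g G, IsH1 g G → ∫ x, g x * T₁ x = 0 → ∫ x, g x * T₂ x = 0 → B * (∫ x, g x ^ 2) ≤ nucForm Z R g g G G)
    {b e : Space → ℝ} {Fb Fe : Space → Space} {Eb Ee : ℝ} (hb : IsWeakEig Z R Eb b Fb) (he : IsWeakEig Z R Ee e Fe)
    (nb : ∫ x, b x ^ 2 = 1) (ne : ∫ x, e x ^ 2 = 1) (hbe : ∫ x, b x * e x = 0) (hEb : Eb < B) (hEe : Ee < B) :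
    ∀ g G, IsH1 g G → ∫ x, g x * b x = 0 → ∫ x, g x * e x = 0 → B * (∫ x, g x ^ 2) ≤ nucForm Z R g g G G := by
  intro g G hg hgb hge
  by_contra hcon
  push Not at hcon
  refine tc_three hT₁ hT₂ hB hb.1 he.1 hg ?_ ?_ ?_ hbe ?_ ?_ ?_ ?_ hcon
  · rw [he.2 b Fb hb.1, hbe, mul_zero]
  · rw [nucForm_comm, hb.2 g G hg, hgb, mul_zero]
  · rw [nucForm_comm, he.2 g G hg, hge, mul_zero]
  · simpa only [mul_comm] using hgb
  · simpa only [mul_comm] using hge
  · rw [hb.form_self, nb]; linarith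
  · rw [he.form_self, ne]; linarith

/-- the second level. -/
theorem tc_second {b e : Space → ℝ} {Fb Fe : Space → Space} (hb : IsH1 b Fb) (he : IsWeakEig Z R E e Fe)
    (ne : ∫ x, e x ^ 2 = 1) (hbe : ∫ x, b x * e x = 0) (hEB : E ≤ B)
    (hB : ∀ g G, IsH1 g G → ∫ x, g x * b x = 0 → ∫ x, g x * e x = 0 → B * (∫ x, g x ^ 2) ≤ nucForm Z R g g G G) :
    ∀ g G, IsH1 g G → ∫ x, g x * b x = 0 → E * (∫ x, g x ^ 2) ≤ nucForm Z R g g G G := by
  intro g G hg hgb
  have := tc_abs_second (nucB Z R) l2B l2B_symm l2B_self_nonneg (b := hb.mk) (e := he.1.mk) hEB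
    (fun p => he.2 _ _ p.2) (nucB_symm Z R) (by rw [l2B_self]; exact ne)
    (by rw [l2B_symm]; exact hbe) (fun p h1 h2 => by rw [l2B_self]; exact hB _ _ p.2 h1 h2) hg.mk hgb
  rw [l2B_self] at this
  exact this

end F3

/-! ## TC-F4 (proved): eigenfunctions form a vector space; invariance under isometries -/

section F4

variable {Z R E : ℝ} {f g : Space → ℝ} {F G : Space → Space}

theorem IsWeakEig.sub (hf : IsWeakEig Z R E f F) (hg : IsWeakEig Z R E g G) :
    IsWeakEig Z R E (fun x => f x - g x) (fun x => F x - G x) := by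
  refine ⟨hf.1.sub hg.1, fun k K hk => ?_⟩
  have e : (hf.1.sub hg.1).mk = hf.1.mk - hg.1.mk := rfl
  have h1 : nucB Z R hk.mk (hf.1.sub hg.1).mk = E * l2B hk.mk (hf.1.sub hg.1).mk := by
    rw [e, map_sub, map_sub, nucB_mk, nucB_mk, l2B_mk, l2B_mk, hf.2 k K hk, hg.2 k K hk]
    ring
  simpa using h1

theorem IsWeakEig.const_mul (c : ℝ) (hf : IsWeakEig Z R E f F) :
    IsWeakEig Z R E (fun x => c * f x) (fun x => c • F x) := by
  refine ⟨hf.1.const_mul c, fun k K hk => ?_⟩
  have e : (hf.1.const_mul c).mk = c • hf.1.mk := rfl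
  have h1 : nucB Z R hk.mk (hf.1.const_mul c).mk = E * l2B hk.mk (hf.1.const_mul c).mk := by
    rw [e, map_smul, map_smul, nucB_mk, l2B_mk, hf.2 k K hk, smul_eq_mul, smul_eq_mul]
    ring
  simpa using h1

theorem IsH1.congr_ae {f' : Space → ℝ} {F' : Space → Space} (h : IsH1 f F) (h1 : f =ᵐ[volume] f')
    (h2 : F =ᵐ[volume] F') : IsH1 f' F' :=
  ⟨h.1.ae_eq h1, h.2.1.ae_eq h2, h.2.2.congr_ae h1 h2⟩

theorem IsWeakEig.congr_ae {f' : Space → ℝ} {F' : Space → Space} (h : IsWeakEig Z R E f F) (h1 : f =ᵐ[volume] f')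
    (h2 : F =ᵐ[volume] F') : IsWeakEig Z R E f' F' := by
  refine ⟨h.1.congr_ae h1 h2, fun k K hk => ?_⟩
  rw [← nucForm_congr_ae Z R (EventuallyEq.refl _ k) h1 (EventuallyEq.refl _ K) h2, h.2 k K hk]
  congr 1
  refine integral_congr_ae ?_
  filter_upwards [h1] with x hx
  rw [hx]

/-- change of variables (`A.measurePreserving`, no integrability needed). -/
theorem tc_integral_comp_isometry (A : Space ≃ₗᵢ[ℝ] Space) (u : Space → ℝ) : ∫ x, u (A x) = ∫ x, u x :=
  A.measurePreserving.integral_comp A.toHomeomorph.measurableEmbedding u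

theorem nucForm_comp_isometry (A : Space ≃ₗᵢ[ℝ] Space)
    (hA : ∀ x, nuclearPotential Z R (A x) = nuclearPotential Z R x) (f g : Space → ℝ) (F G : Space → Space) :
    nucForm Z R (fun x => f (A x)) (fun x => g (A x)) (fun x => A.symm (F (A x))) (fun x => A.symm (G (A x)))
      = nucForm Z R f g F G := by
  unfold nucForm
  have e1 : ∫ x, ⟪A.symm (F (A x)), A.symm (G (A x))⟫_ℝ = ∫ x, ⟪F x, G x⟫_ℝ := by
    simp only [LinearIsometryEquiv.inner_map_map]
    exact tc_integral_comp_isometry A (fun x => ⟪F x, G x⟫_ℝ)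
  have e2 : ∫ x, nuclearPotential Z R x * (f (A x) * g (A x)) = ∫ x, nuclearPotential Z R x * (f x * g x) := by
    rw [← tc_integral_comp_isometry A (fun x => nuclearPotential Z R x * (f x * g x))]
    simp only [hA]
  rw [e1, e2]

/-- test `g` against `f ∘ A`: write `g = (g ∘ A⁻¹) ∘ A`. -/
theorem IsWeakEig.comp_isometry (h : IsWeakEig Z R E f F) (A : Space ≃ₗᵢ[ℝ] Space)
    (hA : ∀ x, nuclearPotential Z R (A x) = nuclearPotential Z R x) :
    IsWeakEig Z R E (fun x => f (A x)) (fun x => A.symm (F (A x))) := by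
  refine ⟨h.1.comp_isometry A, fun k K hk => ?_⟩
  have hk' := hk.comp_isometry A.symm
  have h1 := h.2 _ _ hk'
  have h2 := nucForm_comp_isometry A hA (fun x => k (A.symm x)) f (fun x => A.symm.symm (K (A.symm x))) F
  simp only [LinearIsometryEquiv.symm_apply_apply, LinearIsometryEquiv.symm_symm] at h2
  rw [h2]
  simp only [LinearIsometryEquiv.symm_symm] at h1
  rw [h1, ← tc_integral_comp_isometry A (fun x => k (A.symm x) * f x)]
  simp only [LinearIsometryEquiv.symm_apply_apply]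

/-- every linear isometry preserves the potential of the atom at the origin. -/
theorem nuclearPotential_zero_isometry (Z : ℝ) (A : Space ≃ₗᵢ[ℝ] Space) (x : Space) :
    nuclearPotential Z 0 (A x) = nuclearPotential Z 0 x := by
  simp [nuclearPotential]

theorem nuclearPotential_reflZE (x : Space) : nuclearPotential Z R (reflZE x) = nuclearPotential Z R x :=
  nuclearPotential_reflZ Z R x

theorem nuclearPotential_rotZE (a : ℝ) (x : Space) : nuclearPotential Z R (rotZE a x) = nuclearPotential Z R x :=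
  nuclearPotential_rotZ Z R a x

end F4

/-! ## TC-F5 (proved): from the Euler–Lagrange equation on a class to all test functions -/

section F5

variable {Z R E : ℝ} {f g : Space → ℝ} {F G : Space → Space}

theorem OddZ.zero : OddZ (fun _ => 0) := by
  simp [OddZ]

theorem OddZ.add (hf : OddZ f) (hg : OddZ g) : OddZ (fun x => f x + g x) := by
  filter_upwards [hf, hg] with x h1 h2
  rw [h1, h2]; ring

theorem OddZ.const_mul (c : ℝ) (hf : OddZ f) : OddZ (fun x => c * f x) := by
  filter_upwards [hf] with x h1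
  rw [h1]; ring

/-- `g - g ∘ reflZ` is odd. -/
theorem oddZ_sub_comp (g : Space → ℝ) : OddZ (fun x => g x - g (reflZ x)) := by
  refine Eventually.of_forall fun x => ?_
  simp [reflZ_reflZ]

/-- a.e. limits of odd functions are odd (`measurePreserving_reflZ.quasiMeasurePreserving.ae`). -/
theorem OddZ.of_tendsto {fn : ℕ → Space → ℝ} (h : ∀ n, OddZ (fn n))
    (hlim : ∀ᵐ x, Tendsto (fun n => fn n x) atTop (𝓝 (f x))) : OddZ f := by
  have h1 := measurePreserving_reflZ.quasiMeasurePreserving.ae hlim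
  filter_upwards [ae_all_iff.2 h, hlim, h1] with x hx hx1 hx2
  simp only [hx] at hx2
  exact tendsto_nhds_unique hx2 hx1.neg

/-- odd times even integrates to zero. -/
theorem OddZ.integral_mul_eq_zero (hf : OddZ f) (hg : ∀ᵐ x, g (reflZ x) = g x) : ∫ x, f x * g x = 0 := by
  have h1 := tc_integral_comp_isometry reflZE (fun x => f x * g x)
  have h2 : ∫ x, f (reflZE x) * g (reflZE x) = -∫ x, f x * g x := by
    rw [← integral_neg]
    refine integral_congr_ae ?_
    filter_upwards [hf, hg] with x e1 e2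
    simp only [reflZE_apply, e1, e2]
    ring
  linarith

theorem reflZ_neg (y : Space) : reflZ (-y) = -reflZ y := reflZE.map_neg y

/-- For an odd `f`:  `q(g ∘ reflZ, f) = q(g, f ∘ reflZ) = - q(g, f)` (`nucForm_comp_isometry`, `IsWeakGrad.grad_of_odd`), hence
`q(g, f) = q(g_odd, f)`, `g_odd = (g - g ∘ reflZ)/2`; the same for the `L²` product. -/
theorem IsWeakEig.of_odd (hf : IsH1 f F) (hodd : OddZ f)
    (h : ∀ g G, IsH1 g G → OddZ g → nucForm Z R g f G F = E * ∫ x, g x * f x) : IsWeakEig Z R E f F := by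
  refine ⟨hf, fun k K hk => ?_⟩
  have hk' := hk.comp_isometry reflZE
  simp only [reflZE_apply, reflZE_symm_apply] at hk'
  -- claim 1
  have c1 : nucForm Z R (fun x => k (reflZ x)) f (fun x => reflZ (K (reflZ x))) F = -nucForm Z R k f K F := by
    have e1 := nucForm_comp_isometry (Z := Z) (R := R) reflZE nuclearPotential_reflZE (fun x => k (reflZ x)) f
      (fun x => reflZ (K (reflZ x))) F
    simp only [reflZE_apply, reflZE_symm_apply, reflZ_reflZ] at e1
    rw [← e1]
    have e2 : (fun x => f (reflZ x)) =ᵐ[volume] fun x => (-1) * f x := by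
      filter_upwards [hodd] with x hx
      rw [hx]; ring
    have e3 : (fun x => reflZ (F (reflZ x))) =ᵐ[volume] fun x => (-1 : ℝ) • F x := by
      filter_upwards [hf.2.2.grad_of_odd hodd] with x hx
      rw [hx, reflZ_neg, reflZ_reflZ]
      simp
    rw [nucForm_congr_ae Z R (EventuallyEq.refl _ k) e2 (EventuallyEq.refl _ K) e3, nucForm_comm,
      nucForm_smul_left, nucForm_comm]
    ring
  -- claim 2
  have c2 : ∫ x, k (reflZ x) * f x = -∫ x, k x * f x := by
    have e1 := tc_integral_comp_isometry reflZE (fun x => k (reflZ x) * f x)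
    simp only [reflZE_apply, reflZ_reflZ] at e1
    rw [← e1, ← integral_neg]
    refine integral_congr_ae ?_
    filter_upwards [hodd] with x hx
    rw [hx]; ring
  have h1 := h _ _ (hk.sub hk') (oddZ_sub_comp k)
  have e : (hk.sub hk').mk = hk.mk - hk'.mk := rfl
  have h2 : nucB Z R (hk.sub hk').mk hf.mk = E * l2B (hk.sub hk').mk hf.mk := h1
  rw [e, map_sub, map_sub, LinearMap.sub_apply, LinearMap.sub_apply, nucB_mk, nucB_mk, l2B_mk, l2B_mk, c1, c2] at h2
  linarith

/-- For `f ⟂ h`, `h` a normalised eigenfunction: test with `g - (∫ g h) h`;  `q(h, f) = E' ∫ f h = 0`. -/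
theorem IsWeakEig.of_orth {E' : ℝ} {h : Space → ℝ} {H : Space → Space} (hh : IsWeakEig Z R E' h H)
    (hn : ∫ x, h x ^ 2 = 1) (hf : IsH1 f F) (hfh : ∫ x, f x * h x = 0)
    (hEL : ∀ g G, IsH1 g G → ∫ x, g x * h x = 0 → nucForm Z R g f G F = E * ∫ x, g x * f x) :
    IsWeakEig Z R E f F := by
  refine ⟨hf, fun k K hk => ?_⟩
  set c := ∫ x, k x * h x with hc
  have hk₀ := hk.sub (hh.1.const_mul c)
  have e : hk₀.mk = hk.mk - c • hh.1.mk := rfl
  have o : l2B hk₀.mk hh.1.mk = 0 := by
    rw [e, map_sub, map_smul, LinearMap.sub_apply, LinearMap.smul_apply, l2B_mk, l2B_self]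
    show c - c • ∫ x, h x ^ 2 = 0
    rw [hn]
    simp
  have h1 : nucB Z R hk₀.mk hf.mk = E * l2B hk₀.mk hf.mk := hEL _ _ hk₀ o
  have h2 : nucForm Z R h f H F = 0 := by
    rw [nucForm_comm, hh.2 f F hf, hfh, mul_zero]
  have h3 : ∫ x, h x * f x = 0 := by
    simpa only [mul_comm] using hfh
  rw [e, map_sub, map_sub, map_smul, map_smul, LinearMap.sub_apply, LinearMap.sub_apply, LinearMap.smul_apply,
    LinearMap.smul_apply, nucB_mk, nucB_mk, l2B_mk, l2B_mk, h2, h3] at h1
  simpa using h1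

end F5

/-! ## TC-F6 (proved): moduli -/

section F6

variable {Z R E : ℝ} {f g : Space → ℝ} {F G : Space → Space}

theorem tc_abs_sign_le (r : ℝ) : |Real.sign r| ≤ 1 := by
  rcases Real.sign_apply_eq r with h | h | h <;> rw [h] <;> norm_num

theorem tc_norm_sign_smul_le (r : ℝ) (v : Space) : ‖Real.sign r • v‖ ≤ ‖v‖ := by
  rw [norm_smul, Real.norm_eq_abs]
  exact mul_le_of_le_one_left (norm_nonneg v) (tc_abs_sign_le r)

/-- `q[|f|] ≤ q[f]`  (`‖sign(f) ∇f‖ ≤ ‖∇f‖`, `|f|² = f²`). -/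
theorem nucForm_abs_le (hf : IsH1 f F) :
    nucForm Z R (fun x => |f x|) (fun x => |f x|) (fun x => Real.sign (f x) • F x) (fun x => Real.sign (f x) • F x)
      ≤ nucForm Z R f f F F := by
  unfold nucForm
  simp only [real_inner_self_eq_norm_sq, abs_mul_abs_self]
  have h1 : ∫ x, ‖Real.sign (f x) • F x‖ ^ 2 ≤ ∫ x, ‖F x‖ ^ 2 := by
    refine integral_mono (tc_integrable_norm_sq hf.abs.2.1) (tc_integrable_norm_sq hf.2.1) fun x => ?_
    exact pow_le_pow_left₀ (norm_nonneg _) (tc_norm_sign_smul_le _ _) 2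
  linarith

/-- the odd modulus `sign(z) |f|`. -/
def oddAbs (f : Space → ℝ) (x : Space) : ℝ := Real.sign (x 2) * |f x|

/-- the median plane is a null set. -/
theorem tc_ae_z_ne_zero : ∀ᵐ x : Space, x 2 ≠ 0 := by
  let s : Submodule ℝ Space := LinearMap.ker (EuclideanSpace.proj (2 : Fin 3) : Space →L[ℝ] ℝ).toLinearMap
  have hs : s ≠ ⊤ := by
    intro h
    have : ez ∈ s := h ▸ Submodule.mem_top
    simp [s, ez] at this
  have h0 := Measure.addHaar_submodule (volume : Measure Space) s hs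
  rw [measure_eq_zero_iff_ae_notMem] at h0
  filter_upwards [h0] with x hx h
  apply hx
  simpa [s] using h

theorem oddAbs_sq_ae (f : Space → ℝ) : ∀ᵐ x, oddAbs f x ^ 2 = f x ^ 2 := by
  filter_upwards [tc_ae_z_ne_zero] with x hx
  unfold oddAbs
  rw [mul_pow, sq_abs]
  rcases lt_or_gt_of_ne hx with h | h
  · rw [Real.sign_of_neg h]; ring
  · rw [Real.sign_of_pos h]; ring

theorem reflZ_two (x : Space) : (reflZ x) 2 = - x 2 := by
  simp [reflZ]

theorem oddZ_oddAbs (hodd : OddZ f) : OddZ (oddAbs f) := by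
  filter_upwards [hodd] with x hx
  unfold oddAbs
  rw [hx, reflZ_two, Real.sign_neg, abs_neg]
  ring

theorem exists_isH1_oddAbs_aux (hf : IsH1 f F) (hodd : OddZ f) :
    ∃ W : Space → Space, IsH1 (oddAbs f) W ∧ ∀ᵐ x, ‖W x‖ ≤ ‖F x‖ := by
  have h1 := hf.2.2.indicator_upper_of_odd hodd
  have h2 := h1.abs
  have h3 := h2.odd_extension
  set u : Space → ℝ := fun x => if 0 < x 2 then f x else 0 with hu
  set U : Space → Space := fun x => if 0 < x 2 then F x else 0 with hU
  set W : Space → Space := fun x => Real.sign (u x) • U x - reflZ (Real.sign (u (reflZ x)) • U (reflZ x)) with hW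
  have hr0 : reflZ 0 = 0 := reflZE.map_zero
  have e1 : (fun x => |u x| - |u (reflZ x)|) =ᵐ[volume] oddAbs f := by
    filter_upwards [hodd] with x hx
    simp only [hu, oddAbs, reflZ_two]
    rcases lt_trichotomy (x 2) 0 with h | h | h
    · rw [if_neg (by linarith), if_pos (by linarith), hx, Real.sign_of_neg h]
      simp
    · rw [h]
      simp
    · rw [if_pos h, if_neg (by linarith), Real.sign_of_pos h]
      simp
  have h4 : IsWeakGrad (oddAbs f) W := h3.congr_ae e1 (EventuallyEq.refl _ _)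
  have hle : ∀ᵐ x, ‖W x‖ ≤ ‖F x‖ := by
    filter_upwards [hf.2.2.grad_of_odd hodd] with x hx
    simp only [hW, hU, reflZ_two]
    by_cases h : 0 < x 2
    · rw [if_pos h, if_neg (by linarith), smul_zero, hr0, sub_zero]
      exact tc_norm_sign_smul_le _ _
    · rw [if_neg h, smul_zero, zero_sub, norm_neg, norm_reflZ]
      refine (tc_norm_sign_smul_le _ _).trans ?_
      split_ifs
      · rw [hx, norm_neg, norm_reflZ]
      · simp
  refine ⟨W, ⟨?_, ?_, h4⟩, hle⟩
  · refine tc_memLp_of_abs_le hf.1 h4.1.aestronglyMeasurable (Eventually.of_forall fun x => ?_)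
    unfold oddAbs
    rw [abs_mul, abs_abs]
    exact mul_le_of_le_one_left (abs_nonneg _) (tc_abs_sign_le _)
  · exact tc_memLp_of_norm_le hf.2.1 h4.2.1.aestronglyMeasurable hle

/-- `sign(z)|f| ∈ H¹` for an odd `f ∈ H¹`, with no more kinetic energy.
Route: `u = 1_{z>0} f` has the gradient `1_{z>0} F` (`IsWeakGrad.indicator_upper_of_odd`), `|u|` has the gradient
`sign(u) 1_{z>0} F` (`IsWeakGrad.abs`), `oddAbs f = |u| - |u| ∘ reflZ` a.e. (`IsWeakGrad.odd_extension`); with
`A = sign(u) 1_{z>0} F`: `∫ ‖A - reflZ (A ∘ reflZ)‖² = 2 ∫ ‖A‖² ≤ 2 ∫_{z>0} ‖F‖² = ∫ ‖F‖²` (`IsWeakGrad.grad_of_odd`). -/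
theorem exists_isH1_oddAbs (hf : IsH1 f F) (hodd : OddZ f) :
    ∃ W : Space → Space, IsH1 (oddAbs f) W ∧ ∫ x, ‖W x‖ ^ 2 ≤ ∫ x, ‖F x‖ ^ 2 := by
  obtain ⟨W, hW, hle⟩ := exists_isH1_oddAbs_aux hf hodd
  refine ⟨W, hW, integral_mono_ae (tc_integrable_norm_sq hW.2.1) (tc_integrable_norm_sq hf.2.1) ?_⟩
  filter_upwards [hle] with x hx
  exact pow_le_pow_left₀ (norm_nonneg _) hx 2

theorem exists_nucForm_oddAbs_le (hf : IsH1 f F) (hodd : OddZ f) :
    ∃ W : Space → Space, IsH1 (oddAbs f) W ∧ nucForm Z R (oddAbs f) (oddAbs f) W W ≤ nucForm Z R f f F F := by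
  obtain ⟨W, hW, hle⟩ := exists_isH1_oddAbs hf hodd
  refine ⟨W, hW, ?_⟩
  unfold nucForm
  simp only [real_inner_self_eq_norm_sq]
  have e : ∫ x, nuclearPotential Z R x * (oddAbs f x * oddAbs f x) = ∫ x, nuclearPotential Z R x * (f x * f x) := by
    refine integral_congr_ae ?_
    filter_upwards [oddAbs_sq_ae f] with x hx
    rw [← sq, ← sq, hx]
  rw [e]
  linarith

end F6

/-! ## TC-F7 (proved): the hydrogen form -/

section F7

variable {f : Space → ℝ} {F : Space → Space}

theorem nucForm_half_zero (f : Space → ℝ) (F : Space → Space) : nucForm (1 / 2) 0 f f F F = hydQ 0 f F := by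
  unfold nucForm hydQ
  simp only [real_inner_self_eq_norm_sq]
  rw [sub_eq_add_neg, ← integral_neg]
  congr 1
  refine integral_congr_ae (Eventually.of_forall fun x => ?_)
  simp only [nuclearPotential, zero_smul, sub_zero, add_zero, div_eq_mul_inv]
  ring

theorem nucForm_eq_hydQ_sub (hf : IsH1 f F) (R : ℝ) :
    nucForm 1 R f f F F = hydQ (R • ez) f F - ∫ x, f x ^ 2 / ‖x + R • ez‖ := by
  unfold nucForm hydQ
  simp only [real_inner_self_eq_norm_sq]
  have i1 := (hf.coulomb (R • ez)).1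
  have i2 := (hf.coulomb (-(R • ez))).1
  simp only [sub_neg_eq_add] at i2
  have e : ∫ x, nuclearPotential 1 R x * (f x * f x)
      = -(∫ x, f x ^ 2 / ‖x - R • ez‖) - ∫ x, f x ^ 2 / ‖x + R • ez‖ := by
    have e1 := integral_sub i1.neg i2
    simp only [Pi.neg_apply] at e1
    rw [integral_neg] at e1
    rw [← e1]
    refine integral_congr_ae (Eventually.of_forall fun x => ?_)
    simp only [nuclearPotential, div_eq_mul_inv]
    ring
  rw [e]
  ring

theorem nucForm_eq_hydQ_sub' (hf : IsH1 f F) (R : ℝ) :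
    nucForm 1 R f f F F = hydQ (-(R • ez)) f F - ∫ x, f x ^ 2 / ‖x - R • ez‖ := by
  rw [nucForm_eq_hydQ_sub hf R]
  unfold hydQ
  simp only [sub_neg_eq_add]
  ring

theorem hydQ_translate (c : Space) (f : Space → ℝ) (F : Space → Space) :
    hydQ 0 (fun x => f (x + c)) (fun x => F (x + c)) = hydQ c f F := by
  unfold hydQ
  rw [integral_add_right_eq_self (fun x => ‖F x‖ ^ 2) c, ← integral_add_right_eq_self (fun x => f x ^ 2 / ‖x - c‖) c]
  simp only [sub_zero, add_sub_cancel_right]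

/-- `-½ ∫ f² ≤ q_H[f]`. -/
theorem IsH1.hydQ_ge (hf : IsH1 f F) (c : Space) : -(1 / 2) * (∫ x, f x ^ 2) ≤ hydQ c f F := by
  have := hf.hydrogen_bound c (Z := 1) zero_le_one
  unfold hydQ
  linarith

end F7

end Claimed.Open.R278
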