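import Claimed.Open.R278.GPOrbA
import Claimed.Open.R278.ANTop
import Claimed.Open.R278.TCForm

/-!
# Package AC (Prop. 4.2 / Lemma 7.4), zero coupling: `θ_* = arctan (e/(√2 b))` is THE folded minimizer of `n₀ = 2b² + e²`, with multiplier `d_* = ε_e - ε_b`

NO Slater determinants, no three-electron ground state: only the one-body inequalities of `TwoCentre`.
Notation: `n₀ = refDensity b e`, `θ_* = refTheta b e`, `F_b, F_e` the weak gradients of `b, e` from `IsOrbital`; `q(f) = orbitalForm f f F F`.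

AC-R1 (`ac_ref_cos_sin`, `ac_ref_weakGrad`, `ac_ref_admissible`, `ac_ref_weakMultiplier`).
* `cos (arctan t) = 1/√(1+t²)`, `sin (arctan t) = t/√(1+t²)` (`Real.cos_arctan`, `Real.sin_arctan`), `1 + t² = n₀/(2b²)`: `√n₀ cos θ_* = √2 b`, `√n₀ sin θ_* = e`.
* weak gradient `G_* = (√2/n₀) (b F_e - e F_b)`: quotient `e/(√2 b)` (`tk_weakGrad_comp_loc` for `1/b`, `IsWeakGrad.mul`), then `IsWeakGrad.comp` with `arctan`.
  `n₀ |G_*|² = 2 |b F_e - e F_b|²/n₀ ≤ 2 (|F_b|² + |F_e|²)` since `|b F_e - e F_b|² ≤ (b² + e²)(|F_e|² + |F_b|²)` and `b² + e² ≤ n₀`.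
* constraint `∫ n₀ sin² θ_* = ∫ e² = 1`; oddness from `odd_e`, `even_b`.
* multiplier: `n₀ G_* = √2 (b F_e - e F_b)`, `⟨b F_e - e F_b, ∇φ⟩ = ⟨F_e, ∇(bφ)⟩ - ⟨F_b, ∇(eφ)⟩`; the orbital equations tested with `bφ`, `eφ ∈ H¹` give
  `∫ n₀ ⟨G_*,∇φ⟩ = 2√2 (ε_e - ε_b) ∫ b e φ`, and `n₀ sin 2θ_* = 2 (√n₀ sin)(√n₀ cos) = 2√2 b e`.

AC-R2 (`ac_ref_min`, `ac_ref_unique`).  For admissible `(ϑ,G)`: `g = orbG n₀ ϑ`, `h = orbH n₀ ϑ ∈ H¹` (GPOrbA), `‖g‖² = 2`, `‖h‖² = 1`, `h` odd so `∫ h b = 0` (`tk_integral_odd`).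
`q(g) ≥ 2 ε_b` (`lowest`), `q(h) ≥ ε_e` (`second`), and `q(g) + q(h) = K₀ + E(ϑ)/2` (`orb_energy`), with equality `q(√2 b) + q(e) = 2ε_b + ε_e` for `θ_*`.  So `E(θ_*) ≤ E(ϑ)`.
Uniqueness: if `E(ϑ) ≤ E(θ_*)` both inequalities are equalities.  `g = c b + g^⊥`, `c = ∫ g b`: `q(g) - ε_b ‖g‖² = q(g^⊥) - ε_b ‖g^⊥‖² ≥ (ε_e - ε_b) ‖g^⊥‖²` (`second`; cross terms by the orbital equation), so `g = c b` a.e.,
`c² = 2`, `c > 0` because `cos ϑ ≥ 0` (folded + odd).  `h = c' e + h^⊥`, `h^⊥ ⊥ b, e`: `q(h^⊥) ≥ (ε_e + 0.2) ‖h^⊥‖²` (`third`), so `h = c' e`, `c' = 1` (`h ≥ 0`, `e > 0` on `Ω₊`).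
Then `sin ϑ = sin θ_*` a.e. with both angles in `[-π/2, π/2]` (`Real.injOn_sin`).

AC-R3 (`ac_ref_contDiff`, `ac_ref_foldedMinimizer`, `ac_ref_multiplier`): `an_C1_version` gives a `C¹` function a.e. equal to the continuous `θ_*`, hence equal (`eq_of_continuous_ae_eq`); `an_transfer`.
-/

open MeasureTheory
open scoped ContDiff InnerProductSpace ENNReal Topology

noncomputable section

namespace Claimed.Open.R278

variable {b e : Space → ℝ} {εb εe : ℝ}

theorem acr_n0_pos (h : TwoCentre b e εb εe) (x : Space) : 0 < refDensity b e x := by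
  unfold refDensity
  have := h.data.pos_b x
  positivity

theorem acr_one_add_sq (h : TwoCentre b e εb εe) (x : Space) :
    1 + (e x / (√2 * b x)) ^ 2 = refDensity b e x / (√2 * b x) ^ 2 := by
  have hb := h.data.pos_b x
  have hs2 : √2 ^ 2 = (2:ℝ) := Real.sq_sqrt (by norm_num)
  have h2 : (0:ℝ) < √2 := by positivity
  rw [refDensity, div_pow, mul_pow, hs2]
  field_simp

theorem ac_ref_cos_sin (h : TwoCentre b e εb εe) (x : Space) :
    orbG (refDensity b e) (refTheta b e) x = √2 * b x ∧ orbH (refDensity b e) (refTheta b e) x = e x := by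
  have hb := h.data.pos_b x
  have h2 : (0:ℝ) < √2 := by positivity
  have hn := acr_n0_pos h x
  have h3 : √(1 + (e x / (√2 * b x)) ^ 2) = √(refDensity b e x) / (√2 * b x) := by
    rw [acr_one_add_sq h x, Real.sqrt_div hn.le, Real.sqrt_sq (by positivity)]
  have h4 : 0 < √(refDensity b e x) := Real.sqrt_pos.2 hn
  unfold orbG orbH refTheta
  rw [Real.cos_arctan, Real.sin_arctan, h3]
  constructor
  · field_simp
  · field_simp

/-- the weak gradient of the reference angle. -/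
def refThetaGrad (b e : Space → ℝ) (Fb Fe : Space → Space) (x : Space) : Space :=
  (√2 / refDensity b e x) • (b x • Fe x - e x • Fb x)

theorem acr_weakGrad (h : TwoCentre b e εb εe) {Fb Fe : Space → Space}
    (hb : IsH1 b Fb) (he : IsH1 e Fe) : IsWeakGrad (refTheta b e) (refThetaGrad b e Fb Fe) := by
  have cb : Continuous b := h.data.orbital_b.1
  have ce : Continuous e := h.data.orbital_e.1
  have hinv : IsWeakGrad (fun x => (b x)⁻¹) (fun x => deriv (fun t : ℝ => t⁻¹) (b x) • Fb x) :=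
    tk_weakGrad_comp_loc hb.2.2 cb isOpen_Ioi (I := Set.Ioi 0) (fun x => h.data.pos_b x)
      ((contDiffOn_inv ℝ).mono fun t ht => ne_of_gt ht)
  have cinv : Continuous fun x => (b x)⁻¹ := cb.inv₀ fun x => (h.data.pos_b x).ne'
  have cd : Continuous fun x => deriv (fun t : ℝ => t⁻¹) (b x) := by
    simp only [deriv_inv]
    exact ((cb.pow 2).inv₀ fun x => (pow_pos (h.data.pos_b x) 2).ne').neg
  have h1 := he.2.2.mul hinv (MemLp.l2Loc he.1) (MemLp.l2Loc he.2.1) (fs_l2Loc_of_continuous cinv)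
    (anL2loc_iff_l2Loc.1 ((anL2loc_iff_l2Loc.2 (MemLp.l2Loc hb.2.1)).smul_continuous cd))
  have h2 := (h1.const_mul (1 / √2)).comp (Θ := Real.arctan) (Real.contDiff_arctan) (C := 1) (fun z => by
    rw [Real.deriv_arctan, abs_of_pos (by positivity)]
    exact (div_le_one (by positivity)).2 (by nlinarith [sq_nonneg z]))
  refine h2.congr_ae (Filter.Eventually.of_forall fun x => ?_) (Filter.Eventually.of_forall fun x => ?_)
  · have hbx := h.data.pos_b x
    show Real.arctan (1 / √2 * (e x * (b x)⁻¹)) = Real.arctan (e x / (√2 * b x))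
    congr 1
    field_simp
  · have hbx := h.data.pos_b x
    have hn := acr_n0_pos h x
    have hs2 : √2 ^ 2 = (2:ℝ) := Real.sq_sqrt (by norm_num)
    have h2 : (0:ℝ) < √2 := by positivity
    have e0 : 1 / √2 * (e x * (b x)⁻¹) = e x / (√2 * b x) := by field_simp
    show deriv Real.arctan (1 / √2 * (e x * (b x)⁻¹)) • ((1 / √2) • ((b x)⁻¹ • Fe x + e x • (deriv (fun t : ℝ => t⁻¹) (b x) • Fb x)))
      = refThetaGrad b e Fb Fe x
    rw [Real.deriv_arctan, e0]
    simp only []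
    rw [acr_one_add_sq h x, deriv_inv, refThetaGrad]
    simp only [smul_add, smul_smul, sub_eq_add_neg, ← neg_smul]
    congr 2
    · rw [mul_pow, hs2]; field_simp; rw [hs2]
    · rw [mul_pow, hs2]; field_simp; rw [hs2]

theorem acr_energy_le (h : TwoCentre b e εb εe) (Fb Fe : Space → Space) (x : Space) :
    refDensity b e x * ‖refThetaGrad b e Fb Fe x‖ ^ 2 ≤ 2 * (‖Fb x‖ ^ 2 + ‖Fe x‖ ^ 2) := by
  have hn := acr_n0_pos h x
  have hs2 : √2 ^ 2 = (2:ℝ) := Real.sq_sqrt (by norm_num)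
  have h1 : ‖b x • Fe x - e x • Fb x‖ ≤ |b x| * ‖Fe x‖ + |e x| * ‖Fb x‖ := by
    refine (norm_sub_le _ _).trans ?_
    rw [norm_smul, norm_smul, Real.norm_eq_abs, Real.norm_eq_abs]
  have h2 : ‖b x • Fe x - e x • Fb x‖ ^ 2 ≤ refDensity b e x * (‖Fb x‖ ^ 2 + ‖Fe x‖ ^ 2) := by
    calc ‖b x • Fe x - e x • Fb x‖ ^ 2 ≤ (|b x| * ‖Fe x‖ + |e x| * ‖Fb x‖) ^ 2 :=
          pow_le_pow_left₀ (norm_nonneg _) h1 2
      _ ≤ (|b x| ^ 2 + |e x| ^ 2) * (‖Fb x‖ ^ 2 + ‖Fe x‖ ^ 2) := by
          nlinarith [sq_nonneg (|b x| * ‖Fb x‖ - |e x| * ‖Fe x‖)]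
      _ ≤ refDensity b e x * (‖Fb x‖ ^ 2 + ‖Fe x‖ ^ 2) := by
          refine mul_le_mul_of_nonneg_right ?_ (by positivity)
          rw [sq_abs, sq_abs, refDensity]
          nlinarith [sq_nonneg (b x)]
  unfold refThetaGrad
  rw [norm_smul, mul_pow, Real.norm_eq_abs, sq_abs, div_pow, hs2]
  calc refDensity b e x * (2 / refDensity b e x ^ 2 * ‖b x • Fe x - e x • Fb x‖ ^ 2)
      = 2 / refDensity b e x * ‖b x • Fe x - e x • Fb x‖ ^ 2 := by field_simp
    _ ≤ 2 / refDensity b e x * (refDensity b e x * (‖Fb x‖ ^ 2 + ‖Fe x‖ ^ 2)) :=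
        mul_le_mul_of_nonneg_left h2 (by positivity)
    _ = 2 * (‖Fb x‖ ^ 2 + ‖Fe x‖ ^ 2) := by field_simp

theorem acr_continuous_theta (h : TwoCentre b e εb εe) : Continuous (refTheta b e) := by
  unfold refTheta
  exact Real.continuous_arctan.comp (h.data.orbital_e.1.div (continuous_const.mul h.data.orbital_b.1)
    fun x => (mul_pos (by positivity) (h.data.pos_b x)).ne')

theorem acr_abs_theta_le (b e : Space → ℝ) (x : Space) : |refTheta b e x| ≤ Real.pi / 2 := by
  rw [abs_le]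
  exact ⟨(Real.neg_pi_div_two_lt_arctan _).le, (Real.arctan_lt_pi_div_two _).le⟩

theorem ac_ref_admissible (h : TwoCentre b e εb εe) (hn₀ : DensityBasic (refDensity b e)) {Fb Fe : Space → Space}
    (hb : IsH1 b Fb) (he : IsH1 e Fe) :
    IsAdmissibleAngle (refDensity b e) (refTheta b e) (refThetaGrad b e Fb Fe) := by
  have hw := acr_weakGrad h hb he
  refine ⟨hw, ?_, Filter.Eventually.of_forall fun x => ?_, ?_⟩
  · have hdom : Integrable (fun x => (Real.pi / 2) ^ 2 * refDensity b e x + 2 * (‖Fb x‖ ^ 2 + ‖Fe x‖ ^ 2)) :=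
      (hn₀.integrable.const_mul _).add ((hb.integrable_norm_sq.add he.integrable_norm_sq).const_mul 2)
    refine hdom.mono' (hn₀.continuous.aestronglyMeasurable.mul
      (((acr_continuous_theta h).aestronglyMeasurable.pow 2).add (hw.2.1.aestronglyMeasurable.norm.pow 2)))
      (Filter.Eventually.of_forall fun x => ?_)
    have hn := acr_n0_pos h x
    rw [Real.norm_of_nonneg (by positivity), mul_add]
    refine add_le_add ?_ (acr_energy_le h Fb Fe x)
    rw [mul_comm]
    refine mul_le_mul_of_nonneg_right ?_ hn.le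
    rw [← sq_abs]
    exact pow_le_pow_left₀ (abs_nonneg _) (acr_abs_theta_le b e x) 2
  · unfold refTheta
    rw [h.data.odd_e, h.data.even_b, neg_div, Real.arctan_neg]
  · rw [← h.data.orbital_e.2.1]
    refine integral_congr_ae (Filter.Eventually.of_forall fun x => ?_)
    simp only
    rw [← (ac_ref_cos_sin h x).2, orbH, mul_pow, Real.sq_sqrt (acr_n0_pos h x).le]

theorem ac_ref_folded (h : TwoCentre b e εb εe) (x : Space) (hx : 0 < x 2) :
    0 ≤ refTheta b e x ∧ refTheta b e x ≤ Real.pi / 2 := by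
  refine ⟨?_, (Real.arctan_lt_pi_div_two _).le⟩
  unfold refTheta
  rw [Real.arctan_nonneg]
  have := h.data.pos_e x hx
  have := h.data.pos_b x
  positivity

/-- the orbital equation with ANY weak gradient. -/
theorem acr_weakEig {f : Space → ℝ} {ε : ℝ} (hf : IsOrbital f ε) {F : Space → Space} (hF : IsH1 f F) :
    IsWeakEig 1 bigD ε f F := by
  obtain ⟨-, -, F', hF', heq⟩ := hf
  have : IsWeakEig 1 bigD ε f F' := ⟨hF', heq⟩
  exact this.congr_ae (Filter.EventuallyEq.refl _ _) (hF'.2.2.ae_eq hF.2.2)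

theorem acr_sin_two (h : TwoCentre b e εb εe) (x : Space) :
    refDensity b e x * Real.sin (2 * refTheta b e x) = 2 * √2 * (b x * e x) := by
  have h1 := ac_ref_cos_sin h x
  have hn := Real.sq_sqrt (acr_n0_pos h x).le
  unfold orbG orbH at h1
  rw [Real.sin_two_mul]
  calc refDensity b e x * (2 * Real.sin (refTheta b e x) * Real.cos (refTheta b e x))
      = 2 * √(refDensity b e x) ^ 2 * (Real.sin (refTheta b e x) * Real.cos (refTheta b e x)) := by rw [hn]; ring
    _ = 2 * (√(refDensity b e x) * Real.cos (refTheta b e x)) * (√(refDensity b e x) * Real.sin (refTheta b e x)) := by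
        ring
    _ = 2 * √2 * (b x * e x) := by rw [h1.1, h1.2]; ring

theorem ac_ref_weakMultiplier (h : TwoCentre b e εb εe) (hn₀ : DensityBasic (refDensity b e))
    {Fb Fe : Space → Space} (hb : IsH1 b Fb) (he : IsH1 e Fe) :
    IsWeakMultiplier (refDensity b e) (refTheta b e) (refThetaGrad b e Fb Fe) (εe - εb) := by
  intro φ hφ hc
  have hφ1 : ContDiff ℝ 1 φ := hφ.of_le (WithTop.coe_le_coe.2 le_top)
  obtain ⟨C0, hC0⟩ := hc.exists_bound_of_continuous hφ.continuous
  obtain ⟨C1, hC1⟩ := (Claimed.Agent.R259.ws_gradient_hasCompactSupport hc).exists_bound_of_continuous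
    (continuous_gradient hφ1)
  have hB : IsH1 (fun x => φ x * b x) (fun x => φ x • Fb x + b x • gradient φ x) :=
    hb.mul_contDiff hφ1 (C := max C0 C1) (fun x => (hC0 x).trans (le_max_left _ _))
      (fun x => (hC1 x).trans (le_max_right _ _))
  have hE : IsH1 (fun x => φ x * e x) (fun x => φ x • Fe x + e x • gradient φ x) :=
    he.mul_contDiff hφ1 (C := max C0 C1) (fun x => (hC0 x).trans (le_max_left _ _))
      (fun x => (hC1 x).trans (le_max_right _ _))
  have q1 := (acr_weakEig h.data.orbital_e he).2 _ _ hB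
  have q2 := (acr_weakEig h.data.orbital_b hb).2 _ _ hE
  unfold nucForm at q1 q2
  have e1 : (∫ x, nuclearPotential 1 bigD x * (φ x * b x * e x)) = ∫ x, nuclearPotential 1 bigD x * (φ x * e x * b x) :=
    integral_congr_ae (Filter.Eventually.of_forall fun x => by simp only; ring)
  have e2 : (∫ x, φ x * b x * e x) = ∫ x, φ x * e x * b x :=
    integral_congr_ae (Filter.Eventually.of_forall fun x => by simp only; ring)
  have e3 : (∫ x, ⟪φ x • Fb x + b x • gradient φ x, Fe x⟫_ℝ) - (∫ x, ⟪φ x • Fe x + e x • gradient φ x, Fb x⟫_ℝ)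
      = ∫ x, ⟪b x • Fe x - e x • Fb x, gradient φ x⟫_ℝ := by
    rw [← integral_sub (hB.integrable_inner he) (hE.integrable_inner hb)]
    refine integral_congr_ae (Filter.Eventually.of_forall fun x => ?_)
    simp only [inner_add_left, inner_sub_left, real_inner_smul_left]
    rw [real_inner_comm (Fe x) (Fb x), real_inner_comm (Fe x) (gradient φ x), real_inner_comm (Fb x) (gradient φ x)]
    ring
  have e4 : (∫ x, refDensity b e x * ⟪refThetaGrad b e Fb Fe x, gradient φ x⟫_ℝ)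
      = √2 * ∫ x, ⟪b x • Fe x - e x • Fb x, gradient φ x⟫_ℝ := by
    rw [← integral_const_mul]
    refine integral_congr_ae (Filter.Eventually.of_forall fun x => ?_)
    have hn := acr_n0_pos h x
    simp only [refThetaGrad, real_inner_smul_left]
    field_simp
  have e5 : (∫ x, refDensity b e x * Real.sin (2 * refTheta b e x) * φ x) = 2 * √2 * ∫ x, φ x * e x * b x := by
    rw [← integral_const_mul]
    refine integral_congr_ae (Filter.Eventually.of_forall fun x => ?_)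
    simp only
    rw [acr_sin_two h x]
    ring
  rw [e4, e5, ← e3]
  rw [e1, e2] at q1
  have : (∫ x, ⟪φ x • Fb x + b x • gradient φ x, Fe x⟫_ℝ) - (∫ x, ⟪φ x • Fe x + e x • gradient φ x, Fb x⟫_ℝ)
      = 2 * (εe - εb) * ∫ x, φ x * e x * b x := by linarith
  rw [this]
  ring

/-! ### AC-R2 -/

/-- the energy of a multiple of an orbital. -/
theorem acr_form_of_eq {f : Space → ℝ} {ε : ℝ} (hf : IsOrbital f ε) {c : ℝ} {g : Space → ℝ} {G : Space → Space}
    (hg : IsH1 g G) (hgf : ∀ x, g x = c * f x) : orbitalForm g g G G = c ^ 2 * ε := by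
  obtain ⟨F, hF, -⟩ := hf.2.2
  have hE := (acr_weakEig hf hF).const_mul c
  have hgf' : (fun x => c * f x) = g := (funext hgf).symm
  rw [hgf'] at hE
  have hE' : IsWeakEig 1 bigD ε g G := hE.congr_ae (Filter.EventuallyEq.refl _ _) (hE.1.2.2.ae_eq hg.2.2)
  rw [orbitalForm_eq_nucForm, hE'.form_self]
  have : ∫ x, g x ^ 2 = c ^ 2 := by
    simp only [hgf, mul_pow]
    rw [integral_const_mul, hf.2.1, mul_one]
  rw [this]
  ring

theorem acr_ref_energy (h : TwoCentre b e εb εe) (hn₀ : DensityBasic (refDensity b e)) {Fb Fe : Space → Space}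
    (hb : IsH1 b Fb) (he : IsH1 e Fe) :
    (1 / 2) * (∫ x, ‖gradient (fun y => √(refDensity b e y)) x‖ ^ 2)
      + (1 / 2) * angleEnergy (refDensity b e) (refThetaGrad b e Fb Fe)
      + (∫ x, nuclearPotential 1 bigD x * refDensity b e x) = 2 * εb + εe := by
  have ha := ac_ref_admissible h hn₀ hb he
  have hE := ha.integrable_energy hn₀
  rw [← orb_energy hn₀ ha, acr_form_of_eq h.data.orbital_b (c := √2) (orbG_isH1 hn₀ ha.1 hE)
    (fun x => (ac_ref_cos_sin h x).1), acr_form_of_eq h.data.orbital_e (c := 1) (orbH_isH1 hn₀ ha.1 hE)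
    (fun x => by rw [(ac_ref_cos_sin h x).2, one_mul]), Real.sq_sqrt (by norm_num)]
  ring

theorem acr_orbH_orth (h : TwoCentre b e εb εe) (hn₀ : DensityBasic (refDensity b e)) {ϑ : Space → ℝ}
    {G : Space → Space} (hϑ : IsAdmissibleAngle (refDensity b e) ϑ G) :
    (∫ x, orbH (refDensity b e) ϑ x * b x) = 0 :=
  OddZ.integral_mul_eq_zero (orb_parity hn₀ hϑ).2 (Filter.Eventually.of_forall h.data.even_b)

theorem ac_ref_min (h : TwoCentre b e εb εe) (hn₀ : DensityBasic (refDensity b e)) {Fb Fe : Space → Space}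
    (hb : IsH1 b Fb) (he : IsH1 e Fe) {ϑ : Space → ℝ} {G : Space → Space}
    (hϑ : IsAdmissibleAngle (refDensity b e) ϑ G) :
    angleEnergy (refDensity b e) (refThetaGrad b e Fb Fe) ≤ angleEnergy (refDensity b e) G := by
  have hE := hϑ.integrable_energy hn₀
  have h1 := h.data.lowest _ _ (orbG_isH1 hn₀ hϑ.1 hE)
  have h2 := h.data.second _ _ (orbH_isH1 hn₀ hϑ.1 hE) (acr_orbH_orth h hn₀ hϑ)
  rw [(orb_norms hn₀ hϑ).1] at h1
  rw [(orb_norms hn₀ hϑ).2] at h2
  have h3 := orb_energy hn₀ hϑ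
  have h4 := acr_ref_energy h hn₀ hb he
  linarith

theorem acr_sign (h : TwoCentre b e εb εe) {ϑ : Space → ℝ} (hodd : ∀ᵐ x, ϑ (reflZ x) = -ϑ x) (hf : IsFolded ϑ) :
    ∀ᵐ x, 0 ≤ Real.sin (ϑ x) * e x := by
  have hf' : ∀ᵐ x : Space, 0 < (reflZ x) 2 → 0 ≤ ϑ (reflZ x) ∧ ϑ (reflZ x) ≤ Real.pi / 2 :=
    tk3_ae_comp_reflZ hf
  filter_upwards [hf, hf', hodd, tc_ae_z_ne_zero] with x h1 h2 h3 h4
  rcases lt_or_gt_of_ne h4 with hx | hx
  · have hx' : 0 < (reflZ x) 2 := by rw [reflZ_two]; linarith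
    have h5 := h2 hx'
    have h6 := h.data.pos_e _ hx'
    rw [h.data.odd_e] at h6
    rw [h3] at h5
    have h7 : 0 ≤ Real.sin (-ϑ x) := Real.sin_nonneg_of_nonneg_of_le_pi h5.1 (by linarith [h5.2, Real.pi_pos])
    rw [Real.sin_neg] at h7
    nlinarith
  · have h5 := h1 hx
    exact mul_nonneg (Real.sin_nonneg_of_nonneg_of_le_pi h5.1 (by linarith [h5.2, Real.pi_pos]))
      (h.data.pos_e x hx).le

theorem ac_ref_unique (h : TwoCentre b e εb εe) (hn₀ : DensityBasic (refDensity b e)) {Fb Fe : Space → Space}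
    (hb : IsH1 b Fb) (he : IsH1 e Fe) {ϑ : Space → ℝ} {G : Space → Space}
    (hϑ : IsAdmissibleAngle (refDensity b e) ϑ G) (hf : IsFolded ϑ)
    (hE : angleEnergy (refDensity b e) G ≤ angleEnergy (refDensity b e) (refThetaGrad b e Fb Fe)) :
    ϑ =ᵐ[volume] refTheta b e := by
  have hiE := hϑ.integrable_energy hn₀
  have hH := orbH_isH1 hn₀ hϑ.1 hiE
  have h1 := h.data.lowest _ _ (orbG_isH1 hn₀ hϑ.1 hiE)
  rw [(orb_norms hn₀ hϑ).1] at h1
  have h3 := orb_energy hn₀ hϑ
  have h4 := acr_ref_energy h hn₀ hb he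
  have hq : nucForm 1 bigD (orbH (refDensity b e) ϑ) (orbH (refDensity b e) ϑ)
      (orbHgrad (refDensity b e) ϑ G) (orbHgrad (refDensity b e) ϑ G) ≤ εe := by
    rw [← orbitalForm_eq_nucForm]
    linarith
  have hWe := acr_weakEig h.data.orbital_e he
  set c : ℝ := ∫ x, orbH (refDensity b e) ϑ x * e x with hc
  -- the bilinear algebra
  set P : h1Sub := hH.mk - c • he.mk with hP
  have l_hh : l2B hH.mk hH.mk = 1 := by rw [l2B_self]; exact (orb_norms hn₀ hϑ).2
  have l_he : l2B hH.mk he.mk = c := rfl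
  have l_ee : l2B he.mk he.mk = 1 := by rw [l2B_self]; exact h.data.orbital_e.2.1
  have l_hb : l2B hH.mk hb.mk = 0 := acr_orbH_orth h hn₀ hϑ
  have l_eb : l2B he.mk hb.mk = 0 :=
    OddZ.integral_mul_eq_zero (Filter.Eventually.of_forall h.data.odd_e) (Filter.Eventually.of_forall h.data.even_b)
  have q_he : nucB 1 bigD hH.mk he.mk = εe * c := hWe.2 _ _ hH
  have q_ee : nucB 1 bigD he.mk he.mk = εe := by
    have := hWe.2 _ _ he
    rw [show (∫ x, e x * e x) = 1 by rw [← h.data.orbital_e.2.1]; simp only [sq], mul_one] at this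
    exact this
  have lPb : l2B P hb.mk = 0 := by
    rw [hP, map_sub, map_smul, LinearMap.sub_apply, LinearMap.smul_apply, l_hb, l_eb, smul_zero, sub_zero]
  have lPe : l2B P he.mk = 0 := by
    rw [hP, map_sub, map_smul, LinearMap.sub_apply, LinearMap.smul_apply, l_he, l_ee, smul_eq_mul, mul_one, sub_self]
  have lPP : l2B P P = 1 - c ^ 2 := by
    have : l2B P P = l2B P hH.mk - c * l2B P he.mk := by
      conv_lhs => rw [hP]
      rw [map_sub, map_smul, smul_eq_mul, ← hP]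
    rw [this, lPe, mul_zero, sub_zero, hP, map_sub, map_smul, LinearMap.sub_apply, LinearMap.smul_apply, l_hh,
      l2B_symm he.mk hH.mk, l_he, smul_eq_mul]
    ring
  have qPP : nucB 1 bigD P P = nucB 1 bigD hH.mk hH.mk - εe * c ^ 2 := by
    rw [hP]
    simp only [map_sub, map_smul, LinearMap.sub_apply, LinearMap.smul_apply, smul_eq_mul]
    rw [nucB_symm 1 bigD he.mk hH.mk, q_he, q_ee]
    ring
  have h5 := h.third P.1.1 P.1.2 P.2 lPb lPe
  rw [← l2B_self, lPP] at h5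
  have h6 : orbitalForm P.1.1 P.1.1 P.1.2 P.1.2 = nucB 1 bigD P P := rfl
  rw [h6, qPP, nucB_mk] at h5
  have h7 : 1 - c ^ 2 ≤ 0 := by nlinarith
  have h8 : 0 ≤ 1 - c ^ 2 := by rw [← lPP]; exact l2B_self_nonneg P
  have h9 : c ^ 2 = 1 := by linarith
  have hs := acr_sign h hϑ.2.2.1 hf
  have hc0 : 0 ≤ c := by
    refine integral_nonneg_of_ae ?_
    filter_upwards [hs] with x hx
    show 0 ≤ orbH (refDensity b e) ϑ x * e x
    unfold orbH
    rw [mul_assoc]
    exact mul_nonneg (Real.sqrt_nonneg _) hx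
  have hc1 : c = 1 := by nlinarith
  have hP0 : P.1.1 =ᵐ[volume] 0 := by
    refine tc_ae_zero_of_integral_sq P.2.1 ?_
    rw [← l2B_self, lPP, h9, sub_self]
  filter_upwards [hP0, an_abs_le_of_folded hf hϑ.2.2.1] with x hx hx2
  have e1 : P.1.1 x = orbH (refDensity b e) ϑ x - c * e x := rfl
  rw [e1, hc1, one_mul, Pi.zero_apply, ← (ac_ref_cos_sin h x).2, sub_eq_zero] at hx
  unfold orbH at hx
  have hsin := mul_left_cancel₀ (Real.sqrt_pos.2 (acr_n0_pos h x)).ne' hx
  exact Real.injOn_sin (abs_le.1 hx2) (abs_le.1 (acr_abs_theta_le b e x)) hsin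

/-! ### AC-R3 -/

theorem acr_weakFoldedMin (h : TwoCentre b e εb εe) (hn₀ : DensityBasic (refDensity b e)) {Fb Fe : Space → Space}
    (hb : IsH1 b Fb) (he : IsH1 e Fe) :
    IsWeakFoldedMin (refDensity b e) (refTheta b e) (refThetaGrad b e Fb Fe) :=
  ⟨ac_ref_admissible h hn₀ hb he, Filter.Eventually.of_forall (ac_ref_folded h),
    fun _ _ hϑ => ac_ref_min h hn₀ hb he hϑ⟩

theorem ac_ref_contDiff (h : TwoCentre b e εb εe) (hn₀ : DensityBasic (refDensity b e)) :
    ContDiff ℝ 1 (refTheta b e) := by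
  obtain ⟨Fb, hb, -⟩ := h.data.orbital_b.2.2
  obtain ⟨Fe, he, -⟩ := h.data.orbital_e.2.2
  have ha := ac_ref_admissible h hn₀ hb he
  have hd := ac_ref_weakMultiplier h hn₀ hb he
  have hf : ∀ᵐ x, |(εe - εb) * Real.sin (2 * refTheta b e x)| ≤ max (Real.pi / 2) |εe - εb| := by
    refine Filter.Eventually.of_forall fun x => ?_
    rw [abs_mul]
    calc |εe - εb| * |Real.sin (2 * refTheta b e x)| ≤ |εe - εb| * 1 :=
          mul_le_mul_of_nonneg_left (Real.abs_sin_le_one _) (abs_nonneg _)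
      _ ≤ max (Real.pi / 2) |εe - εb| := by rw [mul_one]; exact le_max_right _ _
  have hu : ∀ᵐ x, |refTheta b e x| ≤ max (Real.pi / 2) |εe - εb| :=
    Filter.Eventually.of_forall fun x => (acr_abs_theta_le b e x).trans (le_max_left _ _)
  obtain ⟨v, hv, hev⟩ := an_C1_version hn₀ (hd.driftEq hn₀ ha) hu hf
  have : refTheta b e = v := (Continuous.ae_eq_iff_eq volume (acr_continuous_theta h) hv.continuous).1 hev
  rw [this]
  exact hv

theorem ac_ref_foldedMinimizer (h : TwoCentre b e εb εe) (hn₀ : DensityBasic (refDensity b e)) :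
    IsFoldedMinimizer (refDensity b e) (refTheta b e) ∧
      IsMultiplier (refDensity b e) (refTheta b e) (εe - εb) := by
  obtain ⟨Fb, hb, -⟩ := h.data.orbital_b.2.2
  obtain ⟨Fe, he, -⟩ := h.data.orbital_e.2.2
  exact an_transfer hn₀ (acr_weakFoldedMin h hn₀ hb he) (ac_ref_weakMultiplier h hn₀ hb he)
    (ac_ref_contDiff h hn₀) (Filter.EventuallyEq.refl _ _)

/-- uniqueness in the form used for limits. -/
theorem ac_ref_unique' (h : TwoCentre b e εb εe) (hn₀ : DensityBasic (refDensity b e)) {ϑ : Space → ℝ}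
    {G : Space → Space} (hϑ : IsAdmissibleAngle (refDensity b e) ϑ G) (hf : IsFolded ϑ)
    (hE : angleEnergy (refDensity b e) G ≤ angleEnergy (refDensity b e) (gradient (refTheta b e))) :
    ϑ =ᵐ[volume] refTheta b e := by
  obtain ⟨Fb, hb, -⟩ := h.data.orbital_b.2.2
  obtain ⟨Fe, he, -⟩ := h.data.orbital_e.2.2
  refine ac_ref_unique h hn₀ hb he hϑ hf (hE.trans (le_of_eq ?_))
  have hG : gradient (refTheta b e) =ᵐ[volume] refThetaGrad b e Fb Fe :=
    (isWeakGrad_gradient (ac_ref_contDiff h hn₀)).ae_eq (acr_weakGrad h hb he)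
  unfold angleEnergy
  refine integral_congr_ae ?_
  filter_upwards [hG] with x hx
  rw [hx]

end Claimed.Open.R278
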