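import Claimed.Open.R278.ACRec
import Claimed.Open.R278.ACRef

/-!
# Package AC (Prop. 4.2): every sequence of folded minimizers for `n_j → n₀ = 2b² + e²` has a subsequence converging to `θ_*` in `C¹_loc`, with `d_j → d_* = ε_e - ε_b`

Leaves:
* AC-U (`ac_unif_of_L2_holder`, `ac_grad_unif`; Mathlib only).
  - `ac_unif_of_L2_holder`: if `‖f_j x‖ > ε` at some `x ∈ closedBall 0 R`, then `‖f_j‖ ≥ ε/2` on `ball x r`, `r = min 1 (ε/(2K+1))²`, `ball x r ⊆ ball 0 (R+1)`, so
    `∫_{ball 0 (R+1)} ‖f_j‖² ≥ (ε²/4) vol (ball 0 r)`, a positive constant: impossible for large `j`.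
  - `ac_grad_unif` (interpolation, NO Caccioppoli): for `0 < h < 1`, `v` a unit vector, `y ↦ u y - ⟪∇u x, y⟫` has gradient of norm `≤ K h^{1/2}` on `ball x h` (convex):
    `|u (x + h v) - u x - h ⟪∇u x, v⟫| ≤ K h^{3/2}` (`Convex.norm_image_sub_le_of_norm_fderiv_le`); take `v = ∇u x/‖∇u x‖`: `‖∇u x‖ ≤ 2 sup |u| / h + K h^{1/2}`.
* AC-S1 (`DensConv.comp`, `ac_densLoc`, `ac_energy_bdd`, `ac_local_energy`).
  `ac_densLoc`: `n₀ ≥ 2c` on the closed ball, uniform convergence gives `n_j ≥ c` for `j ≥ J`; the finitely many other `n_j` have positive minima (`exists_lower_bound_on_ball`); `Λ` from `DensConv.grad6`.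
  `ac_energy_bdd`: `ac_recovery` + minimality of `θ_j`; an eventually bounded real sequence is bounded (`Filter.IsBoundedUnder.bddAbove_range`).
* AC-S2 (`ac_limit_ref`): `an_limit` (with `B` of `ac_energy_bdd`); the limit `(θ,G)` is admissible, folded, with energy `≤ E(θ_*) + ε` for all `ε`, so `θ = θ_*` a.e. (`ac_ref_unique'`), and `G = ∇θ_*` a.e.
  (uniqueness of weak gradients: `IsWeakGrad` congr + `ws_weakGrad_unique` through the bridge `isWeakGrad_iff_weakGrad`; `isWeakGrad` of a `C¹` function).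
* AC-S3 (`ac_mult_tendsto`): `φ₀` from `an_exists_test` for `(n₀, θ_*)`; `d_j = N_j / D_j`, `N_j = ∫ n_j ⟪∇θ_j,∇φ₀⟫`, `D_j = ∫ n_j sin 2θ_j φ₀`.
  `N_j = ∫ ⟪n₀ ∇φ₀, ∇θ_j⟫ + ∫ (n_j - n₀) ⟪∇θ_j,∇φ₀⟫`; first term converges by `hw` (`W = n₀ ∇φ₀`), second `≤ sup_K |n_j - n₀| (∫_K |∇θ_j|²)^{1/2} (∫ |∇φ₀|²)^{1/2} → 0` (`ac_local_energy`).
  `D_j = ∫ n₀ sin 2θ_j φ₀ + ∫ (n_j - n₀) sin 2θ_j φ₀`: dominated convergence and `DensConv.l1`.  The limit `N/D = d_*` by `ac_ref_foldedMinimizer`.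
* AC-S4 (`ac_C1_conv`): `an_C1_estimate` with radius `R + 2`, constants of `ac_densLoc (R + 42)`, `F = max (π/2) B`, `E` of `ac_local_energy`, applied to all `θ_j` AND to `θ_*` (density `n₀`): common `K`.
  `u_j = θ_j - θ_*` is `2K`-Lipschitz on `ball 0 (R+2)` (convex), so Hölder-1/2 there; `∫_{ball (R+2)} u_j² ≤ c⁻¹ ∫ n₀ u_j² → 0`; `ac_unif_of_L2_holder` (radius `R+1`), then `ac_grad_unif`.
-/

open MeasureTheory Filter
open scoped ContDiff InnerProductSpace ENNReal Topology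

noncomputable section

namespace Claimed.Open.R278

/-! ### AC-U -/

theorem ac_unif_of_L2_holder {F : Type*} [NormedAddCommGroup F] {fj : ℕ → Space → F} {R K : ℝ}
    (hcont : ∀ j, Continuous (fj j))
    (hK : ∀ j, ∀ x ∈ Metric.ball (0 : Space) (R + 1), ∀ y ∈ Metric.ball (0 : Space) (R + 1),
      ‖fj j x - fj j y‖ ≤ K * ‖x - y‖ ^ (1 / 2 : ℝ))
    (hL2 : Tendsto (fun j => ∫ x in Metric.ball (0 : Space) (R + 1), ‖fj j x‖ ^ 2) atTop (𝓝 0)) :
    ∀ ε > 0, ∀ᶠ j in atTop, ∀ x ∈ Metric.closedBall (0 : Space) R, ‖fj j x‖ ≤ ε := by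
  intro ε hε
  set K' : ℝ := max K 0 with hK'
  have hK'0 : 0 ≤ K' := le_max_right _ _
  set r : ℝ := min 1 ((ε / (2 * K' + 1)) ^ 2) with hr
  have hr0 : 0 < r := lt_min one_pos (by positivity)
  have hr1 : r ≤ 1 := min_le_left _ _
  have hrs : K' * r ^ (1 / 2 : ℝ) ≤ ε / 2 := by
    have h1 : r ^ (1 / 2 : ℝ) ≤ ε / (2 * K' + 1) := by
      rw [← Real.sqrt_eq_rpow]
      refine (Real.sqrt_le_sqrt (min_le_right _ _)).trans ?_
      rw [Real.sqrt_sq (by positivity)]
    have h2 : K' * (ε / (2 * K' + 1)) ≤ ε / 2 := by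
      rw [mul_div_assoc', div_le_div_iff₀ (by positivity) (by norm_num)]
      nlinarith
    exact (mul_le_mul_of_nonneg_left h1 hK'0).trans h2
  set c : ℝ := ε ^ 2 / 4 * volume.real (Metric.ball (0 : Space) r) with hc
  have hvol : 0 < volume.real (Metric.ball (0 : Space) r) :=
    ENNReal.toReal_pos (Metric.measure_ball_pos volume _ hr0).ne' measure_ball_lt_top.ne
  have hc0 : 0 < c := by positivity
  filter_upwards [hL2.eventually (gt_mem_nhds hc0)] with j hj x hx
  by_contra hcon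
  have hcon' : ε < ‖fj j x‖ := not_le.1 hcon
  have hxn : ‖x‖ ≤ R := by simpa using hx
  have hsub : Metric.ball x r ⊆ Metric.ball (0 : Space) (R + 1) := by
    intro y hy
    rw [mem_ball_zero_iff]
    have h1 : ‖y - x‖ < r := by rwa [Metric.mem_ball, dist_eq_norm] at hy
    have h2 : ‖y‖ ≤ ‖x‖ + ‖y - x‖ := by
      have := norm_add_le x (y - x)
      simpa using this
    linarith
  have hxb : x ∈ Metric.ball (0 : Space) (R + 1) := hsub (Metric.mem_ball_self hr0)
  have hlow : ∀ y ∈ Metric.ball x r, ε ^ 2 / 4 ≤ ‖fj j y‖ ^ 2 := by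
    intro y hy
    have h1 : ‖x - y‖ < r := by rwa [Metric.mem_ball, dist_comm, dist_eq_norm] at hy
    have h2 := hK j x hxb y (hsub hy)
    have h3 : K * ‖x - y‖ ^ (1 / 2 : ℝ) ≤ K' * r ^ (1 / 2 : ℝ) :=
      mul_le_mul (le_max_left _ _) (Real.rpow_le_rpow (norm_nonneg _) h1.le (by norm_num))
        (Real.rpow_nonneg (norm_nonneg _) _) hK'0
    have h4 : ‖fj j x‖ ≤ ‖fj j y‖ + ‖fj j x - fj j y‖ := by
      have := norm_add_le (fj j y) (fj j x - fj j y)
      simpa using this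
    have h5 : ε / 2 ≤ ‖fj j y‖ := by linarith
    calc ε ^ 2 / 4 = (ε / 2) ^ 2 := by ring
      _ ≤ ‖fj j y‖ ^ 2 := pow_le_pow_left₀ (by positivity) h5 2
  have hint : IntegrableOn (fun y => ‖fj j y‖ ^ 2) (Metric.ball (0 : Space) (R + 1)) volume :=
    (((hcont j).norm.pow 2).continuousOn.integrableOn_compact (isCompact_closedBall (0 : Space) (R + 1))).mono_set
      Metric.ball_subset_closedBall
  have h1 : ∫ y in Metric.ball x r, ‖fj j y‖ ^ 2 ≤ ∫ y in Metric.ball (0 : Space) (R + 1), ‖fj j y‖ ^ 2 :=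
    setIntegral_mono_set hint (Eventually.of_forall fun y => sq_nonneg _) (LE.le.eventuallyLE hsub)
  have h2 : c ≤ ∫ y in Metric.ball x r, ‖fj j y‖ ^ 2 := by
    have h3 : ∫ _y in Metric.ball x r, ε ^ 2 / 4 = c := by
      rw [setIntegral_const, hc, smul_eq_mul, mul_comm]
      congr 1
      unfold Measure.real
      rw [Measure.addHaar_ball_center]
    rw [← h3]
    exact setIntegral_mono_on (integrableOn_const (measure_ball_lt_top.ne)) (hint.mono_set hsub)
      measurableSet_ball hlow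
  linarith

theorem ac_grad_unif {uj : ℕ → Space → ℝ} {R K : ℝ} (h1 : ∀ j, ContDiff ℝ 1 (uj j))
    (hK : ∀ j, ∀ x ∈ Metric.ball (0 : Space) (R + 1), ∀ y ∈ Metric.ball (0 : Space) (R + 1),
      ‖gradient (uj j) x - gradient (uj j) y‖ ≤ K * ‖x - y‖ ^ (1 / 2 : ℝ))
    (hu : ∀ ε > 0, ∀ᶠ j in atTop, ∀ x ∈ Metric.closedBall (0 : Space) (R + 1), |uj j x| ≤ ε) :
    ∀ ε > 0, ∀ᶠ j in atTop, ∀ x ∈ Metric.closedBall (0 : Space) R, ‖gradient (uj j) x‖ ≤ ε := by
  intro ε hε
  set K' : ℝ := max K 0 with hK'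
  have hK'0 : 0 ≤ K' := le_max_right _ _
  set h : ℝ := min (1 / 2) ((ε / (2 * K' + 1)) ^ 2) with hh
  have hh0 : 0 < h := lt_min (by norm_num) (by positivity)
  have hh1 : h < 1 := lt_of_le_of_lt (min_le_left _ _) (by norm_num)
  have hrs : K' * h ^ (1 / 2 : ℝ) ≤ ε / 2 := by
    have h1 : h ^ (1 / 2 : ℝ) ≤ ε / (2 * K' + 1) := by
      rw [← Real.sqrt_eq_rpow]
      refine (Real.sqrt_le_sqrt (min_le_right _ _)).trans ?_
      rw [Real.sqrt_sq (by positivity)]
    have h2 : K' * (ε / (2 * K' + 1)) ≤ ε / 2 := by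
      rw [mul_div_assoc', div_le_div_iff₀ (by positivity) (by norm_num)]
      nlinarith
    exact (mul_le_mul_of_nonneg_left h1 hK'0).trans h2
  filter_upwards [hu (ε * h / 4) (by positivity)] with j hj x hx
  set g : Space := gradient (uj j) x with hg
  by_cases hg0 : g = 0
  · rw [hg0, norm_zero]; exact hε.le
  have hgn : 0 < ‖g‖ := norm_pos_iff.2 hg0
  set v : Space := (‖g‖)⁻¹ • g with hv
  have hvn : ‖v‖ = 1 := by
    rw [hv, norm_smul, norm_inv, norm_norm, inv_mul_cancel₀ hgn.ne']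
  have hxn : ‖x‖ ≤ R := by simpa using hx
  have hsub : Metric.closedBall x h ⊆ Metric.ball (0 : Space) (R + 1) := by
    intro y hy
    rw [mem_ball_zero_iff]
    have h1 : ‖y - x‖ ≤ h := by rwa [Metric.mem_closedBall, dist_eq_norm] at hy
    have h2 : ‖y‖ ≤ ‖x‖ + ‖y - x‖ := by
      have := norm_add_le x (y - x)
      simpa using this
    linarith
  have hxs : x ∈ Metric.closedBall x h := Metric.mem_closedBall_self hh0.le
  have hys : x + h • v ∈ Metric.closedBall x h := by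
    rw [Metric.mem_closedBall, dist_eq_norm, add_sub_cancel_left, norm_smul, hvn, mul_one, Real.norm_eq_abs,
      abs_of_pos hh0]
  have hdu : Differentiable ℝ (uj j) := (h1 j).differentiable (by simp)
  set φ : Space → ℝ := fun y => uj j y - ⟪g, y⟫_ℝ with hφ
  have hdφ : ∀ y, HasFDerivAt φ (fderiv ℝ (uj j) y - innerSL ℝ g) y := fun y =>
    (hdu y).hasFDerivAt.sub (innerSL ℝ g).hasFDerivAt
  have hbd : ∀ y ∈ Metric.closedBall x h, ‖fderiv ℝ φ y‖ ≤ K' * h ^ (1 / 2 : ℝ) := by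
    intro y hy
    rw [(hdφ y).fderiv]
    have e : fderiv ℝ (uj j) y - innerSL ℝ g = innerSL ℝ (gradient (uj j) y - g) := by
      ext w
      simp only [sub_apply, innerSL_apply_apply, inner_sub_left, inner_gradient_left]
    rw [e, innerSL_apply_norm]
    have h2 := hK j y (hsub hy) x (hsub hxs)
    have h3 : ‖y - x‖ ≤ h := by rwa [Metric.mem_closedBall, dist_eq_norm] at hy
    exact h2.trans (mul_le_mul (le_max_left _ _) (Real.rpow_le_rpow (norm_nonneg _) h3 (by norm_num))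
      (Real.rpow_nonneg (norm_nonneg _) _) hK'0)
  have hmv := Convex.norm_image_sub_le_of_norm_fderiv_le (𝕜 := ℝ) (f := φ) (s := Metric.closedBall x h)
    (fun y _ => (hdφ y).differentiableAt) hbd (convex_closedBall x h) hxs hys
  rw [add_sub_cancel_left, norm_smul, hvn, mul_one, Real.norm_eq_abs, Real.norm_eq_abs, abs_of_pos hh0] at hmv
  have e1 : φ (x + h • v) - φ x = uj j (x + h • v) - uj j x - h * ‖g‖ := by
    simp only [hφ, inner_add_right, inner_smul_right]
    have : ⟪g, v⟫_ℝ = ‖g‖ := by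
      rw [hv, inner_smul_right, real_inner_self_eq_norm_sq]
      field_simp
    rw [this]; ring
  rw [e1] at hmv
  have a1 := hj x (Metric.ball_subset_closedBall (hsub hxs))
  have a2 := hj (x + h • v) (Metric.ball_subset_closedBall (hsub hys))
  have a3 := abs_le.1 hmv
  have a4 := abs_le.1 a1
  have a5 := abs_le.1 a2
  have key : h * ‖g‖ ≤ h * ε := by
    have : K' * h ^ (1 / 2 : ℝ) * h ≤ ε / 2 * h := mul_le_mul_of_nonneg_right hrs hh0.le
    nlinarith [a3.1, a3.2, a4.1, a4.2, a5.1, a5.2]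
  exact le_of_mul_le_mul_left key hh0

/-! ### AC-S1 -/

variable {nj : ℕ → Space → ℝ} {n₀ : Space → ℝ} {θj : ℕ → Space → ℝ} {dj : ℕ → ℝ}

theorem DensConv.comp (hc : DensConv nj n₀) {φ : ℕ → ℕ} (hφ : StrictMono φ) :
    DensConv (fun j => nj (φ j)) n₀ where
  basic j := hc.basic _
  basic0 := hc.basic0
  unif R := by
    have := hc.unif R
    intro u hu
    exact hφ.tendsto_atTop.eventually (this u hu)
  l1 := hc.l1.comp hφ.tendsto_atTop
  grad6 R := by
    obtain ⟨Λ, hΛ⟩ := hc.grad6 R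
    exact ⟨Λ, fun j => hΛ _⟩

theorem acc_lower_finite (hb : ∀ j, DensityBasic (nj j)) (R : ℝ) (J : ℕ) :
    ∃ c : ℝ, 0 < c ∧ ∀ j < J, ∀ x : Space, ‖x‖ ≤ R → c ≤ nj j x := by
  induction J with
  | zero => exact ⟨1, one_pos, fun j hj => absurd hj (Nat.not_lt_zero j)⟩
  | succ J ih =>
    obtain ⟨c, hc, h⟩ := ih
    obtain ⟨c', hc', h'⟩ := exists_lower_bound_on_ball (hb J).continuous (hb J).pos R
    refine ⟨min c c', lt_min hc hc', fun j hj x hx => ?_⟩
    rcases Nat.lt_succ_iff_lt_or_eq.1 hj with h1 | h1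
    · exact (min_le_left _ _).trans (h j h1 x hx)
    · rw [h1]; exact (min_le_right _ _).trans (h' x hx)

theorem ac_densLoc (hc : DensConv nj n₀) (R : ℝ) : ∃ c > 0, ∃ Λ : ℝ, ∀ j, DensLoc (nj j) R c Λ := by
  obtain ⟨c0, hc0, hl0⟩ := exists_lower_bound_on_ball hc.basic0.continuous hc.basic0.pos R
  obtain ⟨Λ, hΛ⟩ := hc.grad6 R
  have hu := Metric.tendstoUniformlyOn_iff.1 (hc.unif R) (c0 / 2) (by positivity)
  obtain ⟨J, hJ⟩ := eventually_atTop.1 hu
  obtain ⟨c1, hc1, hl1⟩ := acc_lower_finite hc.basic R J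
  refine ⟨min (c0 / 2) c1, lt_min (by positivity) hc1, Λ, fun j => ⟨fun x hx => ?_, hΛ j⟩⟩
  rcases lt_or_ge j J with hj | hj
  · exact (min_le_right _ _).trans (hl1 j hj x hx.le)
  · have h1 := hJ j hj x (by simpa using hx.le)
    rw [Real.dist_eq] at h1
    have h2 := hl0 x hx.le
    have h3 := (abs_lt.1 h1).2
    exact (min_le_left _ _).trans (by linarith)

theorem ac_energy_bdd (hc : DensConv nj n₀) {θs : Space → ℝ} (hθs : IsFoldedMinimizer n₀ θs)
    (hθ : ∀ j, IsFoldedMinimizer (nj j) (θj j)) :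
    (∃ B : ℝ, ∀ j, angleEnergy (nj j) (gradient (θj j)) ≤ B) ∧
      ∀ ε > 0, ∀ᶠ j in atTop, angleEnergy (nj j) (gradient (θj j)) ≤ angleEnergy n₀ (gradient θs) + ε := by
  have h2 : ∀ ε > 0, ∀ᶠ j in atTop,
      angleEnergy (nj j) (gradient (θj j)) ≤ angleEnergy n₀ (gradient θs) + ε := by
    intro ε hε
    filter_upwards [ac_recovery hc hθs hε] with j ⟨ϑ, G, hadm, hE⟩
    exact ((hθ j).2.2.2 ϑ G hadm).trans hE
  refine ⟨?_, h2⟩
  obtain ⟨B, hB⟩ := (isBoundedUnder_of_eventually_le (h2 1 one_pos)).bddAbove_range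
  exact ⟨B, fun j => hB ⟨j, rfl⟩⟩

theorem ac_local_energy (hc : DensConv nj n₀) {θs : Space → ℝ} (hθs : IsFoldedMinimizer n₀ θs)
    (hθ : ∀ j, IsFoldedMinimizer (nj j) (θj j)) (R : ℝ) :
    ∃ E : ℝ, ∀ j, (∫ x in Metric.ball (0 : Space) R, ‖gradient (θj j) x‖ ^ 2) ≤ E := by
  obtain ⟨c, hc0, Λ, hD⟩ := ac_densLoc hc R
  obtain ⟨⟨B, hB⟩, -⟩ := ac_energy_bdd hc hθs hθ
  refine ⟨c⁻¹ * B, fun j => ?_⟩
  have hi := (hθ j).2.1.integrable_energy (hc.basic j)
  have hg : Continuous (gradient (θj j)) := Claimed.Agent.R259.ws_gradient_continuous (hθ j).1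
  have hi2 : IntegrableOn (fun x => ‖gradient (θj j) x‖ ^ 2) (Metric.ball (0 : Space) R) volume :=
    ((hg.norm.pow 2).continuousOn.integrableOn_compact (isCompact_closedBall (0 : Space) R)).mono_set
      Metric.ball_subset_closedBall
  calc (∫ x in Metric.ball (0 : Space) R, ‖gradient (θj j) x‖ ^ 2)
      ≤ ∫ x in Metric.ball (0 : Space) R, c⁻¹ * (nj j x * ‖gradient (θj j) x‖ ^ 2) := by
        refine setIntegral_mono_on hi2 (hi.integrableOn.const_mul _) measurableSet_ball fun x hx => ?_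
        have h1 := (hD j).lower x (by simpa using hx)
        rw [← mul_assoc]
        have : 1 ≤ c⁻¹ * nj j x := by
          rw [inv_mul_eq_div, le_div_iff₀ hc0]; linarith
        nlinarith [sq_nonneg ‖gradient (θj j) x‖]
    _ ≤ ∫ x, c⁻¹ * (nj j x * ‖gradient (θj j) x‖ ^ 2) :=
        setIntegral_le_integral (hi.const_mul _) (Eventually.of_forall fun x => by
          have := ((hc.basic j).pos x).le
          positivity)
    _ = c⁻¹ * angleEnergy (nj j) (gradient (θj j)) := by rw [integral_const_mul]; rfl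
    _ ≤ c⁻¹ * B := mul_le_mul_of_nonneg_left (hB j) (by positivity)

/-! ### AC-S2 -/

variable {b e : Space → ℝ} {εb εe : ℝ}

theorem ac_limit_ref (h : TwoCentre b e εb εe) (hc : DensConv nj (refDensity b e))
    (hθ : ∀ j, IsFoldedMinimizer (nj j) (θj j)) :
    ∃ φ : ℕ → ℕ, StrictMono φ ∧
      (∀ᵐ x, Tendsto (fun j => θj (φ j) x) atTop (𝓝 (refTheta b e x))) ∧
      Tendsto (fun j => ∫ x, refDensity b e x * (θj (φ j) x - refTheta b e x) ^ 2) atTop (𝓝 0) ∧
      (∀ W : Space → Space, MemLp W 2 volume → HasCompactSupport W →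
        Tendsto (fun j => ∫ x, ⟪W x, gradient (θj (φ j)) x⟫_ℝ) atTop
          (𝓝 (∫ x, ⟪W x, gradient (refTheta b e) x⟫_ℝ))) := by
  have hn₀ := hc.basic0
  obtain ⟨hmin, -⟩ := ac_ref_foldedMinimizer h hn₀
  obtain ⟨⟨B, hB⟩, hev⟩ := ac_energy_bdd hc hmin hθ
  obtain ⟨φ, θ, G, hφ, hadm, hfold, hae, hL2, hlsc, hw⟩ := an_limit hc.basic hn₀ hc.unif hc.l1
    (fun j => (hθ j).2.1) (fun j => Eventually.of_forall (hθ j).2.2.1) hB
  have hE : angleEnergy (refDensity b e) G ≤ angleEnergy (refDensity b e) (gradient (refTheta b e)) := by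
    refine le_of_forall_pos_le_add fun ε hε => ?_
    exact hlsc _ (hφ.tendsto_atTop.eventually (hev ε hε)).frequently
  have hθe : θ =ᵐ[volume] refTheta b e := ac_ref_unique' h hn₀ hadm hfold hE
  have hGe : G =ᵐ[volume] gradient (refTheta b e) :=
    Claimed.Agent.R259.ws_weakGrad_unique
      (isWeakGrad_iff_weakGrad.1 (hadm.1.congr_ae hθe (EventuallyEq.refl _ _)))
      (isWeakGrad_iff_weakGrad.1 hmin.2.1.1)
  refine ⟨φ, hφ, ?_, ?_, fun W hW hWc => ?_⟩
  · filter_upwards [hae, hθe] with x h1 h2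
    rwa [h2] at h1
  · have e : ∀ j, ∫ x, refDensity b e x * (θj (φ j) x - θ x) ^ 2
        = ∫ x, refDensity b e x * (θj (φ j) x - refTheta b e x) ^ 2 := fun j =>
      integral_congr_ae (hθe.mono fun x hx => by simp only [hx])
    simpa only [e] using hL2
  · have e : ∫ x, ⟪W x, G x⟫_ℝ = ∫ x, ⟪W x, gradient (refTheta b e) x⟫_ℝ :=
      integral_congr_ae (hGe.mono fun x hx => by simp only [hx])
    rw [← e]
    exact hw W hW hWc

/-! ### AC-S3 -/

/-- a real sequence which is eventually small in absolute value tends to `0`. -/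
theorem acc_tendsto_zero_of_eventually {u : ℕ → ℝ} (h : ∀ ε > 0, ∀ᶠ j in atTop, |u j| ≤ ε) :
    Tendsto u atTop (𝓝 0) := by
  rw [Metric.tendsto_nhds]
  intro ε hε
  filter_upwards [h (ε / 2) (by positivity)] with j hj
  rw [Real.dist_eq, sub_zero]
  linarith

/-- convergence of the numerators. -/
theorem acc_num_tendsto (hc : DensConv nj n₀) {θs : Space → ℝ} (hθs : IsFoldedMinimizer n₀ θs)
    (hθ : ∀ j, IsFoldedMinimizer (nj j) (θj j))
    (hw : ∀ W : Space → Space, MemLp W 2 volume → HasCompactSupport W →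
        Tendsto (fun j => ∫ x, ⟪W x, gradient (θj j) x⟫_ℝ) atTop (𝓝 (∫ x, ⟪W x, gradient θs x⟫_ℝ)))
    {φ₀ : Space → ℝ} (hφ : ContDiff ℝ ∞ φ₀) (hφc : HasCompactSupport φ₀) :
    Tendsto (fun j => ∫ x, nj j x * ⟪gradient (θj j) x, gradient φ₀ x⟫_ℝ) atTop
      (𝓝 (∫ x, n₀ x * ⟪gradient θs x, gradient φ₀ x⟫_ℝ)) := by
  have hφ1 : ContDiff ℝ 1 φ₀ := hφ.of_le (by simp)
  have hg : Continuous (gradient φ₀) := Claimed.Agent.R259.ws_gradient_continuous hφ1
  have hgc : HasCompactSupport (gradient φ₀) := Claimed.Agent.R259.ws_gradient_hasCompactSupport hφc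
  have hn0c := hc.basic0.continuous
  have hgj : ∀ j, Continuous (gradient (θj j)) := fun j => Claimed.Agent.R259.ws_gradient_continuous (hθ j).1
  have hcs : ∀ F : Space → ℝ, (∀ x, gradient φ₀ x = 0 → F x = 0) → HasCompactSupport F :=
    fun F hF => hgc.mono fun x hx hg0 => hx (hF x hg0)
  obtain ⟨R, hR⟩ := hgc.isCompact.isBounded.subset_closedBall (0 : Space)
  have hout : ∀ x : Space, R < ‖x‖ → gradient φ₀ x = 0 := fun x hx => by
    refine image_eq_zero_of_notMem_tsupport fun hmem => ?_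
    have := hR hmem
    rw [mem_closedBall_zero_iff] at this
    linarith
  obtain ⟨E, hE⟩ := ac_local_energy hc hθs hθ (R + 1)
  set P : ℝ := ∫ x, ‖gradient φ₀ x‖ ^ 2 with hP
  have hPi : Integrable (fun x => ‖gradient φ₀ x‖ ^ 2) volume :=
    (hg.norm.pow 2).integrable_of_hasCompactSupport (hcs _ fun x hx => by simp [hx])
  have hP0 : 0 ≤ P := integral_nonneg fun x => sq_nonneg _
  have hE0 : 0 ≤ E := (integral_nonneg fun x => sq_nonneg _).trans (hE 0)
  -- the weakly convergent part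
  have hWc : HasCompactSupport (fun x => n₀ x • gradient φ₀ x) :=
    hgc.mono fun x hx hg0 => hx (by simp only [hg0, smul_zero])
  have hW : MemLp (fun x => n₀ x • gradient φ₀ x) 2 volume :=
    (hn0c.smul hg).memLp_of_hasCompactSupport hWc
  have hA := hw (fun x => n₀ x • gradient φ₀ x) hW hWc
  have eA : ∀ G : Space → Space, (∫ x, ⟪n₀ x • gradient φ₀ x, G x⟫_ℝ) = ∫ x, n₀ x * ⟪G x, gradient φ₀ x⟫_ℝ :=
    fun G => integral_congr_ae (Eventually.of_forall fun x => by
      simp only [inner_smul_left, real_inner_comm, RCLike.conj_to_real])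
  simp only [eA] at hA
  -- the remainder
  have hB : Tendsto (fun j => ∫ x, (nj j x - n₀ x) * ⟪gradient (θj j) x, gradient φ₀ x⟫_ℝ) atTop (𝓝 0) := by
    refine acc_tendsto_zero_of_eventually fun ε hε => ?_
    set η : ℝ := ε / ((E + P) / 2 + 1) with hη
    have hη0 : 0 < η := by positivity
    filter_upwards [Metric.tendstoUniformlyOn_iff.1 (hc.unif R) η hη0] with j hj
    have hi2 : IntegrableOn (fun x => ‖gradient (θj j) x‖ ^ 2) (Metric.ball (0 : Space) (R + 1)) volume :=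
      (((hgj j).norm.pow 2).continuousOn.integrableOn_compact (isCompact_closedBall (0 : Space) (R + 1))).mono_set
        Metric.ball_subset_closedBall
    have hbi : Integrable (fun x => η * (((Metric.ball (0 : Space) (R + 1)).indicator
        (fun x => ‖gradient (θj j) x‖ ^ 2) x + ‖gradient φ₀ x‖ ^ 2) / 2)) volume :=
      (((hi2.integrable_indicator measurableSet_ball).add hPi).div_const 2).const_mul η
    have hle := norm_integral_le_of_norm_le hbi (f := fun x => (nj j x - n₀ x) * ⟪gradient (θj j) x, gradient φ₀ x⟫_ℝ)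
      (Eventually.of_forall fun x => ?_)
    · rw [Real.norm_eq_abs] at hle
      refine hle.trans ?_
      rw [integral_const_mul, integral_div, integral_add (hi2.integrable_indicator measurableSet_ball) hPi,
        integral_indicator measurableSet_ball]
      have h1 : η * (((∫ x in Metric.ball (0 : Space) (R + 1), ‖gradient (θj j) x‖ ^ 2) + P) / 2)
          ≤ η * ((E + P) / 2 + 1) := by
        refine mul_le_mul_of_nonneg_left ?_ hη0.le
        have := hE j
        linarith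
      refine h1.trans (le_of_eq ?_)
      rw [hη]
      field_simp
    · by_cases hx : ‖x‖ ≤ R
      · have h1 := hj x (by simpa using hx)
        rw [Real.dist_eq, abs_sub_comm] at h1
        rw [Set.indicator_of_mem (by rw [mem_ball_zero_iff]; linarith), Real.norm_eq_abs, abs_mul]
        have h2 := abs_real_inner_le_norm (gradient (θj j) x) (gradient φ₀ x)
        have h3 : ‖gradient (θj j) x‖ * ‖gradient φ₀ x‖ ≤ (‖gradient (θj j) x‖ ^ 2 + ‖gradient φ₀ x‖ ^ 2) / 2 := by
          nlinarith [sq_nonneg (‖gradient (θj j) x‖ - ‖gradient φ₀ x‖)]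
        exact mul_le_mul h1.le (h2.trans h3) (abs_nonneg _) hη0.le
      · rw [hout x (not_le.1 hx), inner_zero_right, mul_zero, norm_zero]
        have : 0 ≤ (Metric.ball (0 : Space) (R + 1)).indicator (fun x => ‖gradient (θj j) x‖ ^ 2) x :=
          Set.indicator_nonneg (fun _ _ => sq_nonneg _) x
        positivity
  have hsum := hA.add hB
  rw [add_zero] at hsum
  refine hsum.congr fun j => ?_
  have i1 : Integrable (fun x => n₀ x * ⟪gradient (θj j) x, gradient φ₀ x⟫_ℝ) volume :=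
    Continuous.integrable_of_hasCompactSupport (hn0c.mul ((hgj j).inner hg))
      (hcs (fun x => n₀ x * ⟪gradient (θj j) x, gradient φ₀ x⟫_ℝ) fun x hx => by
        rw [hx, inner_zero_right, mul_zero])
  have i2 : Integrable (fun x => (nj j x - n₀ x) * ⟪gradient (θj j) x, gradient φ₀ x⟫_ℝ) volume :=
    Continuous.integrable_of_hasCompactSupport (((hc.basic j).continuous.sub hn0c).mul ((hgj j).inner hg))
      (hcs (fun x => (nj j x - n₀ x) * ⟪gradient (θj j) x, gradient φ₀ x⟫_ℝ) fun x hx => by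
        rw [hx, inner_zero_right, mul_zero])
  rw [← integral_add i1 i2]
  refine integral_congr_ae (Eventually.of_forall fun x => ?_)
  simp only []
  ring

/-- convergence of the denominators. -/
theorem acc_den_tendsto (hc : DensConv nj n₀) {θs : Space → ℝ} (hθc : ∀ j, Continuous (θj j))
    (hae : ∀ᵐ x, Tendsto (fun j => θj j x) atTop (𝓝 (θs x)))
    {φ₀ : Space → ℝ} (hφ : Continuous φ₀) (hφc : HasCompactSupport φ₀) :
    Tendsto (fun j => ∫ x, nj j x * Real.sin (2 * θj j x) * φ₀ x) atTop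
      (𝓝 (∫ x, n₀ x * Real.sin (2 * θs x) * φ₀ x)) := by
  have hn0c := hc.basic0.continuous
  obtain ⟨M, hM⟩ := hφc.exists_bound_of_continuous hφ
  have hM0 : 0 ≤ M := (norm_nonneg _).trans (hM 0)
  have hsc : ∀ j, Continuous fun x => Real.sin (2 * θj j x) := fun j =>
    Real.continuous_sin.comp (continuous_const.mul (hθc j))
  have hA : Tendsto (fun j => ∫ x, n₀ x * Real.sin (2 * θj j x) * φ₀ x) atTop
      (𝓝 (∫ x, n₀ x * Real.sin (2 * θs x) * φ₀ x)) := by
    refine tendsto_integral_of_dominated_convergence (fun x => n₀ x * M)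
      (fun j => ((hn0c.mul (hsc j)).mul hφ).aestronglyMeasurable) (hc.basic0.integrable.mul_const M)
      (fun j => Eventually.of_forall fun x => ?_) ?_
    · have h0 := (hc.basic0.pos x).le
      rw [norm_mul, norm_mul, Real.norm_eq_abs, Real.norm_eq_abs, abs_of_nonneg h0]
      calc n₀ x * |Real.sin (2 * θj j x)| * ‖φ₀ x‖ ≤ n₀ x * 1 * M :=
            mul_le_mul (mul_le_mul_of_nonneg_left (Real.abs_sin_le_one _) h0) (hM x) (norm_nonneg _) (by positivity)
        _ = n₀ x * M := by ring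
    · filter_upwards [hae] with x hx
      exact (((Real.continuous_sin.tendsto _).comp (hx.const_mul 2)).const_mul _).mul_const _
  have hB : Tendsto (fun j => ∫ x, (nj j x - n₀ x) * Real.sin (2 * θj j x) * φ₀ x) atTop (𝓝 0) := by
    have hl : Tendsto (fun j => (∫ x, |nj j x - n₀ x|) * M) atTop (𝓝 0) := by
      simpa using hc.l1.mul_const M
    refine squeeze_zero_norm (fun j => ?_) hl
    have hi : Integrable (fun x => |nj j x - n₀ x| * M) volume :=
      (((hc.basic j).integrable.sub hc.basic0.integrable).abs).mul_const M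
    refine (norm_integral_le_of_norm_le hi (Eventually.of_forall fun x => ?_)).trans
      (le_of_eq (integral_mul_const _ _))
    rw [norm_mul, norm_mul, Real.norm_eq_abs, Real.norm_eq_abs]
    calc |nj j x - n₀ x| * |Real.sin (2 * θj j x)| * ‖φ₀ x‖ ≤ |nj j x - n₀ x| * 1 * M :=
          mul_le_mul (mul_le_mul_of_nonneg_left (Real.abs_sin_le_one _) (abs_nonneg _)) (hM x) (norm_nonneg _)
            (by positivity)
      _ = |nj j x - n₀ x| * M := by ring
  have hsum := hA.add hB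
  rw [add_zero] at hsum
  refine hsum.congr fun j => ?_
  have i1 : Integrable (fun x => n₀ x * Real.sin (2 * θj j x) * φ₀ x) volume :=
    ((hn0c.mul (hsc j)).mul hφ).integrable_of_hasCompactSupport hφc.mul_left
  have i2 : Integrable (fun x => (nj j x - n₀ x) * Real.sin (2 * θj j x) * φ₀ x) volume :=
    ((((hc.basic j).continuous.sub hn0c).mul (hsc j)).mul hφ).integrable_of_hasCompactSupport hφc.mul_left
  rw [← integral_add i1 i2]
  refine integral_congr_ae (Eventually.of_forall fun x => ?_)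
  simp only []
  ring

theorem ac_mult_tendsto (h : TwoCentre b e εb εe) (hc : DensConv nj (refDensity b e))
    (hθ : ∀ j, IsFoldedMinimizer (nj j) (θj j)) (hd : ∀ j, IsMultiplier (nj j) (θj j) (dj j))
    (hae : ∀ᵐ x, Tendsto (fun j => θj j x) atTop (𝓝 (refTheta b e x)))
    (hw : ∀ W : Space → Space, MemLp W 2 volume → HasCompactSupport W →
        Tendsto (fun j => ∫ x, ⟪W x, gradient (θj j) x⟫_ℝ) atTop
          (𝓝 (∫ x, ⟪W x, gradient (refTheta b e) x⟫_ℝ))) :
    Tendsto dj atTop (𝓝 (εe - εb)) := by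
  have hn₀ := hc.basic0
  obtain ⟨hmin, hmult⟩ := ac_ref_foldedMinimizer h hn₀
  obtain ⟨φ₀, hφ, hφc, -, hc₀⟩ := an_exists_test hn₀ hmin.2.1 (Eventually.of_forall hmin.2.2.1)
  have hN := acc_num_tendsto hc hmin hθ hw hφ hφc
  have hD := acc_den_tendsto hc (fun j => (hθ j).1.continuous) hae hφ.continuous hφc
  have hq := hN.div hD hc₀
  rw [hmult φ₀ hφ hφc, mul_div_assoc, div_self hc₀, mul_one] at hq
  refine hq.congr' ?_
  filter_upwards [hD.eventually_ne hc₀] with j hj
  rw [Pi.div_apply, hd j φ₀ hφ hφc, mul_div_assoc, div_self hj, mul_one]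

/-! ### AC-S4 -/

theorem acc_gradient_sub {f g : Space → ℝ} {x : Space} (hf : DifferentiableAt ℝ f x) (hg : DifferentiableAt ℝ g x) :
    gradient (fun y => f y - g y) x = gradient f x - gradient g x := by
  unfold gradient
  rw [fderiv_fun_sub hf hg, map_sub]

theorem acc_norm_fderiv_eq (f : Space → ℝ) (x : Space) : ‖fderiv ℝ f x‖ = ‖gradient f x‖ := by
  unfold gradient
  rw [LinearIsometryEquiv.norm_map]

/-- the uniform estimates for one folded minimizer. -/
theorem acc_estimate_apply {R c Λ F E K : ℝ}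
    (hK : ∀ (n u f : Space → ℝ), DensityBasic n → DensLoc n (R + 40) c Λ → ContDiff ℝ 1 u →
      DriftEq n u f (gradient u) → (∀ x, |u x| ≤ F) → (∀ᵐ x, |f x| ≤ F) →
      (∫ x in Metric.ball (0 : Space) (R + 40), ‖gradient u x‖ ^ 2) ≤ E →
      (∀ x ∈ Metric.ball (0 : Space) R, ‖gradient u x‖ ≤ K) ∧
      ∀ x ∈ Metric.ball (0 : Space) R, ∀ y ∈ Metric.ball (0 : Space) R,
        ‖gradient u x - gradient u y‖ ≤ K * ‖x - y‖ ^ (1 / 2 : ℝ))
    {n θ : Space → ℝ} {d : ℝ} (hn : DensityBasic n) (hD : DensLoc n (R + 40) c Λ) (hθ : IsFoldedMinimizer n θ)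
    (hd : IsMultiplier n θ d) (hF1 : Real.pi / 2 ≤ F) (hF2 : |d| ≤ F)
    (hE : (∫ x in Metric.ball (0 : Space) (R + 40), ‖gradient θ x‖ ^ 2) ≤ E) :
    (∀ x ∈ Metric.ball (0 : Space) R, ‖gradient θ x‖ ≤ K) ∧
      ∀ x ∈ Metric.ball (0 : Space) R, ∀ y ∈ Metric.ball (0 : Space) R,
        ‖gradient θ x - gradient θ y‖ ≤ K * ‖x - y‖ ^ (1 / 2 : ℝ) := by
  refine hK n θ (fun x => d * Real.sin (2 * θ x)) hn hD hθ.1 (hθ.driftEq hn hd)
    (fun x => (hθ.abs_le x).trans hF1) (Eventually.of_forall fun x => ?_) hE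
  rw [abs_mul]
  calc |d| * |Real.sin (2 * θ x)| ≤ |d| * 1 := mul_le_mul_of_nonneg_left (Real.abs_sin_le_one _) (abs_nonneg _)
    _ ≤ F := by rw [mul_one]; exact hF2

theorem ac_C1_conv (h : TwoCentre b e εb εe) (hc : DensConv nj (refDensity b e))
    (hθ : ∀ j, IsFoldedMinimizer (nj j) (θj j)) (hd : ∀ j, IsMultiplier (nj j) (θj j) (dj j))
    {B : ℝ} (hB : ∀ j, |dj j| ≤ B)
    (hL2 : Tendsto (fun j => ∫ x, refDensity b e x * (θj j x - refTheta b e x) ^ 2) atTop (𝓝 0)) (R : ℝ) :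
    ∀ ε > 0, ∀ᶠ j in atTop, ∀ x ∈ Metric.closedBall (0 : Space) R,
      |θj j x - refTheta b e x| ≤ ε ∧ ‖gradient (θj j) x - gradient (refTheta b e) x‖ ≤ ε := by
  have hn₀ := hc.basic0
  obtain ⟨hmin, hmult⟩ := ac_ref_foldedMinimizer h hn₀
  obtain ⟨c, hc0, Λ, hD⟩ := ac_densLoc hc (R + 2 + 40)
  obtain ⟨E, hE⟩ := ac_local_energy hc hmin hθ (R + 2 + 40)
  obtain ⟨K, hK⟩ := an_C1_estimate (R + 2) c Λ (max (Real.pi / 2) B) E hc0
  obtain ⟨c', hc'0, hl'⟩ := exists_lower_bound_on_ball hn₀.continuous hn₀.pos (R + 2 + 40)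
  obtain ⟨K', hK'⟩ := an_C1_estimate (R + 2) c'
    (eLpNorm (gradient (refDensity b e)) 6 (volume.restrict (Metric.ball 0 (R + 2 + 40)))).toReal
    (max (Real.pi / 2) |εe - εb|)
    (∫ x in Metric.ball (0 : Space) (R + 2 + 40), ‖gradient (refTheta b e) x‖ ^ 2) hc'0
  have hj := fun j => acc_estimate_apply hK (hc.basic j) (hD j) (hθ j) (hd j) (le_max_left _ _)
    ((hB j).trans (le_max_right _ _)) (hE j)
  have hs := acc_estimate_apply hK' hn₀
    ⟨fun x hx => hl' x hx.le, by rw [ENNReal.ofReal_toReal (hn₀.grad_L6 _).2.ne]⟩ hmin hmult (le_max_left _ _)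
    (le_max_right _ _) le_rfl
  set u : ℕ → Space → ℝ := fun j x => θj j x - refTheta b e x with hu
  have hu1 : ∀ j, ContDiff ℝ 1 (u j) := fun j => (hθ j).1.sub hmin.1
  have hgu : ∀ j x, gradient (u j) x = gradient (θj j) x - gradient (refTheta b e) x := fun j x =>
    acc_gradient_sub (((hθ j).1.differentiable (by simp)) x) ((hmin.1.differentiable (by simp)) x)
  set KK : ℝ := |K| + |K'| with hKK
  have hKK0 : 0 ≤ KK := by positivity
  have hgb : ∀ j, ∀ x ∈ Metric.ball (0 : Space) (R + 2), ‖gradient (u j) x‖ ≤ KK := fun j x hx => by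
    rw [hgu]
    refine (norm_sub_le _ _).trans (add_le_add ?_ ?_)
    · exact ((hj j).1 x hx).trans (le_abs_self _)
    · exact (hs.1 x hx).trans (le_abs_self _)
  have hgh : ∀ j, ∀ x ∈ Metric.ball (0 : Space) (R + 2), ∀ y ∈ Metric.ball (0 : Space) (R + 2),
      ‖gradient (u j) x - gradient (u j) y‖ ≤ KK * ‖x - y‖ ^ (1 / 2 : ℝ) := fun j x hx y hy => by
    rw [hgu, hgu]
    have e1 : gradient (θj j) x - gradient (refTheta b e) x - (gradient (θj j) y - gradient (refTheta b e) y)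
        = (gradient (θj j) x - gradient (θj j) y) - (gradient (refTheta b e) x - gradient (refTheta b e) y) := by
      abel
    have hp : 0 ≤ ‖x - y‖ ^ (1 / 2 : ℝ) := Real.rpow_nonneg (norm_nonneg _) _
    rw [e1, hKK, add_mul]
    refine (norm_sub_le _ _).trans (add_le_add ?_ ?_)
    · exact ((hj j).2 x hx y hy).trans (mul_le_mul_of_nonneg_right (le_abs_self _) hp)
    · exact (hs.2 x hx y hy).trans (mul_le_mul_of_nonneg_right (le_abs_self _) hp)
  set s : ℝ := (2 * |R + 2|) ^ (1 / 2 : ℝ) with hs'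
  have e2 : R + 1 + 1 = R + 2 := by ring
  have hhol : ∀ j, ∀ x ∈ Metric.ball (0 : Space) (R + 1 + 1), ∀ y ∈ Metric.ball (0 : Space) (R + 1 + 1),
      ‖u j x - u j y‖ ≤ KK * s * ‖x - y‖ ^ (1 / 2 : ℝ) := by
    intro j x hx y hy
    rw [e2] at hx hy
    have h1 := Convex.norm_image_sub_le_of_norm_fderiv_le (𝕜 := ℝ) (f := u j)
      (s := Metric.ball (0 : Space) (R + 2)) (C := KK)
      (fun z _ => ((hu1 j).differentiable (by simp)) z)
      (fun z hz => by rw [acc_norm_fderiv_eq]; exact hgb j z hz) (convex_ball _ _) hy hx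
    refine h1.trans ?_
    rw [mul_assoc]
    refine mul_le_mul_of_nonneg_left ?_ hKK0
    have hxy : ‖x - y‖ ≤ 2 * |R + 2| := by
      have a1 : ‖x‖ < R + 2 := by simpa using hx
      have a2 : ‖y‖ < R + 2 := by simpa using hy
      have a3 := norm_sub_le x y
      have a4 := le_abs_self (R + 2)
      linarith
    have e3 : ‖x - y‖ = ‖x - y‖ ^ (1 / 2 : ℝ) * ‖x - y‖ ^ (1 / 2 : ℝ) := by
      rw [← Real.sqrt_eq_rpow, Real.mul_self_sqrt (norm_nonneg _)]
    calc ‖x - y‖ = ‖x - y‖ ^ (1 / 2 : ℝ) * ‖x - y‖ ^ (1 / 2 : ℝ) := e3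
      _ ≤ s * ‖x - y‖ ^ (1 / 2 : ℝ) :=
          mul_le_mul_of_nonneg_right (Real.rpow_le_rpow (norm_nonneg _) hxy (by norm_num))
            (Real.rpow_nonneg (norm_nonneg _) _)
  have hub : ∀ j x, |u j x| ≤ Real.pi := fun j x => by
    have a1 := (hθ j).abs_le x
    have a2 := hmin.abs_le x
    have a3 := abs_sub (θj j x) (refTheta b e x)
    simp only [hu]
    linarith
  have hint : ∀ j, Integrable (fun x => refDensity b e x * (θj j x - refTheta b e x) ^ 2) volume := fun j => by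
    refine (hn₀.integrable.mul_const (Real.pi ^ 2)).mono'
      ((hn₀.continuous.mul ((hu1 j).continuous.pow 2)).aestronglyMeasurable) (Eventually.of_forall fun x => ?_)
    have h0 := (hn₀.pos x).le
    rw [Real.norm_eq_abs, abs_of_nonneg (by positivity)]
    refine mul_le_mul_of_nonneg_left ?_ h0
    have := hub j x
    exact sq_le_sq' (by linarith [(abs_le.1 this).1]) (abs_le.1 this).2
  have hL2' : Tendsto (fun j => ∫ x in Metric.ball (0 : Space) (R + 1 + 1), ‖u j x‖ ^ 2) atTop (𝓝 0) := by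
    have hl : Tendsto (fun j => c'⁻¹ * ∫ x, refDensity b e x * (θj j x - refTheta b e x) ^ 2) atTop (𝓝 0) := by
      simpa using hL2.const_mul c'⁻¹
    refine squeeze_zero (fun j => integral_nonneg fun x => sq_nonneg _) (fun j => ?_) hl
    have hi2 : IntegrableOn (fun x => ‖u j x‖ ^ 2) (Metric.ball (0 : Space) (R + 1 + 1)) volume :=
      (((hu1 j).continuous.norm.pow 2).continuousOn.integrableOn_compact
        (isCompact_closedBall (0 : Space) (R + 1 + 1))).mono_set Metric.ball_subset_closedBall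
    calc (∫ x in Metric.ball (0 : Space) (R + 1 + 1), ‖u j x‖ ^ 2)
        ≤ ∫ x in Metric.ball (0 : Space) (R + 1 + 1), c'⁻¹ * (refDensity b e x * (θj j x - refTheta b e x) ^ 2) := by
          refine setIntegral_mono_on hi2 ((hint j).integrableOn.const_mul _) measurableSet_ball fun x hx => ?_
          have a1 : ‖x‖ < R + 1 + 1 := by simpa using hx
          have h1 := hl' x (by linarith)
          rw [← mul_assoc, Real.norm_eq_abs, sq_abs]
          have : 1 ≤ c'⁻¹ * refDensity b e x := by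
            rw [inv_mul_eq_div, le_div_iff₀ hc'0]; linarith
          simp only [hu]
          nlinarith [sq_nonneg (θj j x - refTheta b e x)]
      _ ≤ ∫ x, c'⁻¹ * (refDensity b e x * (θj j x - refTheta b e x) ^ 2) :=
          setIntegral_le_integral ((hint j).const_mul _) (Eventually.of_forall fun x => by
            have := (hn₀.pos x).le
            positivity)
      _ = _ := integral_const_mul _ _
  have hunif := ac_unif_of_L2_holder (fj := u) (R := R + 1) (K := KK * s) (fun j => (hu1 j).continuous) hhol hL2'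
  have hunif' : ∀ ε > 0, ∀ᶠ j in atTop, ∀ x ∈ Metric.closedBall (0 : Space) (R + 1), |u j x| ≤ ε := hunif
  have hgrad := ac_grad_unif (uj := u) (R := R) (K := KK) hu1
    (fun j x hx y hy => hgh j x (Metric.ball_subset_ball (by linarith) hx) y
      (Metric.ball_subset_ball (by linarith) hy)) hunif'
  intro ε hε
  filter_upwards [hunif' ε hε, hgrad ε hε] with j a1 a2 x hx
  refine ⟨a1 x (Metric.closedBall_subset_closedBall (by linarith) hx), ?_⟩
  rw [← hgu]
  exact a2 x hx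

/-! ### Assembly -/

/-- **Proposition 4.2**, sequential form. -/
theorem ac_subseq (h : TwoCentre b e εb εe) (hc : DensConv nj (refDensity b e))
    (hθ : ∀ j, IsFoldedMinimizer (nj j) (θj j)) (hd : ∀ j, IsMultiplier (nj j) (θj j) (dj j)) :
    ∃ φ : ℕ → ℕ, StrictMono φ ∧ Tendsto (fun j => dj (φ j)) atTop (𝓝 (εe - εb)) ∧
      ∀ R : ℝ, ∀ ε > 0, ∀ᶠ j in atTop, ∀ x ∈ Metric.closedBall (0 : Space) R,
        |θj (φ j) x - refTheta b e x| ≤ ε ∧ ‖gradient (θj (φ j)) x - gradient (refTheta b e) x‖ ≤ ε := by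
  obtain ⟨φ, hφ, hae, hL2, hw⟩ := ac_limit_ref h hc hθ
  have hc' := hc.comp hφ
  have hdt : Tendsto (fun j => dj (φ j)) atTop (𝓝 (εe - εb)) :=
    ac_mult_tendsto (θj := fun j => θj (φ j)) (dj := fun j => dj (φ j)) h hc' (fun j => hθ _)
      (fun j => hd _) hae hw
  obtain ⟨B, hB⟩ : ∃ B : ℝ, ∀ j, |dj (φ j)| ≤ B := by
    obtain ⟨B, hB⟩ := (hdt.abs.isBoundedUnder_le).bddAbove_range
    exact ⟨B, fun j => hB ⟨j, rfl⟩⟩
  exact ⟨φ, hφ, hdt, fun R =>
    ac_C1_conv (θj := fun j => θj (φ j)) (dj := fun j => dj (φ j)) h hc' (fun j => hθ _)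
      (fun j => hd _) hB hL2 R⟩

end Claimed.Open.R278
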