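import Claimed.Open.R278.ANTop

/-!
# Package AC (Prop. 4.2), leaves AC-C (radial cutoffs), AC-V1, AC-V2: recovery sequence

`ac_recovery`: if `n_j → n₀` (`DensConv`) and `θs` is a folded minimizer of `n₀`, then for every `ε > 0` and all large `j` there is an admissible angle of `n_j` with energy `≤ E(n₀, ∇θs) + ε`.

COMPETITOR.  `acComp θs φ₀ k s = χ_k θs + s φ₀`, `χ_k = acCut k` radial cutoff (`1` on `‖x‖ ≤ k+1`, `0` on `‖x‖ ≥ 2(k+1)`, `|∇χ_k| ≤ C/(k+1)`, invariant under `reflZ`),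
`φ₀` the odd test function of `an_exists_test` (`c₀ = ∫ n₀ sin 2θs φ₀ ≠ 0`).  It is `C¹`, odd, compactly supported: admissible for `n_j` as soon as the constraint holds (`an_admissible_of_contDiff`).

CONSTRAINT.  `C_j(k,s) = ∫ n_j sin² (acComp k s)`.
 (b) `|C_j(k,s) - C_0(k,s)| ≤ ∫ |n_j - n₀|`;  (c) `|C_0(k,s) - ∫ n₀ sin² (θs + s φ₀)| ≤ ∫_{‖x‖ > k+1} n₀ → 0` uniformly in `s` (once `supp φ₀ ⊆ ball (k+1)`);
 (d) `|∫ n₀ sin² (θs + s φ₀) - 1 - s c₀| ≤ s² ∫ n₀ φ₀²` (`|sin² (a+h) - sin² a - h sin 2a| ≤ h²`);  (e) `s ↦ C_j(k,s)` is continuous (dominated convergence).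
 Fix `σ > 0` with `σ ∫ n₀ φ₀² ≤ |c₀|/2`: then `C_j(k,σ) - 1` and `C_j(k,-σ) - 1` have opposite signs for `k ≥ K`, `j ≥ J`; IVT gives `s_j ∈ [-σ,σ]` with `C_j(k,s_j) = 1`.
ENERGY.  (f) Minkowski in `L²(n₀)`: `E(n₀,∇acComp k s)^{1/2} ≤ E(n₀,∇θs)^{1/2} + (π/2) (C/(k+1)) √3 + |s| E(n₀,∇φ₀)^{1/2}`;
 (g) for fixed `k`: `E(n_j,·) - E(n₀,·) ≤ sup_{ball} |n_j - n₀| ∫ |∇acComp k s|²`, the last integral bounded uniformly in `|s| ≤ σ`.
ORDER OF CHOICES in `ac_recovery`: `φ₀`; `(σ₁,K₁)` from (f) with `ε/2`; `σ = min σ₁ (|c₀|/(2 ∫ n₀ φ₀² + 1))`; `K₂` from (c) with `σ |c₀|/8`; `k = max K₁ K₂`; then `j` large by (b) (`σ|c₀|/8`) and (g) (`ε/2`).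
-/

open MeasureTheory Filter
open scoped ContDiff InnerProductSpace ENNReal Topology

noncomputable section

namespace Claimed.Open.R278

/-! ### AC-C: a radial cutoff (Mathlib only) -/

/-- radial cutoff. -/
def acCut (k : ℕ) (x : Space) : ℝ := Real.smoothTransition (2 - ‖x‖ ^ 2 / ((k : ℝ) + 1) ^ 2)

theorem acCut_contDiff (k : ℕ) : ContDiff ℝ ∞ (acCut k) :=
  Real.smoothTransition.contDiff.comp (contDiff_const.sub ((contDiff_norm_sq ℝ).div_const _))

theorem acCut_nonneg (k : ℕ) (x : Space) : 0 ≤ acCut k x := Real.smoothTransition.nonneg _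

theorem acCut_le_one (k : ℕ) (x : Space) : acCut k x ≤ 1 := Real.smoothTransition.le_one _

theorem acCut_eq_one {k : ℕ} {x : Space} (h : ‖x‖ ≤ (k : ℝ) + 1) : acCut k x = 1 := by
  refine Real.smoothTransition.one_of_one_le ?_
  have hk : (0 : ℝ) < (k : ℝ) + 1 := by positivity
  have h1 : ‖x‖ ^ 2 / ((k : ℝ) + 1) ^ 2 ≤ 1 := by
    rw [div_le_one (by positivity)]
    exact pow_le_pow_left₀ (norm_nonneg _) h 2
  linarith

theorem acCut_eq_zero {k : ℕ} {x : Space} (h : 2 * ((k : ℝ) + 1) ≤ ‖x‖) : acCut k x = 0 := by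
  refine Real.smoothTransition.zero_of_nonpos ?_
  have hk : (0 : ℝ) < (k : ℝ) + 1 := by positivity
  have h1 : 4 ≤ ‖x‖ ^ 2 / ((k : ℝ) + 1) ^ 2 := by
    rw [le_div_iff₀ (by positivity)]
    have := pow_le_pow_left₀ (by positivity) h 2
    nlinarith
  linarith

theorem acCut_hasCompactSupport (k : ℕ) : HasCompactSupport (acCut k) := by
  refine HasCompactSupport.intro (isCompact_closedBall (0 : Space) (2 * ((k : ℝ) + 1))) fun x hx => ?_
  rw [Metric.mem_closedBall, dist_zero_right, not_le] at hx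
  exact acCut_eq_zero hx.le

theorem acCut_reflZ (k : ℕ) (x : Space) : acCut k (reflZ x) = acCut k x := by
  unfold acCut
  rw [norm_reflZ]

theorem ac_deriv_smoothTransition_eq_zero {s : ℝ} (h : s < 0 ∨ 1 < s) : deriv Real.smoothTransition s = 0 := by
  rcases h with h | h
  · have : Real.smoothTransition =ᶠ[𝓝 s] fun _ => 0 := by
      filter_upwards [Iio_mem_nhds h] with y hy
      exact Real.smoothTransition.zero_of_nonpos (le_of_lt hy)
    rw [this.deriv_eq]; simp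
  · have : Real.smoothTransition =ᶠ[𝓝 s] fun _ => 1 := by
      filter_upwards [Ioi_mem_nhds h] with y hy
      exact Real.smoothTransition.one_of_one_le (le_of_lt hy)
    rw [this.deriv_eq]; simp

theorem ac_exists_deriv_smoothTransition_bound : ∃ c₀ : ℝ, 0 ≤ c₀ ∧ ∀ s, |deriv Real.smoothTransition s| ≤ c₀ := by
  have hc : Continuous (deriv Real.smoothTransition) :=
    (Real.smoothTransition.contDiff (n := 1)).continuous_deriv le_rfl
  obtain ⟨C, hC⟩ := (isCompact_Icc (a := (0 : ℝ)) (b := 1)).exists_bound_of_continuousOn hc.continuousOn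
  refine ⟨max C 0, le_max_right _ _, fun s => ?_⟩
  by_cases hs : s ∈ Set.Icc (0 : ℝ) 1
  · exact (hC s hs).trans (le_max_left _ _)
  · have : s < 0 ∨ 1 < s := by
      by_contra hcon
      rw [not_or, not_lt, not_lt] at hcon
      exact hs ⟨hcon.1, hcon.2⟩
    rw [ac_deriv_smoothTransition_eq_zero this, abs_zero]
    exact le_max_right _ _

theorem ac_norm_gradient (f : Space → ℝ) (x : Space) : ‖gradient f x‖ = ‖fderiv ℝ f x‖ := by
  unfold gradient
  exact (InnerProductSpace.toDual ℝ Space).symm.norm_map _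

theorem acCut_hasFDerivAt (k : ℕ) (x : Space) :
    HasFDerivAt (acCut k)
      (deriv Real.smoothTransition (2 - ‖x‖ ^ 2 / ((k : ℝ) + 1) ^ 2) •
        (-((((k : ℝ) + 1) ^ 2)⁻¹ • ((2 : ℝ) • innerSL ℝ x)))) x := by
  have h1 : HasFDerivAt (fun y : Space => ‖y‖ ^ 2) ((2 : ℝ) • innerSL ℝ x) x := by
    have := (hasStrictFDerivAt_norm_sq x).hasFDerivAt
    simpa [two_smul] using this
  have h2 : HasFDerivAt (fun y : Space => 2 - ‖y‖ ^ 2 / ((k : ℝ) + 1) ^ 2)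
      (-((((k : ℝ) + 1) ^ 2)⁻¹ • ((2 : ℝ) • innerSL ℝ x))) x := by
    have := (h1.const_smul (((k : ℝ) + 1) ^ 2)⁻¹).const_sub 2
    refine this.congr_of_eventuallyEq (Eventually.of_forall fun y => ?_)
    simp only [Pi.smul_apply, smul_eq_mul, div_eq_inv_mul]
  have h3 : HasDerivAt Real.smoothTransition (deriv Real.smoothTransition (2 - ‖x‖ ^ 2 / ((k : ℝ) + 1) ^ 2))
      (2 - ‖x‖ ^ 2 / ((k : ℝ) + 1) ^ 2) :=
    ((Real.smoothTransition.contDiff (n := 1)).differentiable (by simp) _).hasDerivAt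
  exact h3.comp_hasFDerivAt x h2

theorem acCut_grad_le : ∃ C : ℝ, ∀ (k : ℕ) (x : Space), ‖gradient (acCut k) x‖ ≤ C / ((k : ℝ) + 1) := by
  obtain ⟨c₀, hc0, hc⟩ := ac_exists_deriv_smoothTransition_bound
  refine ⟨4 * c₀, fun k x => ?_⟩
  have hk : (0 : ℝ) < (k : ℝ) + 1 := by positivity
  rw [ac_norm_gradient, (acCut_hasFDerivAt k x).fderiv, norm_smul, norm_neg, norm_smul, norm_smul, innerSL_apply_norm,
    Real.norm_eq_abs, Real.norm_eq_abs, Real.norm_eq_abs, abs_of_pos (by positivity : (0 : ℝ) < (((k : ℝ) + 1) ^ 2)⁻¹),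
    abs_of_pos (by norm_num : (0 : ℝ) < 2)]
  by_cases hx : ‖x‖ ≤ 2 * ((k : ℝ) + 1)
  · calc |deriv Real.smoothTransition (2 - ‖x‖ ^ 2 / ((k : ℝ) + 1) ^ 2)| * ((((k : ℝ) + 1) ^ 2)⁻¹ * (2 * ‖x‖))
        ≤ c₀ * ((((k : ℝ) + 1) ^ 2)⁻¹ * (2 * (2 * ((k : ℝ) + 1)))) := by
          refine mul_le_mul (hc _) ?_ (by positivity) hc0
          exact mul_le_mul_of_nonneg_left (by linarith) (by positivity)
      _ = 4 * c₀ / ((k : ℝ) + 1) := by field_simp; ring
  · have h1 : 4 < ‖x‖ ^ 2 / ((k : ℝ) + 1) ^ 2 := by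
      rw [lt_div_iff₀ (by positivity)]
      have := pow_lt_pow_left₀ (not_le.mp hx) (by positivity) two_ne_zero
      nlinarith
    rw [ac_deriv_smoothTransition_eq_zero (Or.inl (by linarith)), abs_zero, zero_mul]
    positivity

theorem acCut_grad_eq_zero {k : ℕ} {x : Space} (h : ‖x‖ < (k : ℝ) + 1) : gradient (acCut k) x = 0 := by
  have h1 : acCut k =ᶠ[𝓝 x] fun _ => (1 : ℝ) := by
    have : {y : Space | ‖y‖ < (k : ℝ) + 1} ∈ 𝓝 x := (isOpen_lt continuous_norm continuous_const).mem_nhds h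
    filter_upwards [this] with y hy
    exact acCut_eq_one (le_of_lt hy)
  unfold gradient
  rw [h1.fderiv_eq]
  simp

/-! ### The competitor -/

/-- `χ_k θs + s φ₀`. -/
def acComp (θs φ₀ : Space → ℝ) (k : ℕ) (s : ℝ) (x : Space) : ℝ := acCut k x * θs x + s * φ₀ x

variable {n n₀ θs φ₀ : Space → ℝ}

theorem acComp_contDiff (hθ : ContDiff ℝ 1 θs) (hφ : ContDiff ℝ ∞ φ₀) (k : ℕ) (s : ℝ) :
    ContDiff ℝ 1 (acComp θs φ₀ k s) :=
  (((acCut_contDiff k).of_le (by exact_mod_cast le_top)).mul hθ).add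
    (contDiff_const.mul (hφ.of_le (by exact_mod_cast le_top)))

theorem acComp_hasCompactSupport (hφc : HasCompactSupport φ₀) (k : ℕ) (s : ℝ) :
    HasCompactSupport (acComp θs φ₀ k s) :=
  ((acCut_hasCompactSupport k).mul_right (f' := θs)).add (hφc.mul_left (f := fun _ => s))

theorem acComp_odd (hθ : ∀ x, θs (reflZ x) = -θs x) (hφ : ∀ x, φ₀ (reflZ x) = -φ₀ x) (k : ℕ) (s : ℝ) (x : Space) :
    acComp θs φ₀ k s (reflZ x) = -acComp θs φ₀ k s x := by
  unfold acComp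
  rw [acCut_reflZ, hθ, hφ]
  ring

/-! ### AC-V1: the constraint -/

theorem ac_cos_taylor_aux (b σ : ℝ) (hσ : |σ| ≤ 1) {u : ℝ} (hu : 0 ≤ u) :
    0 ≤ u ^ 2 / 2 + σ * (Real.cos (b + u) - Real.cos b + u * Real.sin b) := by
  have hd : ∀ v, HasDerivAt (fun u : ℝ => u ^ 2 / 2 + σ * (Real.cos (b + u) - Real.cos b + u * Real.sin b))
      (v + σ * (-Real.sin (b + v) + Real.sin b)) v := by
    intro v
    have h1 : HasDerivAt (fun u : ℝ => u ^ 2 / 2) v v := by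
      have := (hasDerivAt_pow 2 v).div_const 2
      simpa using this
    have h2 : HasDerivAt (fun u : ℝ => Real.cos (b + u)) (-Real.sin (b + v)) v := by
      have := ((hasDerivAt_id v).const_add b).cos
      simpa using this
    have h3 : HasDerivAt (fun u : ℝ => u * Real.sin b) (Real.sin b) v := by
      simpa using (hasDerivAt_id v).mul_const (Real.sin b)
    exact h1.add (((h2.sub_const _).add h3).const_mul σ)
  have hmono : MonotoneOn (fun u : ℝ => u ^ 2 / 2 + σ * (Real.cos (b + u) - Real.cos b + u * Real.sin b))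
      (Set.Ici 0) := by
    refine monotoneOn_of_deriv_nonneg (convex_Ici 0) (fun x _ => (hd x).continuousAt.continuousWithinAt)
      (fun x _ => (hd x).differentiableAt.differentiableWithinAt) fun x hx => ?_
    rw [interior_Ici] at hx
    have hx0 : 0 < x := hx
    rw [(hd x).deriv]
    have h1 := Real.abs_sin_sub_sin_le (b + x) b
    rw [add_sub_cancel_left, abs_of_pos hx0] at h1
    have h2 : |σ * (-Real.sin (b + x) + Real.sin b)| ≤ x := by
      rw [abs_mul]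
      have e : |-Real.sin (b + x) + Real.sin b| = |Real.sin (b + x) - Real.sin b| := by
        rw [← abs_neg]; congr 1; ring
      rw [e]
      calc |σ| * |Real.sin (b + x) - Real.sin b| ≤ 1 * x := mul_le_mul hσ h1 (abs_nonneg _) zero_le_one
        _ = x := one_mul x
    linarith [neg_abs_le (σ * (-Real.sin (b + x) + Real.sin b))]
  have := hmono (Set.mem_Ici.2 le_rfl) (Set.mem_Ici.2 hu) hu
  simpa using this

theorem ac_cos_taylor (b u : ℝ) : |Real.cos (b + u) - Real.cos b + u * Real.sin b| ≤ u ^ 2 / 2 := by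
  rcases le_total 0 u with hu | hu
  · have h1 := ac_cos_taylor_aux b 1 (by simp) hu
    have h2 := ac_cos_taylor_aux b (-1) (by simp) hu
    rw [abs_le]
    constructor <;> linarith
  · have hu' : 0 ≤ -u := by linarith
    have h1 := ac_cos_taylor_aux (-b) 1 (by simp) hu'
    have h2 := ac_cos_taylor_aux (-b) (-1) (by simp) hu'
    have e1 : Real.cos (-b + -u) = Real.cos (b + u) := by rw [← neg_add, Real.cos_neg]
    rw [e1, Real.cos_neg, Real.sin_neg] at h1 h2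
    rw [abs_le]
    constructor <;> nlinarith

theorem ac_sin_sq_taylor (a h : ℝ) :
    |Real.sin (a + h) ^ 2 - Real.sin a ^ 2 - h * Real.sin (2 * a)| ≤ h ^ 2 := by
  have h1 := ac_cos_taylor (2 * a) (2 * h)
  rw [Real.sin_sq_eq_half_sub, Real.sin_sq_eq_half_sub]
  have e : 1 / 2 - Real.cos (2 * (a + h)) / 2 - (1 / 2 - Real.cos (2 * a) / 2) - h * Real.sin (2 * a)
      = -((Real.cos (2 * a + 2 * h) - Real.cos (2 * a) + 2 * h * Real.sin (2 * a)) / 2) := by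
    rw [mul_add]; ring
  rw [e, abs_neg, abs_div, abs_of_pos (by norm_num : (0 : ℝ) < 2)]
  rw [div_le_iff₀ (by norm_num)]
  nlinarith

theorem ac_abs_sin_sq_sub_le (a b : ℝ) : |Real.sin a ^ 2 - Real.sin b ^ 2| ≤ 1 := by
  have h1 := Real.sin_sq_le_one a
  have h2 := Real.sin_sq_le_one b
  rw [abs_le]
  constructor <;> nlinarith [sq_nonneg (Real.sin a), sq_nonneg (Real.sin b)]

theorem acComp_continuous (hθ : Continuous θs) (hφ : Continuous φ₀) (k : ℕ) (s : ℝ) :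
    Continuous (acComp θs φ₀ k s) :=
  ((acCut_contDiff k).continuous.mul hθ).add (continuous_const.mul hφ)

/-- (b) -/
theorem ac_constraint_close (hn : DensityBasic n) (hn₀ : DensityBasic n₀) {ϑ : Space → ℝ} (hϑ : Continuous ϑ) :
    |(∫ x, n x * Real.sin (ϑ x) ^ 2) - ∫ x, n₀ x * Real.sin (ϑ x) ^ 2| ≤ ∫ x, |n x - n₀ x| := by
  have i1 := anm_int_sinsq hn hϑ.aestronglyMeasurable
  have i2 := anm_int_sinsq hn₀ hϑ.aestronglyMeasurable
  rw [← integral_sub i1 i2, ← Real.norm_eq_abs]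
  refine norm_integral_le_of_norm_le (hn.integrable.sub hn₀.integrable).abs (Eventually.of_forall fun x => ?_)
  rw [← sub_mul, Real.norm_eq_abs, abs_mul, abs_of_nonneg (sq_nonneg (Real.sin (ϑ x)))]
  exact mul_le_of_le_one_right (abs_nonneg _) (Real.sin_sq_le_one _)

theorem ac_tail_tendsto (hn₀ : DensityBasic n₀) :
    Tendsto (fun k : ℕ => ∫ x in {x : Space | (k : ℝ) + 1 < ‖x‖}, n₀ x) atTop (𝓝 0) := by
  have h1 := tendsto_setIntegral_of_antitone (μ := (volume : Measure Space))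
    (s := fun k : ℕ => {x : Space | (k : ℝ) + 1 < ‖x‖}) (f := n₀)
    (fun k => (isOpen_lt continuous_const continuous_norm).measurableSet)
    (fun k l hkl x hx => by
      have h1 : (k : ℝ) ≤ (l : ℝ) := Nat.cast_le.mpr hkl
      have h2 : (l : ℝ) + 1 < ‖x‖ := hx
      show (k : ℝ) + 1 < ‖x‖
      linarith)
    ⟨0, hn₀.integrable.integrableOn⟩
  have h2 : (⋂ k : ℕ, {x : Space | (k : ℝ) + 1 < ‖x‖}) = ∅ := by
    ext x
    simp only [Set.mem_iInter, Set.mem_ofPred_eq, Set.mem_empty_iff_false, iff_false, not_forall, not_lt]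
    obtain ⟨k, hk⟩ := exists_nat_ge ‖x‖
    exact ⟨k, by linarith⟩
  rwa [h2, Measure.restrict_empty, integral_zero_measure] at h1

/-- (c) -/
theorem ac_constraint_cut (hn₀ : DensityBasic n₀) (hθ : Continuous θs) (hφ : Continuous φ₀)
    (hφc : HasCompactSupport φ₀) {ε : ℝ} (hε : 0 < ε) :
    ∃ K : ℕ, ∀ k ≥ K, ∀ s : ℝ,
      |(∫ x, n₀ x * Real.sin (acComp θs φ₀ k s x) ^ 2) - ∫ x, n₀ x * Real.sin (θs x + s * φ₀ x) ^ 2| ≤ ε := by
  obtain ⟨K, hK⟩ := eventually_atTop.mp ((ac_tail_tendsto hn₀).eventually (gt_mem_nhds hε))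
  refine ⟨K, fun k hk s => le_trans ?_ (hK k hk).le⟩
  have i1 := anm_int_sinsq hn₀ (acComp_continuous hθ hφ k s).aestronglyMeasurable
  have i2 : Integrable fun x => n₀ x * Real.sin (θs x + s * φ₀ x) ^ 2 :=
    anm_int_sinsq hn₀ (hθ.add (continuous_const.mul hφ) : Continuous fun x => θs x + s * φ₀ x).aestronglyMeasurable
  have hS : MeasurableSet {x : Space | (k : ℝ) + 1 < ‖x‖} := (isOpen_lt continuous_const continuous_norm).measurableSet
  rw [← integral_sub i1 i2, ← Real.norm_eq_abs, ← integral_indicator hS]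
  refine norm_integral_le_of_norm_le (hn₀.integrable.indicator hS) (Eventually.of_forall fun x => ?_)
  by_cases hx : (k : ℝ) + 1 < ‖x‖
  · rw [Set.indicator_of_mem (show x ∈ {x : Space | (k : ℝ) + 1 < ‖x‖} from hx), ← mul_sub, Real.norm_eq_abs, abs_mul,
      abs_of_pos (hn₀.pos x)]
    exact mul_le_of_le_one_right (hn₀.pos x).le (ac_abs_sin_sq_sub_le _ _)
  · rw [Set.indicator_of_notMem (show x ∉ {x : Space | (k : ℝ) + 1 < ‖x‖} from hx)]
    have : acComp θs φ₀ k s x = θs x + s * φ₀ x := by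
      unfold acComp
      rw [acCut_eq_one (not_lt.mp hx), one_mul]
    rw [this, sub_self, norm_zero]

/-- (d) -/
theorem ac_constraint_taylor (hn₀ : DensityBasic n₀) (hθ : Continuous θs) (hφ : Continuous φ₀)
    (hφc : HasCompactSupport φ₀) (s : ℝ) :
    |(∫ x, n₀ x * Real.sin (θs x + s * φ₀ x) ^ 2) - (∫ x, n₀ x * Real.sin (θs x) ^ 2)
        - s * ∫ x, n₀ x * Real.sin (2 * θs x) * φ₀ x| ≤ s ^ 2 * ∫ x, n₀ x * φ₀ x ^ 2 := by
  have i1 : Integrable fun x => n₀ x * Real.sin (θs x + s * φ₀ x) ^ 2 :=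
    anm_int_sinsq hn₀ (hθ.add (continuous_const.mul hφ) : Continuous fun x => θs x + s * φ₀ x).aestronglyMeasurable
  have i2 := anm_int_sinsq hn₀ hθ.aestronglyMeasurable
  have i3 := anm_integrable_mul_test (anm_w_integrable hn₀ hθ.aestronglyMeasurable) hφ hφc
  have i4 := anm_int_sq hn₀ hφ hφc
  have i12 : Integrable fun x => n₀ x * Real.sin (θs x + s * φ₀ x) ^ 2 - n₀ x * Real.sin (θs x) ^ 2 := i1.sub i2
  rw [← integral_sub i1 i2, ← integral_const_mul, ← integral_sub i12 (i3.const_mul s), ← integral_const_mul,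
    ← Real.norm_eq_abs]
  refine norm_integral_le_of_norm_le (i4.const_mul _) (Eventually.of_forall fun x => ?_)
  have e : (n₀ x * Real.sin (θs x + s * φ₀ x) ^ 2 - n₀ x * Real.sin (θs x) ^ 2) - s * (n₀ x * Real.sin (2 * θs x) * φ₀ x)
      = n₀ x * (Real.sin (θs x + s * φ₀ x) ^ 2 - Real.sin (θs x) ^ 2 - s * φ₀ x * Real.sin (2 * θs x)) := by ring
  rw [e, Real.norm_eq_abs, abs_mul, abs_of_pos (hn₀.pos x)]
  calc n₀ x * |Real.sin (θs x + s * φ₀ x) ^ 2 - Real.sin (θs x) ^ 2 - s * φ₀ x * Real.sin (2 * θs x)|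
      ≤ n₀ x * (s * φ₀ x) ^ 2 := mul_le_mul_of_nonneg_left (ac_sin_sq_taylor _ _) (hn₀.pos x).le
    _ = s ^ 2 * (n₀ x * φ₀ x ^ 2) := by ring

/-- (e) -/
theorem ac_constraint_continuous (hn : DensityBasic n) (hθ : Continuous θs) (hφ : Continuous φ₀) (k : ℕ) :
    Continuous fun s : ℝ => ∫ x, n x * Real.sin (acComp θs φ₀ k s x) ^ 2 := by
  refine continuous_of_dominated (bound := n) (fun s => ?_) (fun s => Eventually.of_forall fun x => ?_)
    hn.integrable (Eventually.of_forall fun x => ?_)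
  · exact (hn.continuous.mul ((Real.continuous_sin.comp (acComp_continuous hθ hφ k s)).pow 2)).aestronglyMeasurable
  · rw [Real.norm_eq_abs, abs_mul, abs_of_pos (hn.pos x), abs_of_nonneg (sq_nonneg _)]
    exact mul_le_of_le_one_right (hn.pos x).le (Real.sin_sq_le_one _)
  · unfold acComp
    fun_prop

/-! ### AC-V2: the energy, and the recovery sequence -/

theorem ac_gradient_comp (hθ : ContDiff ℝ 1 θs) (hφ : ContDiff ℝ ∞ φ₀) (k : ℕ) (s : ℝ) (x : Space) :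
    gradient (acComp θs φ₀ k s) x
      = acCut k x • gradient θs x + θs x • gradient (acCut k) x + s • gradient φ₀ x := by
  have d1 : DifferentiableAt ℝ (acCut k) x := (acCut_contDiff k).differentiable (by simp) x
  have d2 : DifferentiableAt ℝ θs x := hθ.differentiable (by simp) x
  have d3 : DifferentiableAt ℝ φ₀ x := hφ.differentiable (by simp) x
  have h : fderiv ℝ (acComp θs φ₀ k s) x
      = acCut k x • fderiv ℝ θs x + θs x • fderiv ℝ (acCut k) x + s • fderiv ℝ φ₀ x := by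
    unfold acComp
    have d12 : DifferentiableAt ℝ (fun y => acCut k y * θs y) x := d1.mul d2
    rw [fderiv_fun_add d12 (d3.const_mul s), fderiv_fun_mul d1 d2, fderiv_const_mul d3]
  unfold gradient
  rw [h, map_add, map_add, map_smul, map_smul, map_smul]

theorem ac_norm_add_sq_le {δ : ℝ} (hδ : 0 < δ) (a b : Space) :
    ‖a + b‖ ^ 2 ≤ (1 + δ) * ‖a‖ ^ 2 + (1 + 1 / δ) * ‖b‖ ^ 2 := by
  have h1 : ‖a + b‖ ^ 2 ≤ (‖a‖ + ‖b‖) ^ 2 := pow_le_pow_left₀ (norm_nonneg _) (norm_add_le a b) 2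
  have h2 : 0 ≤ (δ * ‖a‖ - ‖b‖) ^ 2 / δ := by positivity
  have h3 : (δ * ‖a‖ - ‖b‖) ^ 2 / δ = δ * ‖a‖ ^ 2 - 2 * ‖a‖ * ‖b‖ + ‖b‖ ^ 2 / δ := by
    field_simp
    ring
  have h4 : (1 + 1 / δ) * ‖b‖ ^ 2 = ‖b‖ ^ 2 + ‖b‖ ^ 2 / δ := by ring
  nlinarith

theorem ac_norm_add_sq_le_two (a b : Space) : ‖a + b‖ ^ 2 ≤ 2 * ‖a‖ ^ 2 + 2 * ‖b‖ ^ 2 := by
  have := ac_norm_add_sq_le one_pos a b
  norm_num at this
  linarith

/-- (f) -/
theorem ac_energy_comp (hn₀ : DensityBasic n₀) (hθ : ContDiff ℝ 1 θs) (hb : ∀ x, |θs x| ≤ Real.pi / 2)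
    (hE : Integrable fun x => n₀ x * ‖gradient θs x‖ ^ 2) (hφ : ContDiff ℝ ∞ φ₀) (hφc : HasCompactSupport φ₀)
    {ε : ℝ} (hε : 0 < ε) :
    ∃ σ > 0, ∃ K : ℕ, ∀ k ≥ K, ∀ s : ℝ, |s| ≤ σ →
      angleEnergy n₀ (gradient (acComp θs φ₀ k s)) ≤ angleEnergy n₀ (gradient θs) + ε := by
  obtain ⟨C, hC⟩ := acCut_grad_le
  have hφ1 : ContDiff ℝ 1 φ₀ := hφ.of_le (by exact_mod_cast le_top)
  have iφ : Integrable fun x => n₀ x * ‖gradient φ₀ x‖ ^ 2 :=
    anm_int_normsq hn₀ (Claimed.Agent.R259.ws_gradient_continuous hφ1)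
      (Claimed.Agent.R259.ws_gradient_hasCompactSupport hφc)
  obtain ⟨E₀, hE₀⟩ : ∃ E₀, E₀ = angleEnergy n₀ (gradient θs) := ⟨_, rfl⟩
  obtain ⟨Eφ, hEφ⟩ : ∃ Eφ, Eφ = angleEnergy n₀ (gradient φ₀) := ⟨_, rfl⟩
  have hE₀0 : 0 ≤ E₀ := hE₀ ▸ integral_nonneg fun x => mul_nonneg (hn₀.pos x).le (sq_nonneg _)
  have hEφ0 : 0 ≤ Eφ := hEφ ▸ integral_nonneg fun x => mul_nonneg (hn₀.pos x).le (sq_nonneg _)
  obtain ⟨δ, hδ⟩ : ∃ δ, δ = ε / (2 * (E₀ + 1)) := ⟨_, rfl⟩
  have hδ0 : 0 < δ := by rw [hδ]; positivity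
  have hδE : δ * E₀ ≤ ε / 2 := by
    rw [hδ, div_mul_eq_mul_div, div_le_iff₀ (by positivity)]
    nlinarith
  obtain ⟨L, hL⟩ : ∃ L, L = 1 + 1 / δ := ⟨_, rfl⟩
  have hL0 : 0 < L := by rw [hL]; positivity
  obtain ⟨D, hD⟩ : ∃ D, D = 6 * L * ((Real.pi / 2) ^ 2 * C ^ 2) := ⟨_, rfl⟩
  have hD0 : 0 ≤ D := by rw [hD]; positivity
  refine ⟨min 1 (ε / (8 * L * (Eφ + 1))), by positivity, ⌈4 * D / ε⌉₊, fun k hk s hs => ?_⟩
  rw [← hE₀]
  have hkpos : (0 : ℝ) < (k : ℝ) + 1 := by positivity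
  have hk1 : 4 * D / ε ≤ (k : ℝ) + 1 := by
    have h1 := Nat.le_ceil (4 * D / ε)
    have h2 : ((⌈4 * D / ε⌉₊ : ℕ) : ℝ) ≤ (k : ℝ) := by exact_mod_cast hk
    linarith
  have hs2 : s ^ 2 ≤ ε / (8 * L * (Eφ + 1)) := by
    have h1 : |s| ≤ 1 := hs.trans (min_le_left _ _)
    have h2 : |s| ≤ ε / (8 * L * (Eφ + 1)) := hs.trans (min_le_right _ _)
    calc s ^ 2 = |s| * |s| := by rw [← sq, sq_abs]
      _ ≤ 1 * (ε / (8 * L * (Eφ + 1))) := mul_le_mul h1 h2 (abs_nonneg _) zero_le_one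
      _ = _ := one_mul _
  obtain ⟨T, hT⟩ : ∃ T, T = (Real.pi / 2) ^ 2 * (C / ((k : ℝ) + 1)) ^ 2 := ⟨_, rfl⟩
  have hpt : ∀ x, n₀ x * ‖gradient (acComp θs φ₀ k s) x‖ ^ 2 ≤
      (1 + δ) * (n₀ x * ‖gradient θs x‖ ^ 2)
        + L * (2 * T * n₀ x + 2 * s ^ 2 * (n₀ x * ‖gradient φ₀ x‖ ^ 2)) := by
    intro x
    rw [ac_gradient_comp hθ hφ, add_assoc]
    have h1 := ac_norm_add_sq_le hδ0 (acCut k x • gradient θs x)
      (θs x • gradient (acCut k) x + s • gradient φ₀ x)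
    rw [← hL] at h1
    have h2 : ‖acCut k x • gradient θs x‖ ^ 2 ≤ ‖gradient θs x‖ ^ 2 := by
      rw [norm_smul, Real.norm_eq_abs, abs_of_nonneg (acCut_nonneg k x)]
      exact pow_le_pow_left₀ (mul_nonneg (acCut_nonneg k x) (norm_nonneg _))
        (mul_le_of_le_one_left (norm_nonneg _) (acCut_le_one k x)) 2
    have h3 : ‖θs x • gradient (acCut k) x + s • gradient φ₀ x‖ ^ 2
        ≤ 2 * T + 2 * s ^ 2 * ‖gradient φ₀ x‖ ^ 2 := by
      have e0 := ac_norm_add_sq_le_two (θs x • gradient (acCut k) x) (s • gradient φ₀ x)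
      have e1 : ‖θs x • gradient (acCut k) x‖ ^ 2 ≤ T := by
        rw [hT, ← mul_pow, norm_smul, Real.norm_eq_abs]
        exact pow_le_pow_left₀ (by positivity) (mul_le_mul (hb x) (hC k x) (norm_nonneg _) (by positivity)) 2
      have e2 : ‖s • gradient φ₀ x‖ ^ 2 = s ^ 2 * ‖gradient φ₀ x‖ ^ 2 := by
        rw [norm_smul, mul_pow, Real.norm_eq_abs, sq_abs]
      rw [e2] at e0
      linarith
    have hn := (hn₀.pos x).le
    have h4 : ‖acCut k x • gradient θs x + (θs x • gradient (acCut k) x + s • gradient φ₀ x)‖ ^ 2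
        ≤ (1 + δ) * ‖gradient θs x‖ ^ 2 + L * (2 * T + 2 * s ^ 2 * ‖gradient φ₀ x‖ ^ 2) := by
      have a1 := mul_le_mul_of_nonneg_left h2 (by positivity : 0 ≤ 1 + δ)
      have a2 := mul_le_mul_of_nonneg_left h3 hL0.le
      linarith
    calc _ ≤ n₀ x * ((1 + δ) * ‖gradient θs x‖ ^ 2 + L * (2 * T + 2 * s ^ 2 * ‖gradient φ₀ x‖ ^ 2)) :=
          mul_le_mul_of_nonneg_left h4 hn
      _ = _ := by ring
  have iR : Integrable fun x => (1 + δ) * (n₀ x * ‖gradient θs x‖ ^ 2)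
        + L * (2 * T * n₀ x + 2 * s ^ 2 * (n₀ x * ‖gradient φ₀ x‖ ^ 2)) :=
    (hE.const_mul _).add (((hn₀.integrable.const_mul _).add (iφ.const_mul _)).const_mul L)
  have hint : angleEnergy n₀ (gradient (acComp θs φ₀ k s)) ≤ (1 + δ) * E₀ + L * (2 * T * 3 + 2 * s ^ 2 * Eφ) := by
    unfold angleEnergy at hE₀ hEφ ⊢
    calc _ ≤ ∫ x, ((1 + δ) * (n₀ x * ‖gradient θs x‖ ^ 2)
        + L * (2 * T * n₀ x + 2 * s ^ 2 * (n₀ x * ‖gradient φ₀ x‖ ^ 2))) :=
          integral_mono_of_nonneg (Eventually.of_forall fun x => mul_nonneg (hn₀.pos x).le (sq_nonneg _)) iR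
            (Eventually.of_forall hpt)
      _ = _ := by
          have j1 : Integrable fun x => (1 + δ) * (n₀ x * ‖gradient θs x‖ ^ 2) := hE.const_mul _
          have j2 : Integrable fun x => 2 * T * n₀ x := hn₀.integrable.const_mul _
          have j3 : Integrable fun x => 2 * s ^ 2 * (n₀ x * ‖gradient φ₀ x‖ ^ 2) := iφ.const_mul _
          have j4 : Integrable fun x => 2 * T * n₀ x + 2 * s ^ 2 * (n₀ x * ‖gradient φ₀ x‖ ^ 2) := j2.add j3
          have j5 : Integrable fun x => L * (2 * T * n₀ x + 2 * s ^ 2 * (n₀ x * ‖gradient φ₀ x‖ ^ 2)) :=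
            j4.const_mul L
          rw [integral_add j1 j5, integral_const_mul, integral_const_mul, integral_add j2 j3, integral_const_mul,
            integral_const_mul, hn₀.integral_eq, ← hE₀, ← hEφ]
  have hT1 : L * (2 * T * 3) ≤ ε / 4 := by
    have e1 : L * (2 * T * 3) = D / ((k : ℝ) + 1) ^ 2 := by
      rw [hT, hD, div_pow]; field_simp; ring
    rw [e1]
    have e2 : (k : ℝ) + 1 ≤ ((k : ℝ) + 1) ^ 2 := by nlinarith [(Nat.cast_nonneg k : (0 : ℝ) ≤ (k : ℝ))]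
    have e3 : D / ((k : ℝ) + 1) ^ 2 ≤ D / ((k : ℝ) + 1) := div_le_div_of_nonneg_left hD0 hkpos e2
    have e4 : D / ((k : ℝ) + 1) ≤ ε / 4 := by
      rw [div_le_iff₀ hε] at hk1
      rw [div_le_iff₀ hkpos]
      linarith
    linarith
  have hT2 : L * (2 * s ^ 2 * Eφ) ≤ ε / 4 := by
    have e1 : L * (2 * s ^ 2 * Eφ) ≤ L * (2 * (ε / (8 * L * (Eφ + 1))) * Eφ) := by
      refine mul_le_mul_of_nonneg_left ?_ hL0.le
      exact mul_le_mul_of_nonneg_right (by linarith) hEφ0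
    have e2 : L * (2 * (ε / (8 * L * (Eφ + 1))) * Eφ) = ε / 4 * (Eφ / (Eφ + 1)) := by
      field_simp
      ring
    have e3 : Eφ / (Eφ + 1) ≤ 1 := (div_le_one (by positivity)).2 (by linarith)
    have e4 : ε / 4 * (Eφ / (Eφ + 1)) ≤ ε / 4 * 1 := mul_le_mul_of_nonneg_left e3 (by positivity)
    linarith
  have : L * (2 * T * 3 + 2 * s ^ 2 * Eφ) = L * (2 * T * 3) + L * (2 * s ^ 2 * Eφ) := by ring
  nlinarith

/-- (g) -/
theorem ac_energy_close {nj : ℕ → Space → ℝ} (hc : DensConv nj n₀) (hθ : ContDiff ℝ 1 θs) (hφ : ContDiff ℝ ∞ φ₀)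
    (hφc : HasCompactSupport φ₀) (k : ℕ) (σ : ℝ) {ε : ℝ} (hε : 0 < ε) :
    ∀ᶠ j in atTop, ∀ s : ℝ, |s| ≤ σ →
      angleEnergy (nj j) (gradient (acComp θs φ₀ k s)) ≤ angleEnergy n₀ (gradient (acComp θs φ₀ k s)) + ε := by
  have hn₀ := hc.basic0
  have hφ1 : ContDiff ℝ 1 φ₀ := hφ.of_le (by exact_mod_cast le_top)
  have hu : ∀ s, ContDiff ℝ 1 (acComp θs φ₀ k s) := fun s => acComp_contDiff hθ hφ k s
  have huc : ∀ s, HasCompactSupport (acComp θs φ₀ k s) := fun s => acComp_hasCompactSupport hφc k s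
  have hgrad : ∀ s x, gradient (acComp θs φ₀ k s) x = gradient (acComp θs φ₀ k 0) x + s • gradient φ₀ x := by
    intro s x
    rw [ac_gradient_comp hθ hφ, ac_gradient_comp hθ hφ, zero_smul, add_zero]
  obtain ⟨g, hg⟩ : ∃ g : Space → ℝ, ∀ x, g x = 2 * ‖gradient (acComp θs φ₀ k 0) x‖ ^ 2
      + 2 * σ ^ 2 * ‖gradient φ₀ x‖ ^ 2 := ⟨_, fun _ => rfl⟩
  have c1 := Claimed.Agent.R259.ws_gradient_continuous (hu 0)
  have c2 := Claimed.Agent.R259.ws_gradient_continuous hφ1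
  have s1 := Claimed.Agent.R259.ws_gradient_hasCompactSupport (huc 0)
  have s2 := Claimed.Agent.R259.ws_gradient_hasCompactSupport hφc
  have hgeq : g = fun x => 2 * ‖gradient (acComp θs φ₀ k 0) x‖ ^ 2 + 2 * σ ^ 2 * ‖gradient φ₀ x‖ ^ 2 := funext hg
  have hgc : Continuous g := by
    rw [hgeq]
    exact (continuous_const.mul (c1.norm.pow 2)).add (continuous_const.mul (c2.norm.pow 2))
  have hgs : HasCompactSupport g := by
    rw [hgeq]
    have a1 : HasCompactSupport fun x => ‖gradient (acComp θs φ₀ k 0) x‖ ^ 2 :=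
      s1.norm.comp_left (g := fun r : ℝ => r ^ 2) (by simp)
    have a2 : HasCompactSupport fun x => ‖gradient φ₀ x‖ ^ 2 :=
      s2.norm.comp_left (g := fun r : ℝ => r ^ 2) (by simp)
    exact (a1.mul_left (f := fun _ => (2 : ℝ))).add (a2.mul_left (f := fun _ => 2 * σ ^ 2))
  have hgi : Integrable g := hgc.integrable_of_hasCompactSupport hgs
  have hg0 : ∀ x, 0 ≤ g x := fun x => by rw [hg]; positivity
  obtain ⟨B, hB⟩ : ∃ B, B = ∫ x, g x := ⟨_, rfl⟩
  have hB0 : 0 ≤ B := hB ▸ integral_nonneg hg0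
  have hle : ∀ s, |s| ≤ σ → ∀ x, ‖gradient (acComp θs φ₀ k s) x‖ ^ 2 ≤ g x := by
    intro s hs x
    rw [hgrad, hg]
    have e0 := ac_norm_add_sq_le_two (gradient (acComp θs φ₀ k 0) x) (s • gradient φ₀ x)
    have e2 : ‖s • gradient φ₀ x‖ ^ 2 = s ^ 2 * ‖gradient φ₀ x‖ ^ 2 := by
      rw [norm_smul, mul_pow, Real.norm_eq_abs, sq_abs]
    have e3 : s ^ 2 ≤ σ ^ 2 := by
      rw [← sq_abs s]
      exact pow_le_pow_left₀ (abs_nonneg s) hs 2
    have e4 := mul_le_mul_of_nonneg_right e3 (sq_nonneg ‖gradient φ₀ x‖)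
    rw [e2] at e0
    linarith
  obtain ⟨R, hR⟩ := hgs.isCompact.isBounded.subset_closedBall (0 : Space)
  have hunif := hc.unif R
  rw [Metric.tendstoUniformlyOn_iff] at hunif
  have hη : 0 < ε / (B + 1) := by positivity
  filter_upwards [hunif _ hη] with j hj s hs
  have hpt : ∀ x, nj j x * ‖gradient (acComp θs φ₀ k s) x‖ ^ 2
      ≤ n₀ x * ‖gradient (acComp θs φ₀ k s) x‖ ^ 2 + ε / (B + 1) * g x := by
    intro x
    by_cases hx : x ∈ Metric.closedBall (0 : Space) R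
    · have h1 := hj x hx
      rw [Real.dist_eq] at h1
      have h2 : nj j x - n₀ x ≤ ε / (B + 1) := by
        have := neg_abs_le (n₀ x - nj j x)
        linarith
      have h3 := hle s hs x
      have h4 : (nj j x - n₀ x) * ‖gradient (acComp θs φ₀ k s) x‖ ^ 2
          ≤ ε / (B + 1) * ‖gradient (acComp θs φ₀ k s) x‖ ^ 2 := mul_le_mul_of_nonneg_right h2 (sq_nonneg _)
      have h5 := mul_le_mul_of_nonneg_left h3 hη.le
      linarith
    · have hgx : g x = 0 := image_eq_zero_of_notMem_tsupport (fun h => hx (hR h))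
      have h1 : ‖gradient (acComp θs φ₀ k s) x‖ ^ 2 = 0 :=
        le_antisymm (hgx ▸ hle s hs x) (sq_nonneg _)
      rw [h1, hgx]
      simp
  have i0 : Integrable fun x => n₀ x * ‖gradient (acComp θs φ₀ k s) x‖ ^ 2 :=
    anm_int_normsq hn₀ (Claimed.Agent.R259.ws_gradient_continuous (hu s))
      (Claimed.Agent.R259.ws_gradient_hasCompactSupport (huc s))
  unfold angleEnergy
  calc ∫ x, nj j x * ‖gradient (acComp θs φ₀ k s) x‖ ^ 2
      ≤ ∫ x, (n₀ x * ‖gradient (acComp θs φ₀ k s) x‖ ^ 2 + ε / (B + 1) * g x) :=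
        integral_mono_of_nonneg (Eventually.of_forall fun x => mul_nonneg ((hc.basic j).pos x).le (sq_nonneg _))
          (i0.add (hgi.const_mul _)) (Eventually.of_forall hpt)
    _ = (∫ x, n₀ x * ‖gradient (acComp θs φ₀ k s) x‖ ^ 2) + ε / (B + 1) * B := by
        rw [integral_add i0 (hgi.const_mul _), integral_const_mul, ← hB]
    _ ≤ _ := by
        have : ε / (B + 1) * B ≤ ε := by
          rw [div_mul_eq_mul_div, div_le_iff₀ (by positivity)]
          nlinarith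
        linarith

theorem ac_odd_everywhere (hθ : Continuous θs) (h : ∀ᵐ x, θs (reflZ x) = -θs x) (x : Space) :
    θs (reflZ x) = -θs x := by
  have h1 : Continuous fun x => θs (reflZ x) := hθ.comp anm_contDiff_reflZ.continuous
  have h2 : Continuous fun x => -θs x := hθ.neg
  have := (Continuous.ae_eq_iff_eq (volume : Measure Space) h1 h2).1 h
  exact congrFun this x

theorem ac_abs_le (hodd : ∀ x, θs (reflZ x) = -θs x)
    (hf : ∀ x : Space, 0 < x 2 → 0 ≤ θs x ∧ θs x ≤ Real.pi / 2) (x : Space) : |θs x| ≤ Real.pi / 2 := by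
  have hpi := Real.pi_pos
  rcases lt_trichotomy (x 2) 0 with h | h | h
  · have h1 := hf (reflZ x) (by rw [reflZ_apply_two]; linarith)
    rw [hodd] at h1
    rw [abs_le]
    constructor <;> linarith [h1.1, h1.2]
  · have e : reflZ x = x := by apply space_ext <;> simp [h]
    have h1 := hodd x
    rw [e] at h1
    have h2 : θs x = 0 := by linarith
    rw [h2, abs_zero]
    positivity
  · have h1 := hf x h
    rw [abs_le]
    constructor <;> linarith [h1.1, h1.2]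

/-- **Recovery sequence.** -/
theorem ac_recovery {nj : ℕ → Space → ℝ} (hc : DensConv nj n₀) (hθ : IsFoldedMinimizer n₀ θs) {ε : ℝ}
    (hε : 0 < ε) :
    ∀ᶠ j in atTop, ∃ ϑ G, IsAdmissibleAngle (nj j) ϑ G ∧
      angleEnergy (nj j) G ≤ angleEnergy n₀ (gradient θs) + ε := by
  have hn₀ := hc.basic0
  obtain ⟨hθ1, hadm, hfold, -⟩ := hθ
  have hθc := hθ1.continuous
  have hodd := ac_odd_everywhere hθc hadm.2.2.1
  have hb := ac_abs_le hodd hfold
  have hE := anm_int_G hn₀ hadm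
  obtain ⟨φ₀, hφ, hφc, hφodd, hc₀⟩ := an_exists_test hn₀ hadm (Eventually.of_forall hfold)
  have hφcont := hφ.continuous
  obtain ⟨c₀, hc₀def⟩ : ∃ c₀, c₀ = ∫ x, n₀ x * Real.sin (2 * θs x) * φ₀ x := ⟨_, rfl⟩
  rw [← hc₀def] at hc₀
  obtain ⟨A, hA⟩ : ∃ A, A = ∫ x, n₀ x * φ₀ x ^ 2 := ⟨_, rfl⟩
  have hA0 : 0 ≤ A := hA ▸ integral_nonneg fun x => mul_nonneg (hn₀.pos x).le (sq_nonneg _)
  have hc₀pos : 0 < |c₀| := abs_pos.2 hc₀
  obtain ⟨σ₁, hσ₁, K₁, hK₁⟩ := ac_energy_comp hn₀ hθ1 hb hE hφ hφc (half_pos hε)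
  obtain ⟨σ, hσ⟩ : ∃ σ, σ = min σ₁ (|c₀| / (2 * A + 1)) := ⟨_, rfl⟩
  have hσ0 : 0 < σ := by rw [hσ]; exact lt_min hσ₁ (by positivity)
  have hσ1 : σ ≤ σ₁ := hσ ▸ min_le_left _ _
  have hσA : σ * A ≤ |c₀| / 2 := by
    have h1 : σ ≤ |c₀| / (2 * A + 1) := hσ ▸ min_le_right _ _
    calc σ * A ≤ |c₀| / (2 * A + 1) * A := mul_le_mul_of_nonneg_right h1 hA0
      _ ≤ |c₀| / 2 := by
          rw [div_mul_eq_mul_div, div_le_div_iff₀ (by positivity) (by norm_num)]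
          nlinarith
  have hτ : 0 < σ * |c₀| / 8 := by positivity
  obtain ⟨K₂, hK₂⟩ := ac_constraint_cut hn₀ hθc hφcont hφc hτ
  obtain ⟨k, hk⟩ : ∃ k, k = max K₁ K₂ := ⟨_, rfl⟩
  have hk1 : k ≥ K₁ := hk ▸ le_max_left _ _
  have hk2 : k ≥ K₂ := hk ▸ le_max_right _ _
  have hl1 := hc.l1.eventually (gt_mem_nhds hτ)
  filter_upwards [hl1, ac_energy_close hc hθ1 hφ hφc k σ (half_pos hε)] with j hj1 hj2
  have hnj := hc.basic j
  obtain ⟨Cf, hCf⟩ : ∃ Cf : ℝ → ℝ, ∀ s, Cf s = ∫ x, nj j x * Real.sin (acComp θs φ₀ k s x) ^ 2 :=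
    ⟨_, fun _ => rfl⟩
  have hCc : Continuous Cf := by
    have := ac_constraint_continuous hnj hθc hφcont k
    rwa [← show Cf = _ from funext hCf] at this
  have hest : ∀ s, |Cf s - (1 + s * c₀)| ≤ σ * |c₀| / 4 + s ^ 2 * A := by
    intro s
    have e1 := ac_constraint_close hnj hn₀ (acComp_continuous hθc hφcont k s)
    have e2 := hK₂ k hk2 s
    have e3 := ac_constraint_taylor hn₀ hθc hφcont hφc s
    rw [hadm.2.2.2, ← hc₀def, ← hA] at e3
    rw [← hCf] at e1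
    generalize (∫ x, n₀ x * Real.sin (acComp θs φ₀ k s x) ^ 2) = X at e1 e2
    generalize (∫ x, n₀ x * Real.sin (θs x + s * φ₀ x) ^ 2) = Y at e2 e3
    have e4 : Cf s - (1 + s * c₀) = (Cf s - X) + (X - Y) + (Y - 1 - s * c₀) := by ring
    rw [e4]
    have e5 := abs_add_three (Cf s - X) (X - Y) (Y - 1 - s * c₀)
    linarith
  have hsq : σ ^ 2 * A ≤ σ * |c₀| / 2 := by nlinarith
  have hp := hest σ
  have hm := hest (-σ)
  rw [neg_sq] at hm
  obtain ⟨s, hs, hs1⟩ : ∃ s ∈ Set.Icc (-σ) σ, Cf s = 1 := by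
    rcases lt_or_gt_of_ne hc₀ with hneg | hpos
    · have habs : |c₀| = -c₀ := abs_of_neg hneg
      rw [habs] at hp hm hsq
      have h1 : Cf σ ≤ 1 := by
        have := (abs_le.1 hp).2
        nlinarith
      have h2 : 1 ≤ Cf (-σ) := by
        have := (abs_le.1 hm).1
        nlinarith
      exact intermediate_value_Icc' (by linarith) hCc.continuousOn ⟨h1, h2⟩
    · have habs : |c₀| = c₀ := abs_of_pos hpos
      rw [habs] at hp hm hsq
      have h1 : 1 ≤ Cf σ := by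
        have := (abs_le.1 hp).1
        nlinarith
      have h2 : Cf (-σ) ≤ 1 := by
        have := (abs_le.1 hm).2
        nlinarith
      exact intermediate_value_Icc (by linarith) hCc.continuousOn ⟨h2, h1⟩
  refine ⟨acComp θs φ₀ k s, gradient (acComp θs φ₀ k s),
    an_admissible_of_contDiff hnj (acComp_contDiff hθ1 hφ k s) (acComp_hasCompactSupport hφc k s)
      (acComp_odd hodd hφodd k s) (by rw [← hCf]; exact hs1), ?_⟩
  have hsσ : |s| ≤ σ := abs_le.2 hs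
  have e1 := hj2 s hsσ
  have e2 := hK₁ k hk1 s (hsσ.trans hσ1)
  linarith

end Claimed.Open.R278
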