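import Claimed.Open.R278.STExist

/-!
# Package ST, leaf ST-D: continuity of the strip solution in its weight

Used by package AC (Lemma 7.4): `n_t(cyl M ·) → n₀(cyl M ·)` uniformly on `[0,L]` implies `U_t' → U₀'` uniformly.

PLAN (either route is fine).
(a) Gronwall.  Flux `F = ν U'`.  `(U, F)` solves the linear system `U' = F/ν`, `F' = μ² ν U`.  Normalise at `z = L`:
    `F(L) ≠ 0` (`U' < 0`, `IsStripSolution.pos_neg`), `(Ũ, F̃) = (U, F)/(-F(L))` solves the backward initial value problem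
    `Ũ(L) = 0`, `F̃(L) = -1`.  The differences of two such solutions for weights `ν, ν_j` satisfy a Gronwall inequality with
    inhomogeneity `O(‖ν_j - ν‖_∞)` (all coefficients are bounded because `ν ≥ c > 0` and `ν_j ≥ c/2` eventually).
    Then `U = Ũ/Ũ(0)`, `U' = F̃/(ν Ũ(0))`, `Ũ(0) > 0`.
(b) Series.  By uniqueness `U' = -J/(ν Ũ(0))` with the series of `STExist`; every term is continuous in `ν` for the sup norm,
    uniformly summable majorant.
-/

open MeasureTheory Set Filter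
open scoped ContDiff Topology

noncomputable section

namespace Claimed.Open.R278

/-- Time reversal `t ↦ L - t` for one-sided derivatives. -/
theorem stc_reverse {g : ℝ → ℝ} {g' : ℝ} {s : ℝ} (hs : s ∈ Ico 0 stripL)
    (h : HasDerivWithinAt g g' (Icc 0 stripL) (stripL - s)) :
    HasDerivWithinAt (fun t => g (stripL - t)) (-g') (Ici s) s := by
  have h1 : HasDerivWithinAt (fun t => stripL - t) (-1) (Icc s stripL) s :=
    ((hasDerivAt_id s).const_sub stripL).hasDerivWithinAt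
  have hm : MapsTo (fun t => stripL - t) (Icc s stripL) (Icc 0 stripL) := fun t ht =>
    ⟨by linarith [ht.2], by linarith [ht.1, hs.1]⟩
  have h2 := h.comp s h1 hm
  rw [mul_neg_one] at h2
  exact h2.mono_of_mem_nhdsWithin (Icc_mem_nhdsGE_of_mem ⟨le_rfl, hs.2⟩)

/-- Gronwall stability of the Volterra series in the weight. -/
theorem stc_stability {κ : ℝ} (hκ : 0 ≤ κ) {n : ℝ → ℝ} (hc : Continuous n) (hpos : ∀ z, 0 < n z)
    {c M : ℝ} (hc0 : 0 < c) (hM : 0 ≤ M) (hn : ∀ z ∈ Icc 0 stripL, c ≤ n z) :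
    ∃ Cst : ℝ, 0 ≤ Cst ∧ ∀ (n' : ℝ → ℝ) (η : ℝ), Continuous n' → (∀ z, 0 < n' z) →
      (∀ z ∈ Icc 0 stripL, c ≤ n' z) → (∀ z ∈ Icc 0 stripL, n' z ≤ M) →
      (∀ z ∈ Icc 0 stripL, |n' z - n z| ≤ η) →
      ∀ z ∈ Icc 0 stripL, |stxU κ n' z - stxU κ n z| ≤ Cst * η ∧ |stxJ κ n' z - stxJ κ n z| ≤ Cst * η := by
  obtain ⟨BJ, hBJ⟩ := isCompact_Icc.exists_bound_of_continuousOn (stxJ_continuousOn hκ hc hpos)
  obtain ⟨BU, hBU⟩ := isCompact_Icc.exists_bound_of_continuousOn (stxU_continuousOn hκ hc hpos)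
  have hL := stx_L_pos
  have h0I : (0:ℝ) ∈ Icc 0 stripL := ⟨le_rfl, hL.le⟩
  have hBJ0 : 0 ≤ BJ := (norm_nonneg _).trans (hBJ 0 h0I)
  have hBU0 : 0 ≤ BU := (norm_nonneg _).trans (hBU 0 h0I)
  set K : ℝ := 1 / c + κ * M with hK
  have hKpos : 0 < K := by positivity
  set E : ℝ := BJ / c ^ 2 + κ * BU with hE
  have hE0 : 0 ≤ E := by positivity
  have hexp : 0 ≤ Real.exp (K * stripL) - 1 := by
    have := Real.one_le_exp (mul_pos hKpos hL).le
    linarith
  refine ⟨E / K * (Real.exp (K * stripL) - 1), by positivity, ?_⟩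
  intro n' η hc' hpos' hlo hhi hη
  have hη0 : 0 ≤ η := (abs_nonneg _).trans (hη 0 h0I)
  set f : ℝ → ℝ × ℝ := fun s =>
    (stxU κ n' (stripL - s) - stxU κ n (stripL - s), stxJ κ n' (stripL - s) - stxJ κ n (stripL - s)) with hf
  set f' : ℝ → ℝ × ℝ := fun s =>
    (-(-(stxJ κ n' (stripL - s) / n' (stripL - s)) - -(stxJ κ n (stripL - s) / n (stripL - s))),
      -(-(κ * (n' (stripL - s) * stxU κ n' (stripL - s))) - -(κ * (n (stripL - s) * stxU κ n (stripL - s))))) with hf'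
  have hrev : ∀ s ∈ Icc 0 stripL, stripL - s ∈ Icc 0 stripL := fun s hs =>
    ⟨by linarith [hs.2], by linarith [hs.1]⟩
  have hrc : ContinuousOn (fun s : ℝ => stripL - s) (Icc 0 stripL) := (continuous_const.sub continuous_id).continuousOn
  have hfc : ContinuousOn f (Icc 0 stripL) := by
    refine ContinuousOn.prodMk ?_ ?_
    · exact ((stxU_continuousOn hκ hc' hpos').comp hrc hrev).sub ((stxU_continuousOn hκ hc hpos).comp hrc hrev)
    · exact ((stxJ_continuousOn hκ hc' hpos').comp hrc hrev).sub ((stxJ_continuousOn hκ hc hpos).comp hrc hrev)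
  have hfd : ∀ s ∈ Ico 0 stripL, HasDerivWithinAt f (f' s) (Ici s) s := by
    intro s hs
    have hz := hrev s ⟨hs.1, hs.2.le⟩
    refine HasDerivWithinAt.prodMk ?_ ?_
    · exact stc_reverse hs ((stxU_hasDeriv hκ hc' hpos' hz).sub (stxU_hasDeriv hκ hc hpos hz))
    · exact stc_reverse hs ((stxJ_hasDeriv hκ hc' hpos' hz).sub (stxJ_hasDeriv hκ hc hpos hz))
  have hfa : ‖f 0‖ ≤ 0 := by
    have hLI : stripL ∈ Icc 0 stripL := ⟨hL.le, le_rfl⟩
    have : f 0 = 0 := by
      simp only [hf, sub_zero, stxU_stripL, stxJ_eq hκ hc' hpos' hLI, stxJ_eq hκ hc hpos hLI,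
        intervalIntegral.integral_same, mul_zero, add_zero, sub_self]
      rfl
    rw [this, norm_zero]
  have hbd : ∀ s ∈ Ico 0 stripL, ‖f' s‖ ≤ K * ‖f s‖ + E * η := by
    intro s hs
    have hz := hrev s ⟨hs.1, hs.2.le⟩
    set z := stripL - s with hzdef
    have e1 : |stxU κ n' z - stxU κ n z| ≤ ‖f s‖ := le_max_left _ _
    have e2 : |stxJ κ n' z - stxJ κ n z| ≤ ‖f s‖ := le_max_right _ _
    have hfn : 0 ≤ ‖f s‖ := norm_nonneg _
    have hJ : |stxJ κ n z| ≤ BJ := hBJ z hz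
    have hU : |stxU κ n z| ≤ BU := hBU z hz
    have hn'z := hlo z hz
    have hn'M := hhi z hz
    have hnz := hn z hz
    have hηz := hη z hz
    refine max_le ?_ ?_
    · show |(-(-(stxJ κ n' z / n' z) - -(stxJ κ n z / n z)))| ≤ _
      have hid : -(-(stxJ κ n' z / n' z) - -(stxJ κ n z / n z))
          = (stxJ κ n' z - stxJ κ n z) / n' z + stxJ κ n z * ((n z - n' z) / (n' z * n z)) := by
        have := (hpos z).ne'
        have := (hpos' z).ne'
        field_simp
        ring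
      rw [hid]
      have t1 : |(stxJ κ n' z - stxJ κ n z) / n' z| ≤ 1 / c * ‖f s‖ := by
        rw [abs_div, abs_of_pos (hpos' z), div_eq_mul_inv, mul_comm, one_div]
        exact mul_le_mul (inv_anti₀ hc0 hn'z) e2 (abs_nonneg _) (by positivity)
      have t2 : |stxJ κ n z * ((n z - n' z) / (n' z * n z))| ≤ BJ / c ^ 2 * η := by
        rw [abs_mul, abs_div, abs_of_pos (mul_pos (hpos' z) (hpos z)), abs_sub_comm]
        have t3 : |n' z - n z| / (n' z * n z) ≤ η / c ^ 2 := by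
          have : c ^ 2 ≤ n' z * n z := by nlinarith
          gcongr
        calc |stxJ κ n z| * (|n' z - n z| / (n' z * n z)) ≤ BJ * (η / c ^ 2) :=
              mul_le_mul hJ t3 (by have := hpos z; have := hpos' z; positivity) hBJ0
          _ = BJ / c ^ 2 * η := by ring
      have t4 : 0 ≤ κ * M * ‖f s‖ := by positivity
      have t5 : 0 ≤ κ * BU * η := by positivity
      calc _ ≤ _ := abs_add_le _ _
        _ ≤ 1 / c * ‖f s‖ + BJ / c ^ 2 * η := add_le_add t1 t2
        _ ≤ K * ‖f s‖ + E * η := by rw [hK, hE]; nlinarith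
    · show |(-(-(κ * (n' z * stxU κ n' z)) - -(κ * (n z * stxU κ n z))))| ≤ _
      have hid : -(-(κ * (n' z * stxU κ n' z)) - -(κ * (n z * stxU κ n z)))
          = κ * n' z * (stxU κ n' z - stxU κ n z) + κ * ((n' z - n z) * stxU κ n z) := by ring
      rw [hid]
      have t1 : |κ * n' z * (stxU κ n' z - stxU κ n z)| ≤ κ * M * ‖f s‖ := by
        rw [abs_mul, abs_of_nonneg (mul_nonneg hκ (hpos' z).le)]
        exact mul_le_mul (mul_le_mul_of_nonneg_left hn'M hκ) e1 (abs_nonneg _) (by positivity)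
      have t2 : |κ * ((n' z - n z) * stxU κ n z)| ≤ κ * BU * η := by
        rw [abs_mul, abs_mul, abs_of_nonneg hκ]
        calc κ * (|n' z - n z| * |stxU κ n z|) ≤ κ * (η * BU) := by gcongr
          _ = κ * BU * η := by ring
      have t4 : 0 ≤ 1 / c * ‖f s‖ := by positivity
      have t5 : 0 ≤ BJ / c ^ 2 * η := by positivity
      calc _ ≤ _ := abs_add_le _ _
        _ ≤ κ * M * ‖f s‖ + κ * BU * η := add_le_add t1 t2
        _ ≤ K * ‖f s‖ + E * η := by rw [hK, hE]; nlinarith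
  have hG := norm_le_gronwallBound_of_norm_deriv_right_le hfc hfd hfa hbd
  intro z hz
  have hs := hrev z hz
  have h1 := hG (stripL - z) hs
  rw [gronwallBound_of_K_ne_0 hKpos.ne'] at h1
  have h2 : ‖f (stripL - z)‖ ≤ E / K * (Real.exp (K * stripL) - 1) * η := by
    refine h1.trans ?_
    have h3 : Real.exp (K * (stripL - z - 0)) ≤ Real.exp (K * stripL) := by
      apply Real.exp_le_exp.2
      have := hz.1
      nlinarith
    have h4 : 0 ≤ E * η / K := by positivity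
    calc 0 * Real.exp (K * (stripL - z - 0)) + E * η / K * (Real.exp (K * (stripL - z - 0)) - 1)
        ≤ E * η / K * (Real.exp (K * stripL) - 1) := by
          rw [zero_mul, zero_add]
          exact mul_le_mul_of_nonneg_left (by linarith) h4
      _ = E / K * (Real.exp (K * stripL) - 1) * η := by ring
  have hzz : stripL - (stripL - z) = z := by ring
  have e1 : |stxU κ n' z - stxU κ n z| ≤ ‖f (stripL - z)‖ := by
    have : |stxU κ n' (stripL - (stripL - z)) - stxU κ n (stripL - (stripL - z))| ≤ ‖f (stripL - z)‖ :=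
      le_max_left _ _
    rwa [hzz] at this
  have e2 : |stxJ κ n' z - stxJ κ n z| ≤ ‖f (stripL - z)‖ := by
    have : |stxJ κ n' (stripL - (stripL - z)) - stxJ κ n (stripL - (stripL - z))| ≤ ‖f (stripL - z)‖ :=
      le_max_right _ _
    rwa [hzz] at this
  exact ⟨e1.trans h2, e2.trans h2⟩

/-- The strip solution in closed form. -/
theorem stc_closed_form {ν : ℝ → ℝ} (hc : ContinuousOn ν (Icc 0 stripL))
    (hpos : ∀ z ∈ Icc 0 stripL, 0 < ν z) :
    IsStripSolution ν (fun z => stxU (stripMu ^ 2) (stxExt ν) z / stxU (stripMu ^ 2) (stxExt ν) 0)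
      (fun z => -(stxJ (stripMu ^ 2) (stxExt ν) z / (stxExt ν z * stxU (stripMu ^ 2) (stxExt ν) 0))) := by
  obtain ⟨h0, hL, hd, -, -⟩ := stx_sol (κ := stripMu ^ 2) (by positivity) (stxExt_continuous hc) (stxExt_pos hpos)
  refine ⟨h0, hL, fun z hz => ⟨(hd z hz).1, ?_⟩⟩
  have h := (hd z hz).2
  rw [stxExt_eq hz] at h
  refine h.congr (fun s hs => ?_) ?_
  · simp only [stxExt_eq hs]
  · simp only [stxExt_eq hz]

theorem st_continuity {ν : ℝ → ℝ} {νj : ℕ → ℝ → ℝ} (hc : ContinuousOn ν (Icc 0 stripL))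
    (hpos : ∀ z ∈ Icc 0 stripL, 0 < ν z) (hcj : ∀ j, ContinuousOn (νj j) (Icc 0 stripL))
    (hposj : ∀ j, ∀ z ∈ Icc 0 stripL, 0 < νj j z)
    (hconv : TendstoUniformlyOn νj ν atTop (Icc 0 stripL))
    {U U' : ℝ → ℝ} {Uj Uj' : ℕ → ℝ → ℝ} (h : IsStripSolution ν U U')
    (hj : ∀ j, IsStripSolution (νj j) (Uj j) (Uj' j)) :
    TendstoUniformlyOn Uj' U' atTop (Icc 0 stripL) := by
  have hL := stx_L_pos
  have h0I : (0:ℝ) ∈ Icc 0 stripL := ⟨le_rfl, hL.le⟩
  have hne : (Icc 0 stripL).Nonempty := ⟨0, h0I⟩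
  set κ : ℝ := stripMu ^ 2 with hκdef
  have hκ : 0 ≤ κ := by positivity
  set n := stxExt ν with hn
  have hnc : Continuous n := stxExt_continuous hc
  have hnp : ∀ z, 0 < n z := stxExt_pos hpos
  have hncj : ∀ j, Continuous (stxExt (νj j)) := fun j => stxExt_continuous (hcj j)
  have hnpj : ∀ j z, 0 < stxExt (νj j) z := fun j => stxExt_pos (hposj j)
  obtain ⟨a, haI, ha⟩ := isCompact_Icc.exists_isMinOn hne hc
  obtain ⟨b, hbI, hb⟩ := isCompact_Icc.exists_isMaxOn hne hc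
  set m := ν a with hm
  have hm0 : 0 < m := hpos a haI
  have hlo : ∀ z ∈ Icc 0 stripL, m ≤ ν z := fun z hz => ha hz
  have hhi : ∀ z ∈ Icc 0 stripL, ν z ≤ ν b := fun z hz => hb hz
  have hb0 : 0 < ν b := hpos b hbI
  obtain ⟨Cst, hCst0, hCst⟩ := stc_stability hκ hnc hnp (c := m / 2) (M := ν b + m) (by positivity)
    (by positivity) (fun z hz => by rw [hn, stxExt_eq hz]; linarith [hlo z hz])
  obtain ⟨BJ, hBJ⟩ := isCompact_Icc.exists_bound_of_continuousOn (stxJ_continuousOn hκ hnc hnp)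
  set u0 := stxU κ n 0 with hu0
  have hu0pos : 0 < u0 := stxU_pos hκ hnc hnp ⟨le_rfl, hL⟩
  set s : Set (ℝ × ℝ × ℝ) := Icc (-(BJ + 1)) (BJ + 1) ×ˢ (Icc (m / 2) (ν b + m) ×ˢ Icc (u0 / 2) (u0 + 1)) with hs
  have hsc : IsCompact s := isCompact_Icc.prod (isCompact_Icc.prod isCompact_Icc)
  set g : ℝ × ℝ × ℝ → ℝ := fun p => -(p.1 / (p.2.1 * p.2.2)) with hg
  have hgc : ContinuousOn g s := by
    refine (ContinuousOn.div continuous_fst.continuousOn
      ((continuous_fst.comp continuous_snd).mul (continuous_snd.comp continuous_snd)).continuousOn ?_).neg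
    rintro ⟨p1, p2, p3⟩ ⟨-, h2, h3⟩
    have e2 : 0 < p2 := lt_of_lt_of_le (by positivity) h2.1
    have e3 : 0 < p3 := lt_of_lt_of_le (by positivity) h3.1
    exact (mul_pos e2 e3).ne'
  have hgu : UniformContinuousOn g s := hsc.uniformContinuousOn_of_continuous hgc
  have hU' : ∀ z ∈ Icc 0 stripL, U' z = g (stxJ κ n z, n z, u0) := fun z hz =>
    ((IsStripSolution.unique hpos h (stc_closed_form hc hpos)) z hz).2
  have hUj' : ∀ j, ∀ z ∈ Icc 0 stripL,
      Uj' j z = g (stxJ κ (stxExt (νj j)) z, stxExt (νj j) z, stxU κ (stxExt (νj j)) 0) := fun j z hz =>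
    ((IsStripSolution.unique (hposj j) (hj j) (stc_closed_form (hcj j) (hposj j))) z hz).2
  rw [Metric.tendstoUniformlyOn_iff]
  intro ε hε
  obtain ⟨δ, hδ, hgδ⟩ := Metric.uniformContinuousOn_iff.1 hgu ε hε
  set δ' := min δ (min 1 (u0 / 2)) with hδ'
  have hδ'pos : 0 < δ' := lt_min hδ (lt_min one_pos (by positivity))
  set η := min (δ' / (Cst + 1)) (m / 2) with hη
  have hηpos : 0 < η := lt_min (by positivity) (by positivity)
  have hη1 : (Cst + 1) * η ≤ δ' := by
    have : η ≤ δ' / (Cst + 1) := min_le_left _ _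
    rwa [le_div_iff₀ (by positivity), mul_comm] at this
  have hη2 : η ≤ m / 2 := min_le_right _ _
  have hd1 : δ' ≤ δ := min_le_left _ _
  have hd2 : δ' ≤ 1 := (min_le_right _ _).trans (min_le_left _ _)
  have hd3 : δ' ≤ u0 / 2 := (min_le_right _ _).trans (min_le_right _ _)
  filter_upwards [Metric.tendstoUniformlyOn_iff.1 hconv η hηpos] with j hjη z hz
  have hclose : ∀ w ∈ Icc 0 stripL, |stxExt (νj j) w - n w| ≤ η := fun w hw => by
    rw [hn, stxExt_eq hw, stxExt_eq hw, abs_sub_comm]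
    exact (hjη w hw).le
  have hcl := fun w hw => abs_le.1 (hclose w hw)
  have hnw : ∀ w ∈ Icc 0 stripL, n w = ν w := fun w hw => by rw [hn, stxExt_eq hw]
  have hst := hCst (stxExt (νj j)) η (hncj j) (hnpj j)
    (fun w hw => by have := hcl w hw; have := hlo w hw; rw [hnw w hw] at *; linarith)
    (fun w hw => by have := hcl w hw; have := hhi w hw; rw [hnw w hw] at *; linarith) hclose
  have hJz := abs_le.1 (hst z hz).2
  have hU0 := abs_le.1 (hst 0 h0I).1
  have hBz := abs_le.1 (hBJ z hz)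
  have hCη : Cst * η < δ' := by nlinarith
  have hclz := hcl z hz
  have hloz := hlo z hz
  have hhiz := hhi z hz
  rw [hU' z hz, hUj' j z hz]
  refine hgδ _ ⟨⟨?_, ?_⟩, ⟨?_, ?_⟩, ⟨?_, ?_⟩⟩ _ ⟨⟨?_, ?_⟩, ⟨?_, ?_⟩, ⟨?_, ?_⟩⟩ ?_
  · show -(BJ + 1) ≤ stxJ κ n z
    linarith
  · show stxJ κ n z ≤ BJ + 1
    linarith
  · show m / 2 ≤ n z
    rw [hnw z hz]; linarith
  · show n z ≤ ν b + m
    rw [hnw z hz]; linarith
  · show u0 / 2 ≤ u0
    linarith
  · show u0 ≤ u0 + 1
    linarith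
  · show -(BJ + 1) ≤ stxJ κ (stxExt (νj j)) z
    linarith
  · show stxJ κ (stxExt (νj j)) z ≤ BJ + 1
    linarith
  · show m / 2 ≤ stxExt (νj j) z
    rw [hnw z hz] at hclz; linarith
  · show stxExt (νj j) z ≤ ν b + m
    rw [hnw z hz] at hclz; linarith
  · show u0 / 2 ≤ stxU κ (stxExt (νj j)) 0
    linarith
  · show stxU κ (stxExt (νj j)) 0 ≤ u0 + 1
    linarith
  · rw [Prod.dist_eq, Prod.dist_eq]
    refine max_lt ?_ (max_lt ?_ ?_)
    · show dist (stxJ κ n z) (stxJ κ (stxExt (νj j)) z) < δ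
      rw [Real.dist_eq, abs_sub_comm]
      exact lt_of_le_of_lt (hst z hz).2 (hCη.trans_le hd1)
    · show dist (n z) (stxExt (νj j) z) < δ
      rw [hn, stxExt_eq hz, stxExt_eq hz]
      refine lt_of_lt_of_le (hjη z hz) ?_
      nlinarith
    · show dist u0 (stxU κ (stxExt (νj j)) 0) < δ
      rw [Real.dist_eq, abs_sub_comm]
      exact lt_of_le_of_lt (hst 0 h0I).1 (hCη.trans_le hd1)

end Claimed.Open.R278
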