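import Claimed.Open.R278.ACConv
import Claimed.Open.R278.STCont

/-!
# Package AC: Lemma 7.4, `ac_angle_tests_small_of` (= `angle_tests_small` of `Top.lean`, with the two facts of other layers as explicit hypotheses)

`Top.angle_tests_small h hM hU hα hαM := ac_angle_tests_small_of h (weakening of uniform_channels h) (fun t d d' hd hd' => (hd.unique hd').1) hU hα`.

Leaves:
* AC-T1 (`ac_test_mult`, `ac_test_ratio`).  `0 < d_* < 100/D < 0.001` (`TwoCentre.split_lt`, `IsTwoCentreData.lt`, `bigD = 10^200`), open condition.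
  Ratio: `n₀ cos² θ_* = 2 b²` (`ac_ref_cos_sin`, square), `2 b² ≥ c > 0` and `n₀ ≤ C` on the closed ball (continuity of `b`, `e` from `IsOrbital`),
  `|n_j cos² θ_j - n₀ cos² θ_*| ≤ |n_j - n₀| + 2 n₀ |θ_j - θ_*|`.
* AC-T2 (`ac_test_cyl`).  The cylinder `{hrad = M, 0 ≤ z ≤ L}` lies in `closedBall 0 (M + L)`.  `fderiv (θ_j - θ_*) x ez = ⟪∇θ_j x - ∇θ_* x, ez⟫`, `‖ez‖ = 1`.
  `st_continuity` with `ν_j z = n_j (cyl M z)` (uniform convergence on the segment from `DensConv.unif (M + L)`).  Each term `≤ α/8 + α/8`, so the supremum is `≤ ofReal (α/4) < ofReal (α/2)`.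
* glue below: proved.
-/

open MeasureTheory Filter
open scoped ContDiff InnerProductSpace ENNReal Topology

noncomputable section

namespace Claimed.Open.R278

variable {b e : Space → ℝ} {εb εe : ℝ} {nj : ℕ → Space → ℝ} {θj : ℕ → Space → ℝ} {dj : ℕ → ℝ}

/-! ### AC-T1 -/

theorem ac_test_mult (h : TwoCentre b e εb εe) (hd : Tendsto dj atTop (𝓝 (εe - εb))) :
    ∀ᶠ j in atTop, 0 < dj j ∧ dj j < 0.001 := by
  have h1 : 0 < εe - εb := sub_pos.2 h.data.lt
  have h2 : εe - εb < 0.001 := by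
    refine h.split_lt.trans ?_
    have hD : (10 : ℝ) ^ 6 ≤ bigD := by
      unfold bigD
      exact pow_le_pow_right₀ (by norm_num) (by norm_num)
    rw [div_lt_iff₀ (by linarith [pow_pos (by norm_num : (0 : ℝ) < 10) 6])]
    norm_num at hD ⊢
    linarith
  exact hd.eventually (Ioo_mem_nhds h1 h2)

theorem ac_test_ratio (h : TwoCentre b e εb εe) (hc : DensConv nj (refDensity b e)) (R : ℝ)
    (hu : ∀ ε > 0, ∀ᶠ j in atTop, ∀ x ∈ Metric.closedBall (0 : Space) R, |θj j x - refTheta b e x| ≤ ε) :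
    ∀ᶠ j in atTop, ∀ x : Space, ‖x‖ ≤ R →
      1 / 2 ≤ nj j x * Real.cos (θj j x) ^ 2 / (2 * b x ^ 2) ∧
      nj j x * Real.cos (θj j x) ^ 2 / (2 * b x ^ 2) ≤ 2 := by
  rcases lt_or_ge R 0 with hR | hR
  · exact Eventually.of_forall fun j x hx => absurd (norm_nonneg x) (by linarith)
  have hcpt := isCompact_closedBall (0 : Space) R
  have hbc : Continuous b := h.data.orbital_b.1
  obtain ⟨x₀, -, hmin⟩ := hcpt.exists_isMinOn ⟨0, by simpa using hR⟩ hbc.continuousOn
  have hb0 : 0 < b x₀ := h.data.pos_b x₀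
  obtain ⟨C, hC⟩ := hcpt.exists_bound_of_continuousOn hc.basic0.continuous.continuousOn
  have hC0 : 0 ≤ C := (norm_nonneg _).trans (hC 0 (by simpa using hR))
  obtain ⟨c, hcdef⟩ : ∃ c : ℝ, c = 2 * b x₀ ^ 2 := ⟨_, rfl⟩
  have hc0 : 0 < c := by rw [hcdef]; positivity
  obtain ⟨ε, hεdef⟩ : ∃ ε : ℝ, ε = c / (2 * (1 + 2 * C)) := ⟨_, rfl⟩
  have hε : 0 < ε := by rw [hεdef]; positivity
  have hεc : ε * (1 + 2 * C) = c / 2 := by rw [hεdef]; field_simp
  filter_upwards [hu ε hε, Metric.tendstoUniformlyOn_iff.1 (hc.unif R) ε hε] with j h1 h2 x hx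
  have hxm : x ∈ Metric.closedBall (0 : Space) R := by simpa using hx
  have hbx : b x₀ ≤ b x := hmin hxm
  have hcx : c ≤ 2 * b x ^ 2 := by rw [hcdef]; nlinarith
  have href : refDensity b e x * Real.cos (refTheta b e x) ^ 2 = 2 * b x ^ 2 := by
    have h3 := (ac_ref_cos_sin h x).1
    unfold orbG at h3
    have h4 : (√(refDensity b e x) * Real.cos (refTheta b e x)) ^ 2 = (√2 * b x) ^ 2 := by rw [h3]
    rw [mul_pow, mul_pow, Real.sq_sqrt (hc.basic0.pos x).le, Real.sq_sqrt (by norm_num)] at h4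
    exact h4
  have hn0 : refDensity b e x ≤ C := (le_abs_self _).trans (hC x hxm)
  have hn0' : 0 < refDensity b e x := hc.basic0.pos x
  have d1 : |nj j x - refDensity b e x| ≤ ε := by
    have := (h2 x hxm).le
    rwa [Real.dist_eq, abs_sub_comm] at this
  have d2 := h1 x hxm
  have d3 : |Real.cos (θj j x) ^ 2 - Real.cos (refTheta b e x) ^ 2| ≤ 2 * ε := by
    have e1 : Real.cos (θj j x) ^ 2 - Real.cos (refTheta b e x) ^ 2
        = (Real.cos (θj j x) - Real.cos (refTheta b e x)) * (Real.cos (θj j x) + Real.cos (refTheta b e x)) := by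
      ring
    rw [e1, abs_mul]
    have h5 := (Real.abs_cos_sub_cos_le (θj j x) (refTheta b e x)).trans d2
    have h6 : |Real.cos (θj j x) + Real.cos (refTheta b e x)| ≤ 2 := by
      refine (abs_add_le _ _).trans ?_
      have := Real.abs_cos_le_one (θj j x)
      have := Real.abs_cos_le_one (refTheta b e x)
      linarith
    calc _ ≤ ε * 2 := mul_le_mul h5 h6 (abs_nonneg _) hε.le
      _ = 2 * ε := by ring
  have d4 : |nj j x * Real.cos (θj j x) ^ 2 - 2 * b x ^ 2| ≤ c / 2 := by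
    rw [← href, ← hεc]
    have e2 : nj j x * Real.cos (θj j x) ^ 2 - refDensity b e x * Real.cos (refTheta b e x) ^ 2
        = (nj j x - refDensity b e x) * Real.cos (θj j x) ^ 2
          + refDensity b e x * (Real.cos (θj j x) ^ 2 - Real.cos (refTheta b e x) ^ 2) := by ring
    rw [e2]
    refine (abs_add_le _ _).trans ?_
    rw [abs_mul, abs_mul, abs_of_pos hn0', abs_of_nonneg (sq_nonneg (Real.cos (θj j x)))]
    have h7 : Real.cos (θj j x) ^ 2 ≤ 1 := Real.cos_sq_le_one _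
    have t1 : |nj j x - refDensity b e x| * Real.cos (θj j x) ^ 2 ≤ ε * 1 :=
      mul_le_mul d1 h7 (sq_nonneg _) hε.le
    have t2 : refDensity b e x * |Real.cos (θj j x) ^ 2 - Real.cos (refTheta b e x) ^ 2| ≤ C * (2 * ε) :=
      mul_le_mul hn0 d3 (abs_nonneg _) hC0
    nlinarith
  have hpos : 0 < 2 * b x ^ 2 := lt_of_lt_of_le hc0 hcx
  obtain ⟨l1, l2⟩ := abs_le.1 d4
  constructor
  · rw [le_div_iff₀ hpos]; linarith
  · rw [div_le_iff₀ hpos]; linarith

/-! ### AC-T2 -/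

theorem ac_norm_cyl_le (M : ℕ) {z : ℝ} (h0 : 0 ≤ z) (hL : z ≤ stripL) : ‖cyl M z‖ ≤ M + stripL := by
  have h1 : ‖cyl M z‖ ^ 2 = (M : ℝ) ^ 2 + z ^ 2 := by
    rw [norm_sq_space]; simp [cyl]
  have hM : (0 : ℝ) ≤ M := Nat.cast_nonneg M
  refine (abs_le_of_sq_le_sq' ?_ (by linarith)).2
  rw [h1]; nlinarith

theorem ac_continuous_cyl (M : ℕ) : Continuous fun z : ℝ => cyl M z := by
  have : (fun z : ℝ => cyl M z) = fun z => (M : ℝ) • (EuclideanSpace.single 0 1 : Space) + z • ez := by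
    funext z
    apply space_ext <;> simp [cyl, ez]
  rw [this]
  fun_prop

theorem ac_test_cyl (h : TwoCentre b e εb εe) (hc : DensConv nj (refDensity b e)) {M : ℕ} {U₀ U₀' : ℝ → ℝ}
    (hU : IsStripSolution (fun z => refDensity b e (cyl M z)) U₀ U₀') {α : ℝ} (hα : 0 < α)
    (h1 : ∀ j, ContDiff ℝ 1 (θj j)) {Uj Uj' : ℕ → ℝ → ℝ}
    (hUj : ∀ j, IsStripSolution (fun z => nj j (cyl M z)) (Uj j) (Uj' j))
    (hg : ∀ ε > 0, ∀ᶠ j in atTop, ∀ x ∈ Metric.closedBall (0 : Space) (M + stripL),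
      ‖gradient (θj j) x - gradient (refTheta b e) x‖ ≤ ε) :
    ∀ᶠ j in atTop,
      (⨆ x ∈ {x : Space | √(x 0 ^ 2 + x 1 ^ 2) = M ∧ 0 ≤ x 2 ∧ x 2 ≤ stripL},
        ENNReal.ofReal (|fderiv ℝ (fun y => θj j y - refTheta b e y) x ez| + |Uj' j (x 2) - U₀' (x 2)|))
      < ENNReal.ofReal (α / 2) := by
  have hcyl := ac_continuous_cyl M
  have hconv : TendstoUniformlyOn (fun j z => nj j (cyl M z)) (fun z => refDensity b e (cyl M z)) atTop
      (Set.Icc 0 stripL) := by
    rw [Metric.tendstoUniformlyOn_iff]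
    intro ε hε
    filter_upwards [Metric.tendstoUniformlyOn_iff.1 (hc.unif (M + stripL)) ε hε] with j hj z hz
    exact hj (cyl M z) (by simpa using ac_norm_cyl_le M hz.1 hz.2)
  have hst := st_continuity (ν := fun z => refDensity b e (cyl M z)) (νj := fun j z => nj j (cyl M z))
    (hc.basic0.continuous.comp hcyl).continuousOn (fun z _ => hc.basic0.pos _)
    (fun j => ((hc.basic j).continuous.comp hcyl).continuousOn) (fun j z _ => (hc.basic j).pos _) hconv hU hUj
  have hθs : Differentiable ℝ (refTheta b e) := (ac_ref_contDiff h hc.basic0).differentiable (by simp)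
  filter_upwards [hg (α / 8) (by positivity), Metric.tendstoUniformlyOn_iff.1 hst (α / 8) (by positivity)]
    with j g1 g2
  refine lt_of_le_of_lt (iSup₂_le fun x hx => ?_)
    ((ENNReal.ofReal_lt_ofReal_iff (by positivity)).2 (by linarith : α / 4 < α / 2))
  obtain ⟨hx1, hx2, hx3⟩ := hx
  refine ENNReal.ofReal_le_ofReal ?_
  have hxn : ‖x‖ ≤ M + stripL := by
    have e1 : ‖x‖ ^ 2 = (M : ℝ) ^ 2 + x 2 ^ 2 := by
      rw [norm_sq_space, ← hx1, Real.sq_sqrt (by positivity)]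
    have hM : (0 : ℝ) ≤ M := Nat.cast_nonneg M
    refine (abs_le_of_sq_le_sq' ?_ (by linarith)).2
    rw [e1]; nlinarith
  have t1 : |fderiv ℝ (fun y => θj j y - refTheta b e y) x ez| ≤ α / 8 := by
    rw [fderiv_fun_sub ((h1 j).differentiable (by simp) x) (hθs x)]
    have e2 : (fderiv ℝ (θj j) x - fderiv ℝ (refTheta b e) x) ez
        = ⟪gradient (θj j) x - gradient (refTheta b e) x, ez⟫_ℝ := by
      rw [inner_sub_left, inner_gradient_left, inner_gradient_left]; rfl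
    rw [e2]
    refine (abs_real_inner_le_norm _ _).trans ?_
    have hez : ‖ez‖ = 1 := by simp [ez]
    rw [hez, mul_one]
    exact g1 x (by simpa using hxn)
  have t2 : |Uj' j (x 2) - U₀' (x 2)| ≤ α / 8 := by
    have := (g2 (x 2) ⟨hx2, hx3⟩).le
    rwa [Real.dist_eq, abs_sub_comm] at this
  linarith

/-! ### Glue -/

/-- the tests pass along a subsequence. -/
theorem ac_tests_of_conv (h : TwoCentre b e εb εe) (hc : DensConv nj (refDensity b e)) {M : ℕ}
    {U₀ U₀' : ℝ → ℝ} (hU : IsStripSolution (fun z => refDensity b e (cyl M z)) U₀ U₀') {α : ℝ} (hα : 0 < α)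
    (hθ : ∀ j, IsFoldedMinimizer (nj j) (θj j)) (hd : ∀ j, IsMultiplier (nj j) (θj j) (dj j))
    {Uj Uj' : ℕ → ℝ → ℝ} (hUj : ∀ j, IsStripSolution (fun z => nj j (cyl M z)) (Uj j) (Uj' j)) :
    ∃ j, PassesAngleTests b e M α U₀' (nj j) (θj j) (dj j) (Uj' j) := by
  obtain ⟨φ, hφ, hdt, hconv⟩ := ac_subseq h hc hθ hd
  have hc' := hc.comp hφ
  have t1 := ac_test_mult h hdt
  have t2 := ac_test_ratio (θj := fun j => θj (φ j)) h hc' (2 * (100 * M))
    (fun ε hε => (hconv _ ε hε).mono fun j hj x hx => (hj x hx).1)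
  have t3 := ac_test_cyl (θj := fun j => θj (φ j)) (Uj := fun j => Uj (φ j)) (Uj' := fun j => Uj' (φ j))
    h hc' hU hα (fun j => (hθ _).1) (fun j => hUj _)
    (fun ε hε => (hconv _ ε hε).mono fun j hj x hx => (hj x hx).2)
  obtain ⟨j, h1, h2, h3⟩ := (t1.and (t2.and t3)).exists
  exact ⟨φ j, h1, h2, h3⟩

/-- **Lemma 7.4.** -/
theorem ac_angle_tests_small_of (h : TwoCentre b e εb εe)
    (huc : ∃ τ > 0, ∃ dat : ℝ → AuxData,
      (∀ t ∈ Set.Icc 0 τ, IsRegular εb t (dat t) ∧ DensityBasic (dat t).n) ∧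
      (dat 0).n = refDensity b e ∧
      (∀ R : ℝ, TendstoUniformlyOn (fun t => (dat t).n) (refDensity b e) (𝓝[>] 0)
        (Metric.closedBall 0 R)) ∧
      Filter.Tendsto (fun t => ∫ x, |(dat t).n x - refDensity b e x|) (𝓝[>] 0) (𝓝 0) ∧
      (∀ R : ℝ, ∃ C : ℝ≥0∞, C < ⊤ ∧ ∀ t ∈ Set.Icc 0 τ,
        eLpNorm (gradient (dat t).n) 6 (volume.restrict (Metric.ball 0 R)) ≤ C))
    (huniq : ∀ (t : ℝ) (d d' : AuxData), IsRegular εb t d → IsRegular εb t d' → d.n = d'.n)
    {M : ℕ} {U₀ U₀' : ℝ → ℝ}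
    (hU : IsStripSolution (fun z => refDensity b e (cyl M z)) U₀ U₀') {α : ℝ} (hα : 0 < α) :
    ∃ τ > 0, ∀ t ∈ Set.Ioo 0 τ, ∀ (d : AuxData) (θ : Space → ℝ) (dθ : ℝ) (U U' : ℝ → ℝ),
      IsRegular εb t d → IsFoldedMinimizer d.n θ → IsMultiplier d.n θ dθ →
      IsStripSolution (fun z => d.n (cyl M z)) U U' →
      PassesAngleTests b e M α U₀' d.n θ dθ U' := by
  obtain ⟨τ₀, hτ₀, dat, hreg, h0, hunif, hl1, hg6⟩ := huc
  by_contra hcon
  push_neg at hcon
  -- a sequence of counterexamples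
  have hex : ∀ k : ℕ, ∃ t ∈ Set.Ioo (0 : ℝ) (min τ₀ (1 / ((k : ℝ) + 1))),
      ∃ (d : AuxData) (θ : Space → ℝ) (dθ : ℝ) (U U' : ℝ → ℝ),
      IsRegular εb t d ∧ IsFoldedMinimizer d.n θ ∧ IsMultiplier d.n θ dθ ∧
      IsStripSolution (fun z => d.n (cyl M z)) U U' ∧
      ¬ PassesAngleTests b e M α U₀' d.n θ dθ U' := fun k =>
    hcon _ (lt_min hτ₀ (by positivity))
  choose t ht d θ dθ U U' hd hθ hm hUs hfail using hex
  have htpos : ∀ k, 0 < t k := fun k => (ht k).1
  have htτ : ∀ k, t k ∈ Set.Icc 0 τ₀ := fun k =>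
    ⟨(htpos k).le, ((ht k).2.trans_le (min_le_left _ _)).le⟩
  have htend : Tendsto t atTop (𝓝[>] 0) := by
    rw [tendsto_nhdsWithin_iff]
    refine ⟨?_, Eventually.of_forall fun k => htpos k⟩
    refine squeeze_zero (fun k => (htpos k).le)
      (fun k => ((ht k).2.trans_le (min_le_right _ _)).le) ?_
    exact tendsto_one_div_add_atTop_nhds_zero_nat
  have hn : ∀ k, (d k).n = (dat (t k)).n := fun k => huniq _ _ _ (hd k) (hreg _ (htτ k)).1
  have hc : DensConv (fun k => (d k).n) (refDensity b e) :=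
    { basic := fun k => by rw [hn k]; exact (hreg _ (htτ k)).2
      basic0 := by rw [← h0]; exact (hreg 0 ⟨le_rfl, hτ₀.le⟩).2
      unif := fun R => by
        intro u hu
        have := htend.eventually (hunif R u hu)
        refine this.mono fun k hk x hx => ?_
        show (refDensity b e x, (d k).n x) ∈ u
        rw [hn k]; exact hk x hx
      l1 := by
        have := hl1.comp htend
        refine this.congr fun k => ?_
        simp only [Function.comp, hn k]
      grad6 := fun R => by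
        obtain ⟨C, hC, hCt⟩ := hg6 R
        refine ⟨C.toReal, fun k => ?_⟩
        rw [ENNReal.ofReal_toReal hC.ne, hn k]
        exact hCt _ (htτ k) }
  obtain ⟨j, hj⟩ := ac_tests_of_conv h hc hU hα hθ hm hUs
  exact hfail j hj

end Claimed.Open.R278
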