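import Claimed.Open.R278.AGForm

/-!
# Result 278, layer AG, file 2: the exponential weight estimate (Agmon), abstract form

Paper: (3.13)-(3.16) in the proof of Lemma 3.2 (`eq:configuration-weight`, `eq:inhomogeneous-weight`,
`eq:weighted-state-difference`).  ONE theorem, homogeneous and inhomogeneous, all constants chosen before the data.

Setting: `ϱ : X → ℝ` smooth, `ϱ ≥ 0`, `∑_j (∂_j ϱ)² ≤ 1` (for us `ϱ = √(1 + ∑ |x_i|²)`),
`ExtBound`: `q_V ≥ Sg ‖·‖²` on `H¹` pairs vanishing on `{ϱ ≤ R}`, margin `κ ≤ Sg - En - τ²/2`.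

PROOF of `agmon`.  Put `T_M(s) = M s / (M + s)` (`s ≥ 0`; `0 < T_M' ≤ 1`, `T_M ≤ M`, `T_M ↑ s`), `w_M = exp (τ T_M(ϱ))`
(smooth, bounded, `∑_j (∂_j w_M)² ≤ τ² w_M²`), `ϑ = smoothTransition (ϱ - R)` (`= 0` on `ϱ ≤ R`, `= 1` on `ϱ ≥ R+1`,
`∑_j (∂_j ϑ)² ≤ c₀²`, `c₀ = sup |smoothTransition'|`).
Step 1: energy identity with `ξ = ϑ w_M` and `ExtBound`:
  `(Sg - En) ‖ξ f‖² ≤ ½ ∫ |∇ξ|² ‖f‖² + ‖ξ f‖ ‖ξ g‖`, `|∇ξ|² ≤ τ² ξ² + (2 c₀ τ + c₀²) e^{2τ(R+1)} 1_{R ≤ ϱ ≤ R+1}`, so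
  `κ ‖ξ f‖² ≤ C₁ ∫_{ϱ ≤ R+1} ‖f‖² + ‖ξ f‖ ‖e^{τϱ} g‖`, hence `‖ξ f‖² ≤ C₂ (∫_{ϱ ≤ R+1} ‖f‖² + ‖e^{τϱ} g‖²)`.
Step 2: `‖w_M f‖² ≤ ‖ξ f‖² + e^{2τ(R+1)} ∫_{ϱ ≤ R+1} ‖f‖²`.
Step 3: energy identity with `ξ = w_M` and `FormBdd.qform_ge`:
  `¼ ∑ ‖∂_j(w_M f)‖² ≤ (|En| + b + τ²/2) ‖w_M f‖² + ‖w_M f‖ ‖w_M g‖`, and `w_M G_j = ∂_j(w_M f) - (∂_j w_M) f`.
Step 4: `M → ∞`, monotone convergence (`lintegral_iSup` or `integral_tendsto_of_tendsto_of_monotone`).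
-/

open MeasureTheory Filter Topology Set
open scoped ContDiff InnerProductSpace

noncomputable section

set_option linter.unusedSectionVars false

namespace Claimed.Open.R278.AG

variable {X : Type*} [NormedAddCommGroup X] [NormedSpace ℝ X] [FiniteDimensional ℝ X]
  [MeasurableSpace X] [BorelSpace X] {μ : Measure X} [μ.IsAddHaarMeasure]
  {E : Type*} [NormedAddCommGroup E] [InnerProductSpace ℂ E] [CompleteSpace E]
  {ι : Type*} [Fintype ι] {v : ι → X}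

/-- `q_V ≥ Sg ‖·‖²` on the `H¹` pairs which vanish outside `A`. -/
def ExtBound (E : Type*) [NormedAddCommGroup E] [InnerProductSpace ℂ E] [CompleteSpace E]
    (μ : Measure X) (v : ι → X) (V : X → ℝ) (A : Set X) (Sg : ℝ) : Prop :=
  ∀ (f : X → E) (G : ι → X → E), H1 μ v f G → (∀ x, x ∉ A → f x = 0) → Sg * nsq μ f ≤ qform μ V f G

/-- weighted `H¹` bound: `w f, w G_j ∈ L²` and `‖w f‖² + ∑ ‖w G_j‖² ≤ M`. -/
structure WBound (μ : Measure X) (w : X → ℝ) (f : X → E) (G : ι → X → E) (M : ℝ) : Prop where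
  mem : MemLp (fun x => w x • f x) 2 μ
  mem_grad : ∀ j, MemLp (fun x => w x • G j x) 2 μ
  le : h1sq μ (fun x => w x • f x) (fun j x => w x • G j x) ≤ M

/-! ## LEAF AG-A1: the truncated weights -/

section A1

/-- `T_M(s) = M s / (M + s)`. -/
def trunc (M s : ℝ) : ℝ := M * s / (M + s)

theorem trunc_le_self {M s : ℝ} (hM : 0 < M) (hs : 0 ≤ s) : trunc M s ≤ s := by
  unfold trunc
  rw [div_le_iff₀ (by positivity)]
  nlinarith

theorem trunc_le {M s : ℝ} (hM : 0 < M) (hs : 0 ≤ s) : trunc M s ≤ M := by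
  unfold trunc
  rw [div_le_iff₀ (by positivity)]
  nlinarith

theorem trunc_nonneg {M s : ℝ} (hM : 0 < M) (hs : 0 ≤ s) : 0 ≤ trunc M s := by
  unfold trunc
  positivity

theorem trunc_mono {M M' s : ℝ} (hM : 0 < M) (hMM : M ≤ M') (hs : 0 ≤ s) : trunc M s ≤ trunc M' s := by
  unfold trunc
  have hM' : 0 < M' := hM.trans_le hMM
  rw [div_le_div_iff₀ (by positivity) (by positivity)]
  nlinarith [mul_le_mul_of_nonneg_right hMM (sq_nonneg s)]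

theorem trunc_tendsto {s : ℝ} (hs : 0 ≤ s) : Tendsto (fun n : ℕ => trunc ((n : ℝ) + 1) s) atTop (𝓝 s) := by
  have e : ∀ n : ℕ, trunc ((n : ℝ) + 1) s = s - s ^ 2 / ((n : ℝ) + 1 + s) := by
    intro n
    unfold trunc
    have : (n : ℝ) + 1 + s ≠ 0 := by positivity
    field_simp
    ring
  simp only [e]
  have h1 : Tendsto (fun n : ℕ => (n : ℝ) + 1 + s) atTop atTop := by
    simp only [add_assoc]
    exact tendsto_atTop_add_const_right _ _ tendsto_natCast_atTop_atTop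
  have h2 : Tendsto (fun n : ℕ => s ^ 2 / ((n : ℝ) + 1 + s)) atTop (𝓝 0) :=
    tendsto_const_nhds.div_atTop h1
  simpa using tendsto_const_nhds.sub h2

/-- chain rule for `dd`. -/
theorem dd_comp {φ : ℝ → ℝ} {φ' : ℝ} {ϱ : X → ℝ} {x : X} (hφ : HasDerivAt φ φ' (ϱ x))
    (hϱ : DifferentiableAt ℝ ϱ x) (u : X) : dd u (fun y => φ (ϱ y)) x = φ' * dd u ϱ x := by
  have h := (hφ.comp_hasFDerivAt x hϱ.hasFDerivAt).fderiv
  unfold dd
  have e : (fun y => φ (ϱ y)) = φ ∘ ϱ := rfl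
  rw [e, h]
  simp

theorem hasDerivAt_trunc {M s : ℝ} (h : M + s ≠ 0) : HasDerivAt (trunc M) (M ^ 2 / (M + s) ^ 2) s := by
  have h1 := ((hasDerivAt_id s).const_mul M).div ((hasDerivAt_id s).const_add M) h
  have e : (M * 1 * (M + id s) - M * id s * 1) / (M + id s) ^ 2 = M ^ 2 / (M + s) ^ 2 := by
    simp only [id]; ring
  rw [e] at h1
  exact h1

/-- the truncated exponential weight is smooth, bounded, and `∑_j (∂_j w)² ≤ τ² w²`. -/
theorem truncWeight_props {ϱ : X → ℝ} (hϱ : ContDiff ℝ ∞ ϱ) (h0 : ∀ x, 0 ≤ ϱ x)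
    (h1 : ∀ x, ∑ j, dd (v j) ϱ x ^ 2 ≤ 1) {τ M : ℝ} (hτ : 0 ≤ τ) (hM : 0 < M) :
    ContDiff ℝ ∞ (fun x => Real.exp (τ * trunc M (ϱ x))) ∧
    (∀ x, |Real.exp (τ * trunc M (ϱ x))| ≤ Real.exp (τ * M)) ∧
    (∀ x, ∑ j, dd (v j) (fun y => Real.exp (τ * trunc M (ϱ y))) x ^ 2
      ≤ τ ^ 2 * Real.exp (τ * trunc M (ϱ x)) ^ 2) := by
  have hne : ∀ x, M + ϱ x ≠ 0 := fun x => (add_pos_of_pos_of_nonneg hM (h0 x)).ne'
  refine ⟨?_, fun x => ?_, fun x => ?_⟩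
  · unfold trunc
    exact (contDiff_const.mul ((contDiff_const.mul hϱ).div (contDiff_const.add hϱ) hne)).exp
  · rw [abs_of_pos (Real.exp_pos _)]
    exact Real.exp_le_exp.2 (mul_le_mul_of_nonneg_left (trunc_le hM (h0 x)) hτ)
  · have hd : HasDerivAt (fun s => Real.exp (τ * trunc M s))
        (Real.exp (τ * trunc M (ϱ x)) * (τ * (M ^ 2 / (M + ϱ x) ^ 2))) (ϱ x) :=
      ((hasDerivAt_trunc (hne x)).const_mul τ).exp
    have hdiff : DifferentiableAt ℝ ϱ x := (hϱ.differentiable (by simp)) x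
    have e : ∀ j, dd (v j) (fun y => Real.exp (τ * trunc M (ϱ y))) x
        = Real.exp (τ * trunc M (ϱ x)) * (τ * (M ^ 2 / (M + ϱ x) ^ 2)) * dd (v j) ϱ x := fun j =>
      dd_comp hd hdiff (v j)
    simp only [e, mul_pow, ← Finset.mul_sum]
    have hq : (M ^ 2 / (M + ϱ x) ^ 2) ≤ 1 := by
      rw [div_le_one (by have := hne x; positivity)]
      have := h0 x
      nlinarith
    have hq0 : 0 ≤ M ^ 2 / (M + ϱ x) ^ 2 := by positivity
    have hq2 : (M ^ 2 / (M + ϱ x) ^ 2) ^ 2 ≤ 1 := pow_le_one₀ hq0 hq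
    have hS0 : 0 ≤ ∑ j, dd (v j) ϱ x ^ 2 := Finset.sum_nonneg fun _ _ => sq_nonneg _
    have h3 : (M ^ 2 / (M + ϱ x) ^ 2) ^ 2 * ∑ j, dd (v j) ϱ x ^ 2 ≤ 1 := by
      calc _ ≤ 1 * 1 := mul_le_mul hq2 (h1 x) hS0 zero_le_one
        _ = 1 := one_mul 1
    have h4 : 0 ≤ Real.exp (τ * trunc M (ϱ x)) ^ 2 * τ ^ 2 := by positivity
    calc Real.exp (τ * trunc M (ϱ x)) ^ 2 * (τ ^ 2 * (M ^ 2 / (M + ϱ x) ^ 2) ^ 2) * ∑ j, dd (v j) ϱ x ^ 2
        = (Real.exp (τ * trunc M (ϱ x)) ^ 2 * τ ^ 2) * ((M ^ 2 / (M + ϱ x) ^ 2) ^ 2 * ∑ j, dd (v j) ϱ x ^ 2) := by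
          ring
      _ ≤ (Real.exp (τ * trunc M (ϱ x)) ^ 2 * τ ^ 2) * 1 := mul_le_mul_of_nonneg_left h3 h4
      _ = τ ^ 2 * Real.exp (τ * trunc M (ϱ x)) ^ 2 := by ring

theorem deriv_smoothTransition_eq_zero {s : ℝ} (h : s < 0 ∨ 1 < s) : deriv Real.smoothTransition s = 0 := by
  rcases h with h | h
  · have : Real.smoothTransition =ᶠ[𝓝 s] fun _ => 0 := by
      filter_upwards [Iio_mem_nhds h] with y hy
      exact Real.smoothTransition.zero_of_nonpos (le_of_lt hy)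
    rw [this.deriv_eq]; simp
  · have : Real.smoothTransition =ᶠ[𝓝 s] fun _ => 1 := by
      filter_upwards [Ioi_mem_nhds h] with y hy
      exact Real.smoothTransition.one_of_one_le (le_of_lt hy)
    rw [this.deriv_eq]; simp

/-- the derivative of `Real.smoothTransition` is bounded. -/
theorem exists_deriv_smoothTransition_bound : ∃ c₀ : ℝ, 0 ≤ c₀ ∧ ∀ s, |deriv Real.smoothTransition s| ≤ c₀ := by
  have hc : Continuous (deriv Real.smoothTransition) :=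
    (Real.smoothTransition.contDiff (n := 1)).continuous_deriv le_rfl
  obtain ⟨C, hC⟩ := (isCompact_Icc (a := (0 : ℝ)) (b := 1)).exists_bound_of_continuousOn hc.continuousOn
  refine ⟨max C 0, le_max_right _ _, fun s => ?_⟩
  by_cases hs : s ∈ Icc (0 : ℝ) 1
  · exact (hC s hs).trans (le_max_left _ _)
  · have : s < 0 ∨ 1 < s := by
      by_contra hcon
      rw [not_or, not_lt, not_lt] at hcon
      exact hs ⟨hcon.1, hcon.2⟩
    rw [deriv_smoothTransition_eq_zero this, abs_zero]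
    exact le_max_right _ _

/-- the exterior cutoff `ϑ = smoothTransition (ϱ - R)`. -/
theorem extCut_props : ∃ c₀ : ℝ, 0 ≤ c₀ ∧ ∀ (ϱ : X → ℝ), ContDiff ℝ ∞ ϱ → (∀ x, ∑ j, dd (v j) ϱ x ^ 2 ≤ 1) →
    ∀ R : ℝ, ContDiff ℝ ∞ (fun x => Real.smoothTransition (ϱ x - R)) ∧
      (∀ x, ϱ x ≤ R → Real.smoothTransition (ϱ x - R) = 0) ∧
      (∀ x, R + 1 ≤ ϱ x → Real.smoothTransition (ϱ x - R) = 1) ∧
      (∀ x, 0 ≤ Real.smoothTransition (ϱ x - R) ∧ Real.smoothTransition (ϱ x - R) ≤ 1) ∧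
      (∀ x, ∑ j, dd (v j) (fun y => Real.smoothTransition (ϱ y - R)) x ^ 2 ≤ c₀ ^ 2) ∧
      (∀ x, (ϱ x < R ∨ R + 1 < ϱ x) → ∀ j, dd (v j) (fun y => Real.smoothTransition (ϱ y - R)) x = 0) := by
  obtain ⟨c₀, hc0, hc⟩ := exists_deriv_smoothTransition_bound
  refine ⟨c₀, hc0, fun ϱ hϱ h1 R => ?_⟩
  have e : ∀ x j, dd (v j) (fun y => Real.smoothTransition (ϱ y - R)) x
      = deriv Real.smoothTransition (ϱ x - R) * dd (v j) ϱ x := by
    intro x j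
    have hd : HasDerivAt (fun s => Real.smoothTransition (s - R)) (deriv Real.smoothTransition (ϱ x - R)) (ϱ x) := by
      have h2 : HasDerivAt Real.smoothTransition (deriv Real.smoothTransition (ϱ x - R)) (ϱ x - R) :=
        ((Real.smoothTransition.contDiff (n := 1)).differentiable (by simp) _).hasDerivAt
      simpa using h2.comp_sub_const (ϱ x) R
    exact dd_comp hd ((hϱ.differentiable (by simp)) x) (v j)
  refine ⟨Real.smoothTransition.contDiff.comp (hϱ.sub contDiff_const), fun x hx => ?_, fun x hx => ?_, fun x => ?_,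
    fun x => ?_, fun x hx j => ?_⟩
  · exact Real.smoothTransition.zero_of_nonpos (by linarith)
  · exact Real.smoothTransition.one_of_one_le (by linarith)
  · exact ⟨Real.smoothTransition.nonneg _, Real.smoothTransition.le_one _⟩
  · simp only [e, mul_pow, ← Finset.mul_sum]
    have h2 : deriv Real.smoothTransition (ϱ x - R) ^ 2 ≤ c₀ ^ 2 := sq_le_sq' (by
      have := hc (ϱ x - R); have := neg_abs_le (deriv Real.smoothTransition (ϱ x - R)); linarith) (by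
      have := hc (ϱ x - R); have := le_abs_self (deriv Real.smoothTransition (ϱ x - R)); linarith)
    calc _ ≤ c₀ ^ 2 * 1 := mul_le_mul h2 (h1 x) (Finset.sum_nonneg fun _ _ => sq_nonneg _) (sq_nonneg _)
      _ = c₀ ^ 2 := mul_one _
  · rw [e, deriv_smoothTransition_eq_zero (by rcases hx with h | h; exact Or.inl (by linarith); exact Or.inr (by linarith)),
      zero_mul]

end A1

/-! ## LEAF AG-A2: the estimate with a bounded weight -/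

section A2

theorem dd_mul {a c : X → ℝ} {x : X} (ha : DifferentiableAt ℝ a x) (hc : DifferentiableAt ℝ c x) (u : X) :
    dd u (fun y => a y * c y) x = a x * dd u c x + c x * dd u a x := by
  unfold dd
  rw [fderiv_fun_mul ha hc]
  simp

theorem norm_sq_real_smul (r : ℝ) (a : E) : ‖r • a‖ ^ 2 = r ^ 2 * ‖a‖ ^ 2 := by
  rw [norm_smul, mul_pow, Real.norm_eq_abs, sq_abs]

theorem integrable_sq_mul {m : X → ℝ} (hc : Continuous m) {B : ℝ} (hb : ∀ x, |m x| ≤ B) {f : X → E}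
    (hf : MemLp f 2 μ) : Integrable (fun x => m x ^ 2 * ‖f x‖ ^ 2) μ := by
  have := integrable_norm_sq (memLp_smul_of_bdd hc hb hf)
  simpa only [norm_sq_real_smul] using this

/-- the gradient term of the energy identity is controlled by a pointwise bound. -/
theorem sum_integral_dd_le {ξ : X → ℝ} (hξ : ContDiff ℝ ∞ ξ) {B : ℝ} (h1 : ∀ j x, |dd (v j) ξ x| ≤ B) {f : X → E}
    (hf : MemLp f 2 μ) {F : X → ℝ} (hF : Integrable F μ)
    (hle : ∀ x, (∑ j, dd (v j) ξ x ^ 2) * ‖f x‖ ^ 2 ≤ F x) :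
    ∑ j, ∫ x, dd (v j) ξ x ^ 2 * ‖f x‖ ^ 2 ∂μ ≤ ∫ x, F x ∂μ := by
  have hi : ∀ j, Integrable (fun x => dd (v j) ξ x ^ 2 * ‖f x‖ ^ 2) μ := fun j =>
    integrable_sq_mul (contDiff_dd hξ (v j)).continuous (h1 j) hf
  rw [← integral_finsetSum _ fun j _ => hi j]
  refine integral_mono (integrable_finsetSum _ fun j _ => hi j) hF fun x => ?_
  simp only [← Finset.sum_mul]
  exact hle x

/-- the source term of the energy identity. -/
theorem integral_sq_re_inner_le {ξ W : X → ℝ} (hξc : Continuous ξ) {B : ℝ} (hξb : ∀ x, |ξ x| ≤ B)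
    (hξW : ∀ x, |ξ x| ≤ W x) {f g : X → E} (hf : MemLp f 2 μ) (hg : MemLp g 2 μ)
    (hWg : MemLp (fun x => W x • g x) 2 μ) {ε : ℝ} (hε : 0 < ε) :
    ∫ x, ξ x ^ 2 * (⟪f x, g x⟫_ℂ).re ∂μ
      ≤ ε / 2 * nsq μ (fun x => ξ x • f x) + 1 / (2 * ε) * nsq μ (fun x => W x • g x) := by
  have m1 := memLp_smul_of_bdd hξc hξb hf
  have m2 := memLp_smul_of_bdd hξc hξb hg
  have hi : Integrable (fun x => ξ x ^ 2 * (⟪f x, g x⟫_ℂ).re) μ := by
    have h := (integrable_inner' m1 m2).re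
    refine h.congr (Eventually.of_forall fun x => ?_)
    simp only [inner_real_smul_left, inner_real_smul_right, RCLike.re_eq_complex_re, Complex.re_ofReal_mul]
    ring
  unfold nsq
  rw [← integral_const_mul, ← integral_const_mul,
    ← integral_add ((integrable_norm_sq m1).const_mul _) ((integrable_norm_sq hWg).const_mul _)]
  refine integral_mono hi (((integrable_norm_sq m1).const_mul _).add ((integrable_norm_sq hWg).const_mul _))
    fun x => ?_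
  simp only [norm_sq_real_smul]
  have h1 : (⟪f x, g x⟫_ℂ).re ≤ ‖f x‖ * ‖g x‖ :=
    (Complex.re_le_norm _).trans (norm_inner_le_norm _ _)
  have h2 : ξ x ^ 2 ≤ W x ^ 2 := by
    rw [← sq_abs (ξ x)]
    exact pow_le_pow_left₀ (abs_nonneg _) (hξW x) 2
  have h3 : ξ x ^ 2 * (⟪f x, g x⟫_ℂ).re ≤ ξ x ^ 2 * (‖f x‖ * ‖g x‖) :=
    mul_le_mul_of_nonneg_left h1 (sq_nonneg _)
  have h4 : ‖f x‖ * ‖g x‖ ≤ ε / 2 * ‖f x‖ ^ 2 + 1 / (2 * ε) * ‖g x‖ ^ 2 := by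
    have h5 : 0 ≤ (ε * ‖f x‖ - ‖g x‖) ^ 2 / (2 * ε) := by positivity
    have h6 : (ε * ‖f x‖ - ‖g x‖) ^ 2 / (2 * ε)
        = ε / 2 * ‖f x‖ ^ 2 + 1 / (2 * ε) * ‖g x‖ ^ 2 - ‖f x‖ * ‖g x‖ := by
      field_simp
      ring
    linarith
  have h7 : ξ x ^ 2 * (‖f x‖ * ‖g x‖) ≤ ξ x ^ 2 * (ε / 2 * ‖f x‖ ^ 2 + 1 / (2 * ε) * ‖g x‖ ^ 2) :=
    mul_le_mul_of_nonneg_left h4 (sq_nonneg _)
  have h8 : ξ x ^ 2 * (1 / (2 * ε) * ‖g x‖ ^ 2) ≤ W x ^ 2 * (1 / (2 * ε) * ‖g x‖ ^ 2) :=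
    mul_le_mul_of_nonneg_right h2 (by positivity)
  calc ξ x ^ 2 * (⟪f x, g x⟫_ℂ).re ≤ ξ x ^ 2 * (ε / 2 * ‖f x‖ ^ 2 + 1 / (2 * ε) * ‖g x‖ ^ 2) := h3.trans h7
    _ = ε / 2 * (ξ x ^ 2 * ‖f x‖ ^ 2) + ξ x ^ 2 * (1 / (2 * ε) * ‖g x‖ ^ 2) := by ring
    _ ≤ ε / 2 * (ξ x ^ 2 * ‖f x‖ ^ 2) + W x ^ 2 * (1 / (2 * ε) * ‖g x‖ ^ 2) := by linarith
    _ = ε / 2 * (ξ x ^ 2 * ‖f x‖ ^ 2) + 1 / (2 * ε) * (W x ^ 2 * ‖g x‖ ^ 2) := by ring

theorem abs_le_one_add_sum_sq {α : Type*} [Fintype α] (a : α → ℝ) (j : α) : |a j| ≤ 1 + ∑ i, a i ^ 2 := by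
  have h1 : a j ^ 2 ≤ ∑ i, a i ^ 2 :=
    Finset.single_le_sum (f := fun i => a i ^ 2) (fun _ _ => sq_nonneg _) (Finset.mem_univ j)
  have h2 : |a j| ≤ 1 + a j ^ 2 := by
    rw [← sq_abs (a j)]
    nlinarith [sq_nonneg (|a j| - 1), abs_nonneg (a j)]
  linarith

set_option maxHeartbeats 1000000 in

/-- the abstract core of the Agmon estimate: a bounded weight `w ≤ W`, a cutoff `θ`. -/
theorem agmon_core {τ κ b Emax c₀ e1 : ℝ} (hκ : 0 < κ) (he1 : 0 ≤ e1)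
    {w θ W V : X → ℝ} {A Z : Set X} {Bw En Sg : ℝ} {f g : X → E} {G : ι → X → E}
    (hw_s : ContDiff ℝ ∞ w) (hw0 : ∀ x, 0 ≤ w x) (hwB : ∀ x, w x ≤ Bw)
    (hw_d : ∀ x, ∑ j, dd (v j) w x ^ 2 ≤ τ ^ 2 * w x ^ 2) (hwW : ∀ x, w x ≤ W x)
    (hθ_s : ContDiff ℝ ∞ θ) (hθ_m : ∀ x, 0 ≤ θ x ∧ θ x ≤ 1) (hθ_d : ∀ x, ∑ j, dd (v j) θ x ^ 2 ≤ c₀ ^ 2)
    (hA : MeasurableSet A) (hAw : ∀ x ∈ A, w x ^ 2 ≤ e1)
    (hAθ : ∀ x, x ∉ A → θ x = 1 ∧ ∀ j, dd (v j) θ x = 0) (hZ : ∀ x, x ∉ Z → θ x = 0)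
    (hV : FormBdd E μ v V (1 / 4) b) (hext : ExtBound E μ v V Z Sg) (hmargin : κ ≤ Sg - En - τ ^ 2 / 2)
    (hEn : |En| ≤ Emax) (hf : H1 μ v f G) (hg : MemLp g 2 μ) (hs : IsWeakSol μ v V En f G g)
    (hWg : MemLp (fun x => W x • g x) 2 μ) :
    h1sq μ (fun x => w x • f x) (fun j x => w x • G j x)
      ≤ ((1 + 2 * τ ^ 2 + 8 * (|b| + Emax + τ ^ 2 / 2 + 1 / 2)) * ((τ ^ 2 + 2 * c₀ ^ 2) * e1 / κ + e1 + 1 / κ ^ 2) + 4)
        * (nsq μ (fun x => W x • g x) + ∫ x in A, ‖f x‖ ^ 2 ∂μ) := by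
  have hBw0 : 0 ≤ Bw := (hw0 0).trans (hwB 0)
  have hwabs : ∀ x, |w x| ≤ Bw := fun x => by rw [abs_of_nonneg (hw0 x)]; exact hwB x
  have hdw : ∀ x, DifferentiableAt ℝ w x := fun x => (hw_s.differentiable (by simp)) x
  have hdθ : ∀ x, DifferentiableAt ℝ θ x := fun x => (hθ_s.differentiable (by simp)) x
  have hw2 : ∀ x, w x ^ 2 ≤ Bw ^ 2 := fun x => pow_le_pow_left₀ (hw0 x) (hwB x) 2
  -- the multiplier `ξ = θ w`
  have hξ_s : ContDiff ℝ ∞ (fun x => θ x * w x) := hθ_s.mul hw_s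
  have hξ0 : ∀ x, 0 ≤ θ x * w x := fun x => mul_nonneg (hθ_m x).1 (hw0 x)
  have hξw : ∀ x, θ x * w x ≤ w x := fun x => by
    have := mul_le_mul_of_nonneg_right (hθ_m x).2 (hw0 x); linarith
  have hξabs : ∀ x, |θ x * w x| ≤ Bw := fun x => by
    rw [abs_of_nonneg (hξ0 x)]; exact (hξw x).trans (hwB x)
  have hddξ : ∀ j x, dd (v j) (fun y => θ y * w y) x = θ x * dd (v j) w x + w x * dd (v j) θ x := fun j x =>
    dd_mul (hdθ x) (hdw x) (v j)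
  set D₁ : ℝ := (τ ^ 2 + 2 * c₀ ^ 2) * e1 with hD₁
  have hD₁0 : 0 ≤ D₁ := by positivity
  have P1 : ∀ x, ∑ j, dd (v j) (fun y => θ y * w y) x ^ 2
      ≤ τ ^ 2 * (θ x * w x) ^ 2 + D₁ * A.indicator (fun _ => (1 : ℝ)) x := by
    intro x
    by_cases hx : x ∈ A
    · rw [indicator_of_mem hx, mul_one]
      have h1 : ∑ j, dd (v j) (fun y => θ y * w y) x ^ 2
          ≤ ∑ j, (2 * θ x ^ 2 * dd (v j) w x ^ 2 + 2 * w x ^ 2 * dd (v j) θ x ^ 2) := by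
        refine Finset.sum_le_sum fun j _ => ?_
        rw [hddξ]
        nlinarith [sq_nonneg (θ x * dd (v j) w x - w x * dd (v j) θ x)]
      rw [Finset.sum_add_distrib, ← Finset.mul_sum, ← Finset.mul_sum] at h1
      have h2 : 2 * θ x ^ 2 * ∑ j, dd (v j) w x ^ 2 ≤ 2 * θ x ^ 2 * (τ ^ 2 * w x ^ 2) :=
        mul_le_mul_of_nonneg_left (hw_d x) (by positivity)
      have h3 : 2 * w x ^ 2 * ∑ j, dd (v j) θ x ^ 2 ≤ 2 * w x ^ 2 * c₀ ^ 2 :=
        mul_le_mul_of_nonneg_left (hθ_d x) (by positivity)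
      have h4 : θ x ^ 2 ≤ 1 := pow_le_one₀ (hθ_m x).1 (hθ_m x).2
      have h5 : (τ ^ 2 + 2 * c₀ ^ 2) * w x ^ 2 ≤ D₁ := mul_le_mul_of_nonneg_left (hAw x hx) (by positivity)
      have h6 : θ x ^ 2 * (τ ^ 2 * w x ^ 2) ≤ 1 * (τ ^ 2 * w x ^ 2) :=
        mul_le_mul_of_nonneg_right h4 (by positivity)
      linarith
    · rw [indicator_of_notMem hx, mul_zero, add_zero]
      obtain ⟨h1, h2⟩ := hAθ x hx
      simp only [hddξ, h1, h2, mul_zero, add_zero, one_mul]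
      exact hw_d x
  have hind : ∀ x, A.indicator (fun _ => (1 : ℝ)) x ≤ 1 := fun x => by
    by_cases hx : x ∈ A
    · rw [indicator_of_mem hx]
    · rw [indicator_of_notMem hx]; exact zero_le_one
  set Bξ : ℝ := Bw + (1 + (τ ^ 2 * Bw ^ 2 + D₁)) with hBξ
  have hξ1 : ∀ j x, |dd (v j) (fun y => θ y * w y) x| ≤ Bξ := by
    intro j x
    have h1 := abs_le_one_add_sum_sq (fun j => dd (v j) (fun y => θ y * w y) x) j
    have h2 := P1 x
    have h3 : (θ x * w x) ^ 2 ≤ Bw ^ 2 := pow_le_pow_left₀ (hξ0 x) ((hξw x).trans (hwB x)) 2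
    have h4 : τ ^ 2 * (θ x * w x) ^ 2 ≤ τ ^ 2 * Bw ^ 2 := mul_le_mul_of_nonneg_left h3 (sq_nonneg _)
    have h5 : D₁ * A.indicator (fun _ => (1 : ℝ)) x ≤ D₁ * 1 := mul_le_mul_of_nonneg_left (hind x) hD₁0
    linarith
  have hξ0' : ∀ x, |θ x * w x| ≤ Bξ := fun x => (hξabs x).trans (by
    have : 0 ≤ τ ^ 2 * Bw ^ 2 := by positivity
    linarith)
  have hw1 : ∀ j x, |dd (v j) w x| ≤ Bξ := by
    intro j x
    have h1 := abs_le_one_add_sum_sq (fun j => dd (v j) w x) j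
    have h2 := hw_d x
    have h4 : τ ^ 2 * w x ^ 2 ≤ τ ^ 2 * Bw ^ 2 := mul_le_mul_of_nonneg_left (hw2 x) (sq_nonneg _)
    linarith
  have hw0' : ∀ x, |w x| ≤ Bξ := fun x => (hwabs x).trans (by
    have : 0 ≤ τ ^ 2 * Bw ^ 2 := by positivity
    linarith)
  -- abbreviations
  set Nξ : ℝ := nsq μ (fun x => (θ x * w x) • f x) with hNξ
  set Nw : ℝ := nsq μ (fun x => w x • f x) with hNw
  set Ng : ℝ := nsq μ (fun x => W x • g x) with hNg
  set I : ℝ := ∫ x in A, ‖f x‖ ^ 2 ∂μ with hI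
  have hNξ0 : 0 ≤ Nξ := nsq_nonneg _
  have hNw0 : 0 ≤ Nw := nsq_nonneg _
  have hNg0 : 0 ≤ Ng := nsq_nonneg _
  have hI0 : 0 ≤ I := integral_nonneg fun _ => sq_nonneg _
  have mξ : MemLp (fun x => (θ x * w x) • f x) 2 μ := memLp_smul_of_bdd hξ_s.continuous hξabs hf.mem
  have mw : MemLp (fun x => w x • f x) 2 μ := memLp_smul_of_bdd hw_s.continuous hwabs hf.mem
  have iInd : Integrable (A.indicator fun x => ‖f x‖ ^ 2) μ := (integrable_norm_sq hf.mem).indicator hA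
  have hIeq : ∫ x, A.indicator (fun x => ‖f x‖ ^ 2) x ∂μ = I := integral_indicator hA
  -- Step 1
  have S1 : ∑ j, ∫ x, dd (v j) (fun y => θ y * w y) x ^ 2 * ‖f x‖ ^ 2 ∂μ ≤ τ ^ 2 * Nξ + D₁ * I := by
    have hF : Integrable (fun x => τ ^ 2 * ‖(θ x * w x) • f x‖ ^ 2 + D₁ * A.indicator (fun x => ‖f x‖ ^ 2) x) μ :=
      ((integrable_norm_sq mξ).const_mul _).add (iInd.const_mul _)
    refine (sum_integral_dd_le hξ_s hξ1 hf.mem hF fun x => ?_).trans (le_of_eq ?_)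
    · have h1 := mul_le_mul_of_nonneg_right (P1 x) (sq_nonneg ‖f x‖)
      refine h1.trans (le_of_eq ?_)
      rw [norm_sq_real_smul]
      by_cases hx : x ∈ A
      · simp only [indicator_of_mem hx]; ring
      · simp only [indicator_of_notMem hx]; ring
    · rw [integral_add ((integrable_norm_sq mξ).const_mul _) (iInd.const_mul _), integral_const_mul,
        integral_const_mul, hIeq]
      rfl
  have S2 : ∫ x, (θ x * w x) ^ 2 * (⟪f x, g x⟫_ℂ).re ∂μ ≤ κ / 2 * Nξ + 1 / (2 * κ) * Ng :=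
    integral_sq_re_inner_le hξ_s.continuous hξabs
      (fun x => by rw [abs_of_nonneg (hξ0 x)]; exact (hξw x).trans (hwW x)) hf.mem hg hWg hκ
  have E1 := hs.energy_identity hV hf hg hξ_s hξ0' hξ1 (subset_univ _)
  have X1 : Sg * Nξ ≤ qform μ V (fun x => (θ x * w x) • f x) (mulGrad v (fun x => θ x * w x) f G) :=
    hext _ _ (hf.mul hξ_s hξ0' hξ1) (fun x hx => by simp only [hZ x hx, zero_mul, zero_smul])
  have R1 : Nξ ≤ D₁ / κ * I + 1 / κ ^ 2 * Ng := by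
    have h1 : κ * Nξ ≤ (Sg - En - τ ^ 2 / 2) * Nξ := mul_le_mul_of_nonneg_right hmargin hNξ0
    have h2 : κ / 2 * Nξ ≤ D₁ / 2 * I + 1 / (2 * κ) * Ng := by linarith
    have h3 : Nξ = (κ / 2 * Nξ) * (2 / κ) := by field_simp
    rw [h3]
    calc κ / 2 * Nξ * (2 / κ) ≤ (D₁ / 2 * I + 1 / (2 * κ) * Ng) * (2 / κ) :=
          mul_le_mul_of_nonneg_right h2 (by positivity)
      _ = D₁ / κ * I + 1 / κ ^ 2 * Ng := by field_simp
  -- Step 2
  have S3 : Nw ≤ Nξ + e1 * I := by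
    rw [← hIeq, ← integral_const_mul]
    simp only [hNw, hNξ, nsq]
    rw [← integral_add (integrable_norm_sq mξ) (iInd.const_mul _)]
    refine integral_mono (integrable_norm_sq mw) ((integrable_norm_sq mξ).add (iInd.const_mul _)) fun x => ?_
    simp only [norm_sq_real_smul]
    by_cases hx : x ∈ A
    · rw [indicator_of_mem hx]
      have h1 := mul_le_mul_of_nonneg_right (hAw x hx) (sq_nonneg ‖f x‖)
      have h2 : 0 ≤ (θ x * w x) ^ 2 * ‖f x‖ ^ 2 := by positivity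
      linarith
    · rw [indicator_of_notMem hx, (hAθ x hx).1]
      simp
  -- Step 3
  have S1' : ∑ j, ∫ x, dd (v j) w x ^ 2 * ‖f x‖ ^ 2 ∂μ ≤ τ ^ 2 * Nw := by
    have hF : Integrable (fun x => τ ^ 2 * ‖w x • f x‖ ^ 2) μ := (integrable_norm_sq mw).const_mul _
    refine (sum_integral_dd_le hw_s hw1 hf.mem hF fun x => ?_).trans (le_of_eq ?_)
    · have h1 := mul_le_mul_of_nonneg_right (hw_d x) (sq_nonneg ‖f x‖)
      refine h1.trans (le_of_eq ?_)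
      rw [norm_sq_real_smul]; ring
    · rw [integral_const_mul]
      rfl
  have S2' : ∫ x, w x ^ 2 * (⟪f x, g x⟫_ℂ).re ∂μ ≤ 1 / 2 * Nw + 1 / (2 * 1) * Ng :=
    integral_sq_re_inner_le hw_s.continuous hwabs
      (fun x => by rw [abs_of_nonneg (hw0 x)]; exact hwW x) hf.mem hg hWg one_pos
  have E2 := hs.energy_identity hV hf hg hw_s hw0' hw1 (subset_univ _)
  have hH : H1 μ v (fun x => w x • f x) (mulGrad v w f G) := hf.mul hw_s hw0' hw1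
  have Q2 := hV.qform_ge hH
  have hEn1 : En ≤ Emax := (le_abs_self En).trans hEn
  have hb1 : b ≤ |b| := le_abs_self b
  have R2 : ∑ j, nsq μ (mulGrad v w f G j) ≤ 4 * ((|b| + Emax + τ ^ 2 / 2 + 1 / 2) * Nw) + 2 * Ng := by
    have h1 : En * Nw ≤ Emax * Nw := mul_le_mul_of_nonneg_right hEn1 hNw0
    have h2 : b * Nw ≤ |b| * Nw := mul_le_mul_of_nonneg_right hb1 hNw0
    linarith
  have m2 : ∀ j, MemLp (fun x => dd (v j) w x • f x) 2 μ := fun j =>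
    memLp_smul_of_bdd (contDiff_dd hw_s (v j)).continuous (hw1 j) hf.mem
  have S4 : ∑ j, nsq μ (fun x => w x • G j x) ≤ 2 * ∑ j, nsq μ (mulGrad v w f G j) + 2 * (τ ^ 2 * Nw) := by
    have h1 : ∀ j, nsq μ (fun x => w x • G j x)
        ≤ 2 * nsq μ (mulGrad v w f G j) + 2 * ∫ x, dd (v j) w x ^ 2 * ‖f x‖ ^ 2 ∂μ := by
      intro j
      have h2 := nsq_sub_le (hH.wd j).memg (m2 j)
      have e1 : (fun x => mulGrad v w f G j x - dd (v j) w x • f x) = fun x => w x • G j x := by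
        funext x; simp [mulGrad]
      have e2 : nsq μ (fun x => dd (v j) w x • f x) = ∫ x, dd (v j) w x ^ 2 * ‖f x‖ ^ 2 ∂μ := by
        unfold nsq; simp only [norm_sq_real_smul]
      rw [e1, e2] at h2
      exact h2
    calc ∑ j, nsq μ (fun x => w x • G j x)
        ≤ ∑ j, (2 * nsq μ (mulGrad v w f G j) + 2 * ∫ x, dd (v j) w x ^ 2 * ‖f x‖ ^ 2 ∂μ) :=
          Finset.sum_le_sum fun j _ => h1 j
      _ = 2 * ∑ j, nsq μ (mulGrad v w f G j) + 2 * ∑ j, ∫ x, dd (v j) w x ^ 2 * ‖f x‖ ^ 2 ∂μ := by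
          rw [Finset.sum_add_distrib, Finset.mul_sum, Finset.mul_sum]
      _ ≤ _ := by linarith
  -- conclusion
  set D₂ : ℝ := 1 + 2 * τ ^ 2 + 8 * (|b| + Emax + τ ^ 2 / 2 + 1 / 2) with hD₂
  have hEmax0 : 0 ≤ Emax := (abs_nonneg En).trans hEn
  have hD₂0 : 0 ≤ D₂ := by positivity
  have F1 : h1sq μ (fun x => w x • f x) (fun j x => w x • G j x) ≤ D₂ * Nw + 4 * Ng := by
    unfold h1sq
    rw [hD₂]
    linarith
  have F2 : Nw ≤ (D₁ / κ + e1) * I + 1 / κ ^ 2 * Ng := by linarith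
  have F3 : D₂ * Nw ≤ D₂ * ((D₁ / κ + e1) * I + 1 / κ ^ 2 * Ng) := mul_le_mul_of_nonneg_left F2 hD₂0
  have hq1 : 0 ≤ D₁ / κ := by positivity
  have hq2 : 0 ≤ 1 / κ ^ 2 := by positivity
  have F4 : (D₁ / κ + e1) * I + 1 / κ ^ 2 * Ng ≤ (D₁ / κ + e1 + 1 / κ ^ 2) * (Ng + I) := by
    linarith [mul_nonneg hq1 hNg0, mul_nonneg he1 hNg0, mul_nonneg hq2 hI0]
  have F5 : D₂ * ((D₁ / κ + e1) * I + 1 / κ ^ 2 * Ng) ≤ D₂ * ((D₁ / κ + e1 + 1 / κ ^ 2) * (Ng + I)) :=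
    mul_le_mul_of_nonneg_left F4 hD₂0
  calc h1sq μ (fun x => w x • f x) (fun j x => w x • G j x) ≤ D₂ * Nw + 4 * Ng := F1
    _ ≤ D₂ * ((D₁ / κ + e1 + 1 / κ ^ 2) * (Ng + I)) + 4 * (Ng + I) := by linarith
    _ = (D₂ * (D₁ / κ + e1 + 1 / κ ^ 2) + 4) * (Ng + I) := by ring

/-- a function with `e^{τϱ} g ∈ L²` (`τ, ϱ ≥ 0`) is in `L²`. -/
theorem memLp_of_exp_smul {ϱ : X → ℝ} (hϱ : Continuous ϱ) (h0 : ∀ x, 0 ≤ ϱ x) {τ : ℝ} (hτ : 0 ≤ τ) {g : X → E}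
    (hg : MemLp (fun x => Real.exp (τ * ϱ x) • g x) 2 μ) : MemLp g 2 μ := by
  have h := memLp_smul_of_bdd (η := fun x => Real.exp (-(τ * ϱ x))) (B := 1)
    (Real.continuous_exp.comp (continuous_const.mul hϱ).neg) (fun x => by
      rw [abs_of_pos (Real.exp_pos _)]
      exact Real.exp_le_one_iff.2 (neg_nonpos.2 (mul_nonneg hτ (h0 x)))) hg
  have e : (fun x => Real.exp (-(τ * ϱ x)) • (Real.exp (τ * ϱ x) • g x)) = g := by
    funext x
    rw [smul_smul, ← Real.exp_add, neg_add_cancel, Real.exp_zero, one_smul]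
  rwa [e] at h

/-- Steps 1-3 of the proof in the header, for the bounded weights `w_M`; the constant does not depend on `M`. -/
theorem agmon_trunc (τ κ b R Emax : ℝ) (hτ : 0 ≤ τ) (hκ : 0 < κ) :
    ∃ C : ℝ, 0 ≤ C ∧ ∀ (ϱ V : X → ℝ) (En Sg : ℝ) (f g : X → E) (G : ι → X → E) (M : ℝ),
      ContDiff ℝ ∞ ϱ → (∀ x, 0 ≤ ϱ x) → (∀ x, ∑ j, dd (v j) ϱ x ^ 2 ≤ 1) →
      FormBdd E μ v V (1 / 4) b → ExtBound E μ v V {x | R < ϱ x} Sg →
      κ ≤ Sg - En - τ ^ 2 / 2 → |En| ≤ Emax →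
      H1 μ v f G → IsWeakSol μ v V En f G g → MemLp (fun x => Real.exp (τ * ϱ x) • g x) 2 μ → 0 < M →
      h1sq μ (fun x => Real.exp (τ * trunc M (ϱ x)) • f x) (fun j x => Real.exp (τ * trunc M (ϱ x)) • G j x)
        ≤ C * (nsq μ (fun x => Real.exp (τ * ϱ x) • g x) + ∫ x in {x | ϱ x ≤ R + 1}, ‖f x‖ ^ 2 ∂μ) := by
  obtain ⟨c₀, hc0, hcut⟩ := extCut_props (v := v)
  refine ⟨(1 + 2 * τ ^ 2 + 8 * (|b| + |Emax| + τ ^ 2 / 2 + 1 / 2))
    * ((τ ^ 2 + 2 * c₀ ^ 2) * (Real.exp (τ * (R + 1)) ^ 2) / κ + Real.exp (τ * (R + 1)) ^ 2 + 1 / κ ^ 2) + 4,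
    by positivity, ?_⟩
  intro ϱ V En Sg f g G M hϱ h0 h1 hV hext hmargin hEn hf hs hgw hM
  obtain ⟨hw_s, hw_b, hw_d⟩ := truncWeight_props (v := v) hϱ h0 h1 hτ hM
  obtain ⟨hθ_s, hθ_0, hθ_1, hθ_m, hθ_d, hθ_z⟩ := hcut ϱ hϱ h1 R
  have hwW : ∀ x, Real.exp (τ * trunc M (ϱ x)) ≤ Real.exp (τ * ϱ x) := fun x =>
    Real.exp_le_exp.2 (mul_le_mul_of_nonneg_left (trunc_le_self hM (h0 x)) hτ)
  refine agmon_core (W := fun x => Real.exp (τ * ϱ x)) (A := {x | ϱ x ≤ R + 1}) (Z := {x | R < ϱ x})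
    (θ := fun x => Real.smoothTransition (ϱ x - R)) (Bw := Real.exp (τ * M)) hκ (by positivity) hw_s
    (fun x => (Real.exp_pos _).le) (fun x => (le_abs_self _).trans (hw_b x)) hw_d hwW hθ_s hθ_m hθ_d
    (measurableSet_le hϱ.continuous.measurable measurable_const) (fun x hx => ?_) (fun x hx => ?_) (fun x hx => ?_)
    hV hext hmargin (hEn.trans (le_abs_self _)) hf (memLp_of_exp_smul hϱ.continuous h0 hτ hgw) hs hgw
  · refine pow_le_pow_left₀ (Real.exp_pos _).le ((hwW x).trans ?_) 2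
    exact Real.exp_le_exp.2 (mul_le_mul_of_nonneg_left hx hτ)
  · have hx' : R + 1 < ϱ x := not_le.1 hx
    exact ⟨hθ_1 x hx'.le, hθ_z x (Or.inr hx')⟩
  · exact hθ_0 x (not_lt.1 hx)

end A2

/-! ## LEAF AG-A3: removal of the truncation -/

section A3

/-- Fatou's lemma for squared norms. -/
theorem memLp_of_tendsto_bound {fn : ℕ → X → E} {f : X → E} (hfn : ∀ n, MemLp (fn n) 2 μ)
    (hf : AEStronglyMeasurable f μ) (ht : ∀ x, Tendsto (fun n => fn n x) atTop (𝓝 (f x))) {C : ℝ}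
    (h : ∀ n, nsq μ (fn n) ≤ C) : MemLp f 2 μ ∧ nsq μ f ≤ C := by
  have hC : 0 ≤ C := (nsq_nonneg _).trans (h 0)
  have h1 : ∀ n, ∫⁻ x, ENNReal.ofReal (‖fn n x‖ ^ 2) ∂μ ≤ ENNReal.ofReal C := by
    intro n
    rw [← ofReal_integral_eq_lintegral_ofReal (integrable_norm_sq (hfn n))
      (Eventually.of_forall fun x => sq_nonneg _)]
    exact ENNReal.ofReal_le_ofReal (h n)
  have h2 : ∫⁻ x, ENNReal.ofReal (‖f x‖ ^ 2) ∂μ ≤ ENNReal.ofReal C := by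
    have h3 : ∀ x, liminf (fun n => ENNReal.ofReal (‖fn n x‖ ^ 2)) atTop = ENNReal.ofReal (‖f x‖ ^ 2) := by
      intro x
      exact (ENNReal.tendsto_ofReal (((ht x).norm).pow 2)).liminf_eq
    calc ∫⁻ x, ENNReal.ofReal (‖f x‖ ^ 2) ∂μ
        = ∫⁻ x, liminf (fun n => ENNReal.ofReal (‖fn n x‖ ^ 2)) atTop ∂μ := by simp only [h3]
      _ ≤ liminf (fun n => ∫⁻ x, ENNReal.ofReal (‖fn n x‖ ^ 2) ∂μ) atTop :=
          lintegral_liminf_le' fun n => ((hfn n).1.norm.pow 2).aemeasurable.ennreal_ofReal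
      _ ≤ liminf (fun _ : ℕ => ENNReal.ofReal C) atTop := liminf_le_liminf (Eventually.of_forall h1)
      _ = ENNReal.ofReal C := liminf_const _
  have hi : Integrable (fun x => ‖f x‖ ^ 2) μ := by
    refine ⟨hf.norm.pow 2, ?_⟩
    rw [hasFiniteIntegral_iff_ofReal (Eventually.of_forall fun x => sq_nonneg _)]
    exact h2.trans_lt ENNReal.ofReal_lt_top
  refine ⟨(memLp_two_iff_integrable_sq_norm hf).2 hi, ?_⟩
  unfold nsq
  rw [integral_eq_lintegral_of_nonneg_ae (Eventually.of_forall fun x => sq_nonneg _) (hf.norm.pow 2)]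
  exact ENNReal.toReal_le_of_le_ofReal hC h2

/-- monotone convergence for the weights. -/
theorem memLp_of_trunc_bound {ϱ : X → ℝ} (hϱ : Continuous ϱ) (h0 : ∀ x, 0 ≤ ϱ x) {τ : ℝ} (hτ : 0 ≤ τ)
    {f : X → E} (hf : MemLp f 2 μ) {C : ℝ}
    (h : ∀ n : ℕ, nsq μ (fun x => Real.exp (τ * trunc ((n : ℝ) + 1) (ϱ x)) • f x) ≤ C) :
    MemLp (fun x => Real.exp (τ * ϱ x) • f x) 2 μ ∧ nsq μ (fun x => Real.exp (τ * ϱ x) • f x) ≤ C := by
  refine memLp_of_tendsto_bound (fn := fun n x => Real.exp (τ * trunc ((n : ℝ) + 1) (ϱ x)) • f x)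
    (fun n => ?_) ?_ (fun x => ?_) h
  · have hM : (0 : ℝ) < (n : ℝ) + 1 := by positivity
    have hc : Continuous fun x => Real.exp (τ * trunc ((n : ℝ) + 1) (ϱ x)) := by
      unfold trunc
      refine Real.continuous_exp.comp (continuous_const.mul ((continuous_const.mul hϱ).div
        (continuous_const.add hϱ) fun x => ?_))
      exact (add_pos_of_pos_of_nonneg hM (h0 x)).ne'
    refine memLp_smul_of_bdd (B := Real.exp (τ * ((n : ℝ) + 1))) hc (fun x => ?_) hf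
    rw [abs_of_pos (Real.exp_pos _)]
    exact Real.exp_le_exp.2 (mul_le_mul_of_nonneg_left (trunc_le hM (h0 x)) hτ)
  · exact (Real.continuous_exp.comp (continuous_const.mul hϱ)).aestronglyMeasurable.smul hf.1
  · exact ((Real.continuous_exp.tendsto _).comp ((trunc_tendsto (h0 x)).const_mul τ)).smul_const (f x)

/-- **Agmon estimate.**  `∀ constants ∃ C ∀ data`. -/
theorem agmon (τ κ b R Emax : ℝ) (hτ : 0 ≤ τ) (hκ : 0 < κ) :
    ∃ C : ℝ, 0 ≤ C ∧ ∀ (ϱ V : X → ℝ) (En Sg : ℝ) (f g : X → E) (G : ι → X → E),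
      ContDiff ℝ ∞ ϱ → (∀ x, 0 ≤ ϱ x) → (∀ x, ∑ j, dd (v j) ϱ x ^ 2 ≤ 1) →
      FormBdd E μ v V (1 / 4) b → ExtBound E μ v V {x | R < ϱ x} Sg →
      κ ≤ Sg - En - τ ^ 2 / 2 → |En| ≤ Emax →
      H1 μ v f G → IsWeakSol μ v V En f G g → MemLp (fun x => Real.exp (τ * ϱ x) • g x) 2 μ →
      WBound μ (fun x => Real.exp (τ * ϱ x)) f G
        (C * (nsq μ (fun x => Real.exp (τ * ϱ x) • g x) + ∫ x in {x | ϱ x ≤ R + 1}, ‖f x‖ ^ 2 ∂μ)) := by
  obtain ⟨C₀, hC₀, hmain⟩ := agmon_trunc (μ := μ) (E := E) (v := v) τ κ b R Emax hτ hκ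
  refine ⟨(1 + Fintype.card ι) * C₀, by positivity, ?_⟩
  intro ϱ V En Sg f g G hϱ h0 h1 hV hext hmargin hEn hf hs hgw
  set K : ℝ := C₀ * (nsq μ (fun x => Real.exp (τ * ϱ x) • g x) + ∫ x in {x | ϱ x ≤ R + 1}, ‖f x‖ ^ 2 ∂μ) with hK
  have hb : ∀ n : ℕ, h1sq μ (fun x => Real.exp (τ * trunc ((n : ℝ) + 1) (ϱ x)) • f x)
      (fun j x => Real.exp (τ * trunc ((n : ℝ) + 1) (ϱ x)) • G j x) ≤ K := fun n =>
    hmain ϱ V En Sg f g G _ hϱ h0 h1 hV hext hmargin hEn hf hs hgw (by positivity)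
  obtain ⟨m0, n0⟩ := memLp_of_trunc_bound hϱ.continuous h0 hτ hf.mem
    (fun n => (nsq_le_h1sq _ _).trans (hb n))
  have hj : ∀ j, MemLp (fun x => Real.exp (τ * ϱ x) • G j x) 2 μ ∧
      nsq μ (fun x => Real.exp (τ * ϱ x) • G j x) ≤ K := fun j =>
    memLp_of_trunc_bound hϱ.continuous h0 hτ (hf.wd j).memg
      (fun n => (nsq_grad_le_h1sq (μ := μ) (fun x => Real.exp (τ * trunc ((n : ℝ) + 1) (ϱ x)) • f x)
        (fun j x => Real.exp (τ * trunc ((n : ℝ) + 1) (ϱ x)) • G j x) j).trans (hb n))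
  refine ⟨m0, fun j => (hj j).1, ?_⟩
  unfold h1sq
  have h2 : ∑ j, nsq μ (fun x => Real.exp (τ * ϱ x) • G j x) ≤ ∑ _j : ι, K :=
    Finset.sum_le_sum fun j _ => (hj j).2
  rw [Finset.sum_const, Finset.card_univ, nsmul_eq_mul] at h2
  calc _ ≤ K + Fintype.card ι * K := add_le_add n0 h2
    _ = _ := by rw [hK]; ring

/-- the weighted function is again an `H¹` pair (unbounded smooth multiplier, `H1.mul_of_memLp`). -/
theorem WBound.h1 {ϱ : X → ℝ} (hϱ : ContDiff ℝ ∞ ϱ) (h1 : ∀ x, ∑ j, dd (v j) ϱ x ^ 2 ≤ 1) {τ : ℝ}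
    {f : X → E} {G : ι → X → E} {M : ℝ} (hf : H1 μ v f G)
    (hw : WBound μ (fun x => Real.exp (τ * ϱ x)) f G M) :
    H1 μ v (fun x => Real.exp (τ * ϱ x) • f x) (mulGrad v (fun x => Real.exp (τ * ϱ x)) f G) ∧
      h1sq μ (fun x => Real.exp (τ * ϱ x) • f x) (mulGrad v (fun x => Real.exp (τ * ϱ x)) f G)
        ≤ (2 + 2 * τ ^ 2) * M := by
  have hη : ContDiff ℝ ∞ (fun x => Real.exp (τ * ϱ x)) := (contDiff_const.mul hϱ).exp
  have e : ∀ j x, dd (v j) (fun y => Real.exp (τ * ϱ y)) x = Real.exp (τ * ϱ x) * τ * dd (v j) ϱ x := by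
    intro j x
    have hd : HasDerivAt (fun s => Real.exp (τ * s)) (Real.exp (τ * ϱ x) * τ) (ϱ x) := by
      simpa using ((hasDerivAt_id (ϱ x)).const_mul τ).exp
    exact dd_comp hd ((hϱ.differentiable (by simp)) x) (v j)
  have hdj : ∀ j x, dd (v j) ϱ x ^ 2 ≤ 1 := fun j x =>
    (Finset.single_le_sum (f := fun j => dd (v j) ϱ x ^ 2) (fun _ _ => sq_nonneg _) (Finset.mem_univ j)).trans (h1 x)
  have m2 : ∀ j, MemLp (fun x => dd (v j) (fun y => Real.exp (τ * ϱ y)) x • f x) 2 μ := by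
    intro j
    refine (memLp_nsq_of_le (f := fun x => dd (v j) (fun y => Real.exp (τ * ϱ y)) x • f x) (c := |τ|)
      ((contDiff_dd hη (v j)).continuous.aestronglyMeasurable.smul hf.mem.1)
      hw.mem (Eventually.of_forall fun x => ?_)).1
    rw [e, norm_smul, norm_smul, Real.norm_eq_abs, Real.norm_eq_abs, abs_mul, abs_mul]
    have h3 : |dd (v j) ϱ x| ≤ 1 := (sq_le_one_iff_abs_le_one _).1 (hdj j x)
    have h4 : 0 ≤ |Real.exp (τ * ϱ x)| * |τ| * ‖f x‖ := by positivity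
    calc |Real.exp (τ * ϱ x)| * |τ| * |dd (v j) ϱ x| * ‖f x‖
        = (|Real.exp (τ * ϱ x)| * |τ| * ‖f x‖) * |dd (v j) ϱ x| := by ring
      _ ≤ (|Real.exp (τ * ϱ x)| * |τ| * ‖f x‖) * 1 := mul_le_mul_of_nonneg_left h3 h4
      _ = |τ| * (|Real.exp (τ * ϱ x)| * ‖f x‖) := by ring
  have m3 : ∀ j, MemLp (mulGrad v (fun x => Real.exp (τ * ϱ x)) f G j) 2 μ := fun j =>
    (hw.mem_grad j).add (m2 j)
  refine ⟨hf.mul_of_memLp hη hw.mem m3, ?_⟩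
  have hsum : ∑ j, nsq μ (fun x => dd (v j) (fun y => Real.exp (τ * ϱ y)) x • f x)
      ≤ τ ^ 2 * nsq μ (fun x => Real.exp (τ * ϱ x) • f x) := by
    unfold nsq
    rw [← integral_finsetSum _ fun j _ => integrable_norm_sq (m2 j), ← integral_const_mul]
    refine integral_mono (integrable_finsetSum _ fun j _ => integrable_norm_sq (m2 j))
      ((integrable_norm_sq hw.mem).const_mul _) fun x => ?_
    simp only [norm_sq_real_smul, e, mul_pow, ← Finset.sum_mul, ← Finset.mul_sum]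
    have h4 : 0 ≤ Real.exp (τ * ϱ x) ^ 2 * τ ^ 2 := by positivity
    have h5 := mul_le_mul_of_nonneg_left (h1 x) h4
    have h6 := mul_le_mul_of_nonneg_right h5 (sq_nonneg ‖f x‖)
    calc _ ≤ Real.exp (τ * ϱ x) ^ 2 * τ ^ 2 * 1 * ‖f x‖ ^ 2 := h6
      _ = _ := by ring
  have hgr : ∀ j, nsq μ (mulGrad v (fun x => Real.exp (τ * ϱ x)) f G j)
      ≤ 2 * nsq μ (fun x => Real.exp (τ * ϱ x) • G j x)
        + 2 * nsq μ (fun x => dd (v j) (fun y => Real.exp (τ * ϱ y)) x • f x) := fun j =>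
    nsq_add_le (hw.mem_grad j) (m2 j)
  have hle := hw.le
  unfold h1sq at hle ⊢
  have h7 : ∑ j, nsq μ (mulGrad v (fun x => Real.exp (τ * ϱ x)) f G j)
      ≤ 2 * ∑ j, nsq μ (fun x => Real.exp (τ * ϱ x) • G j x)
        + 2 * ∑ j, nsq μ (fun x => dd (v j) (fun y => Real.exp (τ * ϱ y)) x • f x) := by
    rw [Finset.mul_sum, Finset.mul_sum, ← Finset.sum_add_distrib]
    exact Finset.sum_le_sum fun j _ => hgr j
  have h8 := nsq_nonneg (μ := μ) (fun x => Real.exp (τ * ϱ x) • f x)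
  have h9 : 0 ≤ ∑ j, nsq μ (fun x => Real.exp (τ * ϱ x) • G j x) := Finset.sum_nonneg fun _ _ => nsq_nonneg _
  have h10 : 0 ≤ τ ^ 2 := sq_nonneg τ
  nlinarith [mul_nonneg h10 h9, mul_nonneg h10 h8]

theorem WBound.mono {w : X → ℝ} {f : X → E} {G : ι → X → E} {M M' : ℝ} (h : WBound μ w f G M) (hM : M ≤ M') :
    WBound μ w f G M' := ⟨h.mem, h.mem_grad, h.le.trans hM⟩

/-- the trivial weight. -/
theorem WBound.one {f : X → E} {G : ι → X → E} (hf : H1 μ v f G) :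
    WBound μ (fun _ => (1 : ℝ)) f G (h1sq μ f G) := by
  refine ⟨?_, fun j => ?_, ?_⟩
  · simpa only [one_smul] using hf.mem
  · simpa only [one_smul] using (hf.wd j).memg
  · simp only [one_smul]; exact le_rfl

end A3

end Claimed.Open.R278.AG
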