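import Claimed.Open.R278.AGCoul

/-!
# Result 278, layer AG, file 6: derivative bounds of all orders for the explicit functions of the layer

Everything is reduced to three soft principles (no explicit higher derivatives are ever computed):
* `homog_bound`: a function which is smooth off `0` and positively homogeneous of degree `a` satisfies
  `‖D^k f(z)‖ ≤ C_k |z|^{a-k}` (scaling + compactness of the unit sphere);
* `bdd_of_compactSupport`: a smooth function which is constant outside a compact set has all derivatives bounded;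
* Mathlib's `norm_iteratedFDeriv_mul_le` (Leibniz), `norm_iteratedFDeriv_comp_le` (Faa di Bruno),
  `ContinuousLinearMap.iteratedFDeriv_comp_right`, `iteratedFDeriv_comp_add_right` (affine substitutions).

`AG.Sym a f`: `f : Config m → ℝ` is a symbol of order `a`: smooth and `‖D^k f(X)‖ ≤ C_k ϱ(X)^{a-k}`.
-/

open MeasureTheory Filter Topology Set
open scoped ContDiff InnerProductSpace

noncomputable section

set_option linter.unusedSectionVars false

namespace Claimed.Open.R278.AG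

/-- symbols of order `a` on configuration space. -/
def Sym {m : ℕ} (a : ℝ) (f : Config m → ℝ) : Prop :=
  ContDiff ℝ ∞ f ∧ ∀ k : ℕ, ∃ C : ℝ, ∀ X, ‖iteratedFDeriv ℝ k f X‖ ≤ C * rho X ^ (a - k)

/-- smooth with all derivatives bounded. -/
def BddDeriv {V : Type*} [NormedAddCommGroup V] [NormedSpace ℝ V] (f : V → ℝ) : Prop :=
  ContDiff ℝ ∞ f ∧ ∀ k : ℕ, ∃ C : ℝ, ∀ z, ‖iteratedFDeriv ℝ k f z‖ ≤ C

/-! ## LEAF AG-K1: the soft principles -/

section K1

variable {V : Type*} [NormedAddCommGroup V] [NormedSpace ℝ V] [FiniteDimensional ℝ V]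

theorem iteratedFDeriv_comp_smul {V : Type*} [NormedAddCommGroup V] [NormedSpace ℝ V] {f : V → ℝ}
    (hf : ContDiffOn ℝ ∞ f {0}ᶜ) {c : ℝ} (hc : c ≠ 0) (k : ℕ) {z : V} (hz : z ≠ 0) :
    iteratedFDeriv ℝ k (fun y => f (c • y)) z = c ^ k • iteratedFDeriv ℝ k f (c • z) := by
  have ho : IsOpen ({0}ᶜ : Set V) := isOpen_compl_singleton
  set g : V →L[ℝ] V := c • ContinuousLinearMap.id ℝ V with hg
  have hpre : g ⁻¹' ({0}ᶜ : Set V) = {0}ᶜ := by
    ext y; simp [hg, hc]
  have hgz : g z ∈ ({0}ᶜ : Set V) := by simp [hg, hc, hz]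
  have h1 := g.iteratedFDerivWithin_comp_right hf ho.uniqueDiffOn (by rw [hpre]; exact ho.uniqueDiffOn) hgz
    (i := k) (by exact_mod_cast le_top)
  rw [hpre, iteratedFDerivWithin_of_isOpen k ho (show z ∈ ({0}ᶜ : Set V) from hz),
    iteratedFDerivWithin_of_isOpen k ho hgz] at h1
  have e : f ∘ g = fun y => f (c • y) := by funext y; simp [hg]
  rw [e] at h1
  rw [h1]
  ext w
  simp only [ContinuousMultilinearMap.compContinuousLinearMap_apply, smul_apply]
  have : (fun i => g (w i)) = fun i => c • w i := by funext i; simp [hg]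
  rw [this, ContinuousMultilinearMap.map_smul_univ]
  simp [hg]

/-- scaling: if `f (c • z) = c^a f z` near `z`, then `D^k f (c • z) = c^{a-k} D^k f z`.  Then take `c = ‖z‖⁻¹` and use the
continuity of `iteratedFDeriv ℝ k f` on the compact unit sphere (`ContDiffOn.continuousOn_iteratedFDerivWithin` on the open set
`{0}ᶜ`, `iteratedFDerivWithin_of_isOpen`). -/
theorem homog_bound {f : V → ℝ} {a : ℝ} (hf : ContDiffOn ℝ ∞ f {0}ᶜ)
    (hh : ∀ c : ℝ, 0 < c → ∀ z : V, z ≠ 0 → f (c • z) = c ^ a * f z) (k : ℕ) :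
    ∃ C : ℝ, 0 ≤ C ∧ ∀ z : V, z ≠ 0 → ‖iteratedFDeriv ℝ k f z‖ ≤ C * ‖z‖ ^ (a - k) := by
  have ho : IsOpen ({0}ᶜ : Set V) := isOpen_compl_singleton
  have hcont : ContinuousOn (iteratedFDeriv ℝ k f) {0}ᶜ :=
    (hf.continuousOn_iteratedFDerivWithin (m := k) (by exact_mod_cast le_top) ho.uniqueDiffOn).congr
      fun x hx => (iteratedFDerivWithin_of_isOpen k ho hx).symm
  have hsub : Metric.sphere (0 : V) 1 ⊆ {0}ᶜ := by
    intro x hx h0
    rw [mem_singleton_iff] at h0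
    simp [h0] at hx
  obtain ⟨C, hC⟩ := (isCompact_sphere (0 : V) 1).exists_bound_of_continuousOn (hcont.mono hsub)
  refine ⟨max C 0, le_max_right _ _, fun z hz => ?_⟩
  have hn : 0 < ‖z‖ := norm_pos_iff.2 hz
  set u : V := ‖z‖⁻¹ • z with hu
  have hu0 : u ≠ 0 := smul_ne_zero (inv_ne_zero hn.ne') hz
  have hu1 : u ∈ Metric.sphere (0 : V) 1 := by
    simp [hu, norm_smul, hn.ne']
  have hcu : ‖z‖ • u = z := by rw [hu, smul_smul, mul_inv_cancel₀ hn.ne', one_smul]
  have e1 := iteratedFDeriv_comp_smul hf hn.ne' k hu0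
  have e2 : (fun y => f (‖z‖ • y)) =ᶠ[𝓝 u] (‖z‖ ^ a) • f := by
    filter_upwards [ho.mem_nhds hu0] with y hy
    simpa using hh ‖z‖ hn y hy
  have e3 : iteratedFDeriv ℝ k (fun y => f (‖z‖ • y)) u = ‖z‖ ^ a • iteratedFDeriv ℝ k f u := by
    rw [(e2.iteratedFDeriv ℝ k).eq_of_nhds]
    exact iteratedFDeriv_const_smul_apply
      ((hf.contDiffAt (ho.mem_nhds hu0)).of_le (by exact_mod_cast le_top))
  rw [e1, hcu] at e3
  have e4 := congrArg norm e3
  rw [norm_smul, norm_smul, norm_pow, norm_norm, Real.norm_eq_abs, abs_of_pos (Real.rpow_pos_of_pos hn a)] at e4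
  have h5 : ‖iteratedFDeriv ℝ k f u‖ ≤ max C 0 := (hC u hu1).trans (le_max_left _ _)
  rw [Real.rpow_sub hn, Real.rpow_natCast, mul_div_assoc', le_div_iff₀ (by positivity), mul_comm, e4, mul_comm]
  exact mul_le_mul_of_nonneg_right h5 (Real.rpow_pos_of_pos hn a).le

/-- a smooth bounded function which is locally constant outside a compact set. -/
theorem bddDeriv_of_locally_const {f : V → ℝ} (hf : ContDiff ℝ ∞ f) {K : Set V} (hK : IsCompact K)
    (h : ∀ z, z ∉ K → ∃ c : ℝ, f =ᶠ[𝓝 z] fun _ => c) {B : ℝ} (hB : ∀ z, |f z| ≤ B) : BddDeriv f := by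
  refine ⟨hf, fun k => ?_⟩
  rcases Nat.eq_zero_or_pos k with rfl | hk
  · exact ⟨B, fun z => by rw [norm_iteratedFDeriv_zero, Real.norm_eq_abs]; exact hB z⟩
  · have hc : Continuous (iteratedFDeriv ℝ k f) := hf.continuous_iteratedFDeriv (m := k) (by exact_mod_cast le_top)
    obtain ⟨C, hC⟩ := hK.exists_bound_of_continuousOn hc.continuousOn
    refine ⟨max C 0, fun z => ?_⟩
    by_cases hz : z ∈ K
    · exact (hC z hz).trans (le_max_left _ _)
    · obtain ⟨c, hc'⟩ := h z hz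
      rw [(hc'.iteratedFDeriv ℝ k).eq_of_nhds, iteratedFDeriv_const_of_ne hk.ne']
      simp

/-- a smooth function which is constant outside a compact set. -/
theorem bddDeriv_of_compact {f : V → ℝ} (hf : ContDiff ℝ ∞ f) {c : ℝ} {K : Set V} (hK : IsCompact K)
    (h : ∀ z, z ∉ K → f z = c) : BddDeriv f := by
  obtain ⟨C, hC⟩ := hK.exists_bound_of_continuousOn hf.continuous.continuousOn
  refine bddDeriv_of_locally_const hf hK (fun z hz => ⟨c, ?_⟩) (B := max C |c|) fun z => ?_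
  · filter_upwards [hK.isClosed.isOpen_compl.mem_nhds hz] with y hy
    exact h y hy
  · by_cases hz : z ∈ K
    · exact (hC z hz).trans (le_max_left _ _)
    · rw [h z hz]; exact le_max_right _ _

theorem BddDeriv.exists_bound {V : Type*} [NormedAddCommGroup V] [NormedSpace ℝ V] {f : V → ℝ}
    (hf : BddDeriv f) (k : ℕ) : ∃ C : ℝ, 0 ≤ C ∧ ∀ i ≤ k, ∀ z, ‖iteratedFDeriv ℝ i f z‖ ≤ C := by
  choose C hC using hf.2
  refine ⟨∑ i ∈ Finset.range (k + 1), |C i|, Finset.sum_nonneg fun _ _ => abs_nonneg _, fun i hi z => ?_⟩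
  refine ((hC i z).trans (le_abs_self _)).trans ?_
  exact Finset.single_le_sum (f := fun i => |C i|) (fun _ _ => abs_nonneg _) (Finset.mem_range.2 (by omega))

theorem norm_iteratedFDeriv_mul_le_two_pow' {V : Type*} [NormedAddCommGroup V] [NormedSpace ℝ V] {f g : V → ℝ}
    (hf : ContDiff ℝ ∞ f) (hg : ContDiff ℝ ∞ g) {n : ℕ}
    {a b : ℝ} (x : V) (ha : ∀ i ≤ n, ‖iteratedFDeriv ℝ i f x‖ ≤ a) (hb : ∀ i ≤ n, ‖iteratedFDeriv ℝ i g x‖ ≤ b) :
    ‖iteratedFDeriv ℝ n (fun y => f y * g y) x‖ ≤ 2 ^ n * a * b := by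
  have ha0 : 0 ≤ a := (norm_nonneg _).trans (ha 0 (Nat.zero_le _))
  have h1 := norm_iteratedFDeriv_mul_le hf hg x (n := n) (by exact_mod_cast le_top)
  refine h1.trans ?_
  have h2 : ∀ i ∈ Finset.range (n + 1), (n.choose i : ℝ) * ‖iteratedFDeriv ℝ i f x‖ * ‖iteratedFDeriv ℝ (n - i) g x‖
      ≤ (n.choose i : ℝ) * (a * b) := by
    intro i hi
    rw [mul_assoc]
    refine mul_le_mul_of_nonneg_left ?_ (by positivity)
    exact mul_le_mul (ha i (by have := Finset.mem_range.1 hi; omega)) (hb (n - i) (by omega)) (norm_nonneg _) ha0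
  refine (Finset.sum_le_sum h2).trans (le_of_eq ?_)
  rw [← Finset.sum_mul, ← Nat.cast_sum, Nat.sum_range_choose]
  push_cast
  ring

theorem BddDeriv.mul {f g : V → ℝ} (hf : BddDeriv f) (hg : BddDeriv g) : BddDeriv (fun z => f z * g z) := by
  refine ⟨hf.1.mul hg.1, fun k => ?_⟩
  obtain ⟨A, _, hA⟩ := BddDeriv.exists_bound hf k
  obtain ⟨B, _, hB⟩ := BddDeriv.exists_bound hg k
  exact ⟨2 ^ k * A * B, fun z => norm_iteratedFDeriv_mul_le_two_pow' hf.1 hg.1 z (fun i hi => hA i hi z)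
    (fun i hi => hB i hi z)⟩

theorem BddDeriv.add {f g : V → ℝ} (hf : BddDeriv f) (hg : BddDeriv g) : BddDeriv (fun z => f z + g z) := by
  refine ⟨hf.1.add hg.1, fun k => ?_⟩
  obtain ⟨A, hA⟩ := hf.2 k
  obtain ⟨B, hB⟩ := hg.2 k
  refine ⟨A + B, fun z => ?_⟩
  have e : iteratedFDeriv ℝ k (fun z => f z + g z) z = iteratedFDeriv ℝ k f z + iteratedFDeriv ℝ k g z :=
    iteratedFDeriv_add_apply (hf.1.contDiffAt.of_le (by exact_mod_cast le_top))
      (hg.1.contDiffAt.of_le (by exact_mod_cast le_top))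
  rw [e]
  exact (norm_add_le _ _).trans (add_le_add (hA z) (hB z))

theorem BddDeriv.const (c : ℝ) : BddDeriv (fun _ : V => c) := by
  refine ⟨contDiff_const, fun k => ⟨|c|, fun z => ?_⟩⟩
  rcases Nat.eq_zero_or_pos k with rfl | hk
  · rw [norm_iteratedFDeriv_zero, Real.norm_eq_abs]
  · rw [iteratedFDeriv_const_of_ne hk.ne']
    simp

theorem BddDeriv.sub {f g : V → ℝ} (hf : BddDeriv f) (hg : BddDeriv g) : BddDeriv (fun z => f z - g z) := by
  have h := BddDeriv.add hf (BddDeriv.mul (BddDeriv.const (V := V) (-1)) hg)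
  have e : (fun z => f z + -1 * g z) = fun z => f z - g z := by funext z; ring
  rwa [e] at h

theorem BddDeriv.sum {α : Type*} (s : Finset α) {f : α → V → ℝ} (h : ∀ i ∈ s, BddDeriv (f i)) :
    BddDeriv (fun z => ∑ i ∈ s, f i z) := by
  classical
  induction s using Finset.induction_on with
  | empty => simpa using BddDeriv.const (V := V) 0
  | insert i s hi ih =>
    have h1 := BddDeriv.add (h i (Finset.mem_insert_self i s)) (ih fun j hj => h j (Finset.mem_insert_of_mem hj))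
    have e : (fun z => ∑ j ∈ insert i s, f j z) = fun z => f i z + ∑ j ∈ s, f j z := by
      funext z; rw [Finset.sum_insert hi]
    rwa [e]

/-- affine substitution, with a bound which does not depend on the translation part. -/
theorem BddDeriv.comp_affine {V' : Type*} [NormedAddCommGroup V'] [NormedSpace ℝ V'] {f : V → ℝ}
    (hf : BddDeriv f) (L : V' →L[ℝ] V) :
    ∀ k : ℕ, ∃ C : ℝ, ∀ (c₀ : V) (z : V'), ContDiff ℝ ∞ (fun z' => f (L z' - c₀)) ∧
      ‖iteratedFDeriv ℝ k (fun z' => f (L z' - c₀)) z‖ ≤ C := by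
  intro k
  obtain ⟨C, hC⟩ := hf.2 k
  have hC0 : 0 ≤ C := (norm_nonneg _).trans (hC 0)
  refine ⟨C * ‖L‖ ^ k, fun c₀ z => ⟨hf.1.comp (L.contDiff.sub contDiff_const), ?_⟩⟩
  have hs : ContDiff ℝ ∞ (fun y => f (y - c₀)) := hf.1.comp (contDiff_id.sub contDiff_const)
  have e := L.iteratedFDeriv_comp_right hs z (i := k) (by exact_mod_cast le_top)
  have e' : (fun y => f (y - c₀)) ∘ L = fun z' => f (L z' - c₀) := rfl
  rw [e', iteratedFDeriv_comp_sub] at e
  rw [e]
  refine (ContinuousMultilinearMap.norm_compContinuousLinearMap_le _ _).trans ?_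
  simp only [Finset.prod_const, Finset.card_univ, Fintype.card_fin]
  exact mul_le_mul_of_nonneg_right (hC _) (by positivity)

/-- outer composition with a function of one real variable. -/
theorem BddDeriv.comp_real {f : V → ℝ} (hf : BddDeriv f) {T : ℝ → ℝ} (hT : BddDeriv T) :
    BddDeriv (fun z => T (f z)) := by
  refine ⟨hT.1.comp hf.1, fun k => ?_⟩
  obtain ⟨A, hA0, hA⟩ := BddDeriv.exists_bound hf k
  obtain ⟨B, _, hB⟩ := BddDeriv.exists_bound hT k
  refine ⟨k.factorial * B * (A + 1) ^ k, fun z => ?_⟩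
  refine norm_iteratedFDeriv_comp_le hT.1 hf.1 (n := k) (by exact_mod_cast le_top) z
    (fun i hi => hB i hi _) (fun i h1 hi => ?_)
  calc ‖iteratedFDeriv ℝ i f z‖ ≤ A + 1 := (hA i hi z).trans (by linarith)
    _ ≤ (A + 1) ^ i := le_self_pow₀ (by linarith) (by omega)

/-- `smoothTransition`, `sin`, `cos` have bounded derivatives of all orders. -/
theorem bddDeriv_smoothTransition : BddDeriv Real.smoothTransition := by
  refine bddDeriv_of_locally_const Real.smoothTransition.contDiff (isCompact_Icc (a := (0 : ℝ)) (b := 1))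
    (fun z hz => ?_) (B := 1) fun z => ?_
  · rw [mem_Icc, not_and_or, not_le, not_le] at hz
    rcases hz with hz | hz
    · refine ⟨0, ?_⟩
      filter_upwards [Iio_mem_nhds hz] with y hy
      exact Real.smoothTransition.zero_of_nonpos (le_of_lt hy)
    · refine ⟨1, ?_⟩
      filter_upwards [Ioi_mem_nhds hz] with y hy
      exact Real.smoothTransition.one_of_one_le (le_of_lt hy)
  · rw [abs_of_nonneg (Real.smoothTransition.nonneg z)]
    exact Real.smoothTransition.le_one z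

theorem iteratedDeriv_sin_cos (k : ℕ) :
    ∃ a b : ℝ, |a| + |b| ≤ 1 ∧ (iteratedDeriv k Real.sin = fun x => a * Real.sin x + b * Real.cos x) ∧
      (iteratedDeriv k Real.cos = fun x => -b * Real.sin x + a * Real.cos x) := by
  induction k with
  | zero => exact ⟨1, 0, by simp, by simp, by simp⟩
  | succ k ih =>
    obtain ⟨a, b, hab, h1, h2⟩ := ih
    refine ⟨-b, a, by rw [abs_neg]; linarith, ?_, ?_⟩
    · rw [iteratedDeriv_succ, h1]
      funext x
      have : HasDerivAt (fun x => a * Real.sin x + b * Real.cos x) (a * Real.cos x + b * (-Real.sin x)) x :=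
        ((Real.hasDerivAt_sin x).const_mul a).add ((Real.hasDerivAt_cos x).const_mul b)
      rw [this.deriv]; ring
    · rw [iteratedDeriv_succ, h2]
      funext x
      have : HasDerivAt (fun x => -b * Real.sin x + a * Real.cos x) (-b * Real.cos x + a * (-Real.sin x)) x :=
        ((Real.hasDerivAt_sin x).const_mul (-b)).add ((Real.hasDerivAt_cos x).const_mul a)
      rw [this.deriv]; ring

theorem abs_lin_sin_cos_le {a b : ℝ} (h : |a| + |b| ≤ 1) (x : ℝ) : |a * Real.sin x + b * Real.cos x| ≤ 1 := by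
  have h1 : |a * Real.sin x| ≤ |a| := by
    rw [abs_mul]; exact mul_le_of_le_one_right (abs_nonneg _) (Real.abs_sin_le_one x)
  have h2 : |b * Real.cos x| ≤ |b| := by
    rw [abs_mul]; exact mul_le_of_le_one_right (abs_nonneg _) (Real.abs_cos_le_one x)
  exact (abs_add_le _ _).trans (by linarith)

theorem bddDeriv_sin : BddDeriv Real.sin := by
  refine ⟨Real.contDiff_sin, fun k => ⟨1, fun z => ?_⟩⟩
  obtain ⟨a, b, hab, h1, _⟩ := iteratedDeriv_sin_cos k
  rw [norm_iteratedFDeriv_eq_norm_iteratedDeriv, h1, Real.norm_eq_abs]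
  exact abs_lin_sin_cos_le hab z

theorem bddDeriv_cos : BddDeriv Real.cos := by
  refine ⟨Real.contDiff_cos, fun k => ⟨1, fun z => ?_⟩⟩
  obtain ⟨a, b, hab, _, h2⟩ := iteratedDeriv_sin_cos k
  rw [norm_iteratedFDeriv_eq_norm_iteratedDeriv, h2, Real.norm_eq_abs]
  exact abs_lin_sin_cos_le (by rw [abs_neg]; linarith) z

end K1

/-! ## LEAF AG-K2: the Coulomb kernel -/

section K2

theorem contDiffOn_inv_norm : ContDiffOn ℝ ∞ (fun z : Space => 1 / ‖z‖) {0}ᶜ := by
  intro z hz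
  have hz' : z ≠ 0 := hz
  exact (contDiffAt_const.div (contDiffAt_norm ℝ hz') (norm_ne_zero_iff.2 hz')).contDiffWithinAt

/-- `‖D^k (1/|z|)‖ ≤ C_k |z|^{-1-k}` (`homog_bound`, `a = -1`). -/
theorem inv_norm_bound (k : ℕ) : ∃ C : ℝ, 0 ≤ C ∧ ∀ z : Space, z ≠ 0 →
    ‖iteratedFDeriv ℝ k (fun z : Space => 1 / ‖z‖) z‖ ≤ C * ‖z‖ ^ (-1 - (k : ℝ)) := by
  refine homog_bound (a := -1) contDiffOn_inv_norm (fun c hc z _ => ?_) k
  rw [norm_smul, Real.norm_eq_abs, abs_of_pos hc, Real.rpow_neg_one]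
  field_simp

theorem regK_eventually_zero {δ : ℝ} (hδ : 0 < δ) : regK δ =ᶠ[𝓝 0] fun _ => 0 := by
  have h1 : ∀ᶠ z : Space in 𝓝 0, ‖z‖ < δ / 2 := by
    have := (continuous_norm.tendsto (0 : Space)).eventually (Iio_mem_nhds (show ‖(0 : Space)‖ < δ / 2 by simp [hδ]))
    exact this
  filter_upwards [h1] with z hz
  unfold regK
  rw [Real.smoothTransition.zero_of_nonpos, zero_div]
  have h2 : ‖z‖ ^ 2 ≤ (δ / 2) ^ 2 := pow_le_pow_left₀ (norm_nonneg _) hz.le 2
  have h3 : 2 * ‖z‖ ^ 2 / δ ^ 2 ≤ 1 := by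
    rw [div_le_one (by positivity)]
    nlinarith
  linarith

theorem contDiff_regK {δ : ℝ} (hδ : 0 < δ) : ContDiff ℝ ∞ (regK δ) := by
  rw [contDiff_iff_contDiffAt]
  intro z
  rcases eq_or_ne z 0 with rfl | hz
  · exact contDiffAt_const.congr_of_eventuallyEq (regK_eventually_zero hδ)
  · unfold regK
    refine ContDiffAt.div ?_ (contDiffAt_norm ℝ hz) (norm_ne_zero_iff.2 hz)
    refine Real.smoothTransition.contDiff.contDiffAt.comp z ?_
    exact (((contDiffAt_const.mul (contDiff_norm_sq ℝ).contDiffAt).div_const _).sub contDiffAt_const)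

theorem regK_nonneg (δ : ℝ) (z : Space) : 0 ≤ regK δ z :=
  div_nonneg (Real.smoothTransition.nonneg _) (norm_nonneg _)

/-- decay of all derivatives of the regularised kernel. -/
theorem regK_bound {δ : ℝ} (hδ : 0 < δ) (k : ℕ) : ∃ C : ℝ, 0 ≤ C ∧ ∀ z : Space,
    ‖iteratedFDeriv ℝ k (regK δ) z‖ ≤ C * (1 + ‖z‖) ^ (-1 - (k : ℝ)) := by
  obtain ⟨C1, hC1, h1⟩ := inv_norm_bound k
  have hc : Continuous (iteratedFDeriv ℝ k (regK δ)) :=
    (contDiff_regK hδ).continuous_iteratedFDeriv (m := k) (by exact_mod_cast le_top)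
  obtain ⟨C2, h2⟩ := (isCompact_closedBall (0 : Space) δ).exists_bound_of_continuousOn hc.continuousOn
  have hC2 : 0 ≤ C2 := (norm_nonneg _).trans (h2 0 (by simp [hδ.le]))
  set e : ℝ := -1 - (k : ℝ) with he
  have he0 : e ≤ 0 := by rw [he]; have : (0 : ℝ) ≤ k := by positivity
                         linarith
  set r : ℝ := δ / (1 + δ) with hr
  have hr0 : 0 < r := by positivity
  refine ⟨C1 * r ^ e + C2 * (1 + δ) ^ (-e), by positivity, fun z => ?_⟩
  have hz1 : 0 < 1 + ‖z‖ := by positivity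
  have hp : 0 < (1 + ‖z‖) ^ e := Real.rpow_pos_of_pos hz1 e
  by_cases hz : δ < ‖z‖
  · have hz0 : z ≠ 0 := by
      intro h; rw [h, norm_zero] at hz; linarith
    have e1 : regK δ =ᶠ[𝓝 z] fun z : Space => 1 / ‖z‖ := by
      have : ∀ᶠ y : Space in 𝓝 z, δ < ‖y‖ := (continuous_norm.tendsto z).eventually (Ioi_mem_nhds hz)
      filter_upwards [this] with y hy
      exact regK_eq hδ hy.le
    rw [(e1.iteratedFDeriv ℝ k).eq_of_nhds]
    refine (h1 z hz0).trans ?_
    have h3 : r * (1 + ‖z‖) ≤ ‖z‖ := by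
      rw [hr, div_mul_eq_mul_div, div_le_iff₀ (by positivity)]
      nlinarith
    have h4 : ‖z‖ ^ e ≤ (r * (1 + ‖z‖)) ^ e :=
      Real.rpow_le_rpow_of_nonpos (by positivity) h3 he0
    rw [Real.mul_rpow hr0.le hz1.le] at h4
    have h5 : 0 ≤ C2 * (1 + δ) ^ (-e) * (1 + ‖z‖) ^ e := by positivity
    calc C1 * ‖z‖ ^ e ≤ C1 * (r ^ e * (1 + ‖z‖) ^ e) := mul_le_mul_of_nonneg_left h4 hC1
      _ ≤ _ := by nlinarith
  · have hz' : ‖z‖ ≤ δ := not_lt.1 hz
    refine (h2 z (by simpa using hz')).trans ?_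
    have h3 : (1 + δ) ^ e ≤ (1 + ‖z‖) ^ e := Real.rpow_le_rpow_of_nonpos hz1 (by linarith) he0
    have h4 : (1 + δ) ^ (-e) * (1 + δ) ^ e = 1 := by
      rw [← Real.rpow_add (by positivity)]; simp
    have h5 : 1 ≤ (1 + δ) ^ (-e) * (1 + ‖z‖) ^ e :=
      h4.symm.le.trans (mul_le_mul_of_nonneg_left h3 (by positivity))
    have h6 : 0 ≤ C1 * r ^ e * (1 + ‖z‖) ^ e := by positivity
    calc C2 = C2 * 1 := (mul_one _).symm
      _ ≤ C2 * ((1 + δ) ^ (-e) * (1 + ‖z‖) ^ e) := mul_le_mul_of_nonneg_left h5 hC2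
      _ ≤ _ := by nlinarith

theorem bddDeriv_regK {δ : ℝ} (hδ : 0 < δ) : BddDeriv (regK δ) := by
  refine ⟨contDiff_regK hδ, fun k => ?_⟩
  obtain ⟨C, hC, h⟩ := regK_bound hδ k
  refine ⟨C, fun z => (h z).trans ?_⟩
  have : (1 + ‖z‖) ^ (-1 - (k : ℝ)) ≤ 1 :=
    Real.rpow_le_one_of_one_le_of_nonpos (by linarith [norm_nonneg z]) (by
      have : (0 : ℝ) ≤ k := by positivity
      linarith)
  calc C * (1 + ‖z‖) ^ (-1 - (k : ℝ)) ≤ C * 1 := mul_le_mul_of_nonneg_left this hC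
    _ = C := mul_one _

/-- quantitative version of `BddDeriv`: derivatives of order `≤ k` bounded by `C`. -/
def DB {V : Type*} [NormedAddCommGroup V] [NormedSpace ℝ V] (k : ℕ) (C : ℝ) (f : V → ℝ) : Prop :=
  ContDiff ℝ ∞ f ∧ ∀ i ≤ k, ∀ z, ‖iteratedFDeriv ℝ i f z‖ ≤ C

theorem DB.mono {V : Type*} [NormedAddCommGroup V] [NormedSpace ℝ V] {k : ℕ} {C C' : ℝ} {f : V → ℝ}
    (h : DB k C f) (hC : C ≤ C') : DB k C' f := ⟨h.1, fun i hi z => (h.2 i hi z).trans hC⟩

theorem DB.zero {V : Type*} [NormedAddCommGroup V] [NormedSpace ℝ V] (k : ℕ) : DB k 0 (fun _ : V => (0 : ℝ)) := by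
  refine ⟨contDiff_const, fun i _ z => ?_⟩
  have : iteratedFDeriv ℝ i (fun _ : V => (0 : ℝ)) = 0 := iteratedFDeriv_fun_zero
  rw [this]; simp

theorem DB.add {V : Type*} [NormedAddCommGroup V] [NormedSpace ℝ V] {k : ℕ} {C C' : ℝ} {f g : V → ℝ}
    (hf : DB k C f) (hg : DB k C' g) : DB k (C + C') (fun z => f z + g z) := by
  refine ⟨hf.1.add hg.1, fun i hi z => ?_⟩
  have e : iteratedFDeriv ℝ i (fun z => f z + g z) z = iteratedFDeriv ℝ i f z + iteratedFDeriv ℝ i g z :=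
    iteratedFDeriv_add_apply (hf.1.contDiffAt.of_le (by exact_mod_cast le_top))
      (hg.1.contDiffAt.of_le (by exact_mod_cast le_top))
  rw [e]
  exact (norm_add_le _ _).trans (add_le_add (hf.2 i hi z) (hg.2 i hi z))

theorem DB.const_mul {V : Type*} [NormedAddCommGroup V] [NormedSpace ℝ V] {k : ℕ} {C : ℝ} {f : V → ℝ}
    (hf : DB k C f) (t : ℝ) : DB k (|t| * C) (fun z => t * f z) := by
  refine ⟨contDiff_const.mul hf.1, fun i hi z => ?_⟩
  have e : iteratedFDeriv ℝ i (fun z => t * f z) z = t • iteratedFDeriv ℝ i f z := by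
    have e0 : (fun z => t * f z) = t • f := by funext z; simp
    rw [e0]
    exact iteratedFDeriv_const_smul_apply (hf.1.contDiffAt.of_le (by exact_mod_cast le_top))
  rw [e, norm_smul, Real.norm_eq_abs]
  exact mul_le_mul_of_nonneg_left (hf.2 i hi z) (abs_nonneg t)

theorem DB.sum_card {V : Type*} [NormedAddCommGroup V] [NormedSpace ℝ V] {k : ℕ} {C : ℝ} {α : Type*}
    (s : Finset α) {f : α → V → ℝ} (h : ∀ i ∈ s, DB k C (f i)) : DB k (s.card * C) (fun z => ∑ i ∈ s, f i z) := by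
  classical
  induction s using Finset.induction_on with
  | empty => simpa using DB.zero (V := V) k
  | insert i s hi ih =>
    have h1 := (h i (Finset.mem_insert_self i s)).add (ih fun j hj => h j (Finset.mem_insert_of_mem hj))
    have e : (fun z => ∑ j ∈ insert i s, f j z) = fun z => f i z + ∑ j ∈ s, f j z := by
      funext z; rw [Finset.sum_insert hi]
    rw [e, Finset.card_insert_of_notMem hi]
    push_cast
    have e1 : ((s.card : ℝ) + 1) * C = C + s.card * C := by ring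
    rw [e1]
    exact h1

theorem DB.ite {V : Type*} [NormedAddCommGroup V] [NormedSpace ℝ V] {k : ℕ} {C : ℝ} {f : V → ℝ}
    (hC : 0 ≤ C) (p : Prop) [Decidable p] (h : DB k C f) : DB k C (fun z => if p then f z else 0) := by
  by_cases hp : p
  · simpa [hp] using h
  · simpa [hp] using (DB.zero (V := V) k).mono hC

/-- affine substitutions in a function with bounded derivatives. -/
theorem BddDeriv.db_affine {V V' : Type*} [NormedAddCommGroup V] [NormedSpace ℝ V] [FiniteDimensional ℝ V]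
    [NormedAddCommGroup V'] [NormedSpace ℝ V'] {f : V → ℝ} (hf : BddDeriv f) (L : V' →L[ℝ] V) (k : ℕ) :
    ∃ C : ℝ, 0 ≤ C ∧ ∀ c₀ : V, DB k C (fun z' => f (L z' - c₀)) := by
  choose C hC using hf.comp_affine L
  refine ⟨∑ i ∈ Finset.range (k + 1), |C i|, Finset.sum_nonneg fun _ _ => abs_nonneg _, fun c₀ =>
    ⟨(hC 0 c₀ 0).1, fun i hi z => ?_⟩⟩
  refine (((hC i c₀ z).2).trans (le_abs_self _)).trans ?_
  exact Finset.single_le_sum (f := fun i => |C i|) (fun _ _ => abs_nonneg _) (Finset.mem_range.2 (by omega))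

/-- **the cross potential**: smooth, all derivatives bounded uniformly in `0 ≤ t ≤ 1` and `S`. -/
theorem Vcross_bound (m : ℕ) {δ : ℝ} (hδ : 0 < δ) (k : ℕ) : ∃ CV : ℝ, 0 ≤ CV ∧
    ∀ (t : ℝ), 0 ≤ t → t ≤ 1 → ∀ S : Finset (Fin m), ContDiff ℝ ∞ (Vcross m t δ S) ∧
      ∀ i ≤ k, ∀ X, ‖iteratedFDeriv ℝ i (Vcross m t δ S) X‖ ≤ CV := by
  have hK := bddDeriv_regK hδ
  choose A hA0 hA using fun i : Fin m => BddDeriv.db_affine hK (evL i) k
  choose B hB0 hB using fun p : Fin m × Fin m => BddDeriv.db_affine hK (diffL p.1 p.2) k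
  set A' : ℝ := ∑ i, A i with hA'
  set B' : ℝ := ∑ p, B p with hB'
  have hA'0 : 0 ≤ A' := Finset.sum_nonneg fun i _ => hA0 i
  have hB'0 : 0 ≤ B' := Finset.sum_nonneg fun i _ => hB0 i
  have hAi : ∀ i, A i ≤ A' := fun i => Finset.single_le_sum (f := A) (fun i _ => hA0 i) (Finset.mem_univ i)
  have hBp : ∀ p, B p ≤ B' := fun p => Finset.single_le_sum (f := B) (fun i _ => hB0 i) (Finset.mem_univ p)
  set n : ℝ := ((Finset.univ : Finset (Fin m)).card : ℝ) with hn
  refine ⟨n * (|(-1 : ℝ)| * A' + |(-1 : ℝ)| * A') + 1 * (n * (n * B')), by positivity, fun t ht0 ht1 S => ?_⟩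
  have h1 : DB k (n * (|(-1 : ℝ)| * A' + |(-1 : ℝ)| * A')) (fun X : Config m =>
      ∑ i, if i ∈ S then (-1 * regK δ (evL i X - bigD • ez) + -1 * regK δ (evL i X - -(bigD • ez))) else 0) :=
    DB.sum_card Finset.univ fun i _ => DB.ite (by positivity) _
      ((((hA i (bigD • ez)).mono (hAi i)).const_mul (-1)).add (((hA i (-(bigD • ez))).mono (hAi i)).const_mul (-1)))
  have h2 : DB k (n * (n * B')) (fun X : Config m =>
      ∑ i, ∑ j, if i < j ∧ ¬ (i ∈ S ↔ j ∈ S) then regK δ (diffL i j X - 0) else 0) :=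
    DB.sum_card Finset.univ fun i _ => DB.sum_card Finset.univ fun j _ => DB.ite hB'0 _
      ((hB (i, j) 0).mono (hBp (i, j)))
  have h3 := (h1.add (h2.const_mul t)).mono
    (C' := n * (|(-1 : ℝ)| * A' + |(-1 : ℝ)| * A') + 1 * (n * (n * B'))) (by
      have : |t| * (n * (n * B')) ≤ 1 * (n * (n * B')) :=
        mul_le_mul_of_nonneg_right (by rw [abs_of_nonneg ht0]; exact ht1) (by positivity)
      linarith)
  have e : (fun X : Config m =>
      (∑ i, if i ∈ S then (-1 * regK δ (evL i X - bigD • ez) + -1 * regK δ (evL i X - -(bigD • ez))) else 0)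
        + t * ∑ i, ∑ j, if i < j ∧ ¬ (i ∈ S ↔ j ∈ S) then regK δ (diffL i j X - 0) else 0) = Vcross m t δ S := by
    funext X
    unfold Vcross
    congr 1
    · refine Finset.sum_congr rfl fun i _ => ?_
      by_cases hi : i ∈ S
      · simp only [hi, if_true, evL, ContinuousLinearMap.proj_apply, sub_neg_eq_add]
        ring
      · simp [hi]
    · simp [diffL, evL]
  rw [e] at h3
  exact h3

end K2

/-! ## LEAF AG-K3: the configuration radius and symbols -/

section K3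

variable {m : ℕ}

theorem rho_arg_pos (X : Config m) : 0 < 1 + ∑ i, ‖X i‖ ^ 2 := by positivity

theorem one_le_rho (X : Config m) : 1 ≤ rho X := by
  unfold rho
  rw [Real.one_le_sqrt]
  have : 0 ≤ ∑ i, ‖X i‖ ^ 2 := by positivity
  linarith

theorem rho_pos (X : Config m) : 0 < rho X := lt_of_lt_of_le one_pos (one_le_rho X)

theorem rho_sq (X : Config m) : rho X ^ 2 = 1 + ∑ i, ‖X i‖ ^ 2 := Real.sq_sqrt (rho_arg_pos X).le

theorem norm_le_rho (X : Config m) (i : Fin m) : ‖X i‖ ≤ rho X := by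
  unfold rho
  refine Real.le_sqrt_of_sq_le ?_
  have : ‖X i‖ ^ 2 ≤ ∑ i, ‖X i‖ ^ 2 :=
    Finset.single_le_sum (f := fun i => ‖X i‖ ^ 2) (fun i _ => sq_nonneg _) (Finset.mem_univ i)
  linarith

theorem contDiff_rho : ContDiff ℝ ∞ (rho : Config m → ℝ) := by
  have : (rho : Config m → ℝ) = fun X => √(1 + ∑ i, ‖X i‖ ^ 2) := rfl
  rw [this]
  refine ContDiff.sqrt ?_ (fun X => (rho_arg_pos X).ne')
  exact contDiff_const.add (ContDiff.sum fun i _ => (contDiff_apply ℝ Space i).norm_sq ℝ)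

theorem dd_rho (X : Config m) (j : Fin m × Fin 3) : dd (dir j) (rho : Config m → ℝ) X = X j.1 j.2 / rho X := by
  have hd : DifferentiableAt ℝ (rho : Config m → ℝ) X := (contDiff_rho.differentiable (by simp)) X
  have h1 : HasDerivAt (fun s : ℝ => rho (X + s • dir j)) (fderiv ℝ rho X (dir j)) 0 := by
    have h2 : HasDerivAt (fun s : ℝ => X + s • dir j) (dir j) 0 := by
      simpa using ((hasDerivAt_id (0 : ℝ)).smul_const (dir j)).const_add X
    have h3 : HasFDerivAt (rho : Config m → ℝ) (fderiv ℝ rho X) (X + (0 : ℝ) • dir j) := by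
      simpa using hd.hasFDerivAt
    exact h3.comp_hasDerivAt 0 h2
  have e : (fun s : ℝ => rho (X + s • dir j)) = fun s => √(rho X ^ 2 + 2 * X j.1 j.2 * s + s ^ 2) := by
    funext s
    rw [rho_sq]
    unfold rho
    congr 1
    have : ∀ i, ‖(X + s • dir j) i‖ ^ 2 = ‖X i‖ ^ 2 + if i = j.1 then 2 * X j.1 j.2 * s + s ^ 2 else 0 := by
      intro i
      by_cases hi : i = j.1
      · subst hi
        simp only [dir, Pi.add_apply, Pi.smul_apply, Pi.single_eq_same, if_true]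
        rw [norm_add_sq_real, inner_smul_right, norm_smul, EuclideanSpace.inner_single_right]
        simp
        ring
      · simp [dir, hi]
    simp only [this]
    rw [Finset.sum_add_distrib, Finset.sum_ite_eq' Finset.univ j.1]
    simp
    ring
  rw [e] at h1
  have h4 : HasDerivAt (fun s : ℝ => rho X ^ 2 + 2 * X j.1 j.2 * s + s ^ 2) (2 * X j.1 j.2) 0 := by
    have h41 : HasDerivAt (fun s : ℝ => rho X ^ 2 + 2 * X j.1 j.2 * s) (2 * X j.1 j.2 * 1) 0 :=
      ((hasDerivAt_id (0 : ℝ)).const_mul (2 * X j.1 j.2)).const_add (rho X ^ 2)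
    have h42 : HasDerivAt (fun s : ℝ => s ^ 2) (2 * (0 : ℝ) ^ (2 - 1) * 1) 0 := (hasDerivAt_id (0 : ℝ)).pow 2
    have h43 := h41.add h42
    simp only [mul_one, Nat.add_one_sub_one, pow_one, mul_zero, add_zero] at h43
    exact h43
  have h5 := h4.sqrt (by simp [(rho_pos X).ne'])
  have h6 := h1.unique h5
  unfold dd
  rw [h6]
  simp only [mul_zero, add_zero, ne_eq, OfNat.ofNat_ne_zero, not_false_eq_true, zero_pow,
    Real.sqrt_sq (rho_pos X).le]
  have := (rho_pos X).ne'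
  field_simp

/-- `|∇ϱ| ≤ 1`: `∂_{(i,a)} ϱ = x_{i,a}/ϱ`. -/
theorem sum_dd_rho_sq_le (X : Config m) : ∑ j, dd (dir j) (rho : Config m → ℝ) X ^ 2 ≤ 1 := by
  simp only [dd_rho, div_pow]
  rw [← Finset.sum_div, div_le_one (by have := rho_pos X; positivity), Fintype.sum_prod_type, rho_sq]
  have : ∀ i, ∑ a, X i a ^ 2 = ‖X i‖ ^ 2 := fun i => (EuclideanSpace.real_norm_sq_eq (X i)).symm
  simp only [this]
  linarith

/-- `ϱ` is `1`-Lipschitz for the Euclidean distance; we only need: moving ONE electron by at most `s`. -/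
theorem rho_ge_of_norm_sub_le {X Y : Config m} {s : ℝ} (h : √(∑ i, ‖X i - Y i‖ ^ 2) ≤ s) : rho Y - s ≤ rho X := by
  set d : ℝ := √(∑ i, ‖X i - Y i‖ ^ 2) with hd
  have hd0 : 0 ≤ d := Real.sqrt_nonneg _
  have hd2 : d ^ 2 = ∑ i, ‖X i - Y i‖ ^ 2 := Real.sq_sqrt (by positivity)
  have hX := rho_pos X
  have key : rho Y ≤ rho X + d := by
    refine (abs_le_of_sq_le_sq' ?_ (by positivity)).2
    rw [rho_sq]
    have h1 : ∀ i, ‖Y i‖ ^ 2 ≤ ‖X i‖ ^ 2 + 2 * (‖X i‖ * ‖X i - Y i‖) + ‖X i - Y i‖ ^ 2 := by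
      intro i
      have : ‖Y i‖ ≤ ‖X i‖ + ‖X i - Y i‖ := by
        have := norm_sub_le (X i) (X i - Y i)
        simpa using this
      calc ‖Y i‖ ^ 2 ≤ (‖X i‖ + ‖X i - Y i‖) ^ 2 := pow_le_pow_left₀ (norm_nonneg _) this 2
        _ = _ := by ring
    have h2 := Finset.sum_le_sum fun i (_ : i ∈ Finset.univ) => h1 i
    rw [Finset.sum_add_distrib, Finset.sum_add_distrib, ← Finset.mul_sum, ← hd2] at h2
    have h3 := Real.sum_mul_le_sqrt_mul_sqrt Finset.univ (fun i => ‖X i‖) (fun i => ‖X i - Y i‖)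
    rw [← hd] at h3
    have h4 : √(∑ i, ‖X i‖ ^ 2) ≤ rho X := by
      unfold rho
      exact Real.sqrt_le_sqrt (by linarith)
    have h5 : √(∑ i, ‖X i‖ ^ 2) * d ≤ rho X * d := mul_le_mul_of_nonneg_right h4 hd0
    have h6 := rho_sq X
    nlinarith
  linarith

theorem norm_one_pair_le (X : Config m) : ‖((1 : ℝ), X)‖ ≤ rho X := by
  rw [Prod.norm_def]
  refine max_le (by simpa using one_le_rho X) ?_
  exact (pi_norm_le_iff_of_nonneg (rho_pos X).le).2 fun i => norm_le_rho X i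

theorem rho_le_mul_norm (X : Config m) : rho X ≤ √((m : ℝ) + 1) * ‖((1 : ℝ), X)‖ := by
  set N := ‖((1 : ℝ), X)‖ with hN
  have h1 : (1 : ℝ) ≤ N := by
    rw [hN, Prod.norm_def]; exact le_trans (by simp) (le_max_left _ _)
  have h2 : ∀ i, ‖X i‖ ≤ N := fun i => by
    rw [hN, Prod.norm_def]; exact (norm_le_pi_norm X i).trans (le_max_right _ _)
  unfold rho
  rw [← Real.sqrt_sq (show 0 ≤ N by linarith), ← Real.sqrt_mul (by positivity)]
  refine Real.sqrt_le_sqrt ?_
  have h3 : ∑ i, ‖X i‖ ^ 2 ≤ (m : ℝ) * N ^ 2 := by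
    have := Finset.sum_le_card_nsmul Finset.univ (fun i => ‖X i‖ ^ 2) (N ^ 2)
      (fun i _ => pow_le_pow_left₀ (norm_nonneg _) (h2 i) 2)
    simpa using this
  nlinarith

theorem norm_pair_rpow_le (e : ℝ) : ∃ c : ℝ, 0 ≤ c ∧ ∀ X : Config m, ‖((1 : ℝ), X)‖ ^ e ≤ c * rho X ^ e := by
  set r : ℝ := √((m : ℝ) + 1) with hr
  have hr1 : 1 ≤ r := by rw [hr, Real.one_le_sqrt]; have : (0 : ℝ) ≤ m := by positivity
                         linarith
  have hr0 : 0 < r := by linarith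
  refine ⟨1 + r ^ (-e), by positivity, fun X => ?_⟩
  have hN : 0 < ‖((1 : ℝ), X)‖ := by
    rw [Prod.norm_def]; exact lt_of_lt_of_le (by simp) (le_max_left _ _)
  have hρ := rho_pos X
  have hp : 0 < rho X ^ e := Real.rpow_pos_of_pos hρ e
  have hq : 0 < r ^ (-e) := Real.rpow_pos_of_pos hr0 _
  rcases le_total 0 e with he | he
  · have := Real.rpow_le_rpow hN.le (norm_one_pair_le X) he
    nlinarith
  · have h1 : rho X / r ≤ ‖((1 : ℝ), X)‖ := by
      rw [div_le_iff₀ hr0, mul_comm]; exact rho_le_mul_norm X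
    have h2 := Real.rpow_le_rpow_of_nonpos (by positivity) h1 he
    rw [Real.div_rpow hρ.le hr0.le, div_eq_mul_inv, ← Real.rpow_neg hr0.le] at h2
    nlinarith

/-- restriction to the hyperplane `{1} × Config m` of a function on `ℝ × Config m` which is smooth off `0` and homogeneous
of degree `a` is a symbol of order `a`.  (`homog_bound` on `ℝ × Config m`; `X ↦ (1, X)` is affine;
`ϱ(X)/√(m+1) ≤ ‖(1, X)‖ ≤ ϱ(X)`.) -/
theorem Sym.of_homog {q : ℝ × Config m → ℝ} {a : ℝ} (hq : ContDiffOn ℝ ∞ q {0}ᶜ)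
    (hh : ∀ c : ℝ, 0 < c → ∀ z : ℝ × Config m, z ≠ 0 → q (c • z) = c ^ a * q z) :
    Sym a (fun X => q (1, X)) := by
  have ho : IsOpen ({0}ᶜ : Set (ℝ × Config m)) := isOpen_compl_singleton
  have hne : ∀ X : Config m, ((1 : ℝ), X) ≠ 0 := fun X h => by
    have := congrArg Prod.fst h
    simp at this
  refine ⟨?_, fun k => ?_⟩
  · rw [contDiff_iff_contDiffAt]
    intro X
    exact (hq.contDiffAt (ho.mem_nhds (hne X))).comp X (contDiffAt_const.prodMk contDiffAt_id)
  · obtain ⟨C, hC, hb⟩ := homog_bound hq hh k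
    obtain ⟨c, hc, hcb⟩ := norm_pair_rpow_le (m := m) (a - k)
    refine ⟨C * c, fun X => ?_⟩
    set p : ℝ × Config m := (1, 0) with hp
    set q' : ℝ × Config m → ℝ := fun z => q (z + p) with hq'
    set s : Set (ℝ × Config m) := (fun z => z + p) ⁻¹' {0}ᶜ with hs
    have hso : IsOpen s := ho.preimage (continuous_id.add continuous_const)
    have hq's : ContDiffOn ℝ ∞ q' s :=
      hq.comp (contDiff_id.add contDiff_const).contDiffOn (fun z hz => hz)
    set L : Config m →L[ℝ] ℝ × Config m := ContinuousLinearMap.inr ℝ ℝ (Config m) with hL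
    have hLX : ∀ Y : Config m, L Y + p = (1, Y) := fun Y => by simp [hL, hp]
    have hpre : L ⁻¹' s = univ := by
      ext Y
      simp only [hs, mem_preimage, mem_univ, iff_true, hLX]
      exact hne Y
    have hx : L X ∈ s := by
      have : X ∈ L ⁻¹' s := by rw [hpre]; exact mem_univ X
      exact this
    have h1 := L.iteratedFDerivWithin_comp_right hq's hso.uniqueDiffOn (by rw [hpre]; exact uniqueDiffOn_univ) hx
      (i := k) (by exact_mod_cast le_top)
    rw [hpre, iteratedFDerivWithin_univ, iteratedFDerivWithin_of_isOpen k hso hx] at h1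
    have e1 : q' ∘ L = fun X => q (1, X) := by
      funext Y; simp only [Function.comp, hq', hLX]
    have e2 : iteratedFDeriv ℝ k q' (L X) = iteratedFDeriv ℝ k q (1, X) := by
      rw [hq', iteratedFDeriv_comp_add_right, hLX]
    rw [e1, e2] at h1
    rw [h1]
    refine (ContinuousMultilinearMap.norm_compContinuousLinearMap_le _ _).trans ?_
    have hL1 : ‖L‖ ≤ 1 := ContinuousLinearMap.norm_inr_le_one ℝ ℝ (Config m)
    have h2 : ∏ _i : Fin k, ‖L‖ ≤ 1 := Finset.prod_le_one (fun _ _ => norm_nonneg _) (fun _ _ => hL1)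
    calc ‖iteratedFDeriv ℝ k q (1, X)‖ * ∏ _i : Fin k, ‖L‖ ≤ ‖iteratedFDeriv ℝ k q (1, X)‖ * 1 :=
          mul_le_mul_of_nonneg_left h2 (norm_nonneg _)
      _ = ‖iteratedFDeriv ℝ k q (1, X)‖ := mul_one _
      _ ≤ C * ‖((1 : ℝ), X)‖ ^ (a - k) := hb _ (hne X)
      _ ≤ C * (c * rho X ^ (a - k)) := mul_le_mul_of_nonneg_left (hcb X) hC
      _ = _ := by ring

theorem sym_rho : Sym 1 (rho : Config m → ℝ) := by
  set q : ℝ × Config m → ℝ := fun z => √(z.1 ^ 2 + ∑ i, ‖z.2 i‖ ^ 2) with hq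
  have hpos : ∀ z : ℝ × Config m, z ≠ 0 → z.1 ^ 2 + ∑ i, ‖z.2 i‖ ^ 2 ≠ 0 := by
    intro z hz h0
    have h1 : 0 ≤ ∑ i, ‖z.2 i‖ ^ 2 := by positivity
    have h2 : z.1 ^ 2 = 0 := by nlinarith [sq_nonneg z.1]
    have h3 : ∑ i, ‖z.2 i‖ ^ 2 = 0 := by nlinarith [sq_nonneg z.1]
    have h4 : ∀ i, z.2 i = 0 := by
      intro i
      have := (Finset.sum_eq_zero_iff_of_nonneg (fun i _ => sq_nonneg ‖z.2 i‖)).1 h3 i (Finset.mem_univ i)
      simpa using this
    apply hz
    ext1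
    · simpa using h2
    · funext i; exact h4 i
  have h := Sym.of_homog (m := m) (q := q) (a := 1) ?_ ?_
  · have e : (fun X : Config m => q (1, X)) = rho := by
      funext X; simp [hq, rho]
    rwa [e] at h
  · intro z hz
    refine ContDiffAt.contDiffWithinAt ?_
    refine ContDiffAt.sqrt ?_ (hpos z hz)
    refine (contDiffAt_fst.pow 2).add (ContDiffAt.sum fun i _ => ?_)
    exact (((contDiff_apply ℝ Space i).contDiffAt).comp z contDiffAt_snd).norm_sq ℝ
  · intro c hc z _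
    simp only [hq, Prod.smul_fst, Prod.smul_snd, Pi.smul_apply, norm_smul, smul_eq_mul, Real.rpow_one, mul_pow,
      Real.norm_eq_abs, sq_abs]
    rw [← Finset.mul_sum, ← mul_add, Real.sqrt_mul (sq_nonneg c), Real.sqrt_sq hc.le]

theorem Sym.exists_bound {a : ℝ} {f : Config m → ℝ} (hf : Sym a f) (k : ℕ) :
    ∃ C : ℝ, 0 ≤ C ∧ ∀ i ≤ k, ∀ X, ‖iteratedFDeriv ℝ i f X‖ ≤ C * rho X ^ (a - i) := by
  choose C hC using hf.2
  refine ⟨∑ i ∈ Finset.range (k + 1), |C i|, Finset.sum_nonneg fun _ _ => abs_nonneg _, fun i hi X => ?_⟩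
  refine (hC i X).trans (mul_le_mul_of_nonneg_right ?_ (Real.rpow_pos_of_pos (rho_pos X) _).le)
  exact (le_abs_self _).trans
    (Finset.single_le_sum (f := fun i => |C i|) (fun _ _ => abs_nonneg _) (Finset.mem_range.2 (by omega)))

theorem Sym.mul {a b : ℝ} {f g : Config m → ℝ} (hf : Sym a f) (hg : Sym b g) :
    Sym (a + b) (fun X => f X * g X) := by
  refine ⟨hf.1.mul hg.1, fun k => ?_⟩
  obtain ⟨A, hA0, hA⟩ := Sym.exists_bound hf k
  obtain ⟨B, hB0, hB⟩ := Sym.exists_bound hg k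
  refine ⟨2 ^ k * (A * B), fun X => ?_⟩
  have hρ := rho_pos X
  have h1 := norm_iteratedFDeriv_mul_le hf.1 hg.1 X (n := k) (by exact_mod_cast le_top)
  refine h1.trans ?_
  have h2 : ∀ i ∈ Finset.range (k + 1), (k.choose i : ℝ) * ‖iteratedFDeriv ℝ i f X‖ * ‖iteratedFDeriv ℝ (k - i) g X‖
      ≤ (k.choose i : ℝ) * (A * B * rho X ^ (a + b - k)) := by
    intro i hi
    have hik : i ≤ k := by have := Finset.mem_range.1 hi; omega
    rw [mul_assoc]
    refine mul_le_mul_of_nonneg_left ?_ (by positivity)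
    have e : rho X ^ (a + b - k) = rho X ^ (a - i) * rho X ^ (b - ((k - i : ℕ) : ℝ)) := by
      rw [← Real.rpow_add hρ, Nat.cast_sub hik]
      congr 1; ring
    rw [e]
    calc _ ≤ (A * rho X ^ (a - i)) * (B * rho X ^ (b - ((k - i : ℕ) : ℝ))) :=
          mul_le_mul (hA i hik X) (hB (k - i) (by omega) X) (norm_nonneg _)
            (mul_nonneg hA0 (Real.rpow_pos_of_pos hρ _).le)
      _ = _ := by ring
  refine (Finset.sum_le_sum h2).trans (le_of_eq ?_)
  rw [← Finset.sum_mul, ← Nat.cast_sum, Nat.sum_range_choose]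
  push_cast
  ring

theorem Sym.add {a : ℝ} {f g : Config m → ℝ} (hf : Sym a f) (hg : Sym a g) : Sym a (fun X => f X + g X) := by
  refine ⟨hf.1.add hg.1, fun k => ?_⟩
  obtain ⟨A, hA⟩ := hf.2 k
  obtain ⟨B, hB⟩ := hg.2 k
  refine ⟨A + B, fun X => ?_⟩
  have e : iteratedFDeriv ℝ k (fun z => f z + g z) X = iteratedFDeriv ℝ k f X + iteratedFDeriv ℝ k g X :=
    iteratedFDeriv_add_apply (hf.1.contDiffAt.of_le (by exact_mod_cast le_top))
      (hg.1.contDiffAt.of_le (by exact_mod_cast le_top))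
  rw [e, add_mul]
  exact (norm_add_le _ _).trans (add_le_add (hA X) (hB X))

theorem Sym.const (c : ℝ) : Sym 0 (fun _ : Config m => c) := by
  refine ⟨contDiff_const, fun k => ⟨|c|, fun X => ?_⟩⟩
  rcases Nat.eq_zero_or_pos k with rfl | hk
  · rw [norm_iteratedFDeriv_zero, Real.norm_eq_abs]; simp
  · rw [iteratedFDeriv_const_of_ne hk.ne']
    simp only [Pi.zero_apply, norm_zero]
    exact mul_nonneg (abs_nonneg _) (Real.rpow_pos_of_pos (rho_pos X) _).le

/-- outer composition of a symbol of order `0` with a function with bounded derivatives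
(`norm_iteratedFDeriv_comp_le` at the point `X` with `D = C/ϱ(X)`). -/
theorem Sym.comp_real {f : Config m → ℝ} (hf : Sym 0 f) {T : ℝ → ℝ} (hT : BddDeriv T) :
    Sym 0 (fun X => T (f X)) := by
  refine ⟨hT.1.comp hf.1, fun k => ?_⟩
  obtain ⟨A, hA0, hA⟩ := Sym.exists_bound hf k
  obtain ⟨B, _, hB⟩ := BddDeriv.exists_bound hT k
  refine ⟨k.factorial * B * (A + 1) ^ k, fun X => ?_⟩
  have hρ := rho_pos X
  have h1 := norm_iteratedFDeriv_comp_le hT.1 hf.1 (n := k) (by exact_mod_cast le_top) X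
    (C := B) (D := (A + 1) / rho X) (fun i hi => hB i hi _) (fun i h1 hi => ?_)
  · refine h1.trans (le_of_eq ?_)
    rw [div_pow, zero_sub, Real.rpow_neg hρ.le, Real.rpow_natCast]
    ring
  · rw [div_pow]
    have h2 := hA i hi X
    rw [zero_sub, Real.rpow_neg hρ.le, Real.rpow_natCast] at h2
    refine h2.trans ?_
    rw [div_eq_mul_inv]
    refine mul_le_mul_of_nonneg_right ?_ (by positivity)
    calc A ≤ A + 1 := by linarith
      _ ≤ (A + 1) ^ i := le_self_pow₀ (by linarith) (by omega)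

/-- symbols of order `≤ 0` have bounded derivatives. -/
theorem Sym.bddDeriv {a : ℝ} (ha : a ≤ 0) {f : Config m → ℝ} (hf : Sym a f) : BddDeriv f := by
  refine ⟨hf.1, fun k => ?_⟩
  obtain ⟨C, hC⟩ := hf.2 k
  refine ⟨|C|, fun X => (hC X).trans ?_⟩
  have h1 : rho X ^ (a - k) ≤ 1 :=
    Real.rpow_le_one_of_one_le_of_nonpos (one_le_rho X) (by
      have : (0 : ℝ) ≤ k := by positivity
      linarith)
  have h2 : 0 ≤ rho X ^ (a - k) := (Real.rpow_pos_of_pos (rho_pos X) _).le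
  calc C * rho X ^ (a - k) ≤ |C| * rho X ^ (a - k) := mul_le_mul_of_nonneg_right (le_abs_self C) h2
    _ ≤ |C| * 1 := mul_le_mul_of_nonneg_left h1 (abs_nonneg C)
    _ = |C| := mul_one _

theorem Sym.dd {a : ℝ} {f : Config m → ℝ} (hf : Sym a f) (u : Config m) : Sym (a - 1) (dd u f) := by
  refine ⟨contDiff_dd hf.1 u, fun k => ?_⟩
  obtain ⟨C, hC⟩ := hf.2 (k + 1)
  refine ⟨C * ‖u‖, fun X => (norm_iteratedFDeriv_dd_le hf.1 u k X).trans ?_⟩
  have e : a - ((k + 1 : ℕ) : ℝ) = a - 1 - k := by push_cast; ring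
  have := hC X
  rw [e] at this
  calc _ ≤ C * rho X ^ (a - 1 - k) * ‖u‖ := mul_le_mul_of_nonneg_right this (norm_nonneg _)
    _ = _ := by ring

end K3

end Claimed.Open.R278.AG
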