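import Claimed.Open.R278.MBBasis

/-!
# Result 278, layer L2a (BP-MB1): calculus along one electron coordinate, `x = i.insertNth r y`

Prover: helper51.  Sorry-free.  Part 1 (Fubini) is a copy of helper6's `ENFub.lean` (which sits above `Top.lean` in the import graph) with the
prefix `mbi_`.  Part 2: products.  Part 3: slices of `C¹` functions.
-/

open MeasureTheory Filter
open scoped ContDiff InnerProductSpace ComplexConjugate ENNReal Topology

noncomputable section

set_option linter.unusedSectionVars false

namespace Claimed.Open.R278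

variable {n : ℕ} {E : Type*} [NormedAddCommGroup E]

/-! ## Fubini -/

/-- `(y, r) ↦ x` with `x i = r`, the others at `y`. -/
def mbIns (n : ℕ) (i : Fin (n + 1)) : Config n × Space ≃ᵐ Config (n + 1) :=
  MeasurableEquiv.prodComm.trans (MeasurableEquiv.piFinSuccAbove (fun _ : Fin (n + 1) => Space) i).symm

theorem mbIns_apply (i : Fin (n + 1)) (p : Config n × Space) :
    mbIns n i p = (i.insertNth p.2 p.1 : Config (n + 1)) := by
  simp [mbIns, MeasurableEquiv.piFinSuccAbove, Fin.insertNthEquiv, MeasurableEquiv.prodComm]

theorem measurePreserving_mbIns (i : Fin (n + 1)) : MeasurePreserving (mbIns n i) volume volume :=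
  ((volume_preserving_piFinSuccAbove (fun _ : Fin (n + 1) => Space) i).symm).comp
    (Measure.measurePreserving_swap (μ := (volume : Measure (Config n))) (ν := (volume : Measure Space)))

theorem mbi_integrable_comp (i : Fin (n + 1)) {F : Config (n + 1) → E} (hF : Integrable F) :
    Integrable (fun p : Config n × Space => F (i.insertNth p.2 p.1 : Config (n + 1))) (volume.prod volume) := by
  have := ((measurePreserving_mbIns i).integrable_comp_emb (mbIns n i).measurableEmbedding).2 hF
  rw [Measure.volume_eq_prod] at this
  simpa [Function.comp_def, mbIns_apply] using this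

theorem mbi_aesm_comp (i : Fin (n + 1)) {F : Config (n + 1) → E} (hF : AEStronglyMeasurable F volume) :
    AEStronglyMeasurable (fun p : Config n × Space => F (i.insertNth p.2 p.1 : Config (n + 1)))
      (volume.prod volume) := by
  have := hF.comp_measurePreserving (measurePreserving_mbIns i)
  rw [Measure.volume_eq_prod] at this
  simpa [Function.comp_def, mbIns_apply] using this

theorem mbi_integral [NormedSpace ℝ E] (i : Fin (n + 1)) {F : Config (n + 1) → E} (hF : Integrable F) :
    ∫ x, F x = ∫ y : Config n, ∫ r : Space, F (i.insertNth r y : Config (n + 1)) := by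
  have h1 : ∫ x, F x = ∫ p : Config n × Space, F (mbIns n i p) :=
    ((measurePreserving_mbIns i).integral_comp' F).symm
  rw [h1]
  have := integral_prod _ (mbi_integrable_comp i hF)
  rw [← Measure.volume_eq_prod] at this
  simpa [mbIns_apply] using this

theorem mbi_integrable_ae (i : Fin (n + 1)) {F : Config (n + 1) → E} (hF : Integrable F) :
    ∀ᵐ y : Config n, Integrable fun r : Space => F (i.insertNth r y : Config (n + 1)) :=
  (mbi_integrable_comp i hF).prod_right_ae

theorem mbi_integrable_integral [NormedSpace ℝ E] (i : Fin (n + 1)) {F : Config (n + 1) → E}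
    (hF : Integrable F) :
    Integrable fun y : Config n => ∫ r : Space, F (i.insertNth r y : Config (n + 1)) :=
  (mbi_integrable_comp i hF).integral_prod_left

theorem mbi_ae (i : Fin (n + 1)) {P : Config (n + 1) → Prop} (h : ∀ᵐ x, P x) :
    ∀ᵐ y : Config n, ∀ᵐ r : Space, P (i.insertNth r y : Config (n + 1)) := by
  have h1 : ∀ᵐ p : Config n × Space, P (mbIns n i p) :=
    (measurePreserving_mbIns i).quasiMeasurePreserving.ae h
  rw [Measure.volume_eq_prod] at h1
  have := Measure.ae_ae_of_ae_prod h1
  simpa [mbIns_apply] using this

/-! ## Products -/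

theorem mbi_prod {M : Type*} [CommMonoid M] (f : Fin (n + 1) → Space → M) (i : Fin (n + 1)) (r : Space)
    (y : Config n) :
    ∏ j, f j ((i.insertNth r y : Config (n + 1)) j) = f i r * ∏ j, f (i.succAbove j) (y j) := by
  rw [Fin.prod_univ_succAbove _ i]
  simp

/-! ## Slices -/

theorem mbi_insertNth_eq (i : Fin (n + 1)) (r : Space) (y : Config n) :
    (i.insertNth r y : Config (n + 1)) =
      (i.insertNth 0 y : Config (n + 1)) + ContinuousLinearMap.single ℝ (fun _ : Fin (n + 1) => Space) i r := by
  funext j
  rcases Fin.eq_self_or_eq_succAbove i j with rfl | ⟨k, rfl⟩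
  · simp
  · simp [Fin.succAbove_ne]

theorem mbi_continuous_ins (i : Fin (n + 1)) :
    Continuous fun p : Config n × Space => (i.insertNth p.2 p.1 : Config (n + 1)) :=
  Continuous.finInsertNth i continuous_snd continuous_fst

variable [NormedSpace ℝ E]

theorem mbi_hasFDerivAt_slice {F : Config (n + 1) → E} (hF : ContDiff ℝ 1 F) (i : Fin (n + 1)) (y : Config n)
    (r : Space) :
    HasFDerivAt (fun r : Space => F (i.insertNth r y : Config (n + 1)))
      ((fderiv ℝ F (i.insertNth r y : Config (n + 1))).comp
        (ContinuousLinearMap.single ℝ (fun _ : Fin (n + 1) => Space) i)) r := by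
  have h1 : HasFDerivAt (fun r : Space => (i.insertNth r y : Config (n + 1)))
      (ContinuousLinearMap.single ℝ (fun _ : Fin (n + 1) => Space) i) r := by
    have e : (fun r : Space => (i.insertNth r y : Config (n + 1))) = fun r =>
        (i.insertNth 0 y : Config (n + 1)) + ContinuousLinearMap.single ℝ (fun _ : Fin (n + 1) => Space) i r :=
      funext fun r => mbi_insertNth_eq i r y
    rw [e]
    exact (ContinuousLinearMap.hasFDerivAt _).const_add _
  exact ((hF.differentiable one_ne_zero) _).hasFDerivAt.comp r h1

theorem mbi_fderiv_slice {F : Config (n + 1) → E} (hF : ContDiff ℝ 1 F) (i : Fin (n + 1)) (y : Config n)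
    (r : Space) (c : Fin 3) :
    fderiv ℝ (fun r : Space => F (i.insertNth r y : Config (n + 1))) r (EuclideanSpace.single c 1) =
      fderiv ℝ F (i.insertNth r y : Config (n + 1)) (dir (i, c)) := by
  rw [(mbi_hasFDerivAt_slice hF i y r).fderiv]
  rfl

theorem mbi_contDiff_slice {k : ℕ∞ω} {F : Config (n + 1) → E} (hF : ContDiff ℝ k F) (i : Fin (n + 1))
    (y : Config n) : ContDiff ℝ k (fun r : Space => F (i.insertNth r y : Config (n + 1))) := by
  have e : (fun r : Space => F (i.insertNth r y : Config (n + 1))) = fun r =>
      F ((i.insertNth 0 y : Config (n + 1)) + ContinuousLinearMap.single ℝ (fun _ : Fin (n + 1) => Space) i r) :=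
    funext fun r => by rw [← mbi_insertNth_eq i r y]
  rw [e]
  exact hF.comp (contDiff_const.add (ContinuousLinearMap.contDiff _))

theorem mbi_hasCompactSupport_slice {F : Config (n + 1) → E} (hc : HasCompactSupport F) (i : Fin (n + 1))
    (y : Config n) : HasCompactSupport (fun r : Space => F (i.insertNth r y : Config (n + 1))) := by
  refine HasCompactSupport.intro (hc.isCompact.image (continuous_apply i)) fun r hr => ?_
  refine image_eq_zero_of_notMem_tsupport fun h => hr ⟨_, h, ?_⟩
  simp

/-- the slices vanish for `y` outside a compact set. -/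
theorem mbi_slice_eq_zero {F : Config (n + 1) → E} (hc : HasCompactSupport F) (i : Fin (n + 1)) :
    ∃ K : Set (Config n), IsCompact K ∧ ∀ y ∉ K, ∀ r : Space, F (i.insertNth r y : Config (n + 1)) = 0 := by
  refine ⟨(fun x : Config (n + 1) => i.removeNth x) '' tsupport F,
    hc.isCompact.image (continuous_pi fun j => continuous_apply _), fun y hy r => ?_⟩
  refine image_eq_zero_of_notMem_tsupport fun h => hy ⟨_, h, ?_⟩
  simp

end Claimed.Open.R278
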