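import Claimed.Open.R278.FormLemmas
import Claimed.Open.R278.AGKernel
import Claimed.Open.R278.MBFub

/-!
# Result 278, layer AG, file 7: from `Statement.lean` to raw functions; the exterior form bound (3.12)

* Bridge: an element of `Eigenspace (scaledPotential m t) En` (equation tested against ANTISYMMETRIC form-domain vectors
  only) is a weak solution in the sense of `AG.IsWeakSol` (tested against ALL `H¹` pairs): antisymmetrise the test function.
* `oneBody_config`: `h_D ≥ ε_b` in each electron variable, on `E`-valued `H¹` pairs on `Config m`.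
* `exists_partition`, `extBound_coulomb`: `H_{3,t} ≥ 2 ε_b - C/R` on functions supported in `{ϱ > R}`, uniformly in `t ≥ 0`
  (`eq:configuration-exterior-bound`).
-/

open MeasureTheory Filter Topology Set
open scoped ContDiff InnerProductSpace

noncomputable section

set_option linter.unusedSectionVars false

namespace Claimed.Open.R278.AG

/-! ## `L2 m` versus raw functions (see `FSBridge.lean`: `MemH1.wd2`, `memH1_toLp`, `weakGrad_toLp`, `L2.norm_sq_eq`, `L2.inner_eq`;
`FSHardy.lean`: `mem_formDomain_scaledPotential_iff`) -/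

section B1

variable {m : ℕ}

/-- `MemH1` gives an `H¹` pair. -/
theorem h1_of_memH1 {Ψ : L2 m} (h : MemH1 Ψ) :
    H1 (volume : Measure (Config m)) dir (Ψ : Config m → SpinSpace m) (fun j => (weakGrad Ψ j : Config m → SpinSpace m)) :=
  ⟨Lp.memLp Ψ, fun j => h.wd2 j⟩

/-- an `H¹` pair gives an element of `MemH1` with the expected weak gradient. -/
theorem h1_toLp {f : Config m → SpinSpace m} {G : Fin m × Fin 3 → Config m → SpinSpace m}
    (h : H1 (volume : Measure (Config m)) dir f G) :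
    MemH1 (h.mem.toLp f) ∧ ∀ j, weakGrad (h.mem.toLp f) j = (h.wd j).memg.toLp (G j) :=
  ⟨memH1_toLp h.mem (fun j => (h.wd j).memg) (fun j => (h.wd j).weak),
    fun j => congrFun (weakGrad_toLp h.mem (fun j => (h.wd j).memg) (fun j => (h.wd j).weak)) j⟩

theorem nsq_coe (Ψ : L2 m) : nsq volume (Ψ : Config m → SpinSpace m) = ‖Ψ‖ ^ 2 := (L2.norm_sq_eq Ψ).symm

end B1

/-! ## LEAF AG-B2: the action of permutations and the antisymmetriser -/

section B2

variable {m : ℕ}

/-- `(π · f)(x, s) = f(x ∘ π, s ∘ π)`. -/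
def permAct (π : Equiv.Perm (Fin m)) (f : Config m → SpinSpace m) : Config m → SpinSpace m :=
  fun x => WithLp.toLp 2 fun s => f (x ∘ π) (s ∘ π)

/-- the antisymmetriser `A f = (1/m!) ∑_π sgn(π) π · f`. -/
def antisymm (f : Config m → SpinSpace m) : Config m → SpinSpace m :=
  fun x => ((m.factorial : ℂ)⁻¹) • ∑ π : Equiv.Perm (Fin m), ((Equiv.Perm.sign π : ℤ) : ℂ) • permAct π f x

/-- the permutation of the spin indices as a linear isometry. -/
def permSpin (π : Equiv.Perm (Fin m)) : SpinSpace m ≃ₗᵢ[ℂ] SpinSpace m :=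
  LinearIsometryEquiv.piLpCongrLeft 2 ℂ ℂ (Equiv.arrowCongr π (Equiv.refl (Fin 2)))

theorem permSpin_apply (π : Equiv.Perm (Fin m)) (z : SpinSpace m) (s : SpinConfig m) :
    permSpin π z s = z (s ∘ π) := by
  simp [permSpin, LinearIsometryEquiv.piLpCongrLeft_apply, Equiv.piCongrLeft', Function.comp_def]
  rfl

theorem permAct_eq (π : Equiv.Perm (Fin m)) (f : Config m → SpinSpace m) (x : Config m) :
    permAct π f x = permSpin π (f (x ∘ π)) := by
  ext s
  rw [permSpin_apply]
  rfl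

/-- the permutation of the particles as a continuous linear equivalence. -/
def permCLE (π : Equiv.Perm (Fin m)) : Config m ≃L[ℝ] Config m :=
  (LinearEquiv.funCongrLeft ℝ Space π).toContinuousLinearEquiv

theorem permCLE_apply (π : Equiv.Perm (Fin m)) (x : Config m) : permCLE π x = x ∘ π := rfl

theorem permCLE_dir (π : Equiv.Perm (Fin m)) (j : Fin m × Fin 3) :
    permCLE π (dir j) = dir (π.symm j.1, j.2) := by
  funext k
  rw [permCLE_apply]
  simp only [dir, Function.comp_apply, Pi.single_apply]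
  by_cases h : π k = j.1
  · rw [if_pos h, if_pos (by rw [← h, Equiv.symm_apply_apply])]
  · rw [if_neg h, if_neg (fun h' => h (by rw [h', Equiv.apply_symm_apply]))]

/-- pointwise unitarity of the spin part. -/
theorem inner_permAct (π : Equiv.Perm (Fin m)) (f g : Config m → SpinSpace m) (x : Config m) :
    ⟪permAct π f x, permAct π g x⟫_ℂ = ⟪f (x ∘ π), g (x ∘ π)⟫_ℂ := by
  rw [permAct_eq, permAct_eq, LinearIsometryEquiv.inner_map_map]

theorem memLp_permAct {f : Config m → SpinSpace m} (hf : MemLp f 2 volume) (π : Equiv.Perm (Fin m)) :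
    MemLp (permAct π f) 2 volume := by
  have h1 : MemLp (fun x : Config m => f (x ∘ π)) 2 volume :=
    hf.comp_measurePreserving (measurePreserving_comp_perm π)
  have h2 := (permSpin π).toLinearIsometry.toContinuousLinearMap.comp_memLp' h1
  refine h2.ae_eq (Eventually.of_forall fun x => ?_)
  rw [permAct_eq]
  rfl

theorem wd2_permAct {f g : Config m → SpinSpace m} (π : Equiv.Perm (Fin m)) {j : Fin m × Fin 3}
    (h : WD2 (volume : Measure (Config m)) (dir (π.symm j.1, j.2)) f g) :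
    WD2 (volume : Measure (Config m)) (dir j) (permAct π f) (permAct π g) := by
  rw [← permCLE_dir] at h
  have h1 := (WD2.comp_equiv (ν := (volume : Measure (Config m))) (permCLE π) h).wd
  have h2 := h1.clm ((permSpin π).toLinearIsometry.toContinuousLinearMap.restrictScalars ℝ)
  refine ⟨memLp_permAct h.memf π, memLp_permAct h.memg π, ?_⟩
  have e : ∀ u : Config m → SpinSpace m, permAct π u = fun x =>
      ((permSpin π).toLinearIsometry.toContinuousLinearMap.restrictScalars ℝ) (u (permCLE π x)) := by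
    intro u
    funext x
    rw [permAct_eq]
    rfl
  rw [e f, e g]
  exact h2.weak

/-- `∂_{(i,a)} (π · f) = π · (∂_{(π⁻¹ i, a)} f)`. -/
theorem H1.permAct {f : Config m → SpinSpace m} {G : Fin m × Fin 3 → Config m → SpinSpace m}
    (h : H1 (volume : Measure (Config m)) dir f G) (π : Equiv.Perm (Fin m)) :
    H1 (volume : Measure (Config m)) dir (permAct π f) (fun j => permAct π (G (π.symm j.1, j.2))) :=
  ⟨memLp_permAct h.mem π, fun j => wd2_permAct π (h.wd (π.symm j.1, j.2))⟩

theorem repulsion_eq_half (x : Config m) :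
    repulsion x = (1 / 2) * ∑ i, ∑ j, if i ≠ j then 1 / ‖x i - x j‖ else 0 := by
  have h1 : ∑ i : Fin m, ∑ j : Fin m, (if i ≠ j then 1 / ‖x i - x j‖ else 0) =
      ∑ i : Fin m, ∑ j : Fin m, (if i < j then 1 / ‖x i - x j‖ else 0) +
      ∑ i : Fin m, ∑ j : Fin m, (if j < i then 1 / ‖x i - x j‖ else 0) := by
    rw [← Finset.sum_add_distrib]
    refine Finset.sum_congr rfl fun i _ => ?_
    rw [← Finset.sum_add_distrib]
    refine Finset.sum_congr rfl fun j _ => ?_
    rcases lt_trichotomy i j with h | h | h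
    · rw [if_pos h.ne, if_pos h, if_neg h.asymm, add_zero]
    · subst h
      simp
    · rw [if_pos h.ne', if_neg h.asymm, if_pos h, zero_add]
  have h2 : ∑ i : Fin m, ∑ j : Fin m, (if j < i then 1 / ‖x i - x j‖ else 0) =
      ∑ i : Fin m, ∑ j : Fin m, (if i < j then 1 / ‖x i - x j‖ else 0) := by
    rw [Finset.sum_comm]
    refine Finset.sum_congr rfl fun i _ => Finset.sum_congr rfl fun j _ => ?_
    rw [norm_sub_rev]
  rw [h1, h2]
  unfold repulsion
  ring

theorem scaledPotential_comp_perm (t : ℝ) (π : Equiv.Perm (Fin m)) (x : Config m) :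
    scaledPotential m t (x ∘ π) = scaledPotential m t x := by
  unfold scaledPotential
  have h1 : oneBodyPotential (nuclearPotential 1 bigD) (x ∘ π) = oneBodyPotential (nuclearPotential 1 bigD) x := by
    unfold oneBodyPotential
    exact Equiv.sum_comp π fun i => nuclearPotential 1 bigD (x i)
  have h2 : repulsion (x ∘ π) = repulsion x := by
    rw [repulsion_eq_half, repulsion_eq_half]
    congr 1
    symm
    rw [← Equiv.sum_comp π]
    refine Finset.sum_congr rfl fun i _ => ?_
    rw [← Equiv.sum_comp π]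
    refine Finset.sum_congr rfl fun j _ => ?_
    simp only [Function.comp_apply, ne_eq, π.injective.eq_iff]
  rw [h1, h2]

theorem sign_mul_self (π : Equiv.Perm (Fin m)) :
    ((Equiv.Perm.sign π : ℤ) : ℂ) * ((Equiv.Perm.sign π : ℤ) : ℂ) = 1 := by
  rcases Int.units_eq_one_or (Equiv.Perm.sign π) with h | h <;> simp [h]

theorem conj_sign (π : Equiv.Perm (Fin m)) :
    (starRingEnd ℂ) ((Equiv.Perm.sign π : ℤ) : ℂ) = ((Equiv.Perm.sign π : ℤ) : ℂ) := by
  simp

/-- for antisymmetric `Ψ ∈ H¹`: `π · Ψ = sgn(π) Ψ` and the same for the gradient (with permuted index). -/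
theorem permAct_of_antisymmetric {Ψ : L2 m} (ha : IsAntisymmetric Ψ) (h : MemH1 Ψ) (π : Equiv.Perm (Fin m)) :
    permAct π (Ψ : Config m → SpinSpace m) =ᵐ[volume] (fun x => ((Equiv.Perm.sign π : ℤ) : ℂ) • Ψ x) ∧
    ∀ j : Fin m × Fin 3, permAct π (weakGrad Ψ (π.symm j.1, j.2) : Config m → SpinSpace m)
      =ᵐ[volume] (fun x => ((Equiv.Perm.sign π : ℤ) : ℂ) • weakGrad Ψ j x) := by
  have h1 : permAct π (Ψ : Config m → SpinSpace m) =ᵐ[volume] (fun x => ((Equiv.Perm.sign π : ℤ) : ℂ) • Ψ x) := by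
    filter_upwards [ha π] with x hx
    ext s
    exact hx s
  refine ⟨h1, fun j => ?_⟩
  have h2 := (((h1_of_memH1 h).permAct π).wd j).wd
  have h3 := (((h1_of_memH1 h).smul ((Equiv.Perm.sign π : ℤ) : ℂ)).wd j).wd
  exact (h2.congr_ae h1 (ae_eq_refl _)).unique h3

theorem H1.sum {κ : Type*} (s : Finset κ) {f : κ → Config m → SpinSpace m}
    {G : κ → Fin m × Fin 3 → Config m → SpinSpace m}
    (h : ∀ k ∈ s, H1 (volume : Measure (Config m)) dir (f k) (G k)) :
    H1 (volume : Measure (Config m)) dir (fun x => ∑ k ∈ s, f k x) (fun j x => ∑ k ∈ s, G k j x) := by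
  classical
  induction s using Finset.induction_on with
  | empty => simpa using (H1.zero : H1 (volume : Measure (Config m)) dir (fun _ => (0 : SpinSpace m)) (fun _ _ => 0))
  | insert a s ha ih =>
    have h1 := (h a (Finset.mem_insert_self a s)).add (ih fun k hk => h k (Finset.mem_insert_of_mem hk))
    simpa only [Finset.sum_insert ha] using h1

/-- the `H¹` pair of the antisymmetrised function. -/
theorem H1.antisymm {f : Config m → SpinSpace m} {G : Fin m × Fin 3 → Config m → SpinSpace m}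
    (h : H1 (volume : Measure (Config m)) dir f G) :
    H1 (volume : Measure (Config m)) dir (antisymm f) (fun j x =>
        ((m.factorial : ℂ)⁻¹) • ∑ π : Equiv.Perm (Fin m),
          ((Equiv.Perm.sign π : ℤ) : ℂ) • AG.permAct π (G (π.symm j.1, j.2)) x) :=
  (H1.sum Finset.univ fun π _ => (h.permAct π).smul ((Equiv.Perm.sign π : ℤ) : ℂ)).smul _

theorem antisymm_comp_perm (f : Config m → SpinSpace m) (τ : Equiv.Perm (Fin m)) (x : Config m) (s : SpinConfig m) :
    antisymm f (x ∘ τ) (s ∘ τ) = ((Equiv.Perm.sign τ : ℤ) : ℂ) * antisymm f x s := by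
  unfold antisymm
  simp only [PiLp.smul_apply, smul_eq_mul, WithLp.ofLp_sum, Finset.sum_apply]
  rw [mul_left_comm]
  congr 1
  rw [Finset.mul_sum]
  symm
  rw [← Equiv.sum_comp (Equiv.mulLeft τ)]
  refine Finset.sum_congr rfl fun π _ => ?_
  have e : permAct (τ * π) f x s = permAct π f (x ∘ τ) (s ∘ τ) := rfl
  simp only [Equiv.coe_mulLeft]
  rw [e, Equiv.Perm.sign_mul, ← mul_assoc]
  push_cast
  rw [← mul_assoc, sign_mul_self, one_mul]

/-- the antisymmetrised test function is an antisymmetric `H¹` vector. -/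
theorem antisymm_props {f : Config m → SpinSpace m} {G : Fin m × Fin 3 → Config m → SpinSpace m}
    (h : H1 (volume : Measure (Config m)) dir f G) :
    ∃ (Ξ : L2 m), (Ξ : Config m → SpinSpace m) =ᵐ[volume] antisymm f ∧ IsAntisymmetric Ξ ∧ MemH1 Ξ ∧
      ∀ j : Fin m × Fin 3, (weakGrad Ξ j : Config m → SpinSpace m) =ᵐ[volume] fun x =>
        ((m.factorial : ℂ)⁻¹) • ∑ π : Equiv.Perm (Fin m),
          ((Equiv.Perm.sign π : ℤ) : ℂ) • permAct π (G (π.symm j.1, j.2)) x := by
  have hA := h.antisymm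
  obtain ⟨h1, h2⟩ := h1_toLp hA
  have h0 : (hA.mem.toLp (antisymm f) : Config m → SpinSpace m) =ᵐ[volume] antisymm f := hA.mem.coeFn_toLp
  refine ⟨hA.mem.toLp (antisymm f), h0, fun τ => ?_, h1, fun j => ?_⟩
  · filter_upwards [h0, (measurePreserving_comp_perm τ).quasiMeasurePreserving.ae h0] with x hx hx' s
    rw [hx, hx', antisymm_comp_perm]
  · rw [h2 j]
    exact (hA.wd j).memg.coeFn_toLp

end B2

/-! ## LEAF AG-B3: the bridge -/

section B3

variable {m : ℕ}

theorem integral_inner_permAct (π : Equiv.Perm (Fin m)) (c : Config m → ℂ) (hc : ∀ x, c (x ∘ π) = c x)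
    {u w w' : Config m → SpinSpace m}
    (hw : permAct π w' =ᵐ[volume] fun x => ((Equiv.Perm.sign π : ℤ) : ℂ) • w x) :
    ∫ x, c x * ⟪permAct π u x, w x⟫_ℂ = ((Equiv.Perm.sign π : ℤ) : ℂ) * ∫ y, c y * ⟪u y, w' y⟫_ℂ := by
  rw [← (measurePreserving_comp_perm π).integral_comp (measurableEmbedding_comp_perm π)
    (fun y => c y * ⟪u y, w' y⟫_ℂ), ← integral_const_mul]
  refine integral_congr_ae ?_
  filter_upwards [hw] with x hx
  have e : w x = ((Equiv.Perm.sign π : ℤ) : ℂ) • permAct π w' x := by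
    rw [hx, smul_smul, sign_mul_self, one_smul]
  rw [e, inner_smul_right, inner_permAct, hc]
  ring

theorem integral_inner_antisymm (c : Config m → ℂ) (hc : ∀ (π : Equiv.Perm (Fin m)) (x : Config m), c (x ∘ π) = c x)
    {F w : Config m → SpinSpace m} {u w' : Equiv.Perm (Fin m) → Config m → SpinSpace m}
    (hF : F =ᵐ[volume] fun x => ((m.factorial : ℂ)⁻¹) • ∑ π : Equiv.Perm (Fin m),
      ((Equiv.Perm.sign π : ℤ) : ℂ) • permAct π (u π) x)
    (hw : ∀ π, permAct π (w' π) =ᵐ[volume] fun x => ((Equiv.Perm.sign π : ℤ) : ℂ) • w x)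
    (hi : ∀ π, Integrable (fun x => c x * ⟪permAct π (u π) x, w x⟫_ℂ)) :
    ∫ x, c x * ⟪F x, w x⟫_ℂ = ((m.factorial : ℂ)⁻¹) * ∑ π : Equiv.Perm (Fin m), ∫ y, c y * ⟪u π y, w' π y⟫_ℂ := by
  have e1 : ∫ x, c x * ⟪F x, w x⟫_ℂ = ∫ x, ((m.factorial : ℂ)⁻¹) * ∑ π : Equiv.Perm (Fin m),
      ((Equiv.Perm.sign π : ℤ) : ℂ) * (c x * ⟪permAct π (u π) x, w x⟫_ℂ) := by
    refine integral_congr_ae ?_
    filter_upwards [hF] with x hx
    rw [hx, inner_smul_left, sum_inner, Finset.mul_sum, Finset.mul_sum, Finset.mul_sum]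
    refine Finset.sum_congr rfl fun π _ => ?_
    rw [inner_smul_left, conj_sign, map_inv₀, Complex.conj_natCast]
    ring
  rw [e1, integral_const_mul, integral_finsetSum _ fun π _ => (hi π).const_mul _]
  congr 1
  refine Finset.sum_congr rfl fun π _ => ?_
  rw [integral_const_mul, integral_inner_permAct π c (hc π) (hw π), ← mul_assoc, sign_mul_self, one_mul]

theorem factorial_inv_mul_sum (z : ℂ) :
    ((m.factorial : ℂ)⁻¹) * ∑ _π : Equiv.Perm (Fin m), z = z := by
  rw [Finset.sum_const, Finset.card_univ, Fintype.card_perm, Fintype.card_fin, nsmul_eq_mul, ← mul_assoc,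
    inv_mul_cancel₀ (by exact_mod_cast m.factorial_ne_zero), one_mul]

/-- **Bridge.**  For a test pair `(Ξ, Ξ')` apply the eigen-equation to the antisymmetrisation `AΞ`; each of the `m!` terms
equals the term of `Ξ` itself (change of variables `x ↦ x ∘ π`, `measurePreserving_comp_perm`, `inner_permAct`,
`permAct_of_antisymmetric`, `sgn(π)² = 1`, reindexing of the sum over `j`). -/
theorem isWeakSol_of_mem_eigenspace {t En : ℝ} (h0 : 0 ≤ t) (h1 : t ≤ 1) {Ψ : L2 m}
    (h : Ψ ∈ Eigenspace (scaledPotential m t) En) :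
    H1 (volume : Measure (Config m)) dir (Ψ : Config m → SpinSpace m)
        (fun j => (weakGrad Ψ j : Config m → SpinSpace m)) ∧
      IsWeakSol (volume : Measure (Config m)) dir (scaledPotential m t) En (Ψ : Config m → SpinSpace m)
        (fun j => (weakGrad Ψ j : Config m → SpinSpace m)) (fun _ => 0) := by
  obtain ⟨⟨ha, hm, -⟩, heq⟩ := h
  have hH := h1_of_memH1 hm
  refine ⟨hH, fun Ξ Ξ' hΞ _ => ?_⟩
  obtain ⟨b, -, hb⟩ := exists_formBdd (E := SpinSpace m) m
  have hV := (hb t h0 h1).1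
  obtain ⟨A, hA0, hAa, hAm, hAg⟩ := antisymm_props hΞ
  have hAH := h1_of_memH1 hAm
  have e := heq A (mem_formDomain_scaledPotential_iff.2 ⟨hAa, hAm⟩)
  unfold sesqForm at e
  obtain ⟨hs0, hsg⟩ : (∀ π : Equiv.Perm (Fin m), permAct π (Ψ : Config m → SpinSpace m) =ᵐ[volume]
        (fun x => ((Equiv.Perm.sign π : ℤ) : ℂ) • Ψ x)) ∧
      ∀ (π : Equiv.Perm (Fin m)) (j : Fin m × Fin 3), permAct π (weakGrad Ψ (π.symm j.1, j.2) : Config m → SpinSpace m)
        =ᵐ[volume] (fun x => ((Equiv.Perm.sign π : ℤ) : ℂ) • weakGrad Ψ j x) :=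
    ⟨fun π => (permAct_of_antisymmetric ha hm π).1, fun π => (permAct_of_antisymmetric ha hm π).2⟩
  -- the kinetic term
  have eK : ∑ j, ⟪weakGrad A j, weakGrad Ψ j⟫_ℂ = ∑ j, ∫ x, ⟪Ξ' j x, weakGrad Ψ j x⟫_ℂ := by
    have e1 : ∀ j : Fin m × Fin 3, ⟪weakGrad A j, weakGrad Ψ j⟫_ℂ = ((m.factorial : ℂ)⁻¹) *
        ∑ π : Equiv.Perm (Fin m), ∫ y, ⟪Ξ' (π.symm j.1, j.2) y, weakGrad Ψ (π.symm j.1, j.2) y⟫_ℂ := by
      intro j
      have := integral_inner_antisymm (fun _ => (1 : ℂ)) (fun _ _ => rfl) (hAg j) (fun π => hsg π j)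
        (fun π => by
          simp only [one_mul]
          exact integrable_inner' ((hΞ.permAct π).wd j).memg (hH.wd j).memg)
      simp only [one_mul] at this
      rw [L2.inner_eq, this]
    simp only [e1]
    rw [← Finset.mul_sum, Finset.sum_comm]
    have e2 : ∀ π : Equiv.Perm (Fin m),
        ∑ j : Fin m × Fin 3, ∫ y, ⟪Ξ' (π.symm j.1, j.2) y, weakGrad Ψ (π.symm j.1, j.2) y⟫_ℂ =
          ∑ j, ∫ x, ⟪Ξ' j x, weakGrad Ψ j x⟫_ℂ := fun π =>
      Equiv.sum_comp (Equiv.prodCongr π.symm (Equiv.refl (Fin 3)))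
        (fun j => ∫ x, ⟪Ξ' j x, weakGrad Ψ j x⟫_ℂ)
    simp only [e2]
    exact factorial_inv_mul_sum _
  -- the potential term
  have eP : ∫ x, ((scaledPotential m t x - En : ℝ) : ℂ) * ⟪A x, Ψ x⟫_ℂ =
      ∫ x, ((scaledPotential m t x - En : ℝ) : ℂ) * ⟪Ξ x, Ψ x⟫_ℂ := by
    have := integral_inner_antisymm (fun x => ((scaledPotential m t x - En : ℝ) : ℂ))
      (fun π x => by rw [scaledPotential_comp_perm]) (u := fun _ => Ξ) (w' := fun _ => Ψ) hA0 hs0
      (fun π => hV.integrable_inner (hΞ.permAct π) hH En)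
    rw [this]
    exact factorial_inv_mul_sum _
  have split : ∫ x, ((scaledPotential m t x - En : ℝ) : ℂ) * ⟪A x, Ψ x⟫_ℂ =
      (∫ x, (scaledPotential m t x : ℂ) * ⟪A x, Ψ x⟫_ℂ) - (En : ℂ) * ⟪A, Ψ⟫_ℂ := by
    have i1 : Integrable (fun x => (scaledPotential m t x : ℂ) * ⟪A x, Ψ x⟫_ℂ) := by
      simpa using hV.integrable_inner hAH hH 0
    rw [L2.inner_eq, ← integral_const_mul, ← integral_sub i1 ((L2.integrable_inner A Ψ).const_mul _)]
    refine integral_congr_ae (Eventually.of_forall fun x => ?_)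
    simp only
    push_cast
    ring
  rw [← eK, ← eP, split, ← add_sub_assoc, e]
  simp

end B3

/-! ## LEAF AG-B4: the one-body lower bound in one electron variable -/

section B4

variable {E : Type*} [NormedAddCommGroup E] [InnerProductSpace ℂ E] [CompleteSpace E]

/-- on `ℝ³`, `E`-valued: apply the scalar inequality to `g = ‖φ‖` (`WD2.norm`, `abs_re_inner_div_norm_le`: `|∂_a ‖φ‖| ≤ ‖∂_a φ‖`;
build the vector field `G x = ∑_a (∂_a g)(x) e_a` for `IsH1`). -/
theorem oneBody_space {εb : ℝ}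
    (hlow : ∀ g G, IsH1 g G → εb * (∫ x, g x ^ 2) ≤ orbitalForm g g G G)
    {φ : Space → E} {φ' : Fin 3 → Space → E}
    (h : ∀ a, WD2 (volume : Measure Space) (EuclideanSpace.single a (1 : ℝ)) φ (φ' a)) :
    εb * nsq volume φ ≤ (1 / 2) * ∑ a, nsq volume (φ' a) + ∫ x, nuclearPotential 1 bigD x * ‖φ x‖ ^ 2 := by
  set g' : Fin 3 → Space → ℝ := fun a x => RCLike.re ⟪φ x, φ' a x⟫_ℂ / ‖φ x‖ with hg'
  have hw : ∀ a, WD2 (volume : Measure Space) (EuclideanSpace.single a (1 : ℝ)) (fun x => ‖φ x‖) (g' a) :=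
    fun a => WD2.norm ℂ (h a)
  have hH := isH1_of_coord hw
  have h1 := hlow _ _ hH
  unfold orbitalForm at h1
  have e1 : ∫ x, ‖φ x‖ ^ 2 = nsq volume φ := rfl
  have e2 : ∫ x, nuclearPotential 1 bigD x * (‖φ x‖ * ‖φ x‖) = ∫ x, nuclearPotential 1 bigD x * ‖φ x‖ ^ 2 := by
    simp only [sq]
  have e3 : ∫ x, ⟪(WithLp.toLp 2 fun a => g' a x : Space), (WithLp.toLp 2 fun a => g' a x : Space)⟫_ℝ
      ≤ ∑ a, nsq volume (φ' a) := by
    have e4 : ∀ x, ⟪(WithLp.toLp 2 fun a => g' a x : Space), (WithLp.toLp 2 fun a => g' a x : Space)⟫_ℝ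
        = ∑ a, g' a x ^ 2 := by
      intro x
      rw [real_inner_self_eq_norm_sq, EuclideanSpace.real_norm_sq_eq]
    simp only [e4]
    have i1 : ∀ a, Integrable (fun x => g' a x ^ 2) := fun a => by
      have := g_integrable_norm_sq (hw a).memg
      simpa using this
    rw [integral_finsetSum _ fun a _ => i1 a]
    refine Finset.sum_le_sum fun a _ => ?_
    refine integral_mono (i1 a) (integrable_norm_sq (h a).memg) fun x => ?_
    have := abs_re_inner_div_norm_le ℂ (φ x) (φ' a x)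
    calc g' a x ^ 2 = |g' a x| ^ 2 := (sq_abs _).symm
      _ ≤ ‖φ' a x‖ ^ 2 := pow_le_pow_left₀ (abs_nonneg _) this 2
  rw [e1, e2] at h1
  linarith

/-- continuity of the squared `L²` norm. -/
theorem tendsto_nsq {X : Type*} [NormedAddCommGroup X] [NormedSpace ℝ X] [FiniteDimensional ℝ X]
    [MeasurableSpace X] [BorelSpace X] {μ : Measure X} [μ.IsAddHaarMeasure] {α : Type*} {l : Filter α}
    {un : α → X → E} {u : X → E} (hun : ∀ n, MemLp (un n) 2 μ) (hu : MemLp u 2 μ)
    (ht : Tendsto (fun n => nsq μ (fun x => un n x - u x)) l (𝓝 0)) :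
    Tendsto (fun n => nsq μ (un n)) l (𝓝 (nsq μ u)) := by
  have h1 := tendsto_integral_inner_left hun hu hu ht
  have h2 : Tendsto (fun n => (∫ x, ⟪un n x, u x⟫_ℂ ∂μ).re) l (𝓝 (∫ x, ⟪u x, u x⟫_ℂ ∂μ).re) :=
    (Complex.continuous_re.tendsto _).comp h1
  have hself : (∫ x, ⟪u x, u x⟫_ℂ ∂μ).re = nsq μ u := by
    rw [re_integral (integrable_inner' hu hu)]
    refine integral_congr_ae (Eventually.of_forall fun x => ?_)
    show (⟪u x, u x⟫_ℂ).re = ‖u x‖ ^ 2
    rw [inner_self_eq_norm_sq_to_K]; norm_cast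
  rw [hself] at h2
  have e : ∀ n, nsq μ (un n) = nsq μ (fun x => un n x - u x) + 2 * (∫ x, ⟪un n x, u x⟫_ℂ ∂μ).re - nsq μ u := by
    intro n
    rw [re_integral (integrable_inner' (hun n) hu)]
    have ia : Integrable (fun x => ‖un n x - u x‖ ^ 2) μ := integrable_norm_sq ((hun n).sub hu)
    have ib : Integrable (fun x => 2 * (⟪un n x, u x⟫_ℂ).re) μ := (integrable_inner' (hun n) hu).re.const_mul 2
    have ic : Integrable (fun x => ‖u x‖ ^ 2) μ := integrable_norm_sq hu
    have iab : Integrable (fun x => ‖un n x - u x‖ ^ 2 + 2 * (⟪un n x, u x⟫_ℂ).re) μ := ia.add ib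
    calc nsq μ (un n) = ∫ x, (‖un n x - u x‖ ^ 2 + 2 * (⟪un n x, u x⟫_ℂ).re - ‖u x‖ ^ 2) ∂μ := by
          refine integral_congr_ae (Eventually.of_forall fun x => ?_)
          have := @norm_sub_sq ℂ E _ _ _ (un n x) (u x)
          simp only [RCLike.re_eq_complex_re] at this ⊢
          linarith
      _ = _ := by
          rw [integral_sub iab ic, integral_add ia ib, integral_const_mul]
          rfl
  have h3 := (ht.add (h2.const_mul 2)).sub_const (nsq μ u)
  have e2 : 0 + 2 * nsq μ u - nsq μ u = nsq μ u := by ring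
  rw [e2] at h3
  exact h3.congr fun n => (e n).symm

theorem nuclearPotential_nonpos (x : Space) : nuclearPotential 1 bigD x ≤ 0 := by
  unfold nuclearPotential
  have h1 : 0 ≤ 1 / ‖x - bigD • ez‖ := by positivity
  have h2 : 0 ≤ 1 / ‖x + bigD • ez‖ := by positivity
  linarith

/-- the inequality for `C¹_c` functions: slices and Fubini. -/
theorem oneBody_config_c1c {εb : ℝ}
    (hlow : ∀ g G, IsH1 g G → εb * (∫ x, g x ^ 2) ≤ orbitalForm g g G G) {n : ℕ}
    {u : Config (n + 1) → E} (hu : ContDiff ℝ 1 u) (hc : HasCompactSupport u) (i : Fin (n + 1)) :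
    εb * nsq volume u ≤ (1 / 2) * ∑ a, nsq volume (fun X => fderiv ℝ u X (dir (i, a)))
      + ∫ X, nuclearPotential 1 bigD (X i) * ‖u X‖ ^ 2 := by
  have hH := h1_of_contDiff (μ := (volume : Measure (Config (n + 1)))) (v := dir) hu hc
  have i1 : Integrable (fun X => ‖u X‖ ^ 2) := integrable_norm_sq hH.mem
  have i2 : ∀ a, Integrable (fun X => ‖fderiv ℝ u X (dir (i, a))‖ ^ 2) := fun a =>
    integrable_norm_sq (hH.wd (i, a)).memg
  have i3 : Integrable (fun X : Config (n + 1) => nuclearPotential 1 bigD (X i) * ‖u X‖ ^ 2) :=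
    FormBdd.integrable_mul (formBdd_nuc (E := E) i one_pos) hH
  have key : ∀ y : Config n, εb * ∫ r : Space, ‖u (i.insertNth r y : Config (n + 1))‖ ^ 2
      ≤ (1 / 2) * (∑ a, ∫ r : Space, ‖fderiv ℝ u (i.insertNth r y : Config (n + 1)) (dir (i, a))‖ ^ 2)
        + ∫ r : Space, nuclearPotential 1 bigD ((i.insertNth r y : Config (n + 1)) i)
            * ‖u (i.insertNth r y : Config (n + 1))‖ ^ 2 := by
    intro y
    have hs := h1_of_contDiff (μ := (volume : Measure Space)) (v := fun a : Fin 3 => EuclideanSpace.single a (1 : ℝ))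
      (mbi_contDiff_slice hu i y) (mbi_hasCompactSupport_slice hc i y)
    have := oneBody_space hlow hs.wd
    simp only [mbi_fderiv_slice hu i y] at this
    simpa [nsq] using this
  unfold nsq
  rw [mbi_integral i i1, mbi_integral i i3]
  simp only [mbi_integral i (i2 _)]
  rw [← integral_const_mul, ← integral_finsetSum _ fun a _ => mbi_integrable_integral i (i2 a),
    ← integral_const_mul,
    ← integral_add ((integrable_finsetSum _ fun a _ => mbi_integrable_integral i (i2 a)).const_mul _)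
      (mbi_integrable_integral i i3)]
  exact integral_mono ((mbi_integrable_integral i i1).const_mul _)
    (((integrable_finsetSum _ fun a _ => mbi_integrable_integral i (i2 a)).const_mul _).add
      (mbi_integrable_integral i i3)) key

/-- on `Config m`, in the variable `X i`.  (First `f ∈ C¹_c`: freeze the other electrons, `oneBody_space` for the slice, integrate
(`MeasureTheory.volume_preserving_piFinSuccAbove` or `MeasurableEquiv.piEquivPiSubtypeProd`); then density
`exists_seq_contDiff_approx` and continuity of all terms in `H¹`, `formBdd_inv`.) -/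
theorem oneBody_config {εb : ℝ}
    (hlow : ∀ g G, IsH1 g G → εb * (∫ x, g x ^ 2) ≤ orbitalForm g g G G) {m : ℕ}
    {f : Config m → E} {G : Fin m × Fin 3 → Config m → E} (h : H1 (volume : Measure (Config m)) dir f G) (i : Fin m) :
    εb * nsq volume f ≤ (1 / 2) * ∑ a, nsq volume (G (i, a))
      + ∫ X, nuclearPotential 1 bigD (X i) * ‖f X‖ ^ 2 := by
  obtain ⟨n, rfl⟩ : ∃ n, m = n + 1 := ⟨m - 1, by have := i.pos; omega⟩
  obtain ⟨u, hu1, hu2, hu3, hu4⟩ := exists_seq_contDiff_approx h.wd h.mem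
  have hH : ∀ k, H1 (volume : Measure (Config (n + 1))) dir (u k) (fun j X => fderiv ℝ (u k) X (dir j)) :=
    fun k => h1_of_contDiff (hu1 k) (hu2 k)
  have hV := formBdd_nuc (E := E) i one_pos
  set s : Config (n + 1) → ℝ := fun X => √|nuclearPotential 1 bigD (X i)| with hs
  have hsm : AEStronglyMeasurable s volume := Real.continuous_sqrt.comp_aestronglyMeasurable hV.meas.norm
  have hs1 : ∀ X, s X ^ 2 = |nuclearPotential 1 bigD (X i)| := fun X => Real.sq_sqrt (abs_nonneg _)
  have hpot : ∀ (w : Config (n + 1) → E) (W : Fin (n + 1) × Fin 3 → Config (n + 1) → E), H1 volume dir w W →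
      ∫ X, nuclearPotential 1 bigD (X i) * ‖w X‖ ^ 2 = - nsq volume (fun X => s X • w X) := by
    intro w W hw
    rw [(memLp_sqrt_smul hV hw s hsm hs1).2, ← integral_neg]
    refine integral_congr_ae (Eventually.of_forall fun X => ?_)
    show nuclearPotential 1 bigD (X i) * ‖w X‖ ^ 2 = -(|nuclearPotential 1 bigD (X i)| * ‖w X‖ ^ 2)
    rw [abs_of_nonpos (nuclearPotential_nonpos _)]
    ring
  have t1 := tendsto_nsq (fun k => (hH k).mem) h.mem hu3
  have t2 : ∀ a, Tendsto (fun k => nsq volume (fun X => fderiv ℝ (u k) X (dir (i, a)))) atTop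
      (𝓝 (nsq volume (G (i, a)))) := fun a =>
    tendsto_nsq (fun k => ((hH k).wd (i, a)).memg) (h.wd (i, a)).memg (hu4 (i, a))
  have t3 : Tendsto (fun k => nsq volume (fun X => s X • u k X)) atTop (𝓝 (nsq volume (fun X => s X • f X))) := by
    refine tendsto_nsq (fun k => (memLp_sqrt_smul hV (hH k) s hsm hs1).1) (memLp_sqrt_smul hV h s hsm hs1).1 ?_
    have hb : ∀ k, nsq volume (fun X => s X • u k X - s X • f X)
        ≤ 2 * 1 * ∑ j, nsq volume (fun X => fderiv ℝ (u k) X (dir j) - G j X)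
          + 2 * (1 / 1) * nsq volume (fun X => u k X - f X) := by
      intro k
      have hd := (hH k).sub h
      simp only [← smul_sub]
      rw [(memLp_sqrt_smul hV hd s hsm hs1).2]
      exact hV.le _ _ hd
    have hl : Tendsto (fun k => 2 * 1 * ∑ j, nsq volume (fun X => fderiv ℝ (u k) X (dir j) - G j X)
          + 2 * (1 / 1) * nsq volume (fun X => u k X - f X)) atTop (𝓝 0) := by
      have h1 : Tendsto (fun k => ∑ j, nsq volume (fun X => fderiv ℝ (u k) X (dir j) - G j X)) atTop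
          (𝓝 (∑ _j : Fin (n + 1) × Fin 3, (0 : ℝ))) := tendsto_finsetSum _ fun j _ => hu4 j
      have hu3' : Tendsto (fun k => nsq volume (fun X => u k X - f X)) atTop (𝓝 0) := hu3
      have := (h1.const_mul (2 * 1)).add (hu3'.const_mul (2 * (1 / 1)))
      simpa using this
    exact squeeze_zero (fun k => nsq_nonneg _) hb hl
  have L := t1.const_mul εb
  have Rr := ((tendsto_finsetSum Finset.univ fun a _ => t2 a).const_mul (1 / 2)).add t3.neg
  rw [hpot f G h]
  refine le_of_tendsto_of_tendsto' L Rr fun k => ?_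
  have := oneBody_config_c1c hlow (hu1 k) (hu2 k) i
  rwa [hpot _ _ (hH k)] at this

end B4

/-! ## LEAF AG-B5: the partition of configuration space and the exterior bound -/

section B5

variable {E : Type*} [NormedAddCommGroup E] [InnerProductSpace ℂ E] [CompleteSpace E]

theorem pair_sq_ne_zero {m : ℕ} (z : ℝ × Config m) (hz : z ≠ 0) : z.1 ^ 2 + ∑ i, ‖z.2 i‖ ^ 2 ≠ 0 := by
  intro h0
  have h1 : 0 ≤ ∑ i, ‖z.2 i‖ ^ 2 := by positivity
  have h2 : z.1 ^ 2 = 0 := by nlinarith [sq_nonneg z.1]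
  have h3 : ∑ i, ‖z.2 i‖ ^ 2 = 0 := by nlinarith [sq_nonneg z.1]
  have h4 : ∀ i, z.2 i = 0 := by
    intro i
    have := (Finset.sum_eq_zero_iff_of_nonneg (fun i _ => sq_nonneg ‖z.2 i‖)).1 h3 i (Finset.mem_univ i)
    simpa using this
  apply hz
  ext1
  · simpa using h2
  · funext i; exact h4 i

/-- `|x_i|²/ϱ²` is a symbol of order `0`. -/
theorem sym_ratio {m : ℕ} (i : Fin m) : Sym 0 (fun X : Config m => ‖X i‖ ^ 2 / (1 + ∑ k, ‖X k‖ ^ 2)) := by
  have h := Sym.of_homog (m := m) (q := fun z => ‖z.2 i‖ ^ 2 / (z.1 ^ 2 + ∑ k, ‖z.2 k‖ ^ 2)) (a := 0) ?_ ?_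
  · simpa using h
  · intro z hz
    refine ContDiffAt.contDiffWithinAt ?_
    have hk : ∀ k : Fin m, ContDiffAt ℝ ∞ (fun z : ℝ × Config m => ‖z.2 k‖ ^ 2) z := fun k =>
      (((contDiff_apply ℝ Space k).contDiffAt).comp z contDiffAt_snd).norm_sq ℝ
    exact (hk i).div ((contDiffAt_fst.pow 2).add (ContDiffAt.sum fun k _ => hk k)) (pair_sq_ne_zero z hz)
  · intro c hc z _
    simp only [Prod.smul_fst, Prod.smul_snd, Pi.smul_apply, norm_smul, smul_eq_mul, Real.rpow_zero, mul_pow,
      Real.norm_eq_abs, sq_abs, one_mul]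
    rw [← Finset.mul_sum, ← mul_add, mul_div_mul_left _ _ (by positivity)]

theorem BddDeriv.comp_affine' {V V' : Type*} [NormedAddCommGroup V] [NormedSpace ℝ V] [FiniteDimensional ℝ V]
    [NormedAddCommGroup V'] [NormedSpace ℝ V'] {f : V → ℝ} (hf : BddDeriv f) (L : V' →L[ℝ] V) (c₀ : V) :
    BddDeriv (fun z' => f (L z' - c₀)) := by
  refine ⟨?_, fun k => ?_⟩
  · obtain ⟨C, hC⟩ := hf.comp_affine L 0
    exact (hC c₀ 0).1
  · obtain ⟨C, hC⟩ := hf.comp_affine L k
    exact ⟨C, fun z => (hC c₀ z).2⟩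

/-- the angle `π/2 · smoothTransition (16 s - 1)`. -/
def angT (s : ℝ) : ℝ := Real.pi / 2 * Real.smoothTransition (16 * s - 1)

theorem bddDeriv_angT : BddDeriv angT := by
  have h1 := BddDeriv.comp_affine' bddDeriv_smoothTransition ((16 : ℝ) • ContinuousLinearMap.id ℝ ℝ) 1
  have h2 := (BddDeriv.const (V := ℝ) (Real.pi / 2)).mul h1
  have e : (fun z : ℝ => Real.pi / 2 * Real.smoothTransition (((16 : ℝ) • ContinuousLinearMap.id ℝ ℝ) z - 1)) = angT := by
    funext z; simp [angT]
  rwa [e] at h2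

theorem sin_angT_ne {s : ℝ} (h : Real.sin (angT s) ≠ 0) : 1 / 16 < s := by
  by_contra hs
  apply h
  unfold angT
  rw [Real.smoothTransition.zero_of_nonpos (by linarith [not_lt.1 hs])]
  simp

theorem cos_angT_ne {s : ℝ} (h : Real.cos (angT s) ≠ 0) : s < 1 / 8 := by
  by_contra hs
  apply h
  unfold angT
  rw [Real.smoothTransition.one_of_one_le (by linarith [not_lt.1 hs])]
  simp

/-- a smooth quadratic partition of unity selecting a far electron.  Construction: `s_i = |x_i|²/ϱ²` (`Sym 0`),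
`T(s) = smoothTransition (16 s - 1)·π/2` (`= 0` for `s ≤ 1/16`, `= π/2` for `s ≥ 1/8`), `a_i = sin T(s_i)`, `ā_i = cos T(s_i)`;
`J_0 = a_0`, `J_1 = ā_0 a_1`, `J_2 = ā_0 ā_1`.  If `J_2 ≠ 0` then `s_0, s_1 < 1/8`, so `s_2 = 1 - ϱ⁻² - s_0 - s_1 ≥ 1/2` for `ϱ ≥ 2`.
Derivative bound from `Sym.comp_real`, `Sym.mul`, `Sym.dd` (order `-1`). -/
theorem exists_partition : ∃ (C : ℝ) (J : Fin 3 → Config 3 → ℝ), 0 ≤ C ∧ (∀ i, ContDiff ℝ ∞ (J i)) ∧
    (∀ X, ∑ i, J i X ^ 2 = 1) ∧
    (∀ i X, J i X ≠ 0 → 2 ≤ rho X → rho X / 4 ≤ ‖X i‖) ∧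
    (∀ X, ∑ i, ∑ j, dd (dir j) (J i) X ^ 2 ≤ C / rho X ^ 2) := by
  set sg : Fin 3 → Config 3 → ℝ := fun i X => ‖X i‖ ^ 2 / (1 + ∑ k, ‖X k‖ ^ 2) with hsg
  have hS : ∀ i, Sym 0 (fun X => Real.sin (angT (sg i X))) := fun i =>
    Sym.comp_real (T := fun s => Real.sin (angT s)) (sym_ratio i) (bddDeriv_angT.comp_real bddDeriv_sin)
  have hCo : ∀ i, Sym 0 (fun X => Real.cos (angT (sg i X))) := fun i =>
    Sym.comp_real (T := fun s => Real.cos (angT s)) (sym_ratio i) (bddDeriv_angT.comp_real bddDeriv_cos)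
  set J : Fin 3 → Config 3 → ℝ := ![fun X => Real.sin (angT (sg 0 X)),
    fun X => Real.cos (angT (sg 0 X)) * Real.sin (angT (sg 1 X)),
    fun X => Real.cos (angT (sg 0 X)) * Real.cos (angT (sg 1 X))] with hJ
  have hJS : ∀ i, Sym 0 (J i) := by
    intro i
    fin_cases i
    · exact hS 0
    · have := (hCo 0).mul (hS 1)
      rw [add_zero] at this
      exact this
    · have := (hCo 0).mul (hCo 1)
      rw [add_zero] at this
      exact this
  have hd : ∀ (i : Fin 3) (j : Fin 3 × Fin 3), ∃ C : ℝ, ∀ X, |dd (dir j) (J i) X| ≤ C * (rho X)⁻¹ := by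
    intro i j
    obtain ⟨C, hC⟩ := ((hJS i).dd (dir j)).2 0
    refine ⟨C, fun X => ?_⟩
    have := hC X
    rw [norm_iteratedFDeriv_zero, Real.norm_eq_abs] at this
    have e : (0 : ℝ) - 1 - ((0 : ℕ) : ℝ) = -1 := by norm_num
    rwa [e, Real.rpow_neg_one] at this
  choose Cd hCd using hd
  have hgeom : ∀ (i : Fin 3) (X : Config 3), 1 / 16 < sg i X → rho X / 4 ≤ ‖X i‖ := by
    intro i X h
    have hρ := rho_pos X
    simp only [hsg] at h
    rw [← rho_sq, lt_div_iff₀ (by positivity)] at h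
    by_contra hlt
    have h2 : ‖X i‖ ^ 2 < (rho X / 4) ^ 2 := pow_lt_pow_left₀ (not_le.1 hlt) (norm_nonneg _) (by norm_num)
    nlinarith
  refine ⟨∑ i, ∑ j, Cd i j ^ 2, J, by positivity, fun i => (hJS i).1, fun X => ?_, ?_, fun X => ?_⟩
  · simp only [Fin.sum_univ_three, hJ, Matrix.cons_val_zero, Matrix.cons_val_one, Matrix.cons_val]
    have h0 := Real.sin_sq_add_cos_sq (angT (sg 0 X))
    have h1 := Real.sin_sq_add_cos_sq (angT (sg 1 X))
    have : (Real.cos (angT (sg 0 X)) * Real.sin (angT (sg 1 X))) ^ 2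
        + (Real.cos (angT (sg 0 X)) * Real.cos (angT (sg 1 X))) ^ 2 = Real.cos (angT (sg 0 X)) ^ 2 := by
      rw [mul_pow, mul_pow, ← mul_add, h1, mul_one]
    linarith
  · intro i X hne hρ2
    fin_cases i
    · exact hgeom 0 X (sin_angT_ne hne)
    · have h2 : Real.cos (angT (sg 0 X)) * Real.sin (angT (sg 1 X)) ≠ 0 := hne
      exact hgeom 1 X (sin_angT_ne (right_ne_zero_of_mul h2))
    · have h2 : Real.cos (angT (sg 0 X)) * Real.cos (angT (sg 1 X)) ≠ 0 := hne
      have a0 := cos_angT_ne (left_ne_zero_of_mul h2)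
      have a1 := cos_angT_ne (right_ne_zero_of_mul h2)
      refine hgeom 2 X ?_
      have hρ := rho_pos X
      have hsq := rho_sq X
      rw [Fin.sum_univ_three] at hsq
      simp only [hsg] at a0 a1 ⊢
      rw [← rho_sq, div_lt_iff₀ (by positivity)] at a0 a1
      rw [← rho_sq, lt_div_iff₀ (by positivity)]
      nlinarith
  · rw [Finset.sum_div]
    refine Finset.sum_le_sum fun i _ => ?_
    rw [Finset.sum_div]
    refine Finset.sum_le_sum fun j _ => ?_
    have h1 := hCd i j X
    have h2 : dd (dir j) (J i) X ^ 2 ≤ (Cd i j * (rho X)⁻¹) ^ 2 := by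
      rw [← sq_abs (dd (dir j) (J i) X)]
      exact pow_le_pow_left₀ (abs_nonneg _) h1 2
    refine h2.trans (le_of_eq ?_)
    rw [mul_pow, inv_pow, div_eq_mul_inv]

theorem two_add_le_sum_three (i : Fin 3) (F : Fin 3 → ℝ) {a b : ℝ} (h : ∀ k, k ≠ i → a ≤ F k) (hi : b ≤ F i) :
    2 * a + b ≤ ∑ k, F k := by
  rw [Fin.sum_univ_three]
  fin_cases i
  · have h1 := h 1 (by decide); have h2 := h 2 (by decide)
    simp only [Fin.zero_eta] at hi
    linarith
  · have h1 := h 0 (by decide); have h2 := h 2 (by decide)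
    simp only [Fin.mk_one] at hi
    linarith
  · have h1 := h 0 (by decide); have h2 := h 1 (by decide)
    have hi' : b ≤ F 2 := hi
    linarith

theorem norm_ez : ‖ez‖ = 1 := by simp [ez]

theorem nuclearPotential_ge {R : ℝ} (hR : 8 * bigD ≤ R) (hR0 : 0 < R) {x : Space} (hx : R / 4 ≤ ‖x‖) :
    -(16 / R) ≤ nuclearPotential 1 bigD x := by
  have hD : 0 < bigD := by unfold bigD; positivity
  have hn : ‖bigD • ez‖ = bigD := by rw [norm_smul, norm_ez, mul_one, Real.norm_eq_abs, abs_of_pos hD]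
  have h1 : R / 8 ≤ ‖x - bigD • ez‖ := by
    have := norm_sub_norm_le x (bigD • ez)
    rw [hn] at this
    linarith
  have h2 : R / 8 ≤ ‖x + bigD • ez‖ := by
    have := norm_sub_norm_le x (-(bigD • ez))
    rw [norm_neg, hn, sub_neg_eq_add] at this
    linarith
  have h3 : 1 / ‖x - bigD • ez‖ ≤ 8 / R := by
    rw [div_le_div_iff₀ (by linarith) hR0]; linarith
  have h4 : 1 / ‖x + bigD • ez‖ ≤ 8 / R := by
    rw [div_le_div_iff₀ (by linarith) hR0]; linarith
  unfold nuclearPotential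
  have : 16 / R = 8 / R + 8 / R := by ring
  linarith

theorem repulsion_nonneg {m : ℕ} (X : Config m) : 0 ≤ repulsion X := by
  unfold repulsion
  refine Finset.sum_nonneg fun i _ => Finset.sum_nonneg fun j _ => ?_
  split_ifs
  · positivity
  · exact le_rfl

/-- **(3.12)** `H_{3,t} ≥ 2 ε_b - C/R` on `{ϱ > R}`, uniformly in `t ≥ 0`.
`qform_ims` with `exists_partition`; for the piece `J_i f`: drop the repulsion (`t ≥ 0`) and the kinetic energy of electron `i`,
use `oneBody_config` for the two other electrons, and `|u_D(x_i)| ≤ 2/(R/4 - D) ≤ 16/R` on its support when `R ≥ 8 D`. -/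
theorem extBound_coulomb {εb : ℝ}
    (hlow : ∀ g G, IsH1 g G → εb * (∫ x, g x ^ 2) ≤ orbitalForm g g G G) :
    ∃ C R₁ : ℝ, 0 ≤ C ∧ 0 < R₁ ∧ ∀ R : ℝ, R₁ ≤ R → ∀ t : ℝ, 0 ≤ t → t ≤ 1 →
      ExtBound E (volume : Measure (Config 3)) dir (scaledPotential 3 t) {X | R < rho X} (2 * εb - C / R) := by
  obtain ⟨CJ, J, hCJ, hJs, hsum, hsupp, hder⟩ := exists_partition
  obtain ⟨b, _, hb⟩ := exists_formBdd (E := E) 3
  refine ⟨16 + CJ / 2, max 2 (8 * bigD), by positivity, lt_of_lt_of_le two_pos (le_max_left _ _), ?_⟩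
  intro R hR t ht0 ht1 f G hf hvan
  have hR2 : 2 ≤ R := (le_max_left _ _).trans hR
  have hRD : 8 * bigD ≤ R := (le_max_right _ _).trans hR
  have hR0 : 0 < R := by linarith
  have hV := (hb t ht0 ht1).1
  have hV0 := (hb 0 le_rfl zero_le_one).1
  have hdsq : ∀ i j X, dd (dir j) (J i) X ^ 2 ≤ CJ / rho X ^ 2 := by
    intro i j X
    refine le_trans ?_ (hder X)
    refine le_trans ?_ (Finset.single_le_sum (f := fun i => ∑ j, dd (dir j) (J i) X ^ 2)
      (fun i _ => Finset.sum_nonneg fun _ _ => sq_nonneg _) (Finset.mem_univ i))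
    exact Finset.single_le_sum (f := fun j => dd (dir j) (J i) X ^ 2) (fun _ _ => sq_nonneg _) (Finset.mem_univ j)
  have hdB : ∀ i j X, |dd (dir j) (J i) X| ≤ CJ + 1 := by
    intro i j X
    have h1 : dd (dir j) (J i) X ^ 2 ≤ CJ := by
      refine (hdsq i j X).trans (div_le_self hCJ ?_)
      have := one_le_rho X
      nlinarith
    refine abs_le_of_sq_le_sq' ?_ (by positivity) |> fun h => abs_le.2 h
    nlinarith
  have hJ1 : ∀ i X, |J i X| ≤ 1 := by
    intro i X
    rw [← sq_le_one_iff_abs_le_one, ← hsum X]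
    exact Finset.single_le_sum (f := fun i => J i X ^ 2) (fun _ _ => sq_nonneg _) (Finset.mem_univ i)
  have hg : ∀ i, H1 volume dir (fun X => J i X • f X) (mulGrad dir (J i) f G) := fun i =>
    hf.mul (B := CJ + 1) (hJs i) (fun X => (hJ1 i X).trans (by linarith)) (fun j X => hdB i j X)
  have ims := qform_ims hV hf hJs (B := CJ + 1) hdB hsum
  -- (ii)
  have hii : ∑ i, nsq volume (fun X => J i X • f X) = nsq volume f := by
    unfold nsq
    rw [← integral_finsetSum _ fun i _ => integrable_norm_sq (hg i).mem]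
    refine integral_congr_ae (Eventually.of_forall fun X => ?_)
    simp only [norm_smul, mul_pow, Real.norm_eq_abs, sq_abs]
    rw [← Finset.sum_mul, hsum, one_mul]
  -- (iii)
  have hint : ∀ i j, Integrable (fun X => dd (dir j) (J i) X ^ 2 * ‖f X‖ ^ 2) := by
    intro i j
    have := integrable_norm_sq (memLp_smul_of_bdd (contDiff_dd (hJs i) (dir j)).continuous (hdB i j) hf.mem)
    simpa only [norm_smul, Real.norm_eq_abs, mul_pow, sq_abs] using this
  have hiii : ∑ i, ∑ j, ∫ X, dd (dir j) (J i) X ^ 2 * ‖f X‖ ^ 2 ≤ CJ / R ^ 2 * nsq volume f := by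
    have e : ∑ i, ∑ j, ∫ X, dd (dir j) (J i) X ^ 2 * ‖f X‖ ^ 2
        = ∫ X, (∑ i, ∑ j, dd (dir j) (J i) X ^ 2) * ‖f X‖ ^ 2 := by
      simp only [Finset.sum_mul]
      rw [integral_finsetSum _ fun i _ => integrable_finsetSum _ fun j _ => hint i j]
      refine Finset.sum_congr rfl fun i _ => ?_
      rw [integral_finsetSum _ fun j _ => hint i j]
    rw [e]
    unfold nsq
    rw [← integral_const_mul]
    refine integral_mono ?_ ((integrable_norm_sq hf.mem).const_mul _) fun X => ?_
    · simp only [Finset.sum_mul]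
      exact integrable_finsetSum _ fun i _ => integrable_finsetSum _ fun j _ => hint i j
    · by_cases hX : R < rho X
      · refine mul_le_mul_of_nonneg_right ((hder X).trans ?_) (sq_nonneg _)
        exact div_le_div_of_nonneg_left hCJ (by positivity) (pow_le_pow_left₀ hR0.le hX.le 2)
      · simp [hvan X hX]
  -- (i)
  have hi : ∀ i, (2 * εb - 16 / R) * nsq volume (fun X => J i X • f X)
      ≤ qform volume (scaledPotential 3 t) (fun X => J i X • f X) (mulGrad dir (J i) f G) := by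
    intro i
    set g : Config 3 → E := fun X => J i X • f X with hgdef
    set Gg := mulGrad dir (J i) f G with hGg
    have hgi := hg i
    have hn := nsq_nonneg (μ := (volume : Measure (Config 3))) g
    have inuc : ∀ k : Fin 3, Integrable (fun X : Config 3 => nuclearPotential 1 bigD (X k) * ‖g X‖ ^ 2) := fun k =>
      FormBdd.integrable_mul (formBdd_nuc (E := E) k one_pos) hgi
    have m1 : ∫ X, scaledPotential 3 0 X * ‖g X‖ ^ 2 ≤ ∫ X, scaledPotential 3 t X * ‖g X‖ ^ 2 := by
      refine integral_mono (FormBdd.integrable_mul hV0 hgi) (FormBdd.integrable_mul hV hgi) fun X => ?_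
      refine mul_le_mul_of_nonneg_right ?_ (sq_nonneg _)
      unfold scaledPotential
      have := mul_nonneg ht0 (repulsion_nonneg X)
      linarith
    have m2 : ∫ X, scaledPotential 3 0 X * ‖g X‖ ^ 2 = ∑ k, ∫ X : Config 3, nuclearPotential 1 bigD (X k) * ‖g X‖ ^ 2 := by
      rw [← integral_finsetSum _ fun k _ => inuc k]
      refine integral_congr_ae (Eventually.of_forall fun X => ?_)
      simp only [scaledPotential, oneBodyPotential, zero_mul, add_zero, Finset.sum_mul]
    have m3 : ∑ j, nsq volume (Gg j) = ∑ k, ∑ a, nsq volume (Gg (k, a)) := Fintype.sum_prod_type _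
    have hT := two_add_le_sum_three i
      (fun k => (1 / 2) * ∑ a, nsq volume (Gg (k, a)) + ∫ X : Config 3, nuclearPotential 1 bigD (X k) * ‖g X‖ ^ 2)
      (a := εb * nsq volume g) (b := -(16 / R) * nsq volume g)
      (fun k _ => oneBody_config hlow hgi k) (by
        have h1 : 0 ≤ ∑ a, nsq volume (Gg (i, a)) := Finset.sum_nonneg fun _ _ => nsq_nonneg _
        have h2 : -(16 / R) * nsq volume g ≤ ∫ X : Config 3, nuclearPotential 1 bigD (X i) * ‖g X‖ ^ 2 := by
          unfold nsq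
          rw [← integral_const_mul]
          refine integral_mono ((integrable_norm_sq hgi.mem).const_mul _) (inuc i) fun X => ?_
          by_cases hX : g X = 0
          · simp [hX]
          · refine mul_le_mul_of_nonneg_right ?_ (sq_nonneg _)
            have hJX : J i X ≠ 0 := fun h0 => hX (by simp [hgdef, h0])
            have hfX : R < rho X := by
              by_contra hlt
              exact hX (by simp [hgdef, hvan X hlt])
            have := hsupp i X hJX (by linarith)
            exact nuclearPotential_ge hRD hR0 (by linarith)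
        linarith)
    rw [Finset.sum_add_distrib, ← Finset.mul_sum, ← m3, ← m2] at hT
    unfold qform
    linarith
  have hsumi := Finset.sum_le_sum fun i (_ : i ∈ Finset.univ) => hi i
  rw [← Finset.mul_sum, hii] at hsumi
  have hn := nsq_nonneg (μ := (volume : Measure (Config 3))) f
  have h5 : CJ / R ^ 2 ≤ CJ / R := by
    refine div_le_div_of_nonneg_left hCJ hR0 ?_
    nlinarith
  have h6 : CJ / R ^ 2 * nsq volume f ≤ CJ / R * nsq volume f := mul_le_mul_of_nonneg_right h5 hn
  rw [ims]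
  have e : (2 * εb - (16 + CJ / 2) / R) * nsq volume f
      = (2 * εb - 16 / R) * nsq volume f - (1 / 2) * (CJ / R * nsq volume f) := by ring
  rw [e]
  linarith

end B5

end Claimed.Open.R278.AG
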