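import Claimed.Open.R278.AGSlice

/-!
# Result 278, layer AG, file 14: multiplication operators on the fibre space; the cut-off interaction `W(x)`

(This file covers item (d) of package BP-ION.)  SORRY-FREE (leaves AG-W1..W5 proved by helper122).

* `symLp M x = [y ↦ M (cons3 x y)] ∈ L^∞(Config 2; Z)`: the `L^∞` slice of a symbol `M : Config 3 → Z`;
* `mulOp a : FibE E →L[ℂ] FibE E`: multiplication by `a ∈ L^∞(Config 2; ℂ)` (Mathlib's `ContinuousLinearMap.holderL`);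
* `Wop x = mulOp (symLp Wfun x)`: the paper's `W(x)`, multiplication by `ζ ∑_i 1/|x - y_i|`.

Main results:
* `symLp_contDiffOn`: a symbol whose `x`-derivatives are bounded uniformly in `y`, locally uniformly in `x`, has a `C^∞` slice map into
  `L^∞`, with `‖D^k (symLp M)(x)‖ ≤ sup_y ‖D_x^k M(x,y)‖`;
* `Wop_bound`   : (3.9) `‖D^k W(x)‖ ≤ C_k (1+|x|)^{-1-k}` in operator norm; `W(x)` symmetric and nonnegative;
* `Wop_mono`    : `W(x) v - (2/r) v = O(r^{-2} ‖ϱ v‖)` with all derivatives;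
* `Wop_dipole`  : `W(x) v - (2/r) v - r^{-3} ∑_i x_i Y_i v = O(r^{-3} ‖ϱ² v‖)` with all derivatives;
* invariance of the cutoffs and of `Wfun` under isometries and under the exchange of the ionic electrons.
-/

open MeasureTheory Filter Topology Set
open scoped ContDiff InnerProductSpace ENNReal

noncomputable section

set_option linter.unusedSectionVars false

namespace Claimed.Open.R278.AG

variable {E : Type*} [NormedAddCommGroup E] [InnerProductSpace ℂ E] [CompleteSpace E]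

/-! ## Definitions -/

open Classical in
/-- the `L^∞` slice of a symbol. -/
def symLp {Z : Type*} [NormedAddCommGroup Z] (M : Config 3 → Z) (x : Space) :
    Lp Z ⊤ (volume : Measure (Config 2)) :=
  if h : MemLp (fun y : Config 2 => M (cons3 x y)) ⊤ volume then h.toLp _ else 0

/-- multiplication operators on the fibre space. -/
def mulOp : Lp ℂ ⊤ (volume : Measure (Config 2)) →L[ℂ] FibE E →L[ℂ] FibE E :=
  (ContinuousLinearMap.lsmul ℂ ℂ : ℂ →L[ℂ] E →L[ℂ] E).holderL volume ⊤ 2 2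

/-- the cut-off interaction `W(x)`. -/
def Wop (x : Space) : FibE E →L[ℂ] FibE E := mulOp (symLp (fun X => (Wfun X : ℂ)) x)

/-! ## LEAF AG-W1: multiplication operators and `L^∞` valued slice maps -/

section W1

theorem mulOp_coeFn (a : Lp ℂ ⊤ (volume : Measure (Config 2))) (ξ : FibE E) :
    (mulOp a ξ : Config 2 → E) =ᵐ[volume] fun y => a y • ξ y :=
  ContinuousLinearMap.coeFn_holder (r := 2) (ContinuousLinearMap.lsmul ℂ ℂ : ℂ →L[ℂ] E →L[ℂ] E) a ξ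

theorem norm_mulOp_le (a : Lp ℂ ⊤ (volume : Measure (Config 2))) : ‖mulOp (E := E) a‖ ≤ ‖a‖ := by
  have h1 : ‖mulOp (E := E)‖ ≤ 1 :=
    (ContinuousLinearMap.norm_holderL_le _).trans ContinuousLinearMap.opNorm_lsmul_le
  calc ‖mulOp (E := E) a‖ ≤ ‖mulOp (E := E)‖ * ‖a‖ := ContinuousLinearMap.le_opNorm _ _
    _ ≤ 1 * ‖a‖ := mul_le_mul_of_nonneg_right h1 (norm_nonneg _)
    _ = ‖a‖ := one_mul _

/-- real symbols give symmetric operators. -/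
theorem mulOp_symm {a : Lp ℂ ⊤ (volume : Measure (Config 2))} (ha : ∀ᵐ y, (a y).im = 0) (ξ ζ : FibE E) :
    ⟪mulOp a ξ, ζ⟫_ℂ = ⟪ξ, mulOp a ζ⟫_ℂ := by
  rw [L2.inner_def, L2.inner_def]
  refine integral_congr_ae ?_
  filter_upwards [ha, mulOp_coeFn a ξ, mulOp_coeFn a ζ] with y h1 h2 h3
  rw [h2, h3, inner_smul_left, inner_smul_right, Complex.conj_eq_iff_im.2 h1]

/-- nonnegative symbols give nonnegative operators. -/
theorem mulOp_nonneg {a : Lp ℂ ⊤ (volume : Measure (Config 2))} (ha : ∀ᵐ y, (a y).im = 0 ∧ 0 ≤ (a y).re)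
    (ξ : FibE E) : 0 ≤ (⟪ξ, mulOp a ξ⟫_ℂ).re := by
  rw [L2.inner_def]
  have hi : Integrable (fun y => ⟪ξ y, mulOp a ξ y⟫_ℂ) volume :=
    _root_.MeasureTheory.L2.integrable_inner (𝕜 := ℂ) ξ (mulOp a ξ)
  have := integral_re hi
  simp only [RCLike.re_to_complex] at this
  rw [← this]
  refine integral_nonneg_of_ae ?_
  filter_upwards [ha, mulOp_coeFn a ξ] with y h1 h2
  show 0 ≤ (⟪ξ y, mulOp a ξ y⟫_ℂ).re
  rw [h2, inner_smul_right, inner_self_eq_norm_sq_to_K, Complex.mul_re]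
  have e1 : (((‖ξ y‖ : ℝ) : ℂ) ^ 2).im = 0 := by
    rw [← Complex.ofReal_pow, Complex.ofReal_im]
  have e2 : (((‖ξ y‖ : ℝ) : ℂ) ^ 2).re = ‖ξ y‖ ^ 2 := by
    rw [← Complex.ofReal_pow, Complex.ofReal_re]
  have e1' : ((RCLike.ofReal ‖ξ y‖ : ℂ) ^ 2).im = 0 := e1
  have e2' : ((RCLike.ofReal ‖ξ y‖ : ℂ) ^ 2).re = ‖ξ y‖ ^ 2 := e2
  rw [e1', e2', mul_zero, sub_zero]
  exact mul_nonneg h1.2 (sq_nonneg _)

theorem symLp_coeFn {Z : Type*} [NormedAddCommGroup Z] {M : Config 3 → Z} {x : Space}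
    (h : MemLp (fun y : Config 2 => M (cons3 x y)) ⊤ volume) :
    (symLp M x : Config 2 → Z) =ᵐ[volume] fun y => M (cons3 x y) := by
  unfold symLp
  rw [dif_pos h]
  exact h.coeFn_toLp

/-- a symbol which is continuous and bounded on the fibre over `x`. -/
theorem memLp_top_fibre {Z : Type*} [NormedAddCommGroup Z] {M : Config 3 → Z} {x : Space} {B : ℝ}
    (hc : Continuous fun y : Config 2 => M (cons3 x y)) (hB : ∀ y, ‖M (cons3 x y)‖ ≤ B) :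
    MemLp (fun y : Config 2 => M (cons3 x y)) ⊤ volume :=
  memLp_top_of_bound hc.aestronglyMeasurable B (ae_of_all _ hB)

/-- the `L^∞` norm is bounded by an a.e. bound. -/
theorem norm_Lp_top_le {Z : Type*} [NormedAddCommGroup Z] (a : Lp Z ⊤ (volume : Measure (Config 2))) {B : ℝ}
    (hB0 : 0 ≤ B) (hB : ∀ᵐ y, ‖a y‖ ≤ B) : ‖a‖ ≤ B := by
  rw [Lp.norm_def, eLpNorm_exponent_top]
  exact ENNReal.toReal_le_of_le_ofReal hB0 (eLpNormEssSup_le_of_ae_bound hB)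

theorem norm_symLp_le {Z : Type*} [NormedAddCommGroup Z] {M : Config 3 → Z} {x : Space} {B : ℝ} (hB0 : 0 ≤ B)
    (hB : ∀ y, ‖M (cons3 x y)‖ ≤ B) : ‖symLp M x‖ ≤ B := by
  by_cases h : MemLp (fun y : Config 2 => M (cons3 x y)) ⊤ volume
  · refine norm_Lp_top_le _ hB0 ?_
    filter_upwards [symLp_coeFn h] with y hy
    rw [hy]
    exact hB y
  · unfold symLp
    rw [dif_neg h, norm_zero]
    exact hB0

/-- `x' ↦ cons3 x' y` is affine. -/
def inj0 : Space →L[ℝ] Config 3 := ContinuousLinearMap.single ℝ (fun _ : Fin 3 => Space) 0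

theorem cons3_eq_inj0 (x : Space) (y : Config 2) : cons3 x y = inj0 x + cons3 0 y := by
  funext i
  refine Fin.cases ?_ (fun j => ?_) i
  · simp [inj0, cons3]
  · simp [inj0, cons3]

theorem norm_inj0_le : ‖inj0‖ ≤ 1 := by
  refine ContinuousLinearMap.opNorm_le_bound _ zero_le_one fun x => ?_
  rw [one_mul, pi_norm_le_iff_of_nonneg (norm_nonneg _)]
  intro i
  refine Fin.cases ?_ (fun j => ?_) i
  · simp [inj0]
  · simp [inj0]

/-- the partial derivatives in `x` are controlled by the full derivatives (`x' ↦ cons3 x' y` is affine with linear part of norm `≤ 1`). -/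
theorem norm_iteratedFDeriv_partial_le {Z : Type*} [NormedAddCommGroup Z] [NormedSpace ℝ Z] {M : Config 3 → Z}
    (hM : ContDiff ℝ ∞ M) (k : ℕ) (x : Space) (y : Config 2) :
    ‖iteratedFDeriv ℝ k (fun x' => M (cons3 x' y)) x‖ ≤ ‖iteratedFDeriv ℝ k M (cons3 x y)‖ := by
  have hs : ContDiff ℝ ∞ (fun z => M (z + cons3 0 y)) := hM.comp (contDiff_id.add contDiff_const)
  have e := inj0.iteratedFDeriv_comp_right hs x (i := k) (by exact_mod_cast le_top)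
  have e' : (fun z => M (z + cons3 0 y)) ∘ inj0 = fun x' => M (cons3 x' y) := by
    funext x'
    simp only [Function.comp, cons3_eq_inj0 x' y]
  rw [e', iteratedFDeriv_comp_add_right, ← cons3_eq_inj0] at e
  rw [e]
  refine (ContinuousMultilinearMap.norm_compContinuousLinearMap_le _ _).trans ?_
  simp only [Finset.prod_const, Finset.card_univ, Fintype.card_fin]
  calc _ ≤ ‖iteratedFDeriv ℝ k M (cons3 x y)‖ * 1 :=
        mul_le_mul_of_nonneg_left (pow_le_one₀ (norm_nonneg _) norm_inj0_le) (norm_nonneg _)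
    _ = _ := mul_one _

/-- evaluation `L^∞(Space →L Z) → (Space →L L^∞(Z))`. -/
def evLp (Z : Type*) [NormedAddCommGroup Z] [NormedSpace ℝ Z] :
    Lp (Space →L[ℝ] Z) ⊤ (volume : Measure (Config 2)) →L[ℝ]
      Space →L[ℝ] Lp Z ⊤ (volume : Measure (Config 2)) :=
  LinearMap.mkContinuous₂
    (LinearMap.mk₂ ℝ (fun g h => (ContinuousLinearMap.apply ℝ Z h).compLp g)
      (fun g₁ g₂ h => map_add ((ContinuousLinearMap.apply ℝ Z h).compLpL ⊤ volume) g₁ g₂)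
      (fun c g h => map_smul ((ContinuousLinearMap.apply ℝ Z h).compLpL ⊤ volume) c g)
      (fun g h₁ h₂ => by rw [map_add, ContinuousLinearMap.add_compLp])
      (fun c g h => by rw [map_smul, ContinuousLinearMap.smul_compLp]))
    1 (fun g h => by
      refine (ContinuousLinearMap.norm_compLp_le _ _).trans ?_
      rw [one_mul, mul_comm]
      refine mul_le_mul_of_nonneg_left ?_ (norm_nonneg _)
      refine ContinuousLinearMap.opNorm_le_bound _ (norm_nonneg _) fun T => ?_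
      rw [mul_comm]
      exact T.le_opNorm h)

theorem evLp_coeFn {Z : Type*} [NormedAddCommGroup Z] [NormedSpace ℝ Z]
    (g : Lp (Space →L[ℝ] Z) ⊤ (volume : Measure (Config 2))) (h : Space) :
    (evLp Z g h : Config 2 → Z) =ᵐ[volume] fun y => g y h :=
  ContinuousLinearMap.coeFn_compLp (ContinuousLinearMap.apply ℝ Z h) g

theorem norm_evLp_le (Z : Type*) [NormedAddCommGroup Z] [NormedSpace ℝ Z] : ‖evLp Z‖ ≤ 1 :=
  LinearMap.mkContinuous₂_norm_le _ zero_le_one _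

/-- second order Taylor estimate on a ball. -/
theorem taylor_two_ball {Z : Type*} [NormedAddCommGroup Z] [NormedSpace ℝ Z] {f : Space → Z} {x : Space} {ρ K : ℝ}
    (hf : ∀ z ∈ Metric.closedBall x ρ, ContDiffAt ℝ 2 f z)
    (hK : ∀ z ∈ Metric.closedBall x ρ, ‖iteratedFDeriv ℝ 2 f z‖ ≤ K) {h : Space} (hh : ‖h‖ ≤ ρ) :
    ‖f (x + h) - f x - fderiv ℝ f x h‖ ≤ K * ‖h‖ ^ 2 := by
  have hsub : Metric.closedBall x ‖h‖ ⊆ Metric.closedBall x ρ := Metric.closedBall_subset_closedBall hh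
  have hx : x ∈ Metric.closedBall x ‖h‖ := Metric.mem_closedBall_self (norm_nonneg _)
  have hxh : x + h ∈ Metric.closedBall x ‖h‖ := by simp
  have hd1 : ∀ z ∈ Metric.closedBall x ‖h‖, DifferentiableAt ℝ f z := fun z hz =>
    (hf z (hsub hz)).differentiableAt (by norm_num)
  have hd2 : ∀ z ∈ Metric.closedBall x ‖h‖, DifferentiableAt ℝ (fderiv ℝ f) z := fun z hz =>
    ((hf z (hsub hz)).fderiv_right (m := 1) (by norm_num)).differentiableAt (by norm_num)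
  have hb2 : ∀ z ∈ Metric.closedBall x ‖h‖, ‖fderiv ℝ (fderiv ℝ f) z‖ ≤ K := fun z hz => by
    have := hK z (hsub hz)
    rwa [← norm_iteratedFDeriv_fderiv, ← norm_iteratedFDeriv_fderiv, norm_iteratedFDeriv_zero] at this
  have hK0 : 0 ≤ K := le_trans (norm_nonneg (fderiv ℝ (fderiv ℝ f) x)) (hb2 x hx)
  have hb1 : ∀ z ∈ Metric.closedBall x ‖h‖, ‖fderiv ℝ f z - fderiv ℝ f x‖ ≤ K * ‖h‖ := fun z hz => by
    refine ((convex_closedBall x ‖h‖).norm_image_sub_le_of_norm_fderiv_le hd2 hb2 hx hz).trans ?_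
    refine mul_le_mul_of_nonneg_left ?_ hK0
    rw [← dist_eq_norm]
    exact hz
  have := (convex_closedBall x ‖h‖).norm_image_sub_le_of_norm_fderiv_le' hd1 hb1 hx hxh
  rw [add_sub_cancel_left] at this
  calc _ ≤ K * ‖h‖ * ‖h‖ := this
    _ = K * ‖h‖ ^ 2 := by ring

/-- the hypotheses of `symLp_contDiffOn`. -/
structure SymHyp {Z : Type*} [NormedAddCommGroup Z] [NormedSpace ℝ Z] (Ω : Set Space) (M : Config 3 → Z)
    (B : ℕ → Space → ℝ) : Prop where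
  smooth : ContDiffOn ℝ ∞ M {X | X 0 ∈ Ω}
  cont : ∀ k, ContinuousOn (B k) Ω
  bound : ∀ k, ∀ x ∈ Ω, ∀ y, ‖iteratedFDeriv ℝ k (fun x' => M (cons3 x' y)) x‖ ≤ B k x

/-- the partial derivative in the distinguished variable. -/
def partialD {Z : Type*} [NormedAddCommGroup Z] [NormedSpace ℝ Z] (M : Config 3 → Z) (X : Config 3) :
    Space →L[ℝ] Z := (fderiv ℝ M X).comp inj0

theorem isOpen_cyl {Ω : Set Space} (hΩ : IsOpen Ω) : IsOpen {X : Config 3 | X 0 ∈ Ω} :=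
  hΩ.preimage (continuous_apply 0)

section SymHyp

variable {Z : Type*} [NormedAddCommGroup Z] [NormedSpace ℝ Z] {Ω : Set Space} {M : Config 3 → Z}
  {B : ℕ → Space → ℝ}

theorem SymHyp.contDiffAt (h : SymHyp Ω M B) (hΩ : IsOpen Ω) {x : Space} (hx : x ∈ Ω) (y : Config 2) :
    ContDiffAt ℝ ∞ M (cons3 x y) :=
  h.smooth.contDiffAt ((isOpen_cyl hΩ).mem_nhds (show cons3 x y 0 ∈ Ω from hx))

theorem hasFDerivAt_cons3 (x : Space) (y : Config 2) : HasFDerivAt (fun x' => cons3 x' y) inj0 x := by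
  have e : (fun x' => cons3 x' y) = fun x' => inj0 x' + cons3 0 y := by
    funext x'; exact cons3_eq_inj0 x' y
  rw [e]
  exact inj0.hasFDerivAt.add_const _

theorem contDiff_cons3 (y : Config 2) : ContDiff ℝ ∞ (fun x' => cons3 x' y) := by
  have e : (fun x' => cons3 x' y) = fun x' => inj0 x' + cons3 0 y := by
    funext x'; exact cons3_eq_inj0 x' y
  rw [e]
  exact inj0.contDiff.add contDiff_const

theorem SymHyp.contDiffAt_slice (h : SymHyp Ω M B) (hΩ : IsOpen Ω) {x : Space} (hx : x ∈ Ω) (y : Config 2) :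
    ContDiffAt ℝ ∞ (fun x' => M (cons3 x' y)) x :=
  (h.contDiffAt hΩ hx y).comp x (contDiff_cons3 y).contDiffAt

theorem SymHyp.partialD_eq (h : SymHyp Ω M B) (hΩ : IsOpen Ω) {x : Space} (hx : x ∈ Ω) (y : Config 2) :
    partialD M (cons3 x y) = fderiv ℝ (fun x' => M (cons3 x' y)) x := by
  have h1 : HasFDerivAt M (fderiv ℝ M (cons3 x y)) (cons3 x y) :=
    ((h.contDiffAt hΩ hx y).differentiableAt (by simp)).hasFDerivAt
  exact (h1.comp x (hasFDerivAt_cons3 x y)).fderiv.symm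

theorem SymHyp.partial (h : SymHyp Ω M B) (hΩ : IsOpen Ω) : SymHyp Ω (partialD M) (fun k => B (k + 1)) where
  smooth := by
    have h1 : ContDiffOn ℝ ∞ (fderiv ℝ M) {X | X 0 ∈ Ω} :=
      h.smooth.fderiv_of_isOpen (isOpen_cyl hΩ) (by simp)
    exact ((ContinuousLinearMap.compL ℝ Space (Config 3) Z).flip inj0).contDiff.comp_contDiffOn h1
  cont := fun k => h.cont (k + 1)
  bound := fun k x hx y => by
    have e : (fun x' => partialD M (cons3 x' y)) =ᶠ[𝓝 x] fderiv ℝ (fun x' => M (cons3 x' y)) := by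
      filter_upwards [hΩ.mem_nhds hx] with x' hx'
      exact h.partialD_eq hΩ hx' y
    rw [(Filter.EventuallyEq.iteratedFDeriv ℝ e k).eq_of_nhds, norm_iteratedFDeriv_fderiv]
    exact h.bound (k + 1) x hx y

theorem SymHyp.norm_le (h : SymHyp Ω M B) {x : Space} (hx : x ∈ Ω) (y : Config 2) : ‖M (cons3 x y)‖ ≤ B 0 x := by
  have := h.bound 0 x hx y
  rwa [norm_iteratedFDeriv_zero] at this

theorem SymHyp.memLp (h : SymHyp Ω M B) {x : Space} (hx : x ∈ Ω) :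
    MemLp (fun y : Config 2 => M (cons3 x y)) ⊤ volume := by
  refine memLp_top_fibre (B := B 0 x) ?_ (h.norm_le hx)
  refine h.smooth.continuousOn.comp_continuous ?_ (fun y => hx)
  unfold cons3
  fun_prop

theorem SymHyp.hasFDerivAt (h : SymHyp Ω M B) (hΩ : IsOpen Ω) {x : Space} (hx : x ∈ Ω) :
    HasFDerivAt (symLp M) (evLp Z (symLp (partialD M) x)) x := by
  obtain ⟨ρ, hρ, hball⟩ := Metric.nhds_basis_closedBall.mem_iff.1 (hΩ.mem_nhds hx)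
  obtain ⟨K, hK⟩ := (isCompact_closedBall x ρ).exists_bound_of_continuousOn ((h.cont 2).mono hball)
  have hK0 : 0 ≤ K := (norm_nonneg _).trans (hK x (Metric.mem_closedBall_self hρ.le))
  have hp := h.partial hΩ
  have key : ∀ v : Space, ‖v‖ ≤ ρ →
      ‖symLp M (x + v) - symLp M x - evLp Z (symLp (partialD M) x) v‖ ≤ K * ‖v‖ ^ 2 := by
    intro v hv
    have hxv : x + v ∈ Ω := hball (by simpa using hv)
    refine norm_Lp_top_le _ (by positivity) ?_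
    filter_upwards [Lp.coeFn_sub (symLp M (x + v) - symLp M x) (evLp Z (symLp (partialD M) x) v),
      Lp.coeFn_sub (symLp M (x + v)) (symLp M x), symLp_coeFn (h.memLp hxv), symLp_coeFn (h.memLp hx),
      symLp_coeFn (hp.memLp hx), evLp_coeFn (symLp (partialD M) x) v] with y e1 e2 e3 e4 e5 e6
    rw [e1, Pi.sub_apply, e2, Pi.sub_apply, e3, e4, e6, e5, h.partialD_eq hΩ hx y]
    refine taylor_two_ball (f := fun x' => M (cons3 x' y)) (ρ := ρ) (fun z hz => ?_) (fun z hz => ?_) hv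
    · exact (h.contDiffAt_slice hΩ (hball hz) y).of_le (by norm_cast)
    · exact (h.bound 2 z (hball hz) y).trans ((le_abs_self _).trans (hK z hz))
  rw [hasFDerivAt_iff_isLittleO_nhds_zero, Asymptotics.isLittleO_iff]
  intro c hc
  have hr : 0 < min ρ (c / (K + 1)) := lt_min hρ (by positivity)
  filter_upwards [Metric.ball_mem_nhds (0 : Space) hr] with v hv
  rw [mem_ball_zero_iff] at hv
  have hv1 : ‖v‖ ≤ ρ := (hv.trans_le (min_le_left _ _)).le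
  have hv2 : ‖v‖ < c / (K + 1) := hv.trans_le (min_le_right _ _)
  rw [lt_div_iff₀ (by positivity)] at hv2
  calc _ ≤ K * ‖v‖ ^ 2 := key v hv1
    _ = (K * ‖v‖) * ‖v‖ := by ring
    _ ≤ c * ‖v‖ := by
        refine mul_le_mul_of_nonneg_right ?_ (norm_nonneg _)
        nlinarith [norm_nonneg v]

theorem SymHyp.fderiv_eq (h : SymHyp Ω M B) (hΩ : IsOpen Ω) {x : Space} (hx : x ∈ Ω) :
    fderiv ℝ (symLp M) x = evLp Z (symLp (partialD M) x) := (h.hasFDerivAt hΩ hx).fderiv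

end SymHyp

universe uZ

theorem SymHyp.contDiffOn_nat {Ω : Set Space} (hΩ : IsOpen Ω) (n : ℕ) :
    ∀ {Z : Type uZ} [NormedAddCommGroup Z] [NormedSpace ℝ Z] {M : Config 3 → Z} {B : ℕ → Space → ℝ},
      SymHyp Ω M B → ContDiffOn ℝ n (symLp M) Ω := by
  induction n with
  | zero =>
    intro Z _ _ M B h
    refine contDiffOn_zero.2 fun x hx => ?_
    exact (h.hasFDerivAt hΩ hx).continuousAt.continuousWithinAt
  | succ n ih =>
    intro Z _ _ M B h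
    have e : ((n + 1 : ℕ) : WithTop ℕ∞) = (n : WithTop ℕ∞) + 1 := by norm_cast
    rw [e, contDiffOn_succ_iff_fderiv_of_isOpen hΩ]
    refine ⟨fun x hx => (h.hasFDerivAt hΩ hx).differentiableAt.differentiableWithinAt, by simp, ?_⟩
    refine ContDiffOn.congr ?_ (fun x hx => h.fderiv_eq hΩ hx)
    exact (evLp Z).contDiff.comp_contDiffOn (ih (h.partial hΩ))

theorem SymHyp.contDiffOn {Z : Type*} [NormedAddCommGroup Z] [NormedSpace ℝ Z] {Ω : Set Space} {M : Config 3 → Z}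
    {B : ℕ → Space → ℝ} (h : SymHyp Ω M B) (hΩ : IsOpen Ω) : ContDiffOn ℝ ∞ (symLp M) Ω :=
  contDiffOn_infty.2 fun n => SymHyp.contDiffOn_nat hΩ n h

theorem SymHyp.bound_iter {Ω : Set Space} (hΩ : IsOpen Ω) (k : ℕ) :
    ∀ {Z : Type uZ} [NormedAddCommGroup Z] [NormedSpace ℝ Z] {M : Config 3 → Z} {B : ℕ → Space → ℝ},
      SymHyp Ω M B → ∀ x ∈ Ω, ‖iteratedFDeriv ℝ k (symLp M) x‖ ≤ B k x := by
  induction k with
  | zero =>
    intro Z _ _ M B h x hx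
    rw [norm_iteratedFDeriv_zero]
    exact norm_symLp_le ((norm_nonneg _).trans (h.norm_le hx 0)) (h.norm_le hx)
  | succ k ih =>
    intro Z _ _ M B h x hx
    have hp := h.partial hΩ
    have e : fderiv ℝ (symLp M) =ᶠ[𝓝 x] (evLp Z) ∘ symLp (partialD M) := by
      filter_upwards [hΩ.mem_nhds hx] with x' hx'
      exact h.fderiv_eq hΩ hx'
    rw [← norm_iteratedFDeriv_fderiv, (Filter.EventuallyEq.iteratedFDeriv ℝ e k).eq_of_nhds]
    have hc : ContDiffAt ℝ ∞ (symLp (partialD M)) x := (hp.contDiffOn hΩ).contDiffAt (hΩ.mem_nhds hx)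
    refine ((evLp Z).norm_iteratedFDeriv_comp_left hc (by exact_mod_cast le_top)).trans ?_
    calc _ ≤ 1 * ‖iteratedFDeriv ℝ k (symLp (partialD M)) x‖ :=
          mul_le_mul_of_nonneg_right (norm_evLp_le Z) (norm_nonneg _)
      _ = ‖iteratedFDeriv ℝ k (symLp (partialD M)) x‖ := one_mul _
      _ ≤ B (k + 1) x := ih hp x hx

/-- **Smoothness of `L^∞` valued slice maps.**
Induction on the order (statement for all `Z`, `M`, `B`).  Put `M'(X) = (fderiv ℝ M X) ∘ ι₀ : Space →L[ℝ] Z`, `ι₀ h = Pi.single 0 h`, i.e. the partial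
derivative in `x`; it satisfies the hypotheses with `B' k = B (k+1)` (`norm_iteratedFDeriv_fderiv` for the partial maps).  For `x ∈ Ω`, a closed
ball `K ⊆ Ω` around `x` and `x + h ∈ K`: `‖M(x+h,y) - M(x,y) - M'(x,y) h‖ ≤ (sup_K B 2) |h|²` for ALL `y` (mean value inequality on the convex set `K`
applied to `x' ↦ M(x',y) - M'(x,y) x'`), so `symLp M` is differentiable at `x` with derivative `Ψ (symLp M' x)`, where
`Ψ : Lp (Space →L[ℝ] Z) ⊤ →L[ℝ] (Space →L[ℝ] Lp Z ⊤)`, `(Ψ g) h = [y ↦ g y h]`, `‖Ψ‖ ≤ 1` (`ContinuousLinearMap.compLp` with the evaluation at `h`,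
`LinearMap.mkContinuous₂`).  Joint smoothness of `M` is used only for the measurability in `y` of the partial derivatives. -/
theorem symLp_contDiffOn {Z : Type*} [NormedAddCommGroup Z] [NormedSpace ℝ Z] {Ω : Set Space} (hΩ : IsOpen Ω)
    {M : Config 3 → Z} (hM : ContDiffOn ℝ ∞ M {X | X 0 ∈ Ω}) {B : ℕ → Space → ℝ}
    (hBc : ∀ k, ContinuousOn (B k) Ω)
    (hB : ∀ k, ∀ x ∈ Ω, ∀ y, ‖iteratedFDeriv ℝ k (fun x' => M (cons3 x' y)) x‖ ≤ B k x) :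
    ContDiffOn ℝ ∞ (symLp M) Ω ∧ ∀ k, ∀ x ∈ Ω, ‖iteratedFDeriv ℝ k (symLp M) x‖ ≤ B k x :=
  have h : SymHyp Ω M B := ⟨hM, hBc, hB⟩
  ⟨h.contDiffOn hΩ, fun k => SymHyp.bound_iter hΩ k h⟩

/-- `a ↦ a · v₁` as a real continuous linear map. -/
def mulVec (v₁ : FibE E) : Lp ℂ ⊤ (volume : Measure (Config 2)) →L[ℝ] FibE E :=
  ((mulOp (E := E)).flip v₁).restrictScalars ℝ

theorem mulVec_apply (v₁ : FibE E) (a : Lp ℂ ⊤ (volume : Measure (Config 2))) : mulVec v₁ a = mulOp a v₁ := rfl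

theorem norm_mulVec_le (v₁ : FibE E) : ‖mulVec v₁‖ ≤ ‖v₁‖ := by
  refine ContinuousLinearMap.opNorm_le_bound _ (norm_nonneg _) fun a => ?_
  rw [mulVec_apply, mul_comm]
  have h1 : ‖mulOp (E := E) a v₁‖ ≤ ‖mulOp (E := E) a‖ * ‖v₁‖ := (mulOp (E := E) a).le_opNorm v₁
  have h2 : ‖mulOp (E := E) a‖ * ‖v₁‖ ≤ ‖a‖ * ‖v₁‖ :=
    mul_le_mul_of_nonneg_right (norm_mulOp_le (E := E) a) (norm_nonneg v₁)
  exact h1.trans h2

/-- **vector form**: `x ↦ M(x,·) v` for a symbol which grows in `y` like the weight `wt` and a vector `v` with `wt v ∈ L²`.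
(`symLp_contDiffOn` for `M/wt`, complexified; `mulOp (symLp (M/wt) x) v₁`; `mulOp` is a continuous bilinear map.) -/
theorem symLp_apply_contDiffOn {Ω : Set Space} (hΩ : IsOpen Ω) {M : Config 3 → ℝ}
    (hM : ContDiffOn ℝ ∞ M {X | X 0 ∈ Ω}) {wt : Config 2 → ℝ} (hwt : ContDiff ℝ ∞ wt) (hwt1 : ∀ y, 1 ≤ wt y)
    {B : ℕ → Space → ℝ} (hBc : ∀ k, ContinuousOn (B k) Ω)
    (hB : ∀ k, ∀ x ∈ Ω, ∀ y, ‖iteratedFDeriv ℝ k (fun x' => M (cons3 x' y)) x‖ ≤ B k x * wt y)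
    {v v₁ : FibE E} (hv : ∀ᵐ y, v₁ y = wt y • v y) {T : Space → FibE E}
    (hT : ∀ x ∈ Ω, ∀ᵐ y, T x y = M (cons3 x y) • v y) :
    ContDiffOn ℝ ∞ T Ω ∧ ∀ k, ∀ x ∈ Ω, ‖iteratedFDeriv ℝ k T x‖ ≤ B k x * ‖v₁‖ := by
  have hw0 : ∀ y, 0 < wt y := fun y => lt_of_lt_of_le one_pos (hwt1 y)
  set N : Config 3 → ℂ := fun X => Complex.ofRealCLM (M X / wt (tail3 X)) with hN
  have htail : ContDiff ℝ ∞ (tail3 : Config 3 → Config 2) := by
    unfold tail3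
    fun_prop
  have hsl : ∀ x ∈ Ω, ∀ y, ContDiffAt ℝ ∞ (fun x' => M (cons3 x' y)) x := fun x hx y =>
    (hM.contDiffAt ((isOpen_cyl hΩ).mem_nhds (show cons3 x y 0 ∈ Ω from hx))).comp x (contDiff_cons3 y).contDiffAt
  have h : SymHyp Ω N B := by
    refine ⟨?_, hBc, fun k x hx y => ?_⟩
    · refine Complex.ofRealCLM.contDiff.comp_contDiffOn ?_
      exact hM.div (hwt.comp htail).contDiffOn fun X _ => (hw0 _).ne'
    · set L : ℝ →L[ℝ] ℂ := (wt y)⁻¹ • Complex.ofRealCLM with hL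
      have e : (fun x' => N (cons3 x' y)) = L ∘ fun x' => M (cons3 x' y) := by
        funext x'
        simp only [hN, hL, Function.comp, tail3_cons3, _root_.smul_apply, Complex.ofRealCLM_apply,
          Complex.real_smul]
        push_cast
        rw [div_eq_inv_mul]
      have hLn : ‖L‖ ≤ (wt y)⁻¹ := by
        rw [hL, norm_smul, Complex.ofRealCLM_norm, mul_one, Real.norm_eq_abs, abs_of_pos (inv_pos.2 (hw0 y))]
      rw [e]
      refine (L.norm_iteratedFDeriv_comp_left (hsl x hx y) (by exact_mod_cast le_top)).trans ?_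
      calc _ ≤ (wt y)⁻¹ * (B k x * wt y) :=
            mul_le_mul hLn (hB k x hx y) (norm_nonneg _) (inv_pos.2 (hw0 y)).le
        _ = B k x := by field_simp [(hw0 y).ne']
  have hTe : ∀ x ∈ Ω, T x = (mulVec v₁ ∘ symLp N) x := by
    intro x hx
    refine Lp.ext ?_
    filter_upwards [hT x hx, hv, mulOp_coeFn (symLp N x) v₁, symLp_coeFn (h.memLp hx)] with y e1 e2 e3 e4
    rw [e1]
    show _ = (mulOp (symLp N x) v₁ : Config 2 → E) y
    rw [e3, e4, e2]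
    simp only [hN, tail3_cons3, Complex.ofRealCLM_apply]
    rw [Complex.coe_smul, smul_smul, div_mul_cancel₀ _ (hw0 y).ne']
  refine ⟨((mulVec v₁).contDiff.comp_contDiffOn (h.contDiffOn hΩ)).congr hTe, fun k x hx => ?_⟩
  have e : T =ᶠ[𝓝 x] mulVec v₁ ∘ symLp N := by
    filter_upwards [hΩ.mem_nhds hx] with x' hx'
    exact hTe x' hx'
  rw [(Filter.EventuallyEq.iteratedFDeriv ℝ e k).eq_of_nhds]
  have hc : ContDiffAt ℝ ∞ (symLp N) x := (h.contDiffOn hΩ).contDiffAt (hΩ.mem_nhds hx)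
  refine ((mulVec v₁).norm_iteratedFDeriv_comp_left hc (by exact_mod_cast le_top)).trans ?_
  rw [mul_comm]
  exact mul_le_mul (SymHyp.bound_iter hΩ k h x hx) (norm_mulVec_le v₁) (norm_nonneg _)
    ((norm_nonneg _).trans (SymHyp.bound_iter hΩ k h x hx))

end W1

/-! ## LEAF AG-W2: the operator `W(x)` -/

section W2

theorem contDiff_WfunC : ContDiff ℝ ∞ (fun X : Config 3 => (Wfun X : ℂ)) :=
  Complex.ofRealCLM.contDiff.comp sym_Wfun.1

theorem norm_iteratedFDeriv_WfunC_le (k : ℕ) (X : Config 3) :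
    ‖iteratedFDeriv ℝ k (fun X : Config 3 => (Wfun X : ℂ)) X‖ ≤ ‖iteratedFDeriv ℝ k Wfun X‖ := by
  have h := Complex.ofRealCLM.norm_iteratedFDeriv_comp_left (sym_Wfun.1.contDiffAt (x := X)) (n := k)
    (by exact_mod_cast le_top)
  rw [Complex.ofRealCLM_norm, one_mul] at h
  exact h

theorem memLp_WfunC (x : Space) : MemLp (fun y : Config 2 => ((Wfun (cons3 x y) : ℝ) : ℂ)) ⊤ volume := by
  obtain ⟨C, hC⟩ := sym_Wfun.2 0
  refine memLp_top_fibre (M := fun X => (Wfun X : ℂ)) (B := |C|) ?_ fun y => ?_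
  · refine contDiff_WfunC.continuous.comp ?_
    unfold cons3
    fun_prop
  · have h1 := hC (cons3 x y)
    rw [norm_iteratedFDeriv_zero] at h1
    rw [Complex.norm_real]
    refine h1.trans ?_
    have h2 : rho (cons3 x y) ^ ((-1 : ℝ) - ((0 : ℕ) : ℝ)) ≤ 1 :=
      Real.rpow_le_one_of_one_le_of_nonpos (one_le_rho _) (by norm_num)
    have h3 : 0 ≤ rho (cons3 x y) ^ ((-1 : ℝ) - ((0 : ℕ) : ℝ)) := Real.rpow_nonneg (rho_pos _).le _
    calc C * rho (cons3 x y) ^ ((-1 : ℝ) - ((0 : ℕ) : ℝ)) ≤ |C| * rho (cons3 x y) ^ ((-1 : ℝ) - ((0 : ℕ) : ℝ)) :=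
          mul_le_mul_of_nonneg_right (le_abs_self _) h3
      _ ≤ |C| * 1 := mul_le_mul_of_nonneg_left h2 (abs_nonneg _)
      _ = |C| := mul_one _

theorem Wop_coeFn (x : Space) (ξ : FibE E) :
    (Wop x ξ : Config 2 → E) =ᵐ[volume] fun y => Wfun (cons3 x y) • ξ y := by
  unfold Wop
  filter_upwards [mulOp_coeFn (symLp (fun X => (Wfun X : ℂ)) x) ξ,
    symLp_coeFn (M := fun X => (Wfun X : ℂ)) (memLp_WfunC x)] with y h1 h2
  rw [h1, h2, Complex.coe_smul]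

theorem Wop_symm (x : Space) (ξ ζ : FibE E) : ⟪Wop x ξ, ζ⟫_ℂ = ⟪ξ, Wop x ζ⟫_ℂ := by
  refine mulOp_symm ?_ ξ ζ
  filter_upwards [symLp_coeFn (M := fun X => (Wfun X : ℂ)) (memLp_WfunC x)] with y h2
  rw [h2, Complex.ofReal_im]

theorem Wop_nonneg (x : Space) (ξ : FibE E) : 0 ≤ (⟪ξ, Wop x ξ⟫_ℂ).re := by
  refine mulOp_nonneg ?_ ξ
  filter_upwards [symLp_coeFn (M := fun X => (Wfun X : ℂ)) (memLp_WfunC x)] with y h2
  rw [h2, Complex.ofReal_im, Complex.ofReal_re]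
  exact ⟨rfl, Wfun_nonneg _⟩

/-- `ϱ(x,y) ≥ (1+|x|)/√2`. -/
theorem one_add_norm_le_rho (X : Config 3) : 1 + ‖X 0‖ ≤ √2 * rho X := by
  have h1 : ‖X 0‖ ^ 2 ≤ ∑ i, ‖X i‖ ^ 2 :=
    Finset.single_le_sum (f := fun i => ‖X i‖ ^ 2) (fun _ _ => sq_nonneg _) (Finset.mem_univ 0)
  have h2 : (1 + ‖X 0‖) ^ 2 ≤ (√2 * rho X) ^ 2 := by
    rw [mul_pow, Real.sq_sqrt (by norm_num), rho_sq]
    nlinarith [sq_nonneg (1 - ‖X 0‖)]
  exact abs_le_of_sq_le_sq' h2 (mul_nonneg (Real.sqrt_nonneg _) (rho_pos X).le) |>.2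

theorem Wsym_hyp : ∃ C : ℕ → ℝ, (∀ k, 0 ≤ C k) ∧
    SymHyp univ (fun X => (Wfun X : ℂ)) (fun k x => C k * (1 + ‖x‖) ^ (-1 - (k : ℝ))) := by
  choose C hC using sym_Wfun.2
  refine ⟨fun k => |C k| * √2 ^ (1 + (k : ℝ)), fun k => by positivity, ?_, fun k => ?_, fun k x _ y => ?_⟩
  · exact contDiff_WfunC.contDiffOn
  · refine Continuous.continuousOn ?_
    refine continuous_const.mul ((continuous_const.add continuous_norm).rpow_const fun x => Or.inl ?_)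
    have : 0 < 1 + ‖x‖ := by positivity
    exact this.ne'
  · refine (norm_iteratedFDeriv_partial_le contDiff_WfunC k x y).trans ?_
    refine (norm_iteratedFDeriv_WfunC_le k _).trans ((hC k _).trans ?_)
    have hx : 0 < 1 + ‖x‖ := by positivity
    have h2 : (0 : ℝ) < √2 := by positivity
    have h1 : (1 + ‖x‖) / √2 ≤ rho (cons3 x y) := by
      rw [div_le_iff₀ h2, mul_comm]
      exact one_add_norm_le_rho (cons3 x y)
    have h3 : rho (cons3 x y) ^ (-1 - (k : ℝ)) ≤ ((1 + ‖x‖) / √2) ^ (-1 - (k : ℝ)) :=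
      Real.rpow_le_rpow_of_nonpos (by positivity) h1 (by have : (0 : ℝ) ≤ k := Nat.cast_nonneg k; linarith)
    have h4 : ((1 + ‖x‖) / √2) ^ (-1 - (k : ℝ)) = √2 ^ (1 + (k : ℝ)) * (1 + ‖x‖) ^ (-1 - (k : ℝ)) := by
      rw [Real.div_rpow hx.le h2.le, div_eq_mul_inv, ← Real.rpow_neg h2.le, mul_comm]
      congr 2
      ring
    calc C k * rho (cons3 x y) ^ (-1 - (k : ℝ)) ≤ |C k| * rho (cons3 x y) ^ (-1 - (k : ℝ)) :=
          mul_le_mul_of_nonneg_right (le_abs_self _) (Real.rpow_nonneg (rho_pos _).le _)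
      _ ≤ |C k| * ((1 + ‖x‖) / √2) ^ (-1 - (k : ℝ)) := mul_le_mul_of_nonneg_left h3 (abs_nonneg _)
      _ = _ := by rw [h4]; ring

/-- **(3.9)**: `sym_Wfun`, `norm_iteratedFDeriv_partial_le`, `symLp_contDiffOn` with `Ω = univ`, `one_add_norm_le_rho`, `norm_mulOp_le`
(`mulOp` restricted to real scalars is a continuous linear map: `ContinuousLinearMap.norm_iteratedFDeriv_comp_left`). -/
theorem Wsym_bound : ContDiff ℝ ∞ (symLp fun X => (Wfun X : ℂ)) ∧ ∀ k : ℕ, ∃ C : ℝ, 0 ≤ C ∧ ∀ x : Space,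
    ‖iteratedFDeriv ℝ k (symLp fun X => (Wfun X : ℂ)) x‖ ≤ C * (1 + ‖x‖) ^ (-1 - (k : ℝ)) := by
  obtain ⟨C, hC0, h⟩ := Wsym_hyp
  exact ⟨contDiffOn_univ.1 (h.contDiffOn isOpen_univ), fun k =>
    ⟨C k, hC0 k, fun x => SymHyp.bound_iter isOpen_univ k h x (mem_univ x)⟩⟩

/-- the operator form, on the concrete fibre space (for a general `E` Lean does not find the norm on multilinear maps with values in
`FibE E →L[ℂ] FibE E`). -/
theorem Wop_bound : ContDiff ℝ ∞ (Wop (E := SpinSpace 3)) ∧ ∀ k : ℕ, ∃ C : ℝ, 0 ≤ C ∧ ∀ x : Space,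
    ‖iteratedFDeriv ℝ k (Wop (E := SpinSpace 3)) x‖ ≤ C * (1 + ‖x‖) ^ (-1 - (k : ℝ)) := by
  obtain ⟨hs, hb⟩ := Wsym_bound
  set L : Lp ℂ ⊤ (volume : Measure (Config 2)) →L[ℝ] (FibE (SpinSpace 3) →L[ℂ] FibE (SpinSpace 3)) :=
    (mulOp (E := SpinSpace 3)).restrictScalars ℝ with hL
  have hLn : ‖L‖ ≤ 1 := by
    refine ContinuousLinearMap.opNorm_le_bound _ zero_le_one fun a => ?_
    rw [one_mul]
    exact norm_mulOp_le (E := SpinSpace 3) a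
  have e : Wop (E := SpinSpace 3) = L ∘ symLp fun X => (Wfun X : ℂ) := rfl
  rw [e]
  refine ⟨L.contDiff.comp hs, fun k => ?_⟩
  obtain ⟨C, hC0, hC⟩ := hb k
  refine ⟨C, hC0, fun x => ?_⟩
  refine (L.norm_iteratedFDeriv_comp_left hs.contDiffAt (by exact_mod_cast le_top)).trans ?_
  calc _ ≤ 1 * ‖iteratedFDeriv ℝ k (symLp fun X => (Wfun X : ℂ)) x‖ :=
        mul_le_mul_of_nonneg_right hLn (norm_nonneg _)
    _ = _ := one_mul _
    _ ≤ _ := hC x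

end W2

/-! ## LEAF AG-W3: multipole expansion of the kernel -/

section W3

theorem contDiffAt_inv_norm_omega {z : Space} (hz : z ≠ 0) : ContDiffAt ℝ ω (fun z : Space => 1 / ‖z‖) z :=
  contDiffAt_const.div (contDiffAt_norm ℝ hz) (norm_ne_zero_iff.2 hz)

/-- the directional derivative commutes with the iterated derivative (symmetry of the derivatives of an analytic function). -/
theorem iteratedFDeriv_dir_comm {z : Space} (hz : z ≠ 0) (y : Space) (k : ℕ) :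
    iteratedFDeriv ℝ k (fun x' => fderiv ℝ (fun z : Space => 1 / ‖z‖) x' y) z
      = fderiv ℝ (iteratedFDeriv ℝ k (fun z : Space => 1 / ‖z‖)) z y := by
  set K : Space → ℝ := fun z => 1 / ‖z‖ with hK
  have hω : ContDiffAt ℝ ω K z := contDiffAt_inv_norm_omega hz
  have h1 : ContDiffAt ℝ ω (fderiv ℝ K) z := hω.fderiv_right (by simp)
  have e1 : (fun x' => fderiv ℝ K x' y) = (ContinuousLinearMap.apply ℝ ℝ y) ∘ fderiv ℝ K := rfl
  ext m
  rw [e1, ContinuousLinearMap.iteratedFDeriv_comp_left _ h1 le_top]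
  show iteratedFDeriv ℝ k (fderiv ℝ K) z m y = _
  have e2 := iteratedFDeriv_succ_apply_right (𝕜 := ℝ) (f := K) (x := z) (Fin.snoc m y : Fin (k + 1) → Space)
  simp only [Fin.init_snoc, Fin.snoc_last] at e2
  have e3 := iteratedFDeriv_succ_apply_left (𝕜 := ℝ) (f := K) (x := z) (Fin.cons y m : Fin (k + 1) → Space)
  simp only [Fin.cons_zero, Fin.tail_cons] at e3
  have e4 := hω.domDomCongr_iteratedFDeriv (n := k + 1) (finRotate (k + 1))
  have e5 := congrArg (fun T => T (Fin.cons y m : Fin (k + 1) → Space)) e4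
  simp only [ContinuousMultilinearMap.domDomCongr_apply] at e5
  rw [← e3, ← e5, ← Fin.snoc_eq_cons_rotate]
  exact e2.symm

theorem ag_hasFDerivAt_norm {x : Space} (hx : x ≠ 0) :
    HasFDerivAt (fun y : Space => ‖y‖) (‖x‖⁻¹ • innerSL ℝ x) x := by
  have h2 : HasFDerivAt (fun y : Space => ‖y‖ ^ 2) (2 • innerSL ℝ x) x :=
    (hasStrictFDerivAt_norm_sq x).hasFDerivAt
  have hx' : ‖x‖ ^ 2 ≠ 0 := pow_ne_zero 2 (norm_ne_zero_iff.2 hx)
  have h3 := h2.sqrt hx'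
  have e1 : (fun y : Space => √(‖y‖ ^ 2)) = fun y => ‖y‖ := by
    funext y; exact Real.sqrt_sq (norm_nonneg y)
  rw [e1, Real.sqrt_sq (norm_nonneg x)] at h3
  refine h3.congr_fderiv ?_
  have : ‖x‖ ≠ 0 := norm_ne_zero_iff.2 hx
  rw [← Nat.cast_smul_eq_nsmul ℝ, smul_smul]
  congr 1
  push_cast
  field_simp

theorem fderiv_inv_norm {x : Space} (hx : x ≠ 0) (y : Space) :
    fderiv ℝ (fun z : Space => 1 / ‖z‖) x y = -(⟪x, y⟫_ℝ / ‖x‖ ^ 3) := by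
  have hn : ‖x‖ ≠ 0 := norm_ne_zero_iff.2 hx
  have h1 := (hasDerivAt_inv hn).comp_hasFDerivAt x (ag_hasFDerivAt_norm hx)
  have e : (Inv.inv ∘ fun y : Space => ‖y‖) = fun z : Space => 1 / ‖z‖ := by
    funext z; simp
  rw [e] at h1
  rw [h1.fderiv]
  simp only [_root_.smul_apply, innerSL_apply_apply, smul_eq_mul]
  field_simp

theorem norm_ge_of_mem_closedBall {x y z : Space} (hy : ‖y‖ ≤ 3 / 4 * ‖x‖) (hz : z ∈ Metric.closedBall x ‖y‖) :
    ‖x‖ / 4 ≤ ‖z‖ := by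
  rw [mem_closedBall_iff_norm] at hz
  have h1 : ‖x‖ ≤ ‖z‖ + ‖z - x‖ := by
    have := norm_sub_le z (z - x)
    rwa [sub_sub_cancel] at this
  linarith

/-- the derivatives of the kernel on the ball of radius `|y| ≤ 3|x|/4` around `x`. -/
theorem inv_norm_bound_ball (k : ℕ) : ∃ C : ℝ, 0 ≤ C ∧ ∀ x y z : Space, x ≠ 0 → ‖y‖ ≤ 3 / 4 * ‖x‖ →
    z ∈ Metric.closedBall x ‖y‖ →
    z ≠ 0 ∧ ‖iteratedFDeriv ℝ k (fun z : Space => 1 / ‖z‖) z‖ ≤ C * ‖x‖ ^ (-1 - (k : ℝ)) := by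
  obtain ⟨C, hC0, hC⟩ := inv_norm_bound k
  refine ⟨C * 4 ^ (1 + (k : ℝ)), by positivity, fun x y z hx hy hz => ?_⟩
  have hxn : 0 < ‖x‖ := norm_pos_iff.2 hx
  have h1 := norm_ge_of_mem_closedBall hy hz
  have hzn : 0 < ‖z‖ := lt_of_lt_of_le (by positivity) h1
  have hz0 : z ≠ 0 := norm_pos_iff.1 hzn
  refine ⟨hz0, (hC z hz0).trans ?_⟩
  have h3 : ‖z‖ ^ (-1 - (k : ℝ)) ≤ (‖x‖ / 4) ^ (-1 - (k : ℝ)) :=
    Real.rpow_le_rpow_of_nonpos (by positivity) h1 (by have : (0 : ℝ) ≤ k := Nat.cast_nonneg k; linarith)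
  have h4 : (‖x‖ / 4) ^ (-1 - (k : ℝ)) = 4 ^ (1 + (k : ℝ)) * ‖x‖ ^ (-1 - (k : ℝ)) := by
    rw [Real.div_rpow hxn.le (by norm_num), div_eq_mul_inv, ← Real.rpow_neg (by norm_num), mul_comm]
    congr 2
    ring
  calc C * ‖z‖ ^ (-1 - (k : ℝ)) ≤ C * (‖x‖ / 4) ^ (-1 - (k : ℝ)) := mul_le_mul_of_nonneg_left h3 hC0
    _ = _ := by rw [h4]; ring

theorem norm_fderiv_iteratedFDeriv_sub (f : Space → ℝ) (k : ℕ) (z x : Space) :
    ‖fderiv ℝ (iteratedFDeriv ℝ k f) z - fderiv ℝ (iteratedFDeriv ℝ k f) x‖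
      = ‖iteratedFDeriv ℝ (k + 1) f z - iteratedFDeriv ℝ (k + 1) f x‖ := by
  have hz : ∀ w, fderiv ℝ (iteratedFDeriv ℝ k f) w
      = continuousMultilinearCurryLeftEquiv ℝ (fun _ : Fin (k + 1) => Space) ℝ (iteratedFDeriv ℝ (k + 1) f w) :=
    fun w => congrFun (fderiv_iteratedFDeriv (𝕜 := ℝ) (f := f) (n := k)) w
  rw [hz z, hz x, ← LinearIsometryEquiv.map_sub, LinearIsometryEquiv.norm_map]

/-- first order increment of the derivatives of the kernel. -/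
theorem kernel_incr_one (k : ℕ) : ∃ C : ℝ, 0 ≤ C ∧ ∀ x y : Space, x ≠ 0 → ‖y‖ ≤ 3 / 4 * ‖x‖ →
    ‖iteratedFDeriv ℝ k (fun z : Space => 1 / ‖z‖) (x - y) - iteratedFDeriv ℝ k (fun z : Space => 1 / ‖z‖) x‖
      ≤ C * ‖y‖ * ‖x‖ ^ (-2 - (k : ℝ)) := by
  obtain ⟨C, hC0, hC⟩ := inv_norm_bound_ball (k + 1)
  refine ⟨C, hC0, fun x y hx hy => ?_⟩
  have e : (-1 - ((k + 1 : ℕ) : ℝ)) = -2 - (k : ℝ) := by push_cast; ring
  have hxs : x ∈ Metric.closedBall x ‖y‖ := Metric.mem_closedBall_self (norm_nonneg _)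
  have hys : x - y ∈ Metric.closedBall x ‖y‖ := by simp
  have h1 := (convex_closedBall x ‖y‖).norm_image_sub_le_of_norm_fderiv_le
    (f := iteratedFDeriv ℝ k (fun z : Space => 1 / ‖z‖)) (C := C * ‖x‖ ^ (-2 - (k : ℝ)))
    (fun z hz => (contDiffAt_inv_norm_omega (hC x y z hx hy hz).1).differentiableAt_iteratedFDeriv
      (WithTop.coe_lt_top _))
    (fun z hz => by
      rw [norm_fderiv_iteratedFDeriv, ← e]
      exact (hC x y z hx hy hz).2) hxs hys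
  rw [sub_sub_cancel_left, norm_neg] at h1
  calc _ ≤ C * ‖x‖ ^ (-2 - (k : ℝ)) * ‖y‖ := h1
    _ = _ := by ring

/-- second order increment of the derivatives of the kernel. -/
theorem kernel_incr_two (k : ℕ) : ∃ C : ℝ, 0 ≤ C ∧ ∀ x y : Space, x ≠ 0 → ‖y‖ ≤ 3 / 4 * ‖x‖ →
    ‖iteratedFDeriv ℝ k (fun z : Space => 1 / ‖z‖) (x - y) - iteratedFDeriv ℝ k (fun z : Space => 1 / ‖z‖) x
        - fderiv ℝ (iteratedFDeriv ℝ k (fun z : Space => 1 / ‖z‖)) x (-y)‖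
      ≤ C * ‖y‖ ^ 2 * ‖x‖ ^ (-3 - (k : ℝ)) := by
  obtain ⟨C, hC0, hC⟩ := inv_norm_bound_ball (k + 2)
  refine ⟨C, hC0, fun x y hx hy => ?_⟩
  have e : (-1 - ((k + 2 : ℕ) : ℝ)) = -3 - (k : ℝ) := by push_cast; ring
  have hxs : x ∈ Metric.closedBall x ‖y‖ := Metric.mem_closedBall_self (norm_nonneg _)
  have hys : x - y ∈ Metric.closedBall x ‖y‖ := by simp
  have hK0 : 0 ≤ C * ‖x‖ ^ (-3 - (k : ℝ)) := mul_nonneg hC0 (Real.rpow_nonneg (norm_nonneg _) _)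
  have hb1 : ∀ z ∈ Metric.closedBall x ‖y‖,
      ‖fderiv ℝ (iteratedFDeriv ℝ k (fun z : Space => 1 / ‖z‖)) z
        - fderiv ℝ (iteratedFDeriv ℝ k (fun z : Space => 1 / ‖z‖)) x‖ ≤ C * ‖x‖ ^ (-3 - (k : ℝ)) * ‖y‖ := by
    intro z hz
    rw [norm_fderiv_iteratedFDeriv_sub]
    have h1 := (convex_closedBall x ‖y‖).norm_image_sub_le_of_norm_fderiv_le
      (f := iteratedFDeriv ℝ (k + 1) (fun z : Space => 1 / ‖z‖)) (C := C * ‖x‖ ^ (-3 - (k : ℝ)))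
      (fun z hz => (contDiffAt_inv_norm_omega (hC x y z hx hy hz).1).differentiableAt_iteratedFDeriv
        (WithTop.coe_lt_top _))
      (fun z hz => by
        rw [norm_fderiv_iteratedFDeriv, ← e]
        exact (hC x y z hx hy hz).2) hxs hz
    refine h1.trans (mul_le_mul_of_nonneg_left ?_ hK0)
    rw [← mem_closedBall_iff_norm]
    exact hz
  have h2 := (convex_closedBall x ‖y‖).norm_image_sub_le_of_norm_fderiv_le'
    (f := iteratedFDeriv ℝ k (fun z : Space => 1 / ‖z‖))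
    (fun z hz => (contDiffAt_inv_norm_omega (hC x y z hx hy hz).1).differentiableAt_iteratedFDeriv
      (WithTop.coe_lt_top _)) hb1 hxs hys
  rw [sub_sub_cancel_left, norm_neg] at h2
  calc _ ≤ C * ‖x‖ ^ (-3 - (k : ℝ)) * ‖y‖ * ‖y‖ := h2
    _ = _ := by ring

theorem iteratedFDeriv_kernel_shift (k : ℕ) (x y : Space) :
    iteratedFDeriv ℝ k (fun x' : Space => 1 / ‖x' - y‖) x
      = iteratedFDeriv ℝ k (fun z : Space => 1 / ‖z‖) (x - y) :=
  iteratedFDeriv_comp_sub (f := fun z : Space => 1 / ‖z‖) k y x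

theorem sub_ne_zero_of_norm_le {x y : Space} (hx : x ≠ 0) (hy : ‖y‖ ≤ 3 / 4 * ‖x‖) : x - y ≠ 0 := by
  intro h
  have hxn : 0 < ‖x‖ := norm_pos_iff.2 hx
  rw [sub_eq_zero] at h
  rw [← h] at hy
  linarith

theorem contDiffAt_kernel_shift {x y : Space} (h : x - y ≠ 0) (n : WithTop ℕ∞) :
    ContDiffAt ℝ n (fun x' : Space => 1 / ‖x' - y‖) x :=
  ((contDiffAt_inv_norm_omega h).comp x (contDiffAt_id.sub contDiffAt_const)).of_le le_top

theorem contDiffAt_dipole {x : Space} (hx : x ≠ 0) (y : Space) (n : WithTop ℕ∞) :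
    ContDiffAt ℝ n (fun x' : Space => ⟪x', y⟫_ℝ / ‖x'‖ ^ 3) x :=
  (contDiffAt_id.inner ℝ contDiffAt_const).div ((contDiffAt_norm ℝ hx).pow 3)
    (pow_ne_zero 3 (norm_ne_zero_iff.2 hx))

theorem iteratedFDeriv_dipole {x : Space} (hx : x ≠ 0) (y : Space) (k : ℕ) :
    iteratedFDeriv ℝ k (fun x' : Space => ⟪x', y⟫_ℝ / ‖x'‖ ^ 3) x
      = fderiv ℝ (iteratedFDeriv ℝ k (fun z : Space => 1 / ‖z‖)) x (-y) := by
  have e : (fun x' : Space => ⟪x', y⟫_ℝ / ‖x'‖ ^ 3) =ᶠ[𝓝 x]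
      fun x' => fderiv ℝ (fun z : Space => 1 / ‖z‖) x' (-y) := by
    filter_upwards [isOpen_compl_singleton.mem_nhds hx] with x' hx'
    rw [fderiv_inv_norm hx', inner_neg_right, neg_div, neg_neg]
  rw [(Filter.EventuallyEq.iteratedFDeriv ℝ e k).eq_of_nhds, iteratedFDeriv_dir_comm hx]

/-- first order Taylor remainder of the Coulomb kernel, with all `x`-derivatives.  With `Gk = iteratedFDeriv ℝ k (1/‖·‖)`:
`D_x^k [K(x - y) - K(x)] = Gk (x - y) - Gk x` (`iteratedFDeriv_comp_sub`), mean value inequality on the segment `[x - y, x]`, which stays in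
`{|z| ≥ |x|/4}`, `inv_norm_bound (k+1)`. -/
theorem kernel_taylor_one (k : ℕ) : ∃ C : ℝ, 0 ≤ C ∧ ∀ x y : Space, x ≠ 0 → ‖y‖ ≤ 3 / 4 * ‖x‖ →
    ‖iteratedFDeriv ℝ k (fun x' : Space => 1 / ‖x' - y‖ - 1 / ‖x'‖) x‖ ≤ C * ‖y‖ * ‖x‖ ^ (-2 - (k : ℝ)) := by
  obtain ⟨C, hC0, hC⟩ := kernel_incr_one k
  refine ⟨C, hC0, fun x y hx hy => ?_⟩
  rw [fun_iteratedFDeriv_sub_apply (contDiffAt_kernel_shift (sub_ne_zero_of_norm_le hx hy) _)
    ((contDiffAt_inv_norm_omega hx).of_le le_top), iteratedFDeriv_kernel_shift]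
  exact hC x y hx hy

/-- second order Taylor remainder: `K(x-y) - K(x) - x·y/|x|³`, where `x·y/|x|³ = -DK(x) y`. -/
theorem kernel_taylor_two (k : ℕ) : ∃ C : ℝ, 0 ≤ C ∧ ∀ x y : Space, x ≠ 0 → ‖y‖ ≤ 3 / 4 * ‖x‖ →
    ‖iteratedFDeriv ℝ k (fun x' : Space => 1 / ‖x' - y‖ - 1 / ‖x'‖ - ⟪x', y⟫_ℝ / ‖x'‖ ^ 3) x‖
      ≤ C * ‖y‖ ^ 2 * ‖x‖ ^ (-3 - (k : ℝ)) := by
  obtain ⟨C, hC0, hC⟩ := kernel_incr_two k
  refine ⟨C, hC0, fun x y hx hy => ?_⟩
  have h1 := contDiffAt_kernel_shift (sub_ne_zero_of_norm_le hx hy) (k : WithTop ℕ∞)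
  have h2 : ContDiffAt ℝ k (fun z : Space => 1 / ‖z‖) x := (contDiffAt_inv_norm_omega hx).of_le le_top
  rw [fun_iteratedFDeriv_sub_apply (h1.sub h2) (contDiffAt_dipole hx y _),
    fun_iteratedFDeriv_sub_apply h1 h2, iteratedFDeriv_kernel_shift, iteratedFDeriv_dipole hx]
  exact hC x y hx hy

/-- homogeneous bounds of the two explicit terms (`homog_bound`). -/
theorem dipole_term_bound (k : ℕ) : ∃ C : ℝ, 0 ≤ C ∧ ∀ x y : Space, x ≠ 0 →
    ‖iteratedFDeriv ℝ k (fun x' : Space => ⟪x', y⟫_ℝ / ‖x'‖ ^ 3) x‖ ≤ C * ‖y‖ * ‖x‖ ^ (-2 - (k : ℝ)) := by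
  obtain ⟨C, hC0, hC⟩ := inv_norm_bound (k + 1)
  refine ⟨C, hC0, fun x y hx => ?_⟩
  have e : (-1 - ((k + 1 : ℕ) : ℝ)) = -2 - (k : ℝ) := by push_cast; ring
  rw [iteratedFDeriv_dipole hx]
  refine (ContinuousLinearMap.le_opNorm _ _).trans ?_
  rw [norm_fderiv_iteratedFDeriv, norm_neg]
  have := hC x hx
  rw [e] at this
  calc _ ≤ C * ‖x‖ ^ (-2 - (k : ℝ)) * ‖y‖ := mul_le_mul_of_nonneg_right this (norm_nonneg _)
    _ = _ := by ring

theorem sRatio_cons3 (x : Space) (y : Config 2) :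
    sRatio (cons3 x y) = (‖y 0‖ ^ 2 + ‖y 1‖ ^ 2) / (1 + (‖x‖ ^ 2 + ‖y 0‖ ^ 2 + ‖y 1‖ ^ 2)) := by
  unfold sRatio
  rw [Fin.sum_univ_three]
  rfl

theorem rho_sq_two (y : Config 2) : rho y ^ 2 = 1 + (‖y 0‖ ^ 2 + ‖y 1‖ ^ 2) := by
  rw [rho_sq, Fin.sum_univ_two]

/-- inside the cone: `|y_i| ≤ 3|x|/4`. -/
theorem norm_le_of_sRatio_lt {x : Space} {y : Config 2} (h : sRatio (cons3 x y) < 1 / 5) (hx : 3 < ‖x‖) (i : Fin 2) :
    ‖y i‖ ≤ 3 / 4 * ‖x‖ := by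
  rw [sRatio_cons3, div_lt_iff₀ (by positivity)] at h
  have h1 : ‖y i‖ ^ 2 ≤ ‖y 0‖ ^ 2 + ‖y 1‖ ^ 2 := by
    fin_cases i
    · exact le_add_of_nonneg_right (sq_nonneg _)
    · exact le_add_of_nonneg_left (sq_nonneg _)
  have h2 : ‖y i‖ ^ 2 ≤ (3 / 4 * ‖x‖) ^ 2 := by nlinarith
  exact (pow_le_pow_iff_left₀ (norm_nonneg _) (by positivity) two_ne_zero).1 h2

/-- outside the cone: `ϱ(y) ≥ |x|/2`. -/
theorem rho_ge_of_sRatio_ge' {x : Space} {y : Config 2} (h : 1 / 5 ≤ sRatio (cons3 x y)) : ‖x‖ ≤ 2 * rho y := by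
  rw [sRatio_cons3, le_div_iff₀ (by positivity)] at h
  have h2 : ‖x‖ ^ 2 ≤ (2 * rho y) ^ 2 := by
    rw [mul_pow, rho_sq_two]
    nlinarith
  exact (pow_le_pow_iff_left₀ (norm_nonneg _) (by have := rho_pos y; positivity) two_ne_zero).1 h2

theorem rpow_shift {r : ℝ} (hr : 0 < r) (a : ℝ) : r ^ (a + 1) = r ^ a * r := Real.rpow_add_one hr.ne' a

theorem contDiffAt_Wfun_slice (x : Space) (y : Config 2) (k : ℕ) :
    ContDiffAt ℝ k (fun x' => Wfun (cons3 x' y)) x :=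
  ((sym_Wfun.1.comp (contDiff_cons3 y)).contDiffAt).of_le (by exact_mod_cast le_top)

/-- the `W` part alone. -/
theorem Wfun_slice_bound (k : ℕ) : ∃ C : ℝ, 0 ≤ C ∧ ∀ (x : Space) (y : Config 2), x ≠ 0 →
    ‖iteratedFDeriv ℝ k (fun x' => Wfun (cons3 x' y)) x‖ ≤ C * ‖x‖ ^ (-1 - (k : ℝ)) := by
  obtain ⟨C, hC⟩ := sym_Wfun.2 k
  refine ⟨|C|, abs_nonneg _, fun x y hx => ?_⟩
  have hxn : 0 < ‖x‖ := norm_pos_iff.2 hx
  refine (norm_iteratedFDeriv_partial_le sym_Wfun.1 k x y).trans ((hC _).trans ?_)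
  have h1 : ‖x‖ ≤ rho (cons3 x y) := norm_le_rho (cons3 x y) 0
  have h3 : rho (cons3 x y) ^ (-1 - (k : ℝ)) ≤ ‖x‖ ^ (-1 - (k : ℝ)) :=
    Real.rpow_le_rpow_of_nonpos hxn h1 (by have : (0 : ℝ) ≤ k := Nat.cast_nonneg k; linarith)
  calc C * rho (cons3 x y) ^ (-1 - (k : ℝ)) ≤ |C| * rho (cons3 x y) ^ (-1 - (k : ℝ)) :=
        mul_le_mul_of_nonneg_right (le_abs_self _) (Real.rpow_nonneg (rho_pos _).le _)
    _ ≤ _ := mul_le_mul_of_nonneg_left h3 (abs_nonneg _)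

theorem contDiffAt_two_div {x : Space} (hx : x ≠ 0) (n : WithTop ℕ∞) :
    ContDiffAt ℝ n (fun x' : Space => 2 / ‖x'‖) x :=
  contDiffAt_const.div (contDiffAt_norm ℝ hx) (norm_ne_zero_iff.2 hx)

/-- the monopole part alone. -/
theorem two_div_bound (k : ℕ) : ∃ C : ℝ, 0 ≤ C ∧ ∀ x : Space, x ≠ 0 →
    ‖iteratedFDeriv ℝ k (fun x' : Space => 2 / ‖x'‖) x‖ ≤ C * ‖x‖ ^ (-1 - (k : ℝ)) := by
  obtain ⟨C, hC0, hC⟩ := inv_norm_bound k
  refine ⟨2 * C, by positivity, fun x hx => ?_⟩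
  have e : (fun x' : Space => 2 / ‖x'‖) = (2 : ℝ) • fun z : Space => 1 / ‖z‖ := by
    funext z
    simp only [Pi.smul_apply, smul_eq_mul]
    ring
  rw [e, iteratedFDeriv_const_smul_apply ((contDiffAt_inv_norm_omega hx).of_le le_top), norm_smul]
  have := hC x hx
  rw [Real.norm_eq_abs, abs_of_pos (by norm_num : (0 : ℝ) < 2)]
  linarith

/-- near a point inside the cone the cut-off interaction is exact. -/
theorem Wfun_slice_eventuallyEq {x : Space} {y : Config 2} (h : sRatio (cons3 x y) < 1 / 5) (hx : 3 < ‖x‖) :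
    (fun x' => Wfun (cons3 x' y)) =ᶠ[𝓝 x] fun x' => 1 / ‖x' - y 0‖ + 1 / ‖x' - y 1‖ := by
  have hc : Continuous fun x' => sRatio (cons3 x' y) := sym_sRatio.1.continuous.comp (contDiff_cons3 y).continuous
  filter_upwards [hc.continuousAt.eventually (Iio_mem_nhds h),
    continuous_norm.continuousAt.eventually (Ioi_mem_nhds hx)] with x' h1 h2
  exact Wfun_eq (X := cons3 x' y) (le_of_lt h1) (le_of_lt h2)

/-- **monopole symbol.**  Fix `y` and `x` with `|x| > 3`.  If `sRatio (cons3 x y) < 1/5` then near `x`: `Wfun = ∑ 1/|x' - y_i|` (`Wfun_eq`; the condition is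
open) and `|y_i| ≤ √(1+r²)/2 ≤ 3r/4`: `kernel_taylor_one`.  Otherwise `ϱ(y)² = 1 + |y|² ≥ r²/4` and each term is bounded separately:
`sym_Wfun` + `norm_iteratedFDeriv_partial_le`, `inv_norm_bound`. -/
theorem mono_symbol (k : ℕ) : ∃ C : ℝ, 0 ≤ C ∧ ∀ (x : Space) (y : Config 2), 3 < ‖x‖ →
    ‖iteratedFDeriv ℝ k (fun x' : Space => Wfun (cons3 x' y) - 2 / ‖x'‖) x‖
      ≤ C * ‖x‖ ^ (-2 - (k : ℝ)) * rho y := by
  obtain ⟨CA, hA0, hA⟩ := kernel_taylor_one k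
  obtain ⟨C1, h10, h1⟩ := Wfun_slice_bound k
  obtain ⟨C2, h20, h2⟩ := two_div_bound k
  refine ⟨2 * CA + 2 * (C1 + C2), by positivity, fun x y hx => ?_⟩
  have hxn : 0 < ‖x‖ := by linarith
  have hx0 : x ≠ 0 := norm_pos_iff.1 hxn
  have hp : 0 ≤ ‖x‖ ^ (-2 - (k : ℝ)) := Real.rpow_nonneg hxn.le _
  have hρ := rho_pos y
  rcases lt_or_ge (sRatio (cons3 x y)) (1 / 5) with hs | hs
  · have hy0 := norm_le_of_sRatio_lt hs hx 0
    have hy1 := norm_le_of_sRatio_lt hs hx 1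
    have e : (fun x' : Space => Wfun (cons3 x' y) - 2 / ‖x'‖) =ᶠ[𝓝 x]
        fun x' => (1 / ‖x' - y 0‖ - 1 / ‖x'‖) + (1 / ‖x' - y 1‖ - 1 / ‖x'‖) := by
      filter_upwards [Wfun_slice_eventuallyEq hs hx] with x' h'
      rw [h']
      ring
    have c : ContDiffAt ℝ k (fun z : Space => 1 / ‖z‖) x := (contDiffAt_inv_norm_omega hx0).of_le le_top
    rw [(Filter.EventuallyEq.iteratedFDeriv ℝ e k).eq_of_nhds,
      fun_iteratedFDeriv_add_apply ((contDiffAt_kernel_shift (sub_ne_zero_of_norm_le hx0 hy0) _).sub c)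
        ((contDiffAt_kernel_shift (sub_ne_zero_of_norm_le hx0 hy1) _).sub c)]
    refine (norm_add_le _ _).trans ?_
    have a0 := hA x (y 0) hx0 hy0
    have a1 := hA x (y 1) hx0 hy1
    have n0 : ‖y 0‖ ≤ rho y := norm_le_rho y 0
    have n1 : ‖y 1‖ ≤ rho y := norm_le_rho y 1
    calc _ ≤ CA * ‖y 0‖ * ‖x‖ ^ (-2 - (k : ℝ)) + CA * ‖y 1‖ * ‖x‖ ^ (-2 - (k : ℝ)) := add_le_add a0 a1
      _ = CA * ‖x‖ ^ (-2 - (k : ℝ)) * (‖y 0‖ + ‖y 1‖) := by ring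
      _ ≤ CA * ‖x‖ ^ (-2 - (k : ℝ)) * (2 * rho y) :=
          mul_le_mul_of_nonneg_left (by linarith) (mul_nonneg hA0 hp)
      _ ≤ (2 * CA + 2 * (C1 + C2)) * ‖x‖ ^ (-2 - (k : ℝ)) * rho y := by
          have : 0 ≤ 2 * (C1 + C2) * ‖x‖ ^ (-2 - (k : ℝ)) * rho y := by positivity
          nlinarith
  · have hr := rho_ge_of_sRatio_ge' hs
    rw [fun_iteratedFDeriv_sub_apply (contDiffAt_Wfun_slice x y k)
      (contDiffAt_two_div hx0 _)]
    refine (norm_sub_le _ _).trans ?_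
    have e : ‖x‖ ^ (-1 - (k : ℝ)) = ‖x‖ ^ (-2 - (k : ℝ)) * ‖x‖ := by
      rw [← rpow_shift hxn]
      congr 1
      ring
    calc _ ≤ C1 * ‖x‖ ^ (-1 - (k : ℝ)) + C2 * ‖x‖ ^ (-1 - (k : ℝ)) := add_le_add (h1 x y hx0) (h2 x hx0)
      _ = (C1 + C2) * ‖x‖ ^ (-2 - (k : ℝ)) * ‖x‖ := by rw [e]; ring
      _ ≤ (C1 + C2) * ‖x‖ ^ (-2 - (k : ℝ)) * (2 * rho y) :=
          mul_le_mul_of_nonneg_left hr (mul_nonneg (by positivity) hp)
      _ ≤ (2 * CA + 2 * (C1 + C2)) * ‖x‖ ^ (-2 - (k : ℝ)) * rho y := by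
          have : 0 ≤ 2 * CA * ‖x‖ ^ (-2 - (k : ℝ)) * rho y := by positivity
          nlinarith

/-- **dipole symbol.** -/
theorem dipole_symbol (k : ℕ) : ∃ C : ℝ, 0 ≤ C ∧ ∀ (x : Space) (y : Config 2), 3 < ‖x‖ →
    ‖iteratedFDeriv ℝ k (fun x' : Space => Wfun (cons3 x' y) - 2 / ‖x'‖ - ⟪x', y 0 + y 1⟫_ℝ / ‖x'‖ ^ 3) x‖
      ≤ C * ‖x‖ ^ (-3 - (k : ℝ)) * rho y ^ 2 := by
  obtain ⟨CA, hA0, hA⟩ := kernel_taylor_two k
  obtain ⟨C1, h10, h1⟩ := Wfun_slice_bound k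
  obtain ⟨C2, h20, h2⟩ := two_div_bound k
  obtain ⟨C3, h30, h3⟩ := dipole_term_bound k
  refine ⟨CA + 4 * (C1 + C2 + C3), by positivity, fun x y hx => ?_⟩
  have hxn : 0 < ‖x‖ := by linarith
  have hx0 : x ≠ 0 := norm_pos_iff.1 hxn
  have hp : 0 ≤ ‖x‖ ^ (-3 - (k : ℝ)) := Real.rpow_nonneg hxn.le _
  have hρ := rho_pos y
  rcases lt_or_ge (sRatio (cons3 x y)) (1 / 5) with hs | hs
  · have hy0 := norm_le_of_sRatio_lt hs hx 0
    have hy1 := norm_le_of_sRatio_lt hs hx 1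
    have e : (fun x' : Space => Wfun (cons3 x' y) - 2 / ‖x'‖ - ⟪x', y 0 + y 1⟫_ℝ / ‖x'‖ ^ 3) =ᶠ[𝓝 x]
        fun x' => (1 / ‖x' - y 0‖ - 1 / ‖x'‖ - ⟪x', y 0⟫_ℝ / ‖x'‖ ^ 3)
          + (1 / ‖x' - y 1‖ - 1 / ‖x'‖ - ⟪x', y 1⟫_ℝ / ‖x'‖ ^ 3) := by
      filter_upwards [Wfun_slice_eventuallyEq hs hx] with x' h'
      rw [h', inner_add_right]
      ring
    have c : ContDiffAt ℝ k (fun z : Space => 1 / ‖z‖) x := (contDiffAt_inv_norm_omega hx0).of_le le_top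
    rw [(Filter.EventuallyEq.iteratedFDeriv ℝ e k).eq_of_nhds,
      fun_iteratedFDeriv_add_apply
        (((contDiffAt_kernel_shift (sub_ne_zero_of_norm_le hx0 hy0) _).sub c).sub (contDiffAt_dipole hx0 _ _))
        (((contDiffAt_kernel_shift (sub_ne_zero_of_norm_le hx0 hy1) _).sub c).sub (contDiffAt_dipole hx0 _ _))]
    refine (norm_add_le _ _).trans ?_
    have a0 := hA x (y 0) hx0 hy0
    have a1 := hA x (y 1) hx0 hy1
    have n0 : ‖y 0‖ ^ 2 + ‖y 1‖ ^ 2 ≤ rho y ^ 2 := by rw [rho_sq_two]; linarith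
    calc _ ≤ CA * ‖y 0‖ ^ 2 * ‖x‖ ^ (-3 - (k : ℝ)) + CA * ‖y 1‖ ^ 2 * ‖x‖ ^ (-3 - (k : ℝ)) := add_le_add a0 a1
      _ = CA * ‖x‖ ^ (-3 - (k : ℝ)) * (‖y 0‖ ^ 2 + ‖y 1‖ ^ 2) := by ring
      _ ≤ CA * ‖x‖ ^ (-3 - (k : ℝ)) * rho y ^ 2 := mul_le_mul_of_nonneg_left n0 (mul_nonneg hA0 hp)
      _ ≤ (CA + 4 * (C1 + C2 + C3)) * ‖x‖ ^ (-3 - (k : ℝ)) * rho y ^ 2 := by
          have : 0 ≤ 4 * (C1 + C2 + C3) * ‖x‖ ^ (-3 - (k : ℝ)) * rho y ^ 2 := by positivity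
          nlinarith
  · have hr := rho_ge_of_sRatio_ge' hs
    rw [fun_iteratedFDeriv_sub_apply ((contDiffAt_Wfun_slice x y k).sub (contDiffAt_two_div hx0 _))
        (contDiffAt_dipole hx0 _ _),
      fun_iteratedFDeriv_sub_apply (contDiffAt_Wfun_slice x y k) (contDiffAt_two_div hx0 _)]
    refine (norm_sub_le _ _).trans (add_le_add (norm_sub_le _ _) le_rfl |>.trans ?_)
    have e2 : ‖x‖ ^ (-2 - (k : ℝ)) = ‖x‖ ^ (-3 - (k : ℝ)) * ‖x‖ := by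
      rw [← rpow_shift hxn]
      congr 1
      ring
    have e1 : ‖x‖ ^ (-1 - (k : ℝ)) = ‖x‖ ^ (-3 - (k : ℝ)) * ‖x‖ ^ 2 := by
      have : ‖x‖ ^ (-1 - (k : ℝ)) = ‖x‖ ^ (-2 - (k : ℝ)) * ‖x‖ := by
        rw [← rpow_shift hxn]
        congr 1
        ring
      rw [this, e2]
      ring
    have n2 : ‖y 0 + y 1‖ ≤ 2 * rho y :=
      (norm_add_le _ _).trans (by linarith [norm_le_rho y 0, norm_le_rho y 1])
    have q1 : ‖x‖ ^ 2 ≤ 4 * rho y ^ 2 := by nlinarith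
    have q2 : ‖y 0 + y 1‖ * ‖x‖ ≤ 4 * rho y ^ 2 := by
      have := mul_le_mul n2 hr hxn.le (by positivity)
      nlinarith
    calc _ ≤ C1 * ‖x‖ ^ (-1 - (k : ℝ)) + C2 * ‖x‖ ^ (-1 - (k : ℝ)) + C3 * ‖y 0 + y 1‖ * ‖x‖ ^ (-2 - (k : ℝ)) :=
          add_le_add (add_le_add (h1 x y hx0) (h2 x hx0)) (h3 x _ hx0)
      _ = (C1 + C2) * ‖x‖ ^ (-3 - (k : ℝ)) * ‖x‖ ^ 2 + C3 * ‖x‖ ^ (-3 - (k : ℝ)) * (‖y 0 + y 1‖ * ‖x‖) := by
          rw [e1, e2]; ring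
      _ ≤ (C1 + C2) * ‖x‖ ^ (-3 - (k : ℝ)) * (4 * rho y ^ 2) + C3 * ‖x‖ ^ (-3 - (k : ℝ)) * (4 * rho y ^ 2) :=
          add_le_add (mul_le_mul_of_nonneg_left q1 (mul_nonneg (by positivity) hp))
            (mul_le_mul_of_nonneg_left q2 (mul_nonneg h30 hp))
      _ ≤ (CA + 4 * (C1 + C2 + C3)) * ‖x‖ ^ (-3 - (k : ℝ)) * rho y ^ 2 := by
          have : 0 ≤ CA * ‖x‖ ^ (-3 - (k : ℝ)) * rho y ^ 2 := by positivity
          nlinarith

end W3

/-! ## LEAF AG-W4: multipole expansion of `W(x) v` -/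

section W4

theorem isOpen_ext3 : IsOpen {x : Space | 3 < ‖x‖} := isOpen_lt continuous_const continuous_norm

theorem continuousOn_rpow_ext3 (c a : ℝ) : ContinuousOn (fun x : Space => c * ‖x‖ ^ a) {x : Space | 3 < ‖x‖} := by
  refine continuousOn_const.mul (continuous_norm.continuousOn.rpow_const fun x hx => Or.inl ?_)
  have : (3 : ℝ) < ‖x‖ := hx
  linarith

theorem contDiffOn_two_div_cyl : ContDiffOn ℝ ∞ (fun X : Config 3 => 2 / ‖X 0‖) {X | X 0 ∈ {x : Space | 3 < ‖x‖}} := by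
  intro X hX
  have h3 : (3 : ℝ) < ‖X 0‖ := hX
  have h0 : X 0 ≠ 0 := norm_pos_iff.1 (by linarith)
  have h1 : ContDiffAt ℝ ∞ (fun X : Config 3 => X 0) X := (contDiff_apply ℝ Space (0 : Fin 3)).contDiffAt
  exact (contDiffAt_const.div ((contDiffAt_norm ℝ h0).comp X h1) (norm_ne_zero_iff.2 h0)).contDiffWithinAt

/-- `W(x) v - (2/r) v`, `ϱ v ∈ L²`  (`symLp_apply_contDiffOn` with `wt = rho`, `mono_symbol`, `Wop_coeFn`). -/
theorem Wop_mono : ∃ C : ℕ → ℝ, (∀ k, 0 ≤ C k) ∧ ∀ v v₁ : FibE E, (∀ᵐ y, v₁ y = rho y • v y) →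
    ContDiffOn ℝ ∞ (fun x : Space => Wop x v - (2 / ‖x‖) • v) {x | 3 < ‖x‖} ∧
    ∀ k, ∀ x : Space, 3 < ‖x‖ →
      ‖iteratedFDeriv ℝ k (fun x : Space => Wop x v - (2 / ‖x‖) • v) x‖ ≤ C k * ‖x‖ ^ (-2 - (k : ℝ)) * ‖v₁‖ := by
  choose C hC0 hC using mono_symbol
  refine ⟨C, hC0, fun v v₁ hv => ?_⟩
  refine symLp_apply_contDiffOn (Ω := {x : Space | 3 < ‖x‖}) isOpen_ext3
    (M := fun X => Wfun X - 2 / ‖X 0‖) (wt := rho) (B := fun k x => C k * ‖x‖ ^ (-2 - (k : ℝ)))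
    (sym_Wfun.1.contDiffOn.sub contDiffOn_two_div_cyl) contDiff_rho one_le_rho
    (fun k => continuousOn_rpow_ext3 _ _) (fun k x hx y => hC k x y hx) hv (fun x _ => ?_)
  filter_upwards [Lp.coeFn_sub (Wop x v) ((2 / ‖x‖) • v), Wop_coeFn x v, Lp.coeFn_smul (2 / ‖x‖) v] with y e1 e2 e3
  rw [e1, Pi.sub_apply, e2, e3, Pi.smul_apply, ← sub_smul]
  rfl

theorem contDiffOn_dipole_cyl :
    ContDiffOn ℝ ∞ (fun X : Config 3 => ⟪X 0, X 1 + X 2⟫_ℝ / ‖X 0‖ ^ 3) {X | X 0 ∈ {x : Space | 3 < ‖x‖}} := by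
  intro X hX
  have h3 : (3 : ℝ) < ‖X 0‖ := hX
  have h0 : X 0 ≠ 0 := norm_pos_iff.1 (by linarith)
  have h1 : ∀ i : Fin 3, ContDiffAt ℝ ∞ (fun X : Config 3 => X i) X := fun i =>
    (contDiff_apply ℝ Space i).contDiffAt
  exact (((h1 0).inner ℝ ((h1 1).add (h1 2))).div (((contDiffAt_norm ℝ h0).comp X (h1 0)).pow 3)
    (pow_ne_zero 3 (norm_ne_zero_iff.2 h0))).contDiffWithinAt

/-- `W(x) v - (2/r) v - r^{-3} ∑_i x_i Y_i v`, `ϱ² v ∈ L²`, `Y_i v = (y_{1,i} + y_{2,i}) v`. -/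
theorem Wop_dipole : ∃ C : ℕ → ℝ, (∀ k, 0 ≤ C k) ∧ ∀ (v v₂ : FibE E) (Y : Fin 3 → FibE E),
    (∀ᵐ y, v₂ y = (rho y ^ 2) • v y) → (∀ i, ∀ᵐ y : Config 2, Y i y = (y 0 i + y 1 i) • v y) →
    ContDiffOn ℝ ∞ (fun x : Space => Wop x v - (2 / ‖x‖) • v - (‖x‖ ^ 3)⁻¹ • ∑ i, x i • Y i) {x | 3 < ‖x‖} ∧
    ∀ k, ∀ x : Space, 3 < ‖x‖ →
      ‖iteratedFDeriv ℝ k (fun x : Space => Wop x v - (2 / ‖x‖) • v - (‖x‖ ^ 3)⁻¹ • ∑ i, x i • Y i) x‖
        ≤ C k * ‖x‖ ^ (-3 - (k : ℝ)) * ‖v₂‖ := by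
  choose C hC0 hC using dipole_symbol
  refine ⟨C, hC0, fun v v₂ Y hv hY => ?_⟩
  refine symLp_apply_contDiffOn (Ω := {x : Space | 3 < ‖x‖}) isOpen_ext3
    (M := fun X => Wfun X - 2 / ‖X 0‖ - ⟪X 0, X 1 + X 2⟫_ℝ / ‖X 0‖ ^ 3) (wt := fun y => rho y ^ 2)
    (B := fun k x => C k * ‖x‖ ^ (-3 - (k : ℝ)))
    ((sym_Wfun.1.contDiffOn.sub contDiffOn_two_div_cyl).sub contDiffOn_dipole_cyl) (contDiff_rho.pow 2)
    (fun y => one_le_pow₀ (one_le_rho y))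
    (fun k => continuousOn_rpow_ext3 _ _) (fun k x hx y => hC k x y hx) hv (fun x _ => ?_)
  rw [Fin.sum_univ_three]
  filter_upwards [Lp.coeFn_sub (Wop x v - (2 / ‖x‖) • v) ((‖x‖ ^ 3)⁻¹ • (x 0 • Y 0 + x 1 • Y 1 + x 2 • Y 2)),
    Lp.coeFn_sub (Wop x v) ((2 / ‖x‖) • v), Wop_coeFn x v, Lp.coeFn_smul (2 / ‖x‖) v,
    Lp.coeFn_smul ((‖x‖ ^ 3)⁻¹) (x 0 • Y 0 + x 1 • Y 1 + x 2 • Y 2),
    Lp.coeFn_add (x 0 • Y 0 + x 1 • Y 1) (x 2 • Y 2), Lp.coeFn_add (x 0 • Y 0) (x 1 • Y 1),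
    Lp.coeFn_smul (x 0) (Y 0), Lp.coeFn_smul (x 1) (Y 1), Lp.coeFn_smul (x 2) (Y 2), hY 0, hY 1, hY 2]
    with y e1 e2 e3 e4 e5 e6 e7 e8 e9 e10 e11 e12 e13
  rw [e1, Pi.sub_apply, e2, Pi.sub_apply, e3, e4, e5, Pi.smul_apply, Pi.smul_apply, e6, Pi.add_apply, e7,
    Pi.add_apply, e8, e9, e10, Pi.smul_apply, Pi.smul_apply, Pi.smul_apply, e11, e12, e13]
  have hin : ⟪x, y 0 + y 1⟫_ℝ = x 0 * (y 0 0 + y 1 0) + x 1 * (y 0 1 + y 1 1) + x 2 * (y 0 2 + y 1 2) := by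
    rw [PiLp.inner_apply, Fin.sum_univ_three]
    simp only [PiLp.add_apply, RCLike.inner_apply, conj_trivial]
    ring
  show _ = (Wfun (cons3 x y) - 2 / ‖x‖ - ⟪x, y 0 + y 1⟫_ℝ / ‖x‖ ^ 3) • v y
  rw [hin, sub_smul, sub_smul, smul_smul, smul_smul, smul_smul, ← add_smul, ← add_smul, smul_smul]
  congr 2
  ring

end W4

/-! ## LEAF AG-W5: invariance of the cutoffs -/

section W5

theorem sRatio_isometry (A : Space ≃ₗᵢ[ℝ] Space) (X : Config 3) : sRatio (fun i => A (X i)) = sRatio X := by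
  unfold sRatio
  simp only [LinearIsometryEquiv.norm_map]

theorem sRatio_swap (X : Config 3) : sRatio (X ∘ Equiv.swap 1 2) = sRatio X := by
  unfold sRatio
  have e0 : (X ∘ Equiv.swap 1 2) 0 = X 0 := by
    show X (Equiv.swap 1 2 0) = X 0
    rw [Equiv.swap_apply_of_ne_of_ne (by decide) (by decide)]
  have e1 : (X ∘ Equiv.swap 1 2) 1 = X 2 := by
    show X (Equiv.swap 1 2 1) = X 2
    rw [Equiv.swap_apply_left]
  have e2 : (X ∘ Equiv.swap 1 2) 2 = X 1 := by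
    show X (Equiv.swap 1 2 2) = X 1
    rw [Equiv.swap_apply_right]
  rw [Fin.sum_univ_three, Fin.sum_univ_three, e0, e1, e2]
  congr 1 <;> ring

theorem chi_isometry (A : Space ≃ₗᵢ[ℝ] Space) (X : Config 3) : chi (fun i => A (X i)) = chi X := by
  unfold chi aCut
  rw [sRatio_isometry]

theorem chi_swap (X : Config 3) : chi (X ∘ Equiv.swap 1 2) = chi X := by
  unfold chi aCut
  rw [sRatio_swap]

theorem Wfun_isometry (A : Space ≃ₗᵢ[ℝ] Space) (X : Config 3) : Wfun (fun i => A (X i)) = Wfun X := by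
  unfold Wfun zeta regK
  rw [sRatio_isometry]
  simp only [← map_sub, LinearIsometryEquiv.norm_map]

theorem Wfun_swap (X : Config 3) : Wfun (X ∘ Equiv.swap 1 2) = Wfun X := by
  unfold Wfun zeta
  rw [sRatio_swap]
  have e0 : (X ∘ Equiv.swap 1 2) 0 = X 0 := by
    show X (Equiv.swap 1 2 0) = X 0
    rw [Equiv.swap_apply_of_ne_of_ne (by decide) (by decide)]
  have e1 : (X ∘ Equiv.swap 1 2) 1 = X 2 := by
    show X (Equiv.swap 1 2 1) = X 2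
    rw [Equiv.swap_apply_left]
  have e2 : (X ∘ Equiv.swap 1 2) 2 = X 1 := by
    show X (Equiv.swap 1 2 2) = X 1
    rw [Equiv.swap_apply_right]
  rw [e0, e1, e2, add_comm (regK 1 (X 0 - X 2))]

end W5

end Claimed.Open.R278.AG
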