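import Claimed.Open.R278.AGFiber
import Claimed.Open.R278.AGWop

/-!
# Result 278, layer AG, file 15: the cut-off state on configuration space

`f` = state at coupling `t`, `f0` = state at coupling `0`, `v = f - f0` (`PairData`).  Paper, proof of Lemma 3.2:
* `PhiF  = √3 (f0 + χ v)`                       (the cut-off state; its slices are the channel function `F(x)`);
* `Vchan = H_{2,t}`-potential in `y` `+ u(x) + t W(x,y)`   (the channel potential; `u` is regularised near the nuclei, which is invisible in the exterior region);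
* `PhiR  = √3 (aCut² g0 - ½ (Δχ) v - ∇χ·∇v)`,  `g0 = (t/|y₁-y₂| + t W - En + En0) f0`   (the residual).

`chan_equation`: `(-½Δ + Vchan - En) PhiF = PhiR` weakly in `{|X 0| > D + 3}`.
  `𝓛 f0 = (H_0 - En0) f0 + g0 = g0` (`IsWeakSolOn.change`);  `𝓛 (χ v) = χ (En - En0 - t V_ee) f0 - ½ (Δχ) v - ∇χ·∇v` (`IsWeakSolOn.localise`, `Vc = 0`, because `W` is exact on
  `tsupport χ`); there `(En - En0 - t V_ee) f0 = - g0`, and `g0 - χ g0 = aCut² g0`.
`chan_reg_F`, `chan_reg_R`: regularity in `x` (cluster `S = {0}`) of the localised functions, with the exponential factors: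
  `e^{-2τ|x₀|}` in general and `e^{-2σ|x₀|}`, `σ = τ √(10/9)`, for everything which carries a factor supported in `tsupport aCut`.
-/

open MeasureTheory Filter Topology Set
open scoped ContDiff InnerProductSpace

noncomputable section

set_option linter.unusedSectionVars false

namespace Claimed.Open.R278.AG

variable {E : Type*} [NormedAddCommGroup E] [InnerProductSpace ℂ E] [CompleteSpace E]

/-! ## Definitions -/

/-- the exterior region `{|x| > D + 4}`. -/
def extΩ : Set Space := {x | extR < ‖x‖}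

/-- the improved rate `σ = τ √(10/9)`. -/
def sig (τ : ℝ) : ℝ := τ * √(10 / 9)

/-- the nuclear potential, regularised in the unit balls around the nuclei. -/
def ureg (x : Space) : ℝ := -(regK 1 (x - bigD • ez)) - regK 1 (x + bigD • ez)

/-- the smooth part of the channel potential: `u(x) + t W(x,y)`. -/
def V1 (t : ℝ) (X : Config 3) : ℝ := ureg (X 0) + t * Wfun X

/-- the channel potential. -/
def Vchan (t : ℝ) (X : Config 3) : ℝ := scaledPotential 2 t (tail3 X) + V1 t X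

/-- the cut-off state. -/
def PhiF (f f0 : Config 3 → E) (X : Config 3) : E := (√3 : ℝ) • (f0 X + chi X • (f X - f0 X))

/-- its gradient. -/
def PhiFgrad (f f0 : Config 3 → E) (G G0 : Fin 3 × Fin 3 → Config 3 → E) (j : Fin 3 × Fin 3) (X : Config 3) : E :=
  (√3 : ℝ) • (G0 j X + mulGrad dir chi (fun X => f X - f0 X) (fun j X => G j X - G0 j X) j X)

/-- `g0 = 𝓛 f0`. -/
def src0 (t En En0 : ℝ) (f0 : Config 3 → E) (X : Config 3) : E :=
  (t / ‖X 1 - X 2‖ + t * Wfun X - En + En0) • f0 X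

/-- the residual. -/
def PhiR (t En En0 : ℝ) (f f0 : Config 3 → E) (G G0 : Fin 3 × Fin 3 → Config 3 → E) (X : Config 3) : E :=
  (√3 : ℝ) • ((aCut X ^ 2) • src0 t En En0 f0 X
    - (1 / 2 : ℝ) • ∑ j, dd (dir j) (dd (dir j) chi) X • (f X - f0 X)
    - ∑ j, dd (dir j) chi X • (G j X - G0 j X))

/-! ## LEAF AG-M0: the channel potential -/

section M0

theorem agm_norm_nuc : ‖bigD • ez‖ = bigD := by
  have hD : 0 ≤ bigD := by unfold bigD; positivity
  rw [norm_smul, Real.norm_of_nonneg hD]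
  simp [ez]

theorem agm_bigD_nonneg : 0 ≤ bigD := by unfold bigD; positivity

theorem agm_nuc_dist {x : Space} {s : ℝ} (h : bigD + s ≤ ‖x‖) :
    s ≤ ‖x - bigD • ez‖ ∧ s ≤ ‖x + bigD • ez‖ := by
  have h1 := norm_sub_norm_le x (bigD • ez)
  have h2 := norm_sub_norm_le x (-(bigD • ez))
  rw [norm_neg, sub_neg_eq_add] at h2
  rw [agm_norm_nuc] at h1 h2
  constructor <;> linarith

theorem isOpen_extΩ : IsOpen extΩ := isOpen_lt continuous_const continuous_norm

theorem ureg_eq {x : Space} (h : bigD + 1 ≤ ‖x‖) : ureg x = nuclearPotential 1 bigD x := by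
  obtain ⟨h1, h2⟩ := agm_nuc_dist h
  rw [ureg, nuclearPotential, regK_eq one_pos h1, regK_eq one_pos h2]

theorem agm_bddDeriv_affine {V V' : Type*} [NormedAddCommGroup V] [NormedSpace ℝ V] [FiniteDimensional ℝ V]
    [NormedAddCommGroup V'] [NormedSpace ℝ V'] {f : V → ℝ} (hf : BddDeriv f) (L : V' →L[ℝ] V) (c₀ : V) :
    BddDeriv (fun z => f (L z - c₀)) := by
  have h := hf.comp_affine L
  refine ⟨((h 0).choose_spec c₀ 0).1, fun k => ?_⟩
  obtain ⟨C, hC⟩ := h k
  exact ⟨C, fun z => (hC c₀ z).2⟩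

theorem agm_bddDeriv_ureg : BddDeriv (fun X : Config 3 => ureg (X 0)) := by
  have h1 := agm_bddDeriv_affine (bddDeriv_regK one_pos) (evL (0 : Fin 3)) (bigD • ez)
  have h2 := agm_bddDeriv_affine (bddDeriv_regK one_pos) (evL (0 : Fin 3)) (-(bigD • ez))
  have h3 := ((BddDeriv.const (V := Config 3) 0).sub h1).sub h2
  have e : (fun X : Config 3 => ureg (X 0))
      = fun z => 0 - regK 1 (evL (0 : Fin 3) z - bigD • ez) - regK 1 (evL (0 : Fin 3) z - -(bigD • ez)) := by
    funext X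
    simp [ureg, evL]
  rw [e]; exact h3

theorem agm_bddDeriv_Wfun : BddDeriv Wfun := Sym.bddDeriv (a := -1) (by norm_num) sym_Wfun

theorem bddDeriv_V1 (t : ℝ) : BddDeriv (V1 t) :=
  agm_bddDeriv_ureg.add ((BddDeriv.const t).mul agm_bddDeriv_Wfun)

theorem repulsion_three (X : Config 3) :
    repulsion X = 1 / ‖X 0 - X 1‖ + 1 / ‖X 0 - X 2‖ + 1 / ‖X 1 - X 2‖ := by
  simp [repulsion, Fin.sum_univ_three]

theorem scaledPotential_two_tail3 (t : ℝ) (X : Config 3) :
    scaledPotential 2 t (tail3 X)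
      = nuclearPotential 1 bigD (X 1) + nuclearPotential 1 bigD (X 2) + t * (1 / ‖X 1 - X 2‖) := by
  simp [scaledPotential, oneBodyPotential, repulsion, Fin.sum_univ_two, tail3]

theorem agm_scaledPotential_three (t : ℝ) (X : Config 3) :
    scaledPotential 3 t X = nuclearPotential 1 bigD (X 0) + nuclearPotential 1 bigD (X 1)
      + nuclearPotential 1 bigD (X 2) + t * (1 / ‖X 0 - X 1‖ + 1 / ‖X 0 - X 2‖ + 1 / ‖X 1 - X 2‖) := by
  rw [scaledPotential, repulsion_three, oneBodyPotential, Fin.sum_univ_three]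

/-- on the support of `χ`, in the exterior region, the channel potential is the true potential. -/
theorem scaledPotential_three_eq (t : ℝ) {X : Config 3} (h : sRatio X ≤ 1 / 5) (hr : bigD + 3 ≤ ‖X 0‖) :
    scaledPotential 3 t X = Vchan t X := by
  have hD := agm_bigD_nonneg
  rw [agm_scaledPotential_three, Vchan, scaledPotential_two_tail3, V1, ureg_eq (by linarith),
    Wfun_eq h (by linarith)]
  ring

/-- comparison with the potential at zero coupling. -/
theorem Vchan_sub_zero (t : ℝ) {X : Config 3} (hr : bigD + 1 ≤ ‖X 0‖) :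
    Vchan t X - scaledPotential 3 0 X = t / ‖X 1 - X 2‖ + t * Wfun X := by
  rw [agm_scaledPotential_three, Vchan, scaledPotential_two_tail3, V1, ureg_eq hr]
  ring

theorem agm_abs_le_of_bddDeriv {V : Type*} [NormedAddCommGroup V] [NormedSpace ℝ V] {f : V → ℝ}
    (hf : BddDeriv f) : ∃ B : ℝ, 0 ≤ B ∧ ∀ z, |f z| ≤ B := by
  obtain ⟨C, hC0, hC⟩ := hf.exists_bound 0
  refine ⟨C, hC0, fun z => ?_⟩
  have := hC 0 le_rfl z
  rwa [norm_iteratedFDeriv_zero, Real.norm_eq_abs] at this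

/-- `formBdd_inv` for `evL 1`, `evL 2`, `diffL 1 2` with small `ε`, `FormBdd.of_bounded` for `V1`. -/
theorem formBdd_Vchan : ∃ b : ℝ, 0 ≤ b ∧ ∀ t : ℝ, 0 ≤ t → t ≤ 1 →
    FormBdd E (volume : Measure (Config 3)) dir (Vchan t) (1 / 4) b := by
  obtain ⟨B1, hB10, hB1⟩ := agm_abs_le_of_bddDeriv agm_bddDeriv_ureg
  obtain ⟨B2, hB20, hB2⟩ := agm_abs_le_of_bddDeriv agm_bddDeriv_Wfun
  refine ⟨2 * (1 / (1 / 20)) + 2 * (1 / (1 / 20)) + 1 / (1 / 20) + (B1 + B2), by positivity, fun t h0 h1 => ?_⟩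
  have n1 := formBdd_nuc (E := E) (1 : Fin 3) (ε := 1 / 20) (by norm_num)
  have n2 := formBdd_nuc (E := E) (2 : Fin 3) (ε := 1 / 20) (by norm_num)
  have p := (formBdd_pair (E := E) (i := (1 : Fin 3)) (j := 2) (by decide) (ε := 1 / 20) (by norm_num)).const_mul t
  have hV1 : FormBdd E (volume : Measure (Config 3)) dir (V1 t) 0 (B1 + B2) := by
    refine FormBdd.of_bounded (bddDeriv_V1 t).1.continuous.aestronglyMeasurable fun X => ?_
    have a1 := hB1 X
    have a2 := hB2 X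
    have a3 : |t * Wfun X| ≤ B2 := by
      rw [abs_mul, abs_of_nonneg h0]
      calc t * |Wfun X| ≤ 1 * |Wfun X| := mul_le_mul_of_nonneg_right h1 (abs_nonneg _)
        _ ≤ B2 := by rw [one_mul]; exact a2
    exact (abs_add_le _ _).trans (add_le_add a1 a3)
  have h := ((n1.add n2).add p).add hV1
  have e : (fun X : Config 3 => nuclearPotential 1 bigD (X 1) + nuclearPotential 1 bigD (X 2)
      + t * (1 / ‖X 1 - X 2‖) + V1 t X) = Vchan t := by
    funext X
    rw [Vchan, scaledPotential_two_tail3]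
  rw [e] at h
  rw [abs_of_nonneg h0] at h
  refine h.mono ?_ ?_
  · nlinarith
  · have : t * (1 / (1 / 20)) ≤ 1 / (1 / 20) := by nlinarith
    linarith

/-- Hardy for the ionic pair (`formBdd_inv_sq` with `diffL 1 2`). -/
theorem ionPair_smul_memLp {f : Config 3 → E} {G : Fin 3 × Fin 3 → Config 3 → E}
    (h : H1 (volume : Measure (Config 3)) dir f G) :
    MemLp (fun X => (1 / ‖X 1 - X 2‖) • f X) 2 volume ∧
      nsq volume (fun X => (1 / ‖X 1 - X 2‖) • f X) ≤ 4 * ∑ j, nsq volume (G j) := by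
  have hF := formBdd_inv_sq (E := E) (diffL (1 : Fin 3) 2) 0 1 (diffL_dir (by decide))
  have hs := memLp_sqrt_smul hF h (fun X => 1 / ‖diffL (1 : Fin 3) 2 X - 0‖)
    (measurable_inv_norm _ _).aestronglyMeasurable (fun X => (abs_of_nonneg (sq_nonneg _)).symm)
  have e : (fun X : Config 3 => (1 / ‖diffL (1 : Fin 3) 2 X - 0‖) • f X) = fun X => (1 / ‖X 1 - X 2‖) • f X := by
    funext X
    simp [diffL, evL]
  rw [e] at hs
  refine ⟨hs.1, ?_⟩
  rw [hs.2]
  have := hF.le f G h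
  linarith

/-- geometry of the bump: on `tsupport (bump x₀)`, `x₀ ∈ extΩ`. -/
theorem norm_ge_of_mem_tsupport_bump {x₀ : Space} (hx : x₀ ∈ extΩ) {X : Config 3} (h : X ∈ tsupport (bump x₀)) :
    bigD + 3 ≤ ‖X 0‖ ∧ ‖x₀‖ - 1 ≤ ‖X 0‖ ∧ X ∈ regNuc 1 ({0} : Finset (Fin 3)) := by
  have h1 := norm_sub_le_of_mem_tsupport_bump h
  have h2 : bigD + 4 < ‖x₀‖ := hx
  have h3 := norm_sub_norm_le x₀ (X 0)
  rw [norm_sub_rev] at h3
  have h4 : bigD + 3 ≤ ‖X 0‖ := by linarith
  refine ⟨h4, by linarith, fun i hi => ?_⟩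
  rw [Finset.mem_singleton] at hi
  subst hi
  exact agm_nuc_dist (by linarith)

theorem mem_creg_of_bump_chi {x₀ : Space} (hx : x₀ ∈ extΩ) {X : Config 3} (h : X ∈ tsupport (bump x₀))
    (h' : X ∈ tsupport chi) : X ∈ creg 1 ({0} : Finset (Fin 3)) := by
  obtain ⟨h1, _, h3⟩ := norm_ge_of_mem_tsupport_bump hx h
  refine ⟨h3, fun i hi j hj => ?_⟩
  rw [Finset.mem_singleton] at hi hj
  subst hi
  have := sep_of_sRatio_le (sRatio_le_of_mem_tsupport_chi h') j hj
  have hD := agm_bigD_nonneg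
  linarith

/-- the bump does not depend on the ionic variables. -/
theorem dd_succIdx_bump (x₀ : Space) (j : Fin 2 × Fin 3) (X : Config 3) : dd (dir (succIdx j)) (bump x₀) X = 0 := by
  obtain ⟨_, _, hC⟩ := bump_bound 0
  have hd : DifferentiableAt ℝ (bump x₀) X := ((hC x₀).1.differentiable (by simp)).differentiableAt
  rw [dd, ← hd.lineDeriv_eq_fderiv, lineDeriv]
  have : (fun s : ℝ => bump x₀ (X + s • dir (succIdx j))) = fun _ => bump x₀ X := by
    funext s
    simp [bump, dir_succ_apply_zero]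
  rw [this, deriv_const]

end M0

/-! ## LEAF AG-M1: the equation of the cut-off state -/

section M1

theorem agm_bddDeriv_chi : BddDeriv chi := Sym.bddDeriv le_rfl sym_chi

theorem agm_bddDeriv_aCut : BddDeriv aCut := Sym.bddDeriv le_rfl sym_aCut

theorem agm_real_smul (r : ℝ) (x : E) : r • x = (r : ℂ) • x := (Complex.coe_smul r x).symm

theorem agm_memLp_src0 (t En En0 : ℝ) {f0 : Config 3 → E} {G0 : Fin 3 × Fin 3 → Config 3 → E}
    (h : H1 (volume : Measure (Config 3)) dir f0 G0) : MemLp (src0 t En En0 f0) 2 volume := by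
  obtain ⟨B, hB0, hB⟩ := agm_abs_le_of_bddDeriv agm_bddDeriv_Wfun
  have m1 := ((ionPair_smul_memLp h).1).const_smul t
  have hc : Continuous (fun X : Config 3 => t * Wfun X - En + En0) :=
    ((continuous_const.mul agm_bddDeriv_Wfun.1.continuous).sub continuous_const).add continuous_const
  have m2 : MemLp (fun X => (t * Wfun X - En + En0) • f0 X) 2 volume := by
    refine memLp_smul_of_bdd (B := |t| * B + |En| + |En0|) hc (fun X => ?_) h.mem
    have a1 : |t * Wfun X| ≤ |t| * B := by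
      rw [abs_mul]; exact mul_le_mul_of_nonneg_left (hB X) (abs_nonneg _)
    calc |t * Wfun X - En + En0| ≤ |t * Wfun X - En| + |En0| := abs_add_le _ _
      _ ≤ |t * Wfun X| + |En| + |En0| := by gcongr; exact abs_sub _ _
      _ ≤ _ := by gcongr
  have e : src0 t En En0 f0 = (t • fun X : Config 3 => (1 / ‖X 1 - X 2‖) • f0 X)
      + fun X => (t * Wfun X - En + En0) • f0 X := by
    funext X
    simp only [src0, Pi.add_apply, Pi.smul_apply, smul_smul, ← add_smul]
    congr 1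
    ring
  rw [e]
  exact m1.add m2

/-- the three commutator-type terms are in `L²`. -/
theorem agm_memLp_comm {η : Config 3 → ℝ} (hη : BddDeriv η) {v : Config 3 → E}
    {Gv : Fin 3 × Fin 3 → Config 3 → E} (hv : H1 (volume : Measure (Config 3)) dir v Gv) :
    MemLp (fun X => ∑ j, dd (dir j) (dd (dir j) η) X • v X) 2 volume ∧
      MemLp (fun X => ∑ j, dd (dir j) η X • Gv j X) 2 volume := by
  obtain ⟨B, _, hB⟩ := hη.exists_bound 2
  obtain ⟨B1, _, _, h1, h2⟩ := exists_dd_bounds (dir : Fin 3 × Fin 3 → Config 3) hη.1 hB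
  constructor
  · exact memLp_finsetSum _ fun j _ =>
      memLp_smul_of_bdd (contDiff_dd (contDiff_dd hη.1 _) _).continuous (h2 j) hv.mem
  · exact memLp_finsetSum _ fun j _ =>
      memLp_smul_of_bdd (contDiff_dd hη.1 _).continuous (h1 j) (hv.wd j).memg

/-- `g0 + χ (En - En0 - t V_ee) f0 = aCut² g0` in the exterior region. -/
theorem agm_src_identity (t En En0 : ℝ) (f0 : Config 3 → E) {X : Config 3} (hr : bigD + 3 ≤ ‖X 0‖) :
    src0 t En En0 f0 X + chi X • diffSource t En En0 f0 X = (aCut X ^ 2) • src0 t En En0 f0 X := by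
  have hD := agm_bigD_nonneg
  by_cases hX : X ∈ tsupport chi
  · have hs := sRatio_le_of_mem_tsupport_chi hX
    have e : diffSource t En En0 f0 X = -src0 t En En0 f0 X := by
      simp only [diffSource, src0, repulsion_three, Wfun_eq hs (by linarith), ← neg_smul]
      congr 1
      ring
    rw [e, smul_neg, ← sub_eq_add_neg]
    nth_rewrite 1 [← one_smul ℝ (src0 t En En0 f0 X)]
    rw [← sub_smul]
    congr 1
    simp [chi]
  · have h0 : chi X = 0 := image_eq_zero_of_notMem_tsupport hX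
    have h1 : aCut X ^ 2 = 1 := by
      have : chi X = 1 - aCut X ^ 2 := rfl
      linarith
    rw [h0, h1, zero_smul, add_zero, one_smul]

/-- see the header. -/
theorem chan_equation {εb τ κ Emax δ t En En0 : ℝ} {f f0 : Config 3 → E} {G G0 : Fin 3 × Fin 3 → Config 3 → E}
    (h : PairData εb τ κ Emax δ t En En0 f f0 G G0) :
    H1 (volume : Measure (Config 3)) dir (PhiF f f0) (PhiFgrad f f0 G G0) ∧
    MemLp (PhiR t En En0 f f0 G G0) 2 volume ∧
    IsWeakSolOn (volume : Measure (Config 3)) dir {X | X 0 ∈ extΩ} (Vchan t) En (PhiF f f0) (PhiFgrad f f0 G G0)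
      (PhiR t En En0 f f0 G G0) := by
  have hD := agm_bigD_nonneg
  obtain ⟨b, _, hb⟩ := exists_formBdd (E := E) 3
  obtain ⟨b', _, hb'⟩ := formBdd_Vchan (E := E)
  have hV := (hb t h.t_nonneg h.t_le_one).1
  have hV0 := (hb 0 le_rfl zero_le_one).1
  have hVc := hb' t h.t_nonneg h.t_le_one
  have hχ := agm_bddDeriv_chi
  obtain ⟨B, hB0, hB⟩ := hχ.exists_bound 2
  obtain ⟨B1, _, c0, c1, c2⟩ := exists_dd_bounds (dir : Fin 3 × Fin 3 → Config 3) hχ.1 hB
  have hv : H1 (volume : Measure (Config 3)) dir (fun X => f X - f0 X) (fun j X => G j X - G0 j X) :=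
    h.h1.sub h.h10
  have hχv := hv.mul hχ.1 c0 c1
  have hsum := h.h10.add hχv
  have hH1 : H1 (volume : Measure (Config 3)) dir (PhiF f f0) (PhiFgrad f f0 G G0) := by
    have := hsum.smul ((√3 : ℝ) : ℂ)
    have e1 : PhiF f f0 = fun X => ((√3 : ℝ) : ℂ) • (f0 X + chi X • (f X - f0 X)) := by
      funext X; rw [PhiF, agm_real_smul]
    have e2 : PhiFgrad f f0 G G0 = fun j X => ((√3 : ℝ) : ℂ) • (G0 j X
        + mulGrad dir chi (fun X => f X - f0 X) (fun j X => G j X - G0 j X) j X) := by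
      funext j X; rw [PhiFgrad, agm_real_smul]
    rw [e1, e2]; exact this
  have msrc := agm_memLp_src0 t En En0 h.h10
  obtain ⟨mc1, mc2⟩ := agm_memLp_comm hχ hv
  obtain ⟨mds, hds⟩ := diff_sol h
  have hR : MemLp (PhiR t En En0 f f0 G G0) 2 volume := by
    have ha : MemLp (fun X => (aCut X ^ 2) • src0 t En En0 f0 X) 2 volume := by
      refine memLp_smul_of_bdd (η := fun X => aCut X ^ 2) (B := 1) (agm_bddDeriv_aCut.1.continuous.pow 2)
        (fun X => ?_) msrc
      have := aCut_mem X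
      rw [abs_of_nonneg (sq_nonneg _)]
      nlinarith
    exact ((ha.sub (mc1.const_smul (1 / 2 : ℝ))).sub mc2).const_smul (√3 : ℝ)
  refine ⟨hH1, hR, ?_⟩
  -- the equation of `f0`
  have hz : MemLp (fun _ : Config 3 => (0 : E)) 2 volume := MemLp.zero
  have s0 : IsWeakSolOn (volume : Measure (Config 3)) dir {X | X 0 ∈ extΩ} (Vchan t) En f0 G0
      (fun X => (0 : E) + src0 t En En0 f0 X) := by
    refine IsWeakSolOn.change (En' := En) hV0 hVc h.h10 hz (h.sol0.mono (subset_univ _)) msrc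
      (Eventually.of_forall fun X hX => ?_)
    have hX' : bigD + 4 < ‖X 0‖ := hX
    have := Vchan_sub_zero t (X := X) (by linarith)
    rw [this, src0]
  -- the equation of `χ v`
  have s1 := IsWeakSolOn.localise (U' := {X : Config 3 | X 0 ∈ extΩ}) (Vi := Vchan t) (Vc := fun _ => 0)
    hV hVc hv mds hds hχ.1 hB (subset_univ _) continuous_const (fun _ => by simpa using hB0)
    (fun X hX => by
      have hX' : bigD + 4 < ‖X 0‖ := hX.2
      rw [scaledPotential_three_eq t (sRatio_le_of_mem_tsupport_chi hX.1) (by linarith), add_zero])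
  have mχds : MemLp (fun X => chi X • diffSource t En En0 f0 X) 2 volume :=
    memLp_smul_of_bdd hχ.1.continuous c0 mds
  have mzero : MemLp (fun X : Config 3 => ((0 : ℝ) * chi X) • (f X - f0 X)) 2 volume := by
    simp only [zero_mul, zero_smul]; exact hz
  have ms1 : MemLp (fun X => chi X • diffSource t En En0 f0 X - ((0 : ℝ) * chi X) • (f X - f0 X)
      - (1 / 2 : ℝ) • ∑ j, dd (dir j) (dd (dir j) chi) X • (f X - f0 X)
      - ∑ j, dd (dir j) chi X • (G j X - G0 j X)) 2 volume :=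
    ((mχds.sub mzero).sub (mc1.const_smul (1 / 2 : ℝ))).sub mc2
  have ms0 : MemLp (fun X => (0 : E) + src0 t En En0 f0 X) 2 volume := hz.add msrc
  have s2 := (IsWeakSolOn.add hVc h.h10 hχv ms0 ms1 s0 s1).smul ((√3 : ℝ) : ℂ)
  have e1 : PhiF f f0 = fun X => ((√3 : ℝ) : ℂ) • (f0 X + chi X • (f X - f0 X)) := by
    funext X; rw [PhiF, agm_real_smul]
  have e2 : PhiFgrad f f0 G G0 = fun j X => ((√3 : ℝ) : ℂ) • (G0 j X
      + mulGrad dir chi (fun X => f X - f0 X) (fun j X => G j X - G0 j X) j X) := by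
    funext j X; rw [PhiFgrad, agm_real_smul]
  rw [e1, e2]
  refine s2.congr_source (Eventually.of_forall fun X hX => ?_)
  have hX' : bigD + 4 < ‖X 0‖ := hX
  rw [PhiR, agm_real_smul (√3), ← agm_src_identity t En En0 f0 (X := X) (by linarith)]
  congr 1
  simp only [zero_mul, zero_smul, sub_zero, zero_add]
  abel

end M1

/-! ## LEAF AG-M2: regularity in `x` of the cut-off state -/

section M2

theorem agm_contDiff_bump (x₀ : Space) : ContDiff ℝ ∞ (bump x₀) := by
  obtain ⟨_, _, hC⟩ := bump_bound 0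
  exact (hC x₀).1

/-- Leibniz rule along an ionic direction: the bump is not differentiated. -/
theorem agm_dd_succIdx_bump_mul (x₀ : Space) {c : Config 3 → ℝ} (hc : ContDiff ℝ ∞ c) (j : Fin 2 × Fin 3)
    (X : Config 3) :
    dd (dir (succIdx j)) (fun X => bump x₀ X * c X) X = bump x₀ X * dd (dir (succIdx j)) c X := by
  have h1 : DifferentiableAt ℝ (bump x₀) X := ((agm_contDiff_bump x₀).differentiable (by simp)).differentiableAt
  have h2 : DifferentiableAt ℝ c X := (hc.differentiable (by simp)).differentiableAt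
  have h3 := dd_succIdx_bump x₀ j X
  simp only [dd] at h3 ⊢
  rw [fderiv_fun_mul h1 h2]
  simp [h3]

/-- **the regularity package**: multipliers `bump x₀ · c`, `ϱ ≥ θ |x|` on `tsupport c`. -/
theorem agm_reg {εb : ℝ} (hlow : ∀ g G, IsH1 g G → εb * (∫ x, g x ^ 2) ≤ orbitalForm g g G G)
    (τ κ Emax : ℝ) (hτ : 0 ≤ τ) (hκ : 0 < κ) (k : ℕ) {c : Config 3 → ℝ} (hc : BddDeriv c) {θ : ℝ} (hθ : 0 ≤ θ)
    (hρ : ∀ X ∈ tsupport c, θ * ‖X 0‖ ≤ rho X) :
    ∃ C : ℝ, 0 ≤ C ∧ ∀ (δ t En En0 : ℝ) (f f0 : Config 3 → E) (G G0 : Fin 3 × Fin 3 → Config 3 → E),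
      PairData εb τ κ Emax δ t En En0 f f0 G G0 → ∀ x₀ : Space, x₀ ∈ extΩ →
      DirH1 volume dir (cdir ({0} : Finset (Fin 3))) k (fun X => (bump x₀ X * c X) • f0 X)
        (mulGrad dir (fun X => bump x₀ X * c X) f0 G0) (C * Real.exp (-(2 * (τ * θ) * ‖x₀‖))) ∧
      (tsupport c ⊆ tsupport chi →
        DirH1 volume dir (cdir ({0} : Finset (Fin 3))) k (fun X => (bump x₀ X * c X) • f X)
          (mulGrad dir (fun X => bump x₀ X * c X) f G) (C * Real.exp (-(2 * (τ * θ) * ‖x₀‖))) ∧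
        DirH1 volume dir (cdir ({0} : Finset (Fin 3))) k (fun X => (bump x₀ X * c X) • (f X - f0 X))
          (mulGrad dir (fun X => bump x₀ X * c X) (fun X => f X - f0 X) (fun j X => G j X - G0 j X))
          (C * δ ^ 2 * Real.exp (-(2 * (τ * θ) * ‖x₀‖))) ∧
        ∀ j, DirL2 volume (cdir ({0} : Finset (Fin 3))) k (fun X => (bump x₀ X * c X) • (G j X - G0 j X))
          (C * δ ^ 2 * Real.exp (-(2 * (τ * θ) * ‖x₀‖)))) := by
  obtain ⟨A, hA0, hA⟩ := adm_bump_mul (2 * k + 2) hc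
  obtain ⟨S, hS0, hS⟩ := state_reg (E := E) hlow k 1 τ κ Emax one_pos hτ hκ
  obtain ⟨D, hD0, hD⟩ := diff_reg (E := E) hlow k 1 τ κ Emax one_pos hτ hκ
  refine ⟨(S + D) * A ^ 2 * Real.exp (2 * (τ * θ)), by positivity, fun δ t En En0 f f0 G G0 h x₀ hx => ?_⟩
  set K : ℝ := A * Real.exp (-(τ * (θ * (‖x₀‖ - 1)))) with hKdef
  have hK0 : 0 ≤ K := by positivity
  have hK2 : K ^ 2 = A ^ 2 * Real.exp (2 * (τ * θ)) * Real.exp (-(2 * (τ * θ) * ‖x₀‖)) := by
    rw [hKdef, mul_pow, mul_assoc, ← Real.exp_add, sq (Real.exp _), ← Real.exp_add]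
    congr 2
    ring
  have hmm : ∀ X ∈ tsupport (bump x₀) ∩ tsupport c, θ * (‖x₀‖ - 1) ≤ rho X := fun X hX =>
    (mul_le_mul_of_nonneg_left (norm_ge_of_mem_tsupport_bump hx hX.1).2.1 hθ).trans (hρ X hX.2)
  have hadm : ∀ U : Set (Config 3), tsupport (bump x₀) ∩ tsupport c ⊆ U →
      Adm U (wexp τ) (2 * k + 2) K (fun X => bump x₀ X * c X) := fun U hU => hA x₀ U τ _ hτ hU hmm
  have e := Real.exp_pos (-(2 * (τ * θ) * ‖x₀‖))
  have e2 := Real.exp_pos (2 * (τ * θ))
  have b1 : S * K ^ 2 ≤ (S + D) * A ^ 2 * Real.exp (2 * (τ * θ)) * Real.exp (-(2 * (τ * θ) * ‖x₀‖)) := by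
    rw [hK2]
    have : 0 ≤ D * (A ^ 2 * Real.exp (2 * (τ * θ)) * Real.exp (-(2 * (τ * θ) * ‖x₀‖))) := by positivity
    nlinarith
  have b2 : D * K ^ 2 * δ ^ 2
      ≤ (S + D) * A ^ 2 * Real.exp (2 * (τ * θ)) * δ ^ 2 * Real.exp (-(2 * (τ * θ) * ‖x₀‖)) := by
    rw [hK2]
    have : 0 ≤ S * (A ^ 2 * Real.exp (2 * (τ * θ)) * Real.exp (-(2 * (τ * θ) * ‖x₀‖))) * δ ^ 2 := by positivity
    nlinarith
  refine ⟨?_, fun hsub => ?_⟩
  · have h1 := hadm (regNuc 1 {0}) fun X hX => (norm_ge_of_mem_tsupport_bump hx hX.1).2.2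
    exact ((hS δ t En En0 f f0 G G0 h {0} _ K hK0).2 (h1.of_le (by omega))).mono b1
  · have h1 := hadm (creg 1 {0}) fun X hX => mem_creg_of_bump_chi hx hX.1 (hsub hX.2)
    refine ⟨((hS δ t En En0 f f0 G G0 h {0} _ K hK0).1 (h1.of_le (by omega))).mono b1,
      ((hD δ t En En0 f f0 G G0 h {0} _ K hK0).1 (h1.of_le (by omega))).mono b2, fun j => ?_⟩
    exact ((hD δ t En En0 f f0 G G0 h {0} _ K hK0).2 h1 j).mono b2

/-- Multipliers `bump x₀ · c` with `c = 1, χ` (`adm_bump_mul`, `norm_ge_of_mem_tsupport_bump`, `mem_creg_of_bump_chi`, `mm = |x₀| - 1`), `state_reg` for `f`, `f0`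
(`χ v = χ f - χ f0` for the bound without `δ`), `diff_reg` for `v`.  For the ionic gradient components use the gradient part of `DirH1`:
`bump x₀ • (mulGrad dir χ v Gv (succIdx j)) = mulGrad dir (bump x₀ · χ) v Gv (succIdx j)` because of `dd_succIdx_bump`. -/
theorem chan_reg_F {εb : ℝ} (hlow : ∀ g G, IsH1 g G → εb * (∫ x, g x ^ 2) ≤ orbitalForm g g G G)
    (τ κ Emax : ℝ) (hτ : 0 ≤ τ) (hκ : 0 < κ) :
    ∃ C : ℕ → ℝ, (∀ k, 0 ≤ C k) ∧ ∀ (δ t En En0 : ℝ) (f f0 : Config 3 → E) (G G0 : Fin 3 × Fin 3 → Config 3 → E),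
      PairData εb τ κ Emax δ t En En0 f f0 G G0 → ∀ (k : ℕ) (x₀ : Space), x₀ ∈ extΩ →
      DirL2 volume (cdir ({0} : Finset (Fin 3))) k (fun X => bump x₀ X • PhiF f f0 X)
        (C k * Real.exp (-(2 * τ * ‖x₀‖))) ∧
      DirL2 volume (cdir ({0} : Finset (Fin 3))) k (fun X => bump x₀ X • ((√3 : ℝ) • f0 X))
        (C k * Real.exp (-(2 * τ * ‖x₀‖))) ∧
      DirL2 volume (cdir ({0} : Finset (Fin 3))) k (fun X => bump x₀ X • ((√3 : ℝ) • (chi X • (f X - f0 X))))
        (C k * δ ^ 2 * Real.exp (-(2 * τ * ‖x₀‖))) ∧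
      ∀ j : Fin 2 × Fin 3,
        DirL2 volume (cdir ({0} : Finset (Fin 3))) k (fun X => bump x₀ X • PhiFgrad f f0 G G0 (succIdx j) X)
          (C k * Real.exp (-(2 * τ * ‖x₀‖))) := by
  have h1 := fun k => agm_reg (E := E) hlow τ κ Emax hτ hκ k (BddDeriv.const (V := Config 3) 1) (θ := 1) zero_le_one
    (fun X _ => by rw [one_mul]; exact norm_le_rho X 0)
  have h2 := fun k => agm_reg (E := E) hlow τ κ Emax hτ hκ k agm_bddDeriv_chi (θ := 1) zero_le_one
    (fun X _ => by rw [one_mul]; exact norm_le_rho X 0)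
  choose C1 hC1 H1' using h1
  choose C2 hC2 H2' using h2
  have h3 : (√3 : ℝ) ^ 2 = 3 := Real.sq_sqrt (by norm_num)
  refine ⟨fun k => 3 * (2 * C1 k + 8 * C2 k), fun k => by have := hC1 k; have := hC2 k; positivity,
    fun δ t En En0 f f0 G G0 h k x₀ hx => ?_⟩
  have a1 := (H1' k δ t En En0 f f0 G G0 h x₀ hx).1
  have a2 := (H2' k δ t En En0 f f0 G G0 h x₀ hx).1
  obtain ⟨a3, a4, -⟩ := (H2' k δ t En En0 f f0 G G0 h x₀ hx).2 subset_rfl
  rw [mul_one] at a1 a2 a3 a4
  have p1 := hC1 k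
  have p2 := hC2 k
  set e := Real.exp (-(2 * τ * ‖x₀‖)) with he
  have e0 : 0 < e := Real.exp_pos _
  have q1 : 0 ≤ C1 k * e := by positivity
  have q2 : 0 ≤ C2 k * e := by positivity
  refine ⟨?_, ?_, ?_, fun j => ?_⟩
  · have := ((a1.2.1.add (a3.2.1.sub a2.2.1)).const_smul (√3 : ℝ)).mono (M' := 3 * (2 * C1 k + 8 * C2 k) * e)
      (by rw [h3]; nlinarith)
    refine this.congr_ae (Eventually.of_forall fun X => ?_)
    simp only [PhiF]
    module
  · have := (a1.2.1.const_smul (√3 : ℝ)).mono (M' := 3 * (2 * C1 k + 8 * C2 k) * e) (by rw [h3]; nlinarith)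
    refine this.congr_ae (Eventually.of_forall fun X => ?_)
    simp only []
    module
  · have := (a4.2.1.const_smul (√3 : ℝ)).mono (M' := 3 * (2 * C1 k + 8 * C2 k) * δ ^ 2 * e) (by
      rw [h3]
      have : 0 ≤ C1 k * δ ^ 2 * e := by positivity
      have : 0 ≤ C2 k * δ ^ 2 * e := by positivity
      nlinarith)
    refine this.congr_ae (Eventually.of_forall fun X => ?_)
    simp only []
    module
  · have := (((a1.2.2 (succIdx j)).add ((a3.2.2 (succIdx j)).sub (a2.2.2 (succIdx j)))).const_smul (√3 : ℝ)).mono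
      (M' := 3 * (2 * C1 k + 8 * C2 k) * e) (by rw [h3]; nlinarith)
    refine this.congr_ae (Eventually.of_forall fun X => ?_)
    simp only [PhiFgrad, mulGrad, agm_dd_succIdx_bump_mul x₀ agm_bddDeriv_chi.1,
      agm_dd_succIdx_bump_mul x₀ (contDiff_const (c := (1 : ℝ)))]
    have : dd (dir (succIdx j)) (fun _ : Config 3 => (1 : ℝ)) X = 0 := by simp [dd]
    rw [this]
    module

end M2

/-! ## LEAF AG-M3: regularity in `x` of the residual -/

section M3

theorem agm_tsupport_dd_subset (u : Config 3) (g : Config 3 → ℝ) : tsupport (dd u g) ⊆ tsupport g := by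
  refine (closure_mono fun X hX => ?_).trans (tsupport_fderiv_subset ℝ)
  intro h0
  apply hX
  simp [dd, h0]

/-- the supports of the coefficients of the residual lie in `tsupport aCut` (and those which multiply `v` also in `tsupport chi`). -/
theorem tsupport_dd_dd_chi_subset (u u' : Config 3) :
    tsupport (dd u (dd u' chi)) ⊆ tsupport aCut ∩ tsupport chi :=
  (agm_tsupport_dd_subset u _).trans (tsupport_dd_chi_subset u')

theorem agm_rho_ge_of_aCut {c : Config 3 → ℝ} (hc : tsupport c ⊆ tsupport aCut) :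
    ∀ X ∈ tsupport c, √(10 / 9) * ‖X 0‖ ≤ rho X := fun _ hX =>
  rho_ge_of_sRatio_ge (sRatio_ge_of_mem_tsupport_aCut (hc hX))

theorem agm_tsupport_aCut_mul (g : Config 3 → ℝ) : tsupport (fun X => aCut X * g X) ⊆ tsupport aCut :=
  closure_mono fun X hX h0 => hX (by simp [h0])

/-- Terms of `bump x₀ • PhiR` (all multipliers are `bump x₀ · c` with `tsupport c ⊆ tsupport aCut`, so `mm = √(10/9) (|x₀| - 1)` by `rho_ge_of_sRatio_ge`):
1. `t (bump aCut² Wfun) f0`, `(En0 - En)(bump aCut²) f0`: `state_reg` (zero coupling part), `DirL2.const_smul`, `t, |En - En0| ≤ δ`;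
2. `t |y₁-y₂|⁻¹ (bump aCut² f0)`: `DirH1.invariant_mul` (`formBdd_inv_sq`, `memLp_inv_restrict` with `diffL 1 2`; invariant under `cdir {0}`);
3. `(bump ∂_j²χ) v`: `diff_reg`, first part;   4. `(bump ∂_jχ) (G_j - G0_j)`: `diff_reg`, second part. -/
theorem chan_reg_R {εb : ℝ} (hlow : ∀ g G, IsH1 g G → εb * (∫ x, g x ^ 2) ≤ orbitalForm g g G G)
    (τ κ Emax : ℝ) (hτ : 0 ≤ τ) (hκ : 0 < κ) :
    ∃ C : ℕ → ℝ, (∀ k, 0 ≤ C k) ∧ ∀ (δ t En En0 : ℝ) (f f0 : Config 3 → E) (G G0 : Fin 3 × Fin 3 → Config 3 → E),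
      PairData εb τ κ Emax δ t En En0 f f0 G G0 → ∀ (k : ℕ) (x₀ : Space), x₀ ∈ extΩ →
      DirL2 volume (cdir ({0} : Finset (Fin 3))) k (fun X => bump x₀ X • PhiR t En En0 f f0 G G0 X)
        (C k * δ ^ 2 * Real.exp (-(2 * sig τ * ‖x₀‖))) := by
  have hθ : (0 : ℝ) ≤ √(10 / 9) := Real.sqrt_nonneg _
  have ba := agm_bddDeriv_aCut.mul agm_bddDeriv_aCut
  have bb := agm_bddDeriv_aCut.mul (agm_bddDeriv_aCut.mul agm_bddDeriv_Wfun)
  have b4 : ∀ j : Fin 3 × Fin 3, BddDeriv (dd (dir j) (dd (dir j) chi)) := fun j =>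
    Sym.bddDeriv (by norm_num) ((sym_chi.dd (dir j)).dd (dir j))
  have b5 : ∀ j : Fin 3 × Fin 3, BddDeriv (dd (dir j) chi) := fun j =>
    Sym.bddDeriv (by norm_num) (sym_chi.dd (dir j))
  have ha := fun k => agm_reg (E := E) hlow τ κ Emax hτ hκ k ba hθ (agm_rho_ge_of_aCut (agm_tsupport_aCut_mul _))
  have hb := fun k => agm_reg (E := E) hlow τ κ Emax hτ hκ k bb hθ (agm_rho_ge_of_aCut (agm_tsupport_aCut_mul _))
  have h4 := fun k j => agm_reg (E := E) hlow τ κ Emax hτ hκ k (b4 j) hθ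
    (agm_rho_ge_of_aCut ((tsupport_dd_dd_chi_subset _ _).trans inter_subset_left))
  have h5 := fun k j => agm_reg (E := E) hlow τ κ Emax hτ hκ k (b5 j) hθ
    (agm_rho_ge_of_aCut ((tsupport_dd_chi_subset _).trans inter_subset_left))
  choose Ca hCa Ha using ha
  choose Cb hCb Hb using hb
  choose C4 hC4 H4 using h4
  choose C5 hC5 H5 using h5
  have h3 : (√3 : ℝ) ^ 2 = 3 := Real.sq_sqrt (by norm_num)
  have hN1 : ((Finset.univ : Finset (Fin 3 × Fin 3)).card : ℝ) = 9 := by simp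
  have hN2 : ((Fintype.card (Fin 3 × Fin 3) : ℕ) : ℝ) = 9 := by simp
  refine ⟨fun k => 3 * (584 * Ca k + 16 * Cb k + 81 * ∑ j, C4 k j + 162 * ∑ j, C5 k j), fun k => ?_,
    fun δ t En En0 f f0 G G0 h k x₀ hx => ?_⟩
  · have := hCa k
    have := hCb k
    have := Finset.sum_nonneg fun j (_ : j ∈ Finset.univ) => hC4 k j
    have := Finset.sum_nonneg fun j (_ : j ∈ Finset.univ) => hC5 k j
    positivity
  have pa := hCa k
  have pb := hCb k
  have p4 := Finset.sum_nonneg fun j (_ : j ∈ Finset.univ) => hC4 k j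
  have p5 := Finset.sum_nonneg fun j (_ : j ∈ Finset.univ) => hC5 k j
  have he : Real.exp (-(2 * sig τ * ‖x₀‖)) = Real.exp (-(2 * (τ * √(10 / 9)) * ‖x₀‖)) := rfl
  rw [he]
  set e := Real.exp (-(2 * (τ * √(10 / 9)) * ‖x₀‖)) with hedef
  have e0 : 0 < e := Real.exp_pos _
  have a1 := (Ha k δ t En En0 f f0 G G0 h x₀ hx).1
  have a2 := (Hb k δ t En En0 f f0 G G0 h x₀ hx).1
  -- the singular term
  have T1 := (DirH1.invariant_mul (V₁ := fun X : Config 3 => 1 / ‖diffL (1 : Fin 3) 2 X - 0‖) (a := 4) (b := 0)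
    (by norm_num) le_rfl (formBdd_inv_sq (E := E) (diffL (1 : Fin 3) 2) 0 1 (diffL_dir (by decide)))
    (fun a X s => inv_pair_invariant (S := {0}) (i := 1) (j := 2) (by simp) a X s)
    (fun K hK => memLp_inv_restrict (diffL (1 : Fin 3) 2) 0 1 (diffL_dir (by decide)) hK) a1).const_smul t
  have T2 := a2.2.1.const_smul t
  have T3 := a1.2.1.const_smul (En0 - En)
  have T4 : DirL2 volume (cdir ({0} : Finset (Fin 3))) k
      (fun X => ∑ j, (bump x₀ X * dd (dir j) (dd (dir j) chi) X) • (f X - f0 X)) _ :=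
    DirL2.sum Finset.univ (M := (∑ j, C4 k j) * δ ^ 2 * e) fun j _ =>
      (((H4 k j δ t En En0 f f0 G G0 h x₀ hx).2
        ((tsupport_dd_dd_chi_subset _ _).trans inter_subset_right)).2.1.2.1).mono (by
          have := Finset.single_le_sum (f := fun j => C4 k j) (fun j _ => hC4 k j) (Finset.mem_univ j)
          gcongr)
  have T5 : DirL2 volume (cdir ({0} : Finset (Fin 3))) k
      (fun X => ∑ j, (bump x₀ X * dd (dir j) chi X) • (G j X - G0 j X)) _ :=
    DirL2.sum Finset.univ (M := (∑ j, C5 k j) * δ ^ 2 * e) fun j _ =>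
      (((H5 k j δ t En En0 f f0 G G0 h x₀ hx).2
        ((tsupport_dd_chi_subset _).trans inter_subset_right)).2.2 j).mono (by
          have := Finset.single_le_sum (f := fun j => C5 k j) (fun j _ => hC5 k j) (Finset.mem_univ j)
          gcongr)
  have ht2 : t ^ 2 ≤ δ ^ 2 := pow_le_pow_left₀ h.t_nonneg h.t_le 2
  have hE2 : (En0 - En) ^ 2 ≤ δ ^ 2 := by
    rw [← sq_abs, abs_sub_comm]; exact pow_le_pow_left₀ (abs_nonneg _) h.En_le 2
  have i1 : t ^ 2 * (Ca k * e) ≤ δ ^ 2 * (Ca k * e) := mul_le_mul_of_nonneg_right ht2 (by positivity)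
  have i2 : t ^ 2 * (Cb k * e) ≤ δ ^ 2 * (Cb k * e) := mul_le_mul_of_nonneg_right ht2 (by positivity)
  have i3 : (En0 - En) ^ 2 * (Ca k * e) ≤ δ ^ 2 * (Ca k * e) := mul_le_mul_of_nonneg_right hE2 (by positivity)
  have := (((((T1.add T2).add T3).sub (T4.const_smul (1 / 2 : ℝ))).sub T5).const_smul (√3 : ℝ)).mono
    (M' := 3 * (584 * Ca k + 16 * Cb k + 81 * ∑ j, C4 k j + 162 * ∑ j, C5 k j) * δ ^ 2 * e) (by
      rw [h3, hN1, hN2]
      nlinarith)
  refine this.congr_ae (Eventually.of_forall fun X => ?_)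
  have e1 : diffL (1 : Fin 3) 2 X - 0 = X 1 - X 2 := by simp [diffL, evL]
  simp only [PhiR, src0, e1, smul_sub, Finset.smul_sum, smul_smul]
  congr 1
  · congr 1
    · module
    · exact Finset.sum_congr rfl fun j _ => by module
  · exact Finset.sum_congr rfl fun j _ => by module

end M3

/-! ## LEAF AG-M4: cluster regularity in the form needed for pairings -/

section M4

/-- `CReg` for `f`, `f0` and `v` (from `state_reg`, `diff_reg`: forget the gradient part; `Adm.mono` from `creg` to `regNuc`). -/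
theorem chan_creg {εb : ℝ} (hlow : ∀ g G, IsH1 g G → εb * (∫ x, g x ^ 2) ≤ orbitalForm g g G G)
    (τ κ Emax : ℝ) (hτ : 0 ≤ τ) (hκ : 0 < κ) :
    ∃ C : ℕ → ℝ, (∀ k, 0 ≤ C k) ∧ ∀ (δ t En En0 : ℝ) (f f0 : Config 3 → E) (G G0 : Fin 3 × Fin 3 → Config 3 → E),
      PairData εb τ κ Emax δ t En En0 f f0 G G0 → ∀ k : ℕ,
      CReg (1 / 5) (wexp τ) k f (C k) ∧ CReg (1 / 5) (wexp τ) k f0 (C k) ∧
      CReg (1 / 5) (wexp τ) k (fun X => f X - f0 X) (C k * δ ^ 2) := by
  have h1 := fun k => state_reg (E := E) hlow k (1 / 5) τ κ Emax (by norm_num) hτ hκ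
  have h2 := fun k => diff_reg (E := E) hlow k (1 / 5) τ κ Emax (by norm_num) hτ hκ
  choose C1 hC1 H1' using h1
  choose C2 hC2 H2' using h2
  refine ⟨fun k => C1 k + C2 k, fun k => add_nonneg (hC1 k) (hC2 k), fun δ t En En0 f f0 G G0 h k => ⟨?_, ?_, ?_⟩⟩
  · intro S η K hK hη
    refine (((H1' k δ t En En0 f f0 G G0 h S η K hK).1 hη).2.1).mono ?_
    have := mul_nonneg (sq_nonneg K) (hC2 k)
    nlinarith
  · intro S η K hK hη
    refine (((H1' k δ t En En0 f f0 G G0 h S η K hK).2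
      (hη.mono inter_subset_left (fun X => (wexp_pos τ X).le) le_rfl)).2.1).mono ?_
    have := mul_nonneg (sq_nonneg K) (hC2 k)
    nlinarith
  · intro S η K hK hη
    refine (((H2' k δ t En En0 f f0 G G0 h S η K hK).1 hη).2.1).mono ?_
    have := mul_nonneg (mul_nonneg (sq_nonneg K) (hC1 k)) (sq_nonneg δ)
    nlinarith

/-- `CReg` without weights for a single eigenfunction, at every scale (`eigen_reg`). -/
theorem eigen_creg {t En : ℝ} (h0 : 0 ≤ t) (h1 : t ≤ 1) {f : Config 3 → E} {G : Fin 3 × Fin 3 → Config 3 → E}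
    (hf : H1 (volume : Measure (Config 3)) dir f G)
    (hs : IsWeakSol (volume : Measure (Config 3)) dir (scaledPotential 3 t) En f G (fun _ => 0))
    (ε : ℝ) (k : ℕ) (hε : 0 < ε) : ∃ M, CReg ε (fun _ => 1) k f M := by
  obtain ⟨C, _, hC⟩ := eigen_reg (E := E) k ε |En| hε
  refine ⟨C * nsq volume f, fun S η K hK hη => ?_⟩
  refine ((hC t En f G h0 h1 le_rfl hf hs S η K hK hη).2.1).mono (le_of_eq ?_)
  ring

end M4

end Claimed.Open.R278.AG
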