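import Claimed.Open.R278.AGForm

/-!
# Result 278, layer AG, file 3: regularity along directions in which the operator is EXACTLY invariant

This replaces "local `H²` estimates on nested boxes + difference quotients" and the "parallel derivative method"
(FS18) in the proof of Lemma 3.2.  Only the energy (`H¹`) estimate is used.

* `dq d t f = t⁻¹ (f(· + t d) - f)`.
* `AG.DirL2 μ D k g M`: all iterated weak derivatives of `g` of order `≤ k` along the directions `D a` exist in `L²`,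
  each with squared norm `≤ M`.
* `AG.DirH1 μ v D k f G M`: `(f, G)` is an `H¹` pair and `f` and all `G j` are `DirL2 .. k .. M`.
* `AG.inv_step`: if `V` is invariant under translations along `d = ∑ c_j v_j` and `(H_V - En) f = g ∈ L²` globally, then
  `∂_d f ∈ H¹` with a bound, and if `∂_d g ∈ L²` then `(H_V - En) ∂_d f = ∂_d g`.
* `AG.inv_iter`: iteration.

PROOF of `inv_step`.  (1) `f_t := dq d t f` solves the same equation with source `dq d t g` (translation invariance of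
`μ`, of `V` and of the class of test pairs).  Test it with `f_t` itself (energy identity with `ξ = 1`):
`q(f_t) - En ‖f_t‖² = Re ⟨f_t, dq d t g⟩ = - Re ⟨dq d (-t) f_t, g⟩`, and `‖dq d (-t) f_t‖ ≤ ‖∂_d f_t‖ = ‖∑ c_j dq d t G_j‖`.
With `Y² = ∑_j ‖dq d t G_j‖²` and `FormBdd.qform_ge`: `¼ Y² ≤ (|En| + b) ‖∂_d f‖² + |c| Y ‖g‖`, so
`Y² ≤ 8 (|En| + b) ‖∂_d f‖² + 16 |c|² ‖g‖²`, uniformly in `t ≠ 0`.  `exists_wd2_of_diffQuot` gives `G'_j = ∂_d G_j ∈ L²`;
`WD.comm` shows that `G'` is the weak gradient of `∂_d f = ∑ c_j G_j`.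
(2) In the equation of `f_t` (fixed test pair) let `t → 0`: `dq d t G_j → G'_j`, `dq d t f → ∂_d f`, `dq d t g → g'` in `L²`
(`tendsto_dq`), and the potential term converges by `FormBdd.norm_integral_inner_le` applied to the `H¹` pair
`(f_t - ∂_d f, dq d t G - G')`.
-/

open MeasureTheory Filter Topology Set
open scoped ContDiff InnerProductSpace

noncomputable section

set_option linter.unusedSectionVars false

namespace Claimed.Open.R278.AG

variable {X : Type*} [NormedAddCommGroup X] [NormedSpace ℝ X] [FiniteDimensional ℝ X]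
  [MeasurableSpace X] [BorelSpace X] {μ : Measure X} [μ.IsAddHaarMeasure]

/-! ## Definitions -/

section Defs

variable {F : Type*} [NormedAddCommGroup F] [NormedSpace ℝ F]

/-- the difference quotient along `d`. -/
def dq (d : X) (t : ℝ) (f : X → F) : X → F := fun x => t⁻¹ • (f (x + t • d) - f x)

/-- iterated weak derivatives of order `≤ k` along the `D a` in `L²`, squared norms `≤ M`. -/
def DirL2 (μ : Measure X) {κ : Type*} (D : κ → X) : ℕ → (X → F) → ℝ → Prop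
  | 0, g, M => MemLp g 2 μ ∧ nsq μ g ≤ M
  | k + 1, g, M => (MemLp g 2 μ ∧ nsq μ g ≤ M) ∧
      ∀ a, ∃ g' : X → F, HasWeakDeriv μ (D a) g g' ∧ DirL2 μ D k g' M

/-- iterated weak derivatives of order `≤ k` along the `D a` in `L¹`, norms `≤ M`. -/
def DirL1 (μ : Measure X) {κ : Type*} (D : κ → X) : ℕ → (X → F) → ℝ → Prop
  | 0, g, M => Integrable g μ ∧ ∫ x, ‖g x‖ ∂μ ≤ M
  | k + 1, g, M => (Integrable g μ ∧ ∫ x, ‖g x‖ ∂μ ≤ M) ∧
      ∀ a, ∃ g' : X → F, HasWeakDeriv μ (D a) g g' ∧ DirL1 μ D k g' M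

end Defs

variable {E : Type*} [NormedAddCommGroup E] [InnerProductSpace ℂ E] [CompleteSpace E]
  {ι : Type*} [Fintype ι] {v : ι → X} {κ : Type*}

/-- an `H¹` pair all of whose components have `k` iterated `D`-derivatives in `L²`. -/
def DirH1 (μ : Measure X) (v : ι → X) (D : κ → X) (k : ℕ) (f : X → E) (G : ι → X → E) (M : ℝ) : Prop :=
  H1 μ v f G ∧ DirL2 μ D k f M ∧ ∀ j, DirL2 μ D k (G j) M

/-- the direction `∑_j c_j v_j`. -/
def lin (v : ι → X) (c : ι → ℝ) : X := ∑ j, c j • v j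

/-- the derivative of an `H¹` pair along `lin v c`. -/
def linD (c : ι → ℝ) (G : ι → X → E) : X → E := fun x => ∑ j, c j • G j x

/-! ## LEAF AG-I1: difference quotients -/

section I1

theorem memLp_translate {f : X → E} (hf : MemLp f 2 μ) (a : X) : MemLp (fun x => f (x + a)) 2 μ :=
  hf.comp_measurePreserving (measurePreserving_add_right μ a)

theorem dq_memLp {f : X → E} (hf : MemLp f 2 μ) (d : X) (t : ℝ) : MemLp (dq d t f) 2 μ :=
  ((memLp_translate hf (t • d)).sub hf).const_smul t⁻¹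

/-- `‖dq d t f‖ ≤ ‖∂_d f‖` (`WD2.translate_sub_le`). -/
theorem nsq_dq_le {d : X} {f g : X → E} (h : WD2 μ d f g) (t : ℝ) : nsq μ (dq d t f) ≤ nsq μ g := by
  rcases eq_or_ne t 0 with rfl | ht
  · have : nsq μ (dq d 0 f) = 0 := by simp [nsq, dq]
    rw [this]; exact nsq_nonneg _
  · have h1 := h.translate_sub_le t
    have e : nsq μ (dq d t f) = (t ^ 2)⁻¹ * ∫ x, ‖f (x + t • d) - f x‖ ^ 2 ∂μ := by
      unfold nsq dq
      rw [← integral_const_mul]
      refine integral_congr_ae (Eventually.of_forall fun x => ?_)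
      simp only [norm_smul, mul_pow, Real.norm_eq_abs, sq_abs, inv_pow]
    rw [e]
    have ht2 : 0 < t ^ 2 := by positivity
    calc (t ^ 2)⁻¹ * ∫ x, ‖f (x + t • d) - f x‖ ^ 2 ∂μ ≤ (t ^ 2)⁻¹ * (t ^ 2 * ∫ x, ‖g x‖ ^ 2 ∂μ) :=
          mul_le_mul_of_nonneg_left h1 (by positivity)
      _ = nsq μ g := by unfold nsq; field_simp

/-- discrete integration by parts. -/
theorem integral_inner_dq {f g : X → E} (hf : MemLp f 2 μ) (hg : MemLp g 2 μ) (d : X) (t : ℝ) :
    ∫ x, ⟪f x, dq d t g x⟫_ℂ ∂μ = - ∫ x, ⟪dq d (-t) f x, g x⟫_ℂ ∂μ := by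
  have h1 : ∫ x, ⟪f x, g (x + t • d)⟫_ℂ ∂μ = ∫ x, ⟪f (x + (-t) • d), g x⟫_ℂ ∂μ := by
    rw [← integral_add_right_eq_self (fun x => ⟪f (x + (-t) • d), g x⟫_ℂ) (t • d)]
    refine integral_congr_ae (Eventually.of_forall fun x => ?_)
    simp only [neg_smul, add_neg_cancel_right]
  have i1 := integrable_inner' hf (memLp_translate hg (t • d))
  have i2 := integrable_inner' hf hg
  have i3 := integrable_inner' (memLp_translate hf ((-t) • d)) hg
  simp only [dq, inner_real_smul_left, inner_real_smul_right, inner_sub_left, inner_sub_right]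
  rw [integral_const_mul, integral_const_mul, integral_sub i1 i2, integral_sub i3 i2, h1]
  push_cast
  rw [inv_neg]
  ring

theorem WD2.sub' {w : X} {f f' g g' : X → E} (h : WD2 μ w f g) (h' : WD2 μ w f' g') :
    WD2 μ w (fun x => f x - f' x) (fun x => g x - g' x) :=
  ⟨h.memf.sub h'.memf, h.memg.sub h'.memg, (h.wd.sub h'.wd).weak⟩

theorem WD2.const_smul' {w : X} {f g : X → E} (h : WD2 μ w f g) (c : ℝ) :
    WD2 μ w (fun x => c • f x) (fun x => c • g x) :=
  ⟨h.memf.const_smul c, h.memg.const_smul c, (h.wd.const_smul c).weak⟩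

theorem WD2.dq {w d : X} {f g : X → E} (h : WD2 μ w f g) (t : ℝ) : WD2 μ w (dq d t f) (dq d t g) :=
  WD2.const_smul' (WD2.sub' (h.translate (t • d)) h) t⁻¹

theorem H1.dq {f : X → E} {G : ι → X → E} (h : H1 μ v f G) (d : X) (t : ℝ) :
    H1 μ v (dq d t f) (fun j => dq d t (G j)) :=
  ⟨dq_memLp h.mem d t, fun j => WD2.dq (h.wd j) t⟩

/-- translation invariance of the equation. -/
theorem IsWeakSol.translate {V : X → ℝ} {En : ℝ} {f g : X → E} {G : ι → X → E}
    (h : IsWeakSol μ v V En f G g) {a : X} (hV : ∀ x, V (x + a) = V x) :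
    IsWeakSol μ v V En (fun x => f (x + a)) (fun j x => G j (x + a)) (fun x => g (x + a)) := by
  intro Ξ Ξ' hΞ _
  have e0 := h (fun x => Ξ (x + -a)) (fun j x => Ξ' j (x + -a)) (hΞ.translate (-a))
    (fun x hx => absurd (mem_univ x) hx)
  have a1 : ∀ j, ∫ x, ⟪Ξ' j x, G j (x + a)⟫_ℂ ∂μ = ∫ x, ⟪Ξ' j (x + -a), G j x⟫_ℂ ∂μ := by
    intro j
    rw [← integral_add_right_eq_self (fun x => ⟪Ξ' j (x + -a), G j x⟫_ℂ) a]
    simp only [add_neg_cancel_right]
  have a2 : ∫ x, ((V x - En : ℝ) : ℂ) * ⟪Ξ x, f (x + a)⟫_ℂ ∂μ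
      = ∫ x, ((V x - En : ℝ) : ℂ) * ⟪Ξ (x + -a), f x⟫_ℂ ∂μ := by
    rw [← integral_add_right_eq_self (fun x => ((V x - En : ℝ) : ℂ) * ⟪Ξ (x + -a), f x⟫_ℂ) a]
    simp only [add_neg_cancel_right, hV]
  have a3 : ∫ x, ⟪Ξ x, g (x + a)⟫_ℂ ∂μ = ∫ x, ⟪Ξ (x + -a), g x⟫_ℂ ∂μ := by
    rw [← integral_add_right_eq_self (fun x => ⟪Ξ (x + -a), g x⟫_ℂ) a]
    simp only [add_neg_cancel_right]
  simp only [a1, a2, a3]
  exact e0

theorem IsWeakSol.dq {V : X → ℝ} {a b En : ℝ} (hV : FormBdd E μ v V a b) {f g : X → E} {G : ι → X → E}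
    (hf : H1 μ v f G) (hg : MemLp g 2 μ) (h : IsWeakSol μ v V En f G g) {d : X}
    (hinv : ∀ (x : X) (s : ℝ), V (x + s • d) = V x) (t : ℝ) :
    IsWeakSol μ v V En (dq d t f) (fun j => dq d t (G j)) (dq d t g) := by
  have h1 := IsWeakSol.translate h (a := t • d) (fun x => hinv x t)
  have h2 := IsWeakSolOn.sub hV (hf.translate (t • d)) hf (memLp_translate hg (t • d)) hg h1 h
  have h3 := h2.smul ((t⁻¹ : ℝ) : ℂ)
  simp only [Complex.coe_smul] at h3
  exact h3

/-- difference quotients of a `C¹_c` function converge in `L²` (dominated convergence). -/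
theorem tendsto_dq_contDiff {F : Type*} [NormedAddCommGroup F] [NormedSpace ℝ F] {u : X → F}
    (hu : ContDiff ℝ 1 u) (hc : HasCompactSupport u) (d : X) :
    Tendsto (fun t : ℝ => nsq μ (fun x => dq d t u x - fderiv ℝ u x d)) (𝓝[≠] 0) (𝓝 0) := by
  have hcf : Continuous (fderiv ℝ u) := hu.continuous_fderiv (by norm_num)
  obtain ⟨L, hL⟩ := (hc.fderiv (𝕜 := ℝ)).exists_bound_of_continuous hcf
  have hL0 : 0 ≤ L := (norm_nonneg _).trans (hL 0)
  have hdiff : Differentiable ℝ u := hu.differentiable (by norm_num)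
  -- the compact set
  set K : Set X := (fun p : X × ℝ => p.1 - p.2 • d) '' (tsupport u ×ˢ Icc (-1 : ℝ) 1) with hK
  have hKc : IsCompact K :=
    (hc.isCompact.prod isCompact_Icc).image (continuous_fst.sub (continuous_snd.smul continuous_const))
  have hout : ∀ x, x ∉ K → ∀ t : ℝ, |t| ≤ 1 → u (x + t • d) = 0 := by
    intro x hx t ht
    by_contra hne
    refine hx ⟨(x + t • d, t), ⟨subset_tsupport _ hne, abs_le.1 ht⟩, ?_⟩
    simp
  have hbound : ∀ t : ℝ, |t| ≤ 1 → ∀ x, ‖dq d t u x - fderiv ℝ u x d‖ ^ 2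
      ≤ K.indicator (fun _ => (2 * (L * ‖d‖)) ^ 2) x := by
    intro t ht x
    by_cases hx : x ∈ K
    · rw [indicator_of_mem hx]
      have h1 : ‖u (x + t • d) - u x‖ ≤ L * ‖(x + t • d) - x‖ :=
        Convex.norm_image_sub_le_of_norm_fderiv_le (s := univ) (fun y _ => hdiff y) (fun y _ => hL y)
          convex_univ (mem_univ _) (mem_univ _)
      have h2 : ‖dq d t u x‖ ≤ L * ‖d‖ := by
        unfold dq
        rw [norm_smul, norm_inv, Real.norm_eq_abs]
        rcases eq_or_ne t 0 with rfl | ht0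
        · simp; positivity
        · rw [add_sub_cancel_left, norm_smul, Real.norm_eq_abs] at h1
          have : 0 < |t| := abs_pos.2 ht0
          calc |t|⁻¹ * ‖u (x + t • d) - u x‖ ≤ |t|⁻¹ * (L * (|t| * ‖d‖)) :=
                mul_le_mul_of_nonneg_left h1 (by positivity)
            _ = L * ‖d‖ := by field_simp
      have h3 : ‖fderiv ℝ u x d‖ ≤ L * ‖d‖ :=
        ((fderiv ℝ u x).le_opNorm d).trans (mul_le_mul_of_nonneg_right (hL x) (norm_nonneg _))
      have h4 : ‖dq d t u x - fderiv ℝ u x d‖ ≤ 2 * (L * ‖d‖) := (norm_sub_le _ _).trans (by linarith)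
      exact pow_le_pow_left₀ (norm_nonneg _) h4 2
    · rw [indicator_of_notMem hx]
      have h1 := hout x hx t ht
      have h2 : u x = 0 := by simpa using hout x hx 0 (by simp)
      have h3 : fderiv ℝ u x = 0 := by
        have hx' : x ∉ tsupport u := by
          intro hxs
          exact hx ⟨(x, 0), ⟨hxs, by simp⟩, by simp⟩
        exact image_eq_zero_of_notMem_tsupport fun h => hx' (tsupport_fderiv_subset ℝ h)
      simp [dq, h1, h2, h3]
  have hlim : ∀ x, Tendsto (fun t : ℝ => ‖dq d t u x - fderiv ℝ u x d‖ ^ 2) (𝓝[≠] 0) (𝓝 0) := by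
    intro x
    have h1 : HasDerivAt (fun t : ℝ => u (x + t • d)) (fderiv ℝ u x d) 0 := by
      have h2 : HasDerivAt (fun t : ℝ => x + t • d) d 0 := by
        simpa using ((hasDerivAt_id (0 : ℝ)).smul_const d).const_add x
      have h3 : HasFDerivAt u (fderiv ℝ u x) (x + (0 : ℝ) • d) := by
        simpa using (hdiff x).hasFDerivAt
      exact h3.comp_hasDerivAt 0 h2
    have h4 := h1.tendsto_slope_zero
    have h5 : Tendsto (fun t : ℝ => dq d t u x) (𝓝[≠] 0) (𝓝 (fderiv ℝ u x d)) := by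
      refine h4.congr fun t => ?_
      simp [dq]
    have h6 := ((h5.sub_const (fderiv ℝ u x d)).norm).pow 2
    simpa using h6
  have hmain := tendsto_integral_filter_of_dominated_convergence (μ := μ) (l := 𝓝[≠] (0 : ℝ))
    (F := fun t x => ‖dq d t u x - fderiv ℝ u x d‖ ^ 2) (f := fun _ => 0)
    (K.indicator fun _ => (2 * (L * ‖d‖)) ^ 2) ?_ ?_ ?_ (Eventually.of_forall hlim)
  · simpa [nsq] using hmain
  · refine Eventually.of_forall fun t => ?_
    have hcq : Continuous (dq d t u) := by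
      unfold dq
      exact ((hu.continuous.comp (continuous_id.add continuous_const)).sub hu.continuous).const_smul _
    exact ((hcq.sub (hcf.clm_apply continuous_const)).norm.pow 2).aestronglyMeasurable
  · have : ∀ᶠ t : ℝ in 𝓝[≠] 0, |t| ≤ 1 := by
      have h1 : ∀ᶠ t : ℝ in 𝓝 0, |t| < 1 :=
        (continuous_abs.tendsto (0 : ℝ)).eventually (Iio_mem_nhds (show |(0 : ℝ)| < 1 by simp))
      exact (h1.filter_mono nhdsWithin_le_nhds).mono fun t ht => ht.le
    filter_upwards [this] with t ht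
    refine Eventually.of_forall fun x => ?_
    rw [Real.norm_eq_abs, abs_of_nonneg (sq_nonneg _)]
    exact hbound t ht x
  · exact (integrable_indicator_iff hKc.measurableSet).2 (integrableOn_const hKc.measure_lt_top.ne)

/-- strong convergence of the difference quotients.  (Uniform bound `nsq_dq_le` + density of `C¹_c` in the graph norm of
`∂_d`, `exists_seq_contDiff_approx` with the one-element family; for `u ∈ C¹_c` uniform convergence on a fixed compact
set.) -/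
theorem tendsto_dq {d : X} {f g : X → E} (h : WD2 μ d f g) :
    Tendsto (fun t : ℝ => nsq μ (fun x => dq d t f x - g x)) (𝓝[≠] 0) (𝓝 0) := by
  obtain ⟨u, hu1, hu2, _, hu4⟩ := exists_seq_contDiff_approx (ι := Unit) (v := fun _ => d) (g := fun _ => g)
    (fun _ => h) h.memf
  have hu4' := hu4 ()
  have hW : ∀ n, WD2 μ d (u n) (fun x => fderiv ℝ (u n) x d) := fun n =>
    (h1_of_contDiff (μ := μ) (v := fun _ : Unit => d) (hu1 n) (hu2 n)).wd ()
  -- the basic inequality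
  have key : ∀ n (t : ℝ), nsq μ (fun x => dq d t f x - g x)
      ≤ 6 * nsq μ (fun x => fderiv ℝ (u n) x d - g x)
        + 4 * nsq μ (fun x => dq d t (u n) x - fderiv ℝ (u n) x d) := by
    intro n t
    have hD := WD2.sub' h (hW n)
    have b1 := nsq_dq_le hD t
    have m1 : MemLp (dq d t (fun x => f x - u n x)) 2 μ := dq_memLp hD.memf d t
    have m2 : MemLp (fun x => dq d t (u n) x - fderiv ℝ (u n) x d) 2 μ :=
      (dq_memLp (hW n).memf d t).sub (hW n).memg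
    have m3 : MemLp (fun x => fderiv ℝ (u n) x d - g x) 2 μ := (hW n).memg.sub h.memg
    have e : (fun x => dq d t f x - g x) = fun x => dq d t (fun x => f x - u n x) x
        + ((dq d t (u n) x - fderiv ℝ (u n) x d) + (fderiv ℝ (u n) x d - g x)) := by
      funext x
      simp only [dq, smul_sub]
      abel
    have b2 := nsq_add_le m1 (m2.add m3)
    have b3 := nsq_add_le m2 m3
    have b4 : nsq μ (fun x => g x - fderiv ℝ (u n) x d) = nsq μ (fun x => fderiv ℝ (u n) x d - g x) := by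
      unfold nsq
      simp only [norm_sub_rev]
    rw [e]
    rw [b4] at b1
    have b2' : nsq μ (fun x => dq d t (fun x => f x - u n x) x
        + ((dq d t (u n) x - fderiv ℝ (u n) x d) + (fderiv ℝ (u n) x d - g x)))
        ≤ 2 * nsq μ (dq d t (fun x => f x - u n x))
          + 2 * nsq μ (fun x => (dq d t (u n) x - fderiv ℝ (u n) x d) + (fderiv ℝ (u n) x d - g x)) := b2
    linarith
  rw [tendsto_order]
  refine ⟨fun a ha => Eventually.of_forall fun t => lt_of_lt_of_le ha (nsq_nonneg _), fun a ha => ?_⟩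
  have h1 : ∀ᶠ n in atTop, ∫ x, ‖fderiv ℝ (u n) x d - g x‖ ^ 2 ∂μ < a / 12 :=
    (tendsto_order.1 hu4').2 _ (by positivity)
  obtain ⟨n, hn⟩ := h1.exists
  have h2 : ∀ᶠ t in 𝓝[≠] (0 : ℝ), nsq μ (fun x => dq d t (u n) x - fderiv ℝ (u n) x d) < a / 8 :=
    (tendsto_order.1 (tendsto_dq_contDiff (μ := μ) (hu1 n) (hu2 n) d)).2 _ (by positivity)
  filter_upwards [h2] with t ht
  have := key n t
  have hn' : nsq μ (fun x => fderiv ℝ (u n) x d - g x) < a / 12 := hn
  linarith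

end I1

/-! ## LEAF AG-I2: one derivative for the invariant operator -/

section I2

/-- the energy identity with `ξ = 1`. -/
theorem IsWeakSolOn.energy_one {V : X → ℝ} {a b En : ℝ} (hV : FormBdd E μ v V a b)
    {f g : X → E} {G : ι → X → E} (hf : H1 μ v f G) (hs : IsWeakSol μ v V En f G g) :
    qform μ V f G - En * nsq μ f = (∫ x, ⟪f x, g x⟫_ℂ ∂μ).re := by
  have E0 := congrArg Complex.re (hs f G hf (fun x hx => absurd (Set.mem_univ x) hx))
  have hself : ∀ c : E, (⟪c, c⟫_ℂ).re = ‖c‖ ^ 2 := fun c => by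
    rw [inner_self_eq_norm_sq_to_K]; norm_cast
  have T1 : ∀ j, (∫ x, ⟪G j x, G j x⟫_ℂ ∂μ).re = nsq μ (G j) := by
    intro j
    rw [re_integral (integrable_inner' (hf.wd j).memg (hf.wd j).memg)]
    simp only [hself]; rfl
  have T2 : (∫ x, ((V x - En : ℝ) : ℂ) * ⟪f x, f x⟫_ℂ ∂μ).re = ∫ x, V x * ‖f x‖ ^ 2 ∂μ - En * nsq μ f := by
    rw [re_integral (hV.integrable_inner hf hf En)]
    unfold nsq
    rw [← integral_const_mul, ← integral_sub (FormBdd.integrable_mul hV hf) ((integrable_norm_sq hf.mem).const_mul En)]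
    refine integral_congr_ae (Eventually.of_forall fun x => ?_)
    simp only [Complex.re_ofReal_mul, hself]
    ring
  have T0 : ((1 / 2 : ℂ) * ∑ j, ∫ x, ⟪G j x, G j x⟫_ℂ ∂μ).re = (1 / 2) * ∑ j, nsq μ (G j) := by
    have : ((1 / 2 : ℂ)) = ((1 / 2 : ℝ) : ℂ) := by push_cast; ring
    rw [this, Complex.re_ofReal_mul, Complex.re_sum]
    simp only [T1]
  rw [Complex.add_re, T0, T2] at E0
  unfold qform
  linarith

theorem nsq_real_smul (c : ℝ) (f : X → E) : nsq μ (fun x => c • f x) = c ^ 2 * nsq μ f := by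
  unfold nsq
  rw [← integral_const_mul]
  simp only [norm_smul, mul_pow, Real.norm_eq_abs, sq_abs]

theorem nsq_linD_le {c : ι → ℝ} {cmax : ℝ} (hc : ∀ j, |c j| ≤ cmax) {G : ι → X → E} (hG : ∀ j, MemLp (G j) 2 μ) :
    nsq μ (linD c G) ≤ (Fintype.card ι * cmax ^ 2) * ∑ j, nsq μ (G j) := by
  have h1 := nsq_sum_le (μ := μ) Finset.univ (f := fun j x => c j • G j x) (fun j _ => (hG j).const_smul (c j))
  have h2 : ∑ j, nsq μ (fun x => c j • G j x) ≤ cmax ^ 2 * ∑ j, nsq μ (G j) := by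
    rw [Finset.mul_sum]
    refine Finset.sum_le_sum fun j _ => ?_
    rw [nsq_real_smul]
    exact mul_le_mul_of_nonneg_right (sq_le_sq' (by linarith [neg_abs_le (c j), hc j]) ((le_abs_self _).trans (hc j)))
      (nsq_nonneg _)
  have h3 : nsq μ (linD c G) ≤ (Fintype.card ι : ℝ) * ∑ j, nsq μ (fun x => c j • G j x) := by
    have h1' : nsq μ (fun x => ∑ j, c j • G j x) ≤ (Fintype.card ι : ℝ) * ∑ j, nsq μ (fun x => c j • G j x) := by
      simpa using h1
    exact h1'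
  calc nsq μ (linD c G) ≤ (Fintype.card ι : ℝ) * ∑ j, nsq μ (fun x => c j • G j x) := h3
    _ ≤ (Fintype.card ι : ℝ) * (cmax ^ 2 * ∑ j, nsq μ (G j)) := mul_le_mul_of_nonneg_left h2 (by positivity)
    _ = _ := by ring

theorem H1.wd2_lin {f : X → E} {G : ι → X → E} (h : H1 μ v f G) (c : ι → ℝ) :
    WD2 μ (lin v c) f (linD c G) := h.wd2_dir c

/-- uniform bound of the difference quotients of the gradient (part (1) of the proof in the header). -/
theorem inv_dq_bound (b Emax cmax : ℝ) :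
    ∃ C : ℝ, 0 ≤ C ∧ ∀ (V : X → ℝ) (En : ℝ) (c : ι → ℝ) (f g : X → E) (G : ι → X → E) (t : ℝ),
      |En| ≤ Emax → (∀ j, |c j| ≤ cmax) → FormBdd E μ v V (1 / 4) b →
      (∀ (x : X) (s : ℝ), V (x + s • lin v c) = V x) → H1 μ v f G → MemLp g 2 μ → IsWeakSol μ v V En f G g → t ≠ 0 →
      ∑ j, nsq μ (dq (lin v c) t (G j)) ≤ C * (h1sq μ f G + nsq μ g) := by
  set K : ℝ := Fintype.card ι * cmax ^ 2 with hK
  have hK0 : 0 ≤ K := by positivity
  refine ⟨8 * (|Emax| + |b|) * K + 16 * K, by positivity, ?_⟩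
  intro V En c f g G t hEn hc hV hinv hf hg hs _
  set d := lin v c with hd
  have hft : H1 μ v (dq d t f) (fun j => dq d t (G j)) := H1.dq hf d t
  have hst := IsWeakSol.dq hV hf hg hs hinv t
  have e1 := IsWeakSolOn.energy_one hV hft hst
  have e2 := hV.qform_ge hft
  set Y : ℝ := ∑ j, nsq μ (dq d t (G j)) with hY
  have hY0 : 0 ≤ Y := sum_nsq_nonneg _
  -- the right side
  have e3 := integral_inner_dq hft.mem hg d t
  have e4 := (norm_integral_inner_le (dq_memLp hft.mem d (-t)) hg).2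
  have e5 : nsq μ (dq d (-t) (dq d t f)) ≤ K * Y :=
    (nsq_dq_le (H1.wd2_lin hft c) (-t)).trans (nsq_linD_le hc fun j => (hft.wd j).memg)
  have e6 : nsq μ (dq d t f) ≤ K * ∑ j, nsq μ (G j) :=
    (nsq_dq_le (H1.wd2_lin hf c) t).trans (nsq_linD_le hc fun j => (hf.wd j).memg)
  have hQ := nsq_nonneg (μ := μ) g
  set z := ∫ x, ⟪dq d (-t) (dq d t f) x, g x⟫_ℂ ∂μ with hz
  have e7 : ‖z‖ ≤ Y / 8 + 2 * K * nsq μ g := by
    refine (abs_le_of_sq_le_sq' ?_ (by positivity)).2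
    have : ‖z‖ ^ 2 ≤ K * Y * nsq μ g := e4.trans (mul_le_mul_of_nonneg_right e5 hQ)
    nlinarith [sq_nonneg (Y / 8 - 2 * K * nsq μ g)]
  have e8 : (∫ x, ⟪dq d t f x, dq d t g x⟫_ℂ ∂μ).re ≤ Y / 8 + 2 * K * nsq μ g := by
    rw [e3, Complex.neg_re]
    have := Complex.abs_re_le_norm z
    linarith [neg_abs_le z.re]
  have hP := nsq_nonneg (μ := μ) (dq d t f)
  have e9 : (En + b) * nsq μ (dq d t f) ≤ (|Emax| + |b|) * (K * ∑ j, nsq μ (G j)) := by
    have h1 : En + b ≤ |Emax| + |b| := by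
      have := le_abs_self En; have := le_abs_self b; have := le_abs_self Emax; linarith
    calc (En + b) * nsq μ (dq d t f) ≤ (|Emax| + |b|) * nsq μ (dq d t f) := mul_le_mul_of_nonneg_right h1 hP
      _ ≤ _ := mul_le_mul_of_nonneg_left e6 (by positivity)
  have hS : ∑ j, nsq μ (G j) ≤ h1sq μ f G := by
    unfold h1sq; linarith [nsq_nonneg (μ := μ) f]
  have hS0 : 0 ≤ ∑ j, nsq μ (G j) := sum_nsq_nonneg _
  have e10 : (|Emax| + |b|) * (K * ∑ j, nsq μ (G j)) ≤ (|Emax| + |b|) * K * h1sq μ f G := by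
    have h1 : K * ∑ j, nsq μ (G j) ≤ K * h1sq μ f G := mul_le_mul_of_nonneg_left hS hK0
    have h2 : (0 : ℝ) ≤ |Emax| + |b| := by positivity
    calc (|Emax| + |b|) * (K * ∑ j, nsq μ (G j)) ≤ (|Emax| + |b|) * (K * h1sq μ f G) :=
          mul_le_mul_of_nonneg_left h1 h2
      _ = _ := by ring
  have hH := h1sq_nonneg (μ := μ) f G
  have e11 : 0 ≤ (|Emax| + |b|) * K * nsq μ g := by positivity
  have e12 : 0 ≤ K * h1sq μ f G := by positivity
  have : Y / 8 ≤ (|Emax| + |b|) * K * h1sq μ f G + 2 * K * nsq μ g := by linarith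
  linarith

/-- **One step.** -/
theorem inv_step (b Emax cmax : ℝ) :
    ∃ C : ℝ, 0 ≤ C ∧ ∀ (V : X → ℝ) (En : ℝ) (c : ι → ℝ) (f g : X → E) (G : ι → X → E),
      |En| ≤ Emax → (∀ j, |c j| ≤ cmax) → FormBdd E μ v V (1 / 4) b →
      (∀ (x : X) (s : ℝ), V (x + s • lin v c) = V x) → H1 μ v f G → MemLp g 2 μ → IsWeakSol μ v V En f G g →
      ∃ G' : ι → X → E, H1 μ v (linD c G) G' ∧ (∀ j, WD2 μ (lin v c) (G j) (G' j)) ∧
        h1sq μ (linD c G) G' ≤ C * (h1sq μ f G + nsq μ g) ∧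
        ∀ g' : X → E, WD2 μ (lin v c) g g' → IsWeakSol μ v V En (linD c G) G' g' := by
  obtain ⟨C0, hC0, hb0⟩ := inv_dq_bound (μ := μ) (E := E) (v := v) b Emax cmax
  set K : ℝ := Fintype.card ι * cmax ^ 2 with hK
  have hK0 : 0 ≤ K := by positivity
  refine ⟨K + Fintype.card ι * C0, by positivity, ?_⟩
  intro V En c f g G hEn hc hV hinv hf hg hs
  set d := lin v c with hd
  set R : ℝ := h1sq μ f G + nsq μ g with hR
  have hR0 : 0 ≤ R := add_nonneg (h1sq_nonneg _ _) (nsq_nonneg _)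
  have hex : ∀ j, ∃ g' : X → E, WD2 μ d (G j) g' ∧ ∫ x, ‖g' x‖ ^ 2 ∂μ ≤ C0 * R := by
    intro j
    refine exists_wd2_of_diffQuot ℂ (hf.wd j).memg (mul_nonneg hC0 hR0) (t := fun n : ℕ => 1 / ((n : ℝ) + 1))
      (fun n => by positivity) tendsto_one_div_add_atTop_nhds_zero_nat fun n => ?_
    set t : ℝ := 1 / ((n : ℝ) + 1) with ht
    have ht0 : t ≠ 0 := by positivity
    have h1 := hb0 V En c f g G t hEn hc hV hinv hf hg hs ht0
    have h2 : nsq μ (dq d t (G j)) ≤ ∑ j, nsq μ (dq d t (G j)) :=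
      Finset.single_le_sum (f := fun j => nsq μ (dq d t (G j))) (fun i _ => nsq_nonneg _) (Finset.mem_univ j)
    have h3 : ∫ x, ‖G j (x + t • d) - G j x‖ ^ 2 ∂μ = t ^ 2 * nsq μ (dq d t (G j)) := by
      unfold nsq dq
      rw [← integral_const_mul]
      refine integral_congr_ae (Eventually.of_forall fun x => ?_)
      simp only [norm_smul, mul_pow, Real.norm_eq_abs, sq_abs, inv_pow]
      field_simp
    rw [h3, mul_comm]
    exact mul_le_mul_of_nonneg_right (h2.trans h1) (sq_nonneg t)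
  choose G' hG' hG'b using hex
  have hw := H1.wd2_lin hf c
  have hH : H1 μ v (linD c G) G' :=
    ⟨hw.memg, fun j => ⟨hw.memg, (hG' j).memg, (WD.comm (hf.wd j).wd hw.wd (hG' j).wd).weak⟩⟩
  refine ⟨G', hH, hG', ?_, ?_⟩
  · have h1 : nsq μ (linD c G) ≤ K * ∑ j, nsq μ (G j) := nsq_linD_le hc fun j => (hf.wd j).memg
    have h2 : ∑ j, nsq μ (G j) ≤ R := by
      have := nsq_nonneg (μ := μ) f; have := nsq_nonneg (μ := μ) g
      simp only [hR, h1sq]; linarith
    have h3 : ∑ j, nsq μ (G' j) ≤ Fintype.card ι * (C0 * R) := by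
      have := Finset.sum_le_card_nsmul Finset.univ (fun j => nsq μ (G' j)) (C0 * R) (fun j _ => hG'b j)
      simpa using this
    have h4 : K * ∑ j, nsq μ (G j) ≤ K * R := mul_le_mul_of_nonneg_left h2 hK0
    unfold h1sq
    linarith
  · intro g' hg' Ξ Ξ' hΞ _
    have hEq : ∀ t : ℝ, (1 / 2 : ℂ) * ∑ j, ∫ x, ⟪Ξ' j x, dq d t (G j) x⟫_ℂ ∂μ
        + ∫ x, ((V x - En : ℝ) : ℂ) * ⟪Ξ x, dq d t f x⟫_ℂ ∂μ = ∫ x, ⟪Ξ x, dq d t g x⟫_ℂ ∂μ := fun t =>
      IsWeakSol.dq hV hf hg hs hinv t Ξ Ξ' hΞ (fun x hx => absurd (mem_univ x) hx)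
    have t1 : ∀ j, Tendsto (fun t : ℝ => ∫ x, ⟪Ξ' j x, dq d t (G j) x⟫_ℂ ∂μ) (𝓝[≠] 0)
        (𝓝 (∫ x, ⟪Ξ' j x, G' j x⟫_ℂ ∂μ)) := fun j =>
      tendsto_integral_inner_right (fun t => dq_memLp (hf.wd j).memg d t) (hG' j).memg (hΞ.wd j).memg
        (tendsto_dq (hG' j))
    have t2 := FormBdd.tendsto_integral_right hV En (l := 𝓝[≠] (0 : ℝ)) (fun t => H1.dq hf d t) hH hΞ
      (tendsto_dq hw) (fun j => tendsto_dq (hG' j))
    have t3 := tendsto_integral_inner_right (l := 𝓝[≠] (0 : ℝ)) (fun t => dq_memLp hg d t) hg'.memg hΞ.mem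
      (tendsto_dq hg')
    have t4 := ((tendsto_finsetSum Finset.univ fun j _ => t1 j).const_mul (1 / 2 : ℂ)).add t2
    refine tendsto_nhds_unique t4 ?_
    refine t3.congr fun t => ?_
    exact (hEq t).symm

end I2

/-! ## LEAF AG-I3: calculus of `DirL2`, `DirL1`, `DirH1` -/

section I3

variable {F : Type*} [NormedAddCommGroup F] [NormedSpace ℝ F] [CompleteSpace F] {D : κ → X}

theorem DirL2.base {k : ℕ} {g : X → F} {M : ℝ} (h : DirL2 μ D k g M) : MemLp g 2 μ ∧ nsq μ g ≤ M := by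
  cases k with
  | zero => exact h
  | succ k => exact h.1

theorem gnsq_nonneg (f : X → F) : 0 ≤ nsq μ f := integral_nonneg fun _ => sq_nonneg _

theorem g_integrable_norm_sq {f : X → F} (hf : MemLp f 2 μ) : Integrable (fun x => ‖f x‖ ^ 2) μ := by
  have h : MemLp f ((2 : ℕ) : ENNReal) μ := by exact_mod_cast hf
  exact h.integrable_norm_pow (by norm_num)

theorem gnsq_congr {f f' : X → F} (h : f =ᵐ[μ] f') : nsq μ f = nsq μ f' :=
  integral_congr_ae (h.mono fun x hx => by simp only [hx])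

theorem gnsq_add_le {f g : X → F} (hf : MemLp f 2 μ) (hg : MemLp g 2 μ) :
    nsq μ (fun x => f x + g x) ≤ 2 * nsq μ f + 2 * nsq μ g := by
  unfold nsq
  rw [← integral_const_mul, ← integral_const_mul,
    ← integral_add ((g_integrable_norm_sq hf).const_mul 2) ((g_integrable_norm_sq hg).const_mul 2)]
  refine integral_mono (g_integrable_norm_sq (hf.add hg))
    (((g_integrable_norm_sq hf).const_mul 2).add ((g_integrable_norm_sq hg).const_mul 2)) fun x => ?_
  have h1 := norm_add_le (f x) (g x)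
  have h2 : ‖f x + g x‖ ^ 2 ≤ (‖f x‖ + ‖g x‖) ^ 2 := pow_le_pow_left₀ (norm_nonneg _) h1 2
  nlinarith [sq_nonneg (‖f x‖ - ‖g x‖)]

theorem gnsq_smul (c : ℝ) (f : X → F) : nsq μ (fun x => c • f x) = c ^ 2 * nsq μ f := by
  unfold nsq
  rw [← integral_const_mul]
  simp only [norm_smul, mul_pow, Real.norm_eq_abs, sq_abs]

theorem gnsq_sum_le {α : Type*} (s : Finset α) {f : α → X → F} (hf : ∀ a ∈ s, MemLp (f a) 2 μ) :
    nsq μ (fun x => ∑ a ∈ s, f a x) ≤ s.card * ∑ a ∈ s, nsq μ (f a) := by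
  unfold nsq
  rw [← integral_finsetSum s fun a ha => g_integrable_norm_sq (hf a ha), ← integral_const_mul]
  have hs : MemLp (fun x => ∑ a ∈ s, f a x) 2 μ := memLp_finsetSum s hf
  refine integral_mono (g_integrable_norm_sq hs)
    ((integrable_finsetSum s fun a ha => g_integrable_norm_sq (hf a ha)).const_mul _) fun x => ?_
  have h1 : ‖∑ a ∈ s, f a x‖ ≤ ∑ a ∈ s, ‖f a x‖ := norm_sum_le _ _
  calc ‖∑ a ∈ s, f a x‖ ^ 2 ≤ (∑ a ∈ s, ‖f a x‖) ^ 2 := pow_le_pow_left₀ (norm_nonneg _) h1 2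
    _ ≤ s.card * ∑ a ∈ s, ‖f a x‖ ^ 2 := sq_sum_le_card_mul_sum_sq

theorem gnsq_clm_le {F' : Type*} [NormedAddCommGroup F'] [NormedSpace ℝ F'] {f : X → F} (hf : MemLp f 2 μ)
    (T : F →L[ℝ] F') : nsq μ (fun x => T (f x)) ≤ ‖T‖ ^ 2 * nsq μ f := by
  unfold nsq
  rw [← integral_const_mul]
  refine integral_mono_of_nonneg (Eventually.of_forall fun x => sq_nonneg _)
    ((g_integrable_norm_sq hf).const_mul _) (Eventually.of_forall fun x => ?_)
  show ‖T (f x)‖ ^ 2 ≤ ‖T‖ ^ 2 * ‖f x‖ ^ 2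
  rw [← mul_pow]
  exact pow_le_pow_left₀ (norm_nonneg _) (T.le_opNorm _) 2

theorem hasWeakDeriv_congr_ae {w : X} {f f' g g' : X → F} (h : HasWeakDeriv μ w f g) (hf : f =ᵐ[μ] f')
    (hg : g =ᵐ[μ] g') : HasWeakDeriv μ w f' g' := by
  intro φ hφ hc
  have e1 : ∫ x, fderiv ℝ φ x w • f' x ∂μ = ∫ x, fderiv ℝ φ x w • f x ∂μ :=
    integral_congr_ae (hf.mono fun x hx => by simp only [hx])
  have e2 : ∫ x, φ x • g' x ∂μ = ∫ x, φ x • g x ∂μ :=
    integral_congr_ae (hg.mono fun x hx => by simp only [hx])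
  rw [e1, e2]
  exact h φ hφ hc

/-- unfolding with `WD2`. -/
theorem DirL2.wd2 {k : ℕ} {g : X → F} {M : ℝ} (h : DirL2 μ D (k + 1) g M) (a : κ) :
    ∃ g' : X → F, WD2 μ (D a) g g' ∧ DirL2 μ D k g' M := by
  obtain ⟨g', h1, h2⟩ := h.2 a
  exact ⟨g', ⟨h.1.1, h2.base.1, h1⟩, h2⟩

theorem DirL2.mono {k : ℕ} {g : X → F} {M M' : ℝ} (h : DirL2 μ D k g M) (hM : M ≤ M') : DirL2 μ D k g M' := by
  induction k generalizing g with
  | zero => exact ⟨h.1, h.2.trans hM⟩
  | succ k ih =>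
    refine ⟨⟨h.1.1, h.1.2.trans hM⟩, fun a => ?_⟩
    obtain ⟨g', h1, h2⟩ := h.2 a
    exact ⟨g', h1, ih h2⟩

theorem DirL2.of_le {k k' : ℕ} {g : X → F} {M : ℝ} (h : DirL2 μ D k g M) (hk : k' ≤ k) : DirL2 μ D k' g M := by
  induction k' generalizing k g with
  | zero => exact h.base
  | succ k' ih =>
    obtain ⟨k, rfl⟩ : ∃ m, k = m + 1 := ⟨k - 1, by omega⟩
    refine ⟨h.1, fun a => ?_⟩
    obtain ⟨g', h1, h2⟩ := h.2 a
    exact ⟨g', h1, ih h2 (by omega)⟩

theorem DirL2.congr_ae {k : ℕ} {g g' : X → F} {M : ℝ} (h : DirL2 μ D k g M) (hg : g =ᵐ[μ] g') :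
    DirL2 μ D k g' M := by
  have hb : MemLp g' 2 μ ∧ nsq μ g' ≤ M := ⟨h.base.1.ae_eq hg, (gnsq_congr hg) ▸ h.base.2⟩
  cases k with
  | zero => exact hb
  | succ k =>
    refine ⟨hb, fun a => ?_⟩
    obtain ⟨g1, h1, h2⟩ := h.2 a
    exact ⟨g1, hasWeakDeriv_congr_ae h1 hg (EventuallyEq.refl _ _), h2⟩

theorem DirL2.add {k : ℕ} {g g' : X → F} {M M' : ℝ} (h : DirL2 μ D k g M) (h' : DirL2 μ D k g' M') :
    DirL2 μ D k (fun x => g x + g' x) (2 * M + 2 * M') := by
  induction k generalizing g g' with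
  | zero =>
    exact ⟨h.1.add h'.1, (gnsq_add_le h.1 h'.1).trans (by linarith [h.2, h'.2])⟩
  | succ k ih =>
    refine ⟨⟨h.1.1.add h'.1.1, (gnsq_add_le h.1.1 h'.1.1).trans (by linarith [h.1.2, h'.1.2])⟩, fun a => ?_⟩
    obtain ⟨g1, h1, h2⟩ := DirL2.wd2 h a
    obtain ⟨g1', h1', h2'⟩ := DirL2.wd2 h' a
    exact ⟨fun x => g1 x + g1' x, (h1.wd.add h1'.wd).weak, ih h2 h2'⟩

theorem DirL2.const_smul {k : ℕ} {g : X → F} {M : ℝ} (h : DirL2 μ D k g M) (c : ℝ) :
    DirL2 μ D k (fun x => c • g x) (c ^ 2 * M) := by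
  induction k generalizing g with
  | zero =>
    exact ⟨h.1.const_smul c, by rw [gnsq_smul]; exact mul_le_mul_of_nonneg_left h.2 (sq_nonneg c)⟩
  | succ k ih =>
    refine ⟨⟨h.1.1.const_smul c, by rw [gnsq_smul]; exact mul_le_mul_of_nonneg_left h.1.2 (sq_nonneg c)⟩,
      fun a => ?_⟩
    obtain ⟨g1, h1, h2⟩ := DirL2.wd2 h a
    exact ⟨fun x => c • g1 x, (h1.wd.const_smul c).weak, ih h2⟩

theorem DirL2.sub {k : ℕ} {g g' : X → F} {M M' : ℝ} (h : DirL2 μ D k g M) (h' : DirL2 μ D k g' M') :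
    DirL2 μ D k (fun x => g x - g' x) (2 * M + 2 * M') := by
  have h2 := DirL2.add h (DirL2.const_smul h' (-1))
  simpa [sub_eq_add_neg] using h2

theorem DirL2.sum {k : ℕ} {α : Type*} (s : Finset α) {g : α → X → F} {M : ℝ}
    (h : ∀ i ∈ s, DirL2 μ D k (g i) M) : DirL2 μ D k (fun x => ∑ i ∈ s, g i x) ((s.card : ℝ) ^ 2 * M) := by
  have hb : ∀ g : α → X → F, (∀ i ∈ s, MemLp (g i) 2 μ ∧ nsq μ (g i) ≤ M) →
      MemLp (fun x => ∑ i ∈ s, g i x) 2 μ ∧ nsq μ (fun x => ∑ i ∈ s, g i x) ≤ (s.card : ℝ) ^ 2 * M := by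
    intro g hg
    refine ⟨memLp_finsetSum s fun i hi => (hg i hi).1, (gnsq_sum_le s fun i hi => (hg i hi).1).trans ?_⟩
    have h1 : ∑ i ∈ s, nsq μ (g i) ≤ s.card * M := by
      simpa using Finset.sum_le_card_nsmul s (fun i => nsq μ (g i)) M (fun i hi => (hg i hi).2)
    calc (s.card : ℝ) * ∑ i ∈ s, nsq μ (g i) ≤ s.card * (s.card * M) :=
          mul_le_mul_of_nonneg_left h1 (by positivity)
      _ = _ := by ring
  induction k generalizing g with
  | zero => exact hb g h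
  | succ k ih =>
    refine ⟨hb g fun i hi => (h i hi).1, fun a => ?_⟩
    have := fun i (hi : i ∈ s) => DirL2.wd2 (h i hi) a
    choose! g1 h1 using this
    exact ⟨fun x => ∑ i ∈ s, g1 i x, (WD.sum s fun i hi => (h1 i hi).1.wd).weak, ih fun i hi => (h1 i hi).2⟩

/-- post-composition with a continuous linear map. -/
theorem DirL2.clm {F' : Type*} [NormedAddCommGroup F'] [NormedSpace ℝ F'] [CompleteSpace F'] {k : ℕ} {g : X → F}
    {M : ℝ} (h : DirL2 μ D k g M) (T : F →L[ℝ] F') : DirL2 μ D k (fun x => T (g x)) (‖T‖ ^ 2 * M) := by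
  have hb : ∀ g : X → F, (MemLp g 2 μ ∧ nsq μ g ≤ M) →
      MemLp (fun x => T (g x)) 2 μ ∧ nsq μ (fun x => T (g x)) ≤ ‖T‖ ^ 2 * M := fun g hg =>
    ⟨T.comp_memLp' hg.1, (gnsq_clm_le hg.1 T).trans (mul_le_mul_of_nonneg_left hg.2 (sq_nonneg _))⟩
  induction k generalizing g with
  | zero => exact hb g h
  | succ k ih =>
    refine ⟨hb g h.1, fun a => ?_⟩
    obtain ⟨g1, h1, h2⟩ := DirL2.wd2 h a
    exact ⟨fun x => T (g1 x), (h1.wd.clm T).weak, ih h2⟩

theorem DirL1.base {k : ℕ} {g : X → F} {M : ℝ} (h : DirL1 μ D k g M) : Integrable g μ ∧ ∫ x, ‖g x‖ ∂μ ≤ M := by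
  cases k with
  | zero => exact h
  | succ k => exact h.1

/-- unfolding with `WD`. -/
theorem DirL1.wd {k : ℕ} {g : X → F} {M : ℝ} (h : DirL1 μ D (k + 1) g M) (a : κ) :
    ∃ g' : X → F, WD μ (D a) g g' ∧ DirL1 μ D k g' M := by
  obtain ⟨g', h1, h2⟩ := h.2 a
  exact ⟨g', ⟨h.1.1.locallyIntegrable, h2.base.1.locallyIntegrable, h1⟩, h2⟩

theorem DirL1.mono {k : ℕ} {g : X → F} {M M' : ℝ} (h : DirL1 μ D k g M) (hM : M ≤ M') : DirL1 μ D k g M' := by
  induction k generalizing g with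
  | zero => exact ⟨h.1, h.2.trans hM⟩
  | succ k ih =>
    refine ⟨⟨h.1.1, h.1.2.trans hM⟩, fun a => ?_⟩
    obtain ⟨g', h1, h2⟩ := h.2 a
    exact ⟨g', h1, ih h2⟩

theorem DirL1.of_le {k k' : ℕ} {g : X → F} {M : ℝ} (h : DirL1 μ D k g M) (hk : k' ≤ k) : DirL1 μ D k' g M := by
  induction k' generalizing k g with
  | zero => exact h.base
  | succ k' ih =>
    obtain ⟨k, rfl⟩ : ∃ m, k = m + 1 := ⟨k - 1, by omega⟩
    refine ⟨h.1, fun a => ?_⟩
    obtain ⟨g', h1, h2⟩ := h.2 a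
    exact ⟨g', h1, ih h2 (by omega)⟩

theorem DirL1.congr_ae {k : ℕ} {g g' : X → F} {M : ℝ} (h : DirL1 μ D k g M) (hg : g =ᵐ[μ] g') :
    DirL1 μ D k g' M := by
  have e : ∫ x, ‖g' x‖ ∂μ = ∫ x, ‖g x‖ ∂μ := integral_congr_ae (hg.mono fun x hx => by simp only [hx])
  have hb : Integrable g' μ ∧ ∫ x, ‖g' x‖ ∂μ ≤ M := ⟨h.base.1.congr hg, e ▸ h.base.2⟩
  cases k with
  | zero => exact hb
  | succ k =>
    refine ⟨hb, fun a => ?_⟩
    obtain ⟨g1, h1, h2⟩ := h.2 a
    exact ⟨g1, hasWeakDeriv_congr_ae h1 hg (EventuallyEq.refl _ _), h2⟩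

theorem integral_norm_add_le {g g' : X → F} (h : Integrable g μ) (h' : Integrable g' μ) :
    ∫ x, ‖g x + g' x‖ ∂μ ≤ ∫ x, ‖g x‖ ∂μ + ∫ x, ‖g' x‖ ∂μ := by
  rw [← integral_add h.norm h'.norm]
  exact integral_mono (h.add h').norm (h.norm.add h'.norm) fun x => norm_add_le _ _

theorem DirL1.add {k : ℕ} {g g' : X → F} {M M' : ℝ} (h : DirL1 μ D k g M) (h' : DirL1 μ D k g' M') :
    DirL1 μ D k (fun x => g x + g' x) (M + M') := by
  induction k generalizing g g' with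
  | zero =>
    exact ⟨h.1.add h'.1, (integral_norm_add_le h.1 h'.1).trans (by linarith [h.2, h'.2])⟩
  | succ k ih =>
    refine ⟨⟨h.1.1.add h'.1.1, (integral_norm_add_le h.1.1 h'.1.1).trans (by linarith [h.1.2, h'.1.2])⟩,
      fun a => ?_⟩
    obtain ⟨g1, h1, h2⟩ := DirL1.wd h a
    obtain ⟨g1', h1', h2'⟩ := DirL1.wd h' a
    exact ⟨fun x => g1 x + g1' x, (h1.add h1').weak, ih h2 h2'⟩

theorem DirL1.zero (k : ℕ) : DirL1 μ D k (fun _ => (0 : F)) 0 := by
  induction k with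
  | zero => exact ⟨integrable_zero _ _ _, by simp⟩
  | succ k ih => exact ⟨⟨integrable_zero _ _ _, by simp⟩, fun a => ⟨fun _ => 0, (WD.zero (D a)).weak, ih⟩⟩

theorem DirL1.sum {k : ℕ} {α : Type*} (s : Finset α) {g : α → X → F} {M : α → ℝ}
    (h : ∀ i ∈ s, DirL1 μ D k (g i) (M i)) : DirL1 μ D k (fun x => ∑ i ∈ s, g i x) (∑ i ∈ s, M i) := by
  classical
  induction s using Finset.induction_on with
  | empty => simpa using DirL1.zero (μ := μ) (D := D) (F := F) k
  | insert i s hi ih =>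
    have h1 := DirL1.add (h i (Finset.mem_insert_self i s)) (ih fun j hj => h j (Finset.mem_insert_of_mem hj))
    simpa [Finset.sum_insert hi] using h1

theorem DirL1.clm {F' : Type*} [NormedAddCommGroup F'] [NormedSpace ℝ F'] [CompleteSpace F'] {k : ℕ} {g : X → F}
    {M : ℝ} (h : DirL1 μ D k g M) (T : F →L[ℝ] F') : DirL1 μ D k (fun x => T (g x)) (‖T‖ * M) := by
  have hb : ∀ g : X → F, (Integrable g μ ∧ ∫ x, ‖g x‖ ∂μ ≤ M) →
      Integrable (fun x => T (g x)) μ ∧ ∫ x, ‖T (g x)‖ ∂μ ≤ ‖T‖ * M := by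
    intro g hg
    refine ⟨T.integrable_comp hg.1, ?_⟩
    calc ∫ x, ‖T (g x)‖ ∂μ ≤ ∫ x, ‖T‖ * ‖g x‖ ∂μ :=
          integral_mono (T.integrable_comp hg.1).norm (hg.1.norm.const_mul _) fun x => T.le_opNorm _
      _ = ‖T‖ * ∫ x, ‖g x‖ ∂μ := integral_const_mul _ _
      _ ≤ ‖T‖ * M := mul_le_mul_of_nonneg_left hg.2 (norm_nonneg _)
  induction k generalizing g with
  | zero => exact hb g h
  | succ k ih =>
    refine ⟨hb g h.1, fun a => ?_⟩
    obtain ⟨g1, h1, h2⟩ := DirL1.wd h a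
    exact ⟨fun x => T (g1 x), (h1.clm T).weak, ih h2⟩

/-- Cauchy-Schwarz on a set of finite measure. -/
theorem integrable_of_memLp_of_support {g : X → F} (hm : MemLp g 2 μ) {A : Set X} (hA : MeasurableSet A)
    (hfin : μ A ≠ ⊤) (hg : ∀ x, x ∉ A → g x = 0) :
    Integrable g μ ∧ ∫ x, ‖g x‖ ∂μ ≤ √((μ A).toReal * nsq μ g) := by
  have : IsFiniteMeasure (μ.restrict A) := ⟨by rw [Measure.restrict_apply_univ]; exact lt_top_iff_ne_top.2 hfin⟩
  have hi : IntegrableOn g A μ := (hm.restrict A).integrable (by norm_num)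
  have hI : Integrable g μ := by
    have h1 := (integrable_indicator_iff hA).2 hi
    have e : A.indicator g = g := by
      funext x
      by_cases hx : x ∈ A
      · rw [indicator_of_mem hx]
      · rw [indicator_of_notMem hx, hg x hx]
    rwa [e] at h1
  refine ⟨hI, Real.le_sqrt_of_sq_le ?_⟩
  set I := ∫ x, ‖g x‖ ∂μ with hIdef
  have e1 : ∫ x in A, ‖g x‖ ∂μ = I :=
    setIntegral_eq_integral_of_forall_compl_eq_zero fun x hx => by rw [hg x hx, norm_zero]
  have e2 : ∫ x in A, ‖g x‖ ^ 2 ∂μ = nsq μ g :=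
    setIntegral_eq_integral_of_forall_compl_eq_zero fun x hx => by rw [hg x hx, norm_zero]; simp
  have key : ∀ s : ℝ, 0 ≤ (μ A).toReal * (s * s) + (-2 * I) * s + nsq μ g := by
    intro s
    have h0 : 0 ≤ ∫ x in A, (‖g x‖ - s) ^ 2 ∂μ := integral_nonneg fun x => sq_nonneg _
    have i1 : IntegrableOn (fun x => ‖g x‖ ^ 2) A μ := (g_integrable_norm_sq hm).integrableOn
    have i2 : IntegrableOn (fun x => (-2 * s) * ‖g x‖) A μ := hi.norm.const_mul _
    have i3 : IntegrableOn (fun _ : X => s * s) A μ := integrableOn_const hfin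
    have e3 : ∫ x in A, (‖g x‖ - s) ^ 2 ∂μ = ∫ x in A, (‖g x‖ ^ 2 + (-2 * s) * ‖g x‖ + s * s) ∂μ :=
      integral_congr_ae (Eventually.of_forall fun x => by ring)
    have i12 : IntegrableOn (fun x => ‖g x‖ ^ 2 + (-2 * s) * ‖g x‖) A μ := i1.add i2
    rw [e3, integral_add i12 i3, integral_add i1 i2, integral_const_mul, e1, e2, setIntegral_const] at h0
    simp only [smul_eq_mul, Measure.real] at h0
    linarith
  have := discrim_le_zero key
  unfold discrim at this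
  nlinarith

/-- a function which vanishes outside a set `A` of finite measure: `L²` control gives `L¹` control.  (All iterated weak
derivatives vanish a.e. outside `closure A`; to avoid boundary issues `A` is closed.) -/
theorem DirL2.dirL1 {k : ℕ} {g : X → F} {M : ℝ} (h : DirL2 μ D k g M) {A : Set X} (hA : IsClosed A)
    (hfin : μ A ≠ ⊤) (hg : ∀ x, x ∉ A → g x = 0) : DirL1 μ D k g (√((μ A).toReal * M)) := by
  have hb : ∀ g : X → F, (MemLp g 2 μ ∧ nsq μ g ≤ M) → (∀ x, x ∉ A → g x = 0) →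
      Integrable g μ ∧ ∫ x, ‖g x‖ ∂μ ≤ √((μ A).toReal * M) := by
    intro g hm hg
    obtain ⟨h1, h2⟩ := integrable_of_memLp_of_support hm.1 hA.measurableSet hfin hg
    exact ⟨h1, h2.trans (Real.sqrt_le_sqrt (mul_le_mul_of_nonneg_left hm.2 ENNReal.toReal_nonneg))⟩
  induction k generalizing g with
  | zero => exact hb g h hg
  | succ k ih =>
    refine ⟨hb g h.1 hg, fun a => ?_⟩
    obtain ⟨g1, h1, h2⟩ := DirL2.wd2 h a
    -- `g1` vanishes a.e. outside `A`
    have hz : ∀ᵐ x ∂μ, x ∈ Aᶜ → g1 x = 0 := by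
      refine hA.isOpen_compl.ae_eq_zero_of_integral_contDiff_smul_eq_zero
        (h1.wd.locg.locallyIntegrableOn _) fun φ hφ hc hs => ?_
      have e1 := h1.weak φ hφ hc
      have e2 : ∫ x, fderiv ℝ φ x (D a) • g x ∂μ = 0 := by
        refine integral_eq_zero_of_ae (Eventually.of_forall fun x => ?_)
        by_cases hx : x ∈ A
        · have : x ∉ tsupport φ := fun hx' => hs hx' hx
          have h3 : fderiv ℝ φ x = 0 :=
            image_eq_zero_of_notMem_tsupport fun h => this (tsupport_fderiv_subset ℝ h)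
          simp [h3]
        · simp [hg x hx]
      rw [e2] at e1
      exact neg_eq_zero.1 e1.symm
    have hae : g1 =ᵐ[μ] A.indicator g1 := by
      filter_upwards [hz] with x hx
      by_cases hxA : x ∈ A
      · rw [indicator_of_mem hxA]
      · rw [indicator_of_notMem hxA, hx hxA]
    exact ⟨A.indicator g1, hasWeakDeriv_congr_ae h1.weak (EventuallyEq.refl _ _) hae,
      ih (DirL2.congr_ae h2 hae) fun x hx => indicator_of_notMem hx _⟩

theorem DirH1.mono {k : ℕ} {f : X → E} {G : ι → X → E} {M M' : ℝ} (h : DirH1 μ v D k f G M) (hM : M ≤ M') :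
    DirH1 μ v D k f G M' :=
  ⟨h.1, DirL2.mono h.2.1 hM, fun j => DirL2.mono (h.2.2 j) hM⟩

theorem DirH1.of_le {k k' : ℕ} {f : X → E} {G : ι → X → E} {M : ℝ} (h : DirH1 μ v D k f G M) (hk : k' ≤ k) :
    DirH1 μ v D k' f G M :=
  ⟨h.1, DirL2.of_le h.2.1 hk, fun j => DirL2.of_le (h.2.2 j) hk⟩

theorem dirH1_zero_iff {f : X → E} {G : ι → X → E} {M : ℝ} :
    DirH1 μ v D 0 f G M ↔ H1 μ v f G ∧ nsq μ f ≤ M ∧ ∀ j, nsq μ (G j) ≤ M :=
  ⟨fun h => ⟨h.1, h.2.1.2, fun j => (h.2.2 j).2⟩,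
    fun h => ⟨h.1, ⟨h.1.mem, h.2.1⟩, fun j => ⟨(h.1.wd j).memg, h.2.2 j⟩⟩⟩

/-- unfolding one derivative: the derivative of a `DirH1 (k+1)` pair along `D a` is a `DirH1 k` pair (`WD.comm`). -/
theorem DirH1.succ {k : ℕ} {f : X → E} {G : ι → X → E} {M : ℝ} (h : DirH1 μ v D (k + 1) f G M) (a : κ) :
    ∃ (f' : X → E) (G' : ι → X → E), WD2 μ (D a) f f' ∧ (∀ j, WD2 μ (D a) (G j) (G' j)) ∧
      DirH1 μ v D k f' G' M := by
  obtain ⟨f', h1, h2⟩ := DirL2.wd2 h.2.1 a
  have := fun j => DirL2.wd2 (h.2.2 j) a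
  choose G' h3 h4 using this
  exact ⟨f', G', h1, h3, ⟨h1.memg, fun j => ⟨h1.memg, (h3 j).memg,
    (WD.comm (h.1.wd j).wd h1.wd (h3 j).wd).weak⟩⟩, h2, h4⟩

/-- folding. -/
theorem DirH1.of_succ {k : ℕ} {f : X → E} {G : ι → X → E} {M : ℝ} (h0 : H1 μ v f G) (hM : h1sq μ f G ≤ M)
    (h : ∀ a, ∃ (f' : X → E) (G' : ι → X → E), WD2 μ (D a) f f' ∧ (∀ j, WD2 μ (D a) (G j) (G' j)) ∧
      DirH1 μ v D k f' G' M) : DirH1 μ v D (k + 1) f G M := by
  refine ⟨h0, ⟨⟨h0.mem, (nsq_le_h1sq f G).trans hM⟩, fun a => ?_⟩,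
    fun j => ⟨⟨(h0.wd j).memg, (nsq_grad_le_h1sq f G j).trans hM⟩, fun a => ?_⟩⟩
  · obtain ⟨f', G', h1, _, h3⟩ := h a
    exact ⟨f', h1.weak, h3.2.1⟩
  · obtain ⟨f', G', _, h2, h3⟩ := h a
    exact ⟨G' j, (h2 j).weak, h3.2.2 j⟩

theorem DirH1.add {k : ℕ} {f f' : X → E} {G G' : ι → X → E} {M M' : ℝ} (h : DirH1 μ v D k f G M)
    (h' : DirH1 μ v D k f' G' M') :
    DirH1 μ v D k (fun x => f x + f' x) (fun j x => G j x + G' j x) (2 * M + 2 * M') :=
  ⟨h.1.add h'.1, DirL2.add h.2.1 h'.2.1, fun j => DirL2.add (h.2.2 j) (h'.2.2 j)⟩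

theorem DirH1.sub {k : ℕ} {f f' : X → E} {G G' : ι → X → E} {M M' : ℝ} (h : DirH1 μ v D k f G M)
    (h' : DirH1 μ v D k f' G' M') :
    DirH1 μ v D k (fun x => f x - f' x) (fun j x => G j x - G' j x) (2 * M + 2 * M') :=
  ⟨h.1.sub h'.1, DirL2.sub h.2.1 h'.2.1, fun j => DirL2.sub (h.2.2 j) (h'.2.2 j)⟩

end I3

/-! ## LEAF AG-I4: iteration, and multiplication by an invariant singular potential -/

section I4

/-- **Iteration of `inv_step`.**  Induction on `k`: for `k = 0` this is `inv_step`; for `k + 1` apply the induction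
hypothesis to `(linD (c a) G, G')` with source `g'` (the `D a`-derivative of `g`), then `DirH1.of_succ`. -/
theorem inv_iter (k : ℕ) (b Emax cmax : ℝ) :
    ∃ C : ℝ, 0 ≤ C ∧ ∀ (V : X → ℝ) (En : ℝ) (c : κ → ι → ℝ) (f g : X → E) (G : ι → X → E) (Mg : ℝ),
      |En| ≤ Emax → (∀ a j, |c a j| ≤ cmax) → FormBdd E μ v V (1 / 4) b →
      (∀ (a : κ) (x : X) (s : ℝ), V (x + s • lin v (c a)) = V x) → H1 μ v f G → IsWeakSol μ v V En f G g →
      DirL2 μ (fun a => lin v (c a)) k g Mg →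
      DirH1 μ v (fun a => lin v (c a)) (k + 1) f G (C * (h1sq μ f G + Mg)) := by
  obtain ⟨C1, hC1, hstep⟩ := inv_step (μ := μ) (E := E) (v := v) b Emax cmax
  induction k with
  | zero =>
    refine ⟨1 + C1, by positivity, ?_⟩
    intro V En c f g G Mg hEn hc hV hinv hf hs hg
    have hMg : 0 ≤ Mg := (nsq_nonneg g).trans hg.2
    have hh := h1sq_nonneg (μ := μ) f G
    refine DirH1.of_succ hf ?_ fun a => ?_
    · nlinarith
    · obtain ⟨G', h1, h2, h3, _⟩ := hstep V En (c a) f g G hEn (hc a) hV (hinv a) hf hg.1 hs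
      have h4 : h1sq μ (linD (c a) G) G' ≤ (1 + C1) * (h1sq μ f G + Mg) := by
        have : C1 * (h1sq μ f G + nsq μ g) ≤ C1 * (h1sq μ f G + Mg) :=
          mul_le_mul_of_nonneg_left (by linarith [hg.2]) hC1
        nlinarith
      exact ⟨linD (c a) G, G', H1.wd2_lin hf (c a), h2,
        dirH1_zero_iff.2 ⟨h1, (nsq_le_h1sq _ _).trans h4, fun j => (nsq_grad_le_h1sq _ _ j).trans h4⟩⟩
  | succ k ih =>
    obtain ⟨Ck, hCk, hk⟩ := ih
    refine ⟨1 + Ck * (C1 + 1), by positivity, ?_⟩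
    intro V En c f g G Mg hEn hc hV hinv hf hs hg
    have hMg : 0 ≤ Mg := (nsq_nonneg g).trans hg.1.2
    have hh := h1sq_nonneg (μ := μ) f G
    refine DirH1.of_succ hf ?_ fun a => ?_
    · have : 0 ≤ Ck * (C1 + 1) * (h1sq μ f G + Mg) := by positivity
      nlinarith
    · obtain ⟨g', hg1, hg2⟩ := DirL2.wd2 hg a
      obtain ⟨G', h1, h2, h3, h4⟩ := hstep V En (c a) f g G hEn (hc a) hV (hinv a) hf hg.1.1 hs
      have h5 := hk V En c (linD (c a) G) g' G' Mg hEn hc hV hinv h1 (h4 g' hg1) hg2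
      refine ⟨linD (c a) G, G', H1.wd2_lin hf (c a), h2, DirH1.mono h5 ?_⟩
      have h6 : C1 * (h1sq μ f G + nsq μ g) ≤ C1 * (h1sq μ f G + Mg) :=
        mul_le_mul_of_nonneg_left (by linarith [hg.1.2]) hC1
      have h7 : h1sq μ (linD (c a) G) G' + Mg ≤ (C1 + 1) * (h1sq μ f G + Mg) := by nlinarith
      have h8 := mul_le_mul_of_nonneg_left h7 hCk
      nlinarith

/-- Cauchy-Schwarz for real functions. -/
theorem integral_mul_sq_le {p q : X → ℝ} (hp : MemLp p 2 μ) (hq : MemLp q 2 μ) :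
    Integrable (fun x => p x * q x) μ ∧ (∫ x, p x * q x ∂μ) ^ 2 ≤ nsq μ p * nsq μ q := by
  have hi : Integrable (fun x => p x * q x) μ := hp.integrable_mul hq
  refine ⟨hi, ?_⟩
  have ip : Integrable (fun x => p x ^ 2) μ := by simpa using g_integrable_norm_sq hp
  have iq : Integrable (fun x => q x ^ 2) μ := by simpa using g_integrable_norm_sq hq
  have ep : nsq μ p = ∫ x, p x ^ 2 ∂μ := by simp [nsq]
  have eq' : nsq μ q = ∫ x, q x ^ 2 ∂μ := by simp [nsq]
  have key : ∀ s : ℝ, 0 ≤ nsq μ p * (s * s) + (2 * ∫ x, p x * q x ∂μ) * s + nsq μ q := by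
    intro s
    have h0 : 0 ≤ ∫ x, (s * p x + q x) ^ 2 ∂μ := integral_nonneg fun x => sq_nonneg _
    have i1 : Integrable (fun x => (s * s) * p x ^ 2) μ := ip.const_mul _
    have i2 : Integrable (fun x => (2 * s) * (p x * q x)) μ := hi.const_mul _
    have i12 : Integrable (fun x => (s * s) * p x ^ 2 + (2 * s) * (p x * q x)) μ := i1.add i2
    have e3 : ∫ x, (s * p x + q x) ^ 2 ∂μ = ∫ x, ((s * s) * p x ^ 2 + (2 * s) * (p x * q x) + q x ^ 2) ∂μ :=
      integral_congr_ae (Eventually.of_forall fun x => by ring)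
    rw [e3, integral_add i12 iq, integral_add i1 i2, integral_const_mul, integral_const_mul, ← ep, ← eq'] at h0
    linarith
  have := discrim_le_zero key
  unfold discrim at this
  nlinarith

/-- Cauchy-Schwarz for a scalar times a vector function. -/
theorem norm_integral_smul_le {F : Type*} [NormedAddCommGroup F] [NormedSpace ℝ F] {p : X → ℝ} {w : X → F}
    (hp : MemLp p 2 μ) (hw : MemLp w 2 μ) :
    Integrable (fun x => p x • w x) μ ∧ ‖∫ x, p x • w x ∂μ‖ ^ 2 ≤ nsq μ p * nsq μ w := by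
  obtain ⟨h1, h2⟩ := integral_mul_sq_le hp.norm hw.norm
  have hi : Integrable (fun x => p x • w x) μ := by
    have hm : AEStronglyMeasurable (fun x => p x • w x) μ := hp.1.smul hw.1
    refine (integrable_norm_iff hm).1 ?_
    simpa only [norm_smul] using h1
  refine ⟨hi, ?_⟩
  have h3 : ‖∫ x, p x • w x ∂μ‖ ≤ ∫ x, ‖p x‖ * ‖w x‖ ∂μ := by
    refine (norm_integral_le_integral_norm _).trans (le_of_eq ?_)
    simp only [norm_smul]
  have e1 : nsq μ (fun x => ‖p x‖) = nsq μ p := by simp [nsq]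
  have e2 : nsq μ (fun x => ‖w x‖) = nsq μ w := by simp [nsq]
  rw [e1, e2] at h2
  exact (pow_le_pow_left₀ (norm_nonneg _) h3 2).trans h2

theorem tendsto_integral_smul_left {F : Type*} [NormedAddCommGroup F] [NormedSpace ℝ F] {α : Type*} {l : Filter α}
    {pn : α → X → ℝ} {p : X → ℝ} {w : X → F} (hpn : ∀ n, MemLp (pn n) 2 μ) (hp : MemLp p 2 μ) (hw : MemLp w 2 μ)
    (ht : Tendsto (fun n => nsq μ (fun x => pn n x - p x)) l (𝓝 0)) :
    Tendsto (fun n => ∫ x, pn n x • w x ∂μ) l (𝓝 (∫ x, p x • w x ∂μ)) := by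
  rw [tendsto_iff_norm_sub_tendsto_zero]
  have hb : ∀ n, ‖∫ x, pn n x • w x ∂μ - ∫ x, p x • w x ∂μ‖ ≤ √(nsq μ (fun x => pn n x - p x) * nsq μ w) := by
    intro n
    rw [← integral_sub (norm_integral_smul_le (hpn n) hw).1 (norm_integral_smul_le hp hw).1]
    simp only [← sub_smul]
    exact Real.le_sqrt_of_sq_le (norm_integral_smul_le ((hpn n).sub hp) hw).2
  have hl : Tendsto (fun n => √(nsq μ (fun x => pn n x - p x) * nsq μ w)) l (𝓝 0) := by
    simpa using (ht.mul_const (nsq μ w)).sqrt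
  exact squeeze_zero (fun n => norm_nonneg _) hb hl

theorem tendsto_integral_smul_right {F : Type*} [NormedAddCommGroup F] [NormedSpace ℝ F] {α : Type*} {l : Filter α}
    {wn : α → X → F} {p : X → ℝ} {w : X → F} (hwn : ∀ n, MemLp (wn n) 2 μ) (hp : MemLp p 2 μ) (hw : MemLp w 2 μ)
    (ht : Tendsto (fun n => nsq μ (fun x => wn n x - w x)) l (𝓝 0)) :
    Tendsto (fun n => ∫ x, p x • wn n x ∂μ) l (𝓝 (∫ x, p x • w x ∂μ)) := by
  rw [tendsto_iff_norm_sub_tendsto_zero]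
  have hb : ∀ n, ‖∫ x, p x • wn n x ∂μ - ∫ x, p x • w x ∂μ‖ ≤ √(nsq μ p * nsq μ (fun x => wn n x - w x)) := by
    intro n
    rw [← integral_sub (norm_integral_smul_le hp (hwn n)).1 (norm_integral_smul_le hp hw).1]
    simp only [← smul_sub]
    exact Real.le_sqrt_of_sq_le (norm_integral_smul_le hp ((hwn n).sub hw)).2
  have hl : Tendsto (fun n => √(nsq μ p * nsq μ (fun x => wn n x - w x))) l (𝓝 0) := by
    simpa using (ht.const_mul (nsq μ p)).sqrt
  exact squeeze_zero (fun n => norm_nonneg _) hb hl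

theorem tendsto_neg_punctured : Tendsto (fun t : ℝ => -t) (𝓝[≠] 0) (𝓝[≠] 0) := by
  refine tendsto_nhdsWithin_of_tendsto_nhds_of_eventually_within _ ?_ ?_
  · have := (continuous_neg.tendsto (0 : ℝ)).mono_left (nhdsWithin_le_nhds (s := {0}ᶜ))
    simpa using this
  · filter_upwards [self_mem_nhdsWithin] with t ht
    simpa using ht

/-- a test function times an `L²_loc` function is in `L²`. -/
theorem memLp_mul_of_l2loc {V₁ : X → ℝ} (hloc : ∀ K : Set X, IsCompact K → MemLp V₁ 2 (μ.restrict K))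
    {φ : X → ℝ} (hφ : Continuous φ) (hc : HasCompactSupport φ) : MemLp (fun x => φ x * V₁ x) 2 μ := by
  obtain ⟨B, hB⟩ := hc.exists_bound_of_continuous hφ
  have h1 : MemLp (fun x => φ x * V₁ x) 2 (μ.restrict (tsupport φ)) :=
    (hloc _ hc.isCompact).of_le_mul (c := B) (hφ.aestronglyMeasurable.mul (hloc _ hc.isCompact).1)
      (Eventually.of_forall fun x => by
        rw [norm_mul]; exact mul_le_mul_of_nonneg_right (hB x) (norm_nonneg _))
  have h2 := (memLp_indicator_iff_restrict (isClosed_tsupport φ).measurableSet).2 h1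
  have e : (tsupport φ).indicator (fun x => φ x * V₁ x) = fun x => φ x * V₁ x := by
    funext x
    by_cases hx : x ∈ tsupport φ
    · rw [indicator_of_mem hx]
    · rw [indicator_of_notMem hx, image_eq_zero_of_notMem_tsupport hx, zero_mul]
  rwa [e] at h2

/-- weak derivative of `V₁ f` along `d` when `V₁` is invariant along `d` (no smoothness of `V₁`).
Proof: for a test function `φ`, `∫ (dq d (-t) φ) V₁ f = - ∫ φ V₁ (dq d t f)` (change of variables + invariance); let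
`t → 0`: left side by dominated convergence (`V₁ f ∈ L² ⊆ L¹_loc`), right side because `φ V₁ ∈ L²` and `tendsto_dq`. -/
theorem wd2_invariant_mul {d : X} {V₁ : X → ℝ} (hinv : ∀ (x : X) (s : ℝ), V₁ (x + s • d) = V₁ x)
    (hloc : ∀ K : Set X, IsCompact K → MemLp V₁ 2 (μ.restrict K)) {f f' : X → E} (h : WD2 μ d f f')
    (h1 : MemLp (fun x => V₁ x • f x) 2 μ) (h2 : MemLp (fun x => V₁ x • f' x) 2 μ) :
    WD2 μ d (fun x => V₁ x • f x) (fun x => V₁ x • f' x) := by
  refine ⟨h1, h2, fun φ hφ hc => ?_⟩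
  have hφ1 : ContDiff ℝ 1 φ := hφ.of_le (by exact_mod_cast le_top)
  have mφ : MemLp φ 2 μ := hφ.continuous.memLp_of_hasCompactSupport hc
  have mφV := memLp_mul_of_l2loc hloc hφ.continuous hc
  have mdφ : MemLp (fun x => fderiv ℝ φ x d) 2 μ :=
    ((hφ1.continuous_fderiv (by norm_num)).clm_apply continuous_const).memLp_of_hasCompactSupport
      (hc.fderiv_apply (𝕜 := ℝ) d)
  have mtr : ∀ a : X, MemLp (fun x => φ (x + a)) 2 μ := fun a =>
    mφ.comp_measurePreserving (measurePreserving_add_right μ a)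
  have mdq : ∀ t : ℝ, MemLp (dq d t φ) 2 μ := fun t => ((mtr (t • d)).sub mφ).const_smul t⁻¹
  -- the discrete identity
  have hid : ∀ t : ℝ, ∫ x, dq d (-t) φ x • (V₁ x • f x) ∂μ = - ∫ x, (φ x * V₁ x) • dq d t f x ∂μ := by
    intro t
    have a1 : ∫ x, φ (x + (-t) • d) • (V₁ x • f x) ∂μ = ∫ x, (φ x * V₁ x) • f (x + t • d) ∂μ := by
      rw [← integral_add_right_eq_self (fun x => φ (x + (-t) • d) • (V₁ x • f x)) (t • d)]
      refine integral_congr_ae (Eventually.of_forall fun x => ?_)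
      simp only [neg_smul, add_neg_cancel_right, hinv, smul_smul]
    have i1 := (norm_integral_smul_le (mtr ((-t) • d)) h1).1
    have i2 := (norm_integral_smul_le mφ h1).1
    have i3 := (norm_integral_smul_le mφV (memLp_translate h.memf (t • d))).1
    have i4 := (norm_integral_smul_le mφV h.memf).1
    have a2 : ∫ x, φ x • (V₁ x • f x) ∂μ = ∫ x, (φ x * V₁ x) • f x ∂μ := by simp only [smul_smul]
    have e1 : ∫ x, dq d (-t) φ x • (V₁ x • f x) ∂μ
        = (-t)⁻¹ • (∫ x, φ (x + (-t) • d) • (V₁ x • f x) ∂μ - ∫ x, φ x • (V₁ x • f x) ∂μ) := by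
      rw [← integral_sub i1 i2, ← integral_smul]
      refine integral_congr_ae (Eventually.of_forall fun x => ?_)
      simp only [dq, smul_eq_mul, sub_smul, mul_smul, smul_sub]
    have e2 : ∫ x, (φ x * V₁ x) • dq d t f x ∂μ
        = t⁻¹ • (∫ x, (φ x * V₁ x) • f (x + t • d) ∂μ - ∫ x, (φ x * V₁ x) • f x ∂μ) := by
      rw [← integral_sub i3 i4, ← integral_smul]
      refine integral_congr_ae (Eventually.of_forall fun x => ?_)
      simp only [dq, smul_sub]
      rw [smul_comm, smul_comm (φ x * V₁ x) t⁻¹ (f x)]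
    rw [e1, e2, a1, a2, inv_neg, neg_smul]
  have l1 : Tendsto (fun t : ℝ => ∫ x, dq d (-t) φ x • (V₁ x • f x) ∂μ) (𝓝[≠] 0)
      (𝓝 (∫ x, fderiv ℝ φ x d • (V₁ x • f x) ∂μ)) :=
    tendsto_integral_smul_left (fun t => mdq (-t)) mdφ h1
      ((tendsto_dq_contDiff (μ := μ) hφ1 hc d).comp tendsto_neg_punctured)
  have l2 : Tendsto (fun t : ℝ => ∫ x, (φ x * V₁ x) • dq d t f x ∂μ) (𝓝[≠] 0)
      (𝓝 (∫ x, (φ x * V₁ x) • f' x ∂μ)) :=
    tendsto_integral_smul_right (fun t => dq_memLp h.memf d t) mφV h.memg (tendsto_dq h)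
  have l3 := tendsto_nhds_unique l1 (l2.neg.congr fun t => (hid t).symm)
  rw [l3]
  simp only [smul_smul]

/-- `V₁² ≤` kinetic energy (Hardy) and `V₁` invariant: multiplication by `V₁` maps `DirH1 k` to `DirL2 k`. -/
theorem DirH1.invariant_mul {D : κ → X} {V₁ : X → ℝ} {a b : ℝ} (ha : 0 ≤ a) (hb : 0 ≤ b)
    (hV : FormBdd E μ v (fun x => V₁ x ^ 2) a b)
    (hinv : ∀ (a : κ) (x : X) (s : ℝ), V₁ (x + s • D a) = V₁ x) (hloc : ∀ K : Set X, IsCompact K → MemLp V₁ 2 (μ.restrict K))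
    {k : ℕ} {f : X → E} {G : ι → X → E} {M : ℝ} (h : DirH1 μ v D k f G M) :
    DirL2 μ D k (fun x => V₁ x • f x) ((a * Fintype.card ι + b) * M) := by
  have hmeas : AEStronglyMeasurable V₁ μ :=
    (L2Loc.locallyIntegrable (μ := μ) (f := V₁) hloc).aestronglyMeasurable
  have hbase : ∀ (f : X → E) (G : ι → X → E), H1 μ v f G → nsq μ f ≤ M → (∀ j, nsq μ (G j) ≤ M) →
      MemLp (fun x => V₁ x • f x) 2 μ ∧ nsq μ (fun x => V₁ x • f x) ≤ (a * Fintype.card ι + b) * M := by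
    intro f G hf h0 h1
    obtain ⟨m1, n1⟩ := memLp_sqrt_smul hV hf V₁ hmeas (fun x => (abs_of_nonneg (sq_nonneg _)).symm)
    refine ⟨m1, ?_⟩
    rw [n1]
    refine (hV.le f G hf).trans ?_
    have h3 : ∑ j, nsq μ (G j) ≤ Fintype.card ι * M := by
      simpa using Finset.sum_le_card_nsmul Finset.univ (fun j => nsq μ (G j)) M (fun j _ => h1 j)
    have h4 := mul_le_mul_of_nonneg_left h3 ha
    have h5 := mul_le_mul_of_nonneg_left h0 hb
    linarith
  induction k generalizing f G with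
  | zero =>
    obtain ⟨h0, h1, h2⟩ := dirH1_zero_iff.1 h
    exact hbase f G h0 h1 h2
  | succ k ih =>
    have hb0 := hbase f G h.1 h.2.1.base.2 (fun j => (h.2.2 j).base.2)
    refine ⟨hb0, fun a' => ?_⟩
    obtain ⟨f', G', w1, _, w3⟩ := DirH1.succ h a'
    have h4 := ih w3
    exact ⟨fun x => V₁ x • f' x, (wd2_invariant_mul (hinv a') hloc w1 hb0.1 h4.base.1).weak, h4⟩

end I4

end Claimed.Open.R278.AG
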