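import Claimed.Open.R278.AGAgmon
import Claimed.Open.R278.AGInv

/-!
# Result 278, layer AG, file 4: multiplier classes and the main regularity theorem (abstract)

`AG.Adm U w k K η`: `η` is a smooth multiplier with `tsupport η ⊆ U`, bounded derivatives up to order `k`, and
`‖D^i η‖ ≤ K w` for `i ≤ k`.  The weight `w` (for us `e^{τ ϱ}` or `1`) is the one for which the solution satisfies
`WBound μ w f G M`.  The class is stable under `dd u` (order drops by one) and under multiplication by a globally smooth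
function with bounded derivatives.  NO NESTED CUTOFFS: the induction is over ALL multipliers of the class.

**Main regularity theorem** `reg_main`.  `(H_V - En) f = g` in `U`, `V = Vi + Vc` on `U`, `Vi` exactly invariant under the
translations along `D a = lin v (c a)`, `Vc` globally smooth with bounded derivatives.  Then for all `η` in the class of
order `2k+1`: `η f` is `DirH1 .. k` with constant `C K² (M + Mg)`.

PROOF by induction on `k` (statement for all `η`, `K`).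
`k = 0`: `Adm.base`.
`k → k+1`: let `η` be admissible of order `2k+3`.  By `IsWeakSolOn.localise`, `η f` solves GLOBALLY
  `(H_{Vi} - En)(η f) = r`,  `r = η g - (Vc η) f - ½ ∑_j (∂_j² η) f - ∑_j (∂_j η) G_j`.
`r` is `DirL2 .. k`: `η g` by the hypothesis on the source (level `k' = k < k+1`; `Adm.of_le`); `(Vc η) f` by the induction
hypothesis for the multiplier `Vc η` (`Adm.mul_smooth`); `(∂_j² η) f` by the induction hypothesis for `dd (v j) (dd (v j) η)`
(`Adm.dd` twice: order `2k+1`); `(∂_j η) G_j = mulGrad v (∂_j η) f G j - (∂_j² η) f`, where the first term is the `j`-th gradient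
component of `(∂_j η) f`, controlled by the induction hypothesis for `dd (v j) η`.  Then `inv_iter k`.
-/

open MeasureTheory Filter Topology Set
open scoped ContDiff InnerProductSpace

noncomputable section

set_option linter.unusedSectionVars false

namespace Claimed.Open.R278.AG

variable {X : Type*} [NormedAddCommGroup X] [NormedSpace ℝ X] [FiniteDimensional ℝ X]
  [MeasurableSpace X] [BorelSpace X] {μ : Measure X} [μ.IsAddHaarMeasure]
  {E : Type*} [NormedAddCommGroup E] [InnerProductSpace ℂ E] [CompleteSpace E]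
  {ι : Type*} [Fintype ι] {v : ι → X} {κ : Type*}

/-- the multiplier class. -/
structure Adm (U : Set X) (w : X → ℝ) (k : ℕ) (K : ℝ) (η : X → ℝ) : Prop where
  smooth : ContDiff ℝ ∞ η
  supp : tsupport η ⊆ U
  bdd : ∃ B : ℝ, ∀ i ≤ k, ∀ x, ‖iteratedFDeriv ℝ i η x‖ ≤ B
  le : ∀ i ≤ k, ∀ x, ‖iteratedFDeriv ℝ i η x‖ ≤ K * w x

/-! ## LEAF AG-R1: calculus of multipliers -/

section R1

theorem Adm.of_le {U : Set X} {w : X → ℝ} {k k' : ℕ} {K : ℝ} {η : X → ℝ} (h : Adm U w k K η) (hk : k' ≤ k) :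
    Adm U w k' K η :=
  ⟨h.smooth, h.supp, h.bdd.imp fun _ hB i hi => hB i (hi.trans hk), fun i hi => h.le i (hi.trans hk)⟩

theorem Adm.mono {U U' : Set X} {w : X → ℝ} {k : ℕ} {K K' : ℝ} {η : X → ℝ} (h : Adm U w k K η) (hU : U ⊆ U')
    (hw : ∀ x, 0 ≤ w x) (hK : K ≤ K') : Adm U' w k K' η :=
  ⟨h.smooth, h.supp.trans hU, h.bdd,
    fun i hi x => (h.le i hi x).trans (mul_le_mul_of_nonneg_right hK (hw x))⟩

theorem norm_iteratedFDeriv_dd_le {η : X → ℝ} (hη : ContDiff ℝ ∞ η) (u : X) (i : ℕ) (x : X) :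
    ‖iteratedFDeriv ℝ i (AG.dd u η) x‖ ≤ ‖iteratedFDeriv ℝ (i + 1) η x‖ * ‖u‖ := by
  have h1 : ContDiff ℝ ∞ (fderiv ℝ η) := hη.fderiv_right (m := ∞) (by simp)
  have h2 := (ContinuousLinearMap.apply ℝ ℝ u).norm_iteratedFDeriv_comp_left (f := fderiv ℝ η) (x := x)
    h1.contDiffAt (n := i) (by exact_mod_cast le_top)
  have h3 : ‖ContinuousLinearMap.apply ℝ ℝ u‖ ≤ ‖u‖ :=
    ContinuousLinearMap.opNorm_le_bound _ (norm_nonneg u) fun L => by
      simpa [mul_comm] using L.le_opNorm u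
  have e : (ContinuousLinearMap.apply ℝ ℝ u) ∘ (fderiv ℝ η) = AG.dd u η := by
    funext y; simp [AG.dd]
  rw [e, norm_iteratedFDeriv_fderiv] at h2
  calc _ ≤ ‖ContinuousLinearMap.apply ℝ ℝ u‖ * ‖iteratedFDeriv ℝ (i + 1) η x‖ := h2
    _ ≤ ‖u‖ * ‖iteratedFDeriv ℝ (i + 1) η x‖ := mul_le_mul_of_nonneg_right h3 (norm_nonneg _)
    _ = _ := mul_comm _ _

/-- derivative of a multiplier (`norm_iteratedFDeriv_fderiv`, `tsupport_fderiv_subset`; `dd u η = (fderiv ℝ η ·) u` is the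
composition of `fderiv ℝ η` with the continuous linear evaluation at `u`, of norm `≤ ‖u‖`). -/
theorem Adm.dd {U : Set X} {w : X → ℝ} {k : ℕ} {K : ℝ} {η : X → ℝ} (h : Adm U w (k + 1) K η) (u : X) :
    Adm U w k (K * ‖u‖) (dd u η) := by
  obtain ⟨B, hB⟩ := h.bdd
  refine ⟨contDiff_dd h.smooth u, (tsupport_fderiv_apply_subset ℝ u).trans h.supp, ⟨B * ‖u‖, fun i hi x => ?_⟩,
    fun i hi x => ?_⟩
  · exact (norm_iteratedFDeriv_dd_le h.smooth u i x).trans
      (mul_le_mul_of_nonneg_right (hB (i + 1) (by omega) x) (norm_nonneg _))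
  · refine (norm_iteratedFDeriv_dd_le h.smooth u i x).trans ?_
    calc _ ≤ K * w x * ‖u‖ := mul_le_mul_of_nonneg_right (h.le (i + 1) (by omega) x) (norm_nonneg _)
      _ = _ := by ring

theorem norm_iteratedFDeriv_mul_le_two_pow {f g : X → ℝ} (hf : ContDiff ℝ ∞ f) (hg : ContDiff ℝ ∞ g) {n : ℕ}
    {a b : ℝ} (x : X) (ha : ∀ i ≤ n, ‖iteratedFDeriv ℝ i f x‖ ≤ a) (hb : ∀ i ≤ n, ‖iteratedFDeriv ℝ i g x‖ ≤ b) :
    ‖iteratedFDeriv ℝ n (fun y => f y * g y) x‖ ≤ 2 ^ n * a * b := by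
  have ha0 : 0 ≤ a := (norm_nonneg _).trans (ha 0 (Nat.zero_le _))
  have h1 := norm_iteratedFDeriv_mul_le hf hg x (n := n) (by exact_mod_cast le_top)
  refine h1.trans ?_
  have h2 : ∀ i ∈ Finset.range (n + 1), (n.choose i : ℝ) * ‖iteratedFDeriv ℝ i f x‖ * ‖iteratedFDeriv ℝ (n - i) g x‖
      ≤ (n.choose i : ℝ) * (a * b) := by
    intro i hi
    rw [mul_assoc]
    refine mul_le_mul_of_nonneg_left ?_ (by positivity)
    exact mul_le_mul (ha i (by have := Finset.mem_range.1 hi; omega)) (hb (n - i) (by omega)) (norm_nonneg _) ha0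
  refine (Finset.sum_le_sum h2).trans (le_of_eq ?_)
  rw [← Finset.sum_mul, ← Nat.cast_sum, Nat.sum_range_choose]
  push_cast
  ring

theorem two_pow_mul_le {i k : ℕ} (hi : i ≤ k) {c : ℝ} (hc : 0 ≤ c) : (2 : ℝ) ^ i * c ≤ 2 ^ k * c :=
  mul_le_mul_of_nonneg_right (pow_le_pow_right₀ (by norm_num) hi) hc

/-- multiplication by a smooth function with bounded derivatives (`norm_iteratedFDeriv_mul_le`, `∑ choose = 2^i`). -/
theorem Adm.mul_smooth {U : Set X} {w : X → ℝ} {k : ℕ} {K CV : ℝ} {η Vc : X → ℝ} (h : Adm U w k K η)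
    (hw : ∀ x, 0 ≤ w x) (hK : 0 ≤ K)
    (hVc : ContDiff ℝ ∞ Vc) (hb : ∀ i ≤ k, ∀ x, ‖iteratedFDeriv ℝ i Vc x‖ ≤ CV) :
    Adm U w k (2 ^ k * CV * K) (fun x => Vc x * η x) := by
  obtain ⟨B, hB⟩ := h.bdd
  have hCV : 0 ≤ CV := (norm_nonneg _).trans (hb 0 (Nat.zero_le _) 0)
  have hB0 : 0 ≤ B := (norm_nonneg _).trans (hB 0 (Nat.zero_le _) 0)
  refine ⟨hVc.mul h.smooth, (tsupport_mul_subset_right (f := Vc) (g := η)).trans h.supp,
    ⟨2 ^ k * (CV * B), fun i hi x => ?_⟩, fun i hi x => ?_⟩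
  · have := norm_iteratedFDeriv_mul_le_two_pow hVc h.smooth x (n := i) (fun j hj => hb j (hj.trans hi) x)
      (fun j hj => hB j (hj.trans hi) x)
    rw [mul_assoc] at this
    exact this.trans (two_pow_mul_le hi (by positivity))
  · have := norm_iteratedFDeriv_mul_le_two_pow hVc h.smooth x (n := i) (fun j hj => hb j (hj.trans hi) x)
      (fun j hj => h.le j (hj.trans hi) x)
    rw [mul_assoc] at this
    have h2 : 0 ≤ CV * (K * w x) := mul_nonneg hCV (mul_nonneg hK (hw x))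
    calc _ ≤ 2 ^ k * (CV * (K * w x)) := this.trans (two_pow_mul_le hi h2)
      _ = _ := by ring

theorem Adm.mul {U U' : Set X} {w w' : X → ℝ} {k : ℕ} {K K' : ℝ} {η η' : X → ℝ} (h : Adm U w k K η)
    (h' : Adm U' w' k K' η') (hw : ∀ x, 0 ≤ w x) (hw' : ∀ x, 0 ≤ w' x) (hK : 0 ≤ K) (hK' : 0 ≤ K') :
    Adm (U ∩ U') (fun x => w x * w' x) k (2 ^ k * K * K') (fun x => η x * η' x) := by
  obtain ⟨B, hB⟩ := h.bdd
  obtain ⟨B', hB'⟩ := h'.bdd
  have hB0 : 0 ≤ B := (norm_nonneg _).trans (hB 0 (Nat.zero_le _) 0)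
  have hB0' : 0 ≤ B' := (norm_nonneg _).trans (hB' 0 (Nat.zero_le _) 0)
  refine ⟨h.smooth.mul h'.smooth, subset_inter ((tsupport_mul_subset_left (f := η) (g := η')).trans h.supp)
    ((tsupport_mul_subset_right (f := η) (g := η')).trans h'.supp),
    ⟨2 ^ k * (B * B'), fun i hi x => ?_⟩, fun i hi x => ?_⟩
  · have := norm_iteratedFDeriv_mul_le_two_pow h.smooth h'.smooth x (n := i) (fun j hj => hB j (hj.trans hi) x)
      (fun j hj => hB' j (hj.trans hi) x)
    rw [mul_assoc] at this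
    exact this.trans (two_pow_mul_le hi (by positivity))
  · have := norm_iteratedFDeriv_mul_le_two_pow h.smooth h'.smooth x (n := i) (fun j hj => h.le j (hj.trans hi) x)
      (fun j hj => h'.le j (hj.trans hi) x)
    rw [mul_assoc] at this
    have h2 : 0 ≤ (K * w x) * (K' * w' x) := mul_nonneg (mul_nonneg hK (hw x)) (mul_nonneg hK' (hw' x))
    calc _ ≤ 2 ^ k * ((K * w x) * (K' * w' x)) := this.trans (two_pow_mul_le hi h2)
      _ = _ := by ring

/-- a multiplier with bounded derivatives is admissible for every weight which is bounded below on its support: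
THE EXPONENTIAL DECAY AND THE GEOMETRIC GAIN ENTER HERE (`w = e^{τ ϱ} ≥ m = e^{τ inf_{supp η} ϱ}`). -/
theorem Adm.of_bdd {U : Set X} {w : X → ℝ} {k : ℕ} {B m : ℝ} {η : X → ℝ} (hη : ContDiff ℝ ∞ η)
    (hsupp : tsupport η ⊆ U) (hB : ∀ i ≤ k, ∀ x, ‖iteratedFDeriv ℝ i η x‖ ≤ B) (hm : 0 < m)
    (hw0 : ∀ x, 0 ≤ w x) (hw : ∀ x ∈ tsupport η, m ≤ w x) : Adm U w k (B / m) η := by
  have hB0 : 0 ≤ B := (norm_nonneg _).trans (hB 0 (Nat.zero_le _) 0)
  refine ⟨hη, hsupp, ⟨B, hB⟩, fun i hi x => ?_⟩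
  by_cases hx : x ∈ tsupport η
  · calc _ ≤ B := hB i hi x
      _ = B / m * m := by field_simp
      _ ≤ B / m * w x := mul_le_mul_of_nonneg_left (hw x hx) (by positivity)
  · have : iteratedFDeriv ℝ i η x = 0 :=
      image_eq_zero_of_notMem_tsupport fun h => hx (tsupport_iteratedFDeriv_subset i h)
    rw [this, norm_zero]
    exact mul_nonneg (by positivity) (hw0 x)

/-- the first derivatives along the `v j`. -/
theorem Adm.abs_dd_le {U : Set X} {w : X → ℝ} {k : ℕ} {K : ℝ} {η : X → ℝ} (h : Adm U w (k + 1) K η) (u x : X) :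
    |AG.dd u η x| ≤ K * w x * ‖u‖ :=
  (abs_dd_le_norm η u x).trans (mul_le_mul_of_nonneg_right (h.le 1 (by omega) x) (norm_nonneg _))

theorem Adm.abs_le {U : Set X} {w : X → ℝ} {k : ℕ} {K : ℝ} {η : X → ℝ} (h : Adm U w k K η) (x : X) :
    |η x| ≤ K * w x := by
  rw [abs_le_iteratedFDeriv_zero]; exact h.le 0 (Nat.zero_le _) x

/-- pointwise domination of multipliers. -/
theorem nsq_smul_le_of_abs_le {η w : X → ℝ} {c : ℝ} (hη : Continuous η) (h : ∀ x, |η x| ≤ c * w x) {g : X → E}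
    (hg : MemLp (fun x => w x • g x) 2 μ) (hg0 : AEStronglyMeasurable g μ) :
    MemLp (fun x => η x • g x) 2 μ ∧ nsq μ (fun x => η x • g x) ≤ c ^ 2 * nsq μ (fun x => w x • g x) := by
  have hm : AEStronglyMeasurable (fun x => η x • g x) μ := hη.aestronglyMeasurable.smul hg0
  have := memLp_nsq_of_le (c := |c|) hm hg (Eventually.of_forall fun x => by
    rw [norm_smul, norm_smul, Real.norm_eq_abs, Real.norm_eq_abs, ← mul_assoc, ← abs_mul]
    exact mul_le_mul_of_nonneg_right ((h x).trans (le_abs_self _)) (norm_nonneg _))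
  rwa [sq_abs] at this

/-- `L²` bound of `η g`. -/
theorem Adm.nsq_smul_le {U : Set X} {w : X → ℝ} {K : ℝ} {η : X → ℝ} (h : Adm U w 0 K η) {g : X → E}
    (hg : MemLp (fun x => w x • g x) 2 μ) (hg0 : AEStronglyMeasurable g μ) :
    MemLp (fun x => η x • g x) 2 μ ∧ nsq μ (fun x => η x • g x) ≤ K ^ 2 * nsq μ (fun x => w x • g x) :=
  nsq_smul_le_of_abs_le h.smooth.continuous (Adm.abs_le h) hg hg0

/-- base case of the regularity theorem: the Leibniz rule. -/
theorem Adm.base : ∃ C : ℝ, 0 ≤ C ∧ ∀ (U : Set X) (w : X → ℝ) (K : ℝ) (η : X → ℝ) (f : X → E) (G : ι → X → E) (M : ℝ),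
    Adm U w 1 K η → H1 μ v f G → WBound μ w f G M →
    H1 μ v (fun x => η x • f x) (mulGrad v η f G) ∧
      h1sq μ (fun x => η x • f x) (mulGrad v η f G) ≤ C * K ^ 2 * M := by
  refine ⟨2 + 2 * ∑ j, ‖v j‖ ^ 2, by positivity, ?_⟩
  intro U w K η f G M h hf hw
  obtain ⟨B, hB⟩ := h.bdd
  have hB0 : 0 ≤ B := (norm_nonneg _).trans (hB 0 (Nat.zero_le _) 0)
  set s : ℝ := ∑ j, ‖v j‖ with hs
  have hsj : ∀ j, ‖v j‖ ≤ s := fun j =>
    Finset.single_le_sum (f := fun j => ‖v j‖) (fun i _ => norm_nonneg _) (Finset.mem_univ j)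
  have hs0 : 0 ≤ s := Finset.sum_nonneg fun _ _ => norm_nonneg _
  have hH : H1 μ v (fun x => η x • f x) (mulGrad v η f G) := by
    refine hf.mul h.smooth (B := B * (1 + s)) (fun x => ?_) fun j x => ?_
    · rw [abs_le_iteratedFDeriv_zero]
      exact (hB 0 (Nat.zero_le _) x).trans (by nlinarith)
    · refine (abs_dd_le_norm η (v j) x).trans ?_
      have : ‖iteratedFDeriv ℝ 1 η x‖ * ‖v j‖ ≤ B * s := mul_le_mul (hB 1 le_rfl x) (hsj j) (norm_nonneg _) hB0
      nlinarith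
  refine ⟨hH, ?_⟩
  have a0 := nsq_smul_le_of_abs_le h.smooth.continuous (Adm.abs_le h) hw.mem hf.mem.1
  have a1 : ∀ j, nsq μ (mulGrad v η f G j)
      ≤ 2 * (K ^ 2 * nsq μ (fun x => w x • G j x)) + 2 * (K ^ 2 * ‖v j‖ ^ 2 * nsq μ (fun x => w x • f x)) := by
    intro j
    have b1 := nsq_smul_le_of_abs_le h.smooth.continuous (Adm.abs_le h) (hw.mem_grad j) (hf.wd j).memg.1
    have b2 := nsq_smul_le_of_abs_le (c := K * ‖v j‖) (contDiff_dd h.smooth (v j)).continuous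
      (fun x => (Adm.abs_dd_le h (v j) x).trans (le_of_eq (by ring))) hw.mem hf.mem.1
    have b3 := nsq_add_le b1.1 b2.1
    have e : nsq μ (mulGrad v η f G j) = nsq μ (fun x => η x • G j x + AG.dd (v j) η x • f x) := rfl
    rw [e]
    have b4 := b1.2
    have b5 := b2.2
    rw [mul_pow] at b5
    linarith
  have a2 := Finset.sum_le_sum fun j (_ : j ∈ Finset.univ) => a1 j
  rw [Finset.sum_add_distrib, ← Finset.mul_sum, ← Finset.mul_sum, ← Finset.mul_sum, ← Finset.sum_mul,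
    ← Finset.mul_sum] at a2
  have a3 := hw.le
  unfold h1sq at a3 ⊢
  set P := nsq μ (fun x => w x • f x) with hP
  set Q := ∑ j, nsq μ (fun x => w x • G j x) with hQ
  set S2 := ∑ j, ‖v j‖ ^ 2 with hS2
  have hP0 : 0 ≤ P := nsq_nonneg _
  have hQ0 : 0 ≤ Q := sum_nsq_nonneg _
  have hS20 : 0 ≤ S2 := by positivity
  have hK2 : 0 ≤ K ^ 2 := sq_nonneg K
  have a4 : K ^ 2 * P + (2 * (K ^ 2 * Q) + 2 * (K ^ 2 * S2 * P)) ≤ (2 + 2 * S2) * K ^ 2 * (P + Q) := by
    have : 0 ≤ K ^ 2 * P := by positivity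
    have : 0 ≤ K ^ 2 * S2 * Q := by positivity
    nlinarith
  have a5 : (2 + 2 * S2) * K ^ 2 * (P + Q) ≤ (2 + 2 * S2) * K ^ 2 * M :=
    mul_le_mul_of_nonneg_left a3 (by positivity)
  linarith [a0.2]

end R1

/-! ## LEAF AG-R2: the main regularity theorem -/

section R2

/-- **Main regularity theorem** (abstract form of "difference quotients + local estimates" and of the parallel
derivative method).  See the header for the proof. -/
theorem reg_main (k : ℕ) (b Emax CV cmax : ℝ) :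
    ∃ C : ℝ, 0 ≤ C ∧ ∀ (U : Set X) (w V Vi Vc : X → ℝ) (a₀ b₀ En : ℝ) (c : κ → ι → ℝ) (f g : X → E)
      (G : ι → X → E) (M Mg : ℝ),
      |En| ≤ Emax → (∀ a j, |c a j| ≤ cmax) → (∀ x, 0 ≤ w x) → 0 ≤ Mg →
      FormBdd E μ v V a₀ b₀ → FormBdd E μ v Vi (1 / 4) b →
      (∀ (a : κ) (x : X) (s : ℝ), Vi (x + s • lin v (c a)) = Vi x) →
      ContDiff ℝ ∞ Vc → (∀ i ≤ 2 * k + 1, ∀ x, ‖iteratedFDeriv ℝ i Vc x‖ ≤ CV) →
      (∀ x ∈ U, V x = Vi x + Vc x) →
      H1 μ v f G → MemLp g 2 μ → IsWeakSolOn μ v U V En f G g → WBound μ w f G M →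
      (∀ k' < k, ∀ (η : X → ℝ) (K : ℝ), 0 ≤ K → Adm U w (2 * k' + 1) K η →
        DirL2 μ (fun a => lin v (c a)) k' (fun x => η x • g x) (K ^ 2 * Mg)) →
      ∀ (η : X → ℝ) (K : ℝ), 0 ≤ K → Adm U w (2 * k + 1) K η →
        DirH1 μ v (fun a => lin v (c a)) k (fun x => η x • f x) (mulGrad v η f G) (C * K ^ 2 * (M + Mg)) := by
  obtain ⟨C0, hC0, hbase⟩ := Adm.base (μ := μ) (E := E) (v := v)
  induction k with
  | zero =>
    refine ⟨C0, hC0, ?_⟩
    intro U w V Vi Vc a₀ b₀ En c f g G M Mg hEn hc hw hMg hV hVi hinv hVc hVcb hsplit hf hg hs hW hsrc η K hK h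
    obtain ⟨h1, h2⟩ := hbase U w K η f G M h hf hW
    have h3 : C0 * K ^ 2 * M ≤ C0 * K ^ 2 * (M + Mg) :=
      mul_le_mul_of_nonneg_left (by linarith) (by positivity)
    exact dirH1_zero_iff.2 ⟨h1, (nsq_le_h1sq _ _).trans (h2.trans h3),
      fun j => (nsq_grad_le_h1sq _ _ j).trans (h2.trans h3)⟩
  | succ k ih =>
    obtain ⟨Ck, hCk, ihk⟩ := ih
    obtain ⟨Cit, hCit, hit⟩ := inv_iter (μ := μ) (E := E) (v := v) (κ := κ) k b Emax cmax
    set S : ℝ := ∑ j, ‖v j‖ with hS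
    have hSj : ∀ j, ‖v j‖ ≤ S := fun j =>
      Finset.single_le_sum (f := fun j => ‖v j‖) (fun i _ => norm_nonneg _) (Finset.mem_univ j)
    have hS0 : 0 ≤ S := Finset.sum_nonneg fun _ _ => norm_nonneg _
    set N : ℝ := ((Finset.univ : Finset ι).card : ℝ) with hN
    set c2 : ℝ := Ck * (2 ^ (2 * k + 1) * CV) ^ 2 with hc2
    set c3 : ℝ := Ck * (S * S) ^ 2 with hc3
    set c4 : ℝ := 2 * (Ck * S ^ 2) + 2 * c3 with hc4
    set C' : ℝ := 2 * (2 * (2 * 1 + 2 * c2) + 2 * ((1 / 2) ^ 2 * (N ^ 2 * c3))) + 2 * (N ^ 2 * c4) with hC'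
    have hc20 : 0 ≤ c2 := by positivity
    have hc30 : 0 ≤ c3 := by positivity
    have hc40 : 0 ≤ c4 := by positivity
    have hC'0 : 0 ≤ C' := by positivity
    refine ⟨Cit * (C0 + C'), by positivity, ?_⟩
    intro U w V Vi Vc a₀ b₀ En c f g G M Mg hEn hc hw hMg hV hVi hinv hVc hVcb hsplit hf hg hs hW hsrc η K hK h
    have hM0 : 0 ≤ M := (h1sq_nonneg _ _).trans hW.le
    have hCV : 0 ≤ CV := (norm_nonneg _).trans (hVcb 0 (Nat.zero_le _) 0)
    set T : ℝ := K ^ 2 * (M + Mg) with hT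
    have hT0 : 0 ≤ T := by positivity
    have ih' := ihk U w V Vi Vc a₀ b₀ En c f g G M Mg hEn hc hw hMg hV hVi hinv hVc
      (fun i hi => hVcb i (by omega)) hsplit hf hg hs hW (fun k' hk' => hsrc k' (by omega))
    have h3 : Adm U w ((2 * k + 1 + 1) + 1) K η := h.of_le (by omega)
    have h1 : Adm U w (2 * k + 1) K η := h.of_le (by omega)
    have d1 : ∀ j, Adm U w (2 * k + 1 + 1) (K * ‖v j‖) (AG.dd (v j) η) := fun j => Adm.dd h3 (v j)
    have d2 : ∀ j, Adm U w (2 * k + 1) (K * ‖v j‖ * ‖v j‖) (AG.dd (v j) (AG.dd (v j) η)) := fun j =>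
      Adm.dd (d1 j) (v j)
    have d1' : ∀ j, Adm U w (2 * k + 1) (K * S) (AG.dd (v j) η) := fun j =>
      ((d1 j).of_le (by omega)).mono subset_rfl hw (mul_le_mul_of_nonneg_left (hSj j) hK)
    have d2' : ∀ j, Adm U w (2 * k + 1) (K * (S * S)) (AG.dd (v j) (AG.dd (v j) η)) := fun j =>
      (d2 j).mono subset_rfl hw (by
        rw [mul_assoc]
        exact mul_le_mul_of_nonneg_left (mul_le_mul (hSj j) (hSj j) (norm_nonneg _) hS0) hK)
    -- the four pieces of the source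
    have P1 : DirL2 μ (fun a => lin v (c a)) k (fun x => η x • g x) (1 * T) :=
      (hsrc k (by omega) η K hK h1).mono (by
        rw [one_mul, hT]; exact mul_le_mul_of_nonneg_left (by linarith) (sq_nonneg K))
    have P2 : DirL2 μ (fun a => lin v (c a)) k (fun x => (Vc x * η x) • f x) (c2 * T) :=
      (ih' _ _ (by positivity) (Adm.mul_smooth h1 hw hK hVc (fun i hi => hVcb i (by omega)))).2.1.mono
        (le_of_eq (by rw [hc2, hT]; ring))
    have P3 : ∀ j, DirL2 μ (fun a => lin v (c a)) k (fun x => AG.dd (v j) (AG.dd (v j) η) x • f x) (c3 * T) :=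
      fun j => (ih' _ _ (by positivity) (d2' j)).2.1.mono (le_of_eq (by rw [hc3, hT]; ring))
    have Pm : ∀ j, DirL2 μ (fun a => lin v (c a)) k (mulGrad v (AG.dd (v j) η) f G j) (Ck * S ^ 2 * T) :=
      fun j => ((ih' _ _ (by positivity) (d1' j)).2.2 j).mono (le_of_eq (by rw [hT]; ring))
    have P4 : ∀ j, DirL2 μ (fun a => lin v (c a)) k (fun x => AG.dd (v j) η x • G j x) (c4 * T) := by
      intro j
      have := ((Pm j).sub (P3 j)).mono (M' := c4 * T) (le_of_eq (by rw [hc4]; ring))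
      have e : (fun x => mulGrad v (AG.dd (v j) η) f G j x - AG.dd (v j) (AG.dd (v j) η) x • f x)
          = fun x => AG.dd (v j) η x • G j x := by
        funext x; simp [mulGrad]
      rwa [e] at this
    have S3 := (DirL2.sum Finset.univ (fun j _ => P3 j)).const_smul (1 / 2)
    have S4 := DirL2.sum Finset.univ (fun j _ => P4 j)
    have hr := (((P1.sub P2).sub S3).sub S4).mono (M' := C' * T) (le_of_eq (by rw [hC']; ring))
    -- the localised equation
    obtain ⟨B, hB⟩ := h.bdd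
    have hloc := IsWeakSolOn.localise (U' := univ) hV hVi hf hg hs h.smooth (B := max B CV)
      (fun i hi x => (hB i (by omega) x).trans (le_max_left _ _)) (by rw [inter_univ]; exact h.supp)
      hVc.continuous (fun x => by
        rw [abs_le_iteratedFDeriv_zero]; exact (hVcb 0 (Nat.zero_le _) x).trans (le_max_right _ _))
      (fun x hx => hsplit x (h.supp hx.1))
    obtain ⟨hH, hHb⟩ := hbase U w K η f G M (h.of_le (by omega)) hf hW
    have hfin := hit Vi En c _ _ _ _ hEn hc hVi hinv hH hloc hr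
    refine hfin.mono ?_
    have e1 : C0 * K ^ 2 * M ≤ C0 * T := by
      rw [hT, mul_assoc]
      exact mul_le_mul_of_nonneg_left (mul_le_mul_of_nonneg_left (by linarith) (sq_nonneg K)) hC0
    calc Cit * (h1sq μ (fun x => η x • f x) (mulGrad v η f G) + C' * T) ≤ Cit * (C0 * T + C' * T) :=
          mul_le_mul_of_nonneg_left (by linarith) hCit
      _ = Cit * (C0 + C') * K ^ 2 * (M + Mg) := by rw [hT]; ring

/-- the gradient components: `η G_j` is `DirL2 .. k` (write `η G_j = mulGrad v η f G j - (∂_j η) f`; needs one more order of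
the multiplier for the second term: `dd (v j) η` must be admissible of order `2k+1`). -/
theorem reg_grad (k : ℕ) (b Emax CV cmax : ℝ) :
    ∃ C : ℝ, 0 ≤ C ∧ ∀ (U : Set X) (w V Vi Vc : X → ℝ) (a₀ b₀ En : ℝ) (c : κ → ι → ℝ) (f g : X → E)
      (G : ι → X → E) (M Mg : ℝ),
      |En| ≤ Emax → (∀ a j, |c a j| ≤ cmax) → (∀ x, 0 ≤ w x) → 0 ≤ Mg →
      FormBdd E μ v V a₀ b₀ → FormBdd E μ v Vi (1 / 4) b →
      (∀ (a : κ) (x : X) (s : ℝ), Vi (x + s • lin v (c a)) = Vi x) →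
      ContDiff ℝ ∞ Vc → (∀ i ≤ 2 * k + 1, ∀ x, ‖iteratedFDeriv ℝ i Vc x‖ ≤ CV) →
      (∀ x ∈ U, V x = Vi x + Vc x) →
      H1 μ v f G → MemLp g 2 μ → IsWeakSolOn μ v U V En f G g → WBound μ w f G M →
      (∀ k' < k, ∀ (η : X → ℝ) (K : ℝ), 0 ≤ K → Adm U w (2 * k' + 1) K η →
        DirL2 μ (fun a => lin v (c a)) k' (fun x => η x • g x) (K ^ 2 * Mg)) →
      ∀ (η : X → ℝ) (K : ℝ), 0 ≤ K → Adm U w (2 * k + 2) K η → ∀ j,
        DirL2 μ (fun a => lin v (c a)) k (fun x => η x • G j x) (C * K ^ 2 * (M + Mg)) := by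
  obtain ⟨Ck, hCk, hk⟩ := reg_main (μ := μ) (E := E) (v := v) (κ := κ) k b Emax CV cmax
  set S : ℝ := ∑ j, ‖v j‖ with hS
  have hSj : ∀ j, ‖v j‖ ≤ S := fun j =>
    Finset.single_le_sum (f := fun j => ‖v j‖) (fun i _ => norm_nonneg _) (Finset.mem_univ j)
  have hS0 : 0 ≤ S := Finset.sum_nonneg fun _ _ => norm_nonneg _
  refine ⟨2 * Ck + 2 * (Ck * S ^ 2), by positivity, ?_⟩
  intro U w V Vi Vc a₀ b₀ En c f g G M Mg hEn hc hw hMg hV hVi hinv hVc hVcb hsplit hf hg hs hW hsrc η K hK h j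
  have ih' := hk U w V Vi Vc a₀ b₀ En c f g G M Mg hEn hc hw hMg hV hVi hinv hVc hVcb hsplit hf hg hs hW hsrc
  have a1 := (ih' η K hK (h.of_le (by omega))).2.2 j
  have d1 : Adm U w (2 * k + 1) (K * S) (AG.dd (v j) η) :=
    (Adm.dd (k := 2 * k + 1) h (v j)).mono subset_rfl hw (mul_le_mul_of_nonneg_left (hSj j) hK)
  have a2 := (ih' _ _ (by positivity) d1).2.1
  have a3 := (a1.sub a2).mono (M' := (2 * Ck + 2 * (Ck * S ^ 2)) * K ^ 2 * (M + Mg)) (le_of_eq (by ring))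
  have e : (fun x => mulGrad v η f G j x - AG.dd (v j) η x • f x) = fun x => η x • G j x := by
    funext x; simp [mulGrad]
  rwa [e] at a3

end R2

end Claimed.Open.R278.AG
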