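import Claimed.Open.R278.FSHardy
import Claimed.Open.R278.AGReg

/-!
# Result 278, layer AG, file 5: Coulomb potentials on `Config m`: Hardy, form bounds, cluster decomposition

Directions: `dir : Fin m × Fin 3 → Config m` of `Statement.lean`.  `E` = any complex Hilbert space (we need
`SpinSpace 3` on `Config 3` AND on `Config 2`).

For a cluster `S : Finset (Fin m)` (the electrons which are translated together):
* `cdir S a` = simultaneous unit translation of the electrons of `S` in the coordinate `a`; `= lin dir (ccoef S a)`;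
* `Vinv m t S` = the part of `scaledPotential m t` which is EXACTLY invariant under these translations (nuclear attraction
  of the electrons outside `S`, repulsion inside `S`, repulsion outside `S`);
* `Vcross m t δ S` = the rest, with every Coulomb kernel `1/|z|` replaced by the globally smooth `regK δ z` (`= 1/|z|` for `|z| ≥ δ`);
* `regNuc δ S`, `regSep δ S` = the closed regions where the electrons of `S` stay `δ`-away from the nuclei, resp. from the
  electrons outside `S`.  There `scaledPotential m t = Vinv m t S + Vcross m t δ S`.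
-/

open MeasureTheory Filter Topology Set
open scoped ContDiff InnerProductSpace

noncomputable section

set_option linter.unusedSectionVars false

namespace Claimed.Open.R278.AG

/-! ## Definitions -/

/-- `ϱ(X) = √(1 + ∑ |x_i|²)`, the smooth version of the configuration radius `ρ`. -/
def rho {m : ℕ} (X : Config m) : ℝ := √(1 + ∑ i, ‖X i‖ ^ 2)

/-- the regularised Coulomb kernel: smooth, `= 1/|z|` for `|z| ≥ δ`, `= 0` for `|z|² ≤ δ²/2`. -/
def regK (δ : ℝ) (z : Space) : ℝ := Real.smoothTransition (2 * ‖z‖ ^ 2 / δ ^ 2 - 1) / ‖z‖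

/-- simultaneous translation of the electrons of `S` along the coordinate `a`. -/
def cdir {m : ℕ} (S : Finset (Fin m)) (a : Fin 3) : Config m :=
  fun i => if i ∈ S then EuclideanSpace.single a (1 : ℝ) else 0

/-- its coefficients with respect to `dir`. -/
def ccoef {m : ℕ} (S : Finset (Fin m)) (a : Fin 3) : Fin m × Fin 3 → ℝ :=
  fun j => if j.1 ∈ S ∧ j.2 = a then 1 else 0

/-- the invariant part of the potential. -/
def Vinv (m : ℕ) (t : ℝ) (S : Finset (Fin m)) (X : Config m) : ℝ :=
  (∑ i, if i ∈ S then 0 else nuclearPotential 1 bigD (X i))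
    + t * ∑ i, ∑ j, if i < j ∧ (i ∈ S ↔ j ∈ S) then 1 / ‖X i - X j‖ else 0

/-- the regularised cross part of the potential. -/
def Vcross (m : ℕ) (t δ : ℝ) (S : Finset (Fin m)) (X : Config m) : ℝ :=
  (∑ i, if i ∈ S then -(regK δ (X i - bigD • ez)) - regK δ (X i + bigD • ez) else 0)
    + t * ∑ i, ∑ j, if i < j ∧ ¬ (i ∈ S ↔ j ∈ S) then regK δ (X i - X j) else 0

/-- the electrons of `S` are `δ`-away from the nuclei. -/
def regNuc {m : ℕ} (δ : ℝ) (S : Finset (Fin m)) : Set (Config m) :=
  {X | ∀ i ∈ S, δ ≤ ‖X i - bigD • ez‖ ∧ δ ≤ ‖X i + bigD • ez‖}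

/-- the electrons of `S` are `δ`-away from the other electrons. -/
def regSep {m : ℕ} (δ : ℝ) (S : Finset (Fin m)) : Set (Config m) :=
  {X | ∀ i ∈ S, ∀ j ∉ S, δ ≤ ‖X i - X j‖}

variable {E : Type*} [NormedAddCommGroup E] [InnerProductSpace ℂ E] [CompleteSpace E]

/-! ## LEAF AG-C2: form bounds of the Coulomb terms on `Config m` -/

section C2

variable {m : ℕ}

theorem sum_fiber_le (i : Fin m) (G : Fin m × Fin 3 → Config m → E) :
    ∑ a, nsq volume (G (i, a)) ≤ ∑ j, nsq volume (G j) := by
  rw [Fintype.sum_prod_type]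
  exact Finset.single_le_sum (f := fun i => ∑ a, nsq volume (G (i, a)))
    (fun i _ => Finset.sum_nonneg fun _ _ => nsq_nonneg _) (Finset.mem_univ i)

theorem measurable_inv_norm (L : Config m →L[ℝ] Space) (c₀ : Space) :
    Measurable (fun X => 1 / ‖L X - c₀‖) :=
  measurable_const.div (L.continuous.sub continuous_const).norm.measurable

/-- `1/|z|²` is form bounded with constants `(4, 0)`: this is `hardy_generic ℂ` of `FSHardy.lean`
(`ℓ = L`, `v a = dir (i, a)`). -/
theorem formBdd_inv_sq (L : Config m →L[ℝ] Space) (c₀ : Space) (i : Fin m)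
    (hL : ∀ a, L (dir (i, a)) = EuclideanSpace.single a (1 : ℝ)) :
    FormBdd E (volume : Measure (Config m)) dir (fun X => (1 / ‖L X - c₀‖) ^ 2) 4 0 := by
  have e : ∀ f : Config m → E, (fun X => |(1 / ‖L X - c₀‖) ^ 2| * ‖f X‖ ^ 2)
      = fun X => ‖f X‖ ^ 2 / ‖L X - c₀‖ ^ 2 := fun f => by
    funext X
    rw [abs_of_nonneg (sq_nonneg _), div_pow, one_pow]
    ring
  refine ⟨((measurable_inv_norm L c₀).pow_const 2).aestronglyMeasurable, fun f G hf => ?_, fun f G hf => ?_⟩
  · rw [e]
    exact (hardy_generic ℂ (ℓ := L) (v := fun a => dir (i, a)) hL c₀ (fun a => hf.wd (i, a))).1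
  · rw [e]
    have h1 := (hardy_generic ℂ (ℓ := L) (v := fun a => dir (i, a)) hL c₀ (fun a => hf.wd (i, a))).2
    have h2 := sum_fiber_le i G
    unfold nsq at h2 ⊢
    linarith

/-- `1/|z|` is infinitesimally form bounded: `1/|z| ≤ (ε/4)/|z|² + 1/ε` (or `coulomb_generic_delta ℂ`). -/
theorem formBdd_inv (L : Config m →L[ℝ] Space) (c₀ : Space) (i : Fin m)
    (hL : ∀ a, L (dir (i, a)) = EuclideanSpace.single a (1 : ℝ)) {ε : ℝ} (hε : 0 < ε) :
    FormBdd E (volume : Measure (Config m)) dir (fun X => 1 / ‖L X - c₀‖) ε (1 / ε) := by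
  have e : ∀ f : Config m → E, (fun X => |1 / ‖L X - c₀‖| * ‖f X‖ ^ 2)
      = fun X => ‖f X‖ ^ 2 / ‖L X - c₀‖ := fun f => by
    funext X
    rw [abs_of_nonneg (by positivity)]
    ring
  refine ⟨(measurable_inv_norm L c₀).aestronglyMeasurable, fun f G hf => ?_, fun f G hf => ?_⟩
  · rw [e]
    exact (coulomb_generic ℂ (ℓ := L) (v := fun a => dir (i, a)) hL c₀ (fun a => hf.wd (i, a))).1
  · rw [e]
    have h1 := coulomb_generic_delta ℂ (ℓ := L) (v := fun a => dir (i, a)) hL c₀ (fun a => hf.wd (i, a))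
      (δ := 2 * ε) (by positivity)
    have h2 := sum_fiber_le i G
    have h3 := nsq_nonneg (μ := volume) f
    have h4 : 1 / (2 * (2 * ε)) * nsq volume f ≤ 1 / ε * nsq volume f := by
      refine mul_le_mul_of_nonneg_right ?_ h3
      rw [div_le_div_iff₀ (by positivity) hε]
      linarith
    have h5 : 2 * ε / 2 * ∑ a, nsq volume (G (i, a)) ≤ ε * ∑ j, nsq volume (G j) := by
      have : 2 * ε / 2 = ε := by ring
      rw [this]
      exact mul_le_mul_of_nonneg_left h2 hε.le
    unfold nsq at h4 h5 ⊢
    linarith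

/-- `1/|z| ∈ L²_loc` (three dimensions).  Cheap proof: apply `hardy_generic` to `f = φ • (1 : ℂ)` with `φ ∈ C^∞_c`, `φ = 1` on `K`. -/
theorem memLp_inv_restrict (L : Config m →L[ℝ] Space) (c₀ : Space) (i : Fin m)
    (hL : ∀ a, L (dir (i, a)) = EuclideanSpace.single a (1 : ℝ)) {K : Set (Config m)} (hK : IsCompact K) :
    MemLp (fun X => 1 / ‖L X - c₀‖) 2 (volume.restrict K) := by
  obtain ⟨R, hR⟩ := hK.isBounded.subset_closedBall (0 : Config m)
  let φ : ContDiffBump (0 : Config m) := ⟨|R| + 1, |R| + 2, by positivity, by linarith⟩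
  have hφ1 : ∀ X ∈ K, φ X = 1 := fun X hX =>
    φ.one_of_mem_closedBall (Metric.closedBall_subset_closedBall (by
      show R ≤ |R| + 1
      linarith [le_abs_self R]) (hR hX))
  have hu : ContDiff ℝ 1 (fun X => ((φ X : ℝ) : ℂ)) := Complex.ofRealCLM.contDiff.comp φ.contDiff
  have hc : HasCompactSupport (fun X => ((φ X : ℝ) : ℂ)) :=
    φ.hasCompactSupport.comp_left (g := fun r : ℝ => (r : ℂ)) (by simp)
  have hH := h1_of_contDiff (μ := (volume : Measure (Config m))) (v := dir) hu hc
  have h1 := (formBdd_inv_sq (E := ℂ) L c₀ i hL).int _ _ hH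
  refine (memLp_two_iff_integrable_sq_norm (measurable_inv_norm L c₀).aestronglyMeasurable).2 ?_
  refine (h1.integrableOn (s := K)).congr ?_
  filter_upwards [ae_restrict_mem hK.measurableSet] with X hX
  rw [hφ1 X hX]
  simp

/-- the evaluation `X ↦ X i` and the difference `X ↦ X i - X j` as continuous linear maps. -/
def evL (i : Fin m) : Config m →L[ℝ] Space := ContinuousLinearMap.proj (R := ℝ) (φ := fun _ : Fin m => Space) i

def diffL (i j : Fin m) : Config m →L[ℝ] Space := evL i - evL j

theorem evL_dir (i : Fin m) (a : Fin 3) : evL i (dir (i, a)) = EuclideanSpace.single a (1 : ℝ) := by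
  simp [evL, dir]

theorem diffL_dir {i j : Fin m} (h : i ≠ j) (a : Fin 3) :
    diffL i j (dir (i, a)) = EuclideanSpace.single a (1 : ℝ) := by
  simp [diffL, evL, dir, h.symm]

theorem FormBdd.zero' {X : Type*} [NormedAddCommGroup X] [NormedSpace ℝ X] [FiniteDimensional ℝ X]
    [MeasurableSpace X] [BorelSpace X] {μ : Measure X} [μ.IsAddHaarMeasure] {ι : Type*} [Fintype ι] {v : ι → X} :
    FormBdd E μ v (fun _ => 0) 0 0 :=
  FormBdd.of_bounded aestronglyMeasurable_const (fun _ => by simp)

theorem FormBdd.sum_card {X : Type*} [NormedAddCommGroup X] [NormedSpace ℝ X] [FiniteDimensional ℝ X]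
    [MeasurableSpace X] [BorelSpace X] {μ : Measure X} [μ.IsAddHaarMeasure] {ι : Type*} [Fintype ι] {v : ι → X}
    {α : Type*} (s : Finset α) {V : α → X → ℝ} {a b : ℝ} (h : ∀ i ∈ s, FormBdd E μ v (V i) a b) :
    FormBdd E μ v (fun x => ∑ i ∈ s, V i x) (s.card * a) (s.card * b) := by
  classical
  induction s using Finset.induction_on with
  | empty => simpa using (FormBdd.zero' (E := E) (μ := μ) (v := v))
  | insert i s hi ih =>
    have h1 := (h i (Finset.mem_insert_self i s)).add (ih fun j hj => h j (Finset.mem_insert_of_mem hj))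
    have e : (fun x => ∑ j ∈ insert i s, V j x) = fun x => V i x + ∑ j ∈ s, V j x := by
      funext x; rw [Finset.sum_insert hi]
    rw [e, Finset.card_insert_of_notMem hi]
    push_cast
    have e1 : ((s.card : ℝ) + 1) * a = a + s.card * a := by ring
    have e2 : ((s.card : ℝ) + 1) * b = b + s.card * b := by ring
    rw [e1, e2]
    exact h1

theorem FormBdd.ite' {X : Type*} [NormedAddCommGroup X] [NormedSpace ℝ X] [FiniteDimensional ℝ X]
    [MeasurableSpace X] [BorelSpace X] {μ : Measure X} [μ.IsAddHaarMeasure] {ι : Type*} [Fintype ι] {v : ι → X}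
    {V : X → ℝ} {a b : ℝ} (ha : 0 ≤ a) (hb : 0 ≤ b) (p : Prop) [Decidable p] (h : p → FormBdd E μ v V a b) :
    FormBdd E μ v (fun x => if p then V x else 0) a b := by
  by_cases hp : p
  · simpa [hp] using h hp
  · simpa [hp] using (FormBdd.zero' (E := E) (μ := μ) (v := v)).mono ha hb

theorem formBdd_nuc (i : Fin m) {ε : ℝ} (hε : 0 < ε) :
    FormBdd E (volume : Measure (Config m)) dir (fun X => nuclearPotential 1 bigD (X i)) (2 * ε) (2 * (1 / ε)) := by
  have h1 := (formBdd_inv (E := E) (evL i) (bigD • ez) i (evL_dir i) hε).const_mul (-1)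
  have h2 := (formBdd_inv (E := E) (evL i) (-(bigD • ez)) i (evL_dir i) hε).const_mul (-1)
  have h3 := h1.add h2
  have e : (fun X : Config m => -1 * (1 / ‖evL i X - bigD • ez‖) + -1 * (1 / ‖evL i X - -(bigD • ez)‖))
      = fun X => nuclearPotential 1 bigD (X i) := by
    funext X
    simp only [nuclearPotential, evL, sub_neg_eq_add, ContinuousLinearMap.proj_apply]
    ring
  rw [e] at h3
  refine h3.mono (le_of_eq ?_) (le_of_eq ?_) <;> simp <;> ring

theorem formBdd_pair {i j : Fin m} (h : i ≠ j) {ε : ℝ} (hε : 0 < ε) :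
    FormBdd E (volume : Measure (Config m)) dir (fun X => 1 / ‖X i - X j‖) ε (1 / ε) := by
  have h1 := formBdd_inv (E := E) (diffL i j) 0 i (diffL_dir h) hε
  simpa [diffL, evL] using h1

/-- all the potentials of the layer are form bounded with relative bound `¼`, uniformly in `0 ≤ t ≤ 1` and in `S`. -/
theorem exists_formBdd (m : ℕ) : ∃ b : ℝ, 0 ≤ b ∧ ∀ t : ℝ, 0 ≤ t → t ≤ 1 →
    FormBdd E (volume : Measure (Config m)) dir (scaledPotential m t) (1 / 4) b ∧
    ∀ S : Finset (Fin m), FormBdd E (volume : Measure (Config m)) dir (Vinv m t S) (1 / 4) b := by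
  set n : ℝ := (m : ℝ) with hn
  have hn0 : 0 ≤ n := by positivity
  set ε : ℝ := 1 / (4 * (2 * n + n * n + 1)) with hεdef
  have hε : 0 < ε := by positivity
  have ha : n * (2 * ε) + 1 * (n * (n * ε)) ≤ 1 / 4 := by
    have : n * (2 * ε) + 1 * (n * (n * ε)) = (2 * n + n * n) * ε := by ring
    rw [this, hεdef, mul_one_div, div_le_div_iff₀ (by positivity) (by norm_num)]
    nlinarith
  refine ⟨n * (2 * (1 / ε)) + 1 * (n * (n * (1 / ε))), by positivity, fun t ht0 ht1 => ?_⟩
  have hcard : ((Finset.univ : Finset (Fin m)).card : ℝ) = n := by simp [hn]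
  -- general form
  have key : ∀ (p : Fin m → Prop) [DecidablePred p] (q : Fin m → Fin m → Prop) [∀ i j, Decidable (q i j)],
      (∀ i j, q i j → i ≠ j) →
      FormBdd E (volume : Measure (Config m)) dir
        (fun X => (∑ i, if p i then nuclearPotential 1 bigD (X i) else 0)
          + t * ∑ i, ∑ j, if q i j then 1 / ‖X i - X j‖ else 0) (1 / 4)
        (n * (2 * (1 / ε)) + 1 * (n * (n * (1 / ε)))) := by
    intro p _ q _ hq
    have h1 := FormBdd.sum_card (E := E) (μ := (volume : Measure (Config m))) (v := dir) Finset.univ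
      (V := fun i X => if p i then nuclearPotential 1 bigD (X i) else 0) (a := 2 * ε) (b := 2 * (1 / ε))
      (fun i _ => FormBdd.ite' (by positivity) (by positivity) (p i) fun _ => formBdd_nuc i hε)
    have h2 := FormBdd.sum_card (E := E) (μ := (volume : Measure (Config m))) (v := dir) Finset.univ
      (V := fun i X => ∑ j, if q i j then 1 / ‖X i - X j‖ else 0) (a := n * ε) (b := n * (1 / ε))
      (fun i _ => by
        have := FormBdd.sum_card (E := E) (μ := (volume : Measure (Config m))) (v := dir) Finset.univ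
          (V := fun j X => if q i j then 1 / ‖X i - X j‖ else 0) (a := ε) (b := 1 / ε)
          (fun j _ => FormBdd.ite' hε.le (by positivity) (q i j) fun hij => formBdd_pair (hq i j hij) hε)
        rwa [hcard] at this)
    rw [hcard] at h1 h2
    have h3 := h1.add (h2.const_mul t)
    have ht : |t| ≤ 1 := by rw [abs_of_nonneg ht0]; exact ht1
    refine h3.mono ?_ ?_
    · refine le_trans ?_ ha
      have : |t| * (n * (n * ε)) ≤ 1 * (n * (n * ε)) := mul_le_mul_of_nonneg_right ht (by positivity)
      linarith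
    · have : |t| * (n * (n * (1 / ε))) ≤ 1 * (n * (n * (1 / ε))) := mul_le_mul_of_nonneg_right ht (by positivity)
      linarith
  constructor
  · have := key (fun _ => True) (fun i j => i < j) (fun i j h => h.ne)
    have e : (fun X : Config m => (∑ i, if True then nuclearPotential 1 bigD (X i) else 0)
          + t * ∑ i, ∑ j, if i < j then 1 / ‖X i - X j‖ else 0) = scaledPotential m t := by
      funext X
      simp [scaledPotential, oneBodyPotential, repulsion]
    rwa [e] at this
  · intro S
    have := key (fun i => ¬ i ∈ S) (fun i j => i < j ∧ (i ∈ S ↔ j ∈ S)) (fun i j h => h.1.ne)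
    have e : (fun X : Config m => (∑ i, if ¬ i ∈ S then nuclearPotential 1 bigD (X i) else 0)
          + t * ∑ i, ∑ j, if i < j ∧ (i ∈ S ↔ j ∈ S) then 1 / ‖X i - X j‖ else 0) = Vinv m t S := by
      funext X
      simp only [Vinv, ite_not]
    rwa [e] at this

/-- the repulsion maps `H¹` to `L²` (Hardy). -/
theorem repulsion_smul_memLp : ∃ C : ℝ, 0 ≤ C ∧ ∀ (f : Config m → E) (G : Fin m × Fin 3 → Config m → E),
    H1 volume dir f G → MemLp (fun X => repulsion X • f X) 2 volume ∧
      nsq volume (fun X => repulsion X • f X) ≤ C * ∑ j, nsq volume (G j) := by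
  set N : ℝ := ((Finset.univ : Finset (Fin m × Fin m)).card : ℝ) with hN
  refine ⟨N * (N * 4), by positivity, fun f G hf => ?_⟩
  have hG0 : 0 ≤ ∑ j, nsq volume (G j) := sum_nsq_nonneg G
  have hterm : ∀ p : Fin m × Fin m,
      MemLp (fun X => (if p.1 < p.2 then 1 / ‖X p.1 - X p.2‖ else 0) • f X) 2 volume ∧
      nsq volume (fun X => (if p.1 < p.2 then 1 / ‖X p.1 - X p.2‖ else 0) • f X) ≤ 4 * ∑ j, nsq volume (G j) := by
    intro p
    by_cases hp : p.1 < p.2
    · simp only [hp, if_true]
      have hV := formBdd_inv_sq (E := E) (diffL p.1 p.2) 0 p.1 (diffL_dir hp.ne)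
      obtain ⟨m1, n1⟩ := memLp_sqrt_smul hV hf (fun X => 1 / ‖diffL p.1 p.2 X - 0‖)
        (measurable_inv_norm _ _).aestronglyMeasurable (fun X => (abs_of_nonneg (sq_nonneg _)).symm)
      have h2 := hV.le f G hf
      rw [← n1] at h2
      have e : (fun X : Config m => (1 / ‖diffL p.1 p.2 X - 0‖) • f X) = fun X => (1 / ‖X p.1 - X p.2‖) • f X := by
        funext X; simp [diffL, evL]
      rw [e] at m1 h2
      exact ⟨m1, by linarith⟩
    · simp only [hp, if_false, zero_smul]
      refine ⟨MemLp.zero, ?_⟩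
      have : nsq (volume : Measure (Config m)) (fun _ => (0 : E)) = 0 := by simp [nsq]
      rw [this]; positivity
  have e : (fun X => repulsion X • f X)
      = fun X => ∑ p : Fin m × Fin m, (if p.1 < p.2 then 1 / ‖X p.1 - X p.2‖ else 0) • f X := by
    funext X
    rw [← Finset.sum_smul, Fintype.sum_prod_type]
    rfl
  rw [e]
  refine ⟨memLp_finsetSum _ fun p _ => (hterm p).1, ?_⟩
  refine (nsq_sum_le Finset.univ fun p _ => (hterm p).1).trans ?_
  have h1 : ∑ p : Fin m × Fin m, nsq volume (fun X => (if p.1 < p.2 then 1 / ‖X p.1 - X p.2‖ else 0) • f X)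
      ≤ N * (4 * ∑ j, nsq volume (G j)) := by
    have := Finset.sum_le_card_nsmul Finset.univ _ _ (fun p (_ : p ∈ Finset.univ) => (hterm p).2)
    rwa [nsmul_eq_mul] at this
  calc _ ≤ N * (N * (4 * ∑ j, nsq volume (G j))) := mul_le_mul_of_nonneg_left h1 (by positivity)
    _ = _ := by ring

end C2

/-! ## LEAF AG-C3: the cluster decomposition -/

section C3

variable {m : ℕ}

theorem lin_ccoef (S : Finset (Fin m)) (a : Fin 3) : lin dir (ccoef S a) = cdir S a := by
  funext i
  simp only [lin, ccoef, cdir, dir, Fintype.sum_prod_type, Finset.sum_apply, Pi.smul_apply]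
  rw [Finset.sum_eq_single i]
  · rw [Finset.sum_eq_single a]
    · by_cases hi : i ∈ S <;> simp [hi]
    · intro b _ hb; simp [hb]
    · intro h; exact absurd (Finset.mem_univ a) h
  · intro j _ hj
    refine Finset.sum_eq_zero fun b _ => ?_
    simp [hj.symm]
  · intro h; exact absurd (Finset.mem_univ i) h

theorem abs_ccoef_le (S : Finset (Fin m)) (a : Fin 3) (j : Fin m × Fin 3) : |ccoef S a j| ≤ 1 := by
  unfold ccoef
  split_ifs <;> simp

theorem regK_eq {δ : ℝ} (hδ : 0 < δ) {z : Space} (hz : δ ≤ ‖z‖) : regK δ z = 1 / ‖z‖ := by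
  unfold regK
  rw [Real.smoothTransition.one_of_one_le]
  have h1 : δ ^ 2 ≤ ‖z‖ ^ 2 := pow_le_pow_left₀ hδ.le hz 2
  have h2 : 2 ≤ 2 * ‖z‖ ^ 2 / δ ^ 2 := by
    rw [le_div_iff₀ (by positivity)]
    linarith
  linarith

/-- exact invariance. -/
theorem Vinv_add_smul_cdir (t : ℝ) (S : Finset (Fin m)) (a : Fin 3) (X : Config m) (s : ℝ) :
    Vinv m t S (X + s • cdir S a) = Vinv m t S X := by
  unfold Vinv
  congr 1
  · refine Finset.sum_congr rfl fun i _ => ?_
    by_cases hi : i ∈ S
    · simp [hi]
    · simp [hi, cdir]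
  · congr 1
    refine Finset.sum_congr rfl fun i _ => Finset.sum_congr rfl fun j _ => ?_
    by_cases h : i < j ∧ (i ∈ S ↔ j ∈ S)
    · simp only [h, and_self, if_true]
      by_cases hi : i ∈ S
      · have hj : j ∈ S := h.2.1 hi
        simp [cdir, hi, hj]
      · have hj : j ∉ S := fun hj => hi (h.2.2 hj)
        simp [cdir, hi, hj]
    · simp only [h, if_false]

theorem scaledPotential_eq_aux {δ : ℝ} (hδ : 0 < δ) (t : ℝ) (S : Finset (Fin m)) {X : Config m}
    (h1 : X ∈ regNuc δ S) (h2 : t = 0 ∨ X ∈ regSep δ S) :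
    scaledPotential m t X = Vinv m t S X + Vcross m t δ S X := by
  have e1 : oneBodyPotential (nuclearPotential 1 bigD) X
      = (∑ i, if i ∈ S then 0 else nuclearPotential 1 bigD (X i))
        + ∑ i, if i ∈ S then -(regK δ (X i - bigD • ez)) - regK δ (X i + bigD • ez) else 0 := by
    unfold oneBodyPotential
    rw [← Finset.sum_add_distrib]
    refine Finset.sum_congr rfl fun i _ => ?_
    by_cases hi : i ∈ S
    · simp only [hi, if_true, zero_add, nuclearPotential]
      rw [regK_eq hδ (h1 i hi).1, regK_eq hδ (h1 i hi).2]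
    · simp [hi]
  have e2 : t * repulsion X
      = t * (∑ i, ∑ j, if i < j ∧ (i ∈ S ↔ j ∈ S) then 1 / ‖X i - X j‖ else 0)
        + t * ∑ i, ∑ j, if i < j ∧ ¬ (i ∈ S ↔ j ∈ S) then regK δ (X i - X j) else 0 := by
    rcases h2 with rfl | h2
    · simp
    rw [← mul_add, ← Finset.sum_add_distrib]
    congr 1
    unfold repulsion
    refine Finset.sum_congr rfl fun i _ => ?_
    rw [← Finset.sum_add_distrib]
    refine Finset.sum_congr rfl fun j _ => ?_
    by_cases hij : i < j
    · by_cases hS : (i ∈ S ↔ j ∈ S)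
      · simp [hij, hS]
      · have hd : δ ≤ ‖X i - X j‖ := by
          by_cases hi : i ∈ S
          · have hj : j ∉ S := fun hj => hS ⟨fun _ => hj, fun _ => hi⟩
            exact h2 i hi j hj
          · have hj : j ∈ S := by
              by_contra hj
              exact hS ⟨fun h => absurd h hi, fun h => absurd h hj⟩
            rw [norm_sub_rev]
            exact h2 j hj i hi
        simp only [hij, hS, true_and, if_false, not_false_eq_true, if_true, zero_add]
        rw [regK_eq hδ hd]
    · simp [hij]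
  unfold scaledPotential Vinv Vcross
  rw [e1, e2]
  ring

/-- the decomposition on the cluster region. -/
theorem scaledPotential_eq_of_mem {δ : ℝ} (hδ : 0 < δ) (t : ℝ) (S : Finset (Fin m)) {X : Config m}
    (h1 : X ∈ regNuc δ S) (h2 : X ∈ regSep δ S) :
    scaledPotential m t X = Vinv m t S X + Vcross m t δ S X :=
  scaledPotential_eq_aux hδ t S h1 (Or.inr h2)

/-- at zero coupling no separation of the electrons is needed. -/
theorem scaledPotential_zero_eq_of_mem {δ : ℝ} (hδ : 0 < δ) (S : Finset (Fin m)) {X : Config m}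
    (h1 : X ∈ regNuc δ S) : scaledPotential m 0 X = Vinv m 0 S X + Vcross m 0 δ S X :=
  scaledPotential_eq_aux hδ 0 S h1 (Or.inl rfl)

theorem isClosed_regNuc (δ : ℝ) (S : Finset (Fin m)) : IsClosed (regNuc δ S) := by
  have : regNuc δ S = ⋂ i ∈ S, ({X : Config m | δ ≤ ‖X i - bigD • ez‖} ∩ {X | δ ≤ ‖X i + bigD • ez‖}) := by
    ext X; simp [regNuc]
  rw [this]
  refine isClosed_biInter fun i _ => IsClosed.inter ?_ ?_
  · exact isClosed_le continuous_const ((continuous_apply i).sub continuous_const).norm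
  · exact isClosed_le continuous_const ((continuous_apply i).add continuous_const).norm

theorem isClosed_regSep (δ : ℝ) (S : Finset (Fin m)) : IsClosed (regSep δ S) := by
  have : regSep δ S = ⋂ i ∈ S, ⋂ j ∈ {j | j ∉ S}, {X : Config m | δ ≤ ‖X i - X j‖} := by
    ext X; simp [regSep]
  rw [this]
  refine isClosed_biInter fun i _ => isClosed_biInter fun j _ => ?_
  exact isClosed_le continuous_const ((continuous_apply i).sub (continuous_apply j)).norm

end C3

end Claimed.Open.R278.AG
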