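import Claimed.Open.R278.AGKernel

/-!
# Result 278, layer AG, file 9: the explicit cutoffs of Lemma 3.2

Electron `0` is the distinguished one: `x = X 0`, `y = (X 1, X 2)`, `r = |x|`, `|y|² = |X 1|² + |X 2|²`, `ϱ² = 1 + r² + |y|²`.
All cutoffs are GLOBALLY smooth functions of `σ(X) = sRatio X = |y|²/ϱ² ∈ [0,1)`  (paper: functions of `|y|/r`; note
`|y|²/(1+r²) = σ/(1-σ)`, so `σ ≤ 1/10 ⇔ |y|² ≤ (1+r²)/9`, `σ ≤ 1/5 ⇔ |y|² ≤ (1+r²)/4`, `σ ≤ 9/25 ⇔ |y|² ≤ 9(1+r²)/16`).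

* `aCut = sin (π/2 · smoothTransition (10 σ - 1))`: `0` for `σ ≤ 1/10`, `1` for `σ ≥ 1/5`;  `chi = 1 - aCut² = cos²(..)` is the
  paper's `χ`;  `1 - χ = aCut²` HAS A SMOOTH SQUARE ROOT (needed to put one factor `aCut` on each side of a pairing).
* `zeta = 1 - smoothTransition ((σ - 1/5)·25/4)`: `1` for `σ ≤ 1/5`, `0` for `σ ≥ 9/25`: the paper's `ζ`.
* `Wfun = zeta · (regK 1 (x - y₁) + regK 1 (x - y₂))`: globally smooth and bounded, symbol of order `-1`, equal to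
  `∑ 1/|x - y_i|` on `tsupport chi ∩ {r ≥ 3}`.
* `bump x₀`: a fixed smooth bump in the variable `x = X 0`, `= 1` on `|x - x₀| ≤ 1/2`, `= 0` for `|x - x₀| ≥ 1`.
* `exists_cluster_partition`: quadratic partition of unity subordinate to the cluster regions.
-/

open MeasureTheory Filter Topology Set
open scoped ContDiff InnerProductSpace

noncomputable section

set_option linter.unusedSectionVars false

namespace Claimed.Open.R278.AG

/-! ## Definitions -/

/-- `σ = |y|²/ϱ²`. -/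
def sRatio (X : Config 3) : ℝ := (‖X 1‖ ^ 2 + ‖X 2‖ ^ 2) / (1 + ∑ i, ‖X i‖ ^ 2)

/-- the smooth square root of `1 - χ`. -/
def aCut (X : Config 3) : ℝ := Real.sin (Real.pi / 2 * Real.smoothTransition (10 * sRatio X - 1))

/-- the paper's `χ`. -/
def chi (X : Config 3) : ℝ := 1 - aCut X ^ 2

/-- the paper's `ζ`. -/
def zeta (X : Config 3) : ℝ := 1 - Real.smoothTransition ((sRatio X - 1 / 5) * (25 / 4))

/-- the symbol of the cutoff interaction `W`. -/
def Wfun (X : Config 3) : ℝ := zeta X * (regK 1 (X 0 - X 1) + regK 1 (X 0 - X 2))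

/-- the profile of the bump: `cos (π/2 · smoothTransition (4|z|²/3 - 1/3))`: `1` for `|z| ≤ 1/2`, `0` for `|z| ≥ 1`. -/
def bumpProfile (z : Space) : ℝ := Real.cos (Real.pi / 2 * Real.smoothTransition (4 * ‖z‖ ^ 2 / 3 - 1 / 3))

/-- the bump in the distinguished variable, centred at `x₀`. -/
def bump (x₀ : Space) (X : Config 3) : ℝ := bumpProfile (X 0 - x₀)

/-- the exterior radius of the layer: `R₀ = D + 4`. -/
def extR : ℝ := bigD + 4

/-! ## LEAF AG-U1: the ratio and the radial cutoffs -/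

section U1

theorem sRatio_nonneg (X : Config 3) : 0 ≤ sRatio X := by
  unfold sRatio; positivity

theorem sRatio_lt_one (X : Config 3) : sRatio X < 1 := by
  unfold sRatio
  rw [div_lt_one (by positivity), Fin.sum_univ_three]
  nlinarith [sq_nonneg ‖X 0‖]

/-- `σ` is a symbol of order `0` (`Sym.of_homog` with `q(s, X) = (|X 1|² + |X 2|²)/(s² + ∑ |X i|²)`). -/
theorem sym_sRatio : Sym 0 sRatio := by
  set q : ℝ × Config 3 → ℝ := fun z => (‖z.2 1‖ ^ 2 + ‖z.2 2‖ ^ 2) / (z.1 ^ 2 + ∑ i, ‖z.2 i‖ ^ 2) with hq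
  have hpos : ∀ z : ℝ × Config 3, z ≠ 0 → z.1 ^ 2 + ∑ i, ‖z.2 i‖ ^ 2 ≠ 0 := by
    intro z hz h0
    have h1 : 0 ≤ ∑ i, ‖z.2 i‖ ^ 2 := by positivity
    have h2 : z.1 ^ 2 = 0 := by nlinarith [sq_nonneg z.1]
    have h3 : ∑ i, ‖z.2 i‖ ^ 2 = 0 := by nlinarith [sq_nonneg z.1]
    have h4 : ∀ i, z.2 i = 0 := by
      intro i
      have := (Finset.sum_eq_zero_iff_of_nonneg (fun i _ => sq_nonneg ‖z.2 i‖)).1 h3 i (Finset.mem_univ i)
      simpa using this
    apply hz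
    ext1
    · simpa using h2
    · funext i; exact h4 i
  have h := Sym.of_homog (m := 3) (q := q) (a := 0) ?_ ?_
  · have e : (fun X : Config 3 => q (1, X)) = sRatio := by
      funext X; simp [hq, sRatio]
    rwa [e] at h
  · intro z hz
    refine ContDiffAt.contDiffWithinAt ?_
    have hn : ∀ i : Fin 3, ContDiffAt ℝ ∞ (fun z : ℝ × Config 3 => ‖z.2 i‖ ^ 2) z := fun i =>
      (((contDiff_apply ℝ Space i).contDiffAt).comp z contDiffAt_snd).norm_sq ℝ
    refine ContDiffAt.div ((hn 1).add (hn 2)) ?_ (hpos z hz)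
    exact (contDiffAt_fst.pow 2).add (ContDiffAt.sum fun i _ => hn i)
  · intro c hc z _
    simp only [hq, Prod.smul_fst, Prod.smul_snd, Pi.smul_apply, norm_smul, smul_eq_mul, Real.rpow_zero, mul_pow,
      Real.norm_eq_abs, sq_abs, one_mul]
    rw [← Finset.mul_sum, ← mul_add, ← mul_add, mul_div_mul_left _ _ (by positivity)]

theorem Sym.const_mul {m : ℕ} {a : ℝ} {f : Config m → ℝ} (c : ℝ) (hf : Sym a f) : Sym a (fun X => c * f X) := by
  have := Sym.mul (Sym.const c) hf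
  rwa [zero_add] at this

theorem Sym.sub {m : ℕ} {a : ℝ} {f g : Config m → ℝ} (hf : Sym a f) (hg : Sym a g) : Sym a (fun X => f X - g X) := by
  have := Sym.add hf (Sym.const_mul (-1) hg)
  have e : (fun X => f X + -1 * g X) = fun X => f X - g X := by funext X; ring
  rwa [e] at this

theorem sym_aCut : Sym 0 aCut := by
  have h1 : Sym 0 (fun X => 10 * sRatio X - 1) := Sym.sub (Sym.const_mul 10 sym_sRatio) (Sym.const 1)
  have h2 := Sym.const_mul (Real.pi / 2) (Sym.comp_real h1 bddDeriv_smoothTransition)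
  exact Sym.comp_real h2 bddDeriv_sin

theorem sym_chi : Sym 0 chi := by
  have h0 := Sym.mul sym_aCut sym_aCut
  rw [add_zero] at h0
  have h := Sym.sub (Sym.const 1) h0
  have e : (fun X => 1 - aCut X * aCut X) = chi := by funext X; unfold chi; ring
  rwa [e] at h

theorem sym_zeta : Sym 0 zeta := by
  have h1 : Sym 0 (fun X => (25 / 4) * (sRatio X - 1 / 5)) := Sym.const_mul _ (Sym.sub sym_sRatio (Sym.const _))
  have h := Sym.sub (Sym.const 1) (Sym.comp_real h1 bddDeriv_smoothTransition)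
  have e : (fun X => 1 - Real.smoothTransition (25 / 4 * (sRatio X - 1 / 5))) = zeta := by
    funext X; unfold zeta; rw [mul_comm]
  rwa [e] at h

theorem aCut_mem (X : Config 3) : 0 ≤ aCut X ∧ aCut X ≤ 1 := by
  refine ⟨?_, Real.sin_le_one _⟩
  have h0 := Real.smoothTransition.nonneg (10 * sRatio X - 1)
  have h1 := Real.smoothTransition.le_one (10 * sRatio X - 1)
  have hp := Real.pi_pos
  exact Real.sin_nonneg_of_nonneg_of_le_pi (by positivity) (by nlinarith)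

theorem chi_mem (X : Config 3) : 0 ≤ chi X ∧ chi X ≤ 1 := by
  obtain ⟨h0, h1⟩ := aCut_mem X
  unfold chi
  constructor <;> nlinarith

theorem zeta_mem (X : Config 3) : 0 ≤ zeta X ∧ zeta X ≤ 1 := by
  have h0 := Real.smoothTransition.nonneg ((sRatio X - 1 / 5) * (25 / 4))
  have h1 := Real.smoothTransition.le_one ((sRatio X - 1 / 5) * (25 / 4))
  unfold zeta
  constructor <;> linarith

theorem continuous_sRatio : Continuous sRatio := sym_sRatio.1.continuous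

/-- support of `aCut` (hence of `1 - χ` and of all derivatives of `χ`). -/
theorem sRatio_ge_of_mem_tsupport_aCut {X : Config 3} (h : X ∈ tsupport aCut) : 1 / 10 ≤ sRatio X := by
  refine closure_minimal (t := {X | 1 / 10 ≤ sRatio X}) (fun Y hY => ?_)
    (isClosed_le continuous_const continuous_sRatio) h
  by_contra hc
  apply hY
  have hc' : sRatio Y < 1 / 10 := not_le.1 hc
  unfold aCut
  rw [Real.smoothTransition.zero_of_nonpos (by linarith)]
  simp

theorem sRatio_le_of_mem_tsupport_chi {X : Config 3} (h : X ∈ tsupport chi) : sRatio X ≤ 1 / 5 := by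
  refine closure_minimal (t := {X | sRatio X ≤ 1 / 5}) (fun Y hY => ?_)
    (isClosed_le continuous_sRatio continuous_const) h
  by_contra hc
  apply hY
  have hc' : 1 / 5 < sRatio Y := not_le.1 hc
  unfold chi aCut
  rw [Real.smoothTransition.one_of_one_le (by linarith)]
  simp

theorem sRatio_le_of_mem_tsupport_zeta {X : Config 3} (h : X ∈ tsupport zeta) : sRatio X ≤ 9 / 25 := by
  refine closure_minimal (t := {X | sRatio X ≤ 9 / 25}) (fun Y hY => ?_)
    (isClosed_le continuous_sRatio continuous_const) h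
  by_contra hc
  apply hY
  have hc' : 9 / 25 < sRatio Y := not_le.1 hc
  unfold zeta
  rw [Real.smoothTransition.one_of_one_le (by linarith)]
  simp

theorem zeta_eq_one {X : Config 3} (h : sRatio X ≤ 1 / 5) : zeta X = 1 := by
  unfold zeta
  rw [Real.smoothTransition.zero_of_nonpos (by linarith)]
  simp

/-- the derivatives of `χ` are supported in `tsupport aCut ∩ tsupport chi`. -/
theorem tsupport_dd_chi_subset (u : Config 3) : tsupport (dd u chi) ⊆ tsupport aCut ∩ tsupport chi := by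
  refine subset_inter ?_ ?_
  · refine closure_minimal (fun Y hY => ?_) (isClosed_tsupport _)
    by_contra hc
    apply hY
    have h1 : chi =ᶠ[𝓝 Y] fun _ => 1 := by
      filter_upwards [(isClosed_tsupport aCut).isOpen_compl.mem_nhds hc] with Z hZ
      unfold chi
      rw [image_eq_zero_of_notMem_tsupport hZ]
      simp
    unfold dd
    rw [h1.fderiv_eq]
    simp
  · refine closure_minimal (fun Y hY => ?_) (isClosed_tsupport _)
    by_contra hc
    apply hY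
    have h1 : chi =ᶠ[𝓝 Y] fun _ => 0 := by
      filter_upwards [(isClosed_tsupport chi).isOpen_compl.mem_nhds hc] with Z hZ
      exact image_eq_zero_of_notMem_tsupport hZ
    unfold dd
    rw [h1.fderiv_eq]
    simp

theorem sRatio_le_iff (X : Config 3) (c : ℝ) :
    sRatio X ≤ c ↔ ‖X 1‖ ^ 2 + ‖X 2‖ ^ 2 ≤ c * (1 + ‖X 0‖ ^ 2 + ‖X 1‖ ^ 2 + ‖X 2‖ ^ 2) := by
  unfold sRatio
  rw [div_le_iff₀ (by positivity), Fin.sum_univ_three]
  constructor <;> intro h <;> linarith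

theorem le_sRatio_iff (X : Config 3) (c : ℝ) :
    c ≤ sRatio X ↔ c * (1 + ‖X 0‖ ^ 2 + ‖X 1‖ ^ 2 + ‖X 2‖ ^ 2) ≤ ‖X 1‖ ^ 2 + ‖X 2‖ ^ 2 := by
  unfold sRatio
  rw [le_div_iff₀ (by positivity), Fin.sum_univ_three]
  constructor <;> intro h <;> linarith

/-- **the geometric margin (3.17)** `ϱ ≥ √(10/9) r` where `σ ≥ 1/10`. -/
theorem rho_ge_of_sRatio_ge {X : Config 3} (h : 1 / 10 ≤ sRatio X) : √(10 / 9) * ‖X 0‖ ≤ rho X := by
  rw [le_sRatio_iff] at h
  unfold rho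
  refine Real.le_sqrt_of_sq_le ?_
  rw [mul_pow, Real.sq_sqrt (by norm_num), Fin.sum_univ_three]
  nlinarith

theorem sep_of_sRatio_le_aux {X : Config 3} (h : sRatio X ≤ 1 / 5) (i : Fin 3) (hi : i ≠ 0) :
    ‖X i‖ ≤ (1 + ‖X 0‖) / 2 := by
  rw [sRatio_le_iff] at h
  have h0 := norm_nonneg (X 0)
  have : ‖X i‖ ^ 2 ≤ ‖X 1‖ ^ 2 + ‖X 2‖ ^ 2 := by
    fin_cases i
    · exact absurd rfl hi
    · simp
    · simp
  refine abs_le_of_sq_le_sq' ?_ (by positivity) |>.2
  nlinarith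

/-- separation on the support of `χ`: `|x - y_i| ≥ (r - 1)/2`. -/
theorem sep_of_sRatio_le {X : Config 3} (h : sRatio X ≤ 1 / 5) (i : Fin 3) (hi : i ≠ 0) :
    (‖X 0‖ - 1) / 2 ≤ ‖X 0 - X i‖ := by
  have h1 := sep_of_sRatio_le_aux h i hi
  have h2 := norm_sub_norm_le (X 0) (X i)
  linarith

/-- separation on the support of `ζ`: `|x - y_i| ≥ ϱ/5 - 1`. -/
theorem sep_of_sRatio_le' {X : Config 3} (h : sRatio X ≤ 9 / 25) (i : Fin 3) (hi : i ≠ 0) :
    rho X / 5 - 1 ≤ ‖X 0 - X i‖ := by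
  rw [sRatio_le_iff] at h
  have h0 := norm_nonneg (X 0)
  have hρ := rho_pos X
  have hρ2 := rho_sq X
  rw [Fin.sum_univ_three] at hρ2
  have hi2 : ‖X i‖ ^ 2 ≤ ‖X 1‖ ^ 2 + ‖X 2‖ ^ 2 := by
    fin_cases i
    · exact absurd rfl hi
    · simp
    · simp
  have h1 : ‖X i‖ ≤ 3 / 5 * rho X := by
    refine abs_le_of_sq_le_sq' ?_ (by positivity) |>.2
    nlinarith
  have h2 : 4 / 5 * rho X - 1 ≤ ‖X 0‖ := by
    by_contra hc
    have hc' : ‖X 0‖ < 4 / 5 * rho X - 1 := not_le.1 hc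
    have : ‖X 0‖ ^ 2 < (4 / 5 * rho X - 1) ^ 2 := by nlinarith
    nlinarith
  have h3 := norm_sub_norm_le (X 0) (X i)
  linarith

/-- invariance of the cutoffs under the exchange of the electrons `1, 2`, under rotations about the axis and under the
reflection (they depend only on `|X i|`). -/
theorem sRatio_eq_of_norm_eq {X Y : Config 3} (h0 : ‖X 0‖ = ‖Y 0‖)
    (h : ‖X 1‖ ^ 2 + ‖X 2‖ ^ 2 = ‖Y 1‖ ^ 2 + ‖Y 2‖ ^ 2) : sRatio X = sRatio Y := by
  unfold sRatio
  rw [Fin.sum_univ_three, Fin.sum_univ_three, add_assoc (‖X 0‖ ^ 2), add_assoc (‖Y 0‖ ^ 2), h, h0]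

end U1

/-! ## LEAF AG-U2: the cutoff interaction -/

section U2

/-- `W` is exact on the support of `χ` in the exterior region. -/
theorem Wfun_eq {X : Config 3} (h : sRatio X ≤ 1 / 5) (hr : 3 ≤ ‖X 0‖) :
    Wfun X = 1 / ‖X 0 - X 1‖ + 1 / ‖X 0 - X 2‖ := by
  unfold Wfun
  have h1 := sep_of_sRatio_le h 1 (by decide)
  have h2 := sep_of_sRatio_le h 2 (by decide)
  rw [zeta_eq_one h, one_mul, regK_eq one_pos (by linarith), regK_eq one_pos (by linarith)]

theorem Wfun_nonneg (X : Config 3) : 0 ≤ Wfun X :=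
  mul_nonneg (zeta_mem X).1 (add_nonneg (regK_nonneg _ _) (regK_nonneg _ _))

/-- product of a symbol with a smooth function which satisfies symbol estimates on the support of the first factor. -/
theorem Sym.mul_of_tsupport {m : ℕ} {a b : ℝ} {f g : Config m → ℝ} (hf : Sym a f) (hg : ContDiff ℝ ∞ g)
    (hgb : ∀ k : ℕ, ∃ C : ℝ, ∀ X ∈ tsupport f, ‖iteratedFDeriv ℝ k g X‖ ≤ C * rho X ^ (b - k)) :
    Sym (a + b) (fun X => f X * g X) := by
  refine ⟨hf.1.mul hg, fun k => ?_⟩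
  obtain ⟨A, hA0, hA⟩ := Sym.exists_bound hf k
  choose C hC using hgb
  set B : ℝ := ∑ i ∈ Finset.range (k + 1), |C i| with hBdef
  have hB0 : 0 ≤ B := Finset.sum_nonneg fun _ _ => abs_nonneg _
  have hB : ∀ i ≤ k, ∀ X ∈ tsupport f, ‖iteratedFDeriv ℝ i g X‖ ≤ B * rho X ^ (b - i) := by
    intro i hi X hX
    refine (hC i X hX).trans (mul_le_mul_of_nonneg_right ?_ (Real.rpow_pos_of_pos (rho_pos X) _).le)
    exact (le_abs_self _).trans
      (Finset.single_le_sum (f := fun i => |C i|) (fun _ _ => abs_nonneg _) (Finset.mem_range.2 (by omega)))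
  refine ⟨2 ^ k * (A * B), fun X => ?_⟩
  have hρ := rho_pos X
  by_cases hX : X ∈ tsupport f
  · have h1 := norm_iteratedFDeriv_mul_le hf.1 hg X (n := k) (by exact_mod_cast le_top)
    refine h1.trans ?_
    have h2 : ∀ i ∈ Finset.range (k + 1),
        (k.choose i : ℝ) * ‖iteratedFDeriv ℝ i f X‖ * ‖iteratedFDeriv ℝ (k - i) g X‖
        ≤ (k.choose i : ℝ) * (A * B * rho X ^ (a + b - k)) := by
      intro i hi
      have hik : i ≤ k := by have := Finset.mem_range.1 hi; omega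
      rw [mul_assoc]
      refine mul_le_mul_of_nonneg_left ?_ (by positivity)
      have e : rho X ^ (a + b - k) = rho X ^ (a - i) * rho X ^ (b - ((k - i : ℕ) : ℝ)) := by
        rw [← Real.rpow_add hρ, Nat.cast_sub hik]
        congr 1; ring
      rw [e]
      calc _ ≤ (A * rho X ^ (a - i)) * (B * rho X ^ (b - ((k - i : ℕ) : ℝ))) :=
            mul_le_mul (hA i hik X) (hB (k - i) (by omega) X hX) (norm_nonneg _)
              (mul_nonneg hA0 (Real.rpow_pos_of_pos hρ _).le)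
        _ = _ := by ring
    refine (Finset.sum_le_sum h2).trans (le_of_eq ?_)
    rw [← Finset.sum_mul, ← Nat.cast_sum, Nat.sum_range_choose]
    push_cast
    ring
  · have h0 : (fun X => f X * g X) =ᶠ[𝓝 X] fun _ => 0 := by
      filter_upwards [(isClosed_tsupport f).isOpen_compl.mem_nhds hX] with Z hZ
      rw [image_eq_zero_of_notMem_tsupport hZ, zero_mul]
    rw [(h0.iteratedFDeriv ℝ k).eq_of_nhds]
    have : iteratedFDeriv ℝ k (fun _ : Config m => (0 : ℝ)) X = 0 := by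
      have := iteratedFDeriv_fun_zero (𝕜 := ℝ) (E := Config m) (F := ℝ) (n := k)
      exact congrFun this X
    rw [this, norm_zero]
    have := (Real.rpow_pos_of_pos hρ (a + b - k)).le
    positivity

theorem sym_zeta_mul_regK (i : Fin 3) (hi : i ≠ 0) : Sym (-1) (fun X : Config 3 => zeta X * regK 1 (X 0 - X i)) := by
  have hsm : ContDiff ℝ ∞ (fun X : Config 3 => regK 1 (X 0 - X i)) :=
    (contDiff_regK one_pos).comp (diffL 0 i).contDiff
  have h := Sym.mul_of_tsupport (b := -1) sym_zeta hsm fun k => ?_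
  · rwa [zero_add] at h
  obtain ⟨C, hC0, hC⟩ := regK_bound one_pos k
  refine ⟨C * (5 : ℝ) ^ (1 + (k : ℝ)) * ‖(diffL 0 i : Config 3 →L[ℝ] Space)‖ ^ k, fun X hX => ?_⟩
  have hρ := rho_pos X
  have e := (diffL 0 i : Config 3 →L[ℝ] Space).iteratedFDeriv_comp_right (contDiff_regK one_pos) X (i := k)
    (by exact_mod_cast le_top)
  have e' : (regK 1) ∘ (diffL 0 i : Config 3 →L[ℝ] Space) = fun X : Config 3 => regK 1 (X 0 - X i) := rfl
  rw [e'] at e
  rw [e]
  refine (ContinuousMultilinearMap.norm_compContinuousLinearMap_le _ _).trans ?_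
  simp only [Finset.prod_const, Finset.card_univ, Fintype.card_fin]
  have hsep := sep_of_sRatio_le' (sRatio_le_of_mem_tsupport_zeta hX) i hi
  have hz : (diffL 0 i : Config 3 →L[ℝ] Space) X = X 0 - X i := rfl
  have h1 : (1 + ‖X 0 - X i‖) ^ (-1 - (k : ℝ)) ≤ (rho X / 5) ^ (-1 - (k : ℝ)) :=
    Real.rpow_le_rpow_of_nonpos (by positivity) (by linarith) (by
      have : (0 : ℝ) ≤ k := by positivity
      linarith)
  have h2 : (rho X / 5) ^ (-1 - (k : ℝ)) = (5 : ℝ) ^ (1 + (k : ℝ)) * rho X ^ (-1 - (k : ℝ)) := by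
    rw [Real.div_rpow hρ.le (by norm_num), div_eq_mul_inv, ← Real.rpow_neg (by norm_num), mul_comm]
    congr 2; ring
  calc ‖iteratedFDeriv ℝ k (regK 1) ((diffL 0 i : Config 3 →L[ℝ] Space) X)‖ * ‖(diffL 0 i : Config 3 →L[ℝ] Space)‖ ^ k
      ≤ (C * ((5 : ℝ) ^ (1 + (k : ℝ)) * rho X ^ (-1 - (k : ℝ)))) * ‖(diffL 0 i : Config 3 →L[ℝ] Space)‖ ^ k := by
        refine mul_le_mul_of_nonneg_right ?_ (by positivity)
        refine (hC _).trans (mul_le_mul_of_nonneg_left ?_ hC0)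
        rw [hz, ← h2]
        exact h1
    _ = _ := by ring

/-- **(3.9)** `W` is a symbol of order `-1`.  (Leibniz; on `tsupport zeta`: `1 + |x - y_i| ≥ ϱ/5`, `regK_bound`,
`ContinuousLinearMap.iteratedFDeriv_comp_right` for `X ↦ X 0 - X i`; off `tsupport zeta` everything vanishes.) -/
theorem sym_Wfun : Sym (-1) Wfun := by
  have h := Sym.add (sym_zeta_mul_regK 1 (by decide)) (sym_zeta_mul_regK 2 (by decide))
  have e : (fun X : Config 3 => zeta X * regK 1 (X 0 - X 1) + zeta X * regK 1 (X 0 - X 2)) = Wfun := by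
    funext X; unfold Wfun; ring
  rwa [e] at h

end U2

/-! ## LEAF AG-U3: bumps -/

section U3

theorem contDiff_bumpProfile : ContDiff ℝ ∞ bumpProfile := by
  unfold bumpProfile
  refine Real.contDiff_cos.comp (contDiff_const.mul (Real.smoothTransition.contDiff.comp ?_))
  exact ((contDiff_const.mul (contDiff_norm_sq ℝ)).div_const _).sub contDiff_const

theorem bumpProfile_eq_one {z : Space} (h : ‖z‖ ≤ 1 / 2) : bumpProfile z = 1 := by
  unfold bumpProfile
  have h0 := norm_nonneg z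
  rw [Real.smoothTransition.zero_of_nonpos (by nlinarith)]
  simp

theorem bumpProfile_eq_zero {z : Space} (h : 1 ≤ ‖z‖) : bumpProfile z = 0 := by
  unfold bumpProfile
  rw [Real.smoothTransition.one_of_one_le (by nlinarith)]
  simp

theorem bddDeriv_bumpProfile : BddDeriv bumpProfile := by
  refine bddDeriv_of_compact contDiff_bumpProfile (c := 0) (isCompact_closedBall (0 : Space) 1) fun z hz => ?_
  refine bumpProfile_eq_zero ?_
  rw [mem_closedBall_zero_iff, not_le] at hz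
  exact hz.le

theorem bumpProfile_mem (z : Space) : 0 ≤ bumpProfile z ∧ bumpProfile z ≤ 1 := by
  refine ⟨?_, Real.cos_le_one _⟩
  have h0 := Real.smoothTransition.nonneg (4 * ‖z‖ ^ 2 / 3 - 1 / 3)
  have h1 := Real.smoothTransition.le_one (4 * ‖z‖ ^ 2 / 3 - 1 / 3)
  have hp := Real.pi_pos
  exact Real.cos_nonneg_of_neg_pi_div_two_le_of_le (by nlinarith) (by nlinarith)

/-- uniform bounds for the bumps (`BddDeriv.comp_affine` with `L = evL 0`). -/
theorem bump_bound (k : ℕ) : ∃ C : ℝ, 0 ≤ C ∧ ∀ (x₀ : Space), ContDiff ℝ ∞ (bump x₀) ∧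
    ∀ i ≤ k, ∀ X, ‖iteratedFDeriv ℝ i (bump x₀) X‖ ≤ C := by
  choose C hC using BddDeriv.comp_affine bddDeriv_bumpProfile (evL (m := 3) 0)
  refine ⟨∑ i ∈ Finset.range (k + 1), |C i|, Finset.sum_nonneg fun _ _ => abs_nonneg _, fun x₀ =>
    ⟨(hC 0 x₀ 0).1, fun i hi X => ?_⟩⟩
  refine ((hC i x₀ X).2.trans (le_abs_self _)).trans ?_
  exact Finset.single_le_sum (f := fun i => |C i|) (fun _ _ => abs_nonneg _) (Finset.mem_range.2 (by omega))

theorem norm_sub_le_of_mem_tsupport_bump {x₀ : Space} {X : Config 3} (h : X ∈ tsupport (bump x₀)) :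
    ‖X 0 - x₀‖ ≤ 1 := by
  refine closure_minimal (t := {X : Config 3 | ‖X 0 - x₀‖ ≤ 1}) (fun Y hY => ?_)
    (isClosed_le ((continuous_apply 0).sub continuous_const).norm continuous_const) h
  by_contra hc
  apply hY
  exact bumpProfile_eq_zero (not_le.1 hc).le

/-- **The basic multipliers.**  `η = bump x₀ · c`, `c` with bounded derivatives: admissible for the weight `e^{τϱ}` with
`K = C e^{-τ m}` as soon as `ϱ ≥ m` on `tsupport (bump x₀) ∩ tsupport c`.  (`Adm.of_bdd`, Leibniz.) -/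
theorem adm_bump_mul (k : ℕ) {c : Config 3 → ℝ} (hc : BddDeriv c) :
    ∃ C : ℝ, 0 ≤ C ∧ ∀ (x₀ : Space) (U : Set (Config 3)) (τ mm : ℝ), 0 ≤ τ →
      tsupport (bump x₀) ∩ tsupport c ⊆ U → (∀ X ∈ tsupport (bump x₀) ∩ tsupport c, mm ≤ rho X) →
      Adm U (fun X => Real.exp (τ * rho X)) k (C * Real.exp (-(τ * mm))) (fun X => bump x₀ X * c X) := by
  obtain ⟨A, hA0, hA⟩ := bump_bound k
  obtain ⟨B, hB0, hB⟩ := BddDeriv.exists_bound hc k
  refine ⟨2 ^ k * A * B, by positivity, fun x₀ U τ mm hτ hU hm => ?_⟩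
  have hsub : tsupport (fun X => bump x₀ X * c X) ⊆ tsupport (bump x₀) ∩ tsupport c :=
    subset_inter (tsupport_mul_subset_left) (tsupport_mul_subset_right)
  have h := Adm.of_bdd (U := U) (w := fun X => Real.exp (τ * rho X)) (k := k) (B := 2 ^ k * A * B)
    (m := Real.exp (τ * mm)) (η := fun X => bump x₀ X * c X) ((hA x₀).1.mul hc.1) (hsub.trans hU) ?_
    (Real.exp_pos _) (fun X => (Real.exp_pos _).le) ?_
  · rwa [div_eq_mul_inv, ← Real.exp_neg] at h
  · intro i hi X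
    have h1 := norm_iteratedFDeriv_mul_le_two_pow' (hA x₀).1 hc.1 (n := i) (a := A) (b := B) X
      (fun j hj => (hA x₀).2 j (hj.trans hi) X) (fun j hj => hB j (hj.trans hi) X)
    refine h1.trans ?_
    have : (2 : ℝ) ^ i ≤ 2 ^ k := pow_le_pow_right₀ (by norm_num) hi
    exact mul_le_mul_of_nonneg_right (mul_le_mul_of_nonneg_right this hA0) hB0
  · intro X hX
    exact Real.exp_le_exp.2 (mul_le_mul_of_nonneg_left (hm X (hsub hX)) hτ)

end U3

/-! ## LEAF AG-U4: the cluster partition -/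

section U4

/-- `cos (π/2 · T((|z|² - lo²)/(hi² - lo²)))`: `1` for `|z| ≤ lo`, `0` for `|z| ≥ hi`. -/
def cutC (lo hi : ℝ) (z : Space) : ℝ :=
  Real.cos (Real.pi / 2 * Real.smoothTransition ((‖z‖ ^ 2 - lo ^ 2) / (hi ^ 2 - lo ^ 2)))

/-- `sin (π/2 · T((|z|² - lo²)/(hi² - lo²)))`: `0` for `|z| ≤ lo`, `1` for `|z| ≥ hi`. -/
def cutS (lo hi : ℝ) (z : Space) : ℝ :=
  Real.sin (Real.pi / 2 * Real.smoothTransition ((‖z‖ ^ 2 - lo ^ 2) / (hi ^ 2 - lo ^ 2)))

theorem cutC_sq_add (lo hi : ℝ) (z : Space) : cutC lo hi z ^ 2 + cutS lo hi z ^ 2 = 1 :=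
  Real.cos_sq_add_sin_sq _

theorem cutS_eq_zero {lo hi : ℝ} (h0 : 0 ≤ lo) (h : lo < hi) {z : Space} (hz : ‖z‖ ≤ lo) : cutS lo hi z = 0 := by
  unfold cutS
  have h1 := norm_nonneg z
  rw [Real.smoothTransition.zero_of_nonpos (div_nonpos_of_nonpos_of_nonneg (by nlinarith) (by nlinarith))]
  simp

theorem cut_arg_ge {lo hi : ℝ} (h0 : 0 ≤ lo) (h : lo < hi) {z : Space} (hz : hi ≤ ‖z‖) :
    1 ≤ (‖z‖ ^ 2 - lo ^ 2) / (hi ^ 2 - lo ^ 2) := by
  rw [one_le_div (by nlinarith)]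
  nlinarith

theorem cutC_eq_zero {lo hi : ℝ} (h0 : 0 ≤ lo) (h : lo < hi) {z : Space} (hz : hi ≤ ‖z‖) : cutC lo hi z = 0 := by
  unfold cutC
  rw [Real.smoothTransition.one_of_one_le (cut_arg_ge h0 h hz)]
  simp

theorem cutS_eq_one {lo hi : ℝ} (h0 : 0 ≤ lo) (h : lo < hi) {z : Space} (hz : hi ≤ ‖z‖) : cutS lo hi z = 1 := by
  unfold cutS
  rw [Real.smoothTransition.one_of_one_le (cut_arg_ge h0 h hz)]
  simp

theorem contDiff_cut_arg (lo hi : ℝ) :
    ContDiff ℝ ∞ (fun z : Space => Real.pi / 2 * Real.smoothTransition ((‖z‖ ^ 2 - lo ^ 2) / (hi ^ 2 - lo ^ 2))) :=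
  contDiff_const.mul (Real.smoothTransition.contDiff.comp (((contDiff_norm_sq ℝ).sub contDiff_const).div_const _))

theorem bddDeriv_cutC {lo hi : ℝ} (h0 : 0 ≤ lo) (h : lo < hi) : BddDeriv (cutC lo hi) := by
  refine bddDeriv_of_compact (Real.contDiff_cos.comp (contDiff_cut_arg lo hi)) (c := 0)
    (isCompact_closedBall (0 : Space) hi) fun z hz => ?_
  rw [mem_closedBall_zero_iff, not_le] at hz
  exact cutC_eq_zero h0 h hz.le

theorem bddDeriv_cutS {lo hi : ℝ} (h0 : 0 ≤ lo) (h : lo < hi) : BddDeriv (cutS lo hi) := by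
  refine bddDeriv_of_compact (Real.contDiff_sin.comp (contDiff_cut_arg lo hi)) (c := 1)
    (isCompact_closedBall (0 : Space) hi) fun z hz => ?_
  rw [mem_closedBall_zero_iff, not_le] at hz
  exact cutS_eq_one h0 h hz.le

theorem BddDeriv.comp_clm {V V' : Type*} [NormedAddCommGroup V] [NormedSpace ℝ V] [FiniteDimensional ℝ V]
    [NormedAddCommGroup V'] [NormedSpace ℝ V'] {f : V → ℝ}
    (hf : BddDeriv f) (L : V' →L[ℝ] V) : BddDeriv (fun z => f (L z)) := by
  have h := BddDeriv.comp_affine hf L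
  refine ⟨hf.1.comp L.contDiff, fun k => ?_⟩
  obtain ⟨C, hC⟩ := h k
  refine ⟨C, fun z => ?_⟩
  have := (hC 0 z).2
  simpa only [sub_zero] using this

/-- if `x = X 0` is `5ε` away from the nuclei then the whole cluster is `ε`-away. -/
theorem mem_regNuc_of_cluster {ε : ℝ} {S : Finset (Fin 3)} {X : Config 3}
    (h : ∀ i ∈ S, ‖X i - X 0‖ ≤ 4 * ε) (h1 : 5 * ε ≤ ‖X 0 - bigD • ez‖) (h2 : 5 * ε ≤ ‖X 0 + bigD • ez‖) :
    X ∈ regNuc ε S := by
  intro i hi
  have h3 := h i hi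
  constructor
  · have : ‖X 0 - bigD • ez‖ ≤ ‖X i - bigD • ez‖ + ‖X i - X 0‖ := by
      have e : X 0 - bigD • ez = (X i - bigD • ez) - (X i - X 0) := by abel
      rw [e]; exact norm_sub_le _ _
    linarith
  · have : ‖X 0 + bigD • ez‖ ≤ ‖X i + bigD • ez‖ + ‖X i - X 0‖ := by
      have e : X 0 + bigD • ez = (X i + bigD • ez) - (X i - X 0) := by abel
      rw [e]; exact norm_sub_le _ _
    linarith

/-- **Quadratic partition of unity by clusters** (paper: product of the identities `1 = χ_ij + (1 - χ_ij)`; here a variant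
with six pieces which only uses the distances to the distinguished electron, at the two scales `ε` and `3ε`).

With `z_i = X 0 - X i`, `T = smoothTransition`: `a¹_i = cos² (π/2 · T((|z_i|²/ε² - 1)/3))` (`1` for `|z_i| ≤ ε`, `0` for `|z_i| ≥ 2ε`),
`a²_i = cos² (π/2 · T((|z_i|²/ε² - 9)/7))` (`1` for `|z_i| ≤ 3ε`, `0` for `|z_i| ≥ 4ε`), so `a¹ (1 - a²) = 0`, and `a`, `1 - a` are the squares of
the smooth functions `cos (..)`, `sin (..)` (each is constant outside a compact set of `z_i`: `bddDeriv_of_compact`,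
`BddDeriv.comp_affine` with `diffL 0 i`).
Pieces (`j_p²`) and clusters:
`(1-a¹₁)(1-a¹₂) → {0}`;  `a¹₁ (1-a²₂) → {0,1}`;  `a¹₂ (1-a²₁) → {0,2}`;
`a¹₁ a¹₂`, `a¹₁ (1-a¹₂) a²₂`, `(1-a¹₁) a¹₂ a²₁ → {0,1,2}`.  They sum to `1`: `a¹₁a¹₂ + a¹₁(1-a¹₂)a²₂ + a¹₁(1-a²₂) = a¹₁ (1 + a¹₂(1-a²₂)) = a¹₁`,
`(1-a¹₁)a¹₂a²₁ + a¹₂(1-a²₁) = a¹₂ (1 - a¹₁a²₁) = a¹₂ (1-a¹₁)`, and `(1-a¹₁)(1-a¹₂) + a¹₁ + a¹₂(1-a¹₁) = 1`.  On the piece `{0,1}`: `|z_1| ≤ 2ε`, `|z_2| ≥ 3ε`, hence `|X 1 - X 2| ≥ ε`. -/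
theorem exists_cluster_partition {ε : ℝ} (hε : 0 < ε) :
    ∃ (S : Fin 6 → Finset (Fin 3)) (j : Fin 6 → Config 3 → ℝ), (∀ p, 0 ∈ S p) ∧ (∀ p, BddDeriv (j p)) ∧
      (∀ X, ∑ p, j p X ^ 2 = 1) ∧
      (∀ p, tsupport (j p) ⊆ regSep ε (S p)) ∧
      (∀ p, ∀ X ∈ tsupport (j p), ∀ i ∈ S p, ‖X i - X 0‖ ≤ 4 * ε) := by
  set c1 : Fin 3 → Config 3 → ℝ := fun i X => cutC ε (2 * ε) (X 0 - X i) with hc1d
  set s1 : Fin 3 → Config 3 → ℝ := fun i X => cutS ε (2 * ε) (X 0 - X i) with hs1d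
  set c2 : Fin 3 → Config 3 → ℝ := fun i X => cutC (3 * ε) (4 * ε) (X 0 - X i) with hc2d
  set s2 : Fin 3 → Config 3 → ℝ := fun i X => cutS (3 * ε) (4 * ε) (X 0 - X i) with hs2d
  have l1 : ε < 2 * ε := by linarith
  have l2 : 3 * ε < 4 * ε := by linarith
  have l3 : 0 ≤ 3 * ε := by linarith
  have bc1 : ∀ i, BddDeriv (c1 i) := fun i => BddDeriv.comp_clm (bddDeriv_cutC hε.le l1) (diffL 0 i)
  have bs1 : ∀ i, BddDeriv (s1 i) := fun i => BddDeriv.comp_clm (bddDeriv_cutS hε.le l1) (diffL 0 i)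
  have bc2 : ∀ i, BddDeriv (c2 i) := fun i => BddDeriv.comp_clm (bddDeriv_cutC l3 l2) (diffL 0 i)
  have bs2 : ∀ i, BddDeriv (s2 i) := fun i => BddDeriv.comp_clm (bddDeriv_cutS l3 l2) (diffL 0 i)
  have nc1 : ∀ i X, c1 i X ≠ 0 → ‖X 0 - X i‖ ≤ 2 * ε := fun i X h => by
    by_contra hc
    exact h (cutC_eq_zero hε.le l1 (not_le.1 hc).le)
  have ns1 : ∀ i X, s1 i X ≠ 0 → ε ≤ ‖X 0 - X i‖ := fun i X h => by
    by_contra hc
    exact h (cutS_eq_zero hε.le l1 (not_le.1 hc).le)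
  have nc2 : ∀ i X, c2 i X ≠ 0 → ‖X 0 - X i‖ ≤ 4 * ε := fun i X h => by
    by_contra hc
    exact h (cutC_eq_zero l3 l2 (not_le.1 hc).le)
  have ns2 : ∀ i X, s2 i X ≠ 0 → 3 * ε ≤ ‖X 0 - X i‖ := fun i X h => by
    by_contra hc
    exact h (cutS_eq_zero l3 l2 (not_le.1 hc).le)
  have cn : ∀ i : Fin 3, Continuous fun X : Config 3 => ‖X 0 - X i‖ := fun i =>
    ((continuous_apply 0).sub (continuous_apply i)).norm
  have cle : ∀ (i : Fin 3) (c : ℝ), IsClosed {X : Config 3 | ‖X 0 - X i‖ ≤ c} := fun i c =>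
    isClosed_le (cn i) continuous_const
  have cge : ∀ (i : Fin 3) (c : ℝ), IsClosed {X : Config 3 | c ≤ ‖X 0 - X i‖} := fun i c =>
    isClosed_le continuous_const (cn i)
  have t0 : ∀ X ∈ tsupport (fun X => s1 1 X * s1 2 X), ε ≤ ‖X 0 - X 1‖ ∧ ε ≤ ‖X 0 - X 2‖ := fun X hX =>
    closure_minimal (t := {X : Config 3 | ε ≤ ‖X 0 - X 1‖} ∩ {X : Config 3 | ε ≤ ‖X 0 - X 2‖})
      (fun Y hY => ⟨ns1 1 Y (left_ne_zero_of_mul hY), ns1 2 Y (right_ne_zero_of_mul hY)⟩)
      ((cge 1 _).inter (cge 2 _)) hX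
  have t1 : ∀ X ∈ tsupport (fun X => c1 1 X * s2 2 X), ‖X 0 - X 1‖ ≤ 2 * ε ∧ 3 * ε ≤ ‖X 0 - X 2‖ := fun X hX =>
    closure_minimal (t := {X : Config 3 | ‖X 0 - X 1‖ ≤ 2 * ε} ∩ {X : Config 3 | 3 * ε ≤ ‖X 0 - X 2‖})
      (fun Y hY => ⟨nc1 1 Y (left_ne_zero_of_mul hY), ns2 2 Y (right_ne_zero_of_mul hY)⟩)
      ((cle 1 _).inter (cge 2 _)) hX
  have t2 : ∀ X ∈ tsupport (fun X => c1 2 X * s2 1 X), ‖X 0 - X 2‖ ≤ 2 * ε ∧ 3 * ε ≤ ‖X 0 - X 1‖ := fun X hX =>
    closure_minimal (t := {X : Config 3 | ‖X 0 - X 2‖ ≤ 2 * ε} ∩ {X : Config 3 | 3 * ε ≤ ‖X 0 - X 1‖})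
      (fun Y hY => ⟨nc1 2 Y (left_ne_zero_of_mul hY), ns2 1 Y (right_ne_zero_of_mul hY)⟩)
      ((cle 2 _).inter (cge 1 _)) hX
  have t3 : ∀ X ∈ tsupport (fun X => c1 1 X * c1 2 X), ‖X 0 - X 1‖ ≤ 2 * ε ∧ ‖X 0 - X 2‖ ≤ 2 * ε := fun X hX =>
    closure_minimal (t := {X : Config 3 | ‖X 0 - X 1‖ ≤ 2 * ε} ∩ {X : Config 3 | ‖X 0 - X 2‖ ≤ 2 * ε})
      (fun Y hY => ⟨nc1 1 Y (left_ne_zero_of_mul hY), nc1 2 Y (right_ne_zero_of_mul hY)⟩)
      ((cle 1 _).inter (cle 2 _)) hX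
  have t4 : ∀ X ∈ tsupport (fun X => c1 1 X * (s1 2 X * c2 2 X)), ‖X 0 - X 1‖ ≤ 2 * ε ∧ ‖X 0 - X 2‖ ≤ 4 * ε :=
    fun X hX =>
    closure_minimal (t := {X : Config 3 | ‖X 0 - X 1‖ ≤ 2 * ε} ∩ {X : Config 3 | ‖X 0 - X 2‖ ≤ 4 * ε})
      (fun Y hY => ⟨nc1 1 Y (left_ne_zero_of_mul hY),
        nc2 2 Y (right_ne_zero_of_mul (right_ne_zero_of_mul hY))⟩)
      ((cle 1 _).inter (cle 2 _)) hX
  have t5 : ∀ X ∈ tsupport (fun X => s1 1 X * (c1 2 X * c2 1 X)), ‖X 0 - X 2‖ ≤ 2 * ε ∧ ‖X 0 - X 1‖ ≤ 4 * ε :=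
    fun X hX =>
    closure_minimal (t := {X : Config 3 | ‖X 0 - X 2‖ ≤ 2 * ε} ∩ {X : Config 3 | ‖X 0 - X 1‖ ≤ 4 * ε})
      (fun Y hY => ⟨nc1 2 Y (left_ne_zero_of_mul (right_ne_zero_of_mul hY)),
        nc2 1 Y (right_ne_zero_of_mul (right_ne_zero_of_mul hY))⟩)
      ((cle 2 _).inter (cle 1 _)) hX
  refine ⟨![{0}, {0, 1}, {0, 2}, Finset.univ, Finset.univ, Finset.univ],
    ![fun X => s1 1 X * s1 2 X, fun X => c1 1 X * s2 2 X, fun X => c1 2 X * s2 1 X, fun X => c1 1 X * c1 2 X,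
      fun X => c1 1 X * (s1 2 X * c2 2 X), fun X => s1 1 X * (c1 2 X * c2 1 X)], ?_, ?_, ?_, ?_, ?_⟩
  · intro p
    fin_cases p <;> simp
  · intro p
    fin_cases p
    · exact (bs1 1).mul (bs1 2)
    · exact (bc1 1).mul (bs2 2)
    · exact (bc1 2).mul (bs2 1)
    · exact (bc1 1).mul (bc1 2)
    · exact (bc1 1).mul ((bs1 2).mul (bc2 2))
    · exact (bs1 1).mul ((bc1 2).mul (bc2 1))
  · intro X
    rw [Fin.sum_univ_six]
    show (s1 1 X * s1 2 X) ^ 2 + (c1 1 X * s2 2 X) ^ 2 + (c1 2 X * s2 1 X) ^ 2 + (c1 1 X * c1 2 X) ^ 2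
      + (c1 1 X * (s1 2 X * c2 2 X)) ^ 2 + (s1 1 X * (c1 2 X * c2 1 X)) ^ 2 = 1
    have hcs1 : ∀ i, s1 i X ^ 2 = 1 - c1 i X ^ 2 := fun i => by
      have := cutC_sq_add ε (2 * ε) (X 0 - X i)
      simp only [hs1d, hc1d]; linarith
    have hcs2 : ∀ i, s2 i X ^ 2 = 1 - c2 i X ^ 2 := fun i => by
      have := cutC_sq_add (3 * ε) (4 * ε) (X 0 - X i)
      simp only [hs2d, hc2d]; linarith
    have hz : ∀ i, c1 i X ^ 2 * (1 - c2 i X ^ 2) = 0 := fun i => by
      rw [← hcs2]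
      by_cases h : c1 i X = 0
      · rw [h]; ring
      · have h1 := nc1 i X h
        have : s2 i X = 0 := cutS_eq_zero l3 l2 (by linarith)
        rw [this]; ring
    simp only [mul_pow, hcs1, hcs2]
    linear_combination (c1 1 X ^ 2) * hz 2 + (c1 2 X ^ 2) * hz 1
  · intro p
    fin_cases p
    · intro X hX i hi j hj
      obtain ⟨h1, h2⟩ := t0 X hX
      have hi0 : i = 0 := by simpa using hi
      subst hi0
      fin_cases j
      · exact absurd (by simp) hj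
      · exact h1
      · exact h2
    · intro X hX i hi j hj
      obtain ⟨h1, h2⟩ := t1 X hX
      have hj2 : j = 2 := by
        fin_cases j
        · exact absurd (by simp) hj
        · exact absurd (by simp) hj
        · rfl
      subst hj2
      have hi' : i = 0 ∨ i = 1 := by simpa using hi
      rcases hi' with rfl | rfl
      · linarith
      · have : ‖X 0 - X 2‖ ≤ ‖X 0 - X 1‖ + ‖X 1 - X 2‖ := by
          have e : X 0 - X 2 = (X 0 - X 1) + (X 1 - X 2) := by abel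
          rw [e]; exact norm_add_le _ _
        linarith
    · intro X hX i hi j hj
      obtain ⟨h1, h2⟩ := t2 X hX
      have hj2 : j = 1 := by
        fin_cases j
        · exact absurd (by simp) hj
        · rfl
        · exact absurd (by simp) hj
      subst hj2
      have hi' : i = 0 ∨ i = 2 := by simpa using hi
      rcases hi' with rfl | rfl
      · linarith
      · have : ‖X 0 - X 1‖ ≤ ‖X 0 - X 2‖ + ‖X 2 - X 1‖ := by
          have e : X 0 - X 1 = (X 0 - X 2) + (X 2 - X 1) := by abel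
          rw [e]; exact norm_add_le _ _
        linarith
    · intro X _ i _ j hj
      exact absurd (Finset.mem_univ j) hj
    · intro X _ i _ j hj
      exact absurd (Finset.mem_univ j) hj
    · intro X _ i _ j hj
      exact absurd (Finset.mem_univ j) hj
  · have key : ∀ X : Config 3, ‖X 0 - X 1‖ ≤ 4 * ε → ‖X 0 - X 2‖ ≤ 4 * ε → ∀ i, ‖X i - X 0‖ ≤ 4 * ε := by
      intro X h1 h2 i
      rw [norm_sub_rev]
      fin_cases i
      · simp; linarith
      · exact h1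
      · exact h2
    intro p
    fin_cases p
    · intro X hX i hi
      have hi0 : i = 0 := by simpa using hi
      subst hi0
      simp; linarith
    · intro X hX i hi
      obtain ⟨h1, h2⟩ := t1 X hX
      have hi' : i = 0 ∨ i = 1 := by simpa using hi
      rcases hi' with rfl | rfl
      · simp; linarith
      · rw [norm_sub_rev]; linarith
    · intro X hX i hi
      obtain ⟨h1, h2⟩ := t2 X hX
      have hi' : i = 0 ∨ i = 2 := by simpa using hi
      rcases hi' with rfl | rfl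
      · simp; linarith
      · rw [norm_sub_rev]; linarith
    · intro X hX i _
      obtain ⟨h1, h2⟩ := t3 X hX
      exact key X (by linarith) (by linarith) i
    · intro X hX i _
      obtain ⟨h1, h2⟩ := t4 X hX
      exact key X (by linarith) (by linarith) i
    · intro X hX i _
      obtain ⟨h1, h2⟩ := t5 X hX
      exact key X (by linarith) (by linarith) i

end U4

end Claimed.Open.R278.AG
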