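import Claimed.Open.R278.FSBridge

/-!
# Result 278, kit FS, file 3: Hardy and Coulomb inequalities, form domains of the Coulomb Hamiltonians

GENERIC SETTING.  `X` finite dimensional with Haar measure `μ`; `ℓ : X →L[ℝ] Space` a linear map ("the coordinate in which
the singularity sits": `x ↦ x i`, `x ↦ x i - x j`, `id`), `v a : X` (`a : Fin 3`) directions with `ℓ (v a) = e_a`;
`f : X → H` Hilbert valued with `∂_{v a} f = g a`, all in `L²`.  Put `y = ℓ x - c`, `ρ = ‖y‖`.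

ROUTE (no polar coordinates, no capacity argument): for a bounded `C¹` field `W : Space → ℝ³` with bounded derivatives
  `∫ (div W)(y) ‖f‖² = - 2 ∑ₐ ∫ Wₐ(y) Re⟪f, gₐ⟫`                                      (`integral_div_field`)
(`WD.norm_sq`, `WD.smul_left`, `WD.integral_eq_zero`; `∂_{v a} [Wₐ(ℓ x - c)] = (∂ₐWₐ)(ℓ x - c)`).
* Hardy:   `W = y/(ρ²+ε)`,   `div W = 3/(ρ²+ε) - 2ρ²/(ρ²+ε)² ≥ 1/(ρ²+ε)`, `|W|² ≤ 1/(ρ²+ε)`; Cauchy–Schwarz gives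
  `I_ε ≤ 2 √I_ε √G`, so `I_ε ≤ 4 G`; then Fatou/monotone convergence `ε ↓ 0` (Lean: `a/0 = 0`, so `‖f‖²/ρ² ≤ liminf` EVERYWHERE).
* sharp Coulomb: `W = y/√(ρ²+ε)`, `div W = 3/√(ρ²+ε) - ρ²/(ρ²+ε)^{3/2} ≥ 2/√(ρ²+ε)`, `|W| ≤ 1`.

Each section is ONE LEAF.
-/

open MeasureTheory Filter Topology Set
open scoped ContDiff InnerProductSpace

noncomputable section

set_option linter.unusedSectionVars false

namespace Claimed.Open.R278

/-- the `a`-th unit vector of `ℝ³`. -/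
abbrev eA (a : Fin 3) : Space := EuclideanSpace.single a (1 : ℝ)

variable {X : Type*} [NormedAddCommGroup X] [NormedSpace ℝ X] [FiniteDimensional ℝ X]
  [MeasurableSpace X] [BorelSpace X] {μ : Measure X} [μ.IsAddHaarMeasure]
  {𝕜 : Type*} [RCLike 𝕜] {H : Type*} [NormedAddCommGroup H] [InnerProductSpace 𝕜 H] [NormedSpace ℝ H]
  [CompleteSpace H]

/-! ## LEAF FS-H1: the divergence identity -/

section H1

theorem fsh_integrable_norm_sq {α : Type*} [MeasurableSpace α] {ν : Measure α} {f : α → H} (hf : MemLp f 2 ν) :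
    Integrable (fun x => ‖f x‖ ^ 2) ν :=
  (memLp_two_iff_integrable_sq_norm hf.1).1 hf

theorem fsh_integrable_re_inner {α : Type*} [MeasurableSpace α] {ν : Measure α} {a b : α → H}
    (ha : MemLp a 2 ν) (hb : MemLp b 2 ν) : Integrable (fun x => RCLike.re ⟪a x, b x⟫_𝕜) ν :=
  (fs_cs ha hb).1.mono' (RCLike.continuous_re.comp_aestronglyMeasurable (ha.1.inner hb.1))
    (Eventually.of_forall fun x => by
      rw [Real.norm_eq_abs]
      exact (RCLike.abs_re_le_norm _).trans (norm_inner_le_norm _ _))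

/-- bounded continuous factor times an integrable function. -/
theorem fsh_integrable_bdd_mul {α : Type*} [MeasurableSpace α] [TopologicalSpace α] [OpensMeasurableSpace α]
    {ν : Measure α} {χ u : α → ℝ} (hχ : Continuous χ)
    {C : ℝ} (hC : ∀ x, |χ x| ≤ C) (hu : Integrable u ν) : Integrable (fun x => χ x * u x) ν :=
  hu.bdd_mul hχ.aestronglyMeasurable (Eventually.of_forall fun x => by simpa using hC x)

variable (𝕜) in
/-- `∫ (div W)(ℓ x - c) ‖f‖² = - 2 ∑ₐ ∫ Wₐ(ℓ x - c) Re⟪f, gₐ⟫`. -/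
theorem integral_div_field {ℓ : X →L[ℝ] Space} {v : Fin 3 → X} (hv : ∀ a, ℓ (v a) = eA a) (c : Space)
    {f : X → H} {g : Fin 3 → X → H} (h : ∀ a, WD2 μ (v a) f (g a))
    {W : Fin 3 → Space → ℝ} (hW : ∀ a, ContDiff ℝ 1 (W a)) {C : ℝ} (hb : ∀ a y, |W a y| ≤ C)
    (hd : ∀ a y, |fderiv ℝ (W a) y (eA a)| ≤ C) :
    ∫ x, (∑ a, fderiv ℝ (W a) (ℓ x - c) (eA a)) * ‖f x‖ ^ 2 ∂μ
      = - 2 * ∑ a, ∫ x, W a (ℓ x - c) * RCLike.re ⟪f x, g a x⟫_𝕜 ∂μ := by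
  have hf2 : Integrable (fun x => ‖f x‖ ^ 2) μ := fsh_integrable_norm_sq (h 0).memf
  have haff : ContDiff ℝ 1 (fun x : X => ℓ x - c) := ℓ.contDiff.sub contDiff_const
  have hχ : ∀ a, ContDiff ℝ 1 (fun x : X => W a (ℓ x - c)) := fun a => (hW a).comp haff
  have hder : ∀ a x, fderiv ℝ (fun x : X => W a (ℓ x - c)) x (v a) = fderiv ℝ (W a) (ℓ x - c) (eA a) := by
    intro a x
    have h1 : HasFDerivAt (fun x : X => ℓ x - c) ℓ x := ℓ.hasFDerivAt.sub_const c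
    have h2 : HasFDerivAt (W a) (fderiv ℝ (W a) (ℓ x - c)) (ℓ x - c) :=
      ((hW a).differentiable (by simp) _).hasFDerivAt
    have h3 : HasFDerivAt (fun x : X => W a (ℓ x - c)) ((fderiv ℝ (W a) (ℓ x - c)).comp ℓ) x := h2.comp x h1
    rw [h3.fderiv, ContinuousLinearMap.comp_apply, hv a]
  have hdc : ∀ a, Continuous (fun x : X => fderiv ℝ (W a) (ℓ x - c) (eA a)) := fun a =>
    (fs_cont_d (hW a) (eA a)).comp haff.continuous
  have i1 : ∀ a, Integrable (fun x => fderiv ℝ (W a) (ℓ x - c) (eA a) * ‖f x‖ ^ 2) μ := fun a =>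
    fsh_integrable_bdd_mul (hdc a) (fun x => hd a _) hf2
  have i2 : ∀ a, Integrable (fun x => W a (ℓ x - c) * RCLike.re ⟪f x, g a x⟫_𝕜) μ := fun a =>
    fsh_integrable_bdd_mul (hχ a).continuous (fun x => hb a _) (fsh_integrable_re_inner (h a).memf (h a).memg)
  have key : ∀ a, ∫ x, fderiv ℝ (W a) (ℓ x - c) (eA a) * ‖f x‖ ^ 2 ∂μ
      = -2 * ∫ x, W a (ℓ x - c) * RCLike.re ⟪f x, g a x⟫_𝕜 ∂μ := by
    intro a
    have w1 := WD.norm_sq 𝕜 (h a).wd (MemLp.l2Loc (h a).memf) (MemLp.l2Loc (h a).memg)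
    have w2 := WD.smul_left w1 (hχ a)
    have j1 : Integrable (fun x => W a (ℓ x - c) • ‖f x‖ ^ 2) μ :=
      fsh_integrable_bdd_mul (hχ a).continuous (fun x => hb a _) hf2
    have e : (fun x => fderiv ℝ (fun x : X => W a (ℓ x - c)) x (v a) • ‖f x‖ ^ 2
          + W a (ℓ x - c) • (2 * RCLike.re ⟪f x, g a x⟫_𝕜))
        = fun x => fderiv ℝ (W a) (ℓ x - c) (eA a) * ‖f x‖ ^ 2
          + 2 * (W a (ℓ x - c) * RCLike.re ⟪f x, g a x⟫_𝕜) := by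
      funext x
      rw [hder a x, smul_eq_mul, smul_eq_mul]
      ring
    rw [e] at w2
    have := WD.integral_eq_zero w2 j1 ((i1 a).add ((i2 a).const_mul 2))
    rw [integral_add (i1 a) ((i2 a).const_mul 2), integral_const_mul] at this
    linarith
  simp only [Finset.sum_mul]
  rw [integral_finsetSum _ (fun a _ => i1 a), Finset.mul_sum]
  exact Finset.sum_congr rfl fun a _ => key a

/-- Cauchy–Schwarz for the right-hand side: if `∑ₐ Wₐ(y)² ≤ w(y)` then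
`|∑ₐ ∫ Wₐ Re⟪f, gₐ⟫|² ≤ (∫ w ‖f‖²) (∑ₐ ∫ ‖gₐ‖²)`. -/
theorem sq_sum_integral_field_le {f : X → H} {g : Fin 3 → X → H} (hf : MemLp f 2 μ) (hg : ∀ a, MemLp (g a) 2 μ)
    {W : Fin 3 → X → ℝ} {w : X → ℝ} (hWm : ∀ a, Continuous (W a)) (hwm : Continuous w) {C : ℝ}
    (hwb : ∀ x, w x ≤ C) (hW : ∀ x, ∑ a, W a x ^ 2 ≤ w x) :
    (∑ a, ∫ x, W a x * RCLike.re ⟪f x, g a x⟫_𝕜 ∂μ) ^ 2
      ≤ (∫ x, w x * ‖f x‖ ^ 2 ∂μ) * ∑ a, ∫ x, ‖g a x‖ ^ 2 ∂μ := by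
  have hf2 : Integrable (fun x => ‖f x‖ ^ 2) μ := fsh_integrable_norm_sq hf
  have hg2 : ∀ a, Integrable (fun x => ‖g a x‖ ^ 2) μ := fun a => fsh_integrable_norm_sq (hg a)
  have hw0 : ∀ x, 0 ≤ w x := fun x => (Finset.sum_nonneg fun a _ => sq_nonneg _).trans (hW x)
  have hWa : ∀ a x, W a x ^ 2 ≤ w x := fun a x =>
    (Finset.single_le_sum (f := fun a => W a x ^ 2) (fun a _ => sq_nonneg _) (Finset.mem_univ a)).trans (hW x)
  have hWb : ∀ a x, |W a x| ≤ (1 + C) / 2 := by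
    intro a x
    have h1 := (hWa a x).trans (hwb x)
    have h2 : 0 ≤ (|W a x| - 1) ^ 2 := sq_nonneg _
    have h3 : |W a x| ^ 2 = W a x ^ 2 := sq_abs _
    nlinarith
  have i1 : Integrable (fun x => w x * ‖f x‖ ^ 2) μ :=
    fsh_integrable_bdd_mul hwm (fun x => by rw [abs_of_nonneg (hw0 x)]; exact hwb x) hf2
  have i2 : ∀ a, Integrable (fun x => W a x * RCLike.re ⟪f x, g a x⟫_𝕜) μ := fun a =>
    fsh_integrable_bdd_mul (hWm a) (hWb a) (fsh_integrable_re_inner hf (hg a))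
  set A := ∫ x, w x * ‖f x‖ ^ 2 ∂μ with hA
  set B := ∑ a, ∫ x, ‖g a x‖ ^ 2 ∂μ with hB
  set S := ∑ a, ∫ x, W a x * RCLike.re ⟪f x, g a x⟫_𝕜 ∂μ with hS
  have hquad : ∀ t : ℝ, 0 ≤ A * (t * t) + 2 * S * t + B := by
    intro t
    have hpt : ∀ x, 0 ≤ t * t * (w x * ‖f x‖ ^ 2) + 2 * t * (∑ a, W a x * RCLike.re ⟪f x, g a x⟫_𝕜)
        + ∑ a, ‖g a x‖ ^ 2 := by
      intro x
      have h1 : ∀ a, 0 ≤ t * t * (W a x ^ 2 * ‖f x‖ ^ 2) + 2 * t * (W a x * RCLike.re ⟪f x, g a x⟫_𝕜)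
          + ‖g a x‖ ^ 2 := by
        intro a
        have h2 : |RCLike.re ⟪f x, g a x⟫_𝕜| ≤ ‖f x‖ * ‖g a x‖ :=
          (RCLike.abs_re_le_norm _).trans (norm_inner_le_norm _ _)
        have h3 : -(|t * W a x| * (‖f x‖ * ‖g a x‖)) ≤ (t * W a x) * RCLike.re ⟪f x, g a x⟫_𝕜 := by
          have : |(t * W a x) * RCLike.re ⟪f x, g a x⟫_𝕜| ≤ |t * W a x| * (‖f x‖ * ‖g a x‖) := by
            rw [abs_mul]
            exact mul_le_mul_of_nonneg_left h2 (abs_nonneg _)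
          exact (abs_le.1 this).1
        have h4 : 0 ≤ (|t * W a x| * ‖f x‖ - ‖g a x‖) ^ 2 := sq_nonneg _
        have h5 : |t * W a x| ^ 2 = (t * W a x) ^ 2 := sq_abs _
        nlinarith
      have h6 := Finset.sum_nonneg fun a (_ : a ∈ Finset.univ) => h1 a
      rw [Finset.sum_add_distrib, Finset.sum_add_distrib, ← Finset.mul_sum, ← Finset.mul_sum,
        ← Finset.sum_mul] at h6
      have h7 : t * t * ((∑ a, W a x ^ 2) * ‖f x‖ ^ 2) ≤ t * t * (w x * ‖f x‖ ^ 2) :=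
        mul_le_mul_of_nonneg_left (mul_le_mul_of_nonneg_right (hW x) (sq_nonneg _)) (mul_self_nonneg t)
      linarith
    have hint : 0 ≤ ∫ x, (t * t * (w x * ‖f x‖ ^ 2) + 2 * t * (∑ a, W a x * RCLike.re ⟪f x, g a x⟫_𝕜)
        + ∑ a, ‖g a x‖ ^ 2) ∂μ := integral_nonneg hpt
    have j2 : Integrable (fun x => ∑ a, W a x * RCLike.re ⟪f x, g a x⟫_𝕜) μ :=
      integrable_finsetSum _ fun a _ => i2 a
    have j3 : Integrable (fun x => ∑ a, ‖g a x‖ ^ 2) μ := integrable_finsetSum _ fun a _ => hg2 a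
    have j12 : Integrable (fun x => t * t * (w x * ‖f x‖ ^ 2)
        + 2 * t * (∑ a, W a x * RCLike.re ⟪f x, g a x⟫_𝕜)) μ := (i1.const_mul _).add (j2.const_mul _)
    rw [integral_add j12 j3,
      integral_add (i1.const_mul _) (j2.const_mul _), integral_const_mul, integral_const_mul,
      integral_finsetSum _ (fun a _ => i2 a), integral_finsetSum _ (fun a _ => hg2 a)] at hint
    linarith
  have := discrim_le_zero hquad
  unfold discrim at this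
  nlinarith

end H1

/-! ## LEAF FS-H2: the generic Hardy inequality -/

section H2

theorem fsh_fderiv_field {ψ : ℝ → ℝ} {ψ' : ℝ} (a : Fin 3) (y : Space) (hψ : HasDerivAt ψ ψ' (‖y‖ ^ 2)) :
    fderiv ℝ (fun y : Space => y a * ψ (‖y‖ ^ 2)) y (eA a) = ψ (‖y‖ ^ 2) + 2 * y a ^ 2 * ψ' := by
  have h1 : HasFDerivAt (fun y : Space => y a) (EuclideanSpace.proj a : Space →L[ℝ] ℝ) y :=
    (EuclideanSpace.proj a : Space →L[ℝ] ℝ).hasFDerivAt
  have h2 : HasFDerivAt (fun y : Space => ψ (‖y‖ ^ 2)) (ψ' • (2 • innerSL ℝ y)) y :=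
    hψ.comp_hasFDerivAt y (hasStrictFDerivAt_norm_sq y).hasFDerivAt
  have h3 : HasFDerivAt (fun y : Space => y a * ψ (‖y‖ ^ 2))
      (y a • (ψ' • (2 • innerSL ℝ y)) + ψ (‖y‖ ^ 2) • (EuclideanSpace.proj a : Space →L[ℝ] ℝ)) y := h1.mul h2
  rw [h3.fderiv]
  simp [EuclideanSpace.inner_single_right]
  ring

theorem fsh_contDiff_coord (a : Fin 3) : ContDiff ℝ 1 (fun y : Space => y a) :=
  (EuclideanSpace.proj a : Space →L[ℝ] ℝ).contDiff

theorem fsh_sum_sq (y : Space) : ∑ a : Fin 3, y a ^ 2 = ‖y‖ ^ 2 := by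
  rw [EuclideanSpace.norm_sq_eq]
  simp

/-- calculus: the Hardy field `Wₐ(y) = yₐ/(‖y‖²+ε)`. -/
theorem hardyField_facts {ε : ℝ} (hε : 0 < ε) :
    (∀ a : Fin 3, ContDiff ℝ 1 (fun y : Space => y a / (‖y‖ ^ 2 + ε))) ∧
    (∀ (a : Fin 3) (y : Space), fderiv ℝ (fun y : Space => y a / (‖y‖ ^ 2 + ε)) y (eA a)
      = 1 / (‖y‖ ^ 2 + ε) - 2 * y a ^ 2 / (‖y‖ ^ 2 + ε) ^ 2) ∧
    (∀ y : Space, ∑ a : Fin 3, (y a / (‖y‖ ^ 2 + ε)) ^ 2 ≤ 1 / (‖y‖ ^ 2 + ε)) ∧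
    (∀ y : Space, 1 / (‖y‖ ^ 2 + ε) ≤ ∑ a : Fin 3, (1 / (‖y‖ ^ 2 + ε) - 2 * y a ^ 2 / (‖y‖ ^ 2 + ε) ^ 2)) := by
  have hpos : ∀ y : Space, 0 < ‖y‖ ^ 2 + ε := fun y => by positivity
  refine ⟨fun a => ?_, fun a y => ?_, fun y => ?_, fun y => ?_⟩
  · exact (fsh_contDiff_coord a).div ((contDiff_norm_sq ℝ).add contDiff_const) fun y => (hpos y).ne'
  · have hψ : HasDerivAt (fun s : ℝ => (s + ε)⁻¹) (-1 / (‖y‖ ^ 2 + ε) ^ 2) (‖y‖ ^ 2) := by
      have := ((hasDerivAt_id (‖y‖ ^ 2)).add_const ε).fun_inv (hpos y).ne'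
      simpa using this
    have := fsh_fderiv_field a y hψ
    simp only [← div_eq_mul_inv] at this
    rw [this]
    ring
  · simp only [div_pow]
    rw [← Finset.sum_div, fsh_sum_sq, div_le_div_iff₀ (by have := hpos y; positivity) (hpos y)]
    have := hpos y
    nlinarith [sq_nonneg ‖y‖]
  · rw [Finset.sum_sub_distrib]
    simp only [← Finset.sum_div, ← Finset.mul_sum, fsh_sum_sq]
    simp only [Finset.sum_const, Finset.card_univ, Fintype.card_fin, nsmul_eq_mul]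
    have h := hpos y
    have e : ((3 : ℕ) : ℝ) * 1 / (‖y‖ ^ 2 + ε) - 2 * ‖y‖ ^ 2 / (‖y‖ ^ 2 + ε) ^ 2 - 1 / (‖y‖ ^ 2 + ε)
        = 2 * ε / (‖y‖ ^ 2 + ε) ^ 2 := by
      field_simp
      push_cast
      ring
    have : 0 ≤ 2 * ε / (‖y‖ ^ 2 + ε) ^ 2 := by positivity
    linarith

/-- Fatou's lemma in the form used for the removal of the regularisation. -/
theorem fsh_fatou {α : Type*} [MeasurableSpace α] {ν : Measure α} {F : α → ℝ} {Fn : ℕ → α → ℝ} {B : ℝ}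
    (hFm : AEStronglyMeasurable F ν) (hF0 : ∀ x, 0 ≤ F x) (hFn : ∀ n, Integrable (Fn n) ν)
    (hFn0 : ∀ n x, 0 ≤ Fn n x) (hB : ∀ n, ∫ x, Fn n x ∂ν ≤ B)
    (hlim : ∀ x, F x ≠ 0 → Tendsto (fun n => Fn n x) atTop (𝓝 (F x))) :
    Integrable F ν ∧ ∫ x, F x ∂ν ≤ B := by
  have hB0 : 0 ≤ B := (integral_nonneg (hFn0 0)).trans (hB 0)
  have h1 : ∫⁻ x, ENNReal.ofReal (F x) ∂ν ≤ ENNReal.ofReal B := by
    calc ∫⁻ x, ENNReal.ofReal (F x) ∂ν ≤ ∫⁻ x, liminf (fun n => ENNReal.ofReal (Fn n x)) atTop ∂ν := by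
          refine lintegral_mono fun x => ?_
          by_cases hx : F x = 0
          · simp [hx]
          · exact ((ENNReal.continuous_ofReal.tendsto _).comp (hlim x hx)).liminf_eq.ge
      _ ≤ liminf (fun n => ∫⁻ x, ENNReal.ofReal (Fn n x) ∂ν) atTop :=
          lintegral_liminf_le' fun n => (hFn n).1.aemeasurable.ennreal_ofReal
      _ ≤ ENNReal.ofReal B := by
          refine liminf_le_of_le (by isBoundedDefault) fun b hb => ?_
          obtain ⟨n, hn⟩ := hb.exists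
          refine hn.trans ?_
          rw [← ofReal_integral_eq_lintegral_ofReal (hFn n) (Eventually.of_forall (hFn0 n))]
          exact ENNReal.ofReal_le_ofReal (hB n)
  refine ⟨⟨hFm, ?_⟩, ?_⟩
  · rw [hasFiniteIntegral_iff_ofReal (Eventually.of_forall hF0)]
    exact h1.trans_lt ENNReal.ofReal_lt_top
  · rw [integral_eq_lintegral_of_nonneg_ae (Eventually.of_forall hF0) hFm]
    exact ENNReal.toReal_le_of_le_ofReal hB0 h1

theorem fsh_tendsto_eps : Tendsto (fun n : ℕ => 1 / ((n : ℝ) + 1)) atTop (𝓝 0) :=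
  tendsto_one_div_add_atTop_nhds_zero_nat

variable (𝕜) in
include 𝕜 in
theorem hardy_reg {ℓ : X →L[ℝ] Space} {v : Fin 3 → X} (hv : ∀ a, ℓ (v a) = eA a) (c : Space)
    {f : X → H} {g : Fin 3 → X → H} (h : ∀ a, WD2 μ (v a) f (g a)) {ε : ℝ} (hε : 0 < ε) :
    ∫ x, ‖f x‖ ^ 2 / (‖ℓ x - c‖ ^ 2 + ε) ∂μ ≤ 4 * ∑ a, ∫ x, ‖g a x‖ ^ 2 ∂μ := by
  obtain ⟨k1, k2, k3, k4⟩ := hardyField_facts hε
  have hpos : ∀ y : Space, 0 < ‖y‖ ^ 2 + ε := fun y => by positivity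
  have hle : ∀ y : Space, 1 / (‖y‖ ^ 2 + ε) ≤ 1 / ε := fun y =>
    one_div_le_one_div_of_le hε (by nlinarith [sq_nonneg ‖y‖])
  have haff : Continuous (fun x : X => ℓ x - c) := ℓ.continuous.sub continuous_const
  have hf2 : Integrable (fun x => ‖f x‖ ^ 2) μ := fsh_integrable_norm_sq (h 0).memf
  -- bounds
  have hWa : ∀ (a : Fin 3) (y : Space), (y a / (‖y‖ ^ 2 + ε)) ^ 2 ≤ 1 / ε := fun a y =>
    ((Finset.single_le_sum (f := fun a => (y a / (‖y‖ ^ 2 + ε)) ^ 2) (fun a _ => sq_nonneg _)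
      (Finset.mem_univ a)).trans (k3 y)).trans (hle y)
  have hb : ∀ (a : Fin 3) (y : Space), |y a / (‖y‖ ^ 2 + ε)| ≤ 1 + 3 / ε := by
    intro a y
    have h1 := hWa a y
    have h2 : 0 ≤ (|y a / (‖y‖ ^ 2 + ε)| - 1) ^ 2 := sq_nonneg _
    have h3 : |y a / (‖y‖ ^ 2 + ε)| ^ 2 = (y a / (‖y‖ ^ 2 + ε)) ^ 2 := sq_abs _
    have h4 : 0 < 1 / ε := by positivity
    have h5 : 3 / ε = 3 * (1 / ε) := by ring
    nlinarith
  have hd : ∀ (a : Fin 3) (y : Space),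
      |fderiv ℝ (fun y : Space => y a / (‖y‖ ^ 2 + ε)) y (eA a)| ≤ 1 + 3 / ε := by
    intro a y
    rw [k2 a y]
    have h1 := hWa a y
    have h2 := hle y
    have h3 : 0 < 1 / (‖y‖ ^ 2 + ε) := by have := hpos y; positivity
    have h4 : 2 * y a ^ 2 / (‖y‖ ^ 2 + ε) ^ 2 = 2 * (y a / (‖y‖ ^ 2 + ε)) ^ 2 := by
      rw [div_pow]; ring
    have h5 : 3 / ε = 3 * (1 / ε) := by ring
    rw [h4, abs_le]
    constructor <;> nlinarith [sq_nonneg (y a / (‖y‖ ^ 2 + ε))]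
  have key := integral_div_field 𝕜 hv c h k1 hb hd
  have hwc : Continuous (fun x : X => 1 / (‖ℓ x - c‖ ^ 2 + ε)) :=
    continuous_const.div ((haff.norm.pow 2).add continuous_const) fun x => (hpos _).ne'
  have cs := sq_sum_integral_field_le (𝕜 := 𝕜) (μ := μ) (h 0).memf (fun a => (h a).memg)
    (W := fun a x => (ℓ x - c) a / (‖ℓ x - c‖ ^ 2 + ε)) (w := fun x => 1 / (‖ℓ x - c‖ ^ 2 + ε))
    (fun a => (k1 a).continuous.comp haff) hwc (fun x => hle _) (fun x => k3 _)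
  set S := ∑ a, ∫ x, (ℓ x - c) a / (‖ℓ x - c‖ ^ 2 + ε) * RCLike.re ⟪f x, g a x⟫_𝕜 ∂μ with hS
  set G := ∑ a, ∫ x, ‖g a x‖ ^ 2 ∂μ with hG
  have hG0 : 0 ≤ G := Finset.sum_nonneg fun a _ => integral_nonneg fun x => sq_nonneg _
  have e1 : (fun x => ‖f x‖ ^ 2 / (‖ℓ x - c‖ ^ 2 + ε)) = fun x => 1 / (‖ℓ x - c‖ ^ 2 + ε) * ‖f x‖ ^ 2 := by
    funext x; ring
  rw [e1]
  set I := ∫ x, 1 / (‖ℓ x - c‖ ^ 2 + ε) * ‖f x‖ ^ 2 ∂μ with hI
  have hI0 : 0 ≤ I := integral_nonneg fun x => by have := hpos (ℓ x - c); positivity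
  have i1 : Integrable (fun x => 1 / (‖ℓ x - c‖ ^ 2 + ε) * ‖f x‖ ^ 2) μ :=
    fsh_integrable_bdd_mul hwc (fun x => by
      rw [abs_of_pos (by have := hpos (ℓ x - c); positivity)]; exact hle _) hf2
  have hdc : ∀ a : Fin 3, Continuous
      (fun x : X => fderiv ℝ (fun y : Space => y a / (‖y‖ ^ 2 + ε)) (ℓ x - c) (eA a)) := fun a =>
    (fs_cont_d (k1 a) (eA a)).comp haff
  have i2 : Integrable (fun x => (∑ a, fderiv ℝ (fun y : Space => y a / (‖y‖ ^ 2 + ε)) (ℓ x - c) (eA a))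
      * ‖f x‖ ^ 2) μ := by
    simp only [Finset.sum_mul]
    exact integrable_finsetSum _ fun a _ => fsh_integrable_bdd_mul (hdc a) (fun x => hd a _) hf2
  have hIS : I ≤ -2 * S := by
    rw [← key]
    refine integral_mono i1 i2 fun x => ?_
    refine mul_le_mul_of_nonneg_right ?_ (sq_nonneg _)
    simp only [k2]
    exact k4 _
  -- `I ≤ 2 |S|`, `S² ≤ I G`
  by_contra hcon
  have hlt : 4 * G < I := not_le.1 hcon
  have hIpos : 0 < I := lt_of_le_of_lt (by positivity) hlt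
  have h1 : I ^ 2 ≤ 4 * S ^ 2 := by nlinarith
  have h2 : I ^ 2 ≤ 4 * (I * G) := by nlinarith
  nlinarith

variable (𝕜) in
include 𝕜 in
/-- **Hardy's inequality**, generic form. -/
theorem hardy_generic {ℓ : X →L[ℝ] Space} {v : Fin 3 → X} (hv : ∀ a, ℓ (v a) = eA a) (c : Space)
    {f : X → H} {g : Fin 3 → X → H} (h : ∀ a, WD2 μ (v a) f (g a)) :
    Integrable (fun x => ‖f x‖ ^ 2 / ‖ℓ x - c‖ ^ 2) μ ∧
      ∫ x, ‖f x‖ ^ 2 / ‖ℓ x - c‖ ^ 2 ∂μ ≤ 4 * ∑ a, ∫ x, ‖g a x‖ ^ 2 ∂μ := by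
  have haff : Continuous (fun x : X => ℓ x - c) := ℓ.continuous.sub continuous_const
  have hf2 : Integrable (fun x => ‖f x‖ ^ 2) μ := fsh_integrable_norm_sq (h 0).memf
  have hεn : ∀ n : ℕ, 0 < 1 / ((n : ℝ) + 1) := fun n => by positivity
  refine fsh_fatou (Fn := fun n x => ‖f x‖ ^ 2 / (‖ℓ x - c‖ ^ 2 + 1 / ((n : ℝ) + 1))) ?_ ?_ ?_ ?_ ?_ ?_
  · exact (hf2.1.aemeasurable.div (haff.norm.pow 2).measurable.aemeasurable).aestronglyMeasurable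
  · intro x; positivity
  · intro n
    have hwc : Continuous (fun x : X => 1 / (‖ℓ x - c‖ ^ 2 + 1 / ((n : ℝ) + 1))) :=
      continuous_const.div ((haff.norm.pow 2).add continuous_const) fun x => by positivity
    have := fsh_integrable_bdd_mul (ν := μ) hwc (C := 1 / (1 / ((n : ℝ) + 1))) (fun x => by
      rw [abs_of_pos (by positivity)]
      exact one_div_le_one_div_of_le (hεn n) (by nlinarith [sq_nonneg ‖ℓ x - c‖])) hf2
    refine this.congr (Eventually.of_forall fun x => ?_)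
    show 1 / (‖ℓ x - c‖ ^ 2 + 1 / ((n : ℝ) + 1)) * ‖f x‖ ^ 2 = ‖f x‖ ^ 2 / (‖ℓ x - c‖ ^ 2 + 1 / ((n : ℝ) + 1))
    ring
  · intro n x; positivity
  · intro n
    exact hardy_reg 𝕜 hv c h (hεn n)
  · intro x hx
    have hne : ‖ℓ x - c‖ ^ 2 ≠ 0 := fun h0 => hx (by rw [h0, div_zero])
    have : Tendsto (fun n : ℕ => ‖ℓ x - c‖ ^ 2 + 1 / ((n : ℝ) + 1)) atTop (𝓝 (‖ℓ x - c‖ ^ 2 + 0)) :=
      tendsto_const_nhds.add fsh_tendsto_eps
    rw [add_zero] at this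
    exact tendsto_const_nhds.div this hne

end H2

/-! ## LEAF FS-H3: the generic sharp Coulomb inequality -/

section H3

/-- calculus: the field `Wₐ(y) = yₐ/√(‖y‖²+ε)`. -/
theorem coulombField_facts {ε : ℝ} (hε : 0 < ε) :
    (∀ a : Fin 3, ContDiff ℝ 1 (fun y : Space => y a / √(‖y‖ ^ 2 + ε))) ∧
    (∀ (a : Fin 3) (y : Space), fderiv ℝ (fun y : Space => y a / √(‖y‖ ^ 2 + ε)) y (eA a)
      = 1 / √(‖y‖ ^ 2 + ε) - y a ^ 2 / (√(‖y‖ ^ 2 + ε) * (‖y‖ ^ 2 + ε))) ∧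
    (∀ y : Space, ∑ a : Fin 3, (y a / √(‖y‖ ^ 2 + ε)) ^ 2 ≤ 1) ∧
    (∀ y : Space, 2 / √(‖y‖ ^ 2 + ε)
      ≤ ∑ a : Fin 3, (1 / √(‖y‖ ^ 2 + ε) - y a ^ 2 / (√(‖y‖ ^ 2 + ε) * (‖y‖ ^ 2 + ε)))) := by
  have hpos : ∀ y : Space, 0 < ‖y‖ ^ 2 + ε := fun y => by positivity
  have hsq : ∀ y : Space, 0 < √(‖y‖ ^ 2 + ε) := fun y => Real.sqrt_pos.2 (hpos y)
  have hss : ∀ y : Space, √(‖y‖ ^ 2 + ε) ^ 2 = ‖y‖ ^ 2 + ε := fun y => Real.sq_sqrt (hpos y).le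
  refine ⟨fun a => ?_, fun a y => ?_, fun y => ?_, fun y => ?_⟩
  · exact (fsh_contDiff_coord a).div
      (((contDiff_norm_sq ℝ).add contDiff_const).sqrt fun y => (hpos y).ne') fun y => (hsq y).ne'
  · have hψ : HasDerivAt (fun s : ℝ => (√(s + ε))⁻¹)
        (-(1 / (2 * √(‖y‖ ^ 2 + ε))) / √(‖y‖ ^ 2 + ε) ^ 2) (‖y‖ ^ 2) := by
      have := (((hasDerivAt_id (‖y‖ ^ 2)).add_const ε).sqrt (hpos y).ne').fun_inv (hsq y).ne'
      simpa using this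
    have := fsh_fderiv_field a y hψ
    simp only [← div_eq_mul_inv] at this
    rw [this, hss y]
    have h1 := (hsq y).ne'
    have h2 := (hpos y).ne'
    field_simp
    ring
  · simp only [div_pow, hss]
    rw [← Finset.sum_div, fsh_sum_sq, div_le_one (hpos y)]
    linarith
  · rw [Finset.sum_sub_distrib]
    simp only [← Finset.sum_div, fsh_sum_sq]
    simp only [Finset.sum_const, Finset.card_univ, Fintype.card_fin, nsmul_eq_mul]
    have h1 := hsq y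
    have h2 := hpos y
    have e : ((3 : ℕ) : ℝ) * 1 / √(‖y‖ ^ 2 + ε) - ‖y‖ ^ 2 / (√(‖y‖ ^ 2 + ε) * (‖y‖ ^ 2 + ε))
        - 2 / √(‖y‖ ^ 2 + ε) = ε / (√(‖y‖ ^ 2 + ε) * (‖y‖ ^ 2 + ε)) := by
      field_simp
      push_cast
      ring
    have : 0 ≤ ε / (√(‖y‖ ^ 2 + ε) * (‖y‖ ^ 2 + ε)) := by positivity
    linarith

variable (𝕜) in
include 𝕜 in
theorem coulomb_reg {ℓ : X →L[ℝ] Space} {v : Fin 3 → X} (hv : ∀ a, ℓ (v a) = eA a) (c : Space)
    {f : X → H} {g : Fin 3 → X → H} (h : ∀ a, WD2 μ (v a) f (g a)) {ε : ℝ} (hε : 0 < ε) :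
    ∫ x, ‖f x‖ ^ 2 / √(‖ℓ x - c‖ ^ 2 + ε) ∂μ ≤ √(∫ x, ‖f x‖ ^ 2 ∂μ) * √(∑ a, ∫ x, ‖g a x‖ ^ 2 ∂μ) := by
  obtain ⟨k1, k2, k3, k4⟩ := coulombField_facts hε
  have hpos : ∀ y : Space, 0 < ‖y‖ ^ 2 + ε := fun y => by positivity
  have hsq : ∀ y : Space, 0 < √(‖y‖ ^ 2 + ε) := fun y => Real.sqrt_pos.2 (hpos y)
  have hss : ∀ y : Space, √(‖y‖ ^ 2 + ε) ^ 2 = ‖y‖ ^ 2 + ε := fun y => Real.sq_sqrt (hpos y).le
  have hle : ∀ y : Space, 1 / √(‖y‖ ^ 2 + ε) ≤ 1 / √ε := fun y =>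
    one_div_le_one_div_of_le (Real.sqrt_pos.2 hε) (Real.sqrt_le_sqrt (by nlinarith [sq_nonneg ‖y‖]))
  have hε' : 0 < 1 / √ε := by have := Real.sqrt_pos.2 hε; positivity
  have haff : Continuous (fun x : X => ℓ x - c) := ℓ.continuous.sub continuous_const
  have hf2 : Integrable (fun x => ‖f x‖ ^ 2) μ := fsh_integrable_norm_sq (h 0).memf
  have hWa : ∀ (a : Fin 3) (y : Space), (y a / √(‖y‖ ^ 2 + ε)) ^ 2 ≤ 1 := fun a y =>
    (Finset.single_le_sum (f := fun a => (y a / √(‖y‖ ^ 2 + ε)) ^ 2) (fun a _ => sq_nonneg _)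
      (Finset.mem_univ a)).trans (k3 y)
  have hb : ∀ (a : Fin 3) (y : Space), |y a / √(‖y‖ ^ 2 + ε)| ≤ 1 + 1 / √ε := by
    intro a y
    have h1 : |y a / √(‖y‖ ^ 2 + ε)| ≤ 1 := abs_le_one_iff_mul_self_le_one.2 (by have := hWa a y; nlinarith)
    linarith
  have hd : ∀ (a : Fin 3) (y : Space),
      |fderiv ℝ (fun y : Space => y a / √(‖y‖ ^ 2 + ε)) y (eA a)| ≤ 1 + 1 / √ε := by
    intro a y
    rw [k2 a y]
    have h1 := hWa a y
    have h2 := hle y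
    have h3 : 0 < 1 / √(‖y‖ ^ 2 + ε) := by have := hsq y; positivity
    have h4 : y a ^ 2 / (√(‖y‖ ^ 2 + ε) * (‖y‖ ^ 2 + ε))
        = (y a / √(‖y‖ ^ 2 + ε)) ^ 2 * (1 / √(‖y‖ ^ 2 + ε)) := by
      rw [div_pow, hss y]
      have := (hsq y).ne'
      have := (hpos y).ne'
      field_simp
    rw [h4, abs_le]
    constructor <;> nlinarith [sq_nonneg (y a / √(‖y‖ ^ 2 + ε))]
  have key := integral_div_field 𝕜 hv c h k1 hb hd
  have hwc : Continuous (fun x : X => 1 / √(‖ℓ x - c‖ ^ 2 + ε)) :=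
    continuous_const.div ((haff.norm.pow 2).add continuous_const).sqrt fun x => (hsq _).ne'
  have cs := sq_sum_integral_field_le (𝕜 := 𝕜) (μ := μ) (h 0).memf (fun a => (h a).memg)
    (W := fun a x => (ℓ x - c) a / √(‖ℓ x - c‖ ^ 2 + ε)) (w := fun _ => 1)
    (fun a => (k1 a).continuous.comp haff) continuous_const (C := 1) (fun x => le_rfl) (fun x => k3 _)
  simp only [one_mul] at cs
  set S := ∑ a, ∫ x, (ℓ x - c) a / √(‖ℓ x - c‖ ^ 2 + ε) * RCLike.re ⟪f x, g a x⟫_𝕜 ∂μ with hS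
  set G := ∑ a, ∫ x, ‖g a x‖ ^ 2 ∂μ with hG
  set N := ∫ x, ‖f x‖ ^ 2 ∂μ with hN
  have hN0 : 0 ≤ N := integral_nonneg fun x => sq_nonneg _
  have e1 : (fun x => ‖f x‖ ^ 2 / √(‖ℓ x - c‖ ^ 2 + ε)) = fun x => 1 / √(‖ℓ x - c‖ ^ 2 + ε) * ‖f x‖ ^ 2 := by
    funext x; ring
  rw [e1]
  set I := ∫ x, 1 / √(‖ℓ x - c‖ ^ 2 + ε) * ‖f x‖ ^ 2 ∂μ with hI
  have i1 : Integrable (fun x => 1 / √(‖ℓ x - c‖ ^ 2 + ε) * ‖f x‖ ^ 2) μ :=
    fsh_integrable_bdd_mul hwc (fun x => by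
      rw [abs_of_pos (by have := hsq (ℓ x - c); positivity)]; exact hle _) hf2
  have hdc : ∀ a : Fin 3, Continuous
      (fun x : X => fderiv ℝ (fun y : Space => y a / √(‖y‖ ^ 2 + ε)) (ℓ x - c) (eA a)) := fun a =>
    (fs_cont_d (k1 a) (eA a)).comp haff
  have i2 : Integrable (fun x => (∑ a, fderiv ℝ (fun y : Space => y a / √(‖y‖ ^ 2 + ε)) (ℓ x - c) (eA a))
      * ‖f x‖ ^ 2) μ := by
    simp only [Finset.sum_mul]
    exact integrable_finsetSum _ fun a _ => fsh_integrable_bdd_mul (hdc a) (fun x => hd a _) hf2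
  have hIS : 2 * I ≤ -2 * S := by
    rw [← key, hI, ← integral_const_mul]
    refine integral_mono (i1.const_mul 2) i2 fun x => ?_
    show 2 * (1 / √(‖ℓ x - c‖ ^ 2 + ε) * ‖f x‖ ^ 2) ≤ _
    rw [← mul_assoc]
    refine mul_le_mul_of_nonneg_right ?_ (sq_nonneg _)
    simp only [k2]
    refine le_trans (le_of_eq ?_) (k4 _)
    ring
  have h1 : |S| ≤ √(N * G) := Real.abs_le_sqrt cs
  rw [Real.sqrt_mul hN0] at h1
  have h2 : -S ≤ |S| := neg_le_abs S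
  linarith

variable (𝕜) in
include 𝕜 in
/-- **sharp Coulomb inequality** `∫ ‖f‖²/ρ ≤ ‖f‖ ‖∇f‖` (it contains the hydrogen bound `-½Δ - 1/ρ ≥ -½`). -/
theorem coulomb_generic {ℓ : X →L[ℝ] Space} {v : Fin 3 → X} (hv : ∀ a, ℓ (v a) = eA a) (c : Space)
    {f : X → H} {g : Fin 3 → X → H} (h : ∀ a, WD2 μ (v a) f (g a)) :
    Integrable (fun x => ‖f x‖ ^ 2 / ‖ℓ x - c‖) μ ∧
      ∫ x, ‖f x‖ ^ 2 / ‖ℓ x - c‖ ∂μ ≤ √(∫ x, ‖f x‖ ^ 2 ∂μ) * √(∑ a, ∫ x, ‖g a x‖ ^ 2 ∂μ) := by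
  have haff : Continuous (fun x : X => ℓ x - c) := ℓ.continuous.sub continuous_const
  have hf2 : Integrable (fun x => ‖f x‖ ^ 2) μ := fsh_integrable_norm_sq (h 0).memf
  have hεn : ∀ n : ℕ, 0 < 1 / ((n : ℝ) + 1) := fun n => by positivity
  refine fsh_fatou (Fn := fun n x => ‖f x‖ ^ 2 / √(‖ℓ x - c‖ ^ 2 + 1 / ((n : ℝ) + 1))) ?_ ?_ ?_ ?_ ?_ ?_
  · exact (hf2.1.aemeasurable.div haff.norm.measurable.aemeasurable).aestronglyMeasurable
  · intro x; positivity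
  · intro n
    have hp : ∀ x : X, 0 < √(‖ℓ x - c‖ ^ 2 + 1 / ((n : ℝ) + 1)) := fun x => Real.sqrt_pos.2 (by positivity)
    have hwc : Continuous (fun x : X => 1 / √(‖ℓ x - c‖ ^ 2 + 1 / ((n : ℝ) + 1))) :=
      continuous_const.div ((haff.norm.pow 2).add continuous_const).sqrt fun x => (hp x).ne'
    have := fsh_integrable_bdd_mul (ν := μ) hwc (C := 1 / √(1 / ((n : ℝ) + 1))) (fun x => by
      rw [abs_of_pos (by have := hp x; positivity)]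
      exact one_div_le_one_div_of_le (Real.sqrt_pos.2 (hεn n))
        (Real.sqrt_le_sqrt (by nlinarith [sq_nonneg ‖ℓ x - c‖]))) hf2
    refine this.congr (Eventually.of_forall fun x => ?_)
    show 1 / √(‖ℓ x - c‖ ^ 2 + 1 / ((n : ℝ) + 1)) * ‖f x‖ ^ 2 = ‖f x‖ ^ 2 / √(‖ℓ x - c‖ ^ 2 + 1 / ((n : ℝ) + 1))
    ring
  · intro n x; positivity
  · intro n
    exact coulomb_reg 𝕜 hv c h (hεn n)
  · intro x hx
    have hne : ‖ℓ x - c‖ ≠ 0 := fun h0 => hx (by rw [h0, div_zero])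
    have h1 : Tendsto (fun n : ℕ => ‖ℓ x - c‖ ^ 2 + 1 / ((n : ℝ) + 1)) atTop (𝓝 (‖ℓ x - c‖ ^ 2 + 0)) :=
      tendsto_const_nhds.add fsh_tendsto_eps
    have h2 := (Real.continuous_sqrt.tendsto _).comp h1
    rw [add_zero, Real.sqrt_sq (norm_nonneg _)] at h2
    exact tendsto_const_nhds.div h2 hne

variable (𝕜) in
include 𝕜 in
/-- infinitesimal form boundedness. -/
theorem coulomb_generic_delta {ℓ : X →L[ℝ] Space} {v : Fin 3 → X} (hv : ∀ a, ℓ (v a) = eA a) (c : Space)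
    {f : X → H} {g : Fin 3 → X → H} (h : ∀ a, WD2 μ (v a) f (g a)) {δ : ℝ} (hδ : 0 < δ) :
    ∫ x, ‖f x‖ ^ 2 / ‖ℓ x - c‖ ∂μ ≤ δ / 2 * ∑ a, ∫ x, ‖g a x‖ ^ 2 ∂μ + 1 / (2 * δ) * ∫ x, ‖f x‖ ^ 2 ∂μ := by
  refine (coulomb_generic 𝕜 hv c h).2.trans ?_
  have hG0 : 0 ≤ ∑ a, ∫ x, ‖g a x‖ ^ 2 ∂μ := Finset.sum_nonneg fun a _ => integral_nonneg fun x => sq_nonneg _
  have hN0 : 0 ≤ ∫ x, ‖f x‖ ^ 2 ∂μ := integral_nonneg fun x => sq_nonneg _
  set G := ∑ a, ∫ x, ‖g a x‖ ^ 2 ∂μ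
  set N := ∫ x, ‖f x‖ ^ 2 ∂μ
  have h1 : √N ^ 2 = N := Real.sq_sqrt hN0
  have h2 : √G ^ 2 = G := Real.sq_sqrt hG0
  have h3 : δ / 2 * G + 1 / (2 * δ) * N - √N * √G = (δ * √G - √N) ^ 2 / (2 * δ) := by
    have e : (δ * √G - √N) ^ 2 = δ ^ 2 * G - 2 * δ * (√N * √G) + N := by
      rw [sub_sq, mul_pow, h1, h2]; ring
    rw [e]
    field_simp
    ring
  have h4 : 0 ≤ (δ * √G - √N) ^ 2 / (2 * δ) := by positivity
  linarith

end H3

/-! ## LEAF FS-H4: many body versions in `L2 m` -/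

section H4

variable {m : ℕ}

/-- the kinetic energy (twice) of electron `i`. -/
def kinOf (Ψ : L2 m) (i : Fin m) : ℝ := ∑ a, ‖weakGrad Ψ (i, a)‖ ^ 2

theorem kinOf_nonneg (Ψ : L2 m) (i : Fin m) : 0 ≤ kinOf Ψ i := Finset.sum_nonneg fun _ _ => sq_nonneg _

theorem kin_eq_sum_kinOf (Ψ : L2 m) : kin Ψ = ∑ i, kinOf Ψ i := by
  unfold kin kinOf
  exact Fintype.sum_prod_type _

theorem kinOf_eq_integral (Ψ : L2 m) (i : Fin m) : kinOf Ψ i = ∑ a, ∫ x, ‖weakGrad Ψ (i, a) x‖ ^ 2 :=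
  Finset.sum_congr rfl fun _ _ => L2.norm_sq_eq _

theorem kinOf_le_kin (Ψ : L2 m) (i : Fin m) : kinOf Ψ i ≤ kin Ψ := by
  rw [kin_eq_sum_kinOf]
  exact Finset.single_le_sum (f := fun i => kinOf Ψ i) (fun i _ => kinOf_nonneg Ψ i) (Finset.mem_univ i)

/-- the coordinate of electron `i` as a continuous linear map. -/
def projL (i : Fin m) : Config m →L[ℝ] Space := ContinuousLinearMap.proj i

@[simp] theorem projL_apply (i : Fin m) (x : Config m) : projL i x = x i := rfl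

theorem fsh_proj_dir (i : Fin m) (a : Fin 3) : projL i (dir (i, a)) = eA a := by
  simp [dir]

theorem fsh_proj_sub_dir {i j : Fin m} (hij : i ≠ j) (a : Fin 3) :
    (projL i - projL j) (dir (i, a)) = eA a := by
  simp [dir, Pi.single_eq_of_ne hij.symm]

theorem hardy_particle {Ψ : L2 m} (h : MemH1 Ψ) (i : Fin m) (c : Space) :
    Integrable (fun x => ‖Ψ x‖ ^ 2 / ‖x i - c‖ ^ 2) ∧ ∫ x, ‖Ψ x‖ ^ 2 / ‖x i - c‖ ^ 2 ≤ 4 * kinOf Ψ i := by
  rw [kinOf_eq_integral]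
  exact hardy_generic ℂ (fsh_proj_dir i) c (fun a => h.wd2 (i, a))

theorem hardy_pair {Ψ : L2 m} (h : MemH1 Ψ) {i j : Fin m} (hij : i ≠ j) :
    Integrable (fun x => ‖Ψ x‖ ^ 2 / ‖x i - x j‖ ^ 2) ∧ ∫ x, ‖Ψ x‖ ^ 2 / ‖x i - x j‖ ^ 2 ≤ 4 * kinOf Ψ i := by
  rw [kinOf_eq_integral]
  have := hardy_generic ℂ (fsh_proj_sub_dir hij) 0 (fun a => h.wd2 (i, a))
  simpa using this

theorem fsh_sqrt_norm (Ψ : L2 m) : √(∫ x, ‖Ψ x‖ ^ 2) = ‖Ψ‖ := by
  rw [← L2.norm_sq_eq, Real.sqrt_sq (norm_nonneg _)]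

theorem coulomb_particle {Ψ : L2 m} (h : MemH1 Ψ) (i : Fin m) (c : Space) :
    Integrable (fun x => ‖Ψ x‖ ^ 2 / ‖x i - c‖) ∧ ∫ x, ‖Ψ x‖ ^ 2 / ‖x i - c‖ ≤ ‖Ψ‖ * √(kinOf Ψ i) := by
  rw [kinOf_eq_integral, ← fsh_sqrt_norm]
  exact coulomb_generic ℂ (fsh_proj_dir i) c (fun a => h.wd2 (i, a))

theorem coulomb_pair {Ψ : L2 m} (h : MemH1 Ψ) {i j : Fin m} (hij : i ≠ j) :
    Integrable (fun x => ‖Ψ x‖ ^ 2 / ‖x i - x j‖) ∧ ∫ x, ‖Ψ x‖ ^ 2 / ‖x i - x j‖ ≤ ‖Ψ‖ * √(kinOf Ψ i) := by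
  rw [kinOf_eq_integral, ← fsh_sqrt_norm]
  have := coulomb_generic ℂ (fsh_proj_sub_dir hij) 0 (fun a => h.wd2 (i, a))
  simpa using this

end H4

/-! ## LEAF FS-H5: the Coulomb potentials are infinitesimally form bounded; form domains -/

section H5

variable {m : ℕ}

theorem measurable_repulsion : Measurable (repulsion : Config m → ℝ) := by
  show Measurable (fun x : Config m => ∑ i, ∑ j, if i < j then 1 / ‖x i - x j‖ else 0)
  refine Finset.measurable_sum _ fun i _ => Finset.measurable_sum _ fun j _ => ?_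
  by_cases hij : i < j
  · simp only [hij, if_true]
    exact measurable_const.div ((measurable_pi_apply i).sub (measurable_pi_apply j)).norm
  · simp only [hij, if_false]
    exact measurable_const

theorem measurable_oneBodyPotential {v : Space → ℝ} (hv : Measurable v) :
    Measurable (oneBodyPotential v : Config m → ℝ) := by
  show Measurable (fun x : Config m => ∑ i, v (x i))
  exact Finset.measurable_sum _ fun i _ => hv.comp (measurable_pi_apply i)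

theorem measurable_scaledPotential (t : ℝ) : Measurable (scaledPotential m t) := by
  show Measurable (fun x : Config m => oneBodyPotential (nuclearPotential 1 bigD) x + t * repulsion x)
  exact (measurable_oneBodyPotential (measurable_nuclearPotential 1 bigD)).add
    (measurable_repulsion.const_mul t)

theorem repulsion_nonneg (x : Config m) : 0 ≤ repulsion x := by
  unfold repulsion
  refine Finset.sum_nonneg fun i _ => Finset.sum_nonneg fun j _ => ?_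
  split_ifs
  · positivity
  · exact le_rfl

theorem fsh_amgm {a s δ : ℝ} (hδ : 0 < δ) : 2 * a * s ≤ δ * s ^ 2 + a ^ 2 / δ := by
  have h1 : δ * s ^ 2 + a ^ 2 / δ - 2 * a * s = (δ * s - a) ^ 2 / δ := by
    field_simp
    ring
  have h2 : 0 ≤ (δ * s - a) ^ 2 / δ := by positivity
  linarith

/-- one pair term. -/
theorem fsh_pair_term {Ψ : L2 m} (h : MemH1 Ψ) (i j : Fin m) :
    Integrable (fun x => (if i < j then 1 / ‖x i - x j‖ else 0) * ‖Ψ x‖ ^ 2) ∧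
      ∀ η : ℝ, 0 < η → ∫ x, (if i < j then 1 / ‖x i - x j‖ else 0) * ‖Ψ x‖ ^ 2
        ≤ η / 2 * kinOf Ψ i + 1 / (2 * η) * ‖Ψ‖ ^ 2 := by
  by_cases hij : i < j
  · simp only [hij, if_true]
    obtain ⟨h1, h2⟩ := coulomb_pair h hij.ne
    have e : (fun x : Config m => 1 / ‖x i - x j‖ * ‖Ψ x‖ ^ 2) = fun x => ‖Ψ x‖ ^ 2 / ‖x i - x j‖ := by
      funext x; ring
    rw [e]
    refine ⟨h1, fun η hη => h2.trans ?_⟩
    have h3 := fsh_amgm (a := ‖Ψ‖) (s := √(kinOf Ψ i)) hη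
    rw [Real.sq_sqrt (kinOf_nonneg Ψ i)] at h3
    have h4 : 1 / (2 * η) * ‖Ψ‖ ^ 2 = ‖Ψ‖ ^ 2 / η / 2 := by field_simp
    rw [h4]
    linarith
  · simp only [hij, if_false, zero_mul, integral_zero]
    refine ⟨integrable_zero _ _ _, fun η hη => ?_⟩
    have := kinOf_nonneg Ψ i
    positivity

theorem fsh_repulsion_mul (Ψ : L2 m) (x : Config m) :
    repulsion x * ‖Ψ x‖ ^ 2 = ∑ i, ∑ j, (if i < j then 1 / ‖x i - x j‖ else 0) * ‖Ψ x‖ ^ 2 := by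
  unfold repulsion
  rw [Finset.sum_mul]
  exact Finset.sum_congr rfl fun i _ => Finset.sum_mul _ _ _

theorem integral_repulsion_le {Ψ : L2 m} (h : MemH1 Ψ) {δ : ℝ} (hδ : 0 < δ) :
    Integrable (fun x => repulsion x * ‖Ψ x‖ ^ 2) ∧
      ∫ x, repulsion x * ‖Ψ x‖ ^ 2 ≤ δ * kin Ψ + (m : ℝ) ^ 3 / δ * ‖Ψ‖ ^ 2 := by
  simp only [fsh_repulsion_mul]
  have hi : ∀ i j : Fin m, Integrable (fun x => (if i < j then 1 / ‖x i - x j‖ else 0) * ‖Ψ x‖ ^ 2) :=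
    fun i j => (fsh_pair_term h i j).1
  refine ⟨integrable_finsetSum _ fun i _ => integrable_finsetSum _ fun j _ => hi i j, ?_⟩
  rw [integral_finsetSum _ fun i _ => integrable_finsetSum _ fun j _ => hi i j]
  simp only [integral_finsetSum _ fun j _ => hi _ j]
  rcases Nat.eq_zero_or_pos m with hm | hm
  · subst hm
    simp only [Finset.univ_eq_empty, Finset.sum_empty]
    have := kin_nonneg Ψ
    positivity
  have hm' : (0 : ℝ) < m := by exact_mod_cast hm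
  have hη : 0 < 2 * δ / m := by positivity
  calc ∑ i, ∑ j, ∫ x, (if i < j then 1 / ‖x i - x j‖ else 0) * ‖Ψ x‖ ^ 2
      ≤ ∑ i : Fin m, ∑ _j : Fin m, ((2 * δ / m) / 2 * kinOf Ψ i + 1 / (2 * (2 * δ / m)) * ‖Ψ‖ ^ 2) :=
        Finset.sum_le_sum fun i _ => Finset.sum_le_sum fun j _ => (fsh_pair_term h i j).2 _ hη
    _ = δ * kin Ψ + (m : ℝ) ^ 3 / (4 * δ) * ‖Ψ‖ ^ 2 := by
        simp only [Finset.sum_const, Finset.card_univ, Fintype.card_fin, nsmul_eq_mul, Finset.sum_add_distrib,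
          ← Finset.mul_sum, ← kin_eq_sum_kinOf]
        field_simp
        ring
    _ ≤ δ * kin Ψ + (m : ℝ) ^ 3 / δ * ‖Ψ‖ ^ 2 := by
        have : (m : ℝ) ^ 3 / (4 * δ) ≤ (m : ℝ) ^ 3 / δ :=
          div_le_div_of_nonneg_left (by positivity) hδ (by linarith)
        have h2 := mul_le_mul_of_nonneg_right this (sq_nonneg ‖Ψ‖)
        linarith

/-- one nuclear term. -/
theorem fsh_nuc_term (Z R : ℝ) {Ψ : L2 m} (h : MemH1 Ψ) (i : Fin m) :
    Integrable (fun x => nuclearPotential Z R (x i) * ‖Ψ x‖ ^ 2) ∧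
      ∀ δ : ℝ, 0 < δ → ∫ x, |nuclearPotential Z R (x i)| * ‖Ψ x‖ ^ 2
        ≤ δ * kinOf Ψ i + Z ^ 2 / δ * ‖Ψ‖ ^ 2 := by
  obtain ⟨a1, a2⟩ := coulomb_particle h i (R • ez)
  obtain ⟨b1, b2⟩ := coulomb_particle h i (-(R • ez))
  simp only [sub_neg_eq_add] at b1 b2
  have hint : Integrable (fun x => nuclearPotential Z R (x i) * ‖Ψ x‖ ^ 2) := by
    have := (a1.const_mul (-Z)).sub (b1.const_mul Z)
    refine this.congr (Eventually.of_forall fun x => ?_)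
    show -Z * (‖Ψ x‖ ^ 2 / ‖x i - R • ez‖) - Z * (‖Ψ x‖ ^ 2 / ‖x i + R • ez‖)
      = nuclearPotential Z R (x i) * ‖Ψ x‖ ^ 2
    unfold nuclearPotential
    ring
  refine ⟨hint, fun δ hδ => ?_⟩
  have habs : Integrable (fun x => |nuclearPotential Z R (x i)| * ‖Ψ x‖ ^ 2) := by
    refine hint.abs.congr (Eventually.of_forall fun x => ?_)
    show |nuclearPotential Z R (x i) * ‖Ψ x‖ ^ 2| = _
    rw [abs_mul, abs_of_nonneg (sq_nonneg ‖Ψ x‖)]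
  have h1 : ∫ x, |nuclearPotential Z R (x i)| * ‖Ψ x‖ ^ 2
      ≤ ∫ x, (|Z| * (‖Ψ x‖ ^ 2 / ‖x i - R • ez‖) + |Z| * (‖Ψ x‖ ^ 2 / ‖x i + R • ez‖)) := by
    refine integral_mono habs ((a1.const_mul _).add (b1.const_mul _)) fun x => ?_
    show |nuclearPotential Z R (x i)| * ‖Ψ x‖ ^ 2
      ≤ |Z| * (‖Ψ x‖ ^ 2 / ‖x i - R • ez‖) + |Z| * (‖Ψ x‖ ^ 2 / ‖x i + R • ez‖)
    have h2 : |nuclearPotential Z R (x i)| ≤ |Z| / ‖x i - R • ez‖ + |Z| / ‖x i + R • ez‖ := by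
      unfold nuclearPotential
      refine (abs_sub _ _).trans (le_of_eq ?_)
      rw [abs_neg, abs_div, abs_div, abs_of_nonneg (norm_nonneg _), abs_of_nonneg (norm_nonneg _)]
    calc |nuclearPotential Z R (x i)| * ‖Ψ x‖ ^ 2
        ≤ (|Z| / ‖x i - R • ez‖ + |Z| / ‖x i + R • ez‖) * ‖Ψ x‖ ^ 2 :=
          mul_le_mul_of_nonneg_right h2 (sq_nonneg _)
      _ = _ := by ring
  rw [integral_add (a1.const_mul _) (b1.const_mul _), integral_const_mul, integral_const_mul] at h1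
  have h3 := fsh_amgm (a := |Z| * ‖Ψ‖) (s := √(kinOf Ψ i)) hδ
  rw [Real.sq_sqrt (kinOf_nonneg Ψ i), mul_pow, sq_abs] at h3
  have h4 := mul_le_mul_of_nonneg_left a2 (abs_nonneg Z)
  have h5 := mul_le_mul_of_nonneg_left b2 (abs_nonneg Z)
  have h6 : Z ^ 2 / δ * ‖Ψ‖ ^ 2 = Z ^ 2 * ‖Ψ‖ ^ 2 / δ := by ring
  rw [h6]
  linarith

theorem fsh_oneBody_mul (v : Space → ℝ) (Ψ : L2 m) (x : Config m) :
    oneBodyPotential v x * ‖Ψ x‖ ^ 2 = ∑ i, v (x i) * ‖Ψ x‖ ^ 2 := by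
  unfold oneBodyPotential
  rw [Finset.sum_mul]

theorem integral_nuclear_le (Z R : ℝ) {Ψ : L2 m} (h : MemH1 Ψ) {δ : ℝ} (hδ : 0 < δ) :
    Integrable (fun x => oneBodyPotential (nuclearPotential Z R) x * ‖Ψ x‖ ^ 2) ∧
      ∫ x, |oneBodyPotential (nuclearPotential Z R) x| * ‖Ψ x‖ ^ 2 ≤ δ * kin Ψ + (m : ℝ) * Z ^ 2 / δ * ‖Ψ‖ ^ 2 := by
  have hint : Integrable (fun x => oneBodyPotential (nuclearPotential Z R) x * ‖Ψ x‖ ^ 2) := by
    simp only [fsh_oneBody_mul]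
    exact integrable_finsetSum _ fun i _ => (fsh_nuc_term Z R h i).1
  refine ⟨hint, ?_⟩
  have habs : Integrable (fun x => |oneBodyPotential (nuclearPotential Z R) x| * ‖Ψ x‖ ^ 2) := by
    refine hint.abs.congr (Eventually.of_forall fun x => ?_)
    show |oneBodyPotential (nuclearPotential Z R) x * ‖Ψ x‖ ^ 2| = _
    rw [abs_mul, abs_of_nonneg (sq_nonneg ‖Ψ x‖)]
  have hi : ∀ i : Fin m, Integrable (fun x => |nuclearPotential Z R (x i)| * ‖Ψ x‖ ^ 2) := by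
    intro i
    refine (fsh_nuc_term Z R h i).1.abs.congr (Eventually.of_forall fun x => ?_)
    show |nuclearPotential Z R (x i) * ‖Ψ x‖ ^ 2| = _
    rw [abs_mul, abs_of_nonneg (sq_nonneg ‖Ψ x‖)]
  calc ∫ x, |oneBodyPotential (nuclearPotential Z R) x| * ‖Ψ x‖ ^ 2
      ≤ ∫ x, ∑ i, |nuclearPotential Z R (x i)| * ‖Ψ x‖ ^ 2 := by
        refine integral_mono habs (integrable_finsetSum _ fun i _ => hi i) fun x => ?_
        show |oneBodyPotential (nuclearPotential Z R) x| * ‖Ψ x‖ ^ 2 ≤ ∑ i, |nuclearPotential Z R (x i)| * ‖Ψ x‖ ^ 2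
        rw [← Finset.sum_mul]
        exact mul_le_mul_of_nonneg_right (Finset.abs_sum_le_sum_abs _ _) (sq_nonneg _)
    _ = ∑ i, ∫ x, |nuclearPotential Z R (x i)| * ‖Ψ x‖ ^ 2 := integral_finsetSum _ fun i _ => hi i
    _ ≤ ∑ i : Fin m, (δ * kinOf Ψ i + Z ^ 2 / δ * ‖Ψ‖ ^ 2) :=
        Finset.sum_le_sum fun i _ => (fsh_nuc_term Z R h i).2 δ hδ
    _ = δ * kin Ψ + (m : ℝ) * Z ^ 2 / δ * ‖Ψ‖ ^ 2 := by
        simp only [Finset.sum_const, Finset.card_univ, Fintype.card_fin, nsmul_eq_mul, Finset.sum_add_distrib,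
          ← Finset.mul_sum, ← kin_eq_sum_kinOf]
        ring

theorem fsh_scaled_mul (t : ℝ) (Ψ : L2 m) (x : Config m) :
    scaledPotential m t x * ‖Ψ x‖ ^ 2
      = oneBodyPotential (nuclearPotential 1 bigD) x * ‖Ψ x‖ ^ 2 + t * (repulsion x * ‖Ψ x‖ ^ 2) := by
  unfold scaledPotential
  ring

theorem integrable_scaledPotential (t : ℝ) {Ψ : L2 m} (h : MemH1 Ψ) :
    Integrable (fun x => scaledPotential m t x * ‖Ψ x‖ ^ 2) := by
  simp only [fsh_scaled_mul]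
  exact (integral_nuclear_le 1 bigD h one_pos).1.add ((integral_repulsion_le h one_pos).1.const_mul t)

theorem integral_scaledPotential_le {t : ℝ} (ht : |t| ≤ 1) {Ψ : L2 m} (h : MemH1 Ψ) {δ : ℝ} (hδ : 0 < δ) :
    Integrable (fun x => scaledPotential m t x * ‖Ψ x‖ ^ 2) ∧
      ∫ x, |scaledPotential m t x| * ‖Ψ x‖ ^ 2 ≤ δ * kin Ψ + 4 * ((m : ℝ) + 1) ^ 3 / δ * ‖Ψ‖ ^ 2 := by
  have hint := integrable_scaledPotential t h
  refine ⟨hint, ?_⟩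
  have hδ2 : 0 < δ / 2 := by positivity
  obtain ⟨a1, a2⟩ := integral_nuclear_le 1 bigD h hδ2
  obtain ⟨b1, b2⟩ := integral_repulsion_le h hδ2
  have habs : Integrable (fun x => |scaledPotential m t x| * ‖Ψ x‖ ^ 2) := by
    refine hint.abs.congr (Eventually.of_forall fun x => ?_)
    show |scaledPotential m t x * ‖Ψ x‖ ^ 2| = _
    rw [abs_mul, abs_of_nonneg (sq_nonneg ‖Ψ x‖)]
  have habs1 : Integrable (fun x => |oneBodyPotential (nuclearPotential 1 bigD) x| * ‖Ψ x‖ ^ 2) := by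
    refine a1.abs.congr (Eventually.of_forall fun x => ?_)
    show |oneBodyPotential (nuclearPotential 1 bigD) x * ‖Ψ x‖ ^ 2| = _
    rw [abs_mul, abs_of_nonneg (sq_nonneg ‖Ψ x‖)]
  have h1 : ∫ x, |scaledPotential m t x| * ‖Ψ x‖ ^ 2
      ≤ ∫ x, (|oneBodyPotential (nuclearPotential 1 bigD) x| * ‖Ψ x‖ ^ 2 + repulsion x * ‖Ψ x‖ ^ 2) := by
    refine integral_mono habs (habs1.add b1) fun x => ?_
    show |scaledPotential m t x| * ‖Ψ x‖ ^ 2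
      ≤ |oneBodyPotential (nuclearPotential 1 bigD) x| * ‖Ψ x‖ ^ 2 + repulsion x * ‖Ψ x‖ ^ 2
    rw [← add_mul]
    refine mul_le_mul_of_nonneg_right ?_ (sq_nonneg _)
    unfold scaledPotential
    refine (abs_add_le _ _).trans (add_le_add le_rfl ?_)
    rw [abs_mul, abs_of_nonneg (repulsion_nonneg x)]
    exact mul_le_of_le_one_left (repulsion_nonneg x) ht
  rw [integral_add habs1 b1] at h1
  have hm0 : (0 : ℝ) ≤ m := Nat.cast_nonneg m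
  have h2 : (m : ℝ) * 1 ^ 2 / (δ / 2) * ‖Ψ‖ ^ 2 + (m : ℝ) ^ 3 / (δ / 2) * ‖Ψ‖ ^ 2
      ≤ 4 * ((m : ℝ) + 1) ^ 3 / δ * ‖Ψ‖ ^ 2 := by
    rw [← add_mul]
    refine mul_le_mul_of_nonneg_right ?_ (sq_nonneg _)
    rw [← add_div, div_le_div_iff₀ hδ2 hδ]
    have : (m : ℝ) * 1 ^ 2 + (m : ℝ) ^ 3 ≤ 2 * ((m : ℝ) + 1) ^ 3 := by nlinarith [pow_nonneg hm0 2, pow_nonneg hm0 3]
    nlinarith
  have := kin_nonneg Ψ
  linarith

/-- the form domain of the scaled Hamiltonian is the antisymmetric part of `H¹`. -/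
theorem mem_formDomain_scaledPotential_iff {t : ℝ} {Ψ : L2 m} :
    Ψ ∈ FormDomain (scaledPotential m t) ↔ IsAntisymmetric Ψ ∧ MemH1 Ψ :=
  ⟨fun h => ⟨h.1, h.2.1⟩, fun h => ⟨h.1, h.2, integrable_scaledPotential t h.2⟩⟩

theorem mem_formDomain_coulombPotential_iff {Z R : ℝ} {Ψ : L2 3} :
    Ψ ∈ FormDomain (coulombPotential Z R) ↔ IsAntisymmetric Ψ ∧ MemH1 Ψ := by
  refine ⟨fun h => ⟨h.1, h.2.1⟩, fun h => ⟨h.1, h.2, ?_⟩⟩
  have := (integral_nuclear_le Z R h.2 one_pos).1.add (integral_repulsion_le h.2 one_pos).1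
  refine this.congr (Eventually.of_forall fun x => ?_)
  show oneBodyPotential (nuclearPotential Z R) x * ‖Ψ x‖ ^ 2 + repulsion x * ‖Ψ x‖ ^ 2
    = coulombPotential Z R x * ‖Ψ x‖ ^ 2
  unfold coulombPotential
  ring

/-- the energy controls the kinetic energy. -/
theorem kin_le_energy_scaledPotential {t : ℝ} (ht : |t| ≤ 1) {Ψ : L2 m} (h : MemH1 Ψ) :
    kin Ψ ≤ 4 * energy (scaledPotential m t) Ψ + 64 * ((m : ℝ) + 1) ^ 3 * ‖Ψ‖ ^ 2 := by
  obtain ⟨a1, a2⟩ := integral_scaledPotential_le ht h (δ := 1 / 4) (by norm_num)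
  rw [energy_eq_kin]
  have habs : Integrable (fun x => |scaledPotential m t x| * ‖Ψ x‖ ^ 2) := by
    refine a1.abs.congr (Eventually.of_forall fun x => ?_)
    show |scaledPotential m t x * ‖Ψ x‖ ^ 2| = _
    rw [abs_mul, abs_of_nonneg (sq_nonneg ‖Ψ x‖)]
  have h1 : -∫ x, |scaledPotential m t x| * ‖Ψ x‖ ^ 2 ≤ ∫ x, scaledPotential m t x * ‖Ψ x‖ ^ 2 := by
    rw [← integral_neg]
    refine integral_mono habs.neg a1 fun x => ?_
    show -(|scaledPotential m t x| * ‖Ψ x‖ ^ 2) ≤ scaledPotential m t x * ‖Ψ x‖ ^ 2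
    rw [← neg_mul]
    exact mul_le_mul_of_nonneg_right (neg_abs_le _) (sq_nonneg _)
  have h2 : 4 * ((m : ℝ) + 1) ^ 3 / (1 / 4) * ‖Ψ‖ ^ 2 = 16 * ((m : ℝ) + 1) ^ 3 * ‖Ψ‖ ^ 2 := by ring
  rw [h2] at a2
  linarith

/-- a sum of inverse squares which dominates the square of the scaled potential. -/
def fshSq (m : ℕ) (t : ℝ) (x : Config m) : ℝ :=
  4 * (m : ℝ) * ∑ i, (1 / ‖x i - bigD • ez‖ ^ 2 + 1 / ‖x i + bigD • ez‖ ^ 2)
    + 2 * t ^ 2 * (m : ℝ) ^ 2 * ∑ i, ∑ j, (if i < j then 1 / ‖x i - x j‖ ^ 2 else 0)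

theorem fsh_scaled_sq_le (t : ℝ) (x : Config m) : scaledPotential m t x ^ 2 ≤ fshSq m t x := by
  have hA : oneBodyPotential (nuclearPotential 1 bigD) x ^ 2
      ≤ (m : ℝ) * ∑ i, (2 * (1 / ‖x i - bigD • ez‖ ^ 2 + 1 / ‖x i + bigD • ez‖ ^ 2)) := by
    unfold oneBodyPotential
    refine (sq_sum_le_card_mul_sum_sq (s := Finset.univ)
      (f := fun i => nuclearPotential 1 bigD (x i))).trans ?_
    rw [Finset.card_univ, Fintype.card_fin]
    refine mul_le_mul_of_nonneg_left (Finset.sum_le_sum fun i _ => ?_) (Nat.cast_nonneg m)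
    unfold nuclearPotential
    have e1 : 1 / ‖x i - bigD • ez‖ ^ 2 = (1 / ‖x i - bigD • ez‖) ^ 2 := by rw [div_pow, one_pow]
    have e2 : 1 / ‖x i + bigD • ez‖ ^ 2 = (1 / ‖x i + bigD • ez‖) ^ 2 := by rw [div_pow, one_pow]
    rw [e1, e2]
    nlinarith [sq_nonneg (1 / ‖x i - bigD • ez‖ - 1 / ‖x i + bigD • ez‖)]
  have hB : repulsion x ^ 2 ≤ (m : ℝ) ^ 2 * ∑ i, ∑ j, (if i < j then 1 / ‖x i - x j‖ ^ 2 else 0) := by
    have hm0 : (0 : ℝ) ≤ m := Nat.cast_nonneg m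
    have h1 : ∀ i : Fin m, (∑ j, if i < j then 1 / ‖x i - x j‖ else 0) ^ 2
        ≤ (m : ℝ) * ∑ j, (if i < j then 1 / ‖x i - x j‖ ^ 2 else 0) := by
      intro i
      have := sq_sum_le_card_mul_sum_sq (s := (Finset.univ : Finset (Fin m)))
        (f := fun j => if i < j then 1 / ‖x i - x j‖ else 0)
      rw [Finset.card_univ, Fintype.card_fin] at this
      refine this.trans (mul_le_mul_of_nonneg_left (Finset.sum_le_sum fun j _ => ?_) hm0)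
      split_ifs
      · rw [div_pow, one_pow]
      · simp
    have h2 := sq_sum_le_card_mul_sum_sq (s := (Finset.univ : Finset (Fin m)))
      (f := fun i => ∑ j, if i < j then 1 / ‖x i - x j‖ else 0)
    rw [Finset.card_univ, Fintype.card_fin] at h2
    unfold repulsion
    refine h2.trans ?_
    have h3 := mul_le_mul_of_nonneg_left (Finset.sum_le_sum fun i (_ : i ∈ Finset.univ) => h1 i) hm0
    refine h3.trans (le_of_eq ?_)
    rw [← Finset.mul_sum]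
    ring
  unfold scaledPotential fshSq
  rw [← Finset.mul_sum] at hA
  have h1 := mul_le_mul_of_nonneg_left hB (sq_nonneg t)
  nlinarith [sq_nonneg (oneBodyPotential (nuclearPotential 1 bigD) x - t * repulsion x)]

theorem fsh_integral_fshSq (t : ℝ) {Ψ : L2 m} (h : MemH1 Ψ) :
    Integrable (fun x => fshSq m t x * ‖Ψ x‖ ^ 2) ∧
      ∫ x, fshSq m t x * ‖Ψ x‖ ^ 2 ≤ (32 * (m : ℝ) + 8 * t ^ 2 * (m : ℝ) ^ 3) * kin Ψ := by
  have hn : ∀ i : Fin m, Integrable (fun x => (1 / ‖x i - bigD • ez‖ ^ 2 + 1 / ‖x i + bigD • ez‖ ^ 2) * ‖Ψ x‖ ^ 2) ∧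
      ∫ x, (1 / ‖x i - bigD • ez‖ ^ 2 + 1 / ‖x i + bigD • ez‖ ^ 2) * ‖Ψ x‖ ^ 2 ≤ 8 * kinOf Ψ i := by
    intro i
    obtain ⟨a1, a2⟩ := hardy_particle h i (bigD • ez)
    obtain ⟨b1, b2⟩ := hardy_particle h i (-(bigD • ez))
    simp only [sub_neg_eq_add] at b1 b2
    have e : (fun x : Config m => (1 / ‖x i - bigD • ez‖ ^ 2 + 1 / ‖x i + bigD • ez‖ ^ 2) * ‖Ψ x‖ ^ 2)
        = fun x => ‖Ψ x‖ ^ 2 / ‖x i - bigD • ez‖ ^ 2 + ‖Ψ x‖ ^ 2 / ‖x i + bigD • ez‖ ^ 2 := by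
      funext x; ring
    rw [e]
    refine ⟨a1.add b1, ?_⟩
    rw [integral_add a1 b1]
    linarith
  have hp : ∀ i j : Fin m, Integrable (fun x => (if i < j then 1 / ‖x i - x j‖ ^ 2 else 0) * ‖Ψ x‖ ^ 2) ∧
      ∫ x, (if i < j then 1 / ‖x i - x j‖ ^ 2 else 0) * ‖Ψ x‖ ^ 2 ≤ 4 * kinOf Ψ i := by
    intro i j
    by_cases hij : i < j
    · simp only [hij, if_true]
      have e : (fun x : Config m => 1 / ‖x i - x j‖ ^ 2 * ‖Ψ x‖ ^ 2) = fun x => ‖Ψ x‖ ^ 2 / ‖x i - x j‖ ^ 2 := by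
        funext x; ring
      rw [e]
      exact hardy_pair h hij.ne
    · simp only [hij, if_false, zero_mul, integral_zero]
      exact ⟨integrable_zero _ _ _, by have := kinOf_nonneg Ψ i; positivity⟩
  have e : (fun x => fshSq m t x * ‖Ψ x‖ ^ 2) = fun x =>
      4 * (m : ℝ) * ∑ i, (1 / ‖x i - bigD • ez‖ ^ 2 + 1 / ‖x i + bigD • ez‖ ^ 2) * ‖Ψ x‖ ^ 2
      + 2 * t ^ 2 * (m : ℝ) ^ 2 * ∑ i, ∑ j, (if i < j then 1 / ‖x i - x j‖ ^ 2 else 0) * ‖Ψ x‖ ^ 2 := by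
    funext x
    unfold fshSq
    rw [add_mul, mul_assoc (4 * (m : ℝ)), Finset.sum_mul, mul_assoc (2 * t ^ 2 * (m : ℝ) ^ 2), Finset.sum_mul]
    simp only [Finset.sum_mul]
  rw [e]
  have i1 : Integrable (fun x => ∑ i, (1 / ‖x i - bigD • ez‖ ^ 2 + 1 / ‖x i + bigD • ez‖ ^ 2) * ‖Ψ x‖ ^ 2) :=
    integrable_finsetSum _ fun i _ => (hn i).1
  have i2 : Integrable (fun x => ∑ i, ∑ j, (if i < j then 1 / ‖x i - x j‖ ^ 2 else 0) * ‖Ψ x‖ ^ 2) :=
    integrable_finsetSum _ fun i _ => integrable_finsetSum _ fun j _ => (hp i j).1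
  refine ⟨(i1.const_mul _).add (i2.const_mul _), ?_⟩
  rw [integral_add (i1.const_mul _) (i2.const_mul _), integral_const_mul, integral_const_mul,
    integral_finsetSum _ fun i _ => (hn i).1,
    integral_finsetSum _ fun i _ => integrable_finsetSum _ fun j _ => (hp i j).1]
  simp only [integral_finsetSum _ fun j _ => (hp _ j).1]
  have s1 : ∑ i, ∫ x, (1 / ‖x i - bigD • ez‖ ^ 2 + 1 / ‖x i + bigD • ez‖ ^ 2) * ‖Ψ x‖ ^ 2 ≤ 8 * kin Ψ := by
    rw [kin_eq_sum_kinOf, Finset.mul_sum]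
    exact Finset.sum_le_sum fun i _ => (hn i).2
  have s2 : ∑ i, ∑ j, ∫ x, (if i < j then 1 / ‖x i - x j‖ ^ 2 else 0) * ‖Ψ x‖ ^ 2 ≤ (m : ℝ) * (4 * kin Ψ) := by
    calc ∑ i, ∑ j, ∫ x, (if i < j then 1 / ‖x i - x j‖ ^ 2 else 0) * ‖Ψ x‖ ^ 2
        ≤ ∑ i : Fin m, ∑ _j : Fin m, 4 * kinOf Ψ i :=
          Finset.sum_le_sum fun i _ => Finset.sum_le_sum fun j _ => (hp i j).2
      _ = (m : ℝ) * (4 * kin Ψ) := by
          simp only [Finset.sum_const, Finset.card_univ, Fintype.card_fin, nsmul_eq_mul, ← Finset.mul_sum,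
            ← kin_eq_sum_kinOf]
  have hm0 : (0 : ℝ) ≤ m := Nat.cast_nonneg m
  have t1 := mul_le_mul_of_nonneg_left s1 (by positivity : (0 : ℝ) ≤ 4 * (m : ℝ))
  have t2 := mul_le_mul_of_nonneg_left s2 (by positivity : (0 : ℝ) ≤ 2 * t ^ 2 * (m : ℝ) ^ 2)
  nlinarith

theorem fsh_integrable_scaled_sq (t : ℝ) {Ψ : L2 m} (h : MemH1 Ψ) :
    Integrable (fun x => scaledPotential m t x ^ 2 * ‖Ψ x‖ ^ 2) := by
  refine (fsh_integral_fshSq t h).1.mono'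
    (((measurable_scaledPotential t).pow_const 2).aestronglyMeasurable.mul (L2.integrable_norm_sq Ψ).1)
    (Eventually.of_forall fun x => ?_)
  rw [Real.norm_eq_abs, abs_of_nonneg (by positivity)]
  exact mul_le_mul_of_nonneg_right (fsh_scaled_sq_le t x) (sq_nonneg _)

/-- `V Ψ ∈ L²` for `Ψ ∈ H¹` (Hardy): the input of `H²` regularity. -/
theorem memLp_scaledPotential_smul (t : ℝ) {Ψ : L2 m} (h : MemH1 Ψ) :
    MemLp (fun x => scaledPotential m t x • (Ψ x : SpinSpace m)) 2 volume := by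
  have hm : AEStronglyMeasurable (fun x => scaledPotential m t x • (Ψ x : SpinSpace m)) volume :=
    (measurable_scaledPotential t).aestronglyMeasurable.smul (L2.memLp Ψ).1
  rw [memLp_two_iff_integrable_sq_norm hm]
  refine (fsh_integrable_scaled_sq t h).congr (Eventually.of_forall fun x => ?_)
  show scaledPotential m t x ^ 2 * ‖Ψ x‖ ^ 2 = ‖scaledPotential m t x • (Ψ x : SpinSpace m)‖ ^ 2
  rw [norm_smul, mul_pow, Real.norm_eq_abs, sq_abs]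

theorem integral_scaledPotential_sq_le {t : ℝ} (ht : |t| ≤ 1) {Ψ : L2 m} (h : MemH1 Ψ) :
    ∫ x, scaledPotential m t x ^ 2 * ‖Ψ x‖ ^ 2 ≤ 4 * ((m : ℝ) + 1) ^ 4 * kin Ψ := by
  obtain ⟨a1, a2⟩ := fsh_integral_fshSq t h
  have h1 : ∫ x, scaledPotential m t x ^ 2 * ‖Ψ x‖ ^ 2 ≤ ∫ x, fshSq m t x * ‖Ψ x‖ ^ 2 :=
    integral_mono (fsh_integrable_scaled_sq t h) a1 fun x =>
      mul_le_mul_of_nonneg_right (fsh_scaled_sq_le t x) (sq_nonneg _)
  refine h1.trans (a2.trans (mul_le_mul_of_nonneg_right ?_ (kin_nonneg Ψ)))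
  have hm0 : (0 : ℝ) ≤ m := Nat.cast_nonneg m
  have ht2 : t ^ 2 ≤ 1 := by
    have := sq_le_sq' (by linarith [abs_le.1 ht |>.1]) (abs_le.1 ht).2
    simpa using this
  have h3 : 8 * t ^ 2 * (m : ℝ) ^ 3 ≤ 8 * (m : ℝ) ^ 3 := by
    have := mul_le_mul_of_nonneg_right ht2 (by positivity : (0 : ℝ) ≤ 8 * (m : ℝ) ^ 3)
    linarith
  nlinarith [pow_nonneg hm0 2, pow_nonneg hm0 3, pow_nonneg hm0 4, sq_nonneg ((m : ℝ) - 1)]

/-- the sesquilinear potential term is integrable on `H¹ × H¹`. -/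
theorem integrable_scaledPotential_inner (t : ℝ) {Ξ Φ : L2 m} (hΞ : MemH1 Ξ) (hΦ : MemH1 Φ) :
    Integrable (fun x => (scaledPotential m t x : ℂ) * ⟪Ξ x, Φ x⟫_ℂ) :=
  integrable_W_inner (measurable_scaledPotential t).aestronglyMeasurable
    (integrable_scaledPotential t hΞ) (integrable_scaledPotential t hΦ)

end H5

/-! ## LEAF FS-H6: scalar versions on `Space` -/

section H6

variable {f g : Space → ℝ} {F G : Space → Space}

theorem fsh_id_eA (a : Fin 3) : (ContinuousLinearMap.id ℝ Space) (eA a) = eA a := rfl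

theorem fsh_sum_coord (h : IsH1 f F) : ∑ a, ∫ x, ‖F x a‖ ^ 2 = ∫ x, ‖F x‖ ^ 2 := by
  rw [integral_norm_sq_eq_sum_coord h.2.1]
  simp only [Real.norm_eq_abs, sq_abs]

theorem IsH1.hardy (h : IsH1 f F) (c : Space) :
    Integrable (fun x => f x ^ 2 / ‖x - c‖ ^ 2) ∧ ∫ x, f x ^ 2 / ‖x - c‖ ^ 2 ≤ 4 * ∫ x, ‖F x‖ ^ 2 := by
  have := hardy_generic ℝ fsh_id_eA c (fun a => h.wd2_coord a)
  rw [fsh_sum_coord h] at this
  simpa only [Real.norm_eq_abs, sq_abs, ContinuousLinearMap.id_apply] using this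

theorem IsH1.coulomb (h : IsH1 f F) (c : Space) :
    Integrable (fun x => f x ^ 2 / ‖x - c‖) ∧ ∫ x, f x ^ 2 / ‖x - c‖ ≤ √(∫ x, f x ^ 2) * √(∫ x, ‖F x‖ ^ 2) := by
  have := coulomb_generic ℝ fsh_id_eA c (fun a => h.wd2_coord a)
  rw [fsh_sum_coord h] at this
  simpa only [Real.norm_eq_abs, sq_abs, ContinuousLinearMap.id_apply] using this

/-- the hydrogen bound `-½Δ - Z/|x-c| ≥ -Z²/2`. -/
theorem IsH1.hydrogen_bound (h : IsH1 f F) (c : Space) {Z : ℝ} (hZ : 0 ≤ Z) :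
    -(Z ^ 2 / 2) * ∫ x, f x ^ 2 ≤ (1 / 2) * (∫ x, ‖F x‖ ^ 2) - Z * ∫ x, f x ^ 2 / ‖x - c‖ := by
  have h1 := mul_le_mul_of_nonneg_left (h.coulomb c).2 hZ
  have hN : 0 ≤ ∫ x, f x ^ 2 := integral_nonneg fun x => sq_nonneg _
  have hG : 0 ≤ ∫ x, ‖F x‖ ^ 2 := integral_nonneg fun x => sq_nonneg _
  have h2 := fsh_amgm (a := Z * √(∫ x, f x ^ 2)) (s := √(∫ x, ‖F x‖ ^ 2)) one_pos
  rw [mul_pow, Real.sq_sqrt hN, Real.sq_sqrt hG] at h2
  nlinarith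

theorem IsH1.integrable_sq (h : IsH1 f F) : Integrable (fun x => f x ^ 2) := by
  have := fsh_integrable_norm_sq h.1
  simpa only [Real.norm_eq_abs, sq_abs] using this

theorem IsH1.integrable_norm_sq (h : IsH1 f F) : Integrable (fun x => ‖F x‖ ^ 2) :=
  fsh_integrable_norm_sq h.2.1

/-- `∫ |u| f² ≤ 2 |Z| ‖f‖ ‖∇f‖` for the two-centre potential. -/
theorem IsH1.integral_abs_nuclear_le (h : IsH1 f F) (Z R : ℝ) :
    Integrable (fun x => |nuclearPotential Z R x| * f x ^ 2) ∧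
      ∫ x, |nuclearPotential Z R x| * f x ^ 2 ≤ 2 * |Z| * (√(∫ x, f x ^ 2) * √(∫ x, ‖F x‖ ^ 2)) := by
  obtain ⟨a1, a2⟩ := h.coulomb (R • ez)
  obtain ⟨b1, b2⟩ := h.coulomb (-(R • ez))
  simp only [sub_neg_eq_add] at b1 b2
  have hb : ∀ x, |nuclearPotential Z R x| * f x ^ 2
      ≤ |Z| * (f x ^ 2 / ‖x - R • ez‖) + |Z| * (f x ^ 2 / ‖x + R • ez‖) := by
    intro x
    have h2 : |nuclearPotential Z R x| ≤ |Z| / ‖x - R • ez‖ + |Z| / ‖x + R • ez‖ := by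
      unfold nuclearPotential
      refine (abs_sub _ _).trans (le_of_eq ?_)
      rw [abs_neg, abs_div, abs_div, abs_of_nonneg (norm_nonneg _), abs_of_nonneg (norm_nonneg _)]
    calc |nuclearPotential Z R x| * f x ^ 2
        ≤ (|Z| / ‖x - R • ez‖ + |Z| / ‖x + R • ez‖) * f x ^ 2 :=
          mul_le_mul_of_nonneg_right h2 (sq_nonneg _)
      _ = _ := by ring
  have hdom : Integrable (fun x => |Z| * (f x ^ 2 / ‖x - R • ez‖) + |Z| * (f x ^ 2 / ‖x + R • ez‖)) :=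
    (a1.const_mul |Z|).add (b1.const_mul |Z|)
  have hint : Integrable (fun x => |nuclearPotential Z R x| * f x ^ 2) := by
    refine hdom.mono' ((measurable_nuclearPotential Z R).abs.aestronglyMeasurable.mul h.integrable_sq.1)
      (Eventually.of_forall fun x => ?_)
    rw [Real.norm_eq_abs, abs_of_nonneg (by positivity)]
    exact hb x
  refine ⟨hint, (integral_mono hint hdom hb).trans ?_⟩
  rw [integral_add (a1.const_mul _) (b1.const_mul _), integral_const_mul, integral_const_mul]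
  have h4 := mul_le_mul_of_nonneg_left a2 (abs_nonneg Z)
  have h5 := mul_le_mul_of_nonneg_left b2 (abs_nonneg Z)
  linarith

theorem IsH1.integrable_nuclear (h : IsH1 f F) (h' : IsH1 g G) (Z R : ℝ) :
    Integrable (fun x => nuclearPotential Z R x * (f x * g x)) := by
  refine ((h.integral_abs_nuclear_le Z R).1.add (h'.integral_abs_nuclear_le Z R).1).mono'
    ((measurable_nuclearPotential Z R).aestronglyMeasurable.mul (h.1.1.mul h'.1.1))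
    (Eventually.of_forall fun x => ?_)
  show ‖nuclearPotential Z R x * (f x * g x)‖
    ≤ |nuclearPotential Z R x| * f x ^ 2 + |nuclearPotential Z R x| * g x ^ 2
  rw [Real.norm_eq_abs, abs_mul, ← mul_add]
  refine mul_le_mul_of_nonneg_left ?_ (abs_nonneg _)
  rw [abs_le]
  constructor <;> nlinarith [sq_nonneg (f x - g x), sq_nonneg (f x + g x)]

theorem IsH1.integrable_inner (h : IsH1 f F) (h' : IsH1 g G) : Integrable (fun x => ⟪F x, G x⟫_ℝ) :=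
  fs_integrable_inner h.2.1 h'.2.1

theorem IsH1.integrable_mul (h : IsH1 f F) (h' : IsH1 g G) : Integrable (fun x => f x * g x) := by
  have := fs_integrable_inner (𝕜 := ℝ) h'.1 h.1
  simpa using this

/-- `u_D f ∈ L²` for `f ∈ H¹`. -/
theorem IsH1.memLp_nuclear_mul (h : IsH1 f F) (Z R : ℝ) : MemLp (fun x => nuclearPotential Z R x * f x) 2 volume := by
  have hm : AEStronglyMeasurable (fun x => nuclearPotential Z R x * f x) volume :=
    (measurable_nuclearPotential Z R).aestronglyMeasurable.mul h.1.1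
  rw [memLp_two_iff_integrable_sq_norm hm]
  obtain ⟨a1, -⟩ := h.hardy (R • ez)
  obtain ⟨b1, -⟩ := h.hardy (-(R • ez))
  simp only [sub_neg_eq_add] at b1
  refine ((a1.const_mul (2 * Z ^ 2)).add (b1.const_mul (2 * Z ^ 2))).mono' (hm.norm.pow 2)
    (Eventually.of_forall fun x => ?_)
  show ‖‖nuclearPotential Z R x * f x‖ ^ 2‖
    ≤ 2 * Z ^ 2 * (f x ^ 2 / ‖x - R • ez‖ ^ 2) + 2 * Z ^ 2 * (f x ^ 2 / ‖x + R • ez‖ ^ 2)
  rw [Real.norm_eq_abs, Real.norm_eq_abs, sq_abs, abs_of_nonneg (sq_nonneg _)]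
  unfold nuclearPotential
  have e1 : f x ^ 2 / ‖x - R • ez‖ ^ 2 = (f x / ‖x - R • ez‖) ^ 2 := by rw [div_pow]
  have e2 : f x ^ 2 / ‖x + R • ez‖ ^ 2 = (f x / ‖x + R • ez‖) ^ 2 := by rw [div_pow]
  have e3 : (-(Z / ‖x - R • ez‖) - Z / ‖x + R • ez‖) * f x
      = -(Z * (f x / ‖x - R • ez‖)) - Z * (f x / ‖x + R • ez‖) := by ring
  rw [e1, e2, e3]
  nlinarith [sq_nonneg (Z * (f x / ‖x - R • ez‖) - Z * (f x / ‖x + R • ez‖))]

/-- the one-body form controls the gradient: `∫ |∇f|² ≤ 4 q[f] + 16 ∫ f²`  (`q = orbitalForm`). -/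
theorem IsH1.grad_le_orbitalForm (h : IsH1 f F) :
    ∫ x, ‖F x‖ ^ 2 ≤ 4 * orbitalForm f f F F + 16 * ∫ x, f x ^ 2 := by
  obtain ⟨a1, a2⟩ := h.integral_abs_nuclear_le 1 bigD
  have hN : 0 ≤ ∫ x, f x ^ 2 := integral_nonneg fun x => sq_nonneg _
  have hG : 0 ≤ ∫ x, ‖F x‖ ^ 2 := integral_nonneg fun x => sq_nonneg _
  have h2 := fsh_amgm (a := √(∫ x, f x ^ 2)) (s := √(∫ x, ‖F x‖ ^ 2)) (δ := 1 / 4) (by norm_num)
  rw [Real.sq_sqrt hN, Real.sq_sqrt hG] at h2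
  have h3 : -∫ x, |nuclearPotential 1 bigD x| * f x ^ 2 ≤ ∫ x, nuclearPotential 1 bigD x * (f x * f x) := by
    rw [← integral_neg]
    refine integral_mono a1.neg (h.integrable_nuclear h 1 bigD) fun x => ?_
    show -(|nuclearPotential 1 bigD x| * f x ^ 2) ≤ nuclearPotential 1 bigD x * (f x * f x)
    rw [← neg_mul, ← sq]
    exact mul_le_mul_of_nonneg_right (neg_abs_le _) (sq_nonneg _)
  unfold orbitalForm
  simp only [real_inner_self_eq_norm_sq]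
  rw [abs_one] at a2
  linarith

end H6

end Claimed.Open.R278
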