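import Claimed.Open.R278.AGInv
import Claimed.Open.R278.FSHardy

/-!
# Result 278, layer AG, file 11: the embedding `W^{k+3,1}(ℝ³; F) ⊆ C^k`, local versions and glueing

`F` = any real Banach space (`ℂ` for densities, the fibre space for the channel function).  The only inequality is
`‖u(x)‖ ≤ ∫ ‖∂₀∂₁∂₂ u‖` for `u ∈ C³_c` (three times the fundamental theorem of calculus).  No Fourier analysis, no `H^s`.

Structure:
* `sup_le_integral_mixed`        : the inequality;
* `embed_zero`                   : `DirL1 .. 3 I M`, `I` compactly supported `⟹` continuous version bounded by `M`;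
* `contDiff_one_of_wd`           : continuous function with continuous weak derivatives is `C¹`;
* `embed`                        : induction: `DirL1 .. (k+3) I M ⟹ C^k` version with `‖D^i‖ ≤ C M`;
* `local_versions`               : local versions on an open set glue to ONE smooth function, with pointwise bounds.
-/

open MeasureTheory Filter Topology Set
open scoped ContDiff InnerProductSpace

noncomputable section

set_option linter.unusedSectionVars false

namespace Claimed.Open.R278.AG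

variable {F : Type*} [NormedAddCommGroup F] [NormedSpace ℝ F] [CompleteSpace F]

/-! ## LEAF AG-E1: the basic inequality -/

section E1

/-- the third iterated derivative as three successive directional derivatives. -/
theorem age_iter3 {X : Type*} [NormedAddCommGroup X] [NormedSpace ℝ X] {u : X → F} (hu : ContDiff ℝ 3 u)
    (a b c y : X) :
    iteratedFDeriv ℝ 3 u y ![a, b, c]
      = fderiv ℝ (fun y₁ => fderiv ℝ (fun y₂ => fderiv ℝ u y₂ c) y₁ b) y a := by
  have h2 : ∀ z, iteratedFDeriv ℝ 2 u z ![b, c] = fderiv ℝ (fun y₂ => fderiv ℝ u y₂ c) z b := by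
    intro z
    rw [iteratedFDeriv_two_apply]
    have hd : DifferentiableAt ℝ (fderiv ℝ u) z :=
      ((hu.fderiv_right (m := 2) (by norm_num)).differentiable (by norm_num)) z
    have := fderiv_clm_apply hd (differentiableAt_const c)
    rw [this]
    simp
  have hd2 : DifferentiableAt ℝ (iteratedFDeriv ℝ 2 u) y :=
    (hu.differentiable_iteratedFDeriv (m := 2) (by norm_cast)) y
  rw [iteratedFDeriv_succ_apply_left]
  have e : Fin.tail ![a, b, c] = ![b, c] := by
    ext i; fin_cases i <;> rfl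
  rw [e, ← fderiv_continuousMultilinear_apply_const_apply hd2]
  simp only [h2]
  rfl

/-- one variable: fundamental theorem of calculus along the `i`-th axis. -/
theorem age_pi_step {U : (Fin 3 → ℝ) → F} (hU : ContDiff ℝ 1 U) (hc : HasCompactSupport U) (i : Fin 3)
    (p : Fin 3 → ℝ) :
    ‖U p‖ₑ ≤ (∫⋯∫⁻_{i}, (fun q => ‖fderiv ℝ U q (Pi.single i 1)‖ₑ) ∂(fun _ => (volume : Measure ℝ))) p := by
  rw [lmarginal_singleton]
  have h3 : ContDiff ℝ 1 (U ∘ Function.update p i) := hU.comp (contDiff_update 1 p i)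
  have h4 : HasCompactSupport (U ∘ Function.update p i) :=
    hc.comp_isClosedEmbedding (isClosedEmbedding_update p i)
  have h5 := HasCompactSupport.integral_Iic_deriv_eq h3 h4 (p i)
  have hder : ∀ s, deriv (U ∘ Function.update p i) s
      = fderiv ℝ U (Function.update p i s) (Pi.single i 1) := by
    intro s
    have h1 : HasDerivAt (Function.update p i) (Pi.single i (1 : ℝ)) s := hasDerivAt_update p i s
    exact ((hU.differentiable one_ne_zero _).hasFDerivAt.comp_hasDerivAt s h1).deriv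
  calc ‖U p‖ₑ = ‖∫ s in Iic (p i), deriv (U ∘ Function.update p i) s‖ₑ := by rw [h5]; simp
    _ ≤ ∫⁻ s in Iic (p i), ‖deriv (U ∘ Function.update p i) s‖ₑ := enorm_integral_le_lintegral_enorm _
    _ ≤ ∫⁻ s, ‖deriv (U ∘ Function.update p i) s‖ₑ := setLIntegral_le_lintegral _ _
    _ = _ := by simp only [hder]

theorem age_pi_sup {U : (Fin 3 → ℝ) → F} (hU : ContDiff ℝ 3 U) (hc : HasCompactSupport U)
    (p : Fin 3 → ℝ) :
    ‖U p‖ₑ ≤ ∫⁻ q, ‖fderiv ℝ (fun y₁ => fderiv ℝ (fun y₂ => fderiv ℝ U y₂ (Pi.single 2 1)) y₁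
      (Pi.single 1 1)) q (Pi.single 0 1)‖ₑ := by
  set W2 : (Fin 3 → ℝ) → F := fun y₂ => fderiv ℝ U y₂ (Pi.single 2 1) with hW2
  set W1 : (Fin 3 → ℝ) → F := fun y₁ => fderiv ℝ W2 y₁ (Pi.single 1 1) with hW1
  set W0 : (Fin 3 → ℝ) → F := fun y₁ => fderiv ℝ W1 y₁ (Pi.single 0 1) with hW0
  have c2 : ContDiff ℝ 2 W2 := (hU.fderiv_right (m := 2) (by norm_num)).clm_apply contDiff_const
  have c1 : ContDiff ℝ 1 W1 := (c2.fderiv_right (m := 1) (by norm_num)).clm_apply contDiff_const
  have c0 : Continuous W0 := (c1.continuous_fderiv one_ne_zero).clm_apply continuous_const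
  have s2 : HasCompactSupport W2 := hc.fderiv_apply (𝕜 := ℝ) _
  have s1 : HasCompactSupport W1 := s2.fderiv_apply (𝕜 := ℝ) _
  have m0 : Measurable fun q => ‖W0 q‖ₑ := c0.enorm.measurable
  have e1 : ‖U p‖ₑ ≤ (∫⋯∫⁻_{2}, (fun q => ‖W2 q‖ₑ) ∂(fun _ => (volume : Measure ℝ))) p :=
    age_pi_step (hU.of_le (by norm_num)) hc 2 p
  have e2 : (fun q => ‖W2 q‖ₑ) ≤ ∫⋯∫⁻_{1}, (fun q => ‖W1 q‖ₑ) ∂(fun _ => (volume : Measure ℝ)) :=
    fun q => age_pi_step (c2.of_le (by norm_num)) s2 1 q
  have e3 : (fun q => ‖W1 q‖ₑ) ≤ ∫⋯∫⁻_{0}, (fun q => ‖W0 q‖ₑ) ∂(fun _ => (volume : Measure ℝ)) :=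
    fun q => age_pi_step c1 s1 0 q
  have e4 := (e1.trans (lmarginal_mono e2 p)).trans (lmarginal_mono (lmarginal_mono e3) p)
  rw [← lmarginal_union _ _ m0 (by decide), ← lmarginal_union _ _ m0 (by decide)] at e4
  have hu : ({2} ∪ ({1} ∪ {0}) : Finset (Fin 3)) = Finset.univ := by decide
  rw [hu, lmarginal_univ] at e4
  exact e4

theorem age_fderiv_comp_toLp {G : Type*} [NormedAddCommGroup G] [NormedSpace ℝ G] (f : Space → G)
    (q : Fin 3 → ℝ) (i : Fin 3) :
    fderiv ℝ (fun q' : Fin 3 → ℝ => f (WithLp.toLp 2 q')) q (Pi.single i 1)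
      = fderiv ℝ f (WithLp.toLp 2 q) (eA i) := by
  have h := (EuclideanSpace.equiv (Fin 3) ℝ).symm.comp_right_fderiv (f := f) (x := q)
  have h' : fderiv ℝ (fun q' : Fin 3 → ℝ => f (WithLp.toLp 2 q')) q
      = (fderiv ℝ f (WithLp.toLp 2 q)).comp
        ((EuclideanSpace.equiv (Fin 3) ℝ).symm : (Fin 3 → ℝ) →L[ℝ] Space) := h
  rw [h']
  rfl

/-- `‖u(x)‖ ≤ ∫ ‖∂₀∂₁∂₂ u‖`.  Route: transport to `Fin 3 → ℝ` (`EuclideanSpace.volume_preserving_measurableEquiv` /
`PiLp.volume_preserving_ofLp`), then `u(x) = ∫_{-∞}^{x₀} ∂₀u(s, x₁, x₂) ds`, so `‖u(x)‖ ≤ ∫_ℝ ‖∂₀u(s,x₁,x₂)‖ ds`; apply the same to `∂₀u` in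
the variable `x₁` and to `∂₁∂₀u` in the variable `x₂`; Tonelli (`MeasureTheory.volume_pi`, `integral_fin_nat...` or three times
`MeasureTheory.volume_preserving_piFinSuccAbove`).  Compare `MeasureTheory.lintegral_pow_le_pow_lintegral_fderiv_aux` in Mathlib's
`SobolevInequality.lean` for the one-variable step. -/
theorem sup_le_integral_mixed {u : Space → F} (hu : ContDiff ℝ 3 u) (hc : HasCompactSupport u) (x : Space) :
    ‖u x‖ ≤ ∫ y, ‖iteratedFDeriv ℝ 3 u y ![eA 0, eA 1, eA 2]‖ := by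
  set w2 : Space → F := fun y₂ => fderiv ℝ u y₂ (eA 2) with hw2
  set w1 : Space → F := fun y₁ => fderiv ℝ w2 y₁ (eA 1) with hw1
  set w0 : Space → F := fun y₁ => fderiv ℝ w1 y₁ (eA 0) with hw0
  have e0 : ∀ y, iteratedFDeriv ℝ 3 u y ![eA 0, eA 1, eA 2] = w0 y := fun y => age_iter3 hu _ _ _ y
  simp only [e0]
  have c2 : ContDiff ℝ 2 w2 := (hu.fderiv_right (m := 2) (by norm_num)).clm_apply contDiff_const
  have c1 : ContDiff ℝ 1 w1 := (c2.fderiv_right (m := 1) (by norm_num)).clm_apply contDiff_const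
  have c0 : Continuous w0 := (c1.continuous_fderiv one_ne_zero).clm_apply continuous_const
  have s0 : HasCompactSupport w0 :=
    ((hc.fderiv_apply (𝕜 := ℝ) _).fderiv_apply (𝕜 := ℝ) _).fderiv_apply (𝕜 := ℝ) _
  have hint : Integrable w0 volume := c0.integrable_of_hasCompactSupport s0
  set T : (Fin 3 → ℝ) ≃L[ℝ] Space := (EuclideanSpace.equiv (Fin 3) ℝ).symm with hT
  have hU : ContDiff ℝ 3 (fun q : Fin 3 → ℝ => u (WithLp.toLp 2 q)) :=
    hu.comp T.contDiff
  have hUc : HasCompactSupport (fun q : Fin 3 → ℝ => u (WithLp.toLp 2 q)) :=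
    hc.comp_homeomorph T.toHomeomorph
  have key := age_pi_sup hU hUc (WithLp.ofLp x)
  have k2 : (fun y₂ : Fin 3 → ℝ => fderiv ℝ (fun q : Fin 3 → ℝ => u (WithLp.toLp 2 q)) y₂ (Pi.single 2 1))
      = fun q => w2 (WithLp.toLp 2 q) := funext fun q => age_fderiv_comp_toLp u q 2
  have k1 : (fun y₁ : Fin 3 → ℝ => fderiv ℝ (fun q : Fin 3 → ℝ => w2 (WithLp.toLp 2 q)) y₁ (Pi.single 1 1))
      = fun q => w1 (WithLp.toLp 2 q) := funext fun q => age_fderiv_comp_toLp w2 q 1
  have k0 : ∀ q : Fin 3 → ℝ, fderiv ℝ (fun q : Fin 3 → ℝ => w1 (WithLp.toLp 2 q)) q (Pi.single 0 1)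
      = w0 (WithLp.toLp 2 q) := fun q => age_fderiv_comp_toLp w1 q 0
  rw [k2, k1] at key
  simp only [k0] at key
  have key2 : ‖u x‖ₑ ≤ ∫⁻ y, ‖w0 y‖ₑ := by
    rw [← (PiLp.volume_preserving_toLp (Fin 3)).lintegral_comp c0.enorm.measurable]
    exact key
  rw [integral_norm_eq_lintegral_enorm hint.1, ← toReal_enorm]
  exact ENNReal.toReal_mono hint.2.ne key2

/-- mollification commutes with the chain of weak derivatives: if `g` is obtained from `I` by the weak derivatives along
`eA 0`, `eA 1`, `eA 2`, then `∂₀∂₁∂₂ (ρ ⋆ I) = ρ ⋆ g` (`fderiv_moll` three times). -/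
theorem iteratedFDeriv_moll_mixed {I g₀ g₁ g₂ : Space → F} (hI : LocallyIntegrable I volume)
    (h₀l : LocallyIntegrable g₀ volume) (h₁l : LocallyIntegrable g₁ volume)
    (h₀ : HasWeakDeriv volume (eA 2) I g₀) (h₁ : HasWeakDeriv volume (eA 1) g₀ g₁)
    (h₂ : HasWeakDeriv volume (eA 0) g₁ g₂) {ρ : Space → ℝ} (hρ : ContDiff ℝ ∞ ρ) (hρc : HasCompactSupport ρ)
    (y : Space) :
    iteratedFDeriv ℝ 3 (moll volume ρ I) y ![eA 0, eA 1, eA 2] = moll volume ρ g₂ y := by
  have hs : ContDiff ℝ 3 (moll volume ρ I) := (contDiff_moll hρ hρc hI).of_le (WithTop.coe_le_coe.2 le_top)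
  rw [age_iter3 hs]
  have e2 : (fun y₂ => fderiv ℝ (moll volume ρ I) y₂ (eA 2)) = moll volume ρ g₀ :=
    funext fun z => fderiv_moll hρ hρc hI h₀ z
  rw [e2]
  have e1 : (fun y₁ => fderiv ℝ (moll volume ρ g₀) y₁ (eA 1)) = moll volume ρ g₁ :=
    funext fun z => fderiv_moll hρ hρc h₀l h₁ z
  rw [e1]
  exact fderiv_moll hρ hρc h₁l h₂ y

/-- mollification contracts `L¹`. -/
theorem age_integral_norm_moll_le {g : Space → F} (hg : Integrable g volume) (n : ℕ) :
    Integrable (moll volume (mollSeq volume n) g) volume ∧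
      ∫ x, ‖moll volume (mollSeq volume n) g x‖ ≤ ∫ x, ‖g x‖ :=
  fs_integral_norm_moll_le (continuous_mollSeq n) (hasCompactSupport_mollSeq n) (mollSeq_nonneg n)
    (integral_mollSeq n) hg

/-- the mollification vanishes at distance `> 1` from the support. -/
theorem age_moll_eq_zero (n : ℕ) {f : Space → F} {x : Space}
    (h : ∀ y ∈ Metric.ball x (1 / ((n : ℝ) + 1)), f y = 0) :
    moll volume (mollSeq volume n) f x = 0 := by
  rw [fs_moll_congr_ball n (f' := fun _ => (0 : F)) h, moll_apply]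
  simp

/-- mollifiers converge in `L¹` (global version for integrable functions). -/
theorem tendsto_moll_L1 {g : Space → F} (hg : Integrable g volume) :
    Tendsto (fun n => ∫ x, ‖moll volume (mollSeq volume n) g x - g x‖) atTop (𝓝 0) := by
  rw [Metric.tendsto_atTop]
  intro ε hε
  obtain ⟨φ, hφs, hgφ, hφc, hφi⟩ := hg.exists_hasCompactSupport_integral_sub_le (show 0 < ε / 4 by positivity)
  set K := Metric.cthickening 1 (tsupport φ) with hK
  have hKc : IsCompact K := hφs.isCompact.cthickening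
  have hloc := tendsto_moll_L1loc (μ := (volume : Measure Space)) hφc.locallyIntegrable hKc
  rw [Metric.tendsto_atTop] at hloc
  obtain ⟨N, hN⟩ := hloc (ε / 4) (by positivity)
  refine ⟨N, fun n hn => ?_⟩
  have hout : ∀ x, x ∉ K → moll volume (mollSeq volume n) φ x - φ x = 0 := by
    intro x hx
    have hz : ∀ y ∈ Metric.ball x (1 / ((n : ℝ) + 1)), φ y = 0 := by
      intro y hy
      by_contra hne
      apply hx
      have hy' : y ∈ tsupport φ := subset_tsupport φ hne
      apply Metric.mem_cthickening_of_dist_le x y 1 _ hy'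
      rw [dist_comm]
      exact (Metric.mem_ball.mp hy).le.trans (fs_rOut_le_one n)
    rw [age_moll_eq_zero n hz, hz x (Metric.mem_ball_self (by positivity))]
    simp
  have e1 : ∫ x, ‖moll volume (mollSeq volume n) φ x - φ x‖
      = ∫ x in K, ‖moll volume (mollSeq volume n) φ x - φ x‖ :=
    (setIntegral_eq_integral_of_forall_compl_eq_zero fun x hx => by rw [hout x hx, norm_zero]).symm
  have h2 := hN n hn
  rw [Real.dist_eq, sub_zero, abs_of_nonneg (integral_nonneg fun x => norm_nonneg _), ← e1] at h2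
  have hd : Integrable (fun y => g y - φ y) volume := hg.sub hφi
  obtain ⟨i1, b1⟩ := age_integral_norm_moll_le hd n
  obtain ⟨i2, -⟩ := age_integral_norm_moll_le hφi n
  obtain ⟨i3, -⟩ := age_integral_norm_moll_le hg n
  have hpt : ∀ x, ‖moll volume (mollSeq volume n) g x - g x‖
      ≤ ‖moll volume (mollSeq volume n) (fun y => g y - φ y) x‖
        + ‖moll volume (mollSeq volume n) φ x - φ x‖ + ‖g x - φ x‖ := by
    intro x
    have e : moll volume (mollSeq volume n) g x - g x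
        = moll volume (mollSeq volume n) (fun y => g y - φ y) x
          + (moll volume (mollSeq volume n) φ x - φ x) + (φ x - g x) := by
      rw [moll_sub (continuous_mollSeq n) (hasCompactSupport_mollSeq n) hg.locallyIntegrable
        hφi.locallyIntegrable]
      abel
    rw [e, norm_sub_rev (g x) (φ x)]
    exact norm_add₃_le
  rw [Real.dist_eq, sub_zero, abs_of_nonneg (integral_nonneg fun x => norm_nonneg _)]
  have j2 : Integrable (fun x => moll volume (mollSeq volume n) φ x - φ x) volume := i2.sub hφi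
  calc ∫ x, ‖moll volume (mollSeq volume n) g x - g x‖
      ≤ ∫ x, (‖moll volume (mollSeq volume n) (fun y => g y - φ y) x‖
        + ‖moll volume (mollSeq volume n) φ x - φ x‖ + ‖g x - φ x‖) :=
        integral_mono (i3.sub hg).norm ((i1.norm.add j2.norm).add hd.norm) hpt
    _ = (∫ x, ‖moll volume (mollSeq volume n) (fun y => g y - φ y) x‖)
        + (∫ x, ‖moll volume (mollSeq volume n) φ x - φ x‖) + ∫ x, ‖g x - φ x‖ := by
        have j12 : Integrable (fun x => ‖moll volume (mollSeq volume n) (fun y => g y - φ y) x‖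
            + ‖moll volume (mollSeq volume n) φ x - φ x‖) volume := i1.norm.add j2.norm
        rw [integral_add j12 hd.norm, integral_add i1.norm j2.norm]
    _ < ε := by linarith

/-- mollification contracts `L¹`. -/
theorem integral_norm_moll_le {g : Space → F} (hg : Integrable g volume) (n : ℕ) :
    Integrable (moll volume (mollSeq volume n) g) volume ∧
      ∫ x, ‖moll volume (mollSeq volume n) g x‖ ≤ ∫ x, ‖g x‖ :=
  age_integral_norm_moll_le hg n

end E1

/-! ## LEAF AG-E2: continuous versions -/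

section E2

/-- `L¹` convergence and pointwise convergence have the same limit a.e. -/
theorem age_ae_eq_of_tendsto {J : ℕ → Space → F} {I I' : Space → F}
    (hJ : ∀ n, Integrable (J n) volume) (hI : Integrable I volume)
    (h1 : Tendsto (fun n => ∫ x, ‖J n x - I x‖) atTop (𝓝 0))
    (h2 : ∀ x, Tendsto (fun n => J n x) atTop (𝓝 (I' x))) : I =ᵐ[volume] I' := by
  have h3 : Tendsto (fun n => eLpNorm (J n - I) 1 volume) atTop (𝓝 0) := by
    have e : ∀ n, eLpNorm (J n - I) 1 volume = ENNReal.ofReal (∫ x, ‖J n x - I x‖) := by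
      intro n
      rw [eLpNorm_one_eq_lintegral_enorm]
      exact (ofReal_integral_norm_eq_lintegral_enorm ((hJ n).sub hI)).symm
    simp only [e]
    have := ENNReal.tendsto_ofReal h1
    simpa using this
  have h4 := tendstoInMeasure_of_tendsto_eLpNorm one_ne_zero (fun n => (hJ n).1) hI.1 h3
  obtain ⟨ns, hns, hae⟩ := h4.exists_seq_tendsto_ae
  filter_upwards [hae] with x hx
  exact tendsto_nhds_unique hx ((h2 x).comp hns.tendsto_atTop)

/-- **order zero.**  `I_n = ρ_n ⋆ I ∈ C^∞_c`; by `sup_le_integral_mixed` and `iteratedFDeriv_moll_mixed`,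
`sup ‖I_n - I_m‖ ≤ ‖ρ_n ⋆ g - ρ_m ⋆ g‖_{L¹} → 0` (`g` = the mixed third derivative), so `I_n` converges uniformly to a continuous `Ĩ`;
`I_n → I` in `L¹`, hence `Ĩ = I` a.e.; `sup ‖I_n‖ ≤ ‖g‖_{L¹} ≤ M`. -/
theorem embed_zero {I : Space → F} {M R : ℝ} (hc : ∀ x, R < ‖x‖ → I x = 0) (h : DirL1 volume eA 3 I M) :
    ∃ I' : Space → F, Continuous I' ∧ I =ᵐ[volume] I' ∧ ∀ x, ‖I' x‖ ≤ M := by
  obtain ⟨g₀, w₀, d₀⟩ := DirL1.wd h 2
  obtain ⟨g₁, w₁, d₁⟩ := DirL1.wd d₀ 1
  obtain ⟨g₂, w₂, d₂⟩ := DirL1.wd d₁ 0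
  have hIi : Integrable I volume := h.base.1
  have hg₂ : Integrable g₂ volume := d₂.1
  set J : ℕ → Space → F := fun n => moll volume (mollSeq volume n) I with hJ
  have hJs : ∀ n, ContDiff ℝ 3 (J n) := fun n =>
    (contDiff_moll (contDiff_mollSeq n) (hasCompactSupport_mollSeq n) hIi.locallyIntegrable).of_le
      (WithTop.coe_le_coe.2 le_top)
  have hJc : ∀ n, HasCompactSupport (J n) := by
    intro n
    refine HasCompactSupport.intro (isCompact_closedBall (0 : Space) (R + 1)) fun x hx => ?_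
    refine age_moll_eq_zero n fun y hy => hc y ?_
    rw [Metric.mem_closedBall, dist_zero_right, not_le] at hx
    rw [Metric.mem_ball, dist_eq_norm] at hy
    have h1 : ‖x‖ ≤ ‖y‖ + ‖y - x‖ := by
      have := norm_sub_le y (y - x)
      simpa using this
    have h2 := fs_rOut_le_one n
    linarith
  have hD : ∀ n y, iteratedFDeriv ℝ 3 (J n) y ![eA 0, eA 1, eA 2]
      = moll volume (mollSeq volume n) g₂ y := fun n y =>
    iteratedFDeriv_moll_mixed w₀.locf w₀.locg w₁.locg w₀.weak w₁.weak w₂.weak (contDiff_mollSeq n)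
      (hasCompactSupport_mollSeq n) y
  have hb : ∀ n x, ‖J n x‖ ≤ M := by
    intro n x
    have h1 := sup_le_integral_mixed (hJs n) (hJc n) x
    simp only [hD] at h1
    exact h1.trans ((integral_norm_moll_le hg₂ n).2.trans d₂.2)
  set a : ℕ → ℝ := fun n => ∫ x, ‖moll volume (mollSeq volume n) g₂ x - g₂ x‖ with ha
  have hat : Tendsto a atTop (𝓝 0) := tendsto_moll_L1 hg₂
  have hdiff : ∀ n m x, ‖J n x - J m x‖ ≤ a n + a m := by
    intro n m x
    have h1 := sup_le_integral_mixed ((hJs n).sub (hJs m)) ((hJc n).sub (hJc m)) x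
    have e : ∀ y, iteratedFDeriv ℝ 3 (J n - J m) y ![eA 0, eA 1, eA 2]
        = moll volume (mollSeq volume n) g₂ y - moll volume (mollSeq volume m) g₂ y := by
      intro y
      rw [iteratedFDeriv_sub_apply (hJs n).contDiffAt (hJs m).contDiffAt,
        _root_.sub_apply, hD, hD]
    have h1' : ‖J n x - J m x‖ ≤ ∫ y, ‖moll volume (mollSeq volume n) g₂ y
        - moll volume (mollSeq volume m) g₂ y‖ := by
      refine h1.trans (le_of_eq ?_)
      exact integral_congr_ae (Eventually.of_forall fun y => congrArg norm (e y))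
    refine h1'.trans ?_
    have i1 : Integrable (fun x => ‖moll volume (mollSeq volume n) g₂ x - g₂ x‖) volume :=
      ((integral_norm_moll_le hg₂ n).1.sub hg₂).norm
    have i2 : Integrable (fun x => ‖moll volume (mollSeq volume m) g₂ x - g₂ x‖) volume :=
      ((integral_norm_moll_le hg₂ m).1.sub hg₂).norm
    rw [ha]
    simp only
    rw [← integral_add i1 i2]
    refine integral_mono ((integral_norm_moll_le hg₂ n).1.sub (integral_norm_moll_le hg₂ m).1).norm
      (i1.add i2) fun y => ?_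
    have := norm_sub_le (moll volume (mollSeq volume n) g₂ y - g₂ y)
      (moll volume (mollSeq volume m) g₂ y - g₂ y)
    simpa using this
  have hcau : UniformCauchySeqOn J atTop univ := by
    rw [Metric.uniformCauchySeqOn_iff]
    intro ε hε
    rw [Metric.tendsto_atTop] at hat
    obtain ⟨N, hN⟩ := hat (ε / 2) (by positivity)
    refine ⟨N, fun m hm n hn x _ => ?_⟩
    have h1 := hN m hm
    have h2 := hN n hn
    rw [Real.dist_eq, sub_zero] at h1 h2
    rw [dist_eq_norm]
    have := hdiff m n x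
    linarith [le_abs_self (a m), le_abs_self (a n)]
  have hlim : ∀ x, ∃ l, Tendsto (fun n => J n x) atTop (𝓝 l) := fun x =>
    cauchySeq_tendsto_of_complete (hcau.cauchySeq (mem_univ x))
  choose I' hI' using hlim
  have hunif : TendstoUniformlyOn J I' atTop univ :=
    hcau.tendstoUniformlyOn_of_tendsto fun x _ => hI' x
  refine ⟨I', ?_, ?_, fun x => ?_⟩
  · exact (tendstoUniformlyOn_univ.1 hunif).continuous
      (Frequently.of_forall fun n => (hJs n).continuous)
  · exact age_ae_eq_of_tendsto (fun n => (integral_norm_moll_le hIi n).1) hIi (tendsto_moll_L1 hIi) hI'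
  · exact le_of_tendsto (hI' x).norm (Eventually.of_forall fun n => hb n x)

/-- mollifications of a continuous function converge locally uniformly. -/
theorem age_tendstoLocallyUniformlyOn_moll {h : Space → F} (hh : Continuous h) :
    TendstoLocallyUniformlyOn (fun n => moll volume (mollSeq volume n) h) h atTop univ := by
  rw [Metric.tendstoLocallyUniformlyOn_iff]
  intro ε hε x₀ _
  have hK : IsCompact (Metric.closedBall x₀ 2) := isCompact_closedBall _ _
  have huc : UniformContinuousOn h (Metric.closedBall x₀ 2) :=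
    hK.uniformContinuousOn_of_continuous hh.continuousOn
  rw [Metric.uniformContinuousOn_iff] at huc
  obtain ⟨δ, hδ, hu⟩ := huc (ε / 2) (by positivity)
  refine ⟨Metric.ball x₀ 1, mem_nhdsWithin_of_mem_nhds (Metric.ball_mem_nhds _ one_pos), ?_⟩
  obtain ⟨N, hN⟩ := exists_nat_gt (1 / δ)
  filter_upwards [eventually_ge_atTop N] with n hn y hy
  have hr : 1 / ((n : ℝ) + 1) < δ := by
    have h1 : 1 / δ < (n : ℝ) + 1 := by
      have : (N : ℝ) ≤ n := by exact_mod_cast hn
      linarith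
    rw [div_lt_iff₀ (by positivity)]
    rw [div_lt_iff₀ hδ] at h1
    linarith
  have hy2 : y ∈ Metric.closedBall x₀ 2 := by
    rw [Metric.mem_closedBall]; rw [Metric.mem_ball] at hy; linarith
  have key := (bumpSeq n).dist_normed_convolution_le (μ := (volume : Measure Space)) (x₀ := y) (ε := ε / 2)
    hh.aestronglyMeasurable (fun z hz => by
      have hz' : dist z y < 1 / ((n : ℝ) + 1) := Metric.mem_ball.1 hz
      have hz2 : z ∈ Metric.closedBall x₀ 2 := by
        rw [Metric.mem_closedBall]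
        rw [Metric.mem_ball] at hy
        have := dist_triangle z y x₀
        have := fs_rOut_le_one n
        linarith
      exact (hu z hz2 y hy2 (hz'.trans hr)).le)
  rw [dist_comm]
  exact lt_of_le_of_lt key (by linarith)

/-- `w ↦ (v ↦ v_a • w)`. -/
def ageL (a : Fin 3) : F →L[ℝ] (Space →L[ℝ] F) :=
  ContinuousLinearMap.smulRightL ℝ Space F (EuclideanSpace.proj a)

variable (F) in
def ageN : ℝ := ∑ a : Fin 3, ‖(ageL a : F →L[ℝ] (Space →L[ℝ] F))‖

theorem ageN_nonneg : 0 ≤ ageN F := by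
  unfold ageN
  positivity

theorem ageL_apply (a : Fin 3) (w : F) (v : Space) : ageL a w v = v a • w := rfl

/-- the linear map with the partial derivatives `g a x`. -/
def ageG (g : Fin 3 → Space → F) (x : Space) : Space →L[ℝ] F := ∑ a, ageL a (g a x)

theorem ageG_eA (g : Fin 3 → Space → F) (x : Space) (b : Fin 3) : ageG g x (eA b) = g b x := by
  simp only [ageG, _root_.sum_apply, ageL_apply, eA, PiLp.single_apply]
  simp

theorem age_clm_ext {A B : Space →L[ℝ] F} (h : ∀ a, A (eA a) = B (eA a)) : A = B := by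
  apply ContinuousLinearMap.coe_injective
  refine (EuclideanSpace.basisFun (Fin 3) ℝ).toBasis.ext fun a => ?_
  simpa using h a

theorem age_moll_G_apply {g : Fin 3 → Space → F} (hg : ∀ a, Continuous (g a)) {ρ : Space → ℝ}
    (hρ : Continuous ρ) (hρc : HasCompactSupport ρ) (x : Space) (b : Fin 3) :
    moll volume ρ (ageG g) x (eA b) = moll volume ρ (g b) x := by
  have hGc : Continuous (ageG g) :=
    continuous_finsetSum _ fun a _ => (ageL a).continuous.comp (hg a)
  have hi : Integrable (fun t => ρ t • ageG g (x - t)) volume :=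
    (hρc.convolutionExists_left (ContinuousLinearMap.lsmul ℝ ℝ) hρ hGc.locallyIntegrable x).integrable
  rw [moll_apply, moll_apply, ContinuousLinearMap.integral_apply hi]
  simp only [_root_.smul_apply, ageG_eA]

/-- a continuous function whose weak derivatives along the three axes are continuous is `C¹`, with these partial derivatives.
(`ρ_n ⋆ f → f`, `∂_a(ρ_n ⋆ f) = ρ_n ⋆ g_a → g_a` locally uniformly; `hasFDerivAt_of_tendstoUniformlyOnFilter` /
`hasFDerivAt_of_tendstoLocallyUniformlyOn`.) -/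
theorem contDiff_one_of_wd {f : Space → F} {g : Fin 3 → Space → F} (hf : Continuous f)
    (hg : ∀ a, Continuous (g a)) (h : ∀ a, HasWeakDeriv volume (eA a) f (g a)) :
    ContDiff ℝ 1 f ∧ ∀ x a, fderiv ℝ f x (eA a) = g a x := by
  have hGc : Continuous (ageG g) :=
    continuous_finsetSum _ fun a _ => (ageL a).continuous.comp (hg a)
  have hfn : ∀ n x, HasFDerivAt (moll volume (mollSeq volume n) f)
      (moll volume (mollSeq volume n) (ageG g) x) x := by
    intro n x
    have hd : DifferentiableAt ℝ (moll volume (mollSeq volume n) f) x :=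
      ((contDiff_moll (contDiff_mollSeq n) (hasCompactSupport_mollSeq n) hf.locallyIntegrable).differentiable
        (by simp)) x
    have e : fderiv ℝ (moll volume (mollSeq volume n) f) x = moll volume (mollSeq volume n) (ageG g) x :=
      age_clm_ext fun a => by
        rw [fderiv_moll (contDiff_mollSeq n) (hasCompactSupport_mollSeq n) hf.locallyIntegrable (h a) x,
          age_moll_G_apply hg (continuous_mollSeq n) (hasCompactSupport_mollSeq n)]
    rw [← e]
    exact hd.hasFDerivAt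
  have hder : ∀ x, HasFDerivAt f (ageG g x) x := fun x =>
    hasFDerivAt_of_tendstoLocallyUniformlyOn isOpen_univ (age_tendstoLocallyUniformlyOn_moll hGc)
      (fun n x _ => hfn n x)
      (fun x hx => (age_tendstoLocallyUniformlyOn_moll hf).tendsto_at hx) (mem_univ x)
  have e : fderiv ℝ f = ageG g := funext fun x => (hder x).fderiv
  refine ⟨contDiff_one_iff_fderiv.2 ⟨fun x => (hder x).differentiableAt, e ▸ hGc⟩, fun x a => ?_⟩
  rw [e, ageG_eA]

/-- two continuous functions which agree a.e. on an open set agree on it. -/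
theorem eqOn_of_ae_eq {Ω : Set Space} (hΩ : IsOpen Ω) {f g : Space → F} (hf : ContinuousOn f Ω)
    (hg : ContinuousOn g Ω) (h : ∀ᵐ x, x ∈ Ω → f x = g x) : EqOn f g Ω :=
  Measure.eqOn_open_of_ae_eq ((ae_restrict_iff' hΩ.measurableSet).2 h) hΩ hf hg

/-- the weak derivative of a function vanishing outside a ball vanishes a.e. outside the closed ball, so it may be replaced
by a function which vanishes there everywhere. -/
theorem DirL1.exists_supported {k : ℕ} {I : Space → F} {M R : ℝ} (hc : ∀ x, R < ‖x‖ → I x = 0)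
    (h : DirL1 volume eA (k + 1) I M) (a : Fin 3) :
    ∃ g : Space → F, HasWeakDeriv volume (eA a) I g ∧ DirL1 volume eA k g M ∧ ∀ x, R < ‖x‖ → g x = 0 := by
  obtain ⟨g1, h1, h2⟩ := DirL1.wd h a
  set A : Set Space := Metric.closedBall 0 R with hA
  have hAc : IsClosed A := Metric.isClosed_closedBall
  have hmem : ∀ x, x ∉ A ↔ R < ‖x‖ := fun x => by
    rw [hA, Metric.mem_closedBall, dist_zero_right, not_le]
  have hz : ∀ᵐ x ∂(volume : Measure Space), x ∈ Aᶜ → g1 x = 0 := by
    refine hAc.isOpen_compl.ae_eq_zero_of_integral_contDiff_smul_eq_zero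
      (h1.locg.locallyIntegrableOn _) fun φ hφ hcφ hs => ?_
    have e1 := h1.weak φ hφ hcφ
    have e2 : ∫ x, fderiv ℝ φ x (eA a) • I x = 0 := by
      refine integral_eq_zero_of_ae (Eventually.of_forall fun x => ?_)
      by_cases hx : x ∈ A
      · have : x ∉ tsupport φ := fun hx' => hs hx' hx
        have h3 : fderiv ℝ φ x = 0 :=
          image_eq_zero_of_notMem_tsupport fun h => this (tsupport_fderiv_subset ℝ h)
        simp [h3]
      · simp [hc x ((hmem x).1 hx)]
    rw [e2] at e1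
    exact neg_eq_zero.1 e1.symm
  have hae : g1 =ᵐ[volume] A.indicator g1 := by
    filter_upwards [hz] with x hx
    by_cases hxA : x ∈ A
    · rw [indicator_of_mem hxA]
    · rw [indicator_of_notMem hxA, hx hxA]
  exact ⟨A.indicator g1, hasWeakDeriv_congr_ae h1.weak (EventuallyEq.refl _ _) hae,
    DirL1.congr_ae h2 hae, fun x hx => indicator_of_notMem ((hmem x).2 hx) _⟩

end E2

/-! ## LEAF AG-E3: the embedding -/

section E3

/-- **`W^{k+3,1} ⊆ C^k`** for compactly supported functions.  Induction on `k` (statement for all `I`): `embed_zero` gives the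
continuous version `I'`; the three derivatives `g_a` (`DirL1.exists_supported`) are `DirL1 .. (k+3)`, so they have `C^k` versions `g_a'` by
the induction hypothesis; `contDiff_one_of_wd` (after `WD.congr_ae`) gives `fderiv ℝ I' x = ∑_a g_a'(x) ⊗ (coordinate a)`, which is `C^k`;
`contDiff_succ_iff_fderiv`; bounds by `norm_iteratedFDeriv_fderiv`. -/
theorem embed (k : ℕ) : ∃ C : ℝ, 0 ≤ C ∧ ∀ (I : Space → F) (M R : ℝ), (∀ x, R < ‖x‖ → I x = 0) →
    DirL1 volume eA (k + 3) I M →
    ∃ I' : Space → F, ContDiff ℝ k I' ∧ I =ᵐ[volume] I' ∧ ∀ i ≤ k, ∀ x, ‖iteratedFDeriv ℝ i I' x‖ ≤ C * M := by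
  induction k with
  | zero =>
    refine ⟨1, zero_le_one, fun I M R hc h => ?_⟩
    obtain ⟨I', h1, h2, h3⟩ := embed_zero hc h
    refine ⟨I', contDiff_zero.2 h1, h2, fun i hi x => ?_⟩
    obtain rfl : i = 0 := by omega
    rw [norm_iteratedFDeriv_zero, one_mul]
    exact h3 x
  | succ k ih =>
    obtain ⟨C, hC, ih⟩ := ih
    obtain ⟨S, hS⟩ : ∃ S : ℝ, S = ageN F := ⟨_, rfl⟩
    have hS0 : 0 ≤ S := hS ▸ ageN_nonneg
    refine ⟨1 + S * C, by positivity, fun I M R hc h => ?_⟩
    have hM : 0 ≤ M := le_trans (integral_nonneg fun _ => norm_nonneg _) h.base.2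
    obtain ⟨I', c1, ae1, b1⟩ := embed_zero hc (DirL1.of_le h (by omega))
    have h' : DirL1 volume eA ((k + 3) + 1) I M := h
    have hex : ∀ a, ∃ g' : Space → F, ContDiff ℝ k g' ∧ HasWeakDeriv volume (eA a) I' g' ∧
        ∀ i ≤ k, ∀ x, ‖iteratedFDeriv ℝ i g' x‖ ≤ C * M := by
      intro a
      obtain ⟨g, w, d, s⟩ := DirL1.exists_supported hc h' a
      obtain ⟨g', c, ae, b⟩ := ih g M R s d
      exact ⟨g', c, hasWeakDeriv_congr_ae w ae1 ae, b⟩
    choose g' cg wg bg using hex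
    obtain ⟨c2, hfd⟩ := contDiff_one_of_wd c1 (fun a => (cg a).continuous) wg
    have e : fderiv ℝ I' = ageG g' := funext fun x => age_clm_ext fun a => by rw [hfd, ageG_eA]
    have cL : ∀ a, ContDiff ℝ k (ageL (F := F) a ∘ g' a) := fun a =>
      (ageL (F := F) a).contDiff.comp (cg a)
    have cG : ContDiff ℝ k (ageG g') := ContDiff.sum fun a _ => cL a
    refine ⟨I', ?_, ae1, ?_⟩
    · have hk : ((k + 1 : ℕ) : WithTop ℕ∞) = (k : WithTop ℕ∞) + 1 := by push_cast; rfl
      rw [hk, contDiff_succ_iff_fderiv]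
      exact ⟨c2.differentiable one_ne_zero, fun h => absurd h (by simp), e ▸ cG⟩
    · intro i hi x
      cases i with
      | zero =>
        rw [norm_iteratedFDeriv_zero]
        calc ‖I' x‖ ≤ M := b1 x
          _ ≤ M + (S * C) * M := le_add_of_nonneg_right (by positivity)
          _ = (1 + S * C) * M := by ring
      | succ i =>
        have hik : i ≤ k := by omega
        rw [← norm_iteratedFDeriv_fderiv, e]
        have e2 : iteratedFDeriv ℝ i (ageG g') x = ∑ a, iteratedFDeriv ℝ i (ageL a ∘ g' a) x :=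
          iteratedFDeriv_fun_sum_apply fun a _ => ((cL a).of_le (by exact_mod_cast hik)).contDiffAt
        rw [e2]
        calc ‖∑ a, iteratedFDeriv ℝ i (ageL a ∘ g' a) x‖
            ≤ ∑ a, ‖iteratedFDeriv ℝ i (ageL a ∘ g' a) x‖ := norm_sum_le _ _
          _ ≤ ∑ a : Fin 3, ‖(ageL a : F →L[ℝ] (Space →L[ℝ] F))‖ * (C * M) := by
              refine Finset.sum_le_sum fun a _ => ?_
              refine ((ageL (F := F) a).norm_iteratedFDeriv_comp_left (cg a).contDiffAt
                (by exact_mod_cast hik)).trans ?_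
              exact mul_le_mul_of_nonneg_left (bg a i hik x) (ageL (F := F) a).opNorm_nonneg
          _ = (S * C) * M := by rw [← Finset.sum_mul, hS, ageN]; ring
          _ ≤ M + (S * C) * M := le_add_of_nonneg_left hM
          _ = (1 + S * C) * M := by ring

end E3

/-! ## LEAF AG-E4: local versions and glueing -/

section E4

/-- **Local versions glue.**  `I` is any function (an a.e. class).  Suppose that for every order `k` and every `x₀ ∈ Ω` there are a radius
`r > 0` and a compactly supported `J` which coincides with `I` a.e. on `ball x₀ r` and is `DirL1 .. (k+3)` with constant `𝔟 k x₀`.  Then `I` has a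
version `I'` which is `C^∞` on `Ω`, with `‖D^k I'(x₀)‖ ≤ C_k 𝔟 k x₀`.

Proof: for `x₀ ∈ Ω` let `v_{k,x₀}` be the `C^k` version of `J` from `embed k`.  Put `I' x₀ := v_{0,x₀} x₀`.  Any two of the functions
`v_{k,x₀}`, `v_{k',x₁}` are continuous and coincide a.e. (with `I`) on the open set `ball x₀ r ∩ ball x₁ r'`, hence everywhere there
(`eqOn_of_ae_eq`).  So `I' = v_{k,x₀}` on `ball x₀ r ∩ Ω`: `I'` is `C^k` near `x₀` for every `k`, `iteratedFDeriv ℝ k I' x₀ = iteratedFDeriv ℝ k v_{k,x₀} x₀`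
(`Filter.EventuallyEq.iteratedFDeriv_eq`), and `I = I'` a.e. on `Ω` (cover `Ω` by countably many balls, Lindelöf:
`TopologicalSpace.countable_cover_nhds_of_...` / `isOpen_iUnion_countable`). -/
theorem local_versions : ∃ C : ℕ → ℝ, (∀ k, 0 ≤ C k) ∧ ∀ (Ω : Set Space) (I : Space → F) (𝔟 : ℕ → Space → ℝ),
    IsOpen Ω →
    (∀ k, ∀ x₀ ∈ Ω, ∃ (r R : ℝ) (J : Space → F), 0 < r ∧ (∀ᵐ x, ‖x - x₀‖ < r → J x = I x) ∧
      (∀ x, R < ‖x‖ → J x = 0) ∧ DirL1 volume eA (k + 3) J (𝔟 k x₀)) →
    ∃ I' : Space → F, ContDiffOn ℝ ∞ I' Ω ∧ (∀ᵐ x, x ∈ Ω → I x = I' x) ∧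
      ∀ k, ∀ x₀ ∈ Ω, ‖iteratedFDeriv ℝ k I' x₀‖ ≤ C k * 𝔟 k x₀ := by
  choose C hC hE using fun k => embed (F := F) k
  refine ⟨C, hC, fun Ω I 𝔟 hΩ H => ?_⟩
  have key : ∀ k : ℕ, ∀ x₀ ∈ Ω, ∃ (r : ℝ) (v : Space → F), 0 < r ∧ ContDiff ℝ k v ∧
      (∀ᵐ x, ‖x - x₀‖ < r → v x = I x) ∧ ‖iteratedFDeriv ℝ k v x₀‖ ≤ C k * 𝔟 k x₀ := by
    intro k x₀ hx₀
    obtain ⟨r, R, J, hr, hJI, hJc, hJ⟩ := H k x₀ hx₀
    obtain ⟨v, hv, hae, hb⟩ := hE k J _ R hJc hJ
    refine ⟨r, v, hr, hv, ?_, hb k le_rfl x₀⟩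
    filter_upwards [hJI, hae] with x h1 h2 hx
    rw [← h2, h1 hx]
  choose! r v hr hv hae hb using key
  have hball : ∀ (k : ℕ) (x₀ : Space), IsOpen {x : Space | ‖x - x₀‖ < r k x₀} := fun k x₀ =>
    isOpen_lt (by fun_prop) continuous_const
  -- compatibility
  have hcomp : ∀ k : ℕ, ∀ x₀ ∈ Ω, ∀ x ∈ Ω, ‖x - x₀‖ < r k x₀ → v 0 x x = v k x₀ x := by
    intro k x₀ hx₀ x hx hxr
    have hU : IsOpen ({y : Space | ‖y - x‖ < r 0 x} ∩ {y : Space | ‖y - x₀‖ < r k x₀}) :=
      (hball 0 x).inter (hball k x₀)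
    have hEq : EqOn (v 0 x) (v k x₀) ({y : Space | ‖y - x‖ < r 0 x} ∩ {y : Space | ‖y - x₀‖ < r k x₀}) := by
      refine eqOn_of_ae_eq hU (hv 0 x hx).continuous.continuousOn (hv k x₀ hx₀).continuous.continuousOn ?_
      filter_upwards [hae 0 x hx, hae k x₀ hx₀] with y h1 h2 hy
      rw [h1 hy.1, h2 hy.2]
    exact hEq ⟨by simpa using hr 0 x hx, hxr⟩
  have hev : ∀ k : ℕ, ∀ x₀ ∈ Ω, (fun x => v 0 x x) =ᶠ[𝓝 x₀] v k x₀ := by
    intro k x₀ hx₀
    have h1 : Ω ∩ {x : Space | ‖x - x₀‖ < r k x₀} ∈ 𝓝 x₀ :=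
      (hΩ.inter (hball k x₀)).mem_nhds ⟨hx₀, by simpa using hr k x₀ hx₀⟩
    filter_upwards [h1] with x hx
    exact hcomp k x₀ hx₀ x hx.1 hx.2
  refine ⟨fun x => v 0 x x, ?_, ?_, ?_⟩
  · intro x₀ hx₀
    refine ContDiffAt.contDiffWithinAt ?_
    rw [contDiffAt_infty]
    intro n
    exact ((hv n x₀ hx₀).contDiffAt).congr_of_eventuallyEq (hev n x₀ hx₀)
  · obtain ⟨t, htΩ, htc, hcov⟩ := TopologicalSpace.countable_cover_nhdsWithin
      (s := Ω) (f := fun x₀ => {x : Space | ‖x - x₀‖ < r 0 x₀}) (fun x₀ hx₀ =>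
        mem_nhdsWithin_of_mem_nhds ((hball 0 x₀).mem_nhds (by simpa using hr 0 x₀ hx₀)))
    have h1 : ∀ᵐ x : Space, ∀ x₀ ∈ t, ‖x - x₀‖ < r 0 x₀ → v 0 x₀ x = I x :=
      (ae_ball_iff htc).2 fun x₀ hx₀ => hae 0 x₀ (htΩ hx₀)
    filter_upwards [h1] with x hx hxΩ
    obtain ⟨x₀, hx₀, hxx⟩ := mem_iUnion₂.1 (hcov hxΩ)
    rw [← hx x₀ hx₀ hxx, hcomp 0 x₀ (htΩ hx₀) x hxΩ hxx]
  · intro k x₀ hx₀
    rw [(Filter.EventuallyEq.iteratedFDeriv ℝ (hev k x₀ hx₀) k).eq_of_nhds]
    exact hb k x₀ hx₀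

/-- the `L²` form used for fibre valued functions: `J` supported in `closedBall x₀ 1`
(`DirL2.dirL1` with `A = closedBall x₀ 1`, whose volume is a constant). -/
theorem local_versions_L2 : ∃ C : ℕ → ℝ, (∀ k, 0 ≤ C k) ∧ ∀ (Ω : Set Space) (I : Space → F) (𝔟 : ℕ → Space → ℝ),
    IsOpen Ω →
    (∀ k, ∀ x₀ ∈ Ω, ∃ (J : Space → F), (∀ᵐ x, ‖x - x₀‖ < 1 / 2 → J x = I x) ∧
      (∀ x, 1 < ‖x - x₀‖ → J x = 0) ∧ DirL2 volume eA (k + 3) J (𝔟 k x₀)) →
    ∃ I' : Space → F, ContDiffOn ℝ ∞ I' Ω ∧ (∀ᵐ x, x ∈ Ω → I x = I' x) ∧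
      ∀ k, ∀ x₀ ∈ Ω, ‖iteratedFDeriv ℝ k I' x₀‖ ^ 2 ≤ C k * 𝔟 k x₀ := by
  obtain ⟨C, hC, hL⟩ := local_versions (F := F)
  set V : ℝ := (volume (Metric.closedBall (0 : Space) 1)).toReal with hV
  have hV0 : 0 ≤ V := ENNReal.toReal_nonneg
  have hVx : ∀ x₀ : Space, (volume (Metric.closedBall x₀ 1)).toReal = V := fun x₀ => by
    rw [hV, Measure.addHaar_closedBall_center]
  refine ⟨fun k => C k ^ 2 * V, fun k => by positivity, fun Ω I 𝔟 hΩ H => ?_⟩
  have hb0 : ∀ k, ∀ x₀ ∈ Ω, 0 ≤ 𝔟 k x₀ := by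
    intro k x₀ hx₀
    obtain ⟨J, -, -, hJ⟩ := H k x₀ hx₀
    exact le_trans (integral_nonneg fun _ => sq_nonneg _) hJ.base.2
  obtain ⟨I', h1, h2, h3⟩ := hL Ω I (fun k x₀ => √(V * 𝔟 k x₀)) hΩ (by
    intro k x₀ hx₀
    obtain ⟨J, hJI, hJc, hJ⟩ := H k x₀ hx₀
    refine ⟨1 / 2, ‖x₀‖ + 1, J, by norm_num, hJI, fun x hx => hJc x ?_, ?_⟩
    · have := norm_sub_norm_le x x₀
      linarith
    · have := DirL2.dirL1 hJ (A := Metric.closedBall x₀ 1) Metric.isClosed_closedBall
        (isCompact_closedBall x₀ 1).measure_lt_top.ne (fun x hx => hJc x (by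
          rw [Metric.mem_closedBall, dist_eq_norm, not_le] at hx
          exact hx))
      rwa [hVx] at this)
  refine ⟨I', h1, h2, fun k x₀ hx₀ => ?_⟩
  have h4 := h3 k x₀ hx₀
  calc ‖iteratedFDeriv ℝ k I' x₀‖ ^ 2 ≤ (C k * √(V * 𝔟 k x₀)) ^ 2 :=
        pow_le_pow_left₀ (norm_nonneg _) h4 2
    _ = C k ^ 2 * V * 𝔟 k x₀ := by
        rw [mul_pow, Real.sq_sqrt (mul_nonneg hV0 (hb0 k x₀ hx₀))]
        ring

end E4

end Claimed.Open.R278.AG
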