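import Claimed.Open.R278.AGPair

/-!
# Result 278, layer AG, file 13: smooth fibre valued versions and the pointwise-in-`x` form of the equation

* `fiber_version`  : a function on `Config 3` which is locally (bump in `x`) `DirL2` of all orders along the `x`-directions has a slice map with a
  version `Space → FibE E` which is `C^∞` on the open set `Ω`, with pointwise bounds.
* `fiber_wd2`      : the ionic weak derivatives pass to EVERY fibre `x ∈ Ω`.
* `fiber_equation` : a weak solution on `{X | X 0 ∈ Ω}` of `(-½Δ_X + V - En) f = g` with `V(x,y) = Vy(y) + V1(x,y)` satisfies, for EVERY `x ∈ Ω`,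
  `(-½Δ_y + Vy - En) F(x) = ½ Δ_x F(x) - V1(x,·) F(x) + R(x)` weakly on `Config 2` (tested against all `H¹` pairs): this is
  "`F(x) ∈ Dom(B)` and `B F(x) = …`" in the form sense.
* covariance lemmas: identities valid a.e. on `Config 3` hold on every fibre.

GENERAL PRINCIPLE: both sides of each identity are continuous functions of `x ∈ Ω` (with values in `E`, `ℂ` or `FibE E`) and agree as
distributions / almost everywhere in `x`; conclude with `eqOn_of_ae_eq`.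
-/

open MeasureTheory Filter Topology Set
open scoped ContDiff InnerProductSpace Laplacian

noncomputable section

set_option linter.unusedSectionVars false

namespace Claimed.Open.R278.AG

variable {E : Type*} [NormedAddCommGroup E] [InnerProductSpace ℂ E] [CompleteSpace E]

/-- `F₀` is a version of the slice map of `Φ` on `Ω`. -/
def IsVersion (Ω : Set Space) (Φ : Config 3 → E) (F₀ : Space → FibE E) : Prop :=
  ∀ᵐ x, x ∈ Ω → slice Φ x = F₀ x

/-! ## LEAF AG-V1: smooth versions of slice maps -/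

section V1

/-- **Smooth version.**  `local_versions_L2` with `I = slice Φ`, `J = slice (bump x₀ • Φ) = bumpProfile (· - x₀) • slice Φ` (`slice_smul_fst`),
`slice_dirL2`. -/
theorem fiber_version : ∃ C : ℕ → ℝ, (∀ k, 0 ≤ C k) ∧ ∀ (Ω : Set Space) (Φ : Config 3 → E) (𝔟 : ℕ → Space → ℝ),
    IsOpen Ω →
    (∀ k, ∀ x₀ ∈ Ω, DirL2 volume (cdir ({0} : Finset (Fin 3))) (k + 3) (fun X => bump x₀ X • Φ X) (𝔟 k x₀)) →
    ∃ F₀ : Space → FibE E, ContDiffOn ℝ ∞ F₀ Ω ∧ IsVersion Ω Φ F₀ ∧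
      ∀ k, ∀ x₀ ∈ Ω, ‖iteratedFDeriv ℝ k F₀ x₀‖ ^ 2 ≤ C k * 𝔟 k x₀ := by
  obtain ⟨C, hC, hL⟩ := local_versions_L2 (F := FibE E)
  refine ⟨C, hC, fun Ω Φ 𝔟 hΩ H => ?_⟩
  have e : ∀ x₀ x : Space, slice (fun X => bump x₀ X • Φ X) x = bumpProfile (x - x₀) • slice Φ x := fun x₀ x =>
    slice_smul_fst (fun x => bumpProfile (x - x₀)) Φ x
  exact hL Ω (slice Φ) 𝔟 hΩ fun k x₀ hx₀ => ⟨slice (fun X => bump x₀ X • Φ X),
    Eventually.of_forall fun x hx => by rw [e, bumpProfile_eq_one hx.le, one_smul],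
    fun x hx => by rw [e, bumpProfile_eq_zero hx.le, zero_smul], slice_dirL2 (H k x₀ hx₀)⟩

theorem IsVersion.unique {Ω : Set Space} (hΩ : IsOpen Ω) {Φ : Config 3 → E} {F₀ F₁ : Space → FibE E}
    (h₀ : IsVersion Ω Φ F₀) (h₁ : IsVersion Ω Φ F₁) (c₀ : ContinuousOn F₀ Ω) (c₁ : ContinuousOn F₁ Ω) :
    EqOn F₀ F₁ Ω := by
  refine eqOn_of_ae_eq hΩ c₀ c₁ ?_
  filter_upwards [h₀, h₁] with x a b hx
  rw [← a hx, b hx]

theorem IsVersion.add {Ω : Set Space} {Φ Φ' : Config 3 → E} {F₀ F₁ : Space → FibE E} (hΦ : MemLp Φ 2 volume)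
    (hΦ' : MemLp Φ' 2 volume) (h₀ : IsVersion Ω Φ F₀) (h₁ : IsVersion Ω Φ' F₁) :
    IsVersion Ω (fun X => Φ X + Φ' X) (fun x => F₀ x + F₁ x) := by
  filter_upwards [h₀, h₁, slice_add hΦ hΦ'] with x a b c hx
  rw [c, a hx, b hx]

theorem IsVersion.sub {Ω : Set Space} {Φ Φ' : Config 3 → E} {F₀ F₁ : Space → FibE E} (hΦ : MemLp Φ 2 volume)
    (hΦ' : MemLp Φ' 2 volume) (h₀ : IsVersion Ω Φ F₀) (h₁ : IsVersion Ω Φ' F₁) :
    IsVersion Ω (fun X => Φ X - Φ' X) (fun x => F₀ x - F₁ x) := by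
  filter_upwards [h₀, h₁, slice_sub hΦ hΦ'] with x a b c hx
  rw [c, a hx, b hx]

theorem IsVersion.const_smul {Ω : Set Space} {Φ : Config 3 → E} {F₀ : Space → FibE E} (c : ℝ)
    (h₀ : IsVersion Ω Φ F₀) : IsVersion Ω (fun X => c • Φ X) (fun x => c • F₀ x) := by
  filter_upwards [h₀] with x a hx
  rw [slice_const_smul, a hx]

/-- the slice at `x` depends only on the a.e. class of the fibre function. -/
theorem slice_congr_fiber {Φ Φ' : Config 3 → E} {x : Space}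
    (hx : (fun y : Config 2 => Φ (cons3 x y)) =ᵐ[volume] fun y => Φ' (cons3 x y)) : slice Φ x = slice Φ' x := by
  by_cases hm : MemLp (fun y : Config 2 => Φ (cons3 x y)) 2 volume
  · have hm' : MemLp (fun y : Config 2 => Φ' (cons3 x y)) 2 volume := (memLp_congr_ae hx).1 hm
    rw [slice_of_memLp hm, slice_of_memLp hm']
    exact MemLp.toLp_congr hm hm' hx
  · have hm' : ¬ MemLp (fun y : Config 2 => Φ' (cons3 x y)) 2 volume := fun h' => hm ((memLp_congr_ae hx).2 h')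
    rw [slice_of_not_memLp hm, slice_of_not_memLp hm']

theorem IsVersion.congr_ae {Ω : Set Space} {Φ Φ' : Config 3 → E} {F₀ : Space → FibE E} (h₀ : IsVersion Ω Φ F₀)
    (h : ∀ᵐ X : Config 3, X 0 ∈ Ω → Φ X = Φ' X) : IsVersion Ω Φ' F₀ := by
  filter_upwards [h₀, ae_ae_cons3 h] with x a b hx
  rw [← a hx]
  refine (slice_congr_fiber ?_).symm
  filter_upwards [b] with y hy using hy hx

/-- unfolding: for a.e. `x ∈ Ω`, `F₀ x = Φ(x, ·)` a.e. -/
theorem IsVersion.ae_coeFn {Ω : Set Space} {Φ : Config 3 → E} {F₀ : Space → FibE E} (hΦ : MemLp Φ 2 volume)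
    (h₀ : IsVersion Ω Φ F₀) : ∀ᵐ x, x ∈ Ω → ∀ᵐ y, F₀ x y = Φ (cons3 x y) := by
  filter_upwards [h₀, ae_slice_coeFn hΦ] with x a b hx
  rw [← a hx]; exact b

/-- a `C¹` function on an open set times a test function supported in it. -/
theorem contDiff_smul_of_tsupport_subset {F : Type*} [NormedAddCommGroup F] [NormedSpace ℝ F]
    {Ω : Set Space} (hΩ : IsOpen Ω) {φ : Space → ℝ}
    (hφ : ContDiff ℝ 1 φ) (hs : tsupport φ ⊆ Ω) {F₀ : Space → F} (c₀ : ContDiffOn ℝ 1 F₀ Ω) :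
    ContDiff ℝ 1 (fun x => φ x • F₀ x) ∧ ∀ x v, fderiv ℝ (fun x => φ x • F₀ x) x v
      = fderiv ℝ φ x v • F₀ x + φ x • fderiv ℝ F₀ x v := by
  have hout : ∀ x, x ∉ Ω → φ =ᶠ[𝓝 x] fun _ => 0 := fun x hx =>
    notMem_tsupport_iff_eventuallyEq.1 fun h => hx (hs h)
  constructor
  · rw [contDiff_iff_contDiffAt]
    intro x
    by_cases hx : x ∈ Ω
    · exact hφ.contDiffAt.smul (c₀.contDiffAt (hΩ.mem_nhds hx))
    · have : (fun x => φ x • F₀ x) =ᶠ[𝓝 x] fun _ => 0 := by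
        filter_upwards [hout x hx] with z hz
        rw [hz, zero_smul]
      exact contDiffAt_const.congr_of_eventuallyEq this
  · intro x v
    by_cases hx : x ∈ Ω
    · have d1 := ((hφ.differentiable (by simp)) x).hasFDerivAt
      have d2 := ((c₀.contDiffAt (hΩ.mem_nhds hx)).differentiableAt (by simp)).hasFDerivAt
      have hd : HasFDerivAt (fun x => φ x • F₀ x) _ x := d1.smul d2
      rw [hd.fderiv]
      simp [add_comm]
    · have h1 : (fun x => φ x • F₀ x) =ᶠ[𝓝 x] fun _ => 0 := by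
        filter_upwards [hout x hx] with z hz
        rw [hz, zero_smul]
      rw [h1.fderiv_eq, (hout x hx).fderiv_eq, (hout x hx).eq_of_nhds]
      simp

/-- the classical derivative of a `C¹` version is the version of the weak derivative. -/
theorem IsVersion.fderiv {Ω : Set Space} (hΩ : IsOpen Ω) {Φ Φ' : Config 3 → E} {a : Fin 3}
    (h : WD2 volume (dir (0, a)) Φ Φ') {F₀ : Space → FibE E} (h₀ : IsVersion Ω Φ F₀) (c₀ : ContDiffOn ℝ 1 F₀ Ω) :
    IsVersion Ω Φ' (fun x => fderiv ℝ F₀ x (eA a)) := by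
  have hw := slice_wd2 h
  have hcd : ContinuousOn (fun x => _root_.fderiv ℝ F₀ x (eA a)) Ω :=
    (c₀.continuousOn_fderiv_of_isOpen hΩ (by simp)).clm_apply continuousOn_const
  have key : ∀ᵐ x, x ∈ Ω → slice Φ' x - _root_.fderiv ℝ F₀ x (eA a) = 0 := by
    refine hΩ.ae_eq_zero_of_integral_contDiff_smul_eq_zero ?_ fun φ hφ hφc hs => ?_
    · exact ((hw.memg.locallyIntegrable (by norm_num)).locallyIntegrableOn Ω).sub
        (hcd.locallyIntegrableOn hΩ.measurableSet)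
    · have hφ1 : ContDiff ℝ 1 φ := hφ.of_le (by simp)
      obtain ⟨u1, u2⟩ := contDiff_smul_of_tsupport_subset hΩ hφ1 hs c₀
      have hcu : HasCompactSupport (fun x => φ x • F₀ x) := hφc.smul_right
      -- `∫ ∂(φ F₀) = 0`
      have z : ∫ x, _root_.fderiv ℝ (fun x => φ x • F₀ x) x (eA a) = 0 :=
        (HasWeakDeriv.of_contDiff (μ := volume) u1 (eA a)).integral_eq_zero
          (u1.continuous.integrable_of_hasCompactSupport hcu)
          (((u1.continuous_fderiv (by simp)).clm_apply continuous_const).integrable_of_hasCompactSupport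
            (hcu.fderiv_apply (𝕜 := ℝ) _))
      simp only [u2] at z
      -- replace `F₀` by `slice Φ`
      have hzero : ∀ x, x ∉ Ω → φ x = 0 ∧ _root_.fderiv ℝ φ x (eA a) = 0 := by
        intro x hx
        have h1 : φ =ᶠ[𝓝 x] fun _ => 0 := notMem_tsupport_iff_eventuallyEq.1 fun h => hx (hs h)
        exact ⟨h1.eq_of_nhds, by rw [h1.fderiv_eq]; simp⟩
      have e1 : ∫ x, _root_.fderiv ℝ φ x (eA a) • F₀ x = ∫ x, _root_.fderiv ℝ φ x (eA a) • slice Φ x := by
        refine integral_congr_ae ?_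
        filter_upwards [h₀] with x hx
        by_cases hxΩ : x ∈ Ω
        · rw [hx hxΩ]
        · rw [(hzero x hxΩ).2, zero_smul, zero_smul]
      have i1 : Integrable (fun x => _root_.fderiv ℝ φ x (eA a) • F₀ x) volume := by
        refine (fs_int_d (hw.memf.locallyIntegrable (by norm_num)) hφ1 hφc (eA a)).congr ?_
        filter_upwards [h₀] with x hx
        by_cases hxΩ : x ∈ Ω
        · rw [hx hxΩ]
        · rw [(hzero x hxΩ).2, zero_smul, zero_smul]
      have i3 : Integrable (fun x => φ x • slice Φ' x) volume :=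
        fs_int (hw.memg.locallyIntegrable (by norm_num)) hφ.continuous hφc
      have i2 : Integrable (fun x => φ x • _root_.fderiv ℝ F₀ x (eA a)) volume := by
        have hc2 : Continuous (fun x => _root_.fderiv ℝ φ x (eA a) • F₀ x + φ x • _root_.fderiv ℝ F₀ x (eA a)) := by
          have := (u1.continuous_fderiv (by simp)).clm_apply (continuous_const (y := eA a))
          simpa only [u2] using this
        have hs2 : HasCompactSupport
            (fun x => _root_.fderiv ℝ φ x (eA a) • F₀ x + φ x • _root_.fderiv ℝ F₀ x (eA a)) := by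
          have := hcu.fderiv_apply (𝕜 := ℝ) (eA a)
          simpa only [u2] using this
        have i4 := (hc2.integrable_of_hasCompactSupport hs2).sub i1
        refine i4.congr (Eventually.of_forall fun x => ?_)
        simp only [Pi.sub_apply, add_sub_cancel_left]
      rw [integral_add i1 i2, e1, hw.weak φ hφ hφc] at z
      simp only [smul_sub]
      rw [integral_sub i3 i2]
      rw [neg_add_eq_zero] at z
      rw [z, sub_self]
  filter_upwards [key] with x hx hxΩ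
  exact sub_eq_zero.1 (hx hxΩ)

/-- the squared norm of a continuous version is the continuous version of the pairing. -/
theorem IsVersion.norm_sq {Ω : Set Space} {Φ : Config 3 → E} {F₀ : Space → FibE E} (hΦ : MemLp Φ 2 volume)
    (h₀ : IsVersion Ω Φ F₀) : ∀ᵐ x, x ∈ Ω → pair Φ Φ x = ((‖F₀ x‖ ^ 2 : ℝ) : ℂ) := by
  filter_upwards [h₀, ae_memLp_slice hΦ] with x a b hx
  rw [← a hx, norm_slice_sq b, pair]
  have : (fun y => ⟪Φ (cons3 x y), Φ (cons3 x y)⟫_ℂ) = fun y => ((‖Φ (cons3 x y)‖ ^ 2 : ℝ) : ℂ) := by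
    funext y; rw [inner_self_eq_norm_sq_to_K]; norm_cast
  rw [this, integral_complex_ofReal]

end V1

/-! ## LEAF AG-V2: ionic weak derivatives on every fibre -/

section V2

theorem integral_cons3_symm {F : Type*} [NormedAddCommGroup F] [NormedSpace ℝ F] {h : Config 3 → F}
    (hh : Integrable h volume) : ∫ X, h X = ∫ y : Config 2, ∫ x : Space, h (cons3 x y) := by
  have h2 : Integrable (fun p : Space × Config 2 => h (cons3 p.1 p.2)) (volume.prod volume) :=
    measurePreserving_cons3.integrable_comp_of_integrable hh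
  rw [(integral_cons3 hh).2.2, ← integral_prod _ h2, integral_prod_symm _ h2]

/-- `cons3` as a continuous linear map. -/
def cons3L : Space × Config 2 →L[ℝ] Config 3 :=
  ContinuousLinearMap.pi (Fin.cases (ContinuousLinearMap.fst ℝ Space (Config 2))
    (fun i => (ContinuousLinearMap.proj i).comp (ContinuousLinearMap.snd ℝ Space (Config 2))))

theorem cons3L_apply (x : Space) (y : Config 2) : cons3L (x, y) = cons3 x y := by
  funext i
  refine Fin.cases ?_ (fun j => ?_) i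
  · rfl
  · rfl

theorem cons3_zero_dir (j : Fin 2 × Fin 3) : cons3 0 (dir j) = dir (succIdx j) := by
  rw [← cons3_tail3 (dir (succIdx j)), tail3_dir_succ, dir_succ_apply_zero]

theorem cons3_eA_zero (a : Fin 3) : cons3 (eA a) 0 = dir (0, a) := by
  rw [← cons3_tail3 (dir (0, a)), tail3_dir_zero, dir_zero_apply_zero]

/-- restriction of a test function to a fibre `x = const`. -/
theorem test_fiber_y {θ : Config 3 → ℝ} (hθ : ContDiff ℝ ∞ θ) (hc : HasCompactSupport θ) (x : Space) :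
    ContDiff ℝ ∞ (fun y : Config 2 => θ (cons3 x y)) ∧ HasCompactSupport (fun y : Config 2 => θ (cons3 x y)) ∧
    ∀ (j : Fin 2 × Fin 3) (y : Config 2), fderiv ℝ (fun y : Config 2 => θ (cons3 x y)) y (dir j)
      = fderiv ℝ θ (cons3 x y) (dir (succIdx j)) := by
  have e : (fun y : Config 2 => θ (cons3 x y)) = fun y => θ (cons3L (x, y)) := by
    funext y; rw [cons3L_apply]
  refine ⟨?_, ?_, ?_⟩
  · rw [e]; exact hθ.comp (cons3L.contDiff.comp (contDiff_const.prodMk contDiff_id))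
  · refine HasCompactSupport.intro (hc.image continuous_tail3) fun y hy => ?_
    by_contra hne
    exact hy ⟨cons3 x y, subset_tsupport _ hne, rfl⟩
  · intro j y
    have d1 : HasFDerivAt (fun y : Config 2 => cons3L (x, y))
        (cons3L.comp (ContinuousLinearMap.inr ℝ Space (Config 2))) y :=
      cons3L.hasFDerivAt.comp y (hasFDerivAt_prodMk_right x y)
    have d2 : HasFDerivAt (fun y : Config 2 => θ (cons3L (x, y))) _ y :=
      ((hθ.differentiable (by simp)) (cons3L (x, y))).hasFDerivAt.comp y d1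
    rw [e, d2.fderiv]
    simp [cons3L_apply, cons3_zero_dir]

/-- restriction of a test function to a fibre `y = const`. -/
theorem test_fiber_x {θ : Config 3 → ℝ} (hθ : ContDiff ℝ ∞ θ) (hc : HasCompactSupport θ) (y : Config 2) :
    ContDiff ℝ ∞ (fun x : Space => θ (cons3 x y)) ∧ HasCompactSupport (fun x : Space => θ (cons3 x y)) ∧
    ∀ (a : Fin 3) (x : Space), fderiv ℝ (fun x : Space => θ (cons3 x y)) x (eA a)
      = fderiv ℝ θ (cons3 x y) (dir (0, a)) := by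
  have e : (fun x : Space => θ (cons3 x y)) = fun x => θ (cons3L (x, y)) := by
    funext x; rw [cons3L_apply]
  refine ⟨?_, ?_, ?_⟩
  · rw [e]; exact hθ.comp (cons3L.contDiff.comp (contDiff_id.prodMk contDiff_const))
  · refine HasCompactSupport.intro (hc.image (continuous_apply (0 : Fin 3))) fun x hx => ?_
    by_contra hne
    exact hx ⟨cons3 x y, subset_tsupport _ hne, rfl⟩
  · intro a x
    have d1 : HasFDerivAt (fun x : Space => cons3L (x, y))
        (cons3L.comp (ContinuousLinearMap.inl ℝ Space (Config 2))) x :=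
      cons3L.hasFDerivAt.comp x (hasFDerivAt_prodMk_left x y)
    have d2 : HasFDerivAt (fun x : Space => θ (cons3L (x, y))) _ x :=
      ((hθ.differentiable (by simp)) (cons3L (x, y))).hasFDerivAt.comp x d1
    rw [e, d2.fderiv]
    simp [cons3L_apply, cons3_eA_zero]

/-- tensor products `φ ⊗ ξ` of a test function in `x` with an `H¹` pair on `Config 2` are `H¹` pairs on `Config 3`. -/
theorem h1_tensor {φ : Space → ℝ} (hφ : ContDiff ℝ ∞ φ) (hφc : HasCompactSupport φ) {ξ : Config 2 → E}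
    {ξ' : Fin 2 × Fin 3 → Config 2 → E} (h : H1 (volume : Measure (Config 2)) dir ξ ξ') :
    H1 (volume : Measure (Config 3)) dir (fun X => φ (X 0) • ξ (tail3 X))
      (fun j X => Fin.cases (motive := fun _ => E) (fderiv ℝ φ (X 0) (eA j.2) • ξ (tail3 X))
        (fun i => φ (X 0) • ξ' (i, j.2) (tail3 X)) j.1) := by
  have hφ1 : ContDiff ℝ 1 φ := hφ.of_le (by simp)
  have mφ : MemLp φ 2 volume := hφ.continuous.memLp_of_hasCompactSupport hφc
  have mdφ : ∀ a, MemLp (fun x => fderiv ℝ φ x (eA a)) 2 volume := fun a =>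
    (fs_cont_d hφ1 _).memLp_of_hasCompactSupport (hφc.fderiv_apply (𝕜 := ℝ) _)
  have m0 : MemLp (fun X : Config 3 => φ (X 0) • ξ (tail3 X)) 2 volume := memLp_tensor mφ h.mem
  refine ⟨m0, ?_⟩
  rintro ⟨i, a⟩
  refine Fin.cases ?_ (fun i => ?_) i
  · -- the distinguished electron
    have m1 : MemLp (fun X : Config 3 => fderiv ℝ φ (X 0) (eA a) • ξ (tail3 X)) 2 volume :=
      memLp_tensor (mdφ a) h.mem
    refine ⟨m0, m1, fun θ hθ hθc => ?_⟩
    have hθ1 : ContDiff ℝ 1 θ := hθ.of_le (by simp)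
    show ∫ X : Config 3, fderiv ℝ θ X (dir (0, a)) • φ (X 0) • ξ (tail3 X)
      = - ∫ X : Config 3, θ X • fderiv ℝ φ (X 0) (eA a) • ξ (tail3 X)
    rw [integral_cons3_symm (fs_int_d (m0.locallyIntegrable (by norm_num)) hθ1 hθc _),
      integral_cons3_symm (fs_int (m1.locallyIntegrable (by norm_num)) hθ.continuous hθc), ← integral_neg]
    refine integral_congr_ae (Eventually.of_forall fun y => ?_)
    obtain ⟨t1, t2, t3⟩ := test_fiber_x hθ hθc y
    have hib := fs_ibp_C1 (μ := (volume : Measure Space)) hφ1 (t1.of_le (by simp)) t2 (eA a)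
    simp only [t3, smul_eq_mul] at hib
    show ∫ x : Space, fderiv ℝ θ (cons3 x y) (dir (0, a)) • φ x • ξ y
      = - ∫ x : Space, θ (cons3 x y) • fderiv ℝ φ x (eA a) • ξ y
    simp only [smul_smul]
    rw [integral_smul_const, integral_smul_const, hib, neg_smul]
  · have m1 : MemLp (fun X : Config 3 => φ (X 0) • ξ' (i, a) (tail3 X)) 2 volume :=
      memLp_tensor mφ (h.wd (i, a)).memg
    refine ⟨m0, m1, fun θ hθ hθc => ?_⟩
    have hθ1 : ContDiff ℝ 1 θ := hθ.of_le (by simp)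
    show ∫ X : Config 3, fderiv ℝ θ X (dir (succIdx (i, a))) • φ (X 0) • ξ (tail3 X)
      = - ∫ X : Config 3, θ X • φ (X 0) • ξ' (i, a) (tail3 X)
    rw [(integral_cons3 (fs_int_d (m0.locallyIntegrable (by norm_num)) hθ1 hθc _)).2.2,
      (integral_cons3 (fs_int (m1.locallyIntegrable (by norm_num)) hθ.continuous hθc)).2.2, ← integral_neg]
    refine integral_congr_ae (Eventually.of_forall fun x => ?_)
    obtain ⟨t1, t2, t3⟩ := test_fiber_y hθ hθc x
    have hw := (h.wd (i, a)).weak _ t1 t2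
    simp only [t3] at hw
    show ∫ y : Config 2, fderiv ℝ θ (cons3 x y) (dir (succIdx (i, a))) • φ x • ξ y
      = - ∫ y : Config 2, θ (cons3 x y) • φ x • ξ' (i, a) y
    simp only [smul_comm _ (φ x)]
    rw [integral_smul, integral_smul, hw, smul_neg]

/-- **the ionic derivative on every fibre.**  For a fixed test function `ψ` on `Config 2` the `E`-valued functions
`x ↦ ∫ ∂_jψ • F₀ x` and `x ↦ - ∫ ψ • G₀ x` are continuous on `Ω` and agree a.e. there (test the weak derivative of `Φ` along `dir (succIdx j)` with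
`φ ⊗ ψ`, `tensor_test`, for all `φ ∈ C^∞_c(Ω)`; `ae_eq_zero_of_integral_contDiff_smul_eq_zero` on the open set, or
`IsOpen.ae_eq_zero_of_integral_contDiff_smul_eq_zero`). -/
theorem fiber_wd2 {Ω : Set Space} (hΩ : IsOpen Ω) {Φ Φ' : Config 3 → E} {j : Fin 2 × Fin 3}
    (h : WD2 volume (dir (succIdx j)) Φ Φ') {F₀ G₀ : Space → FibE E} (h₀ : IsVersion Ω Φ F₀)
    (h₁ : IsVersion Ω Φ' G₀) (c₀ : ContinuousOn F₀ Ω) (c₁ : ContinuousOn G₀ Ω) :
    ∀ x ∈ Ω, WD2 (volume : Measure (Config 2)) (dir j) (F₀ x : Config 2 → E) (G₀ x : Config 2 → E) := by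
  intro x hx
  refine ⟨Lp.memLp _, Lp.memLp _, fun ψ hψ hψc => ?_⟩
  have hψ1 : ContDiff ℝ 1 ψ := hψ.of_le (by simp)
  have m1 : MemLp (fun y => fderiv ℝ ψ y (dir j)) 2 volume :=
    (fs_cont_d hψ1 _).memLp_of_hasCompactSupport (hψc.fderiv_apply (𝕜 := ℝ) _)
  have m2 : MemLp ψ 2 volume := hψ.continuous.memLp_of_hasCompactSupport hψc
  rw [← fibT_apply m1, ← fibT_apply m2]
  have lS := (memLp_slice h.memf).1.locallyIntegrable (by norm_num)
  have lS' := (memLp_slice h.memg).1.locallyIntegrable (by norm_num)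
  have hE : EqOn (fun x => fibT m1 (F₀ x)) (fun x => - fibT m2 (G₀ x)) Ω := by
    refine eqOn_of_ae_eq hΩ ((fibT m1).continuous.comp_continuousOn c₀)
      ((fibT m2).continuous.comp_continuousOn c₁).neg ?_
    have key : ∀ᵐ x, fibT m1 (slice Φ x) + fibT m2 (slice Φ' x) = 0 := by
      refine ae_eq_zero_of_integral_contDiff_smul_eq_zero
        ((fs_li_clm lS (fibT m1)).add (fs_li_clm lS' (fibT m2))) fun φ hφ hφc => ?_
      have i1 : Integrable (fun x => φ x • slice Φ x) volume := fs_int lS hφ.continuous hφc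
      have i2 : Integrable (fun x => φ x • slice Φ' x) volume := fs_int lS' hφ.continuous hφc
      obtain ⟨t1, t2, -, t4⟩ := tensor_test hφ hφc hψ hψc
      have hw := h.weak _ t1 t2
      simp only [t4] at hw
      have e1 := fibT_integral_slice h.memf hφ.continuous hφc m1
      have e2 := fibT_integral_slice h.memg hφ.continuous hφc m2
      rw [← ContinuousLinearMap.integral_comp_comm _ i1] at e1
      rw [← ContinuousLinearMap.integral_comp_comm _ i2] at e2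
      simp only [smul_add, ← map_smul]
      rw [integral_add ((fibT m1).integrable_comp i1) ((fibT m2).integrable_comp i2), e1, e2, hw,
        neg_add_cancel]
    filter_upwards [key, h₀, h₁] with x hx a b hxΩ
    rw [← a hxΩ, ← b hxΩ]
    exact eq_neg_of_add_eq_zero_left hx
  exact hE hx

end V2

/-! ## LEAF AG-V3: the fibre equation -/

section V3

/-- a continuous function supported in an open set times a function which is continuous on this set. -/
theorem continuous_smul_of_tsupport_subset {F : Type*} [NormedAddCommGroup F] [NormedSpace ℝ F]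
    {Ω : Set Space} (hΩ : IsOpen Ω) {φ : Space → ℝ} (hφ : Continuous φ) (hs : tsupport φ ⊆ Ω) {u : Space → F}
    (hu : ContinuousOn u Ω) : Continuous (fun x => φ x • u x) := by
  rw [continuous_iff_continuousAt]
  intro x
  by_cases hx : x ∈ Ω
  · exact hφ.continuousAt.smul (hu.continuousAt (hΩ.mem_nhds hx))
  · have h1 : φ =ᶠ[𝓝 x] fun _ => 0 := notMem_tsupport_iff_eventuallyEq.1 fun h => hx (hs h)
    have : (fun x => φ x • u x) =ᶠ[𝓝 x] fun _ => 0 := by
      filter_upwards [h1] with z hz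
      rw [hz, zero_smul]
    exact continuousAt_const.congr this.symm

theorem integrable_smul_of_tsupport_subset {F : Type*} [NormedAddCommGroup F] [NormedSpace ℝ F]
    {Ω : Set Space} (hΩ : IsOpen Ω) {φ : Space → ℝ} (hφ : Continuous φ) (hc : HasCompactSupport φ)
    (hs : tsupport φ ⊆ Ω) {u : Space → F} (hu : ContinuousOn u Ω) : Integrable (fun x => φ x • u x) volume :=
  (continuous_smul_of_tsupport_subset hΩ hφ hs hu).integrable_of_hasCompactSupport hc.smul_right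

/-- integration by parts on an open set. -/
theorem ibp_on {F : Type*} [NormedAddCommGroup F] [NormedSpace ℝ F] [CompleteSpace F]
    {Ω : Set Space} (hΩ : IsOpen Ω) {φ : Space → ℝ} (hφ : ContDiff ℝ 1 φ) (hc : HasCompactSupport φ)
    (hs : tsupport φ ⊆ Ω) {u : Space → F} (hu : ContDiffOn ℝ 1 u Ω) (v : Space) :
    ∫ x, fderiv ℝ φ x v • u x = - ∫ x, φ x • fderiv ℝ u x v := by
  obtain ⟨u1, u2⟩ := contDiff_smul_of_tsupport_subset hΩ hφ hs hu
  have hcu : HasCompactSupport (fun x => φ x • u x) := hc.smul_right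
  have z : ∫ x, fderiv ℝ (fun x => φ x • u x) x v = 0 :=
    (HasWeakDeriv.of_contDiff (μ := volume) u1 v).integral_eq_zero
      (u1.continuous.integrable_of_hasCompactSupport hcu)
      (((u1.continuous_fderiv (by simp)).clm_apply continuous_const).integrable_of_hasCompactSupport
        (hcu.fderiv_apply (𝕜 := ℝ) _))
  simp only [u2] at z
  have i1 : Integrable (fun x => fderiv ℝ φ x v • u x) volume :=
    integrable_smul_of_tsupport_subset hΩ (fs_cont_d hφ v) (hc.fderiv_apply (𝕜 := ℝ) v)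
      ((tsupport_fderiv_apply_subset ℝ v).trans hs) hu.continuousOn
  have i2 : Integrable (fun x => φ x • fderiv ℝ u x v) volume :=
    integrable_smul_of_tsupport_subset hΩ hφ.continuous hc hs
      ((hu.continuousOn_fderiv_of_isOpen hΩ (by simp)).clm_apply continuousOn_const)
  rw [integral_add i1 i2] at z
  exact eq_neg_of_add_eq_zero_left z

theorem ag_laplacian_eq {F : Type*} [NormedAddCommGroup F] [NormedSpace ℝ F] {Ω : Set Space} (hΩ : IsOpen Ω)
    {H : Space → F} (hH : ContDiffOn ℝ 2 H Ω) {x : Space} (hx : x ∈ Ω) :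
    Δ H x = ∑ a : Fin 3, fderiv ℝ (fun z => fderiv ℝ H z (eA a)) x (eA a) := by
  rw [InnerProductSpace.laplacian_eq_iteratedFDeriv_orthonormalBasis H (EuclideanSpace.basisFun (Fin 3) ℝ)]
  have hd : DifferentiableAt ℝ (fderiv ℝ H) x :=
    ((hH.fderiv_of_isOpen hΩ (by norm_num : (1 : WithTop ℕ∞) + 1 ≤ 2)).contDiffAt
      (hΩ.mem_nhds hx)).differentiableAt (by simp)
  refine Finset.sum_congr rfl fun a _ => ?_
  rw [iteratedFDeriv_two_apply, fderiv_clm_apply hd (differentiableAt_const _)]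
  simp

theorem inner_toLp_coe {ξ : Config 2 → E} (hξ : MemLp ξ 2 volume) (κ : FibE E) :
    ⟪hξ.toLp ξ, κ⟫_ℂ = ∫ y, ⟪ξ y, κ y⟫_ℂ := by
  rw [L2.inner_def]
  refine integral_congr_ae ?_
  filter_upwards [hξ.coeFn_toLp] with y hy
  rw [hy]

theorem integral_inner_tensor_raw {Φ : Config 3 → E} (h : MemLp Φ 2 volume) {φ : Space → ℝ}
    (hφ : MemLp φ 2 volume) {ξ : Config 2 → E} (hξ : MemLp ξ 2 volume) :
    ∫ X : Config 3, ⟪φ (X 0) • ξ (tail3 X), Φ X⟫_ℂ = ∫ x : Space, (φ x : ℂ) * ⟪hξ.toLp ξ, slice Φ x⟫_ℂ := by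
  have hT : MemLp (fun X : Config 3 => φ (X 0) • ξ (tail3 X)) 2 volume := memLp_tensor hφ hξ
  rw [(integral_cons3 (integrable_inner' hT h)).2.2]
  refine integral_congr_ae ?_
  filter_upwards [ae_slice_coeFn h] with x hx
  rw [inner_toLp_coe, ← integral_const_mul]
  refine integral_congr_ae ?_
  filter_upwards [hx] with y hy
  rw [hy]
  show ⟪φ x • ξ y, Φ (cons3 x y)⟫_ℂ = (φ x : ℂ) * ⟪ξ y, Φ (cons3 x y)⟫_ℂ
  rw [inner_real_smul_left]

/-- replacing the slice by a version under an integral against a function supported in `Ω`. -/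
theorem integral_mul_inner_version {Ω : Set Space} {Φ : Config 3 → E} {F₀ : Space → FibE E}
    (h₀ : IsVersion Ω Φ F₀) {φ : Space → ℝ} (hφ : ∀ x, x ∉ Ω → φ x = 0) (κ : FibE E) :
    ∫ x : Space, (φ x : ℂ) * ⟪κ, slice Φ x⟫_ℂ = ∫ x : Space, (φ x : ℂ) * ⟪κ, F₀ x⟫_ℂ := by
  refine integral_congr_ae ?_
  filter_upwards [h₀] with x hx
  by_cases hxΩ : x ∈ Ω
  · rw [hx hxΩ]
  · rw [hφ x hxΩ]; simp

/-- `x ↦ V1(x,·) ξ` as a map into the fibre space. -/
def mulSl (V1 : Config 3 → ℝ) (ξ : Config 2 → E) (x : Space) : FibE E :=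
  slice (fun X => V1 X • ξ (tail3 X)) x

theorem memLp_mul_fiber {V1 : Config 3 → ℝ} (hc : Continuous V1) {B : ℝ} (hB : ∀ X, |V1 X| ≤ B)
    {ξ : Config 2 → E} (hξ : MemLp ξ 2 volume) (x : Space) :
    MemLp (fun y : Config 2 => V1 (cons3 x y) • ξ y) 2 volume :=
  memLp_smul_of_bdd (hc.comp (continuous_cons3.comp (continuous_const.prodMk continuous_id)))
    (fun _ => hB _) hξ

theorem mulSl_coeFn {V1 : Config 3 → ℝ} (hc : Continuous V1) {B : ℝ} (hB : ∀ X, |V1 X| ≤ B)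
    {ξ : Config 2 → E} (hξ : MemLp ξ 2 volume) (x : Space) :
    (mulSl V1 ξ x : Config 2 → E) =ᵐ[volume] fun y => V1 (cons3 x y) • ξ y :=
  slice_coeFn (Φ := fun X => V1 X • ξ (tail3 X)) (memLp_mul_fiber hc hB hξ x)

theorem inner_mulSl {V1 : Config 3 → ℝ} (hc : Continuous V1) {B : ℝ} (hB : ∀ X, |V1 X| ≤ B)
    {ξ : Config 2 → E} (hξ : MemLp ξ 2 volume) (x : Space) (κ : FibE E) :
    ⟪mulSl V1 ξ x, κ⟫_ℂ = ∫ y, (V1 (cons3 x y) : ℂ) * ⟪ξ y, κ y⟫_ℂ := by
  rw [L2.inner_def]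
  refine integral_congr_ae ?_
  filter_upwards [mulSl_coeFn hc hB hξ x] with y hy
  rw [hy, inner_real_smul_left]

theorem continuous_mulSl {V1 : Config 3 → ℝ} (hc : Continuous V1) {B : ℝ} (hB : ∀ X, |V1 X| ≤ B)
    {ξ : Config 2 → E} (hξ : MemLp ξ 2 volume) : Continuous (mulSl V1 ξ) := by
  rw [continuous_iff_continuousAt]
  intro x₀
  rw [ContinuousAt, tendsto_iff_norm_sub_tendsto_zero]
  have hm := memLp_mul_fiber hc hB hξ
  have key : Tendsto (fun x : Space => ∫ y, ‖V1 (cons3 x y) • ξ y - V1 (cons3 x₀ y) • ξ y‖ ^ 2) (𝓝 x₀)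
      (𝓝 (∫ _y : Config 2, (0 : ℝ))) := by
    refine tendsto_integral_filter_of_dominated_convergence (fun y => (2 * B) ^ 2 * ‖ξ y‖ ^ 2) ?_ ?_ ?_ ?_
    · exact Eventually.of_forall fun x => (((hm x).1.sub (hm x₀).1).norm).pow 2
    · refine Eventually.of_forall fun x => Eventually.of_forall fun y => ?_
      rw [Real.norm_eq_abs, abs_of_nonneg (by positivity), ← sub_smul, norm_smul, mul_pow]
      have h1 : ‖V1 (cons3 x y) - V1 (cons3 x₀ y)‖ ≤ 2 * B := by
        calc _ ≤ ‖V1 (cons3 x y)‖ + ‖V1 (cons3 x₀ y)‖ := norm_sub_le _ _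
          _ ≤ B + B := add_le_add (hB _) (hB _)
          _ = 2 * B := by ring
      gcongr
    · exact (integrable_norm_sq hξ).const_mul _
    · refine Eventually.of_forall fun y => ?_
      have hcont : Continuous fun x : Space => ‖V1 (cons3 x y) • ξ y - V1 (cons3 x₀ y) • ξ y‖ ^ 2 :=
        ((((hc.comp (continuous_cons3.comp (continuous_id.prodMk continuous_const))).smul
          continuous_const).sub continuous_const).norm).pow 2
      have := hcont.tendsto x₀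
      simpa using this
  have e : ∀ x : Space, ‖mulSl V1 ξ x - mulSl V1 ξ x₀‖
      = √(∫ y, ‖V1 (cons3 x y) • ξ y - V1 (cons3 x₀ y) • ξ y‖ ^ 2) := by
    intro x
    rw [← Real.sqrt_sq (norm_nonneg (mulSl V1 ξ x - mulSl V1 ξ x₀)), fib_norm_sq]
    congr 1
    refine integral_congr_ae ?_
    filter_upwards [Lp.coeFn_sub (mulSl V1 ξ x) (mulSl V1 ξ x₀), mulSl_coeFn hc hB hξ x,
      mulSl_coeFn hc hB hξ x₀] with y h1 h2 h3
    rw [h1, Pi.sub_apply, h2, h3]
  simp only [e]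
  have := (Real.continuous_sqrt.tendsto _).comp key
  simpa [Function.comp_def] using this

theorem nsq_coe_sub (κ κ' : FibE E) : nsq volume (fun y => κ y - κ' y) = ‖κ - κ'‖ ^ 2 := by
  rw [fib_norm_sq, nsq]
  refine integral_congr_ae ?_
  filter_upwards [Lp.coeFn_sub κ κ'] with y h1
  rw [h1, Pi.sub_apply]

theorem tendsto_nsq_restrict {Ω : Set Space} {F₀ : Space → FibE E} (cF : ContinuousOn F₀ Ω) (x₀ : Ω) :
    Tendsto (fun x : Ω => nsq volume (fun y => F₀ x y - F₀ x₀ y)) (𝓝 x₀) (𝓝 0) := by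
  simp only [nsq_coe_sub]
  have h1 : Continuous (Ω.domRestrict F₀) := continuousOn_iff_continuous_domRestrict.1 cF
  have h2 : Continuous fun x : Ω => ‖F₀ x - F₀ x₀‖ ^ 2 := ((h1.sub continuous_const).norm).pow 2
  have := h2.tendsto x₀
  simpa using this

theorem continuousOn_potential {Ω : Set Space} {Vy : Config 2 → ℝ} {a' b' : ℝ} (En : ℝ)
    (hVy : FormBdd E (volume : Measure (Config 2)) dir Vy a' b') {ξ : Config 2 → E}
    {ξ' : Fin 2 × Fin 3 → Config 2 → E} (hξ : H1 (volume : Measure (Config 2)) dir ξ ξ')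
    {F₀ : Space → FibE E} {Gy : Fin 2 × Fin 3 → Space → FibE E}
    (hH : ∀ x ∈ Ω, H1 (volume : Measure (Config 2)) dir (F₀ x : Config 2 → E) (fun j => (Gy j x : Config 2 → E)))
    (cF : ContinuousOn F₀ Ω) (cGy : ∀ j, ContinuousOn (Gy j) Ω) :
    ContinuousOn (fun x => ∫ y, ((Vy y - En : ℝ) : ℂ) * ⟪ξ y, F₀ x y⟫_ℂ) Ω := by
  rw [continuousOn_iff_continuous_domRestrict, continuous_iff_continuousAt]
  intro x₀
  exact hVy.tendsto_integral_right En (un := fun x : Ω => (F₀ x : Config 2 → E))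
    (un' := fun (x : Ω) j => (Gy j x : Config 2 → E)) (fun x => hH x x.2) (hH x₀ x₀.2) hξ
    (tendsto_nsq_restrict cF x₀) (fun j => tendsto_nsq_restrict (cGy j) x₀)

/-- Fubini for the potential term of the tested equation. -/
theorem fiber_potential_fubini {Ω : Set Space} {V V1 : Config 3 → ℝ} {Vy : Config 2 → ℝ} {a b a' b' En : ℝ}
    (hV : FormBdd E (volume : Measure (Config 3)) dir V a b)
    (hVy : FormBdd E (volume : Measure (Config 2)) dir Vy a' b')
    (hc : Continuous V1) {B : ℝ} (hB : ∀ X, |V1 X| ≤ B)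
    (hsplit : ∀ X : Config 3, X 0 ∈ Ω → V X = Vy (tail3 X) + V1 X)
    {f : Config 3 → E} {G : Fin 3 × Fin 3 → Config 3 → E} (hf : H1 (volume : Measure (Config 3)) dir f G)
    {F₀ : Space → FibE E} {Gy : Fin 2 × Fin 3 → Space → FibE E} (hF : IsVersion Ω f F₀)
    (hH : ∀ x ∈ Ω, H1 (volume : Measure (Config 2)) dir (F₀ x : Config 2 → E) (fun j => (Gy j x : Config 2 → E)))
    {ξ : Config 2 → E} {ξ' : Fin 2 × Fin 3 → Config 2 → E} (hξ : H1 (volume : Measure (Config 2)) dir ξ ξ')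
    {φ : Space → ℝ} (hφ : ContDiff ℝ ∞ φ) (hφc : HasCompactSupport φ) (hφ0 : ∀ x, x ∉ Ω → φ x = 0) :
    ∫ X : Config 3, ((V X - En : ℝ) : ℂ) * ⟪φ (X 0) • ξ (tail3 X), f X⟫_ℂ
      = ∫ x : Space, (φ x : ℂ) * ((∫ y, ((Vy y - En : ℝ) : ℂ) * ⟪ξ y, F₀ x y⟫_ℂ) + ⟪mulSl V1 ξ x, F₀ x⟫_ℂ) := by
  rw [(integral_cons3 (hV.integrable_inner (h1_tensor hφ hφc hξ) hf En)).2.2]
  refine integral_congr_ae ?_
  filter_upwards [hF.ae_coeFn hf.mem] with x hx
  show ∫ y : Config 2, ((V (cons3 x y) - En : ℝ) : ℂ) * ⟪φ x • ξ y, f (cons3 x y)⟫_ℂ = _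
  by_cases hxΩ : x ∈ Ω
  · have i1 : Integrable (fun y => ((Vy y - En : ℝ) : ℂ) * ⟪ξ y, F₀ x y⟫_ℂ) volume :=
      hVy.integrable_inner hξ (hH x hxΩ) En
    have i2 : Integrable (fun y => (V1 (cons3 x y) : ℂ) * ⟪ξ y, F₀ x y⟫_ℂ) volume := by
      refine (integrable_inner' (memLp_mul_fiber hc hB hξ.mem x) (Lp.memLp (F₀ x))).congr
        (Eventually.of_forall fun y => ?_)
      simp only [inner_real_smul_left]
    rw [inner_mulSl hc hB hξ.mem, ← integral_add i1 i2, ← integral_const_mul]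
    refine integral_congr_ae ?_
    filter_upwards [hx hxΩ] with y hy
    rw [← hy, inner_real_smul_left, hsplit (cons3 x y) hxΩ, tail3_cons3]
    push_cast
    ring
  · rw [hφ0 x hxΩ]
    simp

theorem integral_mul_inner_eq (κ : FibE E) {φ : Space → ℝ} {u : Space → FibE E}
    (hi : Integrable (fun x => φ x • u x) volume) :
    ∫ x, (φ x : ℂ) * ⟪κ, u x⟫_ℂ = ⟪κ, ∫ x, φ x • u x⟫_ℂ := by
  rw [← integral_inner hi κ]
  refine integral_congr_ae (Eventually.of_forall fun x => ?_)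
  show (φ x : ℂ) * ⟪κ, u x⟫_ℂ = ⟪κ, φ x • u x⟫_ℂ
  rw [RCLike.real_smul_eq_coe_smul (K := ℂ) (φ x) (u x), inner_smul_right]
  rfl

/-- Green's identity on an open set. -/
theorem sum_integral_grad_eq {F : Type*} [NormedAddCommGroup F] [NormedSpace ℝ F] [CompleteSpace F]
    {Ω : Set Space} (hΩ : IsOpen Ω) {φ : Space → ℝ} (hφ : ContDiff ℝ 1 φ) (hc : HasCompactSupport φ)
    (hs : tsupport φ ⊆ Ω) {H : Space → F} (hH : ContDiffOn ℝ 2 H Ω) :
    ContinuousOn (Δ H) Ω ∧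
    ∑ a : Fin 3, ∫ x, fderiv ℝ φ x (eA a) • fderiv ℝ H x (eA a) = - ∫ x, φ x • Δ H x := by
  have c1 : ∀ a : Fin 3, ContDiffOn ℝ 1 (fun x => fderiv ℝ H x (eA a)) Ω := fun a =>
    (hH.fderiv_of_isOpen hΩ (by norm_num : (1 : WithTop ℕ∞) + 1 ≤ 2)).clm_apply contDiffOn_const
  have c2 : ∀ a : Fin 3, ContinuousOn (fun x => fderiv ℝ (fun z => fderiv ℝ H z (eA a)) x (eA a)) Ω := fun a =>
    ((c1 a).continuousOn_fderiv_of_isOpen hΩ (by simp)).clm_apply continuousOn_const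
  have c3 : ContinuousOn (Δ H) Ω :=
    (continuousOn_finsetSum _ fun a _ => c2 a).congr fun x hx => ag_laplacian_eq hΩ hH hx
  refine ⟨c3, ?_⟩
  have hφ0 : ∀ x, x ∉ Ω → φ x = 0 := fun x hx => image_eq_zero_of_notMem_tsupport fun h => hx (hs h)
  have e : ∫ x, φ x • Δ H x = ∑ a : Fin 3, ∫ x, φ x • fderiv ℝ (fun z => fderiv ℝ H z (eA a)) x (eA a) := by
    rw [← integral_finsetSum _ fun a _ => integrable_smul_of_tsupport_subset hΩ hφ.continuous hc hs (c2 a)]
    refine integral_congr_ae (Eventually.of_forall fun x => ?_)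
    by_cases hx : x ∈ Ω
    · simp only [ag_laplacian_eq hΩ hH hx, Finset.smul_sum]
    · simp only [hφ0 x hx, zero_smul, Finset.sum_const_zero]
  rw [e, ← Finset.sum_neg_distrib]
  exact Finset.sum_congr rfl fun a _ => ibp_on hΩ hφ hc hs (c1 a) (eA a)

theorem sum_fin3_prod {M : Type*} [AddCommMonoid M] (T : Fin 3 × Fin 3 → M) :
    ∑ J, T J = ∑ a, T (0, a) + ∑ j : Fin 2 × Fin 3, T (succIdx j) := by
  rw [Fintype.sum_prod_type, Fin.sum_univ_succ, Fintype.sum_prod_type]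
  rfl

/-- the 9-dimensional equation tested with `φ ⊗ ξ`, in terms of the versions. -/
theorem fiber_equation_test {Ω : Set Space} (hΩ : IsOpen Ω) {V V1 : Config 3 → ℝ} {Vy : Config 2 → ℝ}
    {a b a' b' En : ℝ}
    (hV : FormBdd E (volume : Measure (Config 3)) dir V a b)
    (hVy : FormBdd E (volume : Measure (Config 2)) dir Vy a' b')
    (hc : Continuous V1) {B : ℝ} (hB : ∀ X, |V1 X| ≤ B)
    (hsplit : ∀ X : Config 3, X 0 ∈ Ω → V X = Vy (tail3 X) + V1 X)
    {f g : Config 3 → E} {G : Fin 3 × Fin 3 → Config 3 → E} (hf : H1 (volume : Measure (Config 3)) dir f G)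
    (hg : MemLp g 2 volume)
    (hs : IsWeakSolOn (volume : Measure (Config 3)) dir {X | X 0 ∈ Ω} V En f G g)
    {F₀ R₀ : Space → FibE E} {Gy : Fin 2 × Fin 3 → Space → FibE E}
    (hF : IsVersion Ω f F₀) (hR : IsVersion Ω g R₀) (hGy : ∀ j, IsVersion Ω (G (succIdx j)) (Gy j))
    (cF : ContDiffOn ℝ 2 F₀ Ω)
    (hH : ∀ x ∈ Ω, H1 (volume : Measure (Config 2)) dir (F₀ x : Config 2 → E) (fun j => (Gy j x : Config 2 → E)))
    {ξ : Config 2 → E} {ξ' : Fin 2 × Fin 3 → Config 2 → E} (hξ : H1 (volume : Measure (Config 2)) dir ξ ξ')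
    {φ : Space → ℝ} (hφ : ContDiff ℝ ∞ φ) (hφc : HasCompactSupport φ) (hsφ : tsupport φ ⊆ Ω) :
    (1 / 2 : ℂ) * ((- ∫ x, (φ x : ℂ) * ⟪hξ.mem.toLp ξ, Δ F₀ x⟫_ℂ)
        + ∑ j, ∫ x, (φ x : ℂ) * ⟪(hξ.wd j).memg.toLp (ξ' j), Gy j x⟫_ℂ)
      + ∫ x, (φ x : ℂ) * ((∫ y, ((Vy y - En : ℝ) : ℂ) * ⟪ξ y, F₀ x y⟫_ℂ) + ⟪mulSl V1 ξ x, F₀ x⟫_ℂ)
      = ∫ x, (φ x : ℂ) * ⟪hξ.mem.toLp ξ, R₀ x⟫_ℂ := by
  have hφ0 : ∀ x, x ∉ Ω → φ x = 0 := fun x hx => image_eq_zero_of_notMem_tsupport fun h => hx (hsφ h)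
  have hφ1 : ContDiff ℝ 1 φ := hφ.of_le (by simp)
  have mφ : MemLp φ 2 volume := hφ.continuous.memLp_of_hasCompactSupport hφc
  have mdφ : ∀ a, MemLp (fun x => fderiv ℝ φ x (eA a)) 2 volume := fun a =>
    (fs_cont_d hφ1 _).memLp_of_hasCompactSupport (hφc.fderiv_apply (𝕜 := ℝ) _)
  have hdφ0 : ∀ (a : Fin 3) (x : Space), x ∉ Ω → fderiv ℝ φ x (eA a) = 0 := fun a x hx =>
    image_eq_zero_of_notMem_tsupport (f := fun x => fderiv ℝ φ x (eA a))
      fun h => hx (hsφ (tsupport_fderiv_apply_subset ℝ (eA a) h))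
  have cF1 : ContDiffOn ℝ 1 F₀ Ω := cF.of_le (by norm_num)
  set Ξ' : Fin 3 × Fin 3 → Config 3 → E := fun j X => Fin.cases (motive := fun _ => E)
    (fderiv ℝ φ (X 0) (eA j.2) • ξ (tail3 X)) (fun i => φ (X 0) • ξ' (i, j.2) (tail3 X)) j.1 with hΞ'
  have eq := hs (fun X => φ (X 0) • ξ (tail3 X)) Ξ' (h1_tensor hφ hφc hξ) (fun X hX => by
    have : φ (X 0) = 0 := hφ0 (X 0) hX
    simp only [this, zero_smul])
  rw [fiber_potential_fubini hV hVy hc hB hsplit hf hF hH hξ hφ hφc hφ0,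
    integral_inner_tensor_raw hg mφ hξ.mem, integral_mul_inner_version hR hφ0] at eq
  have key : ∑ J, ∫ X, ⟪Ξ' J X, G J X⟫_ℂ = (- ∫ x, (φ x : ℂ) * ⟪hξ.mem.toLp ξ, Δ F₀ x⟫_ℂ)
        + ∑ j, ∫ x, (φ x : ℂ) * ⟪(hξ.wd j).memg.toLp (ξ' j), Gy j x⟫_ℂ := by
    rw [sum_fin3_prod (fun J => ∫ X, ⟪Ξ' J X, G J X⟫_ℂ)]
    refine congrArg₂ (· + ·) ?_ ?_
    · -- the derivatives in `x`
      obtain ⟨cΔ, hgreen⟩ := sum_integral_grad_eq hΩ hφ1 hφc hsφ cF
      have cd : ∀ a : Fin 3, ContinuousOn (fun x => fderiv ℝ F₀ x (eA a)) Ω := fun a =>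
        (cF1.continuousOn_fderiv_of_isOpen hΩ (by simp)).clm_apply continuousOn_const
      have e1 : - ∫ x, (φ x : ℂ) * ⟪hξ.mem.toLp ξ, Δ F₀ x⟫_ℂ
          = ⟪hξ.mem.toLp ξ, ∑ a : Fin 3, ∫ x, fderiv ℝ φ x (eA a) • fderiv ℝ F₀ x (eA a)⟫_ℂ := by
        have hi : Integrable (fun x => φ x • Δ F₀ x) volume :=
          integrable_smul_of_tsupport_subset hΩ hφ.continuous hφc hsφ cΔ
        have e2 := integral_mul_inner_eq (hξ.mem.toLp ξ) hi
        rw [e2, hgreen, inner_neg_right]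
      rw [e1, inner_sum]
      refine Finset.sum_congr rfl fun a _ => ?_
      show ∫ X : Config 3, ⟪fderiv ℝ φ (X 0) (eA a) • ξ (tail3 X), G (0, a) X⟫_ℂ = _
      have hi : Integrable (fun x => fderiv ℝ φ x (eA a) • fderiv ℝ F₀ x (eA a)) volume :=
        integrable_smul_of_tsupport_subset hΩ (fs_cont_d hφ1 _)
          (hφc.fderiv_apply (𝕜 := ℝ) _) ((tsupport_fderiv_apply_subset ℝ (eA a)).trans hsφ) (cd a)
      have e3 := integral_mul_inner_eq (hξ.mem.toLp ξ) hi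
      rw [integral_inner_tensor_raw (hf.wd (0, a)).memg (mdφ a) hξ.mem,
        integral_mul_inner_version (IsVersion.fderiv hΩ (hf.wd (0, a)) hF cF1) (hdφ0 a), e3]
    · -- the ionic derivatives
      refine Finset.sum_congr rfl fun j _ => ?_
      show ∫ X : Config 3, ⟪φ (X 0) • ξ' j (tail3 X), G (succIdx j) X⟫_ℂ = _
      rw [integral_inner_tensor_raw (hf.wd (succIdx j)).memg mφ (hξ.wd j).memg,
        integral_mul_inner_version (hGy j) hφ0]
  rw [key] at eq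
  exact eq

/-- **The equation on every fibre.**
Test the 9-dimensional equation with `Ξ = φ ⊗ ξ` (`h1_tensor`; `φ ∈ C^∞_c(Ω)`, `(ξ, ξ')` an `H¹` pair on `Config 2`).  By `integral_inner_tensor`,
`IsVersion.fderiv` and integration by parts in `x` (`F₀` is `C²` on `Ω`, `φ` has compact support in `Ω`) it reads `∫ φ(x) h(x) dx = 0` with
`h(x) = ½ ∑_j ⟪ξ'_j, Gy j x⟫ + ∫ (Vy - En) ⟪ξ, F₀ x⟫ - ⟪ξ, ½ ΔF₀ x - V1(x,·) F₀ x + R₀ x⟫`.
`h` is continuous on `Ω`: the potential term by `FormBdd.norm_integral_inner_le` on `Config 2` applied to the `H¹` pair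
`(F₀ x - F₀ x', Gy · x - Gy · x')` (`fiber_wd2`); the `V1` term because `V1` is bounded and uniformly continuous in `x` on compact sets... (use:
`V1` is `C¹` with bounded derivative).  Hence `h = 0` on `Ω`. -/
theorem fiber_equation {Ω : Set Space} (hΩ : IsOpen Ω) {V V1 : Config 3 → ℝ} {Vy : Config 2 → ℝ} {a b a' b' En : ℝ}
    (hV : FormBdd E (volume : Measure (Config 3)) dir V a b)
    (hVy : FormBdd E (volume : Measure (Config 2)) dir Vy a' b')
    (hV1 : BddDeriv V1) (hsplit : ∀ X : Config 3, X 0 ∈ Ω → V X = Vy (tail3 X) + V1 X)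
    {f g : Config 3 → E} {G : Fin 3 × Fin 3 → Config 3 → E} (hf : H1 (volume : Measure (Config 3)) dir f G)
    (hg : MemLp g 2 volume)
    (hs : IsWeakSolOn (volume : Measure (Config 3)) dir {X | X 0 ∈ Ω} V En f G g)
    {F₀ R₀ : Space → FibE E} {Gy : Fin 2 × Fin 3 → Space → FibE E}
    (hF : IsVersion Ω f F₀) (hR : IsVersion Ω g R₀) (hGy : ∀ j, IsVersion Ω (G (succIdx j)) (Gy j))
    (cF : ContDiffOn ℝ 2 F₀ Ω) (cR : ContinuousOn R₀ Ω) (cGy : ∀ j, ContinuousOn (Gy j) Ω) :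
    ∀ x ∈ Ω, H1 (volume : Measure (Config 2)) dir (F₀ x : Config 2 → E) (fun j => (Gy j x : Config 2 → E)) ∧
      IsWeakSol (volume : Measure (Config 2)) dir Vy En (F₀ x : Config 2 → E) (fun j => (Gy j x : Config 2 → E))
        (fun y => (1 / 2 : ℝ) • (Δ F₀ x : FibE E) y - V1 (cons3 x y) • F₀ x y + R₀ x y) := by
  obtain ⟨hV1c, hV1b⟩ := hV1
  obtain ⟨B, hB'⟩ := hV1b 0
  have hB : ∀ X, |V1 X| ≤ B := fun X => by
    have := hB' X
    rwa [norm_iteratedFDeriv_zero, Real.norm_eq_abs] at this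
  have hc : Continuous V1 := hV1c.continuous
  have cF0 : ContinuousOn F₀ Ω := cF.continuousOn
  have hH : ∀ x ∈ Ω, H1 (volume : Measure (Config 2)) dir (F₀ x : Config 2 → E)
      (fun j => (Gy j x : Config 2 → E)) := fun x hx =>
    ⟨Lp.memLp _, fun j => fiber_wd2 hΩ (hf.wd (succIdx j)) hF (hGy j) cF0 (cGy j) x hx⟩
  intro x hx
  refine ⟨hH x hx, ?_⟩
  intro ξ ξ' hξ _
  -- the five continuous functions
  have cΔ : ContinuousOn (Δ F₀) Ω := by
    have c1 : ∀ a : Fin 3, ContDiffOn ℝ 1 (fun x => fderiv ℝ F₀ x (eA a)) Ω := fun a =>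
      (cF.fderiv_of_isOpen hΩ (by norm_num : (1 : WithTop ℕ∞) + 1 ≤ 2)).clm_apply contDiffOn_const
    have c2 : ∀ a : Fin 3, ContinuousOn (fun x => fderiv ℝ (fun z => fderiv ℝ F₀ z (eA a)) x (eA a)) Ω :=
      fun a => ((c1 a).continuousOn_fderiv_of_isOpen hΩ (by simp)).clm_apply continuousOn_const
    exact (continuousOn_finsetSum _ fun a _ => c2 a).congr fun x hx => ag_laplacian_eq hΩ cF hx
  have k1 : ∀ j, ContinuousOn (fun x => ⟪(hξ.wd j).memg.toLp (ξ' j), Gy j x⟫_ℂ) Ω := fun j =>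
    continuousOn_const.inner (cGy j)
  have k2 : ContinuousOn (fun x => ∫ y, ((Vy y - En : ℝ) : ℂ) * ⟪ξ y, F₀ x y⟫_ℂ) Ω :=
    continuousOn_potential En hVy hξ hH cF0 cGy
  have k3 : ContinuousOn (fun x => ⟪hξ.mem.toLp ξ, Δ F₀ x⟫_ℂ) Ω := continuousOn_const.inner cΔ
  have k4 : ContinuousOn (fun x => ⟪mulSl V1 ξ x, F₀ x⟫_ℂ) Ω :=
    (continuous_mulSl hc hB hξ.mem).continuousOn.inner cF0
  have k5 : ContinuousOn (fun x => ⟪hξ.mem.toLp ξ, R₀ x⟫_ℂ) Ω := continuousOn_const.inner cR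
  set hfun : Space → ℂ := fun x => (1 / 2 : ℂ) * ((- ⟪hξ.mem.toLp ξ, Δ F₀ x⟫_ℂ)
      + ∑ j, ⟪(hξ.wd j).memg.toLp (ξ' j), Gy j x⟫_ℂ)
      + ((∫ y, ((Vy y - En : ℝ) : ℂ) * ⟪ξ y, F₀ x y⟫_ℂ) + ⟪mulSl V1 ξ x, F₀ x⟫_ℂ)
      - ⟪hξ.mem.toLp ξ, R₀ x⟫_ℂ with hhfun
  have hcont : ContinuousOn hfun Ω :=
    ((continuousOn_const.mul (k3.neg.add (continuousOn_finsetSum _ fun j _ => k1 j))).add (k2.add k4)).sub k5
  have hzero : ∀ᵐ x, x ∈ Ω → hfun x = 0 := by
    refine hΩ.ae_eq_zero_of_integral_contDiff_smul_eq_zero (hcont.locallyIntegrableOn hΩ.measurableSet)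
      fun φ hφ hφc hsφ => ?_
    have ht := fiber_equation_test hΩ hV hVy hc hB hsplit hf hg hs hF hR hGy cF hH hξ hφ hφc hsφ
    have I : ∀ {u : Space → ℂ}, ContinuousOn u Ω → Integrable (fun x => (φ x : ℂ) * u x) volume := by
      intro u hu
      have := integrable_smul_of_tsupport_subset hΩ hφ.continuous hφc hsφ hu
      simpa only [Complex.real_smul] using this
    have e : ∀ x, φ x • hfun x = (1 / 2 : ℂ) * ((- ((φ x : ℂ) * ⟪hξ.mem.toLp ξ, Δ F₀ x⟫_ℂ))
        + ∑ j, (φ x : ℂ) * ⟪(hξ.wd j).memg.toLp (ξ' j), Gy j x⟫_ℂ)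
        + (φ x : ℂ) * ((∫ y, ((Vy y - En : ℝ) : ℂ) * ⟪ξ y, F₀ x y⟫_ℂ) + ⟪mulSl V1 ξ x, F₀ x⟫_ℂ)
        - (φ x : ℂ) * ⟪hξ.mem.toLp ξ, R₀ x⟫_ℂ := by
      intro x
      rw [hhfun, Complex.real_smul, ← Finset.mul_sum]
      ring
    simp only [e]
    have I1 : Integrable (fun x => - ((φ x : ℂ) * ⟪hξ.mem.toLp ξ, Δ F₀ x⟫_ℂ)) volume := (I k3).neg
    have I2 : Integrable (fun x => ∑ j, (φ x : ℂ) * ⟪(hξ.wd j).memg.toLp (ξ' j), Gy j x⟫_ℂ) volume :=
      integrable_finsetSum _ fun j _ => I (k1 j)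
    have I3 : Integrable (fun x => (φ x : ℂ) * ((∫ y, ((Vy y - En : ℝ) : ℂ) * ⟪ξ y, F₀ x y⟫_ℂ)
        + ⟪mulSl V1 ξ x, F₀ x⟫_ℂ)) volume := I (k2.add k4)
    have I12 : Integrable (fun x => (1 / 2 : ℂ) * ((- ((φ x : ℂ) * ⟪hξ.mem.toLp ξ, Δ F₀ x⟫_ℂ))
        + ∑ j, (φ x : ℂ) * ⟪(hξ.wd j).memg.toLp (ξ' j), Gy j x⟫_ℂ)) volume := (I1.add I2).const_mul _
    have I123 : Integrable (fun x => (1 / 2 : ℂ) * ((- ((φ x : ℂ) * ⟪hξ.mem.toLp ξ, Δ F₀ x⟫_ℂ))
        + ∑ j, (φ x : ℂ) * ⟪(hξ.wd j).memg.toLp (ξ' j), Gy j x⟫_ℂ)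
        + (φ x : ℂ) * ((∫ y, ((Vy y - En : ℝ) : ℂ) * ⟪ξ y, F₀ x y⟫_ℂ) + ⟪mulSl V1 ξ x, F₀ x⟫_ℂ)) volume :=
      I12.add I3
    rw [integral_sub I123 (I k5), integral_add I12 I3, integral_const_mul, integral_add I1 I2,
      integral_neg, integral_finsetSum _ fun j _ => I (k1 j), ht, sub_self]
  have h0 : hfun x = 0 := eqOn_of_ae_eq hΩ hcont continuousOn_const hzero hx
  -- translation
  have J1 : Integrable (fun y => ⟪ξ y, (Δ F₀ x : FibE E) y⟫_ℂ) volume := integrable_inner' hξ.mem (Lp.memLp _)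
  have J2 : Integrable (fun y => (V1 (cons3 x y) : ℂ) * ⟪ξ y, F₀ x y⟫_ℂ) volume := by
    refine (integrable_inner' (memLp_mul_fiber hc hB hξ.mem x) (Lp.memLp (F₀ x))).congr
      (Eventually.of_forall fun y => ?_)
    simp only [inner_real_smul_left]
  have J3 : Integrable (fun y => ⟪ξ y, R₀ x y⟫_ℂ) volume := integrable_inner' hξ.mem (Lp.memLp _)
  have J1' : Integrable (fun y => (1 / 2 : ℂ) * ⟪ξ y, (Δ F₀ x : FibE E) y⟫_ℂ) volume := J1.const_mul _
  have J12 : Integrable (fun y => (1 / 2 : ℂ) * ⟪ξ y, (Δ F₀ x : FibE E) y⟫_ℂ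
      - (V1 (cons3 x y) : ℂ) * ⟪ξ y, F₀ x y⟫_ℂ) volume := J1'.sub J2
  have eR : ∫ y, ⟪ξ y, (1 / 2 : ℝ) • (Δ F₀ x : FibE E) y - V1 (cons3 x y) • F₀ x y + R₀ x y⟫_ℂ
      = (1 / 2 : ℂ) * ⟪hξ.mem.toLp ξ, Δ F₀ x⟫_ℂ - ⟪mulSl V1 ξ x, F₀ x⟫_ℂ + ⟪hξ.mem.toLp ξ, R₀ x⟫_ℂ := by
    rw [inner_toLp_coe, inner_toLp_coe, inner_mulSl hc hB hξ.mem, ← integral_const_mul, ← integral_sub J1' J2,
      ← integral_add J12 J3]
    refine integral_congr_ae (Eventually.of_forall fun y => ?_)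
    simp only [inner_add_right, inner_sub_right, inner_real_smul_right]
    push_cast
    ring
  have eL : ∀ j, ∫ y, ⟪ξ' j y, (Gy j x : Config 2 → E) y⟫_ℂ = ⟪(hξ.wd j).memg.toLp (ξ' j), Gy j x⟫_ℂ := fun j =>
    (inner_toLp_coe _ _).symm
  rw [eR]
  simp only [eL]
  rw [hhfun] at h0
  linear_combination h0

end V3

/-! ## LEAF AG-V4: covariance on every fibre -/

section V4

/-- a pointwise linear constraint (spin sector). -/
theorem fiber_constraint {Ω : Set Space} (hΩ : IsOpen Ω) {Φ : Config 3 → E} (hΦ : MemLp Φ 2 volume)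
    {F₀ : Space → FibE E} (h₀ : IsVersion Ω Φ F₀) (c₀ : ContinuousOn F₀ Ω) {E' : Type*} [NormedAddCommGroup E']
    [NormedSpace ℝ E'] (L : E →L[ℝ] E') (h : ∀ᵐ X, L (Φ X) = 0) : ∀ x ∈ Ω, ∀ᵐ y, L (F₀ x y) = 0 := by
  have hc : ContinuousOn (fun x => (L.compLp (F₀ x) : Lp E' 2 (volume : Measure (Config 2)))) Ω :=
    (L.compLpL 2 volume).continuous.comp_continuousOn c₀
  have hE : EqOn (fun x => (L.compLp (F₀ x) : Lp E' 2 (volume : Measure (Config 2)))) (fun _ => 0) Ω := by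
    refine Measure.eqOn_open_of_ae_eq (μ := (volume : Measure Space))
      ((ae_restrict_iff' hΩ.measurableSet).2 ?_) hΩ hc continuousOn_const
    filter_upwards [h₀.ae_coeFn hΦ, ae_ae_cons3 h] with x a b hx
    rw [Lp.eq_zero_iff_ae_eq_zero]
    filter_upwards [L.coeFn_compLp (F₀ x), a hx, b] with y h1 h2 h3
    rw [h1, h2, h3]; rfl
  intro x hx
  have h1 : (L.compLp (F₀ x) : Lp E' 2 (volume : Measure (Config 2))) = 0 := hE hx
  rw [Lp.eq_zero_iff_ae_eq_zero] at h1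
  filter_upwards [L.coeFn_compLp (F₀ x), h1] with y h2 h3
  rw [← h2, h3]; rfl

/-- the common principle of the two covariance lemmas. -/
theorem fiber_cov_aux {Ω : Set Space} (hΩ : IsOpen Ω) {Φ : Config 3 → E} (hΦ : MemLp Φ 2 volume)
    {F₀ : Space → FibE E} (h₀ : IsVersion Ω Φ F₀) (c₀ : ContinuousOn F₀ Ω) (L : E →L[ℝ] E)
    {A : Space → Space} (hAc : Continuous A) (hAm : MeasurePreserving A volume volume) (hA : ∀ x ∈ Ω, A x ∈ Ω)
    {T : Config 2 → Config 2} (hT : MeasurePreserving T volume volume)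
    (h : ∀ᵐ X : Config 3, Φ (cons3 (A (X 0)) (T (tail3 X))) = L (Φ X)) :
    ∀ x ∈ Ω, ∀ᵐ y : Config 2, F₀ (A x) (T y) = L (F₀ x y) := by
  have hc1 : ContinuousOn (fun x => Lp.compMeasurePreserving T hT (F₀ (A x))) Ω :=
    (Lp.isometry_compMeasurePreserving hT).continuous.comp_continuousOn
      (c₀.comp hAc.continuousOn fun x hx => hA x hx)
  have hc2 : ContinuousOn (fun x => (L.compLp (F₀ x) : FibE E)) Ω :=
    (L.compLpL 2 volume).continuous.comp_continuousOn c₀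
  have hE : EqOn (fun x => Lp.compMeasurePreserving T hT (F₀ (A x))) (fun x => (L.compLp (F₀ x) : FibE E)) Ω := by
    refine eqOn_of_ae_eq hΩ hc1 hc2 ?_
    have hP := h₀.ae_coeFn hΦ
    filter_upwards [hP, hAm.quasiMeasurePreserving.ae hP, ae_ae_cons3 h] with x a b c hx
    refine Lp.ext ?_
    filter_upwards [Lp.coeFn_compMeasurePreserving (F₀ (A x)) hT, L.coeFn_compLp (F₀ x), a hx,
      hT.quasiMeasurePreserving.ae (b (hA x hx)), c] with y h1 h2 h3 h4 h5
    rw [h1, h2, h3, Function.comp_apply, h4]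
    exact h5
  intro x hx
  have h1 : Lp.compMeasurePreserving T hT (F₀ (A x)) = (L.compLp (F₀ x) : FibE E) := hE hx
  filter_upwards [Lp.coeFn_compMeasurePreserving (F₀ (A x)) hT, L.coeFn_compLp (F₀ x)] with y h2 h3
  rw [← h3, ← h1, h2, Function.comp_apply]

/-- exchange of the two ionic electrons. -/
theorem fiber_swap {Ω : Set Space} (hΩ : IsOpen Ω) {Φ : Config 3 → E} (hΦ : MemLp Φ 2 volume)
    {F₀ : Space → FibE E} (h₀ : IsVersion Ω Φ F₀) (c₀ : ContinuousOn F₀ Ω) (L : E →L[ℝ] E)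
    (h : ∀ᵐ X : Config 3, Φ (X ∘ Equiv.swap 1 2) = L (Φ X)) :
    ∀ x ∈ Ω, ∀ᵐ y : Config 2, F₀ x (y ∘ Equiv.swap 0 1) = L (F₀ x y) := by
  refine fiber_cov_aux hΩ hΦ h₀ c₀ L (A := id) continuous_id (MeasurePreserving.id _) (fun x hx => hx)
    (T := fun y => y ∘ Equiv.swap 0 1) (measurePreserving_comp_perm _) ?_
  filter_upwards [h] with X hX
  rw [← hX]
  congr 1
  funext i
  fin_cases i
  · rfl
  · rfl
  · rfl

/-- simultaneous isometry of all electrons (rotation about the axis, reflection). -/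
theorem fiber_isometry {Ω : Set Space} (hΩ : IsOpen Ω) {Φ : Config 3 → E} (hΦ : MemLp Φ 2 volume)
    {F₀ : Space → FibE E} (h₀ : IsVersion Ω Φ F₀) (c₀ : ContinuousOn F₀ Ω) (L : E →L[ℝ] E)
    (A : Space ≃ₗᵢ[ℝ] Space) (hA : ∀ x ∈ Ω, A x ∈ Ω)
    (h : ∀ᵐ X : Config 3, Φ (fun i => A (X i)) = L (Φ X)) :
    ∀ x ∈ Ω, ∀ᵐ y : Config 2, F₀ (A x) (fun i => A (y i)) = L (F₀ x y) := by
  refine fiber_cov_aux hΩ hΦ h₀ c₀ L (A := A) A.continuous A.measurePreserving hA
    (T := fun y i => A (y i)) (volume_preserving_pi fun _ => A.measurePreserving) ?_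
  filter_upwards [h] with X hX
  rw [← hX]
  congr 1
  funext i
  refine Fin.cases ?_ (fun j => ?_) i
  · rfl
  · rfl

end V4

end Claimed.Open.R278.AG
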