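import Claimed.Open.R278.FSWeak

/-!
# Result 278, layer AG (= L3, Lemma 3.2 `lem:channel-cutoff`), file 1: abstract Schroedinger forms

Architect: helper9.  RAW FUNCTIONS on a finite dimensional real normed space `X` with Haar measure `μ`
(`Config m`), values in a complex Hilbert space `E` (`SpinSpace 3`), a finite family of directions
`v : ι → X` (the `3m` coordinate directions `dir j`).  Base notions `HasWeakDeriv`, `WD`, `WD2` of
`Mollify.lean`, `FSWeak.lean`.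

* `AG.nsq μ f = ∫ ‖f‖²`,  `AG.H1 μ v f G` (`f ∈ L²` with weak gradient `G ∈ L²`), `AG.h1sq`.
* `AG.FormBdd E μ v V a b` : `∫ |V| ‖f‖² ≤ a ∑ ‖G_j‖² + b ‖f‖²` on all `H¹` pairs.
* `AG.IsWeakSolOn μ v U V En f G g` : `(-½Δ + V - En) f = g` in `U`, tested against ALL `H¹` pairs which vanish
  outside `U` (`IsWeakSol` = the case `U = univ`).

OVERVIEW OF THE LAYER (files `AG*.lean`):
`AGForm` (this file: algebra, localisation formula, energy identity) -> `AGAgmon` (weighted estimate) ->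
`AGInv` (difference quotients for an operator which is EXACTLY invariant under a family of translations) ->
`AGReg` (multiplier classes and the main regularity theorem) -> `AGCoul*` (Hardy, Coulomb potentials, exterior
bound, clusters) -> `AGSlice*` (fibres, `W^{3,1}` embedding, pairings) -> `AGMain` (Lemma 3.2).

Each `section` below is ONE LEAF.
-/

open MeasureTheory Filter Topology Set
open scoped ContDiff InnerProductSpace

noncomputable section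

set_option linter.unusedSectionVars false

namespace Claimed.Open.R278.AG

variable {X : Type*} [NormedAddCommGroup X] [NormedSpace ℝ X] [FiniteDimensional ℝ X]
  [MeasurableSpace X] [BorelSpace X] {μ : Measure X} [μ.IsAddHaarMeasure]
  {E : Type*} [NormedAddCommGroup E] [InnerProductSpace ℂ E] [CompleteSpace E]
  {ι : Type*} [Fintype ι] {v : ι → X}

/-! ## Definitions -/

/-- the squared `L²` norm. -/
def nsq (μ : Measure X) (f : X → E) : ℝ := ∫ x, ‖f x‖ ^ 2 ∂μ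

/-- `f ∈ H¹`: `f ∈ L²` and `G j ∈ L²` is the weak derivative of `f` along `v j`. -/
structure H1 (μ : Measure X) (v : ι → X) (f : X → E) (G : ι → X → E) : Prop where
  mem : MemLp f 2 μ
  wd : ∀ j, WD2 μ (v j) f (G j)

/-- the squared `H¹` norm. -/
def h1sq (μ : Measure X) (f : X → E) (G : ι → X → E) : ℝ := nsq μ f + ∑ j, nsq μ (G j)

/-- the derivative of a scalar function along `w`. -/
def dd (w : X) (η : X → ℝ) : X → ℝ := fun x => fderiv ℝ η x w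

/-- the gradient of `η f` given by the Leibniz rule. -/
def mulGrad (v : ι → X) (η : X → ℝ) (f : X → E) (G : ι → X → E) : ι → X → E :=
  fun j x => η x • G j x + dd (v j) η x • f x

/-- `|V|` is form bounded by the kinetic energy on `E`-valued `H¹` pairs. -/
structure FormBdd (E : Type*) [NormedAddCommGroup E] [InnerProductSpace ℂ E] [CompleteSpace E]
    (μ : Measure X) (v : ι → X) (V : X → ℝ) (a b : ℝ) : Prop where
  meas : AEStronglyMeasurable V μ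
  int : ∀ (f : X → E) (G : ι → X → E), H1 μ v f G → Integrable (fun x => |V x| * ‖f x‖ ^ 2) μ
  le : ∀ (f : X → E) (G : ι → X → E), H1 μ v f G →
    ∫ x, |V x| * ‖f x‖ ^ 2 ∂μ ≤ a * ∑ j, nsq μ (G j) + b * nsq μ f

/-- `(-½ ∑_j ∂_j² + V - En) f = g` weakly in `U`: tested against all `H¹` pairs vanishing outside `U`. -/
def IsWeakSolOn (μ : Measure X) (v : ι → X) (U : Set X) (V : X → ℝ) (En : ℝ) (f : X → E)
    (G : ι → X → E) (g : X → E) : Prop :=
  ∀ (Ξ : X → E) (Ξ' : ι → X → E), H1 μ v Ξ Ξ' → (∀ x, x ∉ U → Ξ x = 0) →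
    (1 / 2 : ℂ) * ∑ j, ∫ x, ⟪Ξ' j x, G j x⟫_ℂ ∂μ + ∫ x, ((V x - En : ℝ) : ℂ) * ⟪Ξ x, f x⟫_ℂ ∂μ
      = ∫ x, ⟪Ξ x, g x⟫_ℂ ∂μ

/-- the global version. -/
abbrev IsWeakSol (μ : Measure X) (v : ι → X) (V : X → ℝ) (En : ℝ) (f : X → E)
    (G : ι → X → E) (g : X → E) : Prop := IsWeakSolOn μ v Set.univ V En f G g

/-- the quadratic form `½ ∑ ‖G_j‖² + ∫ V ‖f‖²`. -/
def qform (μ : Measure X) (V : X → ℝ) (f : X → E) (G : ι → X → E) : ℝ :=
  (1 / 2) * ∑ j, nsq μ (G j) + ∫ x, V x * ‖f x‖ ^ 2 ∂μ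

/-! ## LEAF AG-F1: algebra of `nsq`, `H1`, `FormBdd` -/

section F1

theorem nsq_nonneg (f : X → E) : 0 ≤ nsq μ f := integral_nonneg fun _ => sq_nonneg _

theorem h1sq_nonneg (f : X → E) (G : ι → X → E) : 0 ≤ h1sq μ f G :=
  add_nonneg (nsq_nonneg f) (Finset.sum_nonneg fun _ _ => nsq_nonneg _)

theorem nsq_le_h1sq (f : X → E) (G : ι → X → E) : nsq μ f ≤ h1sq μ f G :=
  le_add_of_nonneg_right (Finset.sum_nonneg fun _ _ => nsq_nonneg _)

theorem nsq_grad_le_h1sq (f : X → E) (G : ι → X → E) (j : ι) : nsq μ (G j) ≤ h1sq μ f G := by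
  unfold h1sq
  have h1 : nsq μ (G j) ≤ ∑ j, nsq μ (G j) :=
    Finset.single_le_sum (f := fun j => nsq μ (G j)) (fun i _ => nsq_nonneg _) (Finset.mem_univ j)
  have h2 := nsq_nonneg (μ := μ) f
  linarith

theorem integrable_norm_sq {f : X → E} (hf : MemLp f 2 μ) : Integrable (fun x => ‖f x‖ ^ 2) μ := by
  have h : MemLp f ((2 : ℕ) : ENNReal) μ := by exact_mod_cast hf
  exact h.integrable_norm_pow (by norm_num)

theorem nsq_congr {f f' : X → E} (h : f =ᵐ[μ] f') : nsq μ f = nsq μ f' :=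
  integral_congr_ae (h.mono fun x hx => by simp only [hx])

theorem nsq_add_le {f g : X → E} (hf : MemLp f 2 μ) (hg : MemLp g 2 μ) :
    nsq μ (fun x => f x + g x) ≤ 2 * nsq μ f + 2 * nsq μ g := by
  unfold nsq
  rw [← integral_const_mul, ← integral_const_mul,
    ← integral_add ((integrable_norm_sq hf).const_mul 2) ((integrable_norm_sq hg).const_mul 2)]
  refine integral_mono (integrable_norm_sq (hf.add hg))
    (((integrable_norm_sq hf).const_mul 2).add ((integrable_norm_sq hg).const_mul 2)) fun x => ?_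
  have h1 := norm_add_le (f x) (g x)
  have h2 : ‖f x + g x‖ ^ 2 ≤ (‖f x‖ + ‖g x‖) ^ 2 := pow_le_pow_left₀ (norm_nonneg _) h1 2
  nlinarith [sq_nonneg (‖f x‖ - ‖g x‖)]

theorem nsq_sub_le {f g : X → E} (hf : MemLp f 2 μ) (hg : MemLp g 2 μ) :
    nsq μ (fun x => f x - g x) ≤ 2 * nsq μ f + 2 * nsq μ g := by
  have h := nsq_add_le hf hg.neg
  have h2 : nsq μ (-g) = nsq μ g := by unfold nsq; simp
  rw [h2] at h
  simpa [sub_eq_add_neg] using h

theorem nsq_sum_le {κ : Type*} (s : Finset κ) {f : κ → X → E} (hf : ∀ a ∈ s, MemLp (f a) 2 μ) :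
    nsq μ (fun x => ∑ a ∈ s, f a x) ≤ s.card * ∑ a ∈ s, nsq μ (f a) := by
  unfold nsq
  rw [← integral_finsetSum s fun a ha => integrable_norm_sq (hf a ha), ← integral_const_mul]
  have hs : MemLp (fun x => ∑ a ∈ s, f a x) 2 μ := memLp_finsetSum s hf
  refine integral_mono (integrable_norm_sq hs)
    ((integrable_finsetSum s fun a ha => integrable_norm_sq (hf a ha)).const_mul _) fun x => ?_
  have h1 : ‖∑ a ∈ s, f a x‖ ≤ ∑ a ∈ s, ‖f a x‖ := norm_sum_le _ _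
  calc ‖∑ a ∈ s, f a x‖ ^ 2 ≤ (∑ a ∈ s, ‖f a x‖) ^ 2 := pow_le_pow_left₀ (norm_nonneg _) h1 2
    _ ≤ s.card * ∑ a ∈ s, ‖f a x‖ ^ 2 := sq_sum_le_card_mul_sum_sq

/-- pointwise domination: `‖f‖ ≤ c ‖g‖` a.e. gives `L²` membership and the norm bound. -/
theorem memLp_nsq_of_le {f g : X → E} (hf : AEStronglyMeasurable f μ) (hg : MemLp g 2 μ) {c : ℝ}
    (h : ∀ᵐ x ∂μ, ‖f x‖ ≤ c * ‖g x‖) : MemLp f 2 μ ∧ nsq μ f ≤ c ^ 2 * nsq μ g := by
  have hm : MemLp f 2 μ := hg.of_le_mul hf h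
  refine ⟨hm, ?_⟩
  unfold nsq
  rw [← integral_const_mul]
  refine integral_mono_ae (integrable_norm_sq hm) ((integrable_norm_sq hg).const_mul _) ?_
  filter_upwards [h] with x hx
  calc ‖f x‖ ^ 2 ≤ (c * ‖g x‖) ^ 2 := pow_le_pow_left₀ (norm_nonneg _) hx 2
    _ = c ^ 2 * ‖g x‖ ^ 2 := by ring

theorem toLp_norm_sq {f : X → E} (hf : MemLp f 2 μ) : ‖hf.toLp f‖ ^ 2 = nsq μ f := by
  have h : ⟪hf.toLp f, hf.toLp f⟫_ℂ = ∫ x, ⟪hf.toLp f x, hf.toLp f x⟫_ℂ ∂μ := L2.inner_def _ _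
  have h2 : ∫ x, ⟪hf.toLp f x, hf.toLp f x⟫_ℂ ∂μ = ∫ x, ((‖f x‖ ^ 2 : ℝ) : ℂ) ∂μ := by
    refine integral_congr_ae ?_
    filter_upwards [hf.coeFn_toLp] with x hx
    rw [hx, inner_self_eq_norm_sq_to_K]
    norm_cast
  rw [h2, integral_complex_ofReal, inner_self_eq_norm_sq_to_K] at h
  unfold nsq
  have h3 := congrArg Complex.re h
  rw [Complex.ofReal_re] at h3
  rw [← h3]
  norm_cast

theorem toLp_inner {f g : X → E} (hf : MemLp f 2 μ) (hg : MemLp g 2 μ) :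
    ⟪hf.toLp f, hg.toLp g⟫_ℂ = ∫ x, ⟪f x, g x⟫_ℂ ∂μ := by
  rw [L2.inner_def]
  refine integral_congr_ae ?_
  filter_upwards [hf.coeFn_toLp, hg.coeFn_toLp] with x hx hy
  rw [hx, hy]

/-- Cauchy-Schwarz. -/
theorem norm_integral_inner_le {f g : X → E} (hf : MemLp f 2 μ) (hg : MemLp g 2 μ) :
    Integrable (fun x => ⟪f x, g x⟫_ℂ) μ ∧ ‖∫ x, ⟪f x, g x⟫_ℂ ∂μ‖ ^ 2 ≤ nsq μ f * nsq μ g := by
  constructor
  · have h := L2.integrable_inner (𝕜 := ℂ) (hf.toLp f) (hg.toLp g)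
    refine h.congr ?_
    filter_upwards [hf.coeFn_toLp, hg.coeFn_toLp] with x hx hy
    rw [hx, hy]
  · rw [← toLp_inner hf hg, ← toLp_norm_sq hf, ← toLp_norm_sq hg, ← mul_pow]
    exact pow_le_pow_left₀ (norm_nonneg _) (norm_inner_le_norm _ _) 2

theorem H1.zero : H1 μ v (fun _ => (0 : E)) (fun _ _ => 0) :=
  ⟨MemLp.zero', fun _ => ⟨MemLp.zero', MemLp.zero', fun φ _ _ => by simp⟩⟩

theorem H1.add {f f' : X → E} {G G' : ι → X → E} (h : H1 μ v f G) (h' : H1 μ v f' G') :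
    H1 μ v (fun x => f x + f' x) (fun j x => G j x + G' j x) :=
  ⟨h.mem.add h'.mem, fun j => ⟨h.mem.add h'.mem, (h.wd j).memg.add (h'.wd j).memg,
    ((h.wd j).wd.add (h'.wd j).wd).weak⟩⟩

theorem H1.sub {f f' : X → E} {G G' : ι → X → E} (h : H1 μ v f G) (h' : H1 μ v f' G') :
    H1 μ v (fun x => f x - f' x) (fun j x => G j x - G' j x) :=
  ⟨h.mem.sub h'.mem, fun j => ⟨h.mem.sub h'.mem, (h.wd j).memg.sub (h'.wd j).memg,
    ((h.wd j).wd.sub (h'.wd j).wd).weak⟩⟩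

theorem H1.smul {f : X → E} {G : ι → X → E} (c : ℂ) (h : H1 μ v f G) :
    H1 μ v (fun x => c • f x) (fun j x => c • G j x) :=
  ⟨h.mem.const_smul c, fun j => ⟨h.mem.const_smul c, (h.wd j).memg.const_smul c,
    ((h.wd j).wd.clm ((c • ContinuousLinearMap.id ℂ E).restrictScalars ℝ)).weak⟩⟩

theorem H1.congr_ae {f f' : X → E} {G G' : ι → X → E} (h : H1 μ v f G) (hf : f =ᵐ[μ] f')
    (hG : ∀ j, G j =ᵐ[μ] G' j) : H1 μ v f' G' :=
  ⟨h.mem.ae_eq hf, fun j => ⟨h.mem.ae_eq hf, (h.wd j).memg.ae_eq (hG j),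
    ((h.wd j).wd.congr_ae hf (hG j)).weak⟩⟩

theorem H1.translate {f : X → E} {G : ι → X → E} (h : H1 μ v f G) (a : X) :
    H1 μ v (fun x => f (x + a)) (fun j x => G j (x + a)) :=
  ⟨h.mem.comp_measurePreserving (measurePreserving_add_right μ a), fun j => (h.wd j).translate a⟩

/-- weak derivative of an `H¹` function along a linear combination of the `v j`. -/
theorem H1.wd2_dir {f : X → E} {G : ι → X → E} (h : H1 μ v f G) (c : ι → ℝ) :
    WD2 μ (∑ j, c j • v j) f (fun x => ∑ j, c j • G j x) :=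
  ⟨h.mem, memLp_finsetSum _ fun j _ => (h.wd j).memg.const_smul (c j),
    (WD.sum_dir Finset.univ (h.mem.locallyIntegrable (by norm_num))
      fun j _ => (h.wd j).wd.smul_dir (c j)).weak⟩

/-- bounded smooth multiplier with bounded first derivatives. -/
theorem H1.mul {f : X → E} {G : ι → X → E} (h : H1 μ v f G) {η : X → ℝ} (hη : ContDiff ℝ ∞ η) {B : ℝ}
    (h0 : ∀ x, |η x| ≤ B) (h1 : ∀ j x, |dd (v j) η x| ≤ B) :
    H1 μ v (fun x => η x • f x) (mulGrad v η f G) := by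
  have hη1 : ContDiff ℝ 1 η := hη.of_le (by exact_mod_cast le_top)
  have key : ∀ j, WD2 μ (v j) (fun x => η x • f x) (mulGrad v η f G j) := by
    intro j
    have := (h.wd j).smul_left hη1 h0 (h1 j)
    have e : (fun x => fderiv ℝ η x (v j) • f x + η x • G j x) = mulGrad v η f G j := by
      funext x; simp only [mulGrad, dd]; exact add_comm _ _
    rwa [e] at this
  refine ⟨?_, key⟩
  have hm : AEStronglyMeasurable (fun x => η x • f x) μ :=
    hη.continuous.aestronglyMeasurable.smul h.mem.1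
  refine h.mem.of_le_mul (c := B) hm (Eventually.of_forall fun x => ?_)
  rw [norm_smul, Real.norm_eq_abs]
  exact mul_le_mul_of_nonneg_right (h0 x) (norm_nonneg _)

/-- smooth multiplier, possibly unbounded, when the products are in `L²`. -/
theorem H1.mul_of_memLp {f : X → E} {G : ι → X → E} (h : H1 μ v f G) {η : X → ℝ} (hη : ContDiff ℝ ∞ η)
    (h0 : MemLp (fun x => η x • f x) 2 μ) (h1 : ∀ j, MemLp (mulGrad v η f G j) 2 μ) :
    H1 μ v (fun x => η x • f x) (mulGrad v η f G) := by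
  have hη1 : ContDiff ℝ 1 η := hη.of_le (by exact_mod_cast le_top)
  refine ⟨h0, fun j => ⟨h0, h1 j, ?_⟩⟩
  have := ((h.wd j).wd.smul_left hη1).weak
  have e : (fun x => fderiv ℝ η x (v j) • f x + η x • G j x) = mulGrad v η f G j := by
    funext x; simp only [mulGrad, dd]; exact add_comm _ _
  rwa [e] at this

theorem sum_nsq_nonneg (G : ι → X → E) : 0 ≤ ∑ j, nsq μ (G j) :=
  Finset.sum_nonneg fun _ _ => nsq_nonneg _

theorem FormBdd.mono {V : X → ℝ} {a b a' b' : ℝ} (h : FormBdd E μ v V a b) (ha : a ≤ a') (hb : b ≤ b') :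
    FormBdd E μ v V a' b' :=
  ⟨h.meas, h.int, fun f G hf => (h.le f G hf).trans (add_le_add
    (mul_le_mul_of_nonneg_right ha (sum_nsq_nonneg G)) (mul_le_mul_of_nonneg_right hb (nsq_nonneg f)))⟩

theorem aesm_abs_mul {V : X → ℝ} (hV : AEStronglyMeasurable V μ) {f : X → E} (hf : AEStronglyMeasurable f μ) :
    AEStronglyMeasurable (fun x => |V x| * ‖f x‖ ^ 2) μ :=
  (hV.norm).mul (hf.norm.pow 2)

theorem FormBdd.of_abs_le {V V' : X → ℝ} {a b : ℝ} (h : FormBdd E μ v V a b)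
    (hm : AEStronglyMeasurable V' μ) (hle : ∀ᵐ x ∂μ, |V' x| ≤ |V x|) : FormBdd E μ v V' a b := by
  have hp : ∀ f : X → E, ∀ᵐ x ∂μ, |V' x| * ‖f x‖ ^ 2 ≤ |V x| * ‖f x‖ ^ 2 := fun f =>
    hle.mono fun x hx => mul_le_mul_of_nonneg_right hx (sq_nonneg _)
  have hint : ∀ (f : X → E) (G : ι → X → E), H1 μ v f G → Integrable (fun x => |V' x| * ‖f x‖ ^ 2) μ := by
    intro f G hf
    refine (h.int f G hf).mono' (aesm_abs_mul hm hf.mem.1) ((hp f).mono fun x hx => ?_)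
    rw [Real.norm_eq_abs, abs_of_nonneg (mul_nonneg (abs_nonneg _) (sq_nonneg _))]
    exact hx
  exact ⟨hm, hint, fun f G hf => (integral_mono_ae (hint f G hf) (h.int f G hf) (hp f)).trans (h.le f G hf)⟩

theorem FormBdd.add {V V' : X → ℝ} {a b a' b' : ℝ} (h : FormBdd E μ v V a b) (h' : FormBdd E μ v V' a' b') :
    FormBdd E μ v (fun x => V x + V' x) (a + a') (b + b') := by
  have hp : ∀ (f : X → E) x, |V x + V' x| * ‖f x‖ ^ 2 ≤ |V x| * ‖f x‖ ^ 2 + |V' x| * ‖f x‖ ^ 2 := fun f x => by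
    rw [← add_mul]; exact mul_le_mul_of_nonneg_right (abs_add_le _ _) (sq_nonneg _)
  have hint : ∀ (f : X → E) (G : ι → X → E), H1 μ v f G →
      Integrable (fun x => |V x + V' x| * ‖f x‖ ^ 2) μ := by
    intro f G hf
    refine ((h.int f G hf).add (h'.int f G hf)).mono' (aesm_abs_mul (h.meas.add h'.meas) hf.mem.1)
      (Eventually.of_forall fun x => ?_)
    rw [Real.norm_eq_abs, abs_of_nonneg (mul_nonneg (abs_nonneg _) (sq_nonneg _))]
    exact hp f x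
  refine ⟨h.meas.add h'.meas, hint, fun f G hf => ?_⟩
  calc ∫ x, |V x + V' x| * ‖f x‖ ^ 2 ∂μ ≤ ∫ x, (|V x| * ‖f x‖ ^ 2 + |V' x| * ‖f x‖ ^ 2) ∂μ :=
        integral_mono (hint f G hf) ((h.int f G hf).add (h'.int f G hf)) (hp f)
    _ = ∫ x, |V x| * ‖f x‖ ^ 2 ∂μ + ∫ x, |V' x| * ‖f x‖ ^ 2 ∂μ := integral_add (h.int f G hf) (h'.int f G hf)
    _ ≤ (a * ∑ j, nsq μ (G j) + b * nsq μ f) + (a' * ∑ j, nsq μ (G j) + b' * nsq μ f) :=
        add_le_add (h.le f G hf) (h'.le f G hf)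
    _ = (a + a') * ∑ j, nsq μ (G j) + (b + b') * nsq μ f := by ring

theorem FormBdd.const_mul {V : X → ℝ} {a b : ℝ} (h : FormBdd E μ v V a b) (c : ℝ) :
    FormBdd E μ v (fun x => c * V x) (|c| * a) (|c| * b) := by
  have e : ∀ f : X → E, (fun x => |c * V x| * ‖f x‖ ^ 2) = fun x => |c| * (|V x| * ‖f x‖ ^ 2) := fun f => by
    funext x; rw [abs_mul, mul_assoc]
  refine ⟨h.meas.const_mul c, fun f G hf => ?_, fun f G hf => ?_⟩
  · rw [e]; exact (h.int f G hf).const_mul _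
  · rw [e, integral_const_mul]
    calc |c| * ∫ x, |V x| * ‖f x‖ ^ 2 ∂μ ≤ |c| * (a * ∑ j, nsq μ (G j) + b * nsq μ f) :=
          mul_le_mul_of_nonneg_left (h.le f G hf) (abs_nonneg c)
      _ = |c| * a * ∑ j, nsq μ (G j) + |c| * b * nsq μ f := by ring

theorem FormBdd.of_bounded {V : X → ℝ} (hm : AEStronglyMeasurable V μ) {B : ℝ} (hB : ∀ x, |V x| ≤ B) :
    FormBdd E μ v V 0 B := by
  have hp : ∀ (f : X → E) x, |V x| * ‖f x‖ ^ 2 ≤ B * ‖f x‖ ^ 2 := fun f x =>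
    mul_le_mul_of_nonneg_right (hB x) (sq_nonneg _)
  have hint : ∀ (f : X → E) (G : ι → X → E), H1 μ v f G → Integrable (fun x => |V x| * ‖f x‖ ^ 2) μ := by
    intro f G hf
    refine ((integrable_norm_sq hf.mem).const_mul B).mono' (aesm_abs_mul hm hf.mem.1)
      (Eventually.of_forall fun x => ?_)
    rw [Real.norm_eq_abs, abs_of_nonneg (mul_nonneg (abs_nonneg _) (sq_nonneg _))]
    exact hp f x
  refine ⟨hm, hint, fun f G hf => ?_⟩
  calc ∫ x, |V x| * ‖f x‖ ^ 2 ∂μ ≤ ∫ x, B * ‖f x‖ ^ 2 ∂μ :=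
        integral_mono (hint f G hf) ((integrable_norm_sq hf.mem).const_mul B) (hp f)
    _ = 0 * ∑ j, nsq μ (G j) + B * nsq μ f := by rw [integral_const_mul]; unfold nsq; ring

theorem norm_inner_le_half (a b : E) : ‖⟪a, b⟫_ℂ‖ ≤ (‖a‖ ^ 2 + ‖b‖ ^ 2) / 2 := by
  have h := norm_inner_le_norm (𝕜 := ℂ) a b
  nlinarith [sq_nonneg (‖a‖ - ‖b‖)]

/-- the mixed potential term is integrable and bounded. -/
theorem FormBdd.integrable_inner {V : X → ℝ} {a b : ℝ} (h : FormBdd E μ v V a b) {f f' : X → E}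
    {G G' : ι → X → E} (hf : H1 μ v f G) (hf' : H1 μ v f' G') (c : ℝ) :
    Integrable (fun x => ((V x - c : ℝ) : ℂ) * ⟪f x, f' x⟫_ℂ) μ := by
  have hdom : Integrable (fun x => (|V x| * ‖f x‖ ^ 2 + |V x| * ‖f' x‖ ^ 2)
      + |c| * (‖f x‖ ^ 2 + ‖f' x‖ ^ 2)) μ :=
    ((h.int f G hf).add (h.int f' G' hf')).add
      (((integrable_norm_sq hf.mem).add (integrable_norm_sq hf'.mem)).const_mul _)
  refine hdom.mono' ?_ (Eventually.of_forall fun x => ?_)
  · exact (Complex.continuous_ofReal.comp_aestronglyMeasurable (h.meas.sub aestronglyMeasurable_const)).mul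
      (hf.mem.1.inner hf'.mem.1)
  · rw [norm_mul, Complex.norm_real, Real.norm_eq_abs]
    have h1 := norm_inner_le_half (f x) (f' x)
    have h2 : |V x - c| ≤ |V x| + |c| := abs_sub _ _
    have h3 : 0 ≤ ‖f x‖ ^ 2 + ‖f' x‖ ^ 2 := by positivity
    calc |V x - c| * ‖⟪f x, f' x⟫_ℂ‖ ≤ (|V x| + |c|) * ((‖f x‖ ^ 2 + ‖f' x‖ ^ 2) / 2) :=
          mul_le_mul h2 h1 (norm_nonneg _) (by positivity)
      _ ≤ (|V x| + |c|) * (‖f x‖ ^ 2 + ‖f' x‖ ^ 2) :=
          mul_le_mul_of_nonneg_left (by linarith) (by positivity)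
      _ = _ := by ring

theorem inner_real_smul (r r' : ℝ) (a b : E) : ⟪r • a, r' • b⟫_ℂ = ((r * r' : ℝ) : ℂ) * ⟪a, b⟫_ℂ := by
  rw [← Complex.coe_smul r a, ← Complex.coe_smul r' b, inner_smul_left, inner_smul_right, Complex.conj_ofReal]
  push_cast
  ring

theorem memLp_sqrt_smul {V : X → ℝ} {a b : ℝ} (h : FormBdd E μ v V a b) {f : X → E}
    {G : ι → X → E} (hf : H1 μ v f G) (s : X → ℝ) (hs : AEStronglyMeasurable s μ) (hs1 : ∀ x, s x ^ 2 = |V x|) :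
    MemLp (fun x => s x • f x) 2 μ ∧ nsq μ (fun x => s x • f x) = ∫ x, |V x| * ‖f x‖ ^ 2 ∂μ := by
  have e : (fun x => ‖s x • f x‖ ^ 2) = fun x => |V x| * ‖f x‖ ^ 2 := by
    funext x
    rw [norm_smul, mul_pow, Real.norm_eq_abs, sq_abs, hs1]
  constructor
  · refine (memLp_two_iff_integrable_sq_norm (f := fun x => s x • f x) (hs.smul hf.mem.1)).2 ?_
    rw [e]
    exact h.int f G hf
  · unfold nsq; rw [e]

theorem FormBdd.norm_integral_inner_le {V : X → ℝ} {a b : ℝ} (h : FormBdd E μ v V a b) {f f' : X → E}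
    {G G' : ι → X → E} (hf : H1 μ v f G) (hf' : H1 μ v f' G') :
    ‖∫ x, (V x : ℂ) * ⟪f x, f' x⟫_ℂ ∂μ‖ ^ 2
      ≤ (a * ∑ j, nsq μ (G j) + b * nsq μ f) * (a * ∑ j, nsq μ (G' j) + b * nsq μ f') := by
  have hsq : AEStronglyMeasurable (fun x => √|V x|) μ :=
    Real.continuous_sqrt.comp_aestronglyMeasurable h.meas.norm
  have hsg : AEStronglyMeasurable (fun x => V x / √|V x|) μ :=
    (h.meas.aemeasurable.div hsq.aemeasurable).aestronglyMeasurable
  obtain ⟨m1, n1⟩ := memLp_sqrt_smul h hf (fun x => V x / √|V x|) hsg (fun x => by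
    rw [div_pow, Real.sq_sqrt (abs_nonneg _), ← sq_abs (V x)]
    rcases eq_or_ne (|V x|) 0 with hx | hx
    · simp [hx]
    · field_simp)
  obtain ⟨m2, n2⟩ := memLp_sqrt_smul h hf' (fun x => √|V x|) hsq (fun x => Real.sq_sqrt (abs_nonneg _))
  have key := (AG.norm_integral_inner_le m1 m2).2
  have e : (fun x => ⟪(V x / √|V x|) • f x, √|V x| • f' x⟫_ℂ)
      = fun x => (V x : ℂ) * ⟪f x, f' x⟫_ℂ := by
    funext x
    rw [inner_real_smul]
    congr 2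
    rcases eq_or_ne (V x) 0 with hx | hx
    · simp [hx]
    · have : √|V x| ≠ 0 := (Real.sqrt_pos.2 (abs_pos.2 hx)).ne'
      field_simp
  rw [e, n1, n2] at key
  refine key.trans (mul_le_mul (h.le f G hf) (h.le f' G' hf') ?_ ?_)
  · exact integral_nonneg fun x => mul_nonneg (abs_nonneg _) (sq_nonneg _)
  · exact (integral_nonneg fun x => mul_nonneg (abs_nonneg _) (sq_nonneg _)).trans (h.le f G hf)

/-- coercivity: `q ≥ ¼ ‖∇f‖² - b ‖f‖²`. -/
theorem FormBdd.qform_ge {V : X → ℝ} {b : ℝ} (h : FormBdd E μ v V (1 / 4) b) {f : X → E} {G : ι → X → E}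
    (hf : H1 μ v f G) : (1 / 4) * ∑ j, nsq μ (G j) - b * nsq μ f ≤ qform μ V f G := by
  have h1 := h.le f G hf
  have h2 : -(∫ x, |V x| * ‖f x‖ ^ 2 ∂μ) ≤ ∫ x, V x * ‖f x‖ ^ 2 ∂μ := by
    have h3 := norm_integral_le_integral_norm (μ := μ) (fun x => V x * ‖f x‖ ^ 2)
    have e : (fun x => ‖V x * ‖f x‖ ^ 2‖) = fun x => |V x| * ‖f x‖ ^ 2 := by
      funext x
      rw [Real.norm_eq_abs, abs_mul, abs_of_nonneg (sq_nonneg ‖f x‖)]
    rw [e, Real.norm_eq_abs] at h3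
    exact neg_le_of_abs_le h3
  unfold qform
  linarith

end F1

/-! ## LEAF AG-F2: algebra of weak solutions -/

section F2

theorem IsWeakSolOn.mono {U U' : Set X} {V : X → ℝ} {En : ℝ} {f g : X → E} {G : ι → X → E}
    (h : IsWeakSolOn μ v U V En f G g) (hU : U' ⊆ U) : IsWeakSolOn μ v U' V En f G g :=
  fun Ξ Ξ' hΞ h0 => h Ξ Ξ' hΞ fun x hx => h0 x fun hx' => hx (hU hx')

theorem integrable_inner' {f g : X → E} (hf : MemLp f 2 μ) (hg : MemLp g 2 μ) :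
    Integrable (fun x => ⟪f x, g x⟫_ℂ) μ := (norm_integral_inner_le hf hg).1

theorem IsWeakSolOn.add {U : Set X} {V : X → ℝ} {a b En : ℝ} (hV : FormBdd E μ v V a b) {f f' g g' : X → E}
    {G G' : ι → X → E} (hf : H1 μ v f G) (hf' : H1 μ v f' G') (hg : MemLp g 2 μ) (hg' : MemLp g' 2 μ)
    (h : IsWeakSolOn μ v U V En f G g) (h' : IsWeakSolOn μ v U V En f' G' g') :
    IsWeakSolOn μ v U V En (fun x => f x + f' x) (fun j x => G j x + G' j x) (fun x => g x + g' x) := by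
  intro Ξ Ξ' hΞ h0
  have e1 := h Ξ Ξ' hΞ h0
  have e2 := h' Ξ Ξ' hΞ h0
  simp only [inner_add_right, mul_add]
  rw [integral_add (hV.integrable_inner hΞ hf En) (hV.integrable_inner hΞ hf' En),
    integral_add (integrable_inner' hΞ.mem hg) (integrable_inner' hΞ.mem hg'), ← e1, ← e2]
  have e3 : ∀ j, ∫ x, (⟪Ξ' j x, G j x⟫_ℂ + ⟪Ξ' j x, G' j x⟫_ℂ) ∂μ
      = ∫ x, ⟪Ξ' j x, G j x⟫_ℂ ∂μ + ∫ x, ⟪Ξ' j x, G' j x⟫_ℂ ∂μ := fun j =>
    integral_add (integrable_inner' (hΞ.wd j).memg (hf.wd j).memg)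
      (integrable_inner' (hΞ.wd j).memg (hf'.wd j).memg)
  simp only [e3, Finset.sum_add_distrib]
  ring

theorem IsWeakSolOn.smul {U : Set X} {V : X → ℝ} {En : ℝ} {f g : X → E} {G : ι → X → E} (c : ℂ)
    (h : IsWeakSolOn μ v U V En f G g) :
    IsWeakSolOn μ v U V En (fun x => c • f x) (fun j x => c • G j x) (fun x => c • g x) := by
  intro Ξ Ξ' hΞ h0
  have e1 := h Ξ Ξ' hΞ h0
  simp only [inner_smul_right]
  have e2 : ∀ x, ((V x - En : ℝ) : ℂ) * (c * ⟪Ξ x, f x⟫_ℂ) = c * (((V x - En : ℝ) : ℂ) * ⟪Ξ x, f x⟫_ℂ) :=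
    fun x => by ring
  simp only [e2, integral_const_mul, ← Finset.mul_sum]
  rw [← e1]
  ring

theorem IsWeakSolOn.sub {U : Set X} {V : X → ℝ} {a b En : ℝ} (hV : FormBdd E μ v V a b) {f f' g g' : X → E}
    {G G' : ι → X → E} (hf : H1 μ v f G) (hf' : H1 μ v f' G') (hg : MemLp g 2 μ) (hg' : MemLp g' 2 μ)
    (h : IsWeakSolOn μ v U V En f G g) (h' : IsWeakSolOn μ v U V En f' G' g') :
    IsWeakSolOn μ v U V En (fun x => f x - f' x) (fun j x => G j x - G' j x) (fun x => g x - g' x) := by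
  have h2 := IsWeakSolOn.add hV hf (hf'.smul (-1)) hg (hg'.const_smul (-1 : ℂ)) h (h'.smul (-1))
  simpa [sub_eq_add_neg] using h2

theorem IsWeakSolOn.congr_ae {U : Set X} {V : X → ℝ} {En : ℝ} {f f' g g' : X → E} {G G' : ι → X → E}
    (h : IsWeakSolOn μ v U V En f G g) (hf : f =ᵐ[μ] f') (hG : ∀ j, G j =ᵐ[μ] G' j) (hg : g =ᵐ[μ] g') :
    IsWeakSolOn μ v U V En f' G' g' := by
  intro Ξ Ξ' hΞ h0
  have e1 := h Ξ Ξ' hΞ h0
  have a1 : ∀ j, ∫ x, ⟪Ξ' j x, G' j x⟫_ℂ ∂μ = ∫ x, ⟪Ξ' j x, G j x⟫_ℂ ∂μ := fun j =>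
    integral_congr_ae ((hG j).mono fun x hx => by simp only [hx])
  have a2 : ∫ x, ((V x - En : ℝ) : ℂ) * ⟪Ξ x, f' x⟫_ℂ ∂μ = ∫ x, ((V x - En : ℝ) : ℂ) * ⟪Ξ x, f x⟫_ℂ ∂μ :=
    integral_congr_ae (hf.mono fun x hx => by simp only [hx])
  have a3 : ∫ x, ⟪Ξ x, g' x⟫_ℂ ∂μ = ∫ x, ⟪Ξ x, g x⟫_ℂ ∂μ :=
    integral_congr_ae (hg.mono fun x hx => by simp only [hx])
  simp only [a1, a2, a3]
  exact e1

/-- only the values of the source on `U` matter. -/
theorem IsWeakSolOn.congr_source {U : Set X} {V : X → ℝ} {En : ℝ} {f g g' : X → E} {G : ι → X → E}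
    (h : IsWeakSolOn μ v U V En f G g) (hg : ∀ᵐ x ∂μ, x ∈ U → g x = g' x) :
    IsWeakSolOn μ v U V En f G g' := by
  intro Ξ Ξ' hΞ h0
  rw [h Ξ Ξ' hΞ h0]
  refine integral_congr_ae (hg.mono fun x hx => ?_)
  by_cases hxU : x ∈ U
  · simp only [hx hxU]
  · simp only [h0 x hxU, inner_zero_left]

/-- change of the potential and of the energy: `(H + V' - En') f = g + (V' - V - En' + En) f`, when the
difference `(V' - V) f` is in `L²` on `U`. -/
theorem IsWeakSolOn.change {U : Set X} {V V' : X → ℝ} {a b a' b' En En' : ℝ} (hV : FormBdd E μ v V a b)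
    (hV' : FormBdd E μ v V' a' b') {f g : X → E} {G : ι → X → E} (hf : H1 μ v f G) (hg : MemLp g 2 μ)
    (h : IsWeakSolOn μ v U V En f G g) {r : X → E} (hr : MemLp r 2 μ)
    (hrU : ∀ᵐ x ∂μ, x ∈ U → r x = (V' x - V x - En' + En) • f x) :
    IsWeakSolOn μ v U V' En' f G (fun x => g x + r x) := by
  intro Ξ Ξ' hΞ h0
  have e1 := h Ξ Ξ' hΞ h0
  simp only [inner_add_right]
  rw [integral_add (integrable_inner' hΞ.mem hg) (integrable_inner' hΞ.mem hr), ← e1, add_assoc]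
  congr 1
  rw [← integral_add (hV.integrable_inner hΞ hf En) (integrable_inner' hΞ.mem hr)]
  refine integral_congr_ae (hrU.mono fun x hx => ?_)
  by_cases hxU : x ∈ U
  · simp only [hx hxU]
    rw [← Complex.coe_smul, inner_smul_right]
    push_cast
    ring
  · simp only [h0 x hxU, inner_zero_left, mul_zero, add_zero]

/-- continuity of the `L²` pairing in the first argument, along any filter. -/
theorem tendsto_integral_inner_left {α : Type*} {l : Filter α} {un : α → X → E} {u g : X → E}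
    (hun : ∀ n, MemLp (un n) 2 μ) (hu : MemLp u 2 μ) (hg : MemLp g 2 μ)
    (ht : Tendsto (fun n => nsq μ (fun x => un n x - u x)) l (𝓝 0)) :
    Tendsto (fun n => ∫ x, ⟪un n x, g x⟫_ℂ ∂μ) l (𝓝 (∫ x, ⟪u x, g x⟫_ℂ ∂μ)) := by
  rw [tendsto_iff_norm_sub_tendsto_zero]
  have hb : ∀ n, ‖∫ x, ⟪un n x, g x⟫_ℂ ∂μ - ∫ x, ⟪u x, g x⟫_ℂ ∂μ‖
      ≤ √(nsq μ (fun x => un n x - u x) * nsq μ g) := by
    intro n
    rw [← integral_sub (integrable_inner' (hun n) hg) (integrable_inner' hu hg)]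
    simp only [← inner_sub_left]
    exact Real.le_sqrt_of_sq_le (norm_integral_inner_le ((hun n).sub hu) hg).2
  have hl : Tendsto (fun n => √(nsq μ (fun x => un n x - u x) * nsq μ g)) l (𝓝 0) := by
    simpa using (ht.mul_const (nsq μ g)).sqrt
  exact squeeze_zero (fun n => norm_nonneg _) hb hl

/-- continuity of the `L²` pairing in the second argument. -/
theorem tendsto_integral_inner_right {α : Type*} {l : Filter α} {un : α → X → E} {u g : X → E}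
    (hun : ∀ n, MemLp (un n) 2 μ) (hu : MemLp u 2 μ) (hg : MemLp g 2 μ)
    (ht : Tendsto (fun n => nsq μ (fun x => un n x - u x)) l (𝓝 0)) :
    Tendsto (fun n => ∫ x, ⟪g x, un n x⟫_ℂ ∂μ) l (𝓝 (∫ x, ⟪g x, u x⟫_ℂ ∂μ)) := by
  rw [tendsto_iff_norm_sub_tendsto_zero]
  have hb : ∀ n, ‖∫ x, ⟪g x, un n x⟫_ℂ ∂μ - ∫ x, ⟪g x, u x⟫_ℂ ∂μ‖
      ≤ √(nsq μ g * nsq μ (fun x => un n x - u x)) := by
    intro n
    rw [← integral_sub (integrable_inner' hg (hun n)) (integrable_inner' hg hu)]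
    simp only [← inner_sub_right]
    exact Real.le_sqrt_of_sq_le (norm_integral_inner_le hg ((hun n).sub hu)).2
  have hl : Tendsto (fun n => √(nsq μ g * nsq μ (fun x => un n x - u x))) l (𝓝 0) := by
    simpa using (ht.const_mul (nsq μ g)).sqrt
  exact squeeze_zero (fun n => norm_nonneg _) hb hl

theorem FormBdd.sub_const {V : X → ℝ} {a b : ℝ} (h : FormBdd E μ v V a b) (c : ℝ) :
    FormBdd E μ v (fun x => V x - c) a (b + |c|) := by
  have h2 := h.add (FormBdd.of_bounded (E := E) (μ := μ) (v := v) (V := fun _ => -c) (B := |c|)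
    aestronglyMeasurable_const (fun _ => by rw [abs_neg]))
  simpa [sub_eq_add_neg] using h2

/-- continuity of the potential term with respect to `H¹` convergence of the first argument. -/
theorem FormBdd.tendsto_integral_left {α : Type*} {l : Filter α} {V : X → ℝ} {a b : ℝ} (h : FormBdd E μ v V a b)
    (c : ℝ) {un : α → X → E} {un' : α → ι → X → E} {u f : X → E} {u' G : ι → X → E}
    (hun : ∀ n, H1 μ v (un n) (un' n)) (hu : H1 μ v u u') (hf : H1 μ v f G)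
    (ht : Tendsto (fun n => nsq μ (fun x => un n x - u x)) l (𝓝 0))
    (ht' : ∀ j, Tendsto (fun n => nsq μ (fun x => un' n j x - u' j x)) l (𝓝 0)) :
    Tendsto (fun n => ∫ x, ((V x - c : ℝ) : ℂ) * ⟪un n x, f x⟫_ℂ ∂μ) l
      (𝓝 (∫ x, ((V x - c : ℝ) : ℂ) * ⟪u x, f x⟫_ℂ ∂μ)) := by
  rw [tendsto_iff_norm_sub_tendsto_zero]
  set K : ℝ := a * ∑ j, nsq μ (G j) + (b + |c|) * nsq μ f with hK
  have hb : ∀ n, ‖∫ x, ((V x - c : ℝ) : ℂ) * ⟪un n x, f x⟫_ℂ ∂μ - ∫ x, ((V x - c : ℝ) : ℂ) * ⟪u x, f x⟫_ℂ ∂μ‖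
      ≤ √((a * ∑ j, nsq μ (fun x => un' n j x - u' j x) + (b + |c|) * nsq μ (fun x => un n x - u x)) * K) := by
    intro n
    rw [← integral_sub (h.integrable_inner (hun n) hf c) (h.integrable_inner hu hf c)]
    simp only [← mul_sub, ← inner_sub_left]
    exact Real.le_sqrt_of_sq_le ((FormBdd.sub_const h c).norm_integral_inner_le ((hun n).sub hu) hf)
  have hl : Tendsto (fun n => √((a * ∑ j, nsq μ (fun x => un' n j x - u' j x)
      + (b + |c|) * nsq μ (fun x => un n x - u x)) * K)) l (𝓝 0) := by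
    have h1 : Tendsto (fun n => ∑ j, nsq μ (fun x => un' n j x - u' j x)) l (𝓝 (∑ _j : ι, (0 : ℝ))) :=
      tendsto_finsetSum _ fun j _ => ht' j
    have h2 := (((h1.const_mul a).add (ht.const_mul (b + |c|))).mul_const K)
    simpa using h2.sqrt
  exact squeeze_zero (fun n => norm_nonneg _) hb hl

/-- continuity of the potential term with respect to `H¹` convergence of the second argument. -/
theorem FormBdd.tendsto_integral_right {α : Type*} {l : Filter α} {V : X → ℝ} {a b : ℝ} (h : FormBdd E μ v V a b)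
    (c : ℝ) {un : α → X → E} {un' : α → ι → X → E} {u f : X → E} {u' G : ι → X → E}
    (hun : ∀ n, H1 μ v (un n) (un' n)) (hu : H1 μ v u u') (hf : H1 μ v f G)
    (ht : Tendsto (fun n => nsq μ (fun x => un n x - u x)) l (𝓝 0))
    (ht' : ∀ j, Tendsto (fun n => nsq μ (fun x => un' n j x - u' j x)) l (𝓝 0)) :
    Tendsto (fun n => ∫ x, ((V x - c : ℝ) : ℂ) * ⟪f x, un n x⟫_ℂ ∂μ) l
      (𝓝 (∫ x, ((V x - c : ℝ) : ℂ) * ⟪f x, u x⟫_ℂ ∂μ)) := by
  rw [tendsto_iff_norm_sub_tendsto_zero]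
  set K : ℝ := a * ∑ j, nsq μ (G j) + (b + |c|) * nsq μ f with hK
  have hb : ∀ n, ‖∫ x, ((V x - c : ℝ) : ℂ) * ⟪f x, un n x⟫_ℂ ∂μ - ∫ x, ((V x - c : ℝ) : ℂ) * ⟪f x, u x⟫_ℂ ∂μ‖
      ≤ √(K * (a * ∑ j, nsq μ (fun x => un' n j x - u' j x) + (b + |c|) * nsq μ (fun x => un n x - u x))) := by
    intro n
    rw [← integral_sub (h.integrable_inner hf (hun n) c) (h.integrable_inner hf hu c)]
    simp only [← mul_sub, ← inner_sub_right]
    exact Real.le_sqrt_of_sq_le ((FormBdd.sub_const h c).norm_integral_inner_le hf ((hun n).sub hu))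
  have hl : Tendsto (fun n => √(K * (a * ∑ j, nsq μ (fun x => un' n j x - u' j x)
      + (b + |c|) * nsq μ (fun x => un n x - u x)))) l (𝓝 0) := by
    have h1 : Tendsto (fun n => ∑ j, nsq μ (fun x => un' n j x - u' j x)) l (𝓝 (∑ _j : ι, (0 : ℝ))) :=
      tendsto_finsetSum _ fun j _ => ht' j
    have h2 := (((h1.const_mul a).add (ht.const_mul (b + |c|))).const_mul K)
    simpa using h2.sqrt
  exact squeeze_zero (fun n => norm_nonneg _) hb hl

/-- a `C¹` function with compact support is an `H¹` pair with its classical derivatives. -/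
theorem h1_of_contDiff {u : X → E} (hu : ContDiff ℝ 1 u) (hc : HasCompactSupport u) :
    H1 μ v u (fun j x => fderiv ℝ u x (v j)) := by
  have hm : MemLp u 2 μ := hu.continuous.memLp_of_hasCompactSupport hc
  refine ⟨hm, fun j => ⟨hm, ?_, (HasWeakDeriv.of_contDiff hu (v j)).weak⟩⟩
  have hcont : Continuous fun x => fderiv ℝ u x (v j) :=
    (hu.continuous_fderiv (by norm_num)).clm_apply continuous_const
  exact hcont.memLp_of_hasCompactSupport (hc.fderiv_apply (𝕜 := ℝ) (v j))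

/-- It is enough to test with smooth compactly supported functions (global version).
Density of `C¹_c` in `H¹` (`exists_seq_contDiff_approx`; mollify once more to reach `C^∞`, or weaken the hypothesis
to `C¹` tests in your own copy), continuity of the three terms in the `H¹` norm of `Ξ`
(`norm_integral_inner_le`, `FormBdd.norm_integral_inner_le`). -/
theorem isWeakSol_of_smooth_tests {V : X → ℝ} {a b En : ℝ} (hV : FormBdd E μ v V a b) {f g : X → E}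
    {G : ι → X → E} (hf : H1 μ v f G) (hg : MemLp g 2 μ)
    (h : ∀ Ξ : X → E, ContDiff ℝ 1 Ξ → HasCompactSupport Ξ →
      (1 / 2 : ℂ) * ∑ j, ∫ x, ⟪fderiv ℝ Ξ x (v j), G j x⟫_ℂ ∂μ
        + ∫ x, ((V x - En : ℝ) : ℂ) * ⟪Ξ x, f x⟫_ℂ ∂μ = ∫ x, ⟪Ξ x, g x⟫_ℂ ∂μ) :
    IsWeakSol μ v V En f G g := by
  intro Ξ Ξ' hΞ _
  obtain ⟨u, hu1, hu2, hu3, hu4⟩ := exists_seq_contDiff_approx hΞ.wd hΞ.mem
  have hH : ∀ n, H1 μ v (u n) (fun j x => fderiv ℝ (u n) x (v j)) := fun n => h1_of_contDiff (hu1 n) (hu2 n)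
  have t1 : ∀ j, Tendsto (fun n => ∫ x, ⟪fderiv ℝ (u n) x (v j), G j x⟫_ℂ ∂μ) atTop
      (𝓝 (∫ x, ⟪Ξ' j x, G j x⟫_ℂ ∂μ)) := fun j =>
    tendsto_integral_inner_left (fun n => ((hH n).wd j).memg) (hΞ.wd j).memg (hf.wd j).memg (hu4 j)
  have t2 := FormBdd.tendsto_integral_left hV En hH hΞ hf hu3 hu4
  have t3 := tendsto_integral_inner_left (fun n => (hH n).mem) hΞ.mem hg hu3
  have t4 := ((tendsto_finsetSum Finset.univ fun j _ => t1 j).const_mul (1 / 2 : ℂ)).add t2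
  refine tendsto_nhds_unique t4 ?_
  refine t3.congr fun n => ?_
  exact (h (u n) (hu1 n) (hu2 n)).symm

end F2

/-! ## LEAF AG-F3: the localisation formula and the energy (IMS / Agmon) identity -/

section F3

theorem contDiff_dd {η : X → ℝ} (hη : ContDiff ℝ ∞ η) (u : X) : ContDiff ℝ ∞ (dd u η) :=
  (hη.fderiv_right (m := ∞) (by simp)).clm_apply contDiff_const

theorem abs_le_iteratedFDeriv_zero (η : X → ℝ) (x : X) : |η x| = ‖iteratedFDeriv ℝ 0 η x‖ := by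
  rw [norm_iteratedFDeriv_zero, Real.norm_eq_abs]

theorem abs_dd_le_norm (η : X → ℝ) (u x : X) : |dd u η x| ≤ ‖iteratedFDeriv ℝ 1 η x‖ * ‖u‖ := by
  rw [norm_iteratedFDeriv_one, ← Real.norm_eq_abs]
  exact (fderiv ℝ η x).le_opNorm u

theorem abs_dd_dd_le {η : X → ℝ} (hη : ContDiff ℝ ∞ η) (u u' x : X) :
    |dd u (dd u' η) x| ≤ ‖iteratedFDeriv ℝ 2 η x‖ * ‖u‖ * ‖u'‖ := by
  have h1 : DifferentiableAt ℝ (fderiv ℝ η) x :=
    ((hη.fderiv_right (m := ∞) (by simp)).differentiable (by simp)).differentiableAt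
  have h2 : dd u (dd u' η) x = fderiv ℝ (fderiv ℝ η) x u u' := by
    unfold dd
    rw [fderiv_clm_apply h1 (differentiableAt_const _)]
    simp
  have h3 : ‖iteratedFDeriv ℝ 2 η x‖ = ‖fderiv ℝ (fderiv ℝ η) x‖ := by
    rw [← norm_iteratedFDeriv_one, norm_iteratedFDeriv_fderiv]
  rw [h2, h3, ← Real.norm_eq_abs]
  exact ((fderiv ℝ (fderiv ℝ η) x u).le_opNorm u').trans
    (mul_le_mul_of_nonneg_right ((fderiv ℝ (fderiv ℝ η) x).le_opNorm u) (norm_nonneg _))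

theorem memLp_smul_of_bdd {η : X → ℝ} (hc : Continuous η) {B : ℝ} (hb : ∀ x, |η x| ≤ B) {f : X → E}
    (hf : MemLp f 2 μ) : MemLp (fun x => η x • f x) 2 μ := by
  refine hf.of_le_mul (c := B) (hc.aestronglyMeasurable.smul hf.1) (Eventually.of_forall fun x => ?_)
  rw [norm_smul, Real.norm_eq_abs]
  exact mul_le_mul_of_nonneg_right (hb x) (norm_nonneg _)

theorem inner_real_smul_left (r : ℝ) (a b : E) : ⟪r • a, b⟫_ℂ = (r : ℂ) * ⟪a, b⟫_ℂ := by
  rw [← Complex.coe_smul r a, inner_smul_left, Complex.conj_ofReal]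

theorem inner_real_smul_right (r : ℝ) (a b : E) : ⟪a, r • b⟫_ℂ = (r : ℂ) * ⟪a, b⟫_ℂ := by
  rw [← Complex.coe_smul r b, inner_smul_right]

/-- common bounds for a multiplier and its first two derivatives along the `v j`. -/
theorem exists_dd_bounds (v : ι → X) {η : X → ℝ} (hη : ContDiff ℝ ∞ η) {B : ℝ}
    (hB : ∀ i ≤ 2, ∀ x, ‖iteratedFDeriv ℝ i η x‖ ≤ B) :
    ∃ B1 : ℝ, B ≤ B1 ∧ (∀ x, |η x| ≤ B1) ∧ (∀ j x, |dd (v j) η x| ≤ B1) ∧
      ∀ j x, |dd (v j) (dd (v j) η) x| ≤ B1 := by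
  have hB0 : 0 ≤ B := (norm_nonneg _).trans (hB 0 (by norm_num) 0)
  set s : ℝ := ∑ j, ‖v j‖ with hs
  have hsj : ∀ j, ‖v j‖ ≤ s := fun j =>
    Finset.single_le_sum (f := fun j => ‖v j‖) (fun i _ => norm_nonneg _) (Finset.mem_univ j)
  have hs0 : 0 ≤ s := Finset.sum_nonneg fun _ _ => norm_nonneg _
  have h1 : B ≤ B * (1 + s) ^ 2 := by nlinarith [mul_nonneg hB0 hs0, mul_nonneg hB0 (sq_nonneg s)]
  refine ⟨B * (1 + s) ^ 2, h1, fun x => ?_, fun j x => ?_, fun j x => ?_⟩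
  · rw [abs_le_iteratedFDeriv_zero]; exact (hB 0 (by norm_num) x).trans h1
  · refine (abs_dd_le_norm η (v j) x).trans ?_
    have h2 : ‖iteratedFDeriv ℝ 1 η x‖ * ‖v j‖ ≤ B * s :=
      mul_le_mul (hB 1 (by norm_num) x) (hsj j) (norm_nonneg _) hB0
    nlinarith [mul_nonneg hB0 hs0, mul_nonneg hB0 (sq_nonneg s)]
  · refine (abs_dd_dd_le hη (v j) (v j) x).trans ?_
    have h2 : ‖iteratedFDeriv ℝ 2 η x‖ * ‖v j‖ ≤ B * s :=
      mul_le_mul (hB 2 le_rfl x) (hsj j) (norm_nonneg _) hB0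
    have h3 : ‖iteratedFDeriv ℝ 2 η x‖ * ‖v j‖ * ‖v j‖ ≤ B * s * s :=
      mul_le_mul h2 (hsj j) (norm_nonneg _) (mul_nonneg hB0 hs0)
    nlinarith [mul_nonneg hB0 hs0, mul_nonneg hB0 (sq_nonneg s)]

/-- **Localisation.**  Let `(H_V - En) f = g` in `U`, `η` smooth and bounded with two bounded derivatives,
`tsupport η ∩ U' ⊆ U`, and `V = Vi + Vc` on `tsupport η ∩ U'` with `Vc` bounded and continuous.  Then in `U'` (take `U' = univ`
for a global equation)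
`(H_{Vi} - En)(η f) = η g - (Vc η) f - ½ ∑_j (∂_j² η) f - ∑_j (∂_j η) G_j`.

Proof: for a test pair `(Ξ, Ξ')` vanishing outside `U'` use `(η Ξ, mulGrad η Ξ Ξ')` (it vanishes outside `U`) in the equation
of `f`: `½ ∑ ⟨η Ξ'_j + η_j Ξ, G_j⟩ + ⟨(V - En) η Ξ, f⟩ = ⟨η Ξ, g⟩`.  Hence
`½ ∑ ⟨Ξ'_j, η G_j + η_j f⟩ + ⟨(Vi - En) Ξ, η f⟩ = ⟨Ξ, η g⟩ - ⟨Ξ, Vc η f⟩ + ½ ∑ (⟨Ξ'_j, η_j f⟩ - ⟨Ξ, η_j G_j⟩)` and
`⟨Ξ'_j, η_j f⟩ = - ⟨Ξ, η_jj f + η_j G_j⟩` by `WD2.integral_inner` applied to `Ξ` and `η_j f`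
(`WD2.smul_left`). -/
theorem IsWeakSolOn.localise {U U' : Set X} {V Vi Vc : X → ℝ} {a b a' b' En : ℝ} (hV : FormBdd E μ v V a b)
    (hVi : FormBdd E μ v Vi a' b') {f g : X → E} {G : ι → X → E} (hf : H1 μ v f G) (hg : MemLp g 2 μ)
    (hs : IsWeakSolOn μ v U V En f G g) {η : X → ℝ} (hη : ContDiff ℝ ∞ η) {B : ℝ}
    (hB : ∀ i ≤ 2, ∀ x, ‖iteratedFDeriv ℝ i η x‖ ≤ B) (hsupp : tsupport η ∩ U' ⊆ U)
    (hVc : Continuous Vc) (hVcb : ∀ x, |Vc x| ≤ B) (hsplit : ∀ x ∈ tsupport η ∩ U', V x = Vi x + Vc x) :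
    IsWeakSolOn μ v U' Vi En (fun x => η x • f x) (mulGrad v η f G)
      (fun x => η x • g x - (Vc x * η x) • f x - (1 / 2 : ℝ) • ∑ j, dd (v j) (dd (v j) η) x • f x
        - ∑ j, dd (v j) η x • G j x) := by
  intro Ξ Ξ' hΞ h0
  obtain ⟨B1, hBB, b0, b1, b2⟩ := exists_dd_bounds v hη hB
  have hc1 : ∀ j, ContDiff ℝ ∞ (dd (v j) η) := fun j => contDiff_dd hη (v j)
  have hc2 : ∀ j, ContDiff ℝ ∞ (dd (v j) (dd (v j) η)) := fun j => contDiff_dd (hc1 j) (v j)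
  have hηΞ : H1 μ v (fun x => η x • Ξ x) (mulGrad v η Ξ Ξ') := hΞ.mul hη b0 b1
  have hηf : H1 μ v (fun x => η x • f x) (mulGrad v η f G) := hf.mul hη b0 b1
  have hz : ∀ x, x ∉ tsupport η ∩ U' → η x = 0 ∨ Ξ x = 0 := by
    intro x hx
    by_cases hxU : x ∈ U'
    · left
      exact image_eq_zero_of_notMem_tsupport fun hx' => hx ⟨hx', hxU⟩
    · right; exact h0 x hxU
  have hvan : ∀ x, x ∉ U → η x • Ξ x = 0 := by
    intro x hx
    rcases hz x (fun hx' => hx (hsupp hx')) with h | h <;> simp [h]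
  have E0 := hs _ _ hηΞ hvan
  have m1 : ∀ j, MemLp (fun x => η x • G j x) 2 μ := fun j => memLp_smul_of_bdd hη.continuous b0 (hf.wd j).memg
  have m2 : ∀ j, MemLp (fun x => dd (v j) η x • f x) 2 μ := fun j =>
    memLp_smul_of_bdd (hc1 j).continuous (b1 j) hf.mem
  have m3 : ∀ j, MemLp (fun x => dd (v j) η x • G j x) 2 μ := fun j =>
    memLp_smul_of_bdd (hc1 j).continuous (b1 j) (hf.wd j).memg
  have m4 : ∀ j, MemLp (fun x => dd (v j) (dd (v j) η) x • f x) 2 μ := fun j =>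
    memLp_smul_of_bdd (hc2 j).continuous (b2 j) hf.mem
  have m5 : MemLp (fun x => η x • g x) 2 μ := memLp_smul_of_bdd hη.continuous b0 hg
  have m6 : MemLp (fun x => (Vc x * η x) • f x) 2 μ := by
    refine memLp_smul_of_bdd (η := fun x => Vc x * η x) (B := B * B1) (hVc.mul hη.continuous)
      (fun x => ?_) hf.mem
    rw [abs_mul]
    exact mul_le_mul (hVcb x) (b0 x) (abs_nonneg _) ((abs_nonneg _).trans (hVcb x))
  have ibp : ∀ j, ∫ x, ⟪Ξ' j x, dd (v j) η x • f x⟫_ℂ ∂μ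
      = -(∫ x, ⟪Ξ x, dd (v j) (dd (v j) η) x • f x⟫_ℂ ∂μ + ∫ x, ⟪Ξ x, dd (v j) η x • G j x⟫_ℂ ∂μ) := by
    intro j
    have hw := (hf.wd j).smul_left (χ := dd (v j) η) ((hc1 j).of_le (by exact_mod_cast le_top)) (b1 j) (b2 j)
    rw [WD2.integral_inner (𝕜 := ℂ) (hΞ.wd j) hw]
    simp only [inner_add_right]
    exact congrArg Neg.neg (integral_add (integrable_inner' hΞ.mem (m4 j)) (integrable_inner' hΞ.mem (m3 j)))
  have L1 : ∀ j, ∫ x, ⟪Ξ' j x, mulGrad v η f G j x⟫_ℂ ∂μ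
      = ∫ x, ⟪Ξ' j x, η x • G j x⟫_ℂ ∂μ + ∫ x, ⟪Ξ' j x, dd (v j) η x • f x⟫_ℂ ∂μ := by
    intro j
    simp only [mulGrad, inner_add_right]
    exact integral_add (integrable_inner' (hΞ.wd j).memg (m1 j)) (integrable_inner' (hΞ.wd j).memg (m2 j))
  have L2 : ∀ j, ∫ x, ⟪mulGrad v η Ξ Ξ' j x, G j x⟫_ℂ ∂μ
      = ∫ x, ⟪Ξ' j x, η x • G j x⟫_ℂ ∂μ + ∫ x, ⟪Ξ x, dd (v j) η x • G j x⟫_ℂ ∂μ := by
    intro j
    rw [← integral_add (integrable_inner' (hΞ.wd j).memg (m1 j)) (integrable_inner' hΞ.mem (m3 j))]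
    refine integral_congr_ae (Eventually.of_forall fun x => ?_)
    simp only [mulGrad, inner_add_left, inner_real_smul_left, inner_real_smul_right]
  have L3 : ∫ x, ((V x - En : ℝ) : ℂ) * ⟪η x • Ξ x, f x⟫_ℂ ∂μ
      = ∫ x, ((Vi x - En : ℝ) : ℂ) * ⟪Ξ x, η x • f x⟫_ℂ ∂μ + ∫ x, ⟪Ξ x, (Vc x * η x) • f x⟫_ℂ ∂μ := by
    rw [← integral_add (hVi.integrable_inner hΞ hηf En) (integrable_inner' hΞ.mem m6)]
    refine integral_congr_ae (Eventually.of_forall fun x => ?_)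
    simp only [inner_real_smul_left, inner_real_smul_right]
    by_cases hx : x ∈ tsupport η ∩ U'
    · rw [hsplit x hx]; push_cast; ring
    · rcases hz x hx with h | h <;> simp [h]
  have L4 : ∫ x, ⟪η x • Ξ x, g x⟫_ℂ ∂μ = ∫ x, ⟪Ξ x, η x • g x⟫_ℂ ∂μ := by
    refine integral_congr_ae (Eventually.of_forall fun x => ?_)
    simp only [inner_real_smul_left, inner_real_smul_right]
  have i4 : Integrable (fun x => ∑ j, ⟪Ξ x, dd (v j) (dd (v j) η) x • f x⟫_ℂ) μ :=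
    integrable_finsetSum _ fun j _ => integrable_inner' hΞ.mem (m4 j)
  have i3 : Integrable (fun x => ∑ j, ⟪Ξ x, dd (v j) η x • G j x⟫_ℂ) μ :=
    integrable_finsetSum _ fun j _ => integrable_inner' hΞ.mem (m3 j)
  have R1 : ∫ x, ⟪Ξ x, η x • g x - (Vc x * η x) • f x - (1 / 2 : ℝ) • ∑ j, dd (v j) (dd (v j) η) x • f x
        - ∑ j, dd (v j) η x • G j x⟫_ℂ ∂μ
      = ∫ x, ⟪Ξ x, η x • g x⟫_ℂ ∂μ - ∫ x, ⟪Ξ x, (Vc x * η x) • f x⟫_ℂ ∂μ
        - (1 / 2 : ℂ) * ∑ j, ∫ x, ⟪Ξ x, dd (v j) (dd (v j) η) x • f x⟫_ℂ ∂μ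
        - ∑ j, ∫ x, ⟪Ξ x, dd (v j) η x • G j x⟫_ℂ ∂μ := by
    have iA := integrable_inner' hΞ.mem m5
    have iB := integrable_inner' hΞ.mem m6
    have iAB : Integrable (fun x => ⟪Ξ x, η x • g x⟫_ℂ - ⟪Ξ x, (Vc x * η x) • f x⟫_ℂ) μ := iA.sub iB
    have iC : Integrable (fun x => (1 / 2 : ℂ) * ∑ j, ⟪Ξ x, dd (v j) (dd (v j) η) x • f x⟫_ℂ) μ :=
      i4.const_mul _
    have iABC : Integrable (fun x => ⟪Ξ x, η x • g x⟫_ℂ - ⟪Ξ x, (Vc x * η x) • f x⟫_ℂ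
        - (1 / 2 : ℂ) * ∑ j, ⟪Ξ x, dd (v j) (dd (v j) η) x • f x⟫_ℂ) μ := iAB.sub iC
    have R0 : (fun x => ⟪Ξ x, η x • g x - (Vc x * η x) • f x
          - (1 / 2 : ℝ) • ∑ j, dd (v j) (dd (v j) η) x • f x - ∑ j, dd (v j) η x • G j x⟫_ℂ)
        = fun x => ⟪Ξ x, η x • g x⟫_ℂ - ⟪Ξ x, (Vc x * η x) • f x⟫_ℂ
          - (1 / 2 : ℂ) * ∑ j, ⟪Ξ x, dd (v j) (dd (v j) η) x • f x⟫_ℂ
          - ∑ j, ⟪Ξ x, dd (v j) η x • G j x⟫_ℂ := by
      funext x
      simp only [inner_sub_right, inner_real_smul_right (1 / 2 : ℝ), inner_sum]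
      push_cast
      ring
    rw [R0, integral_sub iABC i3, integral_sub iAB iC, integral_sub iA iB, integral_const_mul,
      integral_finsetSum _ fun j _ => integrable_inner' hΞ.mem (m4 j),
      integral_finsetSum _ fun j _ => integrable_inner' hΞ.mem (m3 j)]
  rw [R1]
  simp only [L1, ibp]
  simp only [L2, L3, L4] at E0
  simp only [Finset.sum_add_distrib, Finset.sum_neg_distrib] at E0 ⊢
  linear_combination E0

theorem FormBdd.integrable_mul {V : X → ℝ} {a b : ℝ} (h : FormBdd E μ v V a b) {f : X → E} {G : ι → X → E}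
    (hf : H1 μ v f G) : Integrable (fun x => V x * ‖f x‖ ^ 2) μ := by
  refine (h.int f G hf).mono' (h.meas.mul (hf.mem.1.norm.pow 2)) (Eventually.of_forall fun x => ?_)
  rw [Real.norm_eq_abs, abs_mul, abs_of_nonneg (sq_nonneg ‖f x‖)]

theorem re_integral {F : X → ℂ} (hF : Integrable F μ) : (∫ x, F x ∂μ).re = ∫ x, (F x).re ∂μ :=
  (integral_re hF).symm

theorem re_inner_energy (s r : ℝ) (a c : E) :
    (⟪s • (s • c + r • a) + r • (s • a), c⟫_ℂ).re = ‖s • c + r • a‖ ^ 2 - r ^ 2 * ‖a‖ ^ 2 := by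
  have h1 : (⟪c, a⟫_ℂ).re = (⟪a, c⟫_ℂ).re := inner_re_symm (𝕜 := ℂ) c a
  have h2 : (⟪c, c⟫_ℂ).re = ‖c‖ ^ 2 := by
    rw [inner_self_eq_norm_sq_to_K]; norm_cast
  rw [@norm_add_sq ℂ]
  simp only [inner_add_left, inner_real_smul_left, inner_real_smul_right, norm_smul, Real.norm_eq_abs, mul_pow,
    sq_abs, Complex.add_re, Complex.re_ofReal_mul, RCLike.re_eq_complex_re, h1, h2]
  ring

/-- **Energy identity** (IMS localisation formula = Agmon's identity): test with `ξ² f`.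
`½ ∑ ‖∂_j(ξ f)‖² + ∫ (V - En) ξ² ‖f‖² = ½ ∑ ∫ (∂_j ξ)² ‖f‖² + Re ∫ ξ² ⟨f, g⟩`.
(Pointwise: `Re ⟨∂_j(ξ² f), G_j⟩ = ‖ξ G_j + ξ_j f‖² - ξ_j² ‖f‖²`; take real parts in the weak equation.) -/
theorem IsWeakSolOn.energy_identity {U : Set X} {V : X → ℝ} {a b En : ℝ} (hV : FormBdd E μ v V a b)
    {f g : X → E} {G : ι → X → E} (hf : H1 μ v f G) (hg : MemLp g 2 μ)
    (hs : IsWeakSolOn μ v U V En f G g) {ξ : X → ℝ} (hξ : ContDiff ℝ ∞ ξ) {B : ℝ}
    (h0 : ∀ x, |ξ x| ≤ B) (h1 : ∀ j x, |dd (v j) ξ x| ≤ B) (hsupp : tsupport ξ ⊆ U) :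
    qform μ V (fun x => ξ x • f x) (mulGrad v ξ f G) - En * nsq μ (fun x => ξ x • f x)
      = (1 / 2) * ∑ j, ∫ x, dd (v j) ξ x ^ 2 * ‖f x‖ ^ 2 ∂μ + ∫ x, ξ x ^ 2 * (⟪f x, g x⟫_ℂ).re ∂μ := by
  have hw : H1 μ v (fun x => ξ x • f x) (mulGrad v ξ f G) := hf.mul hξ h0 h1
  have hww : H1 μ v (fun x => ξ x • (ξ x • f x)) (mulGrad v ξ (fun x => ξ x • f x) (mulGrad v ξ f G)) :=
    hw.mul hξ h0 h1
  have hvan : ∀ x, x ∉ U → ξ x • (ξ x • f x) = 0 := by
    intro x hx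
    rw [image_eq_zero_of_notMem_tsupport fun hx' => hx (hsupp hx'), zero_smul]
  have E0 := congrArg Complex.re (hs _ _ hww hvan)
  have m2 : ∀ j, MemLp (fun x => dd (v j) ξ x • f x) 2 μ := fun j =>
    memLp_smul_of_bdd (contDiff_dd hξ (v j)).continuous (h1 j) hf.mem
  have i2 : ∀ j, Integrable (fun x => dd (v j) ξ x ^ 2 * ‖f x‖ ^ 2) μ := by
    intro j
    have := integrable_norm_sq (m2 j)
    simpa only [norm_smul, Real.norm_eq_abs, mul_pow, sq_abs] using this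
  have T1 : ∀ j, (∫ x, ⟪mulGrad v ξ (fun x => ξ x • f x) (mulGrad v ξ f G) j x, G j x⟫_ℂ ∂μ).re
      = nsq μ (mulGrad v ξ f G j) - ∫ x, dd (v j) ξ x ^ 2 * ‖f x‖ ^ 2 ∂μ := by
    intro j
    rw [re_integral (integrable_inner' (hww.wd j).memg (hf.wd j).memg)]
    unfold nsq
    rw [← integral_sub (integrable_norm_sq (hw.wd j).memg) (i2 j)]
    refine integral_congr_ae (Eventually.of_forall fun x => ?_)
    exact re_inner_energy (ξ x) (dd (v j) ξ x) (f x) (G j x)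
  have T2 : (∫ x, ((V x - En : ℝ) : ℂ) * ⟪ξ x • (ξ x • f x), f x⟫_ℂ ∂μ).re
      = ∫ x, V x * ‖ξ x • f x‖ ^ 2 ∂μ - En * nsq μ (fun x => ξ x • f x) := by
    rw [re_integral (hV.integrable_inner hww hf En)]
    unfold nsq
    rw [← integral_const_mul, ← integral_sub (FormBdd.integrable_mul hV hw) ((integrable_norm_sq hw.mem).const_mul En)]
    refine integral_congr_ae (Eventually.of_forall fun x => ?_)
    have h2 : (⟪f x, f x⟫_ℂ).re = ‖f x‖ ^ 2 := by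
      rw [inner_self_eq_norm_sq_to_K]; norm_cast
    simp only [inner_real_smul_left, Complex.re_ofReal_mul, h2, norm_smul, Real.norm_eq_abs, mul_pow, sq_abs]
    ring
  have T3 : (∫ x, ⟪ξ x • (ξ x • f x), g x⟫_ℂ ∂μ).re = ∫ x, ξ x ^ 2 * (⟪f x, g x⟫_ℂ).re ∂μ := by
    rw [re_integral (integrable_inner' hww.mem hg)]
    refine integral_congr_ae (Eventually.of_forall fun x => ?_)
    simp only [inner_real_smul_left, Complex.re_ofReal_mul]
    ring
  rw [Complex.add_re, T2, T3] at E0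
  have T0 : ((1 / 2 : ℂ) * ∑ j, ∫ x, ⟪mulGrad v ξ (fun x => ξ x • f x) (mulGrad v ξ f G) j x, G j x⟫_ℂ ∂μ).re
      = (1 / 2) * ∑ j, (nsq μ (mulGrad v ξ f G j) - ∫ x, dd (v j) ξ x ^ 2 * ‖f x‖ ^ 2 ∂μ) := by
    have : ((1 / 2 : ℂ)) = ((1 / 2 : ℝ) : ℂ) := by push_cast; ring
    rw [this, Complex.re_ofReal_mul, Complex.re_sum]
    simp only [T1]
  rw [T0, Finset.sum_sub_distrib] at E0
  unfold qform
  linarith

theorem norm_sq_mulGrad (s r : ℝ) (a c : E) :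
    ‖s • c + r • a‖ ^ 2 = s ^ 2 * ‖c‖ ^ 2 + 2 * (s * r) * (⟪c, a⟫_ℂ).re + r ^ 2 * ‖a‖ ^ 2 := by
  rw [@norm_add_sq ℂ]
  simp only [inner_real_smul_left, inner_real_smul_right, norm_smul, Real.norm_eq_abs, mul_pow,
    sq_abs, Complex.re_ofReal_mul, RCLike.re_eq_complex_re]
  ring

/-- **IMS localisation formula** for a quadratic partition of unity `∑_i J_i² = 1`:
`q(f) = ∑_i q(J_i f) - ½ ∑_i ∑_j ∫ (∂_j J_i)² ‖f‖²`.
(Pointwise `∑_i ‖J_i G_j + (∂_j J_i) f‖² = ‖G_j‖² + ∑_i (∂_j J_i)² ‖f‖²` because `∑_i J_i ∂_j J_i = 0`.) -/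
theorem qform_ims {V : X → ℝ} {a b : ℝ} (hV : FormBdd E μ v V a b) {f : X → E} {G : ι → X → E}
    (hf : H1 μ v f G) {κ : Type*} [Fintype κ] {J : κ → X → ℝ} (hJ : ∀ i, ContDiff ℝ ∞ (J i)) {B : ℝ}
    (h1 : ∀ i j x, |dd (v j) (J i) x| ≤ B) (hsum : ∀ x, ∑ i, J i x ^ 2 = 1) :
    qform μ V f G = ∑ i, qform μ V (fun x => J i x • f x) (mulGrad v (J i) f G)
      - (1 / 2) * ∑ i, ∑ j, ∫ x, dd (v j) (J i) x ^ 2 * ‖f x‖ ^ 2 ∂μ := by
  have hJ1 : ∀ i x, |J i x| ≤ 1 := by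
    intro i x
    rw [← sq_le_one_iff_abs_le_one, ← hsum x]
    exact Finset.single_le_sum (f := fun i => J i x ^ 2) (fun _ _ => sq_nonneg _) (Finset.mem_univ i)
  have hw : ∀ i, H1 μ v (fun x => J i x • f x) (mulGrad v (J i) f G) := fun i =>
    hf.mul (B := max B 1) (hJ i) (fun x => (hJ1 i x).trans (le_max_right _ _))
      (fun j x => (h1 i j x).trans (le_max_left _ _))
  have hder : ∀ j x, ∑ i, J i x * dd (v j) (J i) x = 0 := by
    intro j x
    have h := HasFDerivAt.fun_sum (u := Finset.univ)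
      (fun i _ => (((hJ i).differentiable (by simp)) x).hasFDerivAt.pow 2)
    have e : (fun y => ∑ i, J i y ^ 2) = fun _ => (1 : ℝ) := funext hsum
    rw [e] at h
    have h2 := congrArg (fun L : X →L[ℝ] ℝ => L (v j)) (h.unique (hasFDerivAt_const (1 : ℝ) x))
    simp only [sum_apply, smul_apply, zero_apply,
      smul_eq_mul] at h2
    have h3 : ∑ i, J i x * dd (v j) (J i) x = (1 / 2) * ∑ i, (2 * J i x ^ (2 - 1)) * fderiv ℝ (J i) x (v j) := by
      rw [Finset.mul_sum]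
      refine Finset.sum_congr rfl fun i _ => ?_
      simp only [dd]
      norm_num
      ring
    rw [h3]
    simp only [nsmul_eq_mul, Nat.cast_ofNat] at h2
    rw [h2, mul_zero]
  have m2 : ∀ i j, MemLp (fun x => dd (v j) (J i) x • f x) 2 μ := fun i j =>
    memLp_smul_of_bdd (contDiff_dd (hJ i) (v j)).continuous (h1 i j) hf.mem
  have i2 : ∀ i j, Integrable (fun x => dd (v j) (J i) x ^ 2 * ‖f x‖ ^ 2) μ := by
    intro i j
    have := integrable_norm_sq (m2 i j)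
    simpa only [norm_smul, Real.norm_eq_abs, mul_pow, sq_abs] using this
  have K1 : ∀ j, ∑ i, nsq μ (mulGrad v (J i) f G j)
      = nsq μ (G j) + ∑ i, ∫ x, dd (v j) (J i) x ^ 2 * ‖f x‖ ^ 2 ∂μ := by
    intro j
    unfold nsq
    rw [← integral_finsetSum _ fun i _ => integrable_norm_sq (hw i |>.wd j).memg,
      ← integral_finsetSum _ fun i _ => i2 i j,
      ← integral_add (integrable_norm_sq (hf.wd j).memg) (integrable_finsetSum _ fun i _ => i2 i j)]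
    refine integral_congr_ae (Eventually.of_forall fun x => ?_)
    simp only [mulGrad, norm_sq_mulGrad, Finset.sum_add_distrib, ← Finset.sum_mul, ← Finset.mul_sum, hsum x,
      hder j x]
    ring
  have K2 : ∑ i, ∫ x, V x * ‖J i x • f x‖ ^ 2 ∂μ = ∫ x, V x * ‖f x‖ ^ 2 ∂μ := by
    rw [← integral_finsetSum _ fun i _ => FormBdd.integrable_mul hV (hw i)]
    refine integral_congr_ae (Eventually.of_forall fun x => ?_)
    simp only [norm_smul, Real.norm_eq_abs, mul_pow, sq_abs]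
    rw [← Finset.mul_sum, ← Finset.sum_mul, hsum x, one_mul]
  unfold qform
  rw [Finset.sum_add_distrib, K2, ← Finset.mul_sum, Finset.sum_comm]
  simp only [K1]
  rw [Finset.sum_add_distrib, Finset.sum_comm (f := fun i j => ∫ x, dd (v j) (J i) x ^ 2 * ‖f x‖ ^ 2 ∂μ)]
  ring

/-- a priori `H¹` bound of a weak solution: `¼ ∑ ‖G_j‖² ≤ (En + b) ‖f‖² + ‖f‖ ‖g‖`
(energy identity with `ξ = 1` and `FormBdd.qform_ge`). -/
theorem IsWeakSolOn.grad_le {V : X → ℝ} {b En : ℝ} (hV : FormBdd E μ v V (1 / 4) b)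
    {f g : X → E} {G : ι → X → E} (hf : H1 μ v f G) (hg : MemLp g 2 μ) (hs : IsWeakSol μ v V En f G g) :
    (1 / 4) * ∑ j, nsq μ (G j) ≤ (En + b + 1) * nsq μ f + nsq μ g := by
  have E0 := congrArg Complex.re (hs f G hf (fun x hx => absurd (Set.mem_univ x) hx))
  have hself : ∀ c : E, (⟪c, c⟫_ℂ).re = ‖c‖ ^ 2 := fun c => by
    rw [inner_self_eq_norm_sq_to_K]; norm_cast
  have T1 : ∀ j, (∫ x, ⟪G j x, G j x⟫_ℂ ∂μ).re = nsq μ (G j) := by
    intro j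
    rw [re_integral (integrable_inner' (hf.wd j).memg (hf.wd j).memg)]
    simp only [hself]; rfl
  have T2 : (∫ x, ((V x - En : ℝ) : ℂ) * ⟪f x, f x⟫_ℂ ∂μ).re = ∫ x, V x * ‖f x‖ ^ 2 ∂μ - En * nsq μ f := by
    rw [re_integral (hV.integrable_inner hf hf En)]
    unfold nsq
    rw [← integral_const_mul, ← integral_sub (FormBdd.integrable_mul hV hf) ((integrable_norm_sq hf.mem).const_mul En)]
    refine integral_congr_ae (Eventually.of_forall fun x => ?_)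
    simp only [Complex.re_ofReal_mul, hself]
    ring
  have T0 : ((1 / 2 : ℂ) * ∑ j, ∫ x, ⟪G j x, G j x⟫_ℂ ∂μ).re = (1 / 2) * ∑ j, nsq μ (G j) := by
    have : ((1 / 2 : ℂ)) = ((1 / 2 : ℝ) : ℂ) := by push_cast; ring
    rw [this, Complex.re_ofReal_mul, Complex.re_sum]
    simp only [T1]
  rw [Complex.add_re, T0, T2] at E0
  have h3 : (∫ x, ⟪f x, g x⟫_ℂ ∂μ).re ≤ (nsq μ f + nsq μ g) / 2 := by
    have h4 := (norm_integral_inner_le hf.mem hg).2
    have h5 := Complex.re_le_norm (∫ x, ⟪f x, g x⟫_ℂ ∂μ)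
    have h6 := nsq_nonneg (μ := μ) f
    have h7 := nsq_nonneg (μ := μ) g
    have h8 : ‖∫ x, ⟪f x, g x⟫_ℂ ∂μ‖ ≤ (nsq μ f + nsq μ g) / 2 := by
      refine abs_le_of_sq_le_sq' ?_ (by positivity) |>.2
      nlinarith [sq_nonneg (nsq μ f - nsq μ g)]
    linarith
  have h9 := hV.qform_ge hf
  unfold qform at h9
  have h6 := nsq_nonneg (μ := μ) f
  have h7 := nsq_nonneg (μ := μ) g
  linarith

end F3

end Claimed.Open.R278.AG
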