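import Claimed.Open.R278.TopDefs

/-!
# Result 278, layers L4/L5: the abstract channel system (definitions only)

The top theorems of the packages CH1, CH2 are stated in `CHTop.lean`.

Captain's re-derivation of Lemmas 3.4, 3.5 and Proposition 3.1/3.8 (see the plan below).  Everything
is done for a `C^∞` function `F : ℝ³ ⊇ {|x| > R₁} → 𝒦` with values in an abstract complex Hilbert space
`𝒦`, which solves the channel equation (3.8) *pointwise in `x`*; the unbounded ionic operator `B`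
enters only through the bounded reduced resolvent `Rr = B_Q⁻¹ Q`.

## The equation
`𝒢[H] = ½ ΔH - (k²/2 + u) H - λ W H`.  `F` solves the channel system with residual `S` if, with
`Gtot = 𝒢[F] + S` ("`= B F`"),
* `⟪φ, Gtot x⟫ = 0`                                  (P-equation, since `B φ = 0`),
* `F x - ⟪φ, F x⟫ φ = Rr (Gtot x)`                    (Q-equation).
The only facts on `Rr`: symmetric, `Rr φ = 0`, `c ‖Rr v‖² ≤ Re ⟪Rr v, v⟫`.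

## Plan (all comparison arguments = classical maximum principle `comparison_principle`)
1. `‖𝔇_w F‖ ≤ C A`, `‖Q 𝔇_w F‖ ≤ C A r⁻²` for all words `w` in the six fields `∂_j, Ω_i`
   (they commute with `Δ`, `Rr`, `⟪φ,·⟫`); supersolutions `A (1 - M/r)`, `A r⁻²`.
2. `h = f/A`, `f = ⟪φ,F⟫`: radial ODE `-½h'' + (k-(β+1)/r) h' = O(r⁻²)` along rays, integrating factor
   ⇒ `∂_r Ω_w h = O(r⁻²)`, `Ω_w h → Ω_w a₀` at rate `1/r`.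
3. parity: `f` odd under `x ↦ reflZ x` ⇒ factors `|t|`, `t = z/r` (oddness lemma along meridians).
4. `H = QF - bG = O(λ A r⁻²)` with all words.  `H = H⁺ + H⁻` (even/odd in `x ↦ reflZ x`).
   `H⁻ = O(λ A |t| r⁻²)`.  `H⁺ = Z + E`, `Z = -λ a' A r⁻⁴ (z² v₁ + v₂)`, `v₁ = Rr y`, `v₂ = Rr v₁`,
   `‖E‖ ≤ C λ A r⁻⁵ (1 + z⁴)` (supersolution `A r⁻⁵ (z⁴ + a z² + b)`), derivatives of `E` by interpolation.
5. three scales, drift, strip, ratio, tails, translation limits (layer DS).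
-/

open MeasureTheory
open scoped ContDiff InnerProductSpace ComplexConjugate ENNReal Topology Laplacian

noncomputable section

namespace Claimed.Open.R278

/-! ## Exterior regions, vector fields, words -/

/-- `{|x| > R}`. -/
def Ext (R : ℝ) : Set Space := {x | R < ‖x‖}

/-- The six first order fields commuting with the Laplacian: `inl j` is the translation field
`∂_j`, `inr i` is the rotation field `Ω_i = (e_i × x)·∇`. -/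
def vfield : Fin 3 ⊕ Fin 3 → Space → Space
  | .inl j, _ => EuclideanSpace.single j 1
  | .inr 0, x => !₂[0, -x 2, x 1]
  | .inr 1, x => !₂[x 2, 0, -x 0]
  | .inr 2, x => !₂[-x 1, x 0, 0]

section fields
variable {V : Type*} [NormedAddCommGroup V] [NormedSpace ℝ V]

/-- `𝔇_a H (x) = DH(x)[X_a(x)]`. -/
def dfield (a : Fin 3 ⊕ Fin 3) (H : Space → V) (x : Space) : V := fderiv ℝ H x (vfield a x)

/-- `𝔇_w = 𝔇_{a₁} ∘ ⋯ ∘ 𝔇_{a_l}` for a word `w = [a₁, …, a_l]`. -/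
def dword (w : List (Fin 3 ⊕ Fin 3)) (H : Space → V) : Space → V := w.foldr dfield H

/-- The radial derivative `∂_r H (x) = DH(x)[x/|x|]`. -/
def dr (H : Space → V) (x : Space) : V := fderiv ℝ H x (‖x‖⁻¹ • x)

/-- A word of rotation fields only. -/
def IsRotWord (w : List (Fin 3 ⊕ Fin 3)) : Prop := ∀ a ∈ w, ∃ i, a = Sum.inr i

/-- `σ` is smooth on `Ext R` and all `𝔇_w σ` are `≤ C |w| · g`: "symbol bounded by the profile `g`". -/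
def WordBdd (R : ℝ) (C : ℕ → ℝ) (g : Space → ℝ) (σ : Space → V) : Prop :=
  ContDiffOn ℝ ∞ σ (Ext R) ∧
    ∀ (w : List (Fin 3 ⊕ Fin 3)), ∀ x ∈ Ext R, ‖dword w σ x‖ ≤ C w.length * g x

end fields

/-- `u(x) = -1/|x - D e_z| - 1/|x + D e_z|`. -/
abbrev uD : Space → ℝ := nuclearPotential 1 bigD

/-- `t = z / r`. -/
def tz (x : Space) : ℝ := x 2 / ‖x‖

variable {𝒦 : Type} [NormedAddCommGroup 𝒦] [InnerProductSpace ℂ 𝒦] [CompleteSpace 𝒦]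

/-! ## The channel system -/

/-- Constants chosen BEFORE the data: every theorem of L4/L5 has the form
`∀ κ, ∃ constants, ∀ S : ChannelCore 𝒦 κ, …`, which is what gives uniformity in the coupling. -/
structure ChannelConsts where
  /-- everything lives on `Ext R₁` -/
  R₁ : ℝ
  /-- the `Q`-gap -/
  c : ℝ
  /-- exponent of the residual -/
  σ : ℝ
  /-- a priori decay exponent -/
  τ : ℝ
  /-- margin between the exponential rates `k < γ < σ` -/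
  μ : ℝ
  /-- bounds for words of a given length -/
  C : ℕ → ℝ
  R₁_ge : 2 * bigD ≤ R₁
  c_pos : 0 < c
  τ_pos : 0 < τ
  μ_pos : 0 < μ

/-- `𝒢[H] = ½ΔH - (k²/2+u)H - λ W H`. -/
def chanG (lam k : ℝ) (W : Space → 𝒦 →L[ℂ] 𝒦) (H : Space → 𝒦) (x : Space) : 𝒦 :=
  (1 / 2 : ℝ) • Δ H x - (k ^ 2 / 2 + uD x) • H x - lam • W x (H x)

/-- The slow-channel part of the system (no fast orbital, no parity). -/
structure ChannelCore (𝒦 : Type) [NormedAddCommGroup 𝒦] [InnerProductSpace ℂ 𝒦] [CompleteSpace 𝒦]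
    (κ : ChannelConsts) where
  /-- the coupling `λ = t` -/
  lam : ℝ
  /-- the rate -/
  k : ℝ
  /-- ionic ground state (tensored with distinguished spin up) -/
  φ : 𝒦
  /-- reduced resolvent `B_Q⁻¹ Q` -/
  Rr : 𝒦 →L[ℂ] 𝒦
  /-- cut-off interaction -/
  W : Space → 𝒦 →L[ℂ] 𝒦
  /-- the cut-off fiber function -/
  F : Space → 𝒦
  /-- the residual -/
  Res : Space → 𝒦
  lam_nonneg : 0 ≤ lam
  lam_le : lam ≤ 1
  k_lo : 0.9 < k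
  k_hi : k < 1.1
  sigma_gt : k + κ.μ ≤ κ.σ
  φ_norm : ‖φ‖ = 1
  Rr_symm : ∀ v w, ⟪Rr v, w⟫_ℂ = ⟪v, Rr w⟫_ℂ
  Rr_φ : Rr φ = 0
  Rr_gap : ∀ v, κ.c * ‖Rr v‖ ^ 2 ≤ (⟪Rr v, v⟫_ℂ).re
  W_symm : ∀ x ∈ Ext κ.R₁, ∀ v w, ⟪W x v, w⟫_ℂ = ⟪v, W x w⟫_ℂ
  W_nonneg : ∀ x ∈ Ext κ.R₁, ∀ v, 0 ≤ (⟪v, W x v⟫_ℂ).re
  /-- `W ∈ Sym(-1)` in operator norm, (3.9) -/
  W_bdd : WordBdd κ.R₁ κ.C (fun x => ‖x‖⁻¹) W
  /-- `W φ - (2/r) φ ∈ Sym(-2)` -/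
  Wφ_bdd : WordBdd κ.R₁ κ.C (fun x => (‖x‖ ^ 2)⁻¹) (fun x => W x φ - (2 / ‖x‖) • φ)
  F_bdd : WordBdd κ.R₁ κ.C (fun x => Real.exp (-(κ.τ * ‖x‖))) F
  Res_bdd : WordBdd κ.R₁ κ.C (fun x => lam * Real.exp (-(κ.σ * ‖x‖))) Res
  /-- P-equation -/
  eqP : ∀ x ∈ Ext κ.R₁, ⟪φ, chanG lam k W F x + Res x⟫_ℂ = 0
  /-- Q-equation -/
  eqQ : ∀ x ∈ Ext κ.R₁, F x - ⟪φ, F x⟫_ℂ • φ = Rr (chanG lam k W F x + Res x)

namespace ChannelCore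
variable {κ : ChannelConsts} (S : ChannelCore 𝒦 κ)

/-- `β = (2-2λ)/k - 1`. -/
def β : ℝ := (2 - 2 * S.lam) / S.k - 1

/-- `A(|x|)`. -/
def A (x : Space) : ℝ := radialA S.k S.β ‖x‖

/-- the projected amplitude `f = ⟪φ, F⟫`. -/
def f (x : Space) : ℂ := ⟪S.φ, S.F x⟫_ℂ

/-- `h = f / A`. -/
def h (x : Space) : ℂ := S.f x / S.A x

/-- `Q v = v - ⟪φ,v⟫ φ`. -/
def Q (v : 𝒦) : 𝒦 := v - ⟪S.φ, v⟫_ℂ • S.φ

/-- the angular amplitude `a₀(x) = lim_{ρ→∞} h(ρ x/|x|)` (homogeneous of degree `0`). -/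
def a₀ (x : Space) : ℂ := Filter.limUnder Filter.atTop (fun ρ : ℝ => S.h ((ρ / ‖x‖) • x))

end ChannelCore

/-! ## The full system: parity, fast orbital, dipole, spin -/

/-- What L5 needs about the fast orbital `b` (3.17) (package TX). -/
structure FastOrbital (b : Space → ℝ) (γ : ℝ) (R₁ : ℝ) (C : ℕ → ℝ) (c : ℝ) : Prop where
  smooth : ContDiffOn ℝ ∞ b (Ext R₁)
  eq : ∀ x ∈ Ext R₁, (1 / 2) * Δ b x - uD x * b x = γ ^ 2 / 2 * b x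
  even : ∀ x, b (reflZ x) = b x
  c_pos : 0 < c
  lower : ∀ x ∈ Ext R₁, c * radialA γ (2 / γ - 1) ‖x‖ ≤ b x
  /-- all words are bounded relative to `b` itself -/
  words : ∀ (w : List (Fin 3 ⊕ Fin 3)), ∀ x ∈ Ext R₁, |dword w b x| ≤ C w.length * b x
  upper : ∀ x ∈ Ext R₁, b x ≤ C 0 * radialA γ (2 / γ - 1) ‖x‖
  /-- `(∂_r + γ) b = O(b/r)`, `(∂_r+γ)² b = O(b/r)`, also after one rotation -/
  radial₁ : ∀ x ∈ Ext R₁, |dr b x + γ * b x| ≤ C 1 * b x / ‖x‖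
  radial₂ : ∀ x ∈ Ext R₁, |dr (dr b) x + 2 * γ * dr b x + γ ^ 2 * b x| ≤ C 2 * b x / ‖x‖

/-- The full channel system of Lemma 3.2 (output of L3 + ionic toolkit). -/
structure ChannelSys (𝒦 : Type) [NormedAddCommGroup 𝒦] [InnerProductSpace ℂ 𝒦] [CompleteSpace 𝒦]
    (κ : ChannelConsts) (b : Space → ℝ) (γ : ℝ) extends ChannelCore 𝒦 κ where
  /-- rate separation `γ - k ≥ μ`, (3.2), and `σ - γ ≥ μ` -/
  k_sep : k + κ.μ ≤ γ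
  sigma_gt' : γ + κ.μ ≤ κ.σ
  /-- `f` is odd under the reflection and axisymmetric -/
  f_odd : ∀ x ∈ Ext κ.R₁, ⟪φ, F (reflZ x)⟫_ℂ = -⟪φ, F x⟫_ℂ
  f_axi : ∀ a, ∀ x ∈ Ext κ.R₁, ⟪φ, F (rotZ a x)⟫_ℂ = ⟪φ, F x⟫_ℂ
  /-- the retained fast vector `G`, and `G♯ = B G` -/
  G : 𝒦
  Gs : 𝒦
  G_eq : G = Rr Gs
  G_norm : ‖G‖ ^ 2 = 2
  /-- (3.36): `B G = ((γ²-k²)/2) G + O(λ)` -/
  Gs_close : ‖((γ ^ 2 - k ^ 2) / 2) • G - Gs‖ ≤ κ.C 0 * lam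
  /-- `QF - bG = O(λ)` a priori, (3.16) -/
  diff_bdd : WordBdd κ.R₁ κ.C (fun x => lam * Real.exp (-(κ.τ * ‖x‖)))
    (fun x => F x - ⟪φ, F x⟫_ℂ • φ - b x • G)
  /-- the dipole vectors `Y_i φ`, `Y_i = y_{1i} + y_{2i}` -/
  Y : Fin 3 → 𝒦
  Y_perp : ⟪φ, Y 2⟫_ℂ = 0
  /-- dipole expansion: `W φ - (2/r) φ - r⁻³ ∑ x_i Y_i φ ∈ Sym(-3)` -/
  dipole : WordBdd κ.R₁ κ.C (fun x => (‖x‖ ^ 3)⁻¹)
    (fun x => W x φ - (2 / ‖x‖) • φ - (‖x‖ ^ 3)⁻¹ • ∑ i, x i • Y i)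
  /-- `(W - 2/r) v = O(r⁻²)` on `v₁ = Rr Y_z φ`, `v₂ = Rr v₁` -/
  W_v₁ : ∀ x ∈ Ext κ.R₁, ‖W x (Rr (Y 2)) - (2 / ‖x‖) • Rr (Y 2)‖ ≤ κ.C 0 * (‖x‖ ^ 2)⁻¹
  W_v₂ : ∀ x ∈ Ext κ.R₁, ‖W x (Rr (Rr (Y 2))) - (2 / ‖x‖) • Rr (Rr (Y 2))‖ ≤ κ.C 0 * (‖x‖ ^ 2)⁻¹
  /-- lower and upper bound for the plane vector `Rr² Y_z φ` -/
  v₂_lower : (κ.C 0)⁻¹ ≤ ‖Rr (Rr (Y 2))‖
  Y_upper : ‖Y 2‖ ≤ κ.C 0
  /-- projection on distinguished spin down -/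
  Pd : 𝒦 →L[ℂ] 𝒦
  Pd_proj : ∀ v, Pd (Pd v) = Pd v
  Pd_symm : ∀ v w, ⟪Pd v, w⟫_ℂ = ⟪v, Pd w⟫_ℂ
  Pd_φ : Pd φ = 0
  Pd_v₂ : Pd (Rr (Rr (Y 2))) = 0
  Pd_G : ‖Pd G‖ = 1

namespace ChannelSys
variable {κ : ChannelConsts} {b : Space → ℝ} {γ : ℝ} (S : ChannelSys 𝒦 κ b γ)

/-- the equatorial slope `a' = a₀'(0)`: derivative of `a₀` along the meridian at the equator point
`e₁` (rotation field about the `x₂`-axis, with the sign making `Ω t = 1` there). -/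
def slope : ℂ := -dfield (Sum.inr 1) S.a₀ (EuclideanSpace.single 0 1)

/-- `v₁ = Rr Y_z φ`. -/
def v₁ : 𝒦 := S.Rr (S.Y 2)
/-- `v₂ = Rr² Y_z φ`. -/
def v₂ : 𝒦 := S.Rr (S.Rr (S.Y 2))

/-- `H = QF - bG`. -/
def H (x : Space) : 𝒦 := S.Q (S.F x) - b x • S.G
/-- the part of `H` odd under `x ↦ reflZ x`. -/
def Hodd (x : Space) : 𝒦 := (1 / 2 : ℝ) • (S.H x - S.H (reflZ x))
/-- the part of `H` even under `x ↦ reflZ x`. -/
def Hev (x : Space) : 𝒦 := (1 / 2 : ℝ) • (S.H x + S.H (reflZ x))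
/-- the ansatz `Z = -λ a' A r⁻⁴ (z² v₁ + v₂)`. -/
def Z (x : Space) : 𝒦 :=
  (-(S.lam * S.A x * (‖x‖ ^ 4)⁻¹ : ℝ) : ℂ) • (S.slope • ((x 2 ^ 2 : ℝ) • S.v₁ + S.v₂))
/-- the remainder `E = H⁺ - Z`. -/
def E (x : Space) : 𝒦 := S.Hev x - S.Z x
/-- the plane vector `T_eq = -a' Rr² Y_z φ`, (3.31). -/
def Teq : 𝒦 := -(S.slope • S.v₂)

end ChannelSys

end Claimed.Open.R278
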