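import Claimed.Open.R278.AGChan
import Claimed.Open.R278.CHDefs

/-!
# Result 278, layer AG, file 16: Lemma 3.2 (`lem:channel-cutoff`)

`ChanOut` = the output of the layer for raw functions (values in any complex Hilbert space `E`);
`channel_raw` = existence of the output, with constants chosen BEFORE the data (uniformity in the coupling);
`channel_cutoff` = the same for elements of `Eigenspace`, in the notation of `CHDefs.lean` (`Ext`, `chanG`);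
`density_smooth` = the density of any eigenfunction is `C^∞` off the nuclei.

Dictionary (captain's list AG1-AG8):
AG1 `F_smooth`, `R_smooth`; AG2 `h1`, `eq`; AG3 `R_bound`; AG4 `F_bound`; AG5 `err_*`, `density_smooth`; AG6 `diff_bound`; AG7 `ChanOut.isometry`, `.swap`, `.constraint`
(and their `L2 3` forms); AG8 `true_close`.
-/

open MeasureTheory Filter Topology Set
open scoped ContDiff InnerProductSpace Laplacian

noncomputable section

set_option linter.unusedSectionVars false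

namespace Claimed.Open.R278.AG

variable {E : Type*} [NormedAddCommGroup E] [InnerProductSpace ℂ E] [CompleteSpace E]

/-- the output of Lemma 3.2. -/
structure ChanOut (τ : ℝ) (C : ℕ → ℝ) (δ t En : ℝ) (f f0 : Config 3 → E) (F F0 R : Space → FibE E)
    (Gy : Fin 2 × Fin 3 → Space → FibE E) (err : Space → ℝ) : Prop where
  F_smooth : ContDiffOn ℝ ∞ F extΩ
  F0_smooth : ContDiffOn ℝ ∞ F0 extΩ
  R_smooth : ContDiffOn ℝ ∞ R extΩ
  /-- `F(x) = √3 (f0 + χ (f - f0))(x, ·)` -/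
  F_version : IsVersion extΩ (PhiF f f0) F
  /-- `F0(x) = √3 f0(x, ·)` -/
  F0_version : IsVersion extΩ (fun X => (√3 : ℝ) • f0 X) F0
  F_bound : ∀ k, ∀ x ∈ extΩ, ‖iteratedFDeriv ℝ k F x‖ ≤ C k * Real.exp (-(τ * ‖x‖))
  F0_bound : ∀ k, ∀ x ∈ extΩ, ‖iteratedFDeriv ℝ k F0 x‖ ≤ C k * Real.exp (-(τ * ‖x‖))
  diff_bound : ∀ k, ∀ x ∈ extΩ,
    ‖iteratedFDeriv ℝ k (fun x => F x - F0 x) x‖ ≤ C k * δ * Real.exp (-(τ * ‖x‖))
  R_bound : ∀ k, ∀ x ∈ extΩ, ‖iteratedFDeriv ℝ k R x‖ ≤ C k * δ * Real.exp (-(sig τ * ‖x‖))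
  /-- every fibre is in the form domain of the ionic operator -/
  h1 : ∀ x ∈ extΩ, H1 (volume : Measure (Config 2)) dir (F x : Config 2 → E) (fun j => (Gy j x : Config 2 → E))
  /-- the channel equation (3.8), in the form sense, on EVERY fibre:
  `(H_{2,t} - E₂) F(x) = ½ ΔF(x) - (k²/2 + u(x)) F(x) - t W(x) F(x) + R(x)`, `k²/2 = E₂ - En`. -/
  eq : ∀ x ∈ extΩ, ∀ E₂ k : ℝ, k ^ 2 / 2 = E₂ - En →
    IsWeakSol (volume : Measure (Config 2)) dir (scaledPotential 2 t) E₂ (F x : Config 2 → E)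
      (fun j => (Gy j x : Config 2 → E))
      (((1 / 2 : ℝ) • Δ F x - (k ^ 2 / 2 + nuclearPotential 1 bigD x) • F x - t • Wop x (F x) + R x : FibE E) :
        Config 2 → E)
  err_smooth : ContDiffOn ℝ ∞ err extΩ
  /-- `n = ‖F‖² + err` -/
  err_eq : ∀ᵐ x, x ∈ extΩ → 3 * ∫ y, ‖f (cons3 x y)‖ ^ 2 = ‖F x‖ ^ 2 + err x
  err_bound : ∀ k, ∀ x ∈ extΩ, ‖iteratedFDeriv ℝ k err x‖ ≤ C k * δ * Real.exp (-(2 * sig τ * ‖x‖))
  /-- `‖F_true(x) - F(x)‖ ≤ C δ e^{-σ r}` -/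
  true_close : ∀ᵐ x, x ∈ extΩ →
    ∫ y, ‖(√3 : ℝ) • f (cons3 x y) - F x y‖ ^ 2 ≤ (C 0 * δ * Real.exp (-(sig τ * ‖x‖))) ^ 2

/-! ## LEAF AG-N1: the fibre equation in operator notation -/

section N1

theorem agn_continuous_cons3_right (x : Space) : Continuous fun y : Config 2 => cons3 x y := by
  refine continuous_pi fun i => ?_
  refine Fin.cases ?_ (fun j => ?_) i
  · exact continuous_const
  · exact continuous_apply j

/-- conversion of the conclusion of `fiber_equation` (`V1 t (cons3 x y) = u(x) + t Wfun (cons3 x y)` by `ureg_eq`; `Wop_coeFn`; `Lp.coeFn_add`, `Lp.coeFn_sub`,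
`Lp.coeFn_smul`; shift of the energy by `IsWeakSolOn.change` with `V' = V`). -/
theorem fiber_equation_op {t En : ℝ} (h0 : 0 ≤ t) (h1 : t ≤ 1) {x : Space} (hx : x ∈ extΩ) {F R : Space → FibE E}
    {Gy : Fin 2 × Fin 3 → Space → FibE E}
    (hF : H1 (volume : Measure (Config 2)) dir (F x : Config 2 → E) (fun j => (Gy j x : Config 2 → E)))
    (hs : IsWeakSol (volume : Measure (Config 2)) dir (scaledPotential 2 t) En (F x : Config 2 → E)
      (fun j => (Gy j x : Config 2 → E))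
      (fun y => (1 / 2 : ℝ) • (Δ F x : FibE E) y - V1 t (cons3 x y) • F x y + R x y))
    {E₂ k : ℝ} (hk : k ^ 2 / 2 = E₂ - En) :
    IsWeakSol (volume : Measure (Config 2)) dir (scaledPotential 2 t) E₂ (F x : Config 2 → E)
      (fun j => (Gy j x : Config 2 → E))
      (((1 / 2 : ℝ) • Δ F x - (k ^ 2 / 2 + nuclearPotential 1 bigD x) • F x - t • Wop x (F x) + R x : FibE E) :
        Config 2 → E) := by
  obtain ⟨b, -, hb⟩ := exists_formBdd (E := E) 2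
  have hV := (hb t h0 h1).1
  obtain ⟨B, hB⟩ := (bddDeriv_V1 t).2 0
  have hV1c : Continuous fun y : Config 2 => V1 t (cons3 x y) :=
    (bddDeriv_V1 t).1.continuous.comp (agn_continuous_cons3_right x)
  have hV1b : ∀ y : Config 2, |V1 t (cons3 x y)| ≤ B := fun y => by
    have := hB (cons3 x y)
    rwa [norm_iteratedFDeriv_zero, Real.norm_eq_abs] at this
  have hg : MemLp (fun y => (1 / 2 : ℝ) • (Δ F x : FibE E) y - V1 t (cons3 x y) • F x y + R x y) 2 volume :=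
    (((Lp.memLp (Δ F x)).const_smul (1 / 2 : ℝ)).sub (memLp_smul_of_bdd hV1c hV1b (Lp.memLp (F x)))).add
      (Lp.memLp (R x))
  have hr : MemLp (fun y => (-(k ^ 2 / 2) : ℝ) • (F x : Config 2 → E) y) 2 volume :=
    (Lp.memLp (F x)).const_smul _
  have h2 := IsWeakSolOn.change (V' := scaledPotential 2 t) (En' := E₂) hV hV hF hg hs hr
    (Eventually.of_forall fun y _ => by
      congr 1
      rw [hk]; ring)
  refine h2.congr_source ?_
  have hu : ureg x = nuclearPotential 1 bigD x := ureg_eq (by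
    have : extR < ‖x‖ := hx
    unfold extR at this
    linarith)
  have c1 := Lp.coeFn_add ((1 / 2 : ℝ) • Δ F x - (k ^ 2 / 2 + nuclearPotential 1 bigD x) • F x - t • Wop x (F x)) (R x)
  have c2 := Lp.coeFn_sub ((1 / 2 : ℝ) • Δ F x - (k ^ 2 / 2 + nuclearPotential 1 bigD x) • F x) (t • Wop x (F x))
  have c3 := Lp.coeFn_sub ((1 / 2 : ℝ) • Δ F x) ((k ^ 2 / 2 + nuclearPotential 1 bigD x) • F x)
  have c4 := Lp.coeFn_smul (1 / 2 : ℝ) (Δ F x)
  have c5 := Lp.coeFn_smul (k ^ 2 / 2 + nuclearPotential 1 bigD x) (F x)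
  have c6 := Lp.coeFn_smul t (Wop x (F x))
  have c7 := Wop_coeFn x (F x)
  filter_upwards [c1, c2, c3, c4, c5, c6, c7] with y e1 e2 e3 e4 e5 e6 e7 _
  rw [e1, Pi.add_apply, e2, Pi.sub_apply, e3, Pi.sub_apply, e4, e5, e6, Pi.smul_apply, Pi.smul_apply, Pi.smul_apply,
    e7]
  unfold V1
  rw [cons3_zero, hu, add_smul, add_smul, neg_smul, mul_smul]
  abel

end N1

/-! ## LEAF AG-N2: the density error and the distance to the true fibre -/

section N2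

theorem agn_bddDeriv_aCut : BddDeriv aCut := Sym.bddDeriv le_rfl sym_aCut

theorem agn_bddDeriv_chi : BddDeriv chi := Sym.bddDeriv le_rfl sym_chi

theorem agn_rho_ge {X : Config 3} (h : X ∈ tsupport aCut) : √(10 / 9) * ‖X 0‖ ≤ rho X :=
  rho_ge_of_sRatio_ge (sRatio_ge_of_mem_tsupport_aCut h)

theorem PairData.agn_δ_nonneg {εb τ κ Emax δ t En En0 : ℝ} {f f0 : Config 3 → E} {G G0 : Fin 3 × Fin 3 → Config 3 → E}
    (h : PairData εb τ κ Emax δ t En En0 f f0 G G0) : 0 ≤ δ := h.t_nonneg.trans h.t_le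

/-- multiplication by a function with bounded derivatives preserves `L²`. -/
theorem BddDeriv.agn_memLp_smul {c : Config 3 → ℝ} (hc : BddDeriv c) {f : Config 3 → E} (hf : MemLp f 2 volume) :
    MemLp (fun X => c X • f X) 2 volume := by
  obtain ⟨B, hB⟩ := hc.2 0
  refine memLp_smul_of_bdd hc.1.continuous (B := B) (fun X => ?_) hf
  have := hB X
  rwa [norm_iteratedFDeriv_zero, Real.norm_eq_abs] at this

/-- real part of a fibre pairing, a.e. -/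
theorem agn_ae_re_pair {Φ₁ Φ₂ : Config 3 → E} (h₁ : MemLp Φ₁ 2 volume) (h₂ : MemLp Φ₂ 2 volume) :
    ∀ᵐ x : Space, Integrable (fun y => (⟪Φ₁ (cons3 x y), Φ₂ (cons3 x y)⟫_ℂ).re) volume ∧
      (pair Φ₁ Φ₂ x).re = ∫ y, (⟪Φ₁ (cons3 x y), Φ₂ (cons3 x y)⟫_ℂ).re := by
  filter_upwards [(integral_cons3 (integrable_inner' h₁ h₂)).1] with x hx
  exact ⟨hx.re, re_integral hx⟩

theorem agn_ae_integrable_norm_sq {Φ : Config 3 → E} (h : MemLp Φ 2 volume) :
    ∀ᵐ x : Space, Integrable (fun y => ‖Φ (cons3 x y)‖ ^ 2) volume :=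
  (integral_cons3 (integrable_norm_sq h)).1

theorem agn_memLp_PhiF {f f0 : Config 3 → E} (hf : MemLp f 2 volume) (hf0 : MemLp f0 2 volume) :
    MemLp (PhiF f f0) 2 volume :=
  (hf0.add (agn_bddDeriv_chi.agn_memLp_smul (hf.sub hf0))).const_smul (√3 : ℝ)

/-- derivative bound for a real linear image, at a point of an open set of smoothness. -/
theorem agn_norm_iteratedFDeriv_clm_le {Ω : Set Space} (hΩ : IsOpen Ω) {n : Space → ℂ} (hn : ContDiffOn ℝ ∞ n Ω)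
    (L : ℂ →L[ℝ] ℝ) (k : ℕ) {x : Space} (hx : x ∈ Ω) :
    ‖iteratedFDeriv ℝ k (fun x => L (n x)) x‖ ≤ ‖L‖ * ‖iteratedFDeriv ℝ k n x‖ :=
  L.norm_iteratedFDeriv_comp_left (hn.contDiffAt (hΩ.mem_nhds hx)) (by exact_mod_cast le_top)

theorem agn_pair_self_re (Φ : Config 3 → E) (x : Space) : (pair Φ Φ x).re = ∫ y, ‖Φ (cons3 x y)‖ ^ 2 := by
  unfold pair
  have e : (fun y : Config 2 => ⟪Φ (cons3 x y), Φ (cons3 x y)⟫_ℂ)
      = fun y : Config 2 => ((‖Φ (cons3 x y)‖ ^ 2 : ℝ) : ℂ) := by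
    funext y
    rw [inner_self_eq_norm_sq_to_K]
    norm_cast
  rw [e, integral_complex_ofReal, Complex.ofReal_re]

/-- pointwise algebra: `3|f|² - |PhiF|² = 3 [2 Re⟨aCut f0, aCut v⟩ + ⟨aCut v, aCut (1+χ) v⟩]`, `v = f - f0`. -/
theorem norm_sq_sub_PhiF (f f0 : Config 3 → E) (X : Config 3) :
    3 * ‖f X‖ ^ 2 - ‖PhiF f f0 X‖ ^ 2
      = 3 * (2 * (⟪aCut X • f0 X, aCut X • (f X - f0 X)⟫_ℂ).re
          + (⟪aCut X • (f X - f0 X), (aCut X * (1 + chi X)) • (f X - f0 X)⟫_ℂ).re) := by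
  set v := f X - f0 X with hv
  have hf : f X = f0 X + v := by rw [hv]; abel
  have hchi : chi X = 1 - aCut X ^ 2 := rfl
  unfold PhiF
  rw [← hv, hf, norm_smul, mul_pow, Real.norm_eq_abs, sq_abs, Real.sq_sqrt (by norm_num)]
  rw [inner_real_smul, inner_real_smul, Complex.re_ofReal_mul, Complex.re_ofReal_mul]
  have e1 : ‖f0 X + v‖ ^ 2 = ‖f0 X‖ ^ 2 + 2 * (⟪f0 X, v⟫_ℂ).re + ‖v‖ ^ 2 := by
    rw [@norm_add_sq ℂ]; rfl
  have e2 : ‖f0 X + chi X • v‖ ^ 2 = ‖f0 X‖ ^ 2 + 2 * (chi X * (⟪f0 X, v⟫_ℂ).re) + chi X ^ 2 * ‖v‖ ^ 2 := by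
    rw [@norm_add_sq ℂ, inner_real_smul_right, norm_smul, mul_pow, Real.norm_eq_abs, sq_abs]
    congr 2
    exact congrArg (2 * ·) (Complex.re_ofReal_mul _ _)
  have e3 : (⟪v, v⟫_ℂ).re = ‖v‖ ^ 2 := by
    rw [inner_self_eq_norm_sq_to_K]; norm_cast
  rw [e1, e2, e3, hchi]
  ring

/-- **the density error.**  `pair_exterior` twice with `θ₁ = θ₂ = √(10/9)` (`rho_ge_of_sRatio_ge`, `sRatio_ge_of_mem_tsupport_aCut`), `chan_creg`; `err = 3 (2 Re n₁ + Re n₂)`;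
integrate `norm_sq_sub_PhiF` over the fibre. -/
theorem density_error {εb : ℝ} (hlow : ∀ g G, IsH1 g G → εb * (∫ x, g x ^ 2) ≤ orbitalForm g g G G)
    (τ κ Emax : ℝ) (hτ : 0 ≤ τ) (hκ : 0 < κ) :
    ∃ C : ℕ → ℝ, (∀ k, 0 ≤ C k) ∧ ∀ (δ t En En0 : ℝ) (f f0 : Config 3 → E) (G G0 : Fin 3 × Fin 3 → Config 3 → E),
      PairData εb τ κ Emax δ t En En0 f f0 G G0 → δ ≤ 1 + 2 * Emax →
      ∃ err : Space → ℝ, ContDiffOn ℝ ∞ err extΩ ∧
        (∀ᵐ x, x ∈ extΩ → 3 * ∫ y, ‖f (cons3 x y)‖ ^ 2 = (∫ y, ‖PhiF f f0 (cons3 x y)‖ ^ 2) + err x) ∧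
        ∀ k, ∀ x ∈ extΩ, ‖iteratedFDeriv ℝ k err x‖ ≤ C k * δ * Real.exp (-(2 * sig τ * ‖x‖)) := by
  have hθ : (0 : ℝ) ≤ √(10 / 9) := Real.sqrt_nonneg _
  have hc2 : BddDeriv (fun X => aCut X * (1 + chi X)) := agn_bddDeriv_aCut.mul ((BddDeriv.const 1).add agn_bddDeriv_chi)
  have hs2 : ∀ X ∈ tsupport (fun X => aCut X * (1 + chi X)), √(10 / 9) * ‖X 0‖ ≤ rho X := fun X hX =>
    agn_rho_ge (tsupport_mul_subset_left hX)
  obtain ⟨C1, hC1, h1⟩ := pair_exterior (E := E) agn_bddDeriv_aCut agn_bddDeriv_aCut τ _ _ hτ hθ hθ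
    (fun X hX => agn_rho_ge hX) (fun X hX => agn_rho_ge hX)
  obtain ⟨C2, hC2, h2⟩ := pair_exterior (E := E) agn_bddDeriv_aCut hc2 τ _ _ hτ hθ hθ
    (fun X hX => agn_rho_ge hX) hs2
  obtain ⟨Cc, hCc, hc⟩ := chan_creg (E := E) hlow τ κ Emax hτ hκ
  refine ⟨fun k => 6 * (C1 k * Cc (k + 3)) + 3 * (C2 k * Cc (k + 3) * (1 + 2 * |Emax|)), fun k => ?_, ?_⟩
  · have := hC1 k; have := hC2 k; have := hCc (k + 3)
    positivity
  intro δ t En En0 f f0 G G0 hd hδ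
  have hδ0 := hd.agn_δ_nonneg
  obtain ⟨n1, hn1, e1, b1⟩ := h1 f0 (fun X => f X - f0 X) Cc (fun k => Cc k * δ ^ 2) (fun k => (hc _ _ _ _ _ _ _ _ hd k).2.1)
    (fun k => (hc _ _ _ _ _ _ _ _ hd k).2.2)
  obtain ⟨n2, hn2, e2, b2⟩ := h2 (fun X => f X - f0 X) (fun X => f X - f0 X) (fun k => Cc k * δ ^ 2)
    (fun k => Cc k * δ ^ 2) (fun k => (hc _ _ _ _ _ _ _ _ hd k).2.2) (fun k => (hc _ _ _ _ _ _ _ _ hd k).2.2)
  have hf := hd.h1.mem
  have hf0 := hd.h10.mem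
  have hv : MemLp (fun X => f X - f0 X) 2 volume := hf.sub hf0
  set L1 : ℂ →L[ℝ] ℝ := (6 : ℝ) • Complex.reCLM with hL1
  set L2 : ℂ →L[ℝ] ℝ := (3 : ℝ) • Complex.reCLM with hL2
  have nL1 : ‖L1‖ ≤ 6 := by
    rw [hL1, norm_smul, Complex.reCLM_norm]; norm_num
  have nL2 : ‖L2‖ ≤ 3 := by
    rw [hL2, norm_smul, Complex.reCLM_norm]; norm_num
  have s1 : ContDiffOn ℝ ∞ (fun x => L1 (n1 x)) extΩ := L1.contDiff.comp_contDiffOn hn1
  have s2 : ContDiffOn ℝ ∞ (fun x => L2 (n2 x)) extΩ := L2.contDiff.comp_contDiffOn hn2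
  refine ⟨fun x => L1 (n1 x) + L2 (n2 x), s1.add s2, ?_, ?_⟩
  · filter_upwards [e1, e2, agn_ae_re_pair (agn_bddDeriv_aCut.agn_memLp_smul hf0) (agn_bddDeriv_aCut.agn_memLp_smul hv),
      agn_ae_re_pair (agn_bddDeriv_aCut.agn_memLp_smul hv) (hc2.agn_memLp_smul hv), agn_ae_integrable_norm_sq hf,
      agn_ae_integrable_norm_sq (agn_memLp_PhiF hf hf0)] with x a1 a2 a3 a4 a5 a6 hx
    rw [← a1 hx, ← a2 hx]
    simp only [hL1, hL2, smul_apply, Complex.reCLM_apply, smul_eq_mul]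
    rw [a3.2, a4.2, ← sub_eq_iff_eq_add', ← integral_const_mul, ← integral_sub (a5.const_mul 3) a6,
      ← integral_const_mul, ← integral_const_mul, ← integral_add (a3.1.const_mul 6) (a4.1.const_mul 3)]
    refine integral_congr_ae (Eventually.of_forall fun y => ?_)
    simp only []
    rw [norm_sq_sub_PhiF]
    ring
  · intro k x hx
    have hx' : extR < ‖x‖ := hx
    have d1 := agn_norm_iteratedFDeriv_clm_le isOpen_extΩ hn1 L1 k hx
    have d2 := agn_norm_iteratedFDeriv_clm_le isOpen_extΩ hn2 L2 k hx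
    have ea : iteratedFDeriv ℝ k (fun x => L1 (n1 x) + L2 (n2 x)) x
        = iteratedFDeriv ℝ k (fun x => L1 (n1 x)) x + iteratedFDeriv ℝ k (fun x => L2 (n2 x)) x :=
      iteratedFDeriv_add_apply ((s1.contDiffAt (isOpen_extΩ.mem_nhds hx)).of_le (by exact_mod_cast le_top))
        ((s2.contDiffAt (isOpen_extΩ.mem_nhds hx)).of_le (by exact_mod_cast le_top))
    rw [ea]
    refine (norm_add_le _ _).trans ?_
    have q1 : √(Cc (k + 3) * (Cc (k + 3) * δ ^ 2)) = Cc (k + 3) * δ := by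
      rw [show Cc (k + 3) * (Cc (k + 3) * δ ^ 2) = (Cc (k + 3) * δ) ^ 2 by ring]
      exact Real.sqrt_sq (mul_nonneg (hCc _) hδ0)
    have q2 : √(Cc (k + 3) * δ ^ 2 * (Cc (k + 3) * δ ^ 2)) = Cc (k + 3) * δ ^ 2 := by
      rw [show Cc (k + 3) * δ ^ 2 * (Cc (k + 3) * δ ^ 2) = (Cc (k + 3) * δ ^ 2) ^ 2 by ring]
      exact Real.sqrt_sq (mul_nonneg (hCc _) (sq_nonneg _))
    have ee : τ * (√(10 / 9) + √(10 / 9)) * ‖x‖ = 2 * sig τ * ‖x‖ := by unfold sig; ring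
    have B1 := b1 k x hx'
    have B2 := b2 k x hx'
    rw [q1, ee] at B1
    rw [q2, ee] at B2
    set ex := Real.exp (-(2 * sig τ * ‖x‖)) with hex
    have hex0 : 0 ≤ ex := (Real.exp_pos _).le
    have hδ2 : δ ^ 2 ≤ δ * (1 + 2 * |Emax|) := by
      have : δ ≤ 1 + 2 * |Emax| := hδ.trans (by linarith [le_abs_self Emax])
      nlinarith
    have t1 : ‖iteratedFDeriv ℝ k (fun x => L1 (n1 x)) x‖ ≤ 6 * (C1 k * (Cc (k + 3) * δ) * ex) :=
      d1.trans (mul_le_mul nL1 B1 (norm_nonneg _) (by norm_num))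
    have t2 : ‖iteratedFDeriv ℝ k (fun x => L2 (n2 x)) x‖ ≤ 3 * (C2 k * (Cc (k + 3) * δ ^ 2) * ex) :=
      d2.trans (mul_le_mul nL2 B2 (norm_nonneg _) (by norm_num))
    have t3 : C2 k * (Cc (k + 3) * δ ^ 2) * ex ≤ C2 k * (Cc (k + 3) * (δ * (1 + 2 * |Emax|))) * ex :=
      mul_le_mul_of_nonneg_right (mul_le_mul_of_nonneg_left (mul_le_mul_of_nonneg_left hδ2 (hCc _)) (hC2 _)) hex0
    calc _ ≤ 6 * (C1 k * (Cc (k + 3) * δ) * ex) + 3 * (C2 k * (Cc (k + 3) * (δ * (1 + 2 * |Emax|))) * ex) := by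
          linarith
      _ = _ := by ring

/-- **distance to the true fibre.**  `√3 f - PhiF = √3 aCut² v`; `pair_exterior` with `c₁ = c₂ = aCut²`, `A = B = v`, order `k = 0`. -/
theorem true_fibre_close {εb : ℝ} (hlow : ∀ g G, IsH1 g G → εb * (∫ x, g x ^ 2) ≤ orbitalForm g g G G)
    (τ κ Emax : ℝ) (hτ : 0 ≤ τ) (hκ : 0 < κ) :
    ∃ C : ℝ, 0 ≤ C ∧ ∀ (δ t En En0 : ℝ) (f f0 : Config 3 → E) (G G0 : Fin 3 × Fin 3 → Config 3 → E),
      PairData εb τ κ Emax δ t En En0 f f0 G G0 →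
      ∀ᵐ x, x ∈ extΩ → ∫ y, ‖(√3 : ℝ) • f (cons3 x y) - PhiF f f0 (cons3 x y)‖ ^ 2
        ≤ (C * δ * Real.exp (-(sig τ * ‖x‖))) ^ 2 := by
  have hθ : (0 : ℝ) ≤ √(10 / 9) := Real.sqrt_nonneg _
  have hc2 : BddDeriv (fun X => aCut X * aCut X) := agn_bddDeriv_aCut.mul agn_bddDeriv_aCut
  have hs2 : ∀ X ∈ tsupport (fun X => aCut X * aCut X), √(10 / 9) * ‖X 0‖ ≤ rho X := fun X hX =>
    agn_rho_ge (tsupport_mul_subset_left hX)
  obtain ⟨C1, hC1, h1⟩ := pair_exterior (E := E) hc2 hc2 τ _ _ hτ hθ hθ hs2 hs2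
  obtain ⟨Cc, hCc, hc⟩ := chan_creg (E := E) hlow τ κ Emax hτ hκ
  refine ⟨√(3 * (C1 0 * Cc 3)), Real.sqrt_nonneg _, ?_⟩
  intro δ t En En0 f f0 G G0 hd
  have hδ0 := hd.agn_δ_nonneg
  obtain ⟨n1, hn1, e1, b1⟩ := h1 (fun X => f X - f0 X) (fun X => f X - f0 X) (fun k => Cc k * δ ^ 2)
    (fun k => Cc k * δ ^ 2) (fun k => (hc _ _ _ _ _ _ _ _ hd k).2.2) (fun k => (hc _ _ _ _ _ _ _ _ hd k).2.2)
  have hf := hd.h1.mem
  have hf0 := hd.h10.mem
  have hv : MemLp (fun X => f X - f0 X) 2 volume := hf.sub hf0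
  filter_upwards [e1, agn_ae_re_pair (hc2.agn_memLp_smul hv) (hc2.agn_memLp_smul hv)] with x a1 a2 hx
  have hx' : extR < ‖x‖ := hx
  have B1 := b1 0 x hx'
  have q2 : √(Cc (0 + 3) * δ ^ 2 * (Cc (0 + 3) * δ ^ 2)) = Cc 3 * δ ^ 2 := by
    rw [show Cc (0 + 3) * δ ^ 2 * (Cc (0 + 3) * δ ^ 2) = (Cc 3 * δ ^ 2) ^ 2 by ring]
    exact Real.sqrt_sq (mul_nonneg (hCc _) (sq_nonneg _))
  have ee : τ * (√(10 / 9) + √(10 / 9)) * ‖x‖ = 2 * sig τ * ‖x‖ := by unfold sig; ring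
  rw [q2, ee, norm_iteratedFDeriv_zero, ← a1 hx] at B1
  have e3 : ∫ y, ‖(√3 : ℝ) • f (cons3 x y) - PhiF f f0 (cons3 x y)‖ ^ 2
      = 3 * (pair (fun X => (aCut X * aCut X) • (f X - f0 X)) (fun X => (aCut X * aCut X) • (f X - f0 X)) x).re := by
    rw [a2.2, ← integral_const_mul]
    refine integral_congr_ae (Eventually.of_forall fun y => ?_)
    simp only []
    set X := cons3 x y
    have e4 : (√3 : ℝ) • f X - PhiF f f0 X = (√3 : ℝ) • ((aCut X * aCut X) • (f X - f0 X)) := by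
      unfold PhiF chi
      rw [← smul_sub]
      congr 1
      rw [sub_smul, one_smul, pow_two]
      abel
    rw [e4, norm_smul, mul_pow, Real.norm_eq_abs, sq_abs, Real.sq_sqrt (by norm_num), inner_self_eq_norm_sq_to_K]
    norm_cast
  rw [e3]
  have h5 := (Complex.re_le_norm _).trans B1
  have e6 : (√(3 * (C1 0 * Cc 3)) * δ * Real.exp (-(sig τ * ‖x‖))) ^ 2
      = 3 * (C1 0 * (Cc 3 * δ ^ 2) * Real.exp (-(2 * sig τ * ‖x‖))) := by
    rw [mul_pow, mul_pow, Real.sq_sqrt (by have := hC1 0; have := hCc 3; positivity), ← Real.exp_nat_mul]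
    have : ((2 : ℕ) : ℝ) * -(sig τ * ‖x‖) = -(2 * sig τ * ‖x‖) := by push_cast; ring
    rw [this]
    ring
  rw [e6]
  linarith

end N2

/-! ## LEAF AG-N3: assembly -/

section N3

theorem agn_exp_neg_sq (s r : ℝ) : Real.exp (-(s * r)) ^ 2 = Real.exp (-(2 * s * r)) := by
  rw [← Real.exp_nat_mul]
  congr 1
  push_cast
  ring

/-- from the squared bound of `fiber_version` to the bound of `ChanOut`. -/
theorem agn_le_sqrt_mul_exp {a c d s r : ℝ} (ha : 0 ≤ a) (hc : 0 ≤ c) (hd : 0 ≤ d)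
    (h : a ^ 2 ≤ c * (d ^ 2 * Real.exp (-(2 * s * r)))) : a ≤ √c * d * Real.exp (-(s * r)) := by
  have hb : 0 ≤ √c * d * Real.exp (-(s * r)) := by positivity
  refine (pow_le_pow_iff_left₀ ha hb (two_ne_zero)).1 ?_
  rw [mul_pow, mul_pow, Real.sq_sqrt hc, agn_exp_neg_sq]
  linarith

/-- **Lemma 3.2, raw form.**
`F`, `F0`, `D`, `R`, `Gy j` := the versions given by `fiber_version` for `PhiF`, `√3 f0`, `√3 χ v`, `PhiR`, `PhiFgrad (succIdx j)` (`chan_reg_F`, `chan_reg_R` at the orders `k + 3`);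
`F - F0 = D` on `extΩ` (`IsVersion.sub`, `IsVersion.unique`), so the derivatives agree there (`extΩ` is open); `fiber_equation` with `chan_equation`, `formBdd_Vchan`,
`exists_formBdd 2`, `bddDeriv_V1`; `fiber_equation_op`; `density_error` + `IsVersion.norm_sq`/`IsVersion.ae_coeFn`; `true_fibre_close` + `IsVersion.ae_coeFn`. -/
theorem channel_raw {εb : ℝ} (hlow : ∀ g G, IsH1 g G → εb * (∫ x, g x ^ 2) ≤ orbitalForm g g G G)
    (τ κ Emax : ℝ) (hτ : 0 ≤ τ) (hκ : 0 < κ) :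
    ∃ C : ℕ → ℝ, (∀ k, 0 ≤ C k) ∧ ∀ (δ t En En0 : ℝ) (f f0 : Config 3 → E) (G G0 : Fin 3 × Fin 3 → Config 3 → E),
      PairData εb τ κ Emax δ t En En0 f f0 G G0 → δ ≤ 1 + 2 * Emax →
      ∃ (F F0 R : Space → FibE E) (Gy : Fin 2 × Fin 3 → Space → FibE E) (err : Space → ℝ),
        ChanOut τ C δ t En f f0 F F0 R Gy err := by
  obtain ⟨Cv, hCv, hv⟩ := fiber_version (E := E)
  obtain ⟨CF, hCF, hF⟩ := chan_reg_F (E := E) hlow τ κ Emax hτ hκ
  obtain ⟨CR, hCR, hR⟩ := chan_reg_R (E := E) hlow τ κ Emax hτ hκ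
  obtain ⟨Ce, hCe, he⟩ := density_error (E := E) hlow τ κ Emax hτ hκ
  obtain ⟨Ct, hCt, ht⟩ := true_fibre_close (E := E) hlow τ κ Emax hτ hκ
  obtain ⟨bV, -, hbV⟩ := formBdd_Vchan (E := E)
  obtain ⟨bY, -, hbY⟩ := exists_formBdd (E := E) 2
  set C : ℕ → ℝ := fun k => √(Cv k * CF (k + 3)) + √(Cv k * CR (k + 3)) + Ce k + Ct with hCdef
  have hC1 : ∀ k, √(Cv k * CF (k + 3)) ≤ C k := fun k => by
    have := Real.sqrt_nonneg (Cv k * CR (k + 3)); have := hCe k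
    simp only [hCdef]; linarith
  have hC2 : ∀ k, √(Cv k * CR (k + 3)) ≤ C k := fun k => by
    have := Real.sqrt_nonneg (Cv k * CF (k + 3)); have := hCe k
    simp only [hCdef]; linarith
  have hC3 : ∀ k, Ce k ≤ C k := fun k => by
    have := Real.sqrt_nonneg (Cv k * CF (k + 3)); have := Real.sqrt_nonneg (Cv k * CR (k + 3))
    simp only [hCdef]; linarith
  have hC4 : ∀ k, Ct ≤ C k := fun k => by
    have := Real.sqrt_nonneg (Cv k * CF (k + 3)); have := Real.sqrt_nonneg (Cv k * CR (k + 3)); have := hCe k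
    simp only [hCdef]; linarith
  refine ⟨C, fun k => (Real.sqrt_nonneg _).trans (hC1 k), ?_⟩
  intro δ t En En0 f f0 G G0 hd hδ
  have hδ0 := hd.agn_δ_nonneg
  have hf := hd.h1.mem
  have hf0 := hd.h10.mem
  have ho := isOpen_extΩ
  obtain ⟨hH1, hRm, hsol⟩ := chan_equation hd
  have hreg := hF δ t En En0 f f0 G G0 hd
  obtain ⟨F, sF, vF, bF⟩ := hv extΩ (PhiF f f0) (fun k x₀ => CF (k + 3) * Real.exp (-(2 * τ * ‖x₀‖))) ho
    (fun k x₀ hx => (hreg (k + 3) x₀ hx).1)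
  obtain ⟨F0, sF0, vF0, bF0⟩ := hv extΩ (fun X => (√3 : ℝ) • f0 X)
    (fun k x₀ => CF (k + 3) * Real.exp (-(2 * τ * ‖x₀‖))) ho (fun k x₀ hx => (hreg (k + 3) x₀ hx).2.1)
  obtain ⟨D, sD, vD, bD⟩ := hv extΩ (fun X => (√3 : ℝ) • (chi X • (f X - f0 X)))
    (fun k x₀ => CF (k + 3) * δ ^ 2 * Real.exp (-(2 * τ * ‖x₀‖))) ho (fun k x₀ hx => (hreg (k + 3) x₀ hx).2.2.1)
  obtain ⟨R, sR, vR, bR⟩ := hv extΩ (PhiR t En En0 f f0 G G0)
    (fun k x₀ => CR (k + 3) * δ ^ 2 * Real.exp (-(2 * sig τ * ‖x₀‖))) ho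
    (fun k x₀ hx => hR δ t En En0 f f0 G G0 hd (k + 3) x₀ hx)
  have hGy : ∀ j : Fin 2 × Fin 3, ∃ g : Space → FibE E, ContDiffOn ℝ ∞ g extΩ ∧
      IsVersion extΩ (PhiFgrad f f0 G G0 (succIdx j)) g := fun j => by
    obtain ⟨g, s, v, -⟩ := hv extΩ (PhiFgrad f f0 G G0 (succIdx j))
      (fun k x₀ => CF (k + 3) * Real.exp (-(2 * τ * ‖x₀‖))) ho (fun k x₀ hx => (hreg (k + 3) x₀ hx).2.2.2 j)
    exact ⟨g, s, v⟩
  choose Gy sGy vGy using hGy
  obtain ⟨err, serr, eerr, berr⟩ := he δ t En En0 f f0 G G0 hd hδ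
  have hfe := fiber_equation ho (hbV t hd.t_nonneg hd.t_le_one) (hbY t hd.t_nonneg hd.t_le_one).1 (bddDeriv_V1 t)
    (fun X _ => rfl) hH1 hRm hsol vF vR vGy (sF.of_le (WithTop.coe_le_coe.2 le_top)) sR.continuousOn
    (fun j => (sGy j).continuousOn)
  -- `F - F0 = D`
  have hsub : EqOn (fun x => F x - F0 x) D extΩ := by
    have v1 : IsVersion extΩ (fun X => PhiF f f0 X - (√3 : ℝ) • f0 X) (fun x => F x - F0 x) :=
      IsVersion.sub (agn_memLp_PhiF hf hf0) (hf0.const_smul _) vF vF0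
    have e : (fun X => PhiF f f0 X - (√3 : ℝ) • f0 X) = fun X => (√3 : ℝ) • (chi X • (f X - f0 X)) := by
      funext X
      unfold PhiF
      rw [smul_add, add_sub_cancel_left]
    rw [e] at v1
    exact IsVersion.unique ho v1 vD (sF.sub sF0).continuousOn sD.continuousOn
  refine ⟨F, F0, R, Gy, err, ?_⟩
  refine
    { F_smooth := sF
      F0_smooth := sF0
      R_smooth := sR
      F_version := vF
      F0_version := vF0
      F_bound := fun k x hx => ?_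
      F0_bound := fun k x hx => ?_
      diff_bound := fun k x hx => ?_
      R_bound := fun k x hx => ?_
      h1 := fun x hx => (hfe x hx).1
      eq := fun x hx E₂ k hk => fiber_equation_op hd.t_nonneg hd.t_le_one hx (hfe x hx).1 (hfe x hx).2 hk
      err_smooth := serr
      err_eq := ?_
      err_bound := fun k x hx => ?_
      true_close := ?_ }
  · have h1 := agn_le_sqrt_mul_exp (d := 1) (norm_nonneg _) (mul_nonneg (hCv k) (hCF (k + 3))) zero_le_one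
      (s := τ) (r := ‖x‖) (by have := bF k x hx; linarith)
    rw [mul_one] at h1
    exact h1.trans (mul_le_mul_of_nonneg_right (hC1 k) (Real.exp_pos _).le)
  · have h1 := agn_le_sqrt_mul_exp (d := 1) (norm_nonneg _) (mul_nonneg (hCv k) (hCF (k + 3))) zero_le_one
      (s := τ) (r := ‖x‖) (by have := bF0 k x hx; linarith)
    rw [mul_one] at h1
    exact h1.trans (mul_le_mul_of_nonneg_right (hC1 k) (Real.exp_pos _).le)
  · have e : iteratedFDeriv ℝ k (fun x => F x - F0 x) x = iteratedFDeriv ℝ k D x :=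
      ((hsub.eventuallyEq_of_mem (ho.mem_nhds hx)).iteratedFDeriv ℝ k).eq_of_nhds
    rw [e]
    have h1 := agn_le_sqrt_mul_exp (d := δ) (norm_nonneg _) (mul_nonneg (hCv k) (hCF (k + 3))) hδ0
      (s := τ) (r := ‖x‖) (by have := bD k x hx; linarith)
    exact h1.trans (mul_le_mul_of_nonneg_right (mul_le_mul_of_nonneg_right (hC1 k) hδ0) (Real.exp_pos _).le)
  · have h1 := agn_le_sqrt_mul_exp (d := δ) (norm_nonneg _) (mul_nonneg (hCv k) (hCR (k + 3))) hδ0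
      (s := sig τ) (r := ‖x‖) (by have := bR k x hx; linarith)
    exact h1.trans (mul_le_mul_of_nonneg_right (mul_le_mul_of_nonneg_right (hC2 k) hδ0) (Real.exp_pos _).le)
  · filter_upwards [eerr, IsVersion.norm_sq (agn_memLp_PhiF hf hf0) vF] with x e1 e2 hx
    rw [e1 hx, ← agn_pair_self_re, e2 hx, Complex.ofReal_re]
  · exact (berr k x hx).trans
      (mul_le_mul_of_nonneg_right (mul_le_mul_of_nonneg_right (hC3 k) hδ0) (Real.exp_pos _).le)
  · filter_upwards [ht δ t En En0 f f0 G G0 hd, IsVersion.ae_coeFn (agn_memLp_PhiF hf hf0) vF] with x e1 e2 hx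
    have e3 : ∫ y, ‖(√3 : ℝ) • f (cons3 x y) - F x y‖ ^ 2
        = ∫ y, ‖(√3 : ℝ) • f (cons3 x y) - PhiF f f0 (cons3 x y)‖ ^ 2 :=
      integral_congr_ae ((e2 hx).mono fun y hy => by simp only [hy])
    rw [e3]
    refine (e1 hx).trans (pow_le_pow_left₀ (by positivity) ?_ 2)
    exact mul_le_mul_of_nonneg_right (mul_le_mul_of_nonneg_right (hC4 0) hδ0) (Real.exp_pos _).le

end N3

/-! ## LEAF AG-N4: covariance -/

section N4

variable {τ δ t En : ℝ} {C : ℕ → ℝ} {f f0 : Config 3 → E} {F F0 R : Space → FibE E}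
  {Gy : Fin 2 × Fin 3 → Space → FibE E} {err : Space → ℝ}

theorem agn_map_PhiF {E' : Type*} [NormedAddCommGroup E'] [NormedSpace ℝ E'] (L : E →L[ℝ] E') (f f0 : Config 3 → E)
    (X : Config 3) : L (PhiF f f0 X) = (√3 : ℝ) • (L (f0 X) + chi X • (L (f X) - L (f0 X))) := by
  unfold PhiF
  rw [map_smul, map_add, map_smul, map_sub]

/-- simultaneous isometries (`fiber_isometry`, `chi_isometry`). -/
theorem ChanOut.isometry (h : ChanOut τ C δ t En f f0 F F0 R Gy err) (hf : MemLp f 2 volume)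
    (hf0 : MemLp f0 2 volume) (A : Space ≃ₗᵢ[ℝ] Space) (L : E →L[ℝ] E)
    (h1 : ∀ᵐ X : Config 3, f (fun i => A (X i)) = L (f X))
    (h2 : ∀ᵐ X : Config 3, f0 (fun i => A (X i)) = L (f0 X)) :
    ∀ x ∈ extΩ, ∀ᵐ y : Config 2, F (A x) (fun i => A (y i)) = L (F x y) := by
  refine fiber_isometry isOpen_extΩ (agn_memLp_PhiF hf hf0) h.F_version h.F_smooth.continuousOn L A
    (fun x hx => ?_) ?_
  · show extR < ‖A x‖
    rw [A.norm_map]; exact hx
  · filter_upwards [h1, h2] with X e1 e2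
    rw [agn_map_PhiF]
    unfold PhiF
    rw [e1, e2, chi_isometry]

/-- exchange of the ionic electrons (`fiber_swap`, `chi_swap`). -/
theorem ChanOut.swap (h : ChanOut τ C δ t En f f0 F F0 R Gy err) (hf : MemLp f 2 volume)
    (hf0 : MemLp f0 2 volume) (L : E →L[ℝ] E)
    (h1 : ∀ᵐ X : Config 3, f (X ∘ Equiv.swap 1 2) = L (f X))
    (h2 : ∀ᵐ X : Config 3, f0 (X ∘ Equiv.swap 1 2) = L (f0 X)) :
    ∀ x ∈ extΩ, ∀ᵐ y : Config 2, F x (y ∘ Equiv.swap 0 1) = L (F x y) := by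
  refine fiber_swap isOpen_extΩ (agn_memLp_PhiF hf hf0) h.F_version h.F_smooth.continuousOn L ?_
  filter_upwards [h1, h2] with X e1 e2
  rw [agn_map_PhiF]
  unfold PhiF
  rw [e1, e2, chi_swap]

/-- pointwise linear constraints (`fiber_constraint`). -/
theorem ChanOut.constraint (h : ChanOut τ C δ t En f f0 F F0 R Gy err) (hf : MemLp f 2 volume)
    (hf0 : MemLp f0 2 volume) {E' : Type*} [NormedAddCommGroup E'] [NormedSpace ℝ E'] (L : E →L[ℝ] E')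
    (h1 : ∀ᵐ X : Config 3, L (f X) = 0) (h2 : ∀ᵐ X : Config 3, L (f0 X) = 0) :
    ∀ x ∈ extΩ, ∀ᵐ y : Config 2, L (F x y) = 0 := by
  refine fiber_constraint isOpen_extΩ (agn_memLp_PhiF hf hf0) h.F_version h.F_smooth.continuousOn L ?_
  filter_upwards [h1, h2] with X e1 e2
  rw [agn_map_PhiF, e1, e2]
  simp

end N4

/-! ## LEAF AG-N5: the statement for eigenvectors -/

section N5

/-- the hypotheses of Lemma 3.2 for elements of `L2 3`. -/
structure AGData (εb τ κ Emax δ t En En0 : ℝ) (Ψ Ψ0 : L2 3) : Prop where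
  t_nonneg : 0 ≤ t
  t_le_one : t ≤ 1
  abs_En : |En| ≤ Emax
  abs_En0 : |En0| ≤ Emax
  margin : κ ≤ 2 * εb - En - τ ^ 2 / 2
  margin0 : κ ≤ 2 * εb - En0 - τ ^ 2 / 2
  mem : Ψ ∈ Eigenspace (scaledPotential 3 t) En
  mem0 : Ψ0 ∈ Eigenspace (scaledPotential 3 0) En0
  norm_le : ‖Ψ‖ ≤ 1
  norm0_le : ‖Ψ0‖ ≤ 1
  t_le : t ≤ δ
  En_le : |En - En0| ≤ δ
  diff_le : ‖Ψ - Ψ0‖ ≤ δ
  δ_le : δ ≤ 1 + 2 * Emax

/-- `isWeakSol_of_mem_eigenspace`, `nsq_coe`, `Lp.coeFn_sub`. -/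
theorem AGData.pairData {εb τ κ Emax δ t En En0 : ℝ} {Ψ Ψ0 : L2 3} (h : AGData εb τ κ Emax δ t En En0 Ψ Ψ0) :
    PairData εb τ κ Emax δ t En En0 (Ψ : Config 3 → SpinSpace 3) (Ψ0 : Config 3 → SpinSpace 3)
      (fun j => (weakGrad Ψ j : Config 3 → SpinSpace 3)) (fun j => (weakGrad Ψ0 j : Config 3 → SpinSpace 3)) := by
  obtain ⟨a1, a2⟩ := isWeakSol_of_mem_eigenspace h.t_nonneg h.t_le_one h.mem
  obtain ⟨b1, b2⟩ := isWeakSol_of_mem_eigenspace le_rfl zero_le_one h.mem0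
  refine ⟨h.t_nonneg, h.t_le_one, h.abs_En, h.abs_En0, h.margin, h.margin0, a1, b1, a2, b2, ?_, ?_, h.t_le, h.En_le, ?_⟩
  · rw [nsq_coe]
    exact pow_le_one₀ (norm_nonneg _) h.norm_le
  · rw [nsq_coe]
    exact pow_le_one₀ (norm_nonneg _) h.norm0_le
  · have e : nsq volume (fun X => (Ψ : Config 3 → SpinSpace 3) X - (Ψ0 : Config 3 → SpinSpace 3) X)
        = nsq volume ((Ψ - Ψ0 : L2 3) : Config 3 → SpinSpace 3) :=
      nsq_congr ((Lp.coeFn_sub Ψ Ψ0).symm)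
    rw [e, nsq_coe]
    exact pow_le_pow_left₀ (norm_nonneg _) h.diff_le 2

/-- **Lemma 3.2** (`lem:channel-cutoff`), constants before the data. -/
theorem channel_cutoff {εb : ℝ} (hlow : ∀ g G, IsH1 g G → εb * (∫ x, g x ^ 2) ≤ orbitalForm g g G G)
    (τ κ Emax : ℝ) (hτ : 0 ≤ τ) (hκ : 0 < κ) :
    ∃ C : ℕ → ℝ, (∀ k, 0 ≤ C k) ∧ ∀ (δ t En En0 : ℝ) (Ψ Ψ0 : L2 3), AGData εb τ κ Emax δ t En En0 Ψ Ψ0 →
      ∃ (F F0 R : Space → Fib) (Gy : Fin 2 × Fin 3 → Space → Fib) (err : Space → ℝ),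
        ChanOut τ C δ t En (Ψ : Config 3 → SpinSpace 3) (Ψ0 : Config 3 → SpinSpace 3) F F0 R Gy err := by
  obtain ⟨C, hC, h⟩ := channel_raw (E := SpinSpace 3) hlow τ κ Emax hτ hκ
  exact ⟨C, hC, fun δ t En En0 Ψ Ψ0 hd => h δ t En En0 _ _ _ _ hd.pairData hd.δ_le⟩

variable {τ δ t En : ℝ} {C : ℕ → ℝ} {Ψ Ψ0 : L2 3} {F F0 R : Space → Fib}
  {Gy : Fin 2 × Fin 3 → Space → Fib} {err : Space → ℝ}

/-- the equation in the notation of `CHDefs.lean`. -/
theorem ChanOut.eq_chanG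
    (h : ChanOut τ C δ t En (Ψ : Config 3 → SpinSpace 3) (Ψ0 : Config 3 → SpinSpace 3) F F0 R Gy err)
    {x : Space} (hx : x ∈ Ext extR) {E₂ k : ℝ} (hk : k ^ 2 / 2 = E₂ - En) :
    IsWeakSol (volume : Measure (Config 2)) dir (scaledPotential 2 t) E₂ (F x : Config 2 → SpinSpace 3)
      (fun j => (Gy j x : Config 2 → SpinSpace 3))
      ((chanG t k (Wop (E := SpinSpace 3)) F x + R x : Fib) : Config 2 → SpinSpace 3) :=
  h.eq x hx E₂ k hk

/-- the density. -/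
theorem ChanOut.density_eq
    (h : ChanOut τ C δ t En (Ψ : Config 3 → SpinSpace 3) (Ψ0 : Config 3 → SpinSpace 3) F F0 R Gy err) :
    ∀ᵐ x, x ∈ Ext extR → density Ψ x = ‖F x‖ ^ 2 + err x :=
  h.err_eq

/-- rotations about the axis. -/
theorem ChanOut.axisymmetric
    (h : ChanOut τ C δ t En (Ψ : Config 3 → SpinSpace 3) (Ψ0 : Config 3 → SpinSpace 3) F F0 R Gy err)
    (h1 : IsAxisymmetric Ψ) (h2 : IsAxisymmetric Ψ0) (a : ℝ) :
    ∀ x ∈ Ext extR, ∀ᵐ y : Config 2, F (rotZ a x) (fun i => rotZ a (y i)) = F x y :=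
  h.isometry (Lp.memLp Ψ) (Lp.memLp Ψ0) ((rotZIsometry a).toLinearIsometryEquiv rfl)
    (ContinuousLinearMap.id ℝ _) (h1 a) (h2 a)

/-- the reflection. -/
theorem ChanOut.reflection
    (h : ChanOut τ C δ t En (Ψ : Config 3 → SpinSpace 3) (Ψ0 : Config 3 → SpinSpace 3) F F0 R Gy err)
    {ε : ℂ} (h1 : HasReflectionParity ε Ψ) (h2 : HasReflectionParity ε Ψ0) :
    ∀ x ∈ Ext extR, ∀ᵐ y : Config 2, F (reflZ x) (fun i => reflZ (y i)) = ε • F x y :=
  h.isometry (Lp.memLp Ψ) (Lp.memLp Ψ0) (reflZIsometry.toLinearIsometryEquiv rfl)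
    ((ε • ContinuousLinearMap.id ℂ (SpinSpace 3)).restrictScalars ℝ) h1 h2

/-- the spin sector. -/
theorem ChanOut.sector
    (h : ChanOut τ C δ t En (Ψ : Config 3 → SpinSpace 3) (Ψ0 : Config 3 → SpinSpace 3) F F0 R Gy err)
    {μ : ℚ} (h1 : InSpinSector μ Ψ) (h2 : InSpinSector μ Ψ0) :
    ∀ x ∈ Ext extR, ∀ᵐ y : Config 2, ∀ s : SpinConfig 3, spinZ s ≠ μ → F x y s = 0 := by
  intro x hx
  rw [ae_all_iff]
  intro s
  by_cases hs : spinZ s = μ
  · exact Eventually.of_forall fun y h' => absurd hs h'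
  · have := h.constraint (Lp.memLp Ψ) (Lp.memLp Ψ0)
      ((EuclideanSpace.proj s : SpinSpace 3 →L[ℂ] ℂ).restrictScalars ℝ)
      (h1.mono fun X hX => hX s hs) (h2.mono fun X hX => hX s hs) x hx
    exact this.mono fun y hy _ => hy

/-- antisymmetry in the ionic pair. -/
theorem ChanOut.pair_antisymmetric
    (h : ChanOut τ C δ t En (Ψ : Config 3 → SpinSpace 3) (Ψ0 : Config 3 → SpinSpace 3) F F0 R Gy err)
    (h1 : IsAntisymmetric Ψ) (h2 : IsAntisymmetric Ψ0) :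
    ∀ x ∈ Ext extR, ∀ᵐ y : Config 2, ∀ s : SpinConfig 3,
      F x (y ∘ Equiv.swap 0 1) (s ∘ Equiv.swap 1 2) = - F x y s := by
  set π : Equiv.Perm (Fin 3) := Equiv.swap 1 2 with hπ
  set L : SpinSpace 3 →L[ℝ] SpinSpace 3 :=
    (-((permSpin π).toContinuousLinearEquiv : SpinSpace 3 →L[ℂ] SpinSpace 3)).restrictScalars ℝ with hL
  have hLs : ∀ (z : SpinSpace 3) (s : SpinConfig 3), L z s = - z (s ∘ π) := fun z s => by
    have : L z = - permSpin π z := rfl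
    rw [this, PiLp.neg_apply, permSpin_apply]
  have hππ : ∀ s : SpinConfig 3, (s ∘ π) ∘ π = s := fun s => by
    funext i; simp [hπ]
  have key : ∀ {Φ : L2 3}, IsAntisymmetric Φ → ∀ᵐ X : Config 3, Φ (X ∘ π) = L (Φ X) := by
    intro Φ hΦ
    filter_upwards [hΦ π] with X hX
    ext s
    have := hX (s ∘ π)
    rw [hππ] at this
    rw [this, hLs, hπ, Equiv.Perm.sign_swap (by decide)]
    simp
  intro x hx
  filter_upwards [h.swap (Lp.memLp Ψ) (Lp.memLp Ψ0) L (key h1) (key h2) x hx] with y hy s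
  rw [hy, hLs, hππ]

end N5

/-! ## LEAF AG-N6: smoothness of the density off the nuclei -/

section N6

/-- **the density of an eigenfunction is `C^∞` off the nuclei** (`isWeakSol_of_mem_eigenspace`, `eigen_creg`, `pair_smooth_off_nuclei` with `A = B = Ψ`;
`density Ψ x = 3 Re (pair Ψ Ψ x)`; `eqOn_of_ae_eq` on the open set `nucleiᶜ`). -/
theorem density_smooth {t En : ℝ} (h0 : 0 ≤ t) (h1 : t ≤ 1) {Ψ : L2 3}
    (h : Ψ ∈ Eigenspace (scaledPotential 3 t) En) {n : Space → ℝ} (hn : ContinuousOn n nucleiᶜ)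
    (hne : n =ᵐ[volume] density Ψ) : ContDiffOn ℝ ∞ n nucleiᶜ := by
  obtain ⟨a1, a2⟩ := isWeakSol_of_mem_eigenspace h0 h1 h
  have hA := eigen_creg h0 h1 a1 a2
  obtain ⟨n₀, hs, he⟩ := pair_smooth_off_nuclei (Lp.memLp Ψ) (Lp.memLp Ψ) hA hA
  have hset : {x : Space | x ≠ bigD • ez ∧ x ≠ -(bigD • ez)} = nucleiᶜ := by
    ext x
    simp [nuclei, not_or]
  rw [hset] at hs
  have ho : IsOpen (nucleiᶜ : Set Space) := by
    have : (nuclei : Set Space).Finite := by unfold nuclei; exact (Set.finite_singleton _).insert _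
    exact this.isClosed.isOpen_compl
  have hs' : ContDiffOn ℝ ∞ (fun x => 3 * (n₀ x).re) nucleiᶜ :=
    contDiffOn_const.mul (Complex.reCLM.contDiff.comp_contDiffOn hs)
  refine hs'.congr (eqOn_of_ae_eq ho hn hs'.continuousOn ?_)
  filter_upwards [hne, he] with x e1 e2 _
  rw [e1, ← e2, agn_pair_self_re]
  rfl

end N6

end Claimed.Open.R278.AG
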