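import Claimed.Open.R278.AGBridge

/-!
# Result 278, layer AG, file 8: weighted bounds and cluster regularity of the three-electron states

Raw functions on `Config 3`, values in a complex Hilbert space `E`.  `PairData` bundles a solution `f` at coupling `t`, energy
`En`, and a solution `f0` at coupling `0`, energy `En0`, with ONE smallness parameter `δ`
(`t ≤ δ`, `|En - En0| ≤ δ`, `‖f - f0‖₂ ≤ δ`).  Uniform version of the paper: `δ = C_D λ`; fixed coupling version (Prop 3.8): any `δ`.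

Results (`w = e^{τ ϱ}`; all constants are chosen before the data):
* `coul_reg`     : `reg_main` for `scaledPotential m t` and a cluster `S`;
* `state_weight` : (3.13), (3.14) `‖w f‖_{H¹} ≤ C (‖w g‖ + ‖f‖)`;
* `diff_sol`, `diff_weight` : equation of `v = f - f0` and (3.15) `‖w v‖_{H¹} ≤ C δ`;
* `state_reg`, `state_reg_zero`, `diff_reg` : cluster regularity of `f`, `f0`, `v` with constants `C K²`, `C K²`, `C K² δ²`.
-/

open MeasureTheory Filter Topology Set
open scoped ContDiff InnerProductSpace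

noncomputable section

set_option linter.unusedSectionVars false

namespace Claimed.Open.R278.AG

variable {E : Type*} [NormedAddCommGroup E] [InnerProductSpace ℂ E] [CompleteSpace E]

/-- the exponential weight `e^{τ ϱ}`. -/
def wexp {m : ℕ} (τ : ℝ) (X : Config m) : ℝ := Real.exp (τ * rho X)

/-- the hypotheses on a pair (state at coupling `t`, state at coupling `0`). -/
structure PairData (εb τ κ Emax δ t En En0 : ℝ) (f f0 : Config 3 → E) (G G0 : Fin 3 × Fin 3 → Config 3 → E) :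
    Prop where
  t_nonneg : 0 ≤ t
  t_le_one : t ≤ 1
  abs_En : |En| ≤ Emax
  abs_En0 : |En0| ≤ Emax
  margin : κ ≤ 2 * εb - En - τ ^ 2 / 2
  margin0 : κ ≤ 2 * εb - En0 - τ ^ 2 / 2
  h1 : H1 (volume : Measure (Config 3)) dir f G
  h10 : H1 (volume : Measure (Config 3)) dir f0 G0
  sol : IsWeakSol (volume : Measure (Config 3)) dir (scaledPotential 3 t) En f G (fun _ => 0)
  sol0 : IsWeakSol (volume : Measure (Config 3)) dir (scaledPotential 3 0) En0 f0 G0 (fun _ => 0)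
  norm_le : nsq volume f ≤ 1
  norm0_le : nsq volume f0 ≤ 1
  t_le : t ≤ δ
  En_le : |En - En0| ≤ δ
  diff_le : nsq volume (fun X => f X - f0 X) ≤ δ ^ 2

/-- the source of the equation of `f - f0`: `(En - En0 - t V_ee) f0`. -/
def diffSource (t En En0 : ℝ) (f0 : Config 3 → E) : Config 3 → E :=
  fun X => (En - En0 - t * repulsion X) • f0 X

/-! ## LEAF AG-S1: `reg_main` for Coulomb potentials -/

section S1

theorem lin_ccoef_fun {m : ℕ} (S : Finset (Fin m)) : (fun a => lin dir (ccoef S a)) = cdir S :=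
  funext fun a => lin_ccoef S a

theorem coul_split {m : ℕ} {δ₀ : ℝ} (hδ : 0 < δ₀) {t : ℝ} {S : Finset (Fin m)} {U : Set (Config m)}
    (h1 : U ⊆ regNuc δ₀ S) (h2 : U ⊆ regSep δ₀ S ∨ t = 0) :
    ∀ X ∈ U, scaledPotential m t X = Vinv m t S X + Vcross m t δ₀ S X := by
  intro X hX
  rcases h2 with h2 | rfl
  · exact scaledPotential_eq_of_mem hδ t S (h1 hX) (h2 hX)
  · exact scaledPotential_zero_eq_of_mem hδ S (h1 hX)

/-- **Cluster regularity, Coulomb form.**  Instantiate `reg_main` with `v = dir`, `c = ccoef S` (`lin_ccoef`, `abs_ccoef_le`),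
`Vi = Vinv m t S`, `Vc = Vcross m t δ₀ S` (`exists_formBdd`, `Vinv_add_smul_cdir`, `Vcross_bound`,
`scaledPotential_eq_of_mem`, `scaledPotential_zero_eq_of_mem`). -/
theorem coul_reg (m k : ℕ) (δ₀ Emax : ℝ) (hδ : 0 < δ₀) :
    ∃ C : ℝ, 0 ≤ C ∧ ∀ (t : ℝ) (S : Finset (Fin m)) (U : Set (Config m)) (w : Config m → ℝ) (En : ℝ)
      (f g : Config m → E) (G : Fin m × Fin 3 → Config m → E) (M Mg : ℝ),
      0 ≤ t → t ≤ 1 → |En| ≤ Emax → (∀ X, 0 ≤ w X) → 0 ≤ Mg →
      U ⊆ regNuc δ₀ S → (U ⊆ regSep δ₀ S ∨ t = 0) →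
      H1 (volume : Measure (Config m)) dir f G → MemLp g 2 volume →
      IsWeakSolOn (volume : Measure (Config m)) dir U (scaledPotential m t) En f G g → WBound volume w f G M →
      (∀ k' < k, ∀ (η : Config m → ℝ) (K : ℝ), 0 ≤ K → Adm U w (2 * k' + 1) K η →
        DirL2 volume (cdir S) k' (fun X => η X • g X) (K ^ 2 * Mg)) →
      ∀ (η : Config m → ℝ) (K : ℝ), 0 ≤ K → Adm U w (2 * k + 1) K η →
        DirH1 volume dir (cdir S) k (fun X => η X • f X) (mulGrad dir η f G) (C * K ^ 2 * (M + Mg)) := by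
  obtain ⟨b, _, hb⟩ := exists_formBdd (E := E) m
  obtain ⟨CV, _, hCV⟩ := Vcross_bound m hδ (2 * k + 1)
  obtain ⟨C, hC, hmain⟩ := reg_main (μ := (volume : Measure (Config m))) (E := E) (v := dir) (κ := Fin 3)
    k b Emax CV 1
  refine ⟨C, hC, ?_⟩
  intro t S U w En f g G M Mg ht0 ht1 hEn hw hMg hU1 hU2 hf hg hs hW hsrc η K hK hη
  have := hmain U w (scaledPotential m t) (Vinv m t S) (Vcross m t δ₀ S) (1 / 4) b En (ccoef S) f g G M Mg hEn
    (fun a j => abs_ccoef_le S a j) hw hMg (hb t ht0 ht1).1 ((hb t ht0 ht1).2 S)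
    (fun a X s => by rw [lin_ccoef]; exact Vinv_add_smul_cdir t S a X s)
    (hCV t ht0 ht1 S).1 (hCV t ht0 ht1 S).2 (coul_split hδ hU1 hU2) hf hg hs hW
    (by rw [lin_ccoef_fun]; exact hsrc) η K hK hη
  rwa [lin_ccoef_fun] at this

/-- the same for the gradient components (`reg_grad`). -/
theorem coul_reg_grad (m k : ℕ) (δ₀ Emax : ℝ) (hδ : 0 < δ₀) :
    ∃ C : ℝ, 0 ≤ C ∧ ∀ (t : ℝ) (S : Finset (Fin m)) (U : Set (Config m)) (w : Config m → ℝ) (En : ℝ)
      (f g : Config m → E) (G : Fin m × Fin 3 → Config m → E) (M Mg : ℝ),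
      0 ≤ t → t ≤ 1 → |En| ≤ Emax → (∀ X, 0 ≤ w X) → 0 ≤ Mg →
      U ⊆ regNuc δ₀ S → (U ⊆ regSep δ₀ S ∨ t = 0) →
      H1 (volume : Measure (Config m)) dir f G → MemLp g 2 volume →
      IsWeakSolOn (volume : Measure (Config m)) dir U (scaledPotential m t) En f G g → WBound volume w f G M →
      (∀ k' < k, ∀ (η : Config m → ℝ) (K : ℝ), 0 ≤ K → Adm U w (2 * k' + 1) K η →
        DirL2 volume (cdir S) k' (fun X => η X • g X) (K ^ 2 * Mg)) →
      ∀ (η : Config m → ℝ) (K : ℝ), 0 ≤ K → Adm U w (2 * k + 2) K η → ∀ j,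
        DirL2 volume (cdir S) k (fun X => η X • G j X) (C * K ^ 2 * (M + Mg)) := by
  obtain ⟨b, _, hb⟩ := exists_formBdd (E := E) m
  obtain ⟨CV, _, hCV⟩ := Vcross_bound m hδ (2 * k + 1)
  obtain ⟨C, hC, hmain⟩ := reg_grad (μ := (volume : Measure (Config m))) (E := E) (v := dir) (κ := Fin 3)
    k b Emax CV 1
  refine ⟨C, hC, ?_⟩
  intro t S U w En f g G M Mg ht0 ht1 hEn hw hMg hU1 hU2 hf hg hs hW hsrc η K hK hη j
  have := hmain U w (scaledPotential m t) (Vinv m t S) (Vcross m t δ₀ S) (1 / 4) b En (ccoef S) f g G M Mg hEn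
    (fun a j => abs_ccoef_le S a j) hw hMg (hb t ht0 ht1).1 ((hb t ht0 ht1).2 S)
    (fun a X s => by rw [lin_ccoef]; exact Vinv_add_smul_cdir t S a X s)
    (hCV t ht0 ht1 S).1 (hCV t ht0 ht1 S).2 (coul_split hδ hU1 hU2) hf hg hs hW
    (by rw [lin_ccoef_fun]; exact hsrc) η K hK hη j
  rwa [lin_ccoef_fun] at this

end S1

/-! ## LEAF AG-S2: exponential weights -/

section S2

/-- **(3.13), (3.14).**  `agmon` with `ϱ = rho` (`contDiff_rho`, `sum_dd_rho_sq_le`), `exists_formBdd`, and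
`extBound_coulomb` at a radius `R ≥ max R₁ (2 C/κ)`, so that `Sg - En - τ²/2 ≥ κ/2`. -/
theorem state_weight {εb : ℝ} (hlow : ∀ g G, IsH1 g G → εb * (∫ x, g x ^ 2) ≤ orbitalForm g g G G)
    (τ κ Emax : ℝ) (hτ : 0 ≤ τ) (hκ : 0 < κ) :
    ∃ C : ℝ, 0 ≤ C ∧ ∀ (t En : ℝ) (f g : Config 3 → E) (G : Fin 3 × Fin 3 → Config 3 → E),
      0 ≤ t → t ≤ 1 → |En| ≤ Emax → κ ≤ 2 * εb - En - τ ^ 2 / 2 →
      H1 (volume : Measure (Config 3)) dir f G →
      IsWeakSol (volume : Measure (Config 3)) dir (scaledPotential 3 t) En f G g →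
      MemLp (fun X => wexp τ X • g X) 2 volume →
      WBound volume (wexp τ) f G (C * (nsq volume (fun X => wexp τ X • g X) + nsq volume f)) := by
  obtain ⟨b, _, hb⟩ := exists_formBdd (E := E) 3
  obtain ⟨Ce, R₁, hCe, hR₁, hext⟩ := extBound_coulomb (E := E) hlow
  set R : ℝ := max R₁ (2 * Ce / κ) with hR
  have hR0 : 0 < R := lt_of_lt_of_le hR₁ (le_max_left _ _)
  have hCR : Ce / R ≤ κ / 2 := by
    rw [div_le_iff₀ hR0]
    have : 2 * Ce / κ ≤ R := le_max_right _ _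
    rw [div_le_iff₀ hκ] at this
    linarith
  obtain ⟨C, hC, hag⟩ := agmon (μ := (volume : Measure (Config 3))) (E := E) (v := dir) τ (κ / 2) b R Emax hτ
    (by positivity)
  refine ⟨C, hC, ?_⟩
  intro t En f g G ht0 ht1 hEn hmargin hf hs hg
  have h1 := hag rho (scaledPotential 3 t) En (2 * εb - Ce / R) f g G contDiff_rho (fun X => (rho_pos X).le)
    sum_dd_rho_sq_le (hb t ht0 ht1).1 (hext R (le_max_left _ _) t ht0 ht1) (by linarith) hEn hf hs hg
  refine WBound.mono h1 (mul_le_mul_of_nonneg_left ?_ hC)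
  have h2 : ∫ X in {X : Config 3 | rho X ≤ R + 1}, ‖f X‖ ^ 2 ≤ nsq volume f :=
    setIntegral_le_integral (integrable_norm_sq hf.mem) (Eventually.of_forall fun X => sq_nonneg _)
  have h3 : nsq volume (fun X => Real.exp (τ * rho X) • g X) = nsq volume (fun X => wexp τ X • g X) := rfl
  linarith

/-- the equation of the difference: `(H_t - En)(f - f0) = (En - En0 - t V_ee) f0`
(`IsWeakSolOn.change` for `f0`, `repulsion_smul_memLp`, `IsWeakSolOn.sub`). -/
theorem diff_sol {εb τ κ Emax δ t En En0 : ℝ} {f f0 : Config 3 → E} {G G0 : Fin 3 × Fin 3 → Config 3 → E}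
    (h : PairData εb τ κ Emax δ t En En0 f f0 G G0) :
    MemLp (diffSource t En En0 f0) 2 volume ∧
    IsWeakSol (volume : Measure (Config 3)) dir (scaledPotential 3 t) En (fun X => f X - f0 X)
      (fun j X => G j X - G0 j X) (diffSource t En En0 f0) := by
  obtain ⟨b, _, hb⟩ := exists_formBdd (E := E) 3
  obtain ⟨Cr, _, hrep⟩ := repulsion_smul_memLp (E := E) (m := 3)
  have hV := (hb t h.t_nonneg h.t_le_one).1
  have hV0 := (hb 0 le_rfl zero_le_one).1
  have m1 := (hrep f0 G0 h.h10).1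
  have hm : MemLp (diffSource t En En0 f0) 2 volume := by
    have := (h.h10.mem.const_smul (En - En0)).sub (m1.const_smul t)
    have e : diffSource t En En0 f0 = (En - En0) • f0 - t • fun X => repulsion X • f0 X := by
      funext X
      simp only [diffSource, Pi.sub_apply, Pi.smul_apply, sub_smul, mul_smul]
    rw [e]; exact this
  refine ⟨hm, ?_⟩
  have hz : MemLp (fun _ : Config 3 => (0 : E)) 2 volume := MemLp.zero
  have h2 := IsWeakSolOn.change (En' := En) hV0 hV h.h10 hz h.sol0 (r := fun X => -diffSource t En En0 f0 X) hm.neg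
    (Eventually.of_forall fun X _ => by
      simp only [diffSource, scaledPotential, ← neg_smul]
      congr 1
      ring)
  have hm2 : MemLp (fun X => (0 : E) + -diffSource t En En0 f0 X) 2 volume := hz.add hm.neg
  have h3 := IsWeakSolOn.sub hV h.h1 h.h10 hz hm2 h.sol h2
  have e : (fun X => (0 : E) - (0 + -diffSource t En En0 f0 X)) = diffSource t En En0 f0 := by
    funext X; simp
  rwa [e] at h3

theorem wexp_pos {m : ℕ} (τ : ℝ) (X : Config m) : 0 < wexp τ X := Real.exp_pos _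

/-- the weighted zero-coupling state is an `H¹` pair with a uniform bound. -/
theorem state_weight_h1 {εb : ℝ} (hlow : ∀ g G, IsH1 g G → εb * (∫ x, g x ^ 2) ≤ orbitalForm g g G G)
    (τ κ Emax : ℝ) (hτ : 0 ≤ τ) (hκ : 0 < κ) :
    ∃ C : ℝ, 0 ≤ C ∧ ∀ (t En : ℝ) (f : Config 3 → E) (G : Fin 3 × Fin 3 → Config 3 → E),
      0 ≤ t → t ≤ 1 → |En| ≤ Emax → κ ≤ 2 * εb - En - τ ^ 2 / 2 →
      H1 (volume : Measure (Config 3)) dir f G →
      IsWeakSol (volume : Measure (Config 3)) dir (scaledPotential 3 t) En f G (fun _ => 0) → nsq volume f ≤ 1 →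
      WBound volume (wexp τ) f G C ∧
      H1 volume dir (fun X => wexp τ X • f X) (mulGrad dir (wexp τ) f G) ∧
      h1sq volume (fun X => wexp τ X • f X) (mulGrad dir (wexp τ) f G) ≤ (2 + 2 * τ ^ 2) * C := by
  obtain ⟨C, hC, hw⟩ := state_weight (E := E) hlow τ κ Emax hτ hκ
  refine ⟨C, hC, ?_⟩
  intro t En f G ht0 ht1 hEn hmargin hf hs hn
  have hz : MemLp (fun X : Config 3 => wexp τ X • (0 : E)) 2 volume := by
    simp only [smul_zero]; exact MemLp.zero
  have h1 := hw t En f (fun _ => 0) G ht0 ht1 hEn hmargin hf hs hz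
  have e0 : nsq volume (fun X : Config 3 => wexp τ X • (0 : E)) = 0 := by simp [nsq]
  rw [e0, zero_add] at h1
  have h2 : WBound volume (wexp τ) f G C := h1.mono (by
    calc C * nsq volume f ≤ C * 1 := mul_le_mul_of_nonneg_left hn hC
      _ = C := mul_one _)
  have h3 := WBound.h1 (μ := (volume : Measure (Config 3))) (v := dir) contDiff_rho sum_dd_rho_sq_le (τ := τ) hf h2
  exact ⟨h2, h3.1, h3.2⟩

/-- the weighted source: `‖e^{τϱ} (En - En0 - t V_ee) f0‖ ≤ C δ` (`WBound.h1` makes `e^{τϱ} f0` an `H¹` pair,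
then `repulsion_smul_memLp`). -/
theorem diff_source_weight {εb : ℝ} (hlow : ∀ g G, IsH1 g G → εb * (∫ x, g x ^ 2) ≤ orbitalForm g g G G)
    (τ κ Emax : ℝ) (hτ : 0 ≤ τ) (hκ : 0 < κ) :
    ∃ C : ℝ, 0 ≤ C ∧ ∀ (δ t En En0 : ℝ) (f f0 : Config 3 → E) (G G0 : Fin 3 × Fin 3 → Config 3 → E),
      PairData εb τ κ Emax δ t En En0 f f0 G G0 →
      MemLp (fun X => wexp τ X • diffSource t En En0 f0 X) 2 volume ∧
        nsq volume (fun X => wexp τ X • diffSource t En En0 f0 X) ≤ C * δ ^ 2 := by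
  obtain ⟨C1, hC1, hw⟩ := state_weight_h1 (E := E) hlow τ κ Emax hτ hκ
  obtain ⟨Cr, hCr, hrep⟩ := repulsion_smul_memLp (E := E) (m := 3)
  set C2 : ℝ := (2 + 2 * τ ^ 2) * C1 with hC2
  have hC20 : 0 ≤ C2 := by positivity
  refine ⟨2 * C2 + 2 * (Cr * C2), by positivity, ?_⟩
  intro δ t En En0 f f0 G G0 h
  obtain ⟨_, hH, hb⟩ := hw 0 En0 f0 G0 le_rfl zero_le_one h.abs_En0 h.margin0 h.h10 h.sol0 h.norm0_le
  obtain ⟨m1, n1⟩ := hrep _ _ hH
  have e : (fun X => wexp τ X • diffSource t En En0 f0 X)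
      = fun X => (En - En0) • (wexp τ X • f0 X) - t • (repulsion X • (wexp τ X • f0 X)) := by
    funext X
    simp only [diffSource, smul_smul, ← sub_smul]
    congr 1
    ring
  have ma := hH.mem.const_smul (En - En0)
  have mb := m1.const_smul t
  rw [e]
  refine ⟨ma.sub mb, (nsq_sub_le ma mb).trans ?_⟩
  have a1 : nsq volume ((En - En0) • fun X => wexp τ X • f0 X) = (En - En0) ^ 2 * nsq volume (fun X => wexp τ X • f0 X) :=
    nsq_real_smul _ _
  have a2 : nsq volume (t • fun X => repulsion X • (wexp τ X • f0 X))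
      = t ^ 2 * nsq volume (fun X => repulsion X • (wexp τ X • f0 X)) := nsq_real_smul _ _
  rw [a1, a2]
  have b1 : (En - En0) ^ 2 ≤ δ ^ 2 := by
    rw [← sq_abs (En - En0)]
    exact pow_le_pow_left₀ (abs_nonneg _) h.En_le 2
  have b2 : t ^ 2 ≤ δ ^ 2 := pow_le_pow_left₀ h.t_nonneg h.t_le 2
  have b3 : nsq volume (fun X => wexp τ X • f0 X) ≤ C2 := (nsq_le_h1sq _ _).trans hb
  have b4 : ∑ j, nsq volume (mulGrad dir (wexp τ) f0 G0 j) ≤ C2 := by
    refine le_trans ?_ hb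
    unfold h1sq
    linarith [nsq_nonneg (μ := (volume : Measure (Config 3))) (fun X => wexp τ X • f0 X)]
  have b5 : nsq volume (fun X => repulsion X • (wexp τ X • f0 X)) ≤ Cr * C2 :=
    n1.trans (mul_le_mul_of_nonneg_left b4 hCr)
  have c1 : (En - En0) ^ 2 * nsq volume (fun X => wexp τ X • f0 X) ≤ δ ^ 2 * C2 :=
    mul_le_mul b1 b3 (nsq_nonneg _) (sq_nonneg _)
  have c2 : t ^ 2 * nsq volume (fun X => repulsion X • (wexp τ X • f0 X)) ≤ δ ^ 2 * (Cr * C2) :=
    mul_le_mul b2 b5 (nsq_nonneg _) (sq_nonneg _)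
  linarith

/-- **(3.15)** `‖e^{τϱ}(f - f0)‖_{H¹}² ≤ C δ²`. -/
theorem diff_weight {εb : ℝ} (hlow : ∀ g G, IsH1 g G → εb * (∫ x, g x ^ 2) ≤ orbitalForm g g G G)
    (τ κ Emax : ℝ) (hτ : 0 ≤ τ) (hκ : 0 < κ) :
    ∃ C : ℝ, 0 ≤ C ∧ ∀ (δ t En En0 : ℝ) (f f0 : Config 3 → E) (G G0 : Fin 3 × Fin 3 → Config 3 → E),
      PairData εb τ κ Emax δ t En En0 f f0 G G0 →
      WBound volume (wexp τ) (fun X => f X - f0 X) (fun j X => G j X - G0 j X) (C * δ ^ 2) := by
  obtain ⟨C1, hC1, hw⟩ := state_weight (E := E) hlow τ κ Emax hτ hκ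
  obtain ⟨C2, hC2, hs⟩ := diff_source_weight (E := E) hlow τ κ Emax hτ hκ
  refine ⟨C1 * (C2 + 1), by positivity, ?_⟩
  intro δ t En En0 f f0 G G0 h
  obtain ⟨m1, n1⟩ := hs δ t En En0 f f0 G G0 h
  have h1 := hw t En _ _ _ h.t_nonneg h.t_le_one h.abs_En h.margin (h.h1.sub h.h10) (diff_sol h).2 m1
  refine h1.mono ?_
  calc _ ≤ C1 * (C2 * δ ^ 2 + δ ^ 2) := mul_le_mul_of_nonneg_left (add_le_add n1 h.diff_le) hC1
    _ = _ := by ring

end S2

/-! ## LEAF AG-S3: cluster regularity of the states -/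

section S3

/-- the cluster region for coupling `t > 0`. -/
def creg {m : ℕ} (δ₀ : ℝ) (S : Finset (Fin m)) : Set (Config m) := regNuc δ₀ S ∩ regSep δ₀ S

theorem DirL2.zero' {m : ℕ} {κ : Type*} (D : κ → Config m) (k : ℕ) :
    DirL2 (volume : Measure (Config m)) D k (fun _ => (0 : E)) 0 := by
  have hb : MemLp (fun _ : Config m => (0 : E)) 2 volume ∧ nsq volume (fun _ : Config m => (0 : E)) ≤ 0 :=
    ⟨MemLp.zero, by simp [nsq]⟩
  induction k with
  | zero => exact hb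
  | succ k ih => exact ⟨hb, fun a => ⟨fun _ => 0, (WD.zero (D a)).weak, ih⟩⟩

theorem zero_source_reg {m : ℕ} (S : Finset (Fin m)) (U : Set (Config m)) (w : Config m → ℝ) (k : ℕ) :
    ∀ k' < k, ∀ (η : Config m → ℝ) (K : ℝ), 0 ≤ K → Adm U w (2 * k' + 1) K η →
      DirL2 volume (cdir S) k' (fun X => η X • (fun _ => (0 : E)) X) (K ^ 2 * 0) := by
  intro k' _ η K _ _
  simp only [smul_zero, mul_zero]
  exact DirL2.zero' _ k'

/-- regularity of `f` and of `f0` on the cluster regions, weight `e^{τϱ}`: constants `C K²`.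
(`coul_reg` with `g = 0`, `Mg = 0`, `M` from `state_weight`.) -/
theorem state_reg {εb : ℝ} (hlow : ∀ g G, IsH1 g G → εb * (∫ x, g x ^ 2) ≤ orbitalForm g g G G)
    (k : ℕ) (δ₀ τ κ Emax : ℝ) (hδ : 0 < δ₀) (hτ : 0 ≤ τ) (hκ : 0 < κ) :
    ∃ C : ℝ, 0 ≤ C ∧ ∀ (δ t En En0 : ℝ) (f f0 : Config 3 → E) (G G0 : Fin 3 × Fin 3 → Config 3 → E),
      PairData εb τ κ Emax δ t En En0 f f0 G G0 → ∀ (S : Finset (Fin 3)) (η : Config 3 → ℝ) (K : ℝ), 0 ≤ K →
      (Adm (creg δ₀ S) (wexp τ) (2 * k + 1) K η →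
        DirH1 volume dir (cdir S) k (fun X => η X • f X) (mulGrad dir η f G) (C * K ^ 2)) ∧
      (Adm (regNuc δ₀ S) (wexp τ) (2 * k + 1) K η →
        DirH1 volume dir (cdir S) k (fun X => η X • f0 X) (mulGrad dir η f0 G0) (C * K ^ 2)) := by
  obtain ⟨Cw, hCw, hw⟩ := state_weight_h1 (E := E) hlow τ κ Emax hτ hκ
  obtain ⟨Cr, hCr, hr⟩ := coul_reg (E := E) 3 k δ₀ Emax hδ
  refine ⟨Cr * Cw, by positivity, ?_⟩
  intro δ t En En0 f f0 G G0 h S η K hK
  have hz : MemLp (fun _ : Config 3 => (0 : E)) 2 volume := MemLp.zero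
  constructor
  · intro hη
    have W := (hw t En f G h.t_nonneg h.t_le_one h.abs_En h.margin h.h1 h.sol h.norm_le).1
    have := hr t S (creg δ₀ S) (wexp τ) En f (fun _ => 0) G Cw 0 h.t_nonneg h.t_le_one h.abs_En
      (fun X => (wexp_pos τ X).le) le_rfl inter_subset_left (Or.inl inter_subset_right) h.h1 hz
      (h.sol.mono (subset_univ _)) W (zero_source_reg S _ _ k) η K hK hη
    exact this.mono (le_of_eq (by ring))
  · intro hη
    have W := (hw 0 En0 f0 G0 le_rfl zero_le_one h.abs_En0 h.margin0 h.h10 h.sol0 h.norm0_le).1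
    have := hr 0 S (regNuc δ₀ S) (wexp τ) En0 f0 (fun _ => 0) G0 Cw 0 le_rfl zero_le_one h.abs_En0
      (fun X => (wexp_pos τ X).le) le_rfl subset_rfl (Or.inr rfl) h.h10 hz
      (h.sol0.mono (subset_univ _)) W (zero_source_reg S _ _ k) η K hK hη
    exact this.mono (le_of_eq (by ring))

theorem inv_pair_invariant {S : Finset (Fin 3)} {i j : Fin 3} (hS : i ∈ S ↔ j ∈ S) (a : Fin 3) (X : Config 3) (s : ℝ) :
    1 / ‖diffL i j (X + s • cdir S a) - 0‖ = 1 / ‖diffL i j X - 0‖ := by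
  have : diffL i j (X + s • cdir S a) = diffL i j X := by
    by_cases hi : i ∈ S
    · have hj : j ∈ S := hS.1 hi
      simp [diffL, evL, cdir, hi, hj]
    · have hj : j ∉ S := fun hj => hi (hS.2 hj)
      simp [diffL, evL, cdir, hi, hj]
  rw [this]

/-- regularity of the source `(En - En0 - t V_ee) f0`: constants `C K² δ²`.  Split `V_ee` into the pairs which are invariant
under the translations of `S` (`DirH1.invariant_mul` with `V₁ = 1/|x_i - x_j|`, `formBdd_inv_sq`, `memLp_inv_restrict`) and the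
cross pairs (on `tsupport η ⊆ regSep δ₀ S` they equal `regK δ₀ (x_i - x_j)`: `Adm.mul_smooth`, `bddDeriv_regK`,
`BddDeriv.comp_affine`); use `state_reg` for `f0`. -/
theorem diff_source_reg {εb : ℝ} (hlow : ∀ g G, IsH1 g G → εb * (∫ x, g x ^ 2) ≤ orbitalForm g g G G)
    (k : ℕ) (δ₀ τ κ Emax : ℝ) (hδ : 0 < δ₀) (hτ : 0 ≤ τ) (hκ : 0 < κ) :
    ∃ C : ℝ, 0 ≤ C ∧ ∀ (δ t En En0 : ℝ) (f f0 : Config 3 → E) (G G0 : Fin 3 × Fin 3 → Config 3 → E),
      PairData εb τ κ Emax δ t En En0 f f0 G G0 → ∀ (S : Finset (Fin 3)) (η : Config 3 → ℝ) (K : ℝ), 0 ≤ K →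
      Adm (creg δ₀ S) (wexp τ) (2 * k + 1) K η →
        DirL2 volume (cdir S) k (fun X => η X • diffSource t En En0 f0 X) (K ^ 2 * (C * δ ^ 2)) := by
  obtain ⟨C0, hC0, hreg⟩ := state_reg (E := E) hlow k δ₀ τ κ Emax hδ hτ hκ
  have hK' := bddDeriv_regK hδ
  choose B hB0 hB using fun p : Fin 3 × Fin 3 => BddDeriv.db_affine hK' (diffL p.1 p.2) (2 * k + 1)
  set B' : ℝ := ∑ p, B p with hB'
  have hB'0 : 0 ≤ B' := Finset.sum_nonneg fun i _ => hB0 i
  have hBp : ∀ p, B p ≤ B' := fun p => Finset.single_le_sum (f := B) (fun i _ => hB0 i) (Finset.mem_univ p)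
  set Cp : ℝ := (4 * (Fintype.card (Fin 3 × Fin 3) : ℝ) + 0) * C0 + C0 * (2 ^ (2 * k + 1) * B') ^ 2 with hCp
  have hCp0 : 0 ≤ Cp := by positivity
  set N : ℝ := ((Finset.univ : Finset (Fin 3 × Fin 3)).card : ℝ) with hN
  refine ⟨2 * C0 + 2 * (N ^ 2 * Cp), by positivity, ?_⟩
  intro δ t En En0 f f0 G G0 h S η K hK hη
  have hw0 : ∀ X : Config 3, 0 ≤ wexp τ X := fun X => (wexp_pos τ X).le
  have hη' : Adm (regNuc δ₀ S) (wexp τ) (2 * k + 1) K η := hη.mono inter_subset_left hw0 le_rfl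
  have A0 := (hreg δ t En En0 f f0 G G0 h S η K hK).2 hη'
  have hK2 : 0 ≤ K ^ 2 := sq_nonneg K
  -- one pair
  have hpair : ∀ p : Fin 3 × Fin 3, DirL2 volume (cdir S) k
      (fun X => (if p.1 < p.2 then 1 / ‖X p.1 - X p.2‖ else 0) • (η X • f0 X)) (Cp * K ^ 2) := by
    intro p
    by_cases hp : p.1 < p.2
    · simp only [hp, if_true]
      by_cases hS : (p.1 ∈ S ↔ p.2 ∈ S)
      · have h1 := DirH1.invariant_mul (V₁ := fun X : Config 3 => 1 / ‖diffL p.1 p.2 X - 0‖) (by norm_num) le_rfl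
          (formBdd_inv_sq (E := E) (diffL p.1 p.2) 0 p.1 (diffL_dir hp.ne))
          (fun a X s => inv_pair_invariant hS a X s)
          (fun Kc hKc => memLp_inv_restrict (diffL p.1 p.2) 0 p.1 (diffL_dir hp.ne) hKc) A0
        have e : (fun X : Config 3 => (1 / ‖diffL p.1 p.2 X - 0‖) • (η X • f0 X))
            = fun X => (1 / ‖X p.1 - X p.2‖) • (η X • f0 X) := by
          funext X; simp [diffL, evL]
        rw [e] at h1
        refine h1.mono ?_
        have : 0 ≤ C0 * (2 ^ (2 * k + 1) * B') ^ 2 * K ^ 2 := by positivity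
        rw [hCp]; nlinarith
      · have hadm := Adm.mul_smooth (Vc := fun X : Config 3 => regK δ₀ (diffL p.1 p.2 X - 0)) hη' hw0 hK
          (hB p 0).1 (fun i hi X => ((hB p 0).2 i hi X).trans (hBp p))
        have h1 := ((hreg δ t En En0 f f0 G G0 h S _ _ (by positivity)).2 hadm).2.1
        have e : (fun X : Config 3 => (regK δ₀ (diffL p.1 p.2 X - 0) * η X) • f0 X)
            = fun X => (1 / ‖X p.1 - X p.2‖) • (η X • f0 X) := by
          funext X
          rw [smul_smul]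
          by_cases hX : X ∈ tsupport η
          · have hsep := (hη.supp hX).2
            have hd : δ₀ ≤ ‖X p.1 - X p.2‖ := by
              by_cases hi : p.1 ∈ S
              · have hj : p.2 ∉ S := fun hj => hS ⟨fun _ => hj, fun _ => hi⟩
                exact hsep p.1 hi p.2 hj
              · have hj : p.2 ∈ S := by
                  by_contra hj
                  exact hS ⟨fun h => absurd h hi, fun h => absurd h hj⟩
                rw [norm_sub_rev]
                exact hsep p.2 hj p.1 hi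
            have : diffL p.1 p.2 X - 0 = X p.1 - X p.2 := by simp [diffL, evL]
            rw [this, regK_eq hδ hd]
          · rw [image_eq_zero_of_notMem_tsupport hX]; simp
        rw [e] at h1
        refine h1.mono ?_
        have : 0 ≤ (4 * (Fintype.card (Fin 3 × Fin 3) : ℝ) + 0) * C0 * K ^ 2 := by positivity
        rw [hCp]; nlinarith
    · simp only [hp, if_false, zero_smul]
      exact (DirL2.zero' _ k).mono (by positivity)
  have hsum := DirL2.sum Finset.univ (fun p _ => hpair p)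
  have e1 : (fun X => ∑ p : Fin 3 × Fin 3, (if p.1 < p.2 then 1 / ‖X p.1 - X p.2‖ else 0) • (η X • f0 X))
      = fun X => repulsion X • (η X • f0 X) := by
    funext X
    rw [← Finset.sum_smul, Fintype.sum_prod_type]
    rfl
  rw [e1] at hsum
  have hfin := (A0.2.1.const_smul (En - En0)).sub (hsum.const_smul t)
  have e2 : (fun X => (En - En0) • (η X • f0 X) - t • (repulsion X • (η X • f0 X)))
      = fun X => η X • diffSource t En En0 f0 X := by
    funext X
    simp only [diffSource, smul_smul, ← sub_smul]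
    congr 1
    ring
  rw [e2] at hfin
  refine hfin.mono ?_
  have b1 : (En - En0) ^ 2 ≤ δ ^ 2 := by
    rw [← sq_abs (En - En0)]
    exact pow_le_pow_left₀ (abs_nonneg _) h.En_le 2
  have b2 : t ^ 2 ≤ δ ^ 2 := pow_le_pow_left₀ h.t_nonneg h.t_le 2
  have c1 : (En - En0) ^ 2 * (C0 * K ^ 2) ≤ δ ^ 2 * (C0 * K ^ 2) := mul_le_mul_of_nonneg_right b1 (by positivity)
  have c2 : t ^ 2 * (N ^ 2 * (Cp * K ^ 2)) ≤ δ ^ 2 * (N ^ 2 * (Cp * K ^ 2)) :=
    mul_le_mul_of_nonneg_right b2 (by positivity)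
  calc _ ≤ 2 * (δ ^ 2 * (C0 * K ^ 2)) + 2 * (δ ^ 2 * (N ^ 2 * (Cp * K ^ 2))) := by linarith
    _ = _ := by ring

/-- regularity of `v = f - f0`: constants `C K² δ²` (`coul_reg` with `diff_sol`, `diff_weight`, `diff_source_reg`). -/
theorem diff_reg {εb : ℝ} (hlow : ∀ g G, IsH1 g G → εb * (∫ x, g x ^ 2) ≤ orbitalForm g g G G)
    (k : ℕ) (δ₀ τ κ Emax : ℝ) (hδ : 0 < δ₀) (hτ : 0 ≤ τ) (hκ : 0 < κ) :
    ∃ C : ℝ, 0 ≤ C ∧ ∀ (δ t En En0 : ℝ) (f f0 : Config 3 → E) (G G0 : Fin 3 × Fin 3 → Config 3 → E),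
      PairData εb τ κ Emax δ t En En0 f f0 G G0 → ∀ (S : Finset (Fin 3)) (η : Config 3 → ℝ) (K : ℝ), 0 ≤ K →
      (Adm (creg δ₀ S) (wexp τ) (2 * k + 1) K η →
        DirH1 volume dir (cdir S) k (fun X => η X • (f X - f0 X))
          (mulGrad dir η (fun X => f X - f0 X) (fun j X => G j X - G0 j X)) (C * K ^ 2 * δ ^ 2)) ∧
      (Adm (creg δ₀ S) (wexp τ) (2 * k + 2) K η → ∀ j,
        DirL2 volume (cdir S) k (fun X => η X • (G j X - G0 j X)) (C * K ^ 2 * δ ^ 2)) := by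
  obtain ⟨Cw, hCw, hw⟩ := diff_weight (E := E) hlow τ κ Emax hτ hκ
  choose Cs hCs hs using fun k' => diff_source_reg (E := E) hlow k' δ₀ τ κ Emax hδ hτ hκ
  obtain ⟨Cr, hCr, hr⟩ := coul_reg (E := E) 3 k δ₀ Emax hδ
  obtain ⟨Cg, hCg, hg⟩ := coul_reg_grad (E := E) 3 k δ₀ Emax hδ
  set Cs' : ℝ := ∑ k' ∈ Finset.range k, Cs k' with hCs'
  have hCs'0 : 0 ≤ Cs' := Finset.sum_nonneg fun i _ => hCs i
  refine ⟨Cr * (Cw + Cs') + Cg * (Cw + Cs'), by positivity, ?_⟩
  intro δ t En En0 f f0 G G0 h S η K hK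
  have hw0 : ∀ X : Config 3, 0 ≤ wexp τ X := fun X => (wexp_pos τ X).le
  have hsrc : ∀ k' < k, ∀ (η : Config 3 → ℝ) (K : ℝ), 0 ≤ K → Adm (creg δ₀ S) (wexp τ) (2 * k' + 1) K η →
      DirL2 volume (cdir S) k' (fun X => η X • diffSource t En En0 f0 X) (K ^ 2 * (Cs' * δ ^ 2)) := by
    intro k' hk' η K hK hη
    refine (hs k' δ t En En0 f f0 G G0 h S η K hK hη).mono ?_
    have : Cs k' ≤ Cs' := Finset.single_le_sum (f := Cs) (fun i _ => hCs i) (Finset.mem_range.2 hk')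
    exact mul_le_mul_of_nonneg_left (mul_le_mul_of_nonneg_right this (sq_nonneg _)) (sq_nonneg _)
  have hd := diff_sol h
  have W := hw δ t En En0 f f0 G G0 h
  have hδ2 : 0 ≤ δ ^ 2 := sq_nonneg δ
  have hK2 : 0 ≤ K ^ 2 := sq_nonneg K
  constructor
  · intro hη
    have := hr t S (creg δ₀ S) (wexp τ) En _ _ _ (Cw * δ ^ 2) (Cs' * δ ^ 2) h.t_nonneg h.t_le_one h.abs_En
      hw0 (by positivity) inter_subset_left (Or.inl inter_subset_right) (h.h1.sub h.h10) hd.1
      (hd.2.mono (subset_univ _)) W hsrc η K hK hη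
    refine this.mono ?_
    have : 0 ≤ Cg * (Cw + Cs') * K ^ 2 * δ ^ 2 := by positivity
    nlinarith
  · intro hη j
    have := hg t S (creg δ₀ S) (wexp τ) En _ _ _ (Cw * δ ^ 2) (Cs' * δ ^ 2) h.t_nonneg h.t_le_one h.abs_En
      hw0 (by positivity) inter_subset_left (Or.inl inter_subset_right) (h.h1.sub h.h10) hd.1
      (hd.2.mono (subset_univ _)) W hsrc η K hK hη j
    refine this.mono ?_
    have : 0 ≤ Cr * (Cw + Cs') * K ^ 2 * δ ^ 2 := by positivity
    nlinarith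

/-- regularity without weights and without any margin: every weak eigenfunction at any coupling `0 ≤ t ≤ 1`
(`coul_reg`, `w = 1`, `WBound.one`, `IsWeakSolOn.grad_le`).  This gives the smoothness of the density off the nuclei. -/
theorem eigen_reg (k : ℕ) (δ₀ Emax : ℝ) (hδ : 0 < δ₀) :
    ∃ C : ℝ, 0 ≤ C ∧ ∀ (t En : ℝ) (f : Config 3 → E) (G : Fin 3 × Fin 3 → Config 3 → E),
      0 ≤ t → t ≤ 1 → |En| ≤ Emax → H1 (volume : Measure (Config 3)) dir f G →
      IsWeakSol (volume : Measure (Config 3)) dir (scaledPotential 3 t) En f G (fun _ => 0) →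
      ∀ (S : Finset (Fin 3)) (η : Config 3 → ℝ) (K : ℝ), 0 ≤ K →
      Adm (creg δ₀ S) (fun _ => 1) (2 * k + 1) K η →
        DirH1 volume dir (cdir S) k (fun X => η X • f X) (mulGrad dir η f G) (C * K ^ 2 * nsq volume f) := by
  obtain ⟨b, hb0, hb⟩ := exists_formBdd (E := E) 3
  obtain ⟨Cr, hCr, hr⟩ := coul_reg (E := E) 3 k δ₀ Emax hδ
  refine ⟨Cr * (1 + 4 * (|Emax| + b + 1)), by positivity, ?_⟩
  intro t En f G ht0 ht1 hEn hf hs S η K hK hη
  have hz : MemLp (fun _ : Config 3 => (0 : E)) 2 volume := MemLp.zero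
  have h1 := IsWeakSolOn.grad_le (hb t ht0 ht1).1 hf hz hs
  have e0 : nsq volume (fun _ : Config 3 => (0 : E)) = 0 := by simp [nsq]
  rw [e0, add_zero] at h1
  have hn := nsq_nonneg (μ := (volume : Measure (Config 3))) f
  have h2 : (En + b + 1) * nsq volume f ≤ (|Emax| + b + 1) * nsq volume f := by
    refine mul_le_mul_of_nonneg_right ?_ hn
    have := (le_abs_self En).trans (hEn.trans (le_abs_self Emax))
    linarith
  have h3 : h1sq volume f G ≤ (1 + 4 * (|Emax| + b + 1)) * nsq volume f := by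
    unfold h1sq; linarith
  have := hr t S (creg δ₀ S) (fun _ => 1) En f (fun _ => 0) G (h1sq volume f G) 0 ht0 ht1 hEn
    (fun _ => zero_le_one) le_rfl inter_subset_left (Or.inl inter_subset_right) hf hz
    (hs.mono (subset_univ _)) (WBound.one hf) (zero_source_reg S _ _ k) η K hK hη
  refine this.mono ?_
  rw [add_zero]
  calc Cr * K ^ 2 * h1sq volume f G ≤ Cr * K ^ 2 * ((1 + 4 * (|Emax| + b + 1)) * nsq volume f) :=
        mul_le_mul_of_nonneg_left h3 (by positivity)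
    _ = _ := by ring

end S3

end Claimed.Open.R278.AG
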