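import Claimed.Open.R278.AGSlice
import Claimed.Open.R278.AGEmbed
import Claimed.Open.R278.AGState

/-!
# Result 278, layer AG, file 12: fibre pairings `x ↦ ∫ ⟪Φ₁(x,y), Φ₂(x,y)⟫ dy` and their derivatives

KEY POINT (replaces the change of variables of the parallel derivative method): for a cluster `S ∋ 0` the test function
`X ↦ φ(X 0)` satisfies `∂_{cdir S a} [φ(X 0)] = (∂_a φ)(X 0)`.  Hence the weak `x`-derivative of the pairing is the pairing of the CLUSTER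
derivatives:  `∂_a pair Φ₁ Φ₂ = pair (∂^S_a Φ₁) Φ₂ + pair Φ₁ (∂^S_a Φ₂)`.

* `CReg ε w k A M` : the conclusion of the cluster regularity theorems, as a hypothesis on a function `A` on `Config 3`;
* `pair_local`     : `W^{k,1}` bounds for `x ↦ θ(x)² ∫ c₁ c₂ ⟪A, B⟫ dy`, `θ` a bump of radius `r` at `x₀`, by the cluster partition;
* `pair_version`   : smooth version on an open set with pointwise bounds.
-/

open MeasureTheory Filter Topology Set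
open scoped ContDiff InnerProductSpace

noncomputable section

set_option linter.unusedSectionVars false
set_option linter.unusedVariables false

namespace Claimed.Open.R278.AG

variable {E : Type*} [NormedAddCommGroup E] [InnerProductSpace ℂ E] [CompleteSpace E]

/-! ## Definitions -/

/-- the fibre pairing. -/
def pair (Φ₁ Φ₂ : Config 3 → E) (x : Space) : ℂ := ∫ y : Config 2, ⟪Φ₁ (cons3 x y), Φ₂ (cons3 x y)⟫_ℂ

/-- cluster regularity of order `k` of a function on `Config 3`, relative to the weight `w`, at the cluster scale `ε`. -/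
def CReg (ε : ℝ) (w : Config 3 → ℝ) (k : ℕ) (A : Config 3 → E) (M : ℝ) : Prop :=
  ∀ (S : Finset (Fin 3)) (η : Config 3 → ℝ) (K : ℝ), 0 ≤ K → Adm (creg ε S) w (2 * k + 1) K η →
    DirL2 volume (cdir S) k (fun X => η X • A X) (K ^ 2 * M)

/-- the bump of radius `r` in the distinguished variable. -/
def bumpR (r : ℝ) (x₀ : Space) (X : Config 3) : ℝ := bumpProfile (r⁻¹ • (X 0 - x₀))

/-! ## LEAF AG-P1: derivatives of pairings -/

section P1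

theorem integrable_pair {Φ₁ Φ₂ : Config 3 → E} (h₁ : MemLp Φ₁ 2 volume) (h₂ : MemLp Φ₂ 2 volume) :
    Integrable (pair Φ₁ Φ₂) volume ∧ ∫ x, ‖pair Φ₁ Φ₂ x‖ ≤ √(nsq volume Φ₁ * nsq volume Φ₂) := by
  have hi : Integrable (fun X => ⟪Φ₁ X, Φ₂ X⟫_ℂ) volume := integrable_inner' h₁ h₂
  obtain ⟨-, a2, -⟩ := integral_cons3 hi
  obtain ⟨-, b2, b3⟩ := integral_cons3 hi.norm
  refine ⟨a2, ?_⟩
  calc ∫ x, ‖pair Φ₁ Φ₂ x‖ ≤ ∫ x : Space, ∫ y, ‖⟪Φ₁ (cons3 x y), Φ₂ (cons3 x y)⟫_ℂ‖ :=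
        integral_mono a2.norm b2 (fun x => norm_integral_le_integral_norm _)
    _ = ∫ X, ‖⟪Φ₁ X, Φ₂ X⟫_ℂ‖ := b3.symm
    _ ≤ ∫ X, ‖Φ₁ X‖ * ‖Φ₂ X‖ := integral_mono hi.norm (fs_cs h₁ h₂).1 (fun X => norm_inner_le_norm _ _)
    _ ≤ √(∫ X, ‖Φ₁ X‖ ^ 2) * √(∫ X, ‖Φ₂ X‖ ^ 2) := (fs_cs h₁ h₂).2
    _ = √(nsq volume Φ₁ * nsq volume Φ₂) := (Real.sqrt_mul (nsq_nonneg _) _).symm

theorem pair_congr_ae {Φ₁ Φ₂ Φ₁' Φ₂' : Config 3 → E} (h₁ : Φ₁ =ᵐ[volume] Φ₁') (h₂ : Φ₂ =ᵐ[volume] Φ₂') :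
    pair Φ₁ Φ₂ =ᵐ[volume] pair Φ₁' Φ₂' := by
  have h := ae_ae_cons3 (h₁.and h₂)
  filter_upwards [h] with x hx
  refine integral_congr_ae ?_
  filter_upwards [hx] with y hy
  rw [hy.1, hy.2]

/-- the pairing in terms of slices. -/
theorem pair_eq_inner_slice {Φ₁ Φ₂ : Config 3 → E} (h₁ : MemLp Φ₁ 2 volume) (h₂ : MemLp Φ₂ 2 volume) :
    ∀ᵐ x, pair Φ₁ Φ₂ x = ⟪slice Φ₁ x, slice Φ₂ x⟫_ℂ := by
  filter_upwards [ae_memLp_slice h₁, ae_memLp_slice h₂] with x m1 m2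
  rw [inner_slice m2]
  refine integral_congr_ae ?_
  filter_upwards [slice_coeFn m1] with y hy
  rw [hy]

/-- derivative of `X ↦ φ (X 0)` along a cluster direction. -/
theorem fderiv_comp_zero_cdir {S : Finset (Fin 3)} (hS : 0 ∈ S) {φ : Space → ℝ} (hφ : ContDiff ℝ 1 φ) (a : Fin 3)
    (X : Config 3) : fderiv ℝ (fun X : Config 3 => φ (X 0)) X (cdir S a) = fderiv ℝ φ (X 0) (eA a) := by
  have h1 : HasFDerivAt (fun X : Config 3 => φ (X 0)) ((fderiv ℝ φ (X 0)).comp (evL 0)) X :=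
    ((hφ.differentiable one_ne_zero) (X 0)).hasFDerivAt.comp X (evL (m := 3) 0).hasFDerivAt
  rw [h1.fderiv]
  simp [evL, cdir, hS]

theorem agp_integrable_smul {φ : Space → ℝ} (hφ : Continuous φ) (hc : HasCompactSupport φ) {h : Config 3 → ℂ}
    (hh : Integrable h volume) : Integrable (fun X : Config 3 => φ (X 0) • h X) volume := by
  obtain ⟨C, hC⟩ := hc.exists_bound_of_continuous hφ
  refine (hh.norm.const_mul C).mono' ?_ (Eventually.of_forall fun X => ?_)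
  · exact (hφ.comp (continuous_apply 0)).aestronglyMeasurable.smul hh.1
  · rw [norm_smul]
    exact mul_le_mul_of_nonneg_right (hC _) (norm_nonneg _)

theorem agp_integral_smul (φ : Space → ℝ) {h : Config 3 → ℂ}
    (hi : Integrable (fun X : Config 3 => φ (X 0) • h X) volume) :
    ∫ X : Config 3, φ (X 0) • h X = ∫ x : Space, φ x • ∫ y, h (cons3 x y) := by
  rw [(integral_cons3 hi).2.2]
  refine integral_congr_ae (Eventually.of_forall fun x => ?_)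
  simp only [cons3_zero]
  exact integral_smul _ _

/-- **the `x`-derivative of a pairing is the pairing of the cluster derivatives.**
`h = ⟪Φ₁, Φ₂⟫` is `W^{1,1}(Config 3)` along `cdir S a` (`WD.inner`); so is `φ(X 0) h` (`WD.smul_left`, `fderiv_comp_zero_cdir`), and it is
integrable together with its derivative; `WD.integral_eq_zero` and Fubini (`integral_cons3`) give the claim. -/
theorem pair_hasWeakDeriv {S : Finset (Fin 3)} (hS : 0 ∈ S) {a : Fin 3} {Φ₁ Φ₂ Φ₁' Φ₂' : Config 3 → E}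
    (h₁ : WD2 volume (cdir S a) Φ₁ Φ₁') (h₂ : WD2 volume (cdir S a) Φ₂ Φ₂') :
    HasWeakDeriv volume (eA a) (pair Φ₁ Φ₂) (fun x => pair Φ₁' Φ₂ x + pair Φ₁ Φ₂' x) := by
  intro φ hφ hc
  have hφ1 : ContDiff ℝ 1 φ := hφ.of_le (by simp)
  have hχ : ContDiff ℝ 1 (fun X : Config 3 => φ (X 0)) := hφ1.comp (evL (m := 3) 0).contDiff
  have w := WD.inner (𝕜 := ℂ) h₁.wd h₂.wd (MemLp.l2Loc h₁.memf) (MemLp.l2Loc h₁.memg)
    (MemLp.l2Loc h₂.memf) (MemLp.l2Loc h₂.memg)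
  have w2 := w.smul_left hχ
  have i0 : Integrable (fun X => ⟪Φ₁ X, Φ₂ X⟫_ℂ) volume := integrable_inner' h₁.memf h₂.memf
  have i1 : Integrable (fun X => ⟪Φ₁' X, Φ₂ X⟫_ℂ) volume := integrable_inner' h₁.memg h₂.memf
  have i2 : Integrable (fun X => ⟪Φ₁ X, Φ₂' X⟫_ℂ) volume := integrable_inner' h₁.memf h₂.memg
  have j0 := agp_integrable_smul hφ.continuous hc i0
  have hcd : Continuous fun x => fderiv ℝ φ x (eA a) := fs_cont_d hφ1 _
  have hcs : HasCompactSupport fun x => fderiv ℝ φ x (eA a) := hc.fderiv_apply (𝕜 := ℝ) _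
  have j0' := agp_integrable_smul hcd hcs i0
  have j1 := agp_integrable_smul hφ.continuous hc i1
  have j2 := agp_integrable_smul hφ.continuous hc i2
  simp only [fderiv_comp_zero_cdir hS hφ1] at w2
  have j12 : Integrable (fun X : Config 3 => φ (X 0) • (⟪Φ₁' X, Φ₂ X⟫_ℂ + ⟪Φ₁ X, Φ₂' X⟫_ℂ)) volume :=
    agp_integrable_smul hφ.continuous hc (i1.add i2)
  have key := w2.integral_eq_zero j0 (j0'.add j12)
  rw [integral_add j0' j12, agp_integral_smul (fun x => fderiv ℝ φ x (eA a)) j0',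
    agp_integral_smul φ j12] at key
  have e : ∀ᵐ x : Space, ∫ y, (⟪Φ₁' (cons3 x y), Φ₂ (cons3 x y)⟫_ℂ + ⟪Φ₁ (cons3 x y), Φ₂' (cons3 x y)⟫_ℂ)
      = pair Φ₁' Φ₂ x + pair Φ₁ Φ₂' x := by
    filter_upwards [(integral_cons3 i1).1, (integral_cons3 i2).1] with x k1 k2
    exact integral_add k1 k2
  have e2 : ∫ x : Space, φ x • ∫ y, (⟪Φ₁' (cons3 x y), Φ₂ (cons3 x y)⟫_ℂ
      + ⟪Φ₁ (cons3 x y), Φ₂' (cons3 x y)⟫_ℂ) = ∫ x, φ x • (pair Φ₁' Φ₂ x + pair Φ₁ Φ₂' x) :=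
    integral_congr_ae (e.mono fun x hx => by simp only [hx])
  rw [e2] at key
  exact eq_neg_of_add_eq_zero_left key

/-- iteration (induction on `k`, Leibniz: the constant doubles at each step). -/
theorem pair_dirL1 {S : Finset (Fin 3)} (hS : 0 ∈ S) {k : ℕ} {Φ₁ Φ₂ : Config 3 → E} {M₁ M₂ : ℝ}
    (h₁ : DirL2 volume (cdir S) k Φ₁ M₁) (h₂ : DirL2 volume (cdir S) k Φ₂ M₂) :
    DirL1 volume eA k (pair Φ₁ Φ₂) (2 ^ k * √(M₁ * M₂)) := by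
  have hb : ∀ (k : ℕ) {Φ₁ Φ₂ : Config 3 → E}, (MemLp Φ₁ 2 volume ∧ nsq volume Φ₁ ≤ M₁) →
      (MemLp Φ₂ 2 volume ∧ nsq volume Φ₂ ≤ M₂) →
      Integrable (pair Φ₁ Φ₂) volume ∧ ∫ x, ‖pair Φ₁ Φ₂ x‖ ≤ 2 ^ k * √(M₁ * M₂) := by
    intro k Φ₁ Φ₂ b1 b2
    obtain ⟨c1, c2⟩ := integrable_pair b1.1 b2.1
    refine ⟨c1, c2.trans ?_⟩
    have h3 : √(nsq volume Φ₁ * nsq volume Φ₂) ≤ √(M₁ * M₂) :=
      Real.sqrt_le_sqrt (mul_le_mul b1.2 b2.2 (nsq_nonneg _) ((nsq_nonneg _).trans b1.2))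
    have h4 : (1 : ℝ) ≤ 2 ^ k := one_le_pow₀ (by norm_num)
    calc √(nsq volume Φ₁ * nsq volume Φ₂) ≤ 1 * √(M₁ * M₂) := by rw [one_mul]; exact h3
      _ ≤ 2 ^ k * √(M₁ * M₂) := mul_le_mul_of_nonneg_right h4 (Real.sqrt_nonneg _)
  induction k generalizing Φ₁ Φ₂ with
  | zero => exact hb 0 h₁ h₂
  | succ k ih =>
    refine ⟨hb (k + 1) h₁.1 h₂.1, fun a => ?_⟩
    obtain ⟨Φ₁', w1, d1⟩ := DirL2.wd2 h₁ a
    obtain ⟨Φ₂', w2, d2⟩ := DirL2.wd2 h₂ a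
    refine ⟨_, pair_hasWeakDeriv hS w1 w2, ?_⟩
    have := (ih d1 (DirL2.of_le h₂ (Nat.le_succ k))).add (ih (DirL2.of_le h₁ (Nat.le_succ k)) d2)
    have e : 2 ^ k * √(M₁ * M₂) + 2 ^ k * √(M₁ * M₂) = 2 ^ (k + 1) * √(M₁ * M₂) := by ring
    rwa [e] at this

end P1

/-! ## LEAF AG-P2: localised pairings via the cluster partition -/

section P2

theorem bumpR_bound (k : ℕ) {r : ℝ} (hr : 0 < r) : ∃ C : ℝ, 0 ≤ C ∧ ∀ x₀ : Space, ContDiff ℝ ∞ (bumpR r x₀) ∧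
    ∀ i ≤ k, ∀ X, ‖iteratedFDeriv ℝ i (bumpR r x₀) X‖ ≤ C := by
  obtain ⟨C, hC, h⟩ := bddDeriv_bumpProfile.db_affine (r⁻¹ • evL (m := 3) 0) k
  refine ⟨C, hC, fun x₀ => ?_⟩
  have e : bumpR r x₀ = fun X => bumpProfile ((r⁻¹ • evL (m := 3) 0) X - r⁻¹ • x₀) := by
    funext X
    simp [bumpR, evL, smul_sub]
  rw [e]
  exact h (r⁻¹ • x₀)

theorem bumpR_eq_one {r : ℝ} (hr : 0 < r) {x₀ : Space} {X : Config 3} (h : ‖X 0 - x₀‖ ≤ r / 2) :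
    bumpR r x₀ X = 1 := by
  refine bumpProfile_eq_one ?_
  rw [norm_smul, norm_inv, Real.norm_eq_abs, abs_of_pos hr, inv_mul_le_iff₀ hr]
  linarith

theorem bumpR_eq_zero {r : ℝ} (hr : 0 < r) {x₀ : Space} {X : Config 3} (h : r ≤ ‖X 0 - x₀‖) :
    bumpR r x₀ X = 0 := by
  refine bumpProfile_eq_zero ?_
  rw [norm_smul, norm_inv, Real.norm_eq_abs, abs_of_pos hr, le_inv_mul_iff₀ hr]
  linarith

theorem norm_sub_le_of_mem_tsupport_bumpR {r : ℝ} (hr : 0 < r) {x₀ : Space} {X : Config 3}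
    (h : X ∈ tsupport (bumpR r x₀)) : ‖X 0 - x₀‖ ≤ r := by
  have hcl : IsClosed {X : Config 3 | ‖X 0 - x₀‖ ≤ r} :=
    isClosed_le (by fun_prop) continuous_const
  refine closure_minimal (fun Y hY => ?_) hcl h
  by_contra hne
  exact hY (bumpR_eq_zero hr (le_of_lt (not_le.1 hne)))

theorem bumpR_one (x₀ : Space) : bumpR 1 x₀ = bump x₀ := by
  funext X
  simp [bumpR, bump]

theorem agp_DB_mul {V : Type*} [NormedAddCommGroup V] [NormedSpace ℝ V] {k : ℕ} {C C' : ℝ} {f g : V → ℝ}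
    (hf : DB k C f) (hg : DB k C' g) : DB k (2 ^ k * C * C') (fun z => f z * g z) := by
  have hC : 0 ≤ C := (norm_nonneg _).trans (hf.2 0 (Nat.zero_le _) 0)
  have hC' : 0 ≤ C' := (norm_nonneg _).trans (hg.2 0 (Nat.zero_le _) 0)
  refine ⟨hf.1.mul hg.1, fun i hi z => ?_⟩
  refine (norm_iteratedFDeriv_mul_le_two_pow' hf.1 hg.1 z (fun l hl => hf.2 l (hl.trans hi) z)
    (fun l hl => hg.2 l (hl.trans hi) z)).trans ?_
  have : (2 : ℝ) ^ i ≤ 2 ^ k := pow_le_pow_right₀ (by norm_num) hi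
  exact mul_le_mul_of_nonneg_right (mul_le_mul_of_nonneg_right this hC) hC'

theorem agp_inner_smul_smul (a b : ℝ) (u v : E) : ⟪a • u, b • v⟫_ℂ = ((a * b : ℝ) : ℂ) * ⟪u, v⟫_ℂ := by
  rw [inner_real_smul_left, inner_real_smul_right]
  push_cast
  ring

/-- **Localised pairing.**  `A`, `B` cluster regular of order `k` for the weights `w₁`, `w₂`; `c₁`, `c₂` smooth with bounded derivatives;
`x₀` at distance `≥ 5ε + r` from the nuclei; `w_i ≥ m_i > 0` on `tsupport (bumpR r x₀) ∩ tsupport c_i`.  Then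
`x ↦ pair (θ c₁ A) (θ c₂ B) x = θ(x)² ∫ c₁ c₂ ⟪A, B⟫ dy` is `DirL1 .. k` with constant `C √(M_A M_B)/(m₁ m₂)`.

Proof: `∑_p j_p² = 1` (`exists_cluster_partition ε`) gives `pair (θc₁A) (θc₂B) = ∑_p pair (θ c₁ j_p A) (θ c₂ j_p B)` (pointwise under the integral).
`η = θ c_i j_p` has bounded derivatives (Leibniz) and `tsupport η ⊆ creg ε (S p)` (`mem_regNuc_of_cluster`, since `|X 0 - nucleus| ≥ 5ε` on
`tsupport θ`); `Adm.of_bdd` with `m = m_i`; `CReg`; `pair_dirL1`; `DirL1.sum`. -/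
theorem pair_local (k : ℕ) {ε r : ℝ} (hε : 0 < ε) (hr : 0 < r) {c₁ c₂ : Config 3 → ℝ} (hc₁ : BddDeriv c₁)
    (hc₂ : BddDeriv c₂) :
    ∃ C : ℝ, 0 ≤ C ∧ ∀ (A B : Config 3 → E) (w₁ w₂ : Config 3 → ℝ) (MA MB m₁ m₂ : ℝ) (x₀ : Space),
      CReg ε w₁ k A MA → CReg ε w₂ k B MB → (∀ X, 0 ≤ w₁ X) → (∀ X, 0 ≤ w₂ X) → 0 < m₁ → 0 < m₂ →
      5 * ε + r ≤ ‖x₀ - bigD • ez‖ → 5 * ε + r ≤ ‖x₀ + bigD • ez‖ →
      (∀ X ∈ tsupport (bumpR r x₀) ∩ tsupport c₁, m₁ ≤ w₁ X) →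
      (∀ X ∈ tsupport (bumpR r x₀) ∩ tsupport c₂, m₂ ≤ w₂ X) →
      DirL1 volume eA k
        (pair (fun X => (bumpR r x₀ X * c₁ X) • A X) (fun X => (bumpR r x₀ X * c₂ X) • B X))
        (C * √(MA * MB) / (m₁ * m₂)) := by
  obtain ⟨S, j, hS0, hj, hsum, hsep, hclu⟩ := exists_cluster_partition hε
  obtain ⟨n, hn⟩ : ∃ n : ℕ, n = 2 * k + 1 := ⟨_, rfl⟩
  obtain ⟨Cθ, hCθ, hθ⟩ := bumpR_bound n hr
  obtain ⟨B₁, hB₁, hb₁⟩ := hc₁.exists_bound n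
  obtain ⟨B₂, hB₂, hb₂⟩ := hc₂.exists_bound n
  choose Bj hBj hbj using fun p => (hj p).exists_bound n
  -- the general multiplier
  have hmult : ∀ (c : Config 3 → ℝ) (Bc : ℝ), BddDeriv c → 0 ≤ Bc →
      (∀ i ≤ n, ∀ z, ‖iteratedFDeriv ℝ i c z‖ ≤ Bc) →
      ∀ (w : Config 3 → ℝ) (m : ℝ) (x₀ : Space), (∀ X, 0 ≤ w X) → 0 < m →
      5 * ε + r ≤ ‖x₀ - bigD • ez‖ → 5 * ε + r ≤ ‖x₀ + bigD • ez‖ →
      (∀ X ∈ tsupport (bumpR r x₀) ∩ tsupport c, m ≤ w X) → ∀ p,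
      Adm (creg ε (S p)) w n (2 ^ n * (2 ^ n * Cθ * Bc) * Bj p / m)
        (fun X => bumpR r x₀ X * c X * j p X) := by
    intro c Bc hc hBc hbc w m x₀ hw hm hd1 hd2 hlow p
    have d1 : DB n (2 ^ n * Cθ * Bc) (fun X => bumpR r x₀ X * c X) :=
      agp_DB_mul ⟨(hθ x₀).1, (hθ x₀).2⟩ ⟨hc.1, hbc⟩
    have d2 : DB n (2 ^ n * (2 ^ n * Cθ * Bc) * Bj p) (fun X => bumpR r x₀ X * c X * j p X) :=
      agp_DB_mul d1 ⟨(hj p).1, hbj p⟩
    have hs1 : tsupport (fun X => bumpR r x₀ X * c X * j p X) ⊆ tsupport (j p) :=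
      tsupport_mul_subset_right
    have hs2 : tsupport (fun X => bumpR r x₀ X * c X * j p X) ⊆ tsupport (bumpR r x₀) :=
      (tsupport_mul_subset_left (g := j p)).trans tsupport_mul_subset_left
    have hs3 : tsupport (fun X => bumpR r x₀ X * c X * j p X) ⊆ tsupport c :=
      (tsupport_mul_subset_left (g := j p)).trans tsupport_mul_subset_right
    refine Adm.of_bdd d2.1 (fun X hX => ⟨?_, hsep p (hs1 hX)⟩) d2.2 hm hw
      (fun X hX => hlow X ⟨hs2 hX, hs3 hX⟩)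
    have hXr := norm_sub_le_of_mem_tsupport_bumpR hr (hs2 hX)
    refine mem_regNuc_of_cluster (hclu p X (hs1 hX)) ?_ ?_
    · have h1 : ‖x₀ - bigD • ez‖ ≤ ‖X 0 - bigD • ez‖ + ‖X 0 - x₀‖ := by
        have := norm_sub_le (X 0 - bigD • ez) (X 0 - x₀)
        simpa using this
      linarith
    · have h1 : ‖x₀ + bigD • ez‖ ≤ ‖X 0 + bigD • ez‖ + ‖X 0 - x₀‖ := by
        have := norm_sub_le (X 0 + bigD • ez) (X 0 - x₀)
        have e : X 0 + bigD • ez - (X 0 - x₀) = x₀ + bigD • ez := by abel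
        rwa [e] at this
      linarith
  refine ⟨∑ p, 2 ^ k * ((2 ^ n * (2 ^ n * Cθ * B₁) * Bj p) * (2 ^ n * (2 ^ n * Cθ * B₂) * Bj p)),
    Finset.sum_nonneg fun p _ => by have := hBj p; positivity, ?_⟩
  intro A B w₁ w₂ MA MB m₁ m₂ x₀ hA hB hw₁ hw₂ hm₁ hm₂ hd1 hd2 hl₁ hl₂
  have a1 := hmult c₁ B₁ hc₁ hB₁ hb₁ w₁ m₁ x₀ hw₁ hm₁ hd1 hd2 hl₁
  have a2 := hmult c₂ B₂ hc₂ hB₂ hb₂ w₂ m₂ x₀ hw₂ hm₂ hd1 hd2 hl₂
  have r1 : ∀ p, DirL2 volume (cdir (S p)) k (fun X => (bumpR r x₀ X * c₁ X * j p X) • A X)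
      ((2 ^ n * (2 ^ n * Cθ * B₁) * Bj p / m₁) ^ 2 * MA) := fun p =>
    hA (S p) _ _ (by have := hBj p; positivity) (hn ▸ a1 p)
  have r2 : ∀ p, DirL2 volume (cdir (S p)) k (fun X => (bumpR r x₀ X * c₂ X * j p X) • B X)
      ((2 ^ n * (2 ^ n * Cθ * B₂) * Bj p / m₂) ^ 2 * MB) := fun p =>
    hB (S p) _ _ (by have := hBj p; positivity) (hn ▸ a2 p)
  have hsumD := DirL1.sum (μ := (volume : Measure Space)) (D := eA) Finset.univ
    (fun p _ => pair_dirL1 (hS0 p) (r1 p) (r2 p))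
  -- the constant
  have hconst : ∑ p, 2 ^ k * √((2 ^ n * (2 ^ n * Cθ * B₁) * Bj p / m₁) ^ 2 * MA
        * ((2 ^ n * (2 ^ n * Cθ * B₂) * Bj p / m₂) ^ 2 * MB))
      = (∑ p, 2 ^ k * ((2 ^ n * (2 ^ n * Cθ * B₁) * Bj p) * (2 ^ n * (2 ^ n * Cθ * B₂) * Bj p)))
        * √(MA * MB) / (m₁ * m₂) := by
    rw [Finset.sum_mul, Finset.sum_div]
    refine Finset.sum_congr rfl fun p _ => ?_
    have hK : 0 ≤ (2 ^ n * (2 ^ n * Cθ * B₁) * Bj p / m₁) * (2 ^ n * (2 ^ n * Cθ * B₂) * Bj p / m₂) := by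
      have := hBj p; positivity
    have e : (2 ^ n * (2 ^ n * Cθ * B₁) * Bj p / m₁) ^ 2 * MA
        * ((2 ^ n * (2 ^ n * Cθ * B₂) * Bj p / m₂) ^ 2 * MB)
        = ((2 ^ n * (2 ^ n * Cθ * B₁) * Bj p / m₁) * (2 ^ n * (2 ^ n * Cθ * B₂) * Bj p / m₂)) ^ 2
          * (MA * MB) := by ring
    rw [e, Real.sqrt_mul (sq_nonneg _), Real.sqrt_sq hK]
    field_simp
  rw [hconst] at hsumD
  refine hsumD.congr_ae ?_
  -- the a.e. identity
  have hint : ∀ p, ∀ᵐ x : Space, Integrable (fun y : Config 2 =>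
      ⟪(bumpR r x₀ (cons3 x y) * c₁ (cons3 x y) * j p (cons3 x y)) • A (cons3 x y),
        (bumpR r x₀ (cons3 x y) * c₂ (cons3 x y) * j p (cons3 x y)) • B (cons3 x y)⟫_ℂ) volume := fun p =>
    (integral_cons3 (integrable_inner' (r1 p).base.1 (r2 p).base.1)).1
  filter_upwards [ae_all_iff.2 hint] with x hx
  unfold pair
  rw [← integral_finsetSum _ fun p _ => hx p]
  refine integral_congr_ae (Eventually.of_forall fun y => ?_)
  simp only [agp_inner_smul_smul]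
  rw [← Finset.sum_mul]
  congr 1
  rw [← Complex.ofReal_sum]
  congr 1
  have := hsum (cons3 x y)
  calc ∑ p, bumpR r x₀ (cons3 x y) * c₁ (cons3 x y) * j p (cons3 x y)
        * (bumpR r x₀ (cons3 x y) * c₂ (cons3 x y) * j p (cons3 x y))
      = ∑ p, (bumpR r x₀ (cons3 x y) * c₁ (cons3 x y) * (bumpR r x₀ (cons3 x y) * c₂ (cons3 x y)))
          * j p (cons3 x y) ^ 2 := Finset.sum_congr rfl fun p _ => by ring
    _ = _ := by rw [← Finset.mul_sum, this, mul_one]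

/-- the localised pairing coincides with the pairing near `x₀` and vanishes far from `x₀`. -/
theorem pair_bumpR_eq {r : ℝ} (hr : 0 < r) (x₀ : Space) (c₁ c₂ : Config 3 → ℝ) (A B : Config 3 → E) (x : Space) :
    pair (fun X => (bumpR r x₀ X * c₁ X) • A X) (fun X => (bumpR r x₀ X * c₂ X) • B X) x
      = ((bumpProfile (r⁻¹ • (x - x₀)) ^ 2 : ℝ) : ℂ) * pair (fun X => c₁ X • A X) (fun X => c₂ X • B X) x := by
  unfold pair
  rw [← integral_const_mul]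
  refine integral_congr_ae (Eventually.of_forall fun y => ?_)
  simp only [agp_inner_smul_smul, bumpR, cons3_zero]
  push_cast
  ring

end P2

/-! ## LEAF AG-P3: smooth versions of pairings -/

section P3

/-- the localised pairing near and far from `x₀`. -/
theorem agp_local_facts {r : ℝ} (hr : 0 < r) (x₀ : Space) (c₁ c₂ : Config 3 → ℝ) (A B : Config 3 → E) :
    (∀ x, ‖x - x₀‖ < r / 2 →
      pair (fun X => (bumpR r x₀ X * c₁ X) • A X) (fun X => (bumpR r x₀ X * c₂ X) • B X) x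
        = pair (fun X => c₁ X • A X) (fun X => c₂ X • B X) x) ∧
    (∀ x, ‖x₀‖ + r < ‖x‖ →
      pair (fun X => (bumpR r x₀ X * c₁ X) • A X) (fun X => (bumpR r x₀ X * c₂ X) • B X) x = 0) := by
  constructor
  · intro x hx
    rw [pair_bumpR_eq hr, bumpProfile_eq_one]
    · simp
    · rw [norm_smul, norm_inv, Real.norm_eq_abs, abs_of_pos hr, inv_mul_le_iff₀ hr]
      linarith
  · intro x hx
    rw [pair_bumpR_eq hr, bumpProfile_eq_zero]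
    · simp
    · rw [norm_smul, norm_inv, Real.norm_eq_abs, abs_of_pos hr, le_inv_mul_iff₀ hr]
      have := norm_sub_norm_le x x₀
      linarith

/-- **Smoothness off the nuclei, no weights.**  `A`, `B` cluster regular of every order at every scale (with constants which may depend on
the order and the scale).  Then `x ↦ ∫ ⟪A, B⟫ dy` has a version which is `C^∞` off the nuclei.
(`local_versions` with `Ω = {x | x ≠ ± D e_z}`; at `x₀` take `d₀ = min` of the two distances, `r = d₀/2`, `ε = d₀/10`, `c₁ = c₂ = 1`, `w = 1`,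
`pair_local`, `pair_bumpR_eq`, `bumpR_eq_one`.) -/
theorem pair_smooth_off_nuclei {A B : Config 3 → E} (hA : MemLp A 2 volume) (hB : MemLp B 2 volume)
    (hA' : ∀ (ε : ℝ) (k : ℕ), 0 < ε → ∃ M, CReg ε (fun _ => 1) k A M)
    (hB' : ∀ (ε : ℝ) (k : ℕ), 0 < ε → ∃ M, CReg ε (fun _ => 1) k B M) :
    ∃ n₀ : Space → ℂ, ContDiffOn ℝ ∞ n₀ {x | x ≠ bigD • ez ∧ x ≠ -(bigD • ez)} ∧ ∀ᵐ x, pair A B x = n₀ x := by
  obtain ⟨C, -, hL⟩ := local_versions (F := ℂ)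
  have hΩ : IsOpen {x : Space | x ≠ bigD • ez ∧ x ≠ -(bigD • ez)} :=
    (isOpen_ne).inter (isOpen_ne)
  have H : ∀ k : ℕ, ∀ x₀ ∈ {x : Space | x ≠ bigD • ez ∧ x ≠ -(bigD • ez)}, ∃ b : ℝ,
      ∃ (r R : ℝ) (J : Space → ℂ), 0 < r ∧ (∀ᵐ x, ‖x - x₀‖ < r → J x = pair A B x) ∧
      (∀ x, R < ‖x‖ → J x = 0) ∧ DirL1 volume eA (k + 3) J b := by
    intro k x₀ hx₀
    have p1 : 0 < ‖x₀ - bigD • ez‖ := norm_pos_iff.2 (sub_ne_zero.2 hx₀.1)
    have p2 : 0 < ‖x₀ + bigD • ez‖ := norm_pos_iff.2 fun h => hx₀.2 (eq_neg_of_add_eq_zero_left h)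
    obtain ⟨d, hd⟩ : ∃ d : ℝ, d = min ‖x₀ - bigD • ez‖ ‖x₀ + bigD • ez‖ := ⟨_, rfl⟩
    have hd0 : 0 < d := hd ▸ lt_min p1 p2
    have hd1 : d ≤ ‖x₀ - bigD • ez‖ := hd ▸ min_le_left _ _
    have hd2 : d ≤ ‖x₀ + bigD • ez‖ := hd ▸ min_le_right _ _
    obtain ⟨C', -, hC'⟩ := pair_local (E := E) (k + 3) (ε := d / 10) (r := d / 2) (by positivity) (by positivity)
      (BddDeriv.const (V := Config 3) 1) (BddDeriv.const (V := Config 3) 1)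
    obtain ⟨MA, hMA⟩ := hA' (d / 10) (k + 3) (by positivity)
    obtain ⟨MB, hMB⟩ := hB' (d / 10) (k + 3) (by positivity)
    have h1 := hC' A B (fun _ => 1) (fun _ => 1) MA MB 1 1 x₀ hMA hMB (fun _ => zero_le_one)
      (fun _ => zero_le_one) one_pos one_pos (by linarith) (by linarith) (fun _ _ => le_rfl) (fun _ _ => le_rfl)
    obtain ⟨f1, f2⟩ := agp_local_facts (r := d / 2) (by positivity) x₀ (fun _ => 1) (fun _ => 1) A B
    refine ⟨_, d / 2 / 2, ‖x₀‖ + d / 2, _, by positivity, Eventually.of_forall fun x hx => ?_, f2, h1⟩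
    rw [f1 x hx]
    simp only [one_smul]
  choose! 𝔟 h𝔟 using H
  obtain ⟨n₀, h1, h2, -⟩ := hL _ (pair A B) 𝔟 hΩ h𝔟
  refine ⟨n₀, h1, ?_⟩
  have hnull : (volume : Measure Space) {x : Space | x ≠ bigD • ez ∧ x ≠ -(bigD • ez)}ᶜ = 0 := by
    have : {x : Space | x ≠ bigD • ez ∧ x ≠ -(bigD • ez)}ᶜ ⊆ {bigD • ez, -(bigD • ez)} := by
      intro x hx
      simp only [mem_compl_iff, Set.mem_ofPred_eq, not_and_or, not_not] at hx
      simpa using hx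
    exact measure_mono_null this ((Set.toFinite _).measure_zero _)
  filter_upwards [h2, compl_mem_ae_iff.2 hnull] with x hx hxΩ
  exact hx (not_not.1 hxΩ)

/-- **Exterior bounds with weights.**  `w = e^{τϱ}`, scale `ε = 1/5`... we use `ε = 1/5`, `r = 1`, so that `5ε + r = 2 ≤ |x₀ ∓ D e_z|` for
`|x₀| > extR = D + 4`.  `c₁`, `c₂` are supported where `ϱ ≥ θ₁ |x|`, resp. `ϱ ≥ θ₂ |x|` (`θ_i = 1` always holds; `θ_i = √(10/9)` on `tsupport aCut`).  Then the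
pairing `x ↦ ∫ c₁ c₂ ⟪A, B⟫ dy` has a smooth version on the exterior region with
`‖D^k (·)(x₀)‖ ≤ C_k √(M_A M_B) e^{-τ(θ₁+θ₂)|x₀|}`. -/
theorem pair_exterior {c₁ c₂ : Config 3 → ℝ} (hc₁ : BddDeriv c₁) (hc₂ : BddDeriv c₂) (τ θ₁ θ₂ : ℝ) (hτ : 0 ≤ τ)
    (hθ₁ : 0 ≤ θ₁) (hθ₂ : 0 ≤ θ₂)
    (h₁ : ∀ X ∈ tsupport c₁, θ₁ * ‖X 0‖ ≤ rho X) (h₂ : ∀ X ∈ tsupport c₂, θ₂ * ‖X 0‖ ≤ rho X) :
    ∃ C : ℕ → ℝ, (∀ k, 0 ≤ C k) ∧ ∀ (A B : Config 3 → E) (MA MB : ℕ → ℝ),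
      (∀ k, CReg (1 / 5) (wexp τ) k A (MA k)) → (∀ k, CReg (1 / 5) (wexp τ) k B (MB k)) →
      ∃ n₀ : Space → ℂ, ContDiffOn ℝ ∞ n₀ {x | extR < ‖x‖} ∧
        (∀ᵐ x, extR < ‖x‖ → pair (fun X => c₁ X • A X) (fun X => c₂ X • B X) x = n₀ x) ∧
        ∀ k, ∀ x₀, extR < ‖x₀‖ →
          ‖iteratedFDeriv ℝ k n₀ x₀‖ ≤ C k * √(MA (k + 3) * MB (k + 3)) * Real.exp (-(τ * (θ₁ + θ₂) * ‖x₀‖)) := by
  obtain ⟨C₀, hC₀, hL⟩ := local_versions (F := ℂ)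
  choose C₁ hC₁ hP using fun k : ℕ => pair_local (E := E) (k + 3) (ε := 1 / 5) (r := 1) (by norm_num) one_pos hc₁ hc₂
  refine ⟨fun k => C₀ k * C₁ k * Real.exp (τ * (θ₁ + θ₂)), fun k =>
    mul_nonneg (mul_nonneg (hC₀ k) (hC₁ k)) (Real.exp_pos _).le, fun A B MA MB hA hB => ?_⟩
  have hΩ : IsOpen {x : Space | extR < ‖x‖} := isOpen_lt continuous_const continuous_norm
  have hez : ‖bigD • ez‖ = bigD := by
    rw [norm_smul, Real.norm_eq_abs, abs_of_pos (by unfold bigD; positivity)]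
    simp [ez]
  have hlow : ∀ (c : Config 3 → ℝ) (θ : ℝ), 0 ≤ θ → (∀ X ∈ tsupport c, θ * ‖X 0‖ ≤ rho X) → ∀ x₀ : Space,
      ∀ X ∈ tsupport (bumpR 1 x₀) ∩ tsupport c, Real.exp (τ * (θ * (‖x₀‖ - 1))) ≤ wexp τ X := by
    intro c θ hθ hc x₀ X hX
    have h3 := norm_sub_le_of_mem_tsupport_bumpR one_pos hX.1
    have h4 : ‖x₀‖ - 1 ≤ ‖X 0‖ := by
      have := norm_sub_norm_le x₀ (X 0)
      rw [norm_sub_rev] at this
      linarith
    unfold wexp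
    refine Real.exp_le_exp.2 (mul_le_mul_of_nonneg_left ?_ hτ)
    exact (mul_le_mul_of_nonneg_left h4 hθ).trans (hc X hX.2)
  obtain ⟨n₀, g1, g2, g3⟩ := hL {x : Space | extR < ‖x‖} (pair (fun X => c₁ X • A X) (fun X => c₂ X • B X))
    (fun k x₀ => C₁ k * √(MA (k + 3) * MB (k + 3))
      / (Real.exp (τ * (θ₁ * (‖x₀‖ - 1))) * Real.exp (τ * (θ₂ * (‖x₀‖ - 1))))) hΩ (by
    intro k x₀ hx₀
    have hx₀' : bigD + 4 < ‖x₀‖ := hx₀
    have d1 : 5 * (1 / 5 : ℝ) + 1 ≤ ‖x₀ - bigD • ez‖ := by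
      have := norm_sub_norm_le x₀ (bigD • ez)
      rw [hez] at this
      linarith
    have d2 : 5 * (1 / 5 : ℝ) + 1 ≤ ‖x₀ + bigD • ez‖ := by
      have := norm_sub_norm_le x₀ (-(bigD • ez))
      rw [norm_neg, hez, sub_neg_eq_add] at this
      linarith
    have h3 := hP k A B (wexp τ) (wexp τ) (MA (k + 3)) (MB (k + 3)) _ _ x₀ (hA _) (hB _)
      (fun X => (Real.exp_pos _).le) (fun X => (Real.exp_pos _).le) (Real.exp_pos _) (Real.exp_pos _) d1 d2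
      (hlow c₁ θ₁ hθ₁ h₁ x₀) (hlow c₂ θ₂ hθ₂ h₂ x₀)
    obtain ⟨f1, f2⟩ := agp_local_facts one_pos x₀ c₁ c₂ A B
    exact ⟨1 / 2, ‖x₀‖ + 1, _, by norm_num, Eventually.of_forall fun x hx => f1 x hx, f2, h3⟩)
  refine ⟨n₀, g1, g2, fun k x₀ hx₀ => (g3 k x₀ hx₀).trans (le_of_eq ?_)⟩
  have e : Real.exp (τ * (θ₁ * (‖x₀‖ - 1))) * Real.exp (τ * (θ₂ * (‖x₀‖ - 1)))
      = Real.exp (τ * (θ₁ + θ₂) * ‖x₀‖) / Real.exp (τ * (θ₁ + θ₂)) := by
    rw [← Real.exp_add, ← Real.exp_sub]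
    congr 1
    ring
  rw [e, Real.exp_neg]
  field_simp

end P3

end Claimed.Open.R278.AG
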