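import Claimed.Open.R278.DensityLemmas
import Claimed.Open.R278.AGCut

/-!
# Result 278, layer AG, file 10: slicing `Config 3 = Space × Config 2`; fibre valued functions

(This file and `AGEmbed.lean` cover parts (a), (b) of package BP-SL.)

* `cons3 x y : Config 3` is the configuration `(x, y₁, y₂)`;
* `FibE E = Lp E 2 (volume : Measure (Config 2))`, `Fib = FibE (SpinSpace 3)` is the fibre Hilbert space `𝒦` (before symmetry
  restrictions);
* `slice Φ : Space → FibE E`, `slice Φ x = [y ↦ Φ (cons3 x y)]` (`0` where this is not in `L²`).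

Main facts: `slice Φ ∈ L²(Space; FibE E)` isometrically; weak derivatives of `Φ` along `dir (0, a)` become weak derivatives of
`slice Φ` along `eA a`; `DirL2` is transported.
-/

open MeasureTheory Filter Topology Set
open scoped ContDiff InnerProductSpace

noncomputable section

set_option linter.unusedSectionVars false

namespace Claimed.Open.R278.AG

/-! ## Definitions -/

/-- the configuration `(x, y₁, y₂)`. -/
def cons3 (x : Space) (y : Config 2) : Config 3 := Fin.cons x y

/-- the ionic part `(X 1, X 2)` of a configuration. -/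
def tail3 (X : Config 3) : Config 2 := fun i => X i.succ

/-- the fibre space with values in `E`. -/
abbrev FibE (E : Type*) [NormedAddCommGroup E] : Type _ := Lp E 2 (volume : Measure (Config 2))

/-- the fibre Hilbert space `𝒦`. -/
abbrev Fib : Type := Lp (SpinSpace 3) 2 (volume : Measure (Config 2))

variable {E : Type*} [NormedAddCommGroup E] [InnerProductSpace ℂ E] [CompleteSpace E]

open Classical in
/-- the slice `x ↦ Φ(x, ·)`. -/
def slice (Φ : Config 3 → E) (x : Space) : FibE E :=
  if h : MemLp (fun y : Config 2 => Φ (cons3 x y)) 2 volume then h.toLp _ else 0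

/-- the index of an ionic direction inside `Config 3`. -/
def succIdx (j : Fin 2 × Fin 3) : Fin 3 × Fin 3 := (j.1.succ, j.2)

/-! ## LEAF AG-L1: Fubini and the `L²` isometry -/

section L1

@[simp] theorem cons3_zero (x : Space) (y : Config 2) : cons3 x y 0 = x := rfl

@[simp] theorem cons3_succ (x : Space) (y : Config 2) (i : Fin 2) : cons3 x y i.succ = y i := rfl

theorem cons3_one (x : Space) (y : Config 2) : cons3 x y 1 = y 0 := rfl

theorem cons3_two (x : Space) (y : Config 2) : cons3 x y 2 = y 1 := rfl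

theorem cons3_tail3 (X : Config 3) : cons3 (X 0) (tail3 X) = X := by
  funext i
  refine Fin.cases ?_ (fun j => ?_) i
  · rfl
  · rfl

theorem tail3_cons3 (x : Space) (y : Config 2) : tail3 (cons3 x y) = y := rfl

theorem cons3_eq_consEquiv : (fun p : Space × Config 2 => cons3 p.1 p.2) = consEquiv := by
  funext p; rw [consEquiv_apply]; rfl

/-- `(x, y) ↦ cons3 x y` is measure preserving (`measurePreserving_consEquiv` of `DensityLemmas.lean`). -/
theorem measurePreserving_cons3 :
    MeasurePreserving (fun p : Space × Config 2 => cons3 p.1 p.2) (volume.prod volume) volume := by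
  rw [cons3_eq_consEquiv]; exact measurePreserving_consEquiv

/-- Fubini, Banach valued. -/
theorem integral_cons3 {F : Type*} [NormedAddCommGroup F] [NormedSpace ℝ F] {h : Config 3 → F}
    (hh : Integrable h volume) :
    (∀ᵐ x : Space, Integrable (fun y => h (cons3 x y)) volume) ∧
    Integrable (fun x : Space => ∫ y, h (cons3 x y)) volume ∧
    ∫ X, h X = ∫ x : Space, ∫ y, h (cons3 x y) := by
  have h2 : Integrable (fun p : Space × Config 2 => h (cons3 p.1 p.2)) (volume.prod volume) :=
    measurePreserving_cons3.integrable_comp_of_integrable hh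
  refine ⟨h2.prod_right_ae, h2.integral_prod_left, ?_⟩
  rw [← integral_prod _ h2]
  have h1 : ∫ X, h X = ∫ p : Space × Config 2, h (consEquiv p) :=
    (measurePreserving_consEquiv.integral_comp' h).symm
  rw [h1]
  refine integral_congr_ae (Eventually.of_forall fun p => ?_)
  show h (consEquiv p) = h (cons3 p.1 p.2)
  rw [← cons3_eq_consEquiv]

/-- a null set of configurations is null on almost every fibre. -/
theorem ae_ae_cons3 {p : Config 3 → Prop} (h : ∀ᵐ X, p X) : ∀ᵐ x : Space, ∀ᵐ y : Config 2, p (cons3 x y) := by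
  have h2 : ∀ᵐ q : Space × Config 2 ∂(volume.prod volume), p (cons3 q.1 q.2) :=
    measurePreserving_cons3.quasiMeasurePreserving.ae h
  exact Measure.ae_ae_of_ae_prod h2

theorem aesm_cons3 {F : Type*} [TopologicalSpace F] {h : Config 3 → F} (hh : AEStronglyMeasurable h volume) :
    AEStronglyMeasurable (fun p : Space × Config 2 => h (cons3 p.1 p.2)) (volume.prod volume) :=
  hh.comp_measurePreserving measurePreserving_cons3

theorem ae_memLp_slice {Φ : Config 3 → E} (h : MemLp Φ 2 volume) :
    ∀ᵐ x : Space, MemLp (fun y : Config 2 => Φ (cons3 x y)) 2 volume := by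
  have h1 : ∀ᵐ x : Space, AEStronglyMeasurable (fun y : Config 2 => Φ (cons3 x y)) volume :=
    (aesm_cons3 h.1).prodMk_left
  have h2 := (integral_cons3 ((memLp_two_iff_integrable_sq_norm h.1).1 h)).1
  filter_upwards [h1, h2] with x hx1 hx2
  exact (memLp_two_iff_integrable_sq_norm hx1).2 hx2

theorem slice_of_memLp {Φ : Config 3 → E} {x : Space} (h : MemLp (fun y : Config 2 => Φ (cons3 x y)) 2 volume) :
    slice Φ x = h.toLp _ := by
  rw [slice, dif_pos h]

theorem slice_of_not_memLp {Φ : Config 3 → E} {x : Space}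
    (h : ¬ MemLp (fun y : Config 2 => Φ (cons3 x y)) 2 volume) : slice Φ x = 0 := by
  rw [slice, dif_neg h]

theorem slice_coeFn {Φ : Config 3 → E} {x : Space} (h : MemLp (fun y : Config 2 => Φ (cons3 x y)) 2 volume) :
    (slice Φ x : Config 2 → E) =ᵐ[volume] fun y => Φ (cons3 x y) := by
  rw [slice_of_memLp h]; exact h.coeFn_toLp

theorem ae_slice_coeFn {Φ : Config 3 → E} (h : MemLp Φ 2 volume) :
    ∀ᵐ x : Space, (slice Φ x : Config 2 → E) =ᵐ[volume] fun y => Φ (cons3 x y) := by
  filter_upwards [ae_memLp_slice h] with x hx using slice_coeFn hx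

theorem fib_norm_sq (κ : FibE E) : ‖κ‖ ^ 2 = ∫ y, ‖κ y‖ ^ 2 := by
  have h : ⟪κ, κ⟫_ℂ = ∫ y, ⟪κ y, κ y⟫_ℂ := L2.inner_def κ κ
  have h2 : (⟪κ, κ⟫_ℂ).re = ‖κ‖ ^ 2 := by
    rw [inner_self_eq_norm_sq_to_K]; norm_cast
  rw [← h2, h]
  have : (fun y => ⟪κ y, κ y⟫_ℂ) = fun y => ((‖κ y‖ ^ 2 : ℝ) : ℂ) := by
    funext y; rw [inner_self_eq_norm_sq_to_K]; norm_cast
  rw [this, integral_complex_ofReal]; simp

theorem norm_slice_sq {Φ : Config 3 → E} {x : Space} (h : MemLp (fun y : Config 2 => Φ (cons3 x y)) 2 volume) :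
    ‖slice Φ x‖ ^ 2 = ∫ y, ‖Φ (cons3 x y)‖ ^ 2 := by
  rw [fib_norm_sq]
  refine integral_congr_ae ?_
  filter_upwards [slice_coeFn h] with y hy
  rw [hy]

theorem slice_add_of_memLp {Φ Φ' : Config 3 → E} {x : Space}
    (h : MemLp (fun y : Config 2 => Φ (cons3 x y)) 2 volume)
    (h' : MemLp (fun y : Config 2 => Φ' (cons3 x y)) 2 volume) :
    slice (fun X => Φ X + Φ' X) x = slice Φ x + slice Φ' x := by
  have h2 : MemLp (fun y : Config 2 => (fun X => Φ X + Φ' X) (cons3 x y)) 2 volume := h.add h'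
  rw [slice_of_memLp h, slice_of_memLp h', slice_of_memLp h2]
  exact MemLp.toLp_add h h'

theorem slice_sub_of_memLp {Φ Φ' : Config 3 → E} {x : Space}
    (h : MemLp (fun y : Config 2 => Φ (cons3 x y)) 2 volume)
    (h' : MemLp (fun y : Config 2 => Φ' (cons3 x y)) 2 volume) :
    slice (fun X => Φ X - Φ' X) x = slice Φ x - slice Φ' x := by
  have h2 : MemLp (fun y : Config 2 => (fun X => Φ X - Φ' X) (cons3 x y)) 2 volume := h.sub h'
  rw [slice_of_memLp h, slice_of_memLp h', slice_of_memLp h2]
  exact MemLp.toLp_sub h h'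

theorem continuous_cons3 : Continuous (fun p : Space × Config 2 => cons3 p.1 p.2) := by
  refine continuous_pi fun i => ?_
  refine Fin.cases ?_ (fun j => ?_) i
  · exact continuous_fst
  · exact (continuous_apply j).comp continuous_snd

theorem continuous_tail3 : Continuous tail3 :=
  continuous_pi fun i => continuous_apply i.succ

/-- slices of continuous compactly supported functions. -/
theorem cc_slice_facts {g : Config 3 → E} (hg : Continuous g) (hc : HasCompactSupport g) (x : Space) :
    Continuous (fun y : Config 2 => g (cons3 x y)) ∧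
    (∀ y, y ∉ tail3 '' tsupport g → g (cons3 x y) = 0) ∧
    MemLp (fun y : Config 2 => g (cons3 x y)) 2 volume := by
  have h1 : Continuous (fun y : Config 2 => g (cons3 x y)) :=
    hg.comp (continuous_cons3.comp (continuous_const.prodMk continuous_id))
  have h2 : ∀ y, y ∉ tail3 '' tsupport g → g (cons3 x y) = 0 := by
    intro y hy
    by_contra hne
    exact hy ⟨cons3 x y, subset_tsupport _ hne, rfl⟩
  refine ⟨h1, h2, h1.memLp_of_hasCompactSupport ?_⟩
  exact HasCompactSupport.intro (hc.image continuous_tail3) h2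

theorem continuous_slice_cc {g : Config 3 → E} (hg : Continuous g) (hc : HasCompactSupport g) :
    Continuous (slice g) := by
  obtain ⟨C, hC⟩ := hc.exists_bound_of_continuous hg
  have hK : IsCompact (tail3 '' tsupport g) := hc.image continuous_tail3
  rw [continuous_iff_continuousAt]
  intro x₀
  rw [ContinuousAt, tendsto_iff_norm_sub_tendsto_zero]
  have key : Tendsto (fun x : Space => ∫ y, ‖g (cons3 x y) - g (cons3 x₀ y)‖ ^ 2) (𝓝 x₀)
      (𝓝 (∫ _y : Config 2, (0 : ℝ))) := by
    refine tendsto_integral_filter_of_dominated_convergence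
      ((tail3 '' tsupport g).indicator fun _ => (2 * C) ^ 2) ?_ ?_ ?_ ?_
    · refine Eventually.of_forall fun x => ?_
      exact ((((cc_slice_facts hg hc x).1.sub (cc_slice_facts hg hc x₀).1).norm).pow 2).aestronglyMeasurable
    · refine Eventually.of_forall fun x => Eventually.of_forall fun y => ?_
      by_cases hy : y ∈ tail3 '' tsupport g
      · rw [indicator_of_mem hy, Real.norm_eq_abs, abs_of_nonneg (by positivity)]
        have : ‖g (cons3 x y) - g (cons3 x₀ y)‖ ≤ 2 * C := by
          calc _ ≤ ‖g (cons3 x y)‖ + ‖g (cons3 x₀ y)‖ := norm_sub_le _ _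
            _ ≤ C + C := add_le_add (hC _) (hC _)
            _ = 2 * C := by ring
        gcongr
      · rw [indicator_of_notMem hy, (cc_slice_facts hg hc x).2.1 y hy, (cc_slice_facts hg hc x₀).2.1 y hy]
        simp
    · have hi : IntegrableOn (fun _ : Config 2 => (2 * C) ^ 2) (tail3 '' tsupport g) volume :=
        integrableOn_const hK.measure_lt_top.ne
      exact hi.integrable_indicator hK.measurableSet
    · refine Eventually.of_forall fun y => ?_
      have hcont : Continuous fun x : Space => ‖g (cons3 x y) - g (cons3 x₀ y)‖ ^ 2 :=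
        (((hg.comp (continuous_cons3.comp (continuous_id.prodMk continuous_const))).sub
          continuous_const).norm).pow 2
      have := hcont.tendsto x₀
      simpa using this
  have e : ∀ x : Space, ‖slice g x - slice g x₀‖ = √(∫ y, ‖g (cons3 x y) - g (cons3 x₀ y)‖ ^ 2) := by
    intro x
    have hx := (cc_slice_facts hg hc x).2.2
    have hx₀ := (cc_slice_facts hg hc x₀).2.2
    have h3 : MemLp (fun y : Config 2 => g (cons3 x y) - g (cons3 x₀ y)) 2 volume := hx.sub hx₀
    have h4 : slice g x - slice g x₀ = h3.toLp _ := by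
      rw [slice_of_memLp hx, slice_of_memLp hx₀]; exact (MemLp.toLp_sub hx hx₀).symm
    rw [← Real.sqrt_sq (norm_nonneg (slice g x - slice g x₀)), fib_norm_sq, h4]
    congr 1
    refine integral_congr_ae ?_
    filter_upwards [h3.coeFn_toLp] with y hy
    rw [hy]
  simp only [e]
  have := (Real.continuous_sqrt.tendsto _).comp key
  simpa [Function.comp_def] using this

/-- **measurability of the slice map.**  `FibE E` need not be separable for general `E`; route: approximate `Φ` in `L²` by
continuous compactly supported `Φ_n` (`MemLp.exists_hasCompactSupport_eLpNorm_sub_le`); `slice Φ_n` is CONTINUOUS (uniform continuity +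
fixed compact support); `∫ ‖slice Φ_n x - slice Φ x‖² dx = ‖Φ_n - Φ‖² → 0`, so a subsequence converges a.e.
(`aestronglyMeasurable_of_tendsto_ae`).  The function `x ↦ ‖slice Φ_n x - slice Φ x‖² = ∫ ‖Φ_n - Φ‖² dy` is measurable by Tonelli. -/
theorem aestronglyMeasurable_slice {Φ : Config 3 → E} (h : MemLp Φ 2 volume) :
    AEStronglyMeasurable (slice Φ) (volume : Measure Space) := by
  -- approximations
  have : (volume : Measure (Config 3)).Regular :=
    Measure.Regular.of_sigmaCompactSpace_of_isLocallyFiniteMeasure _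
  have hex : ∀ n : ℕ, ∃ g : Config 3 → E, HasCompactSupport g ∧
      eLpNorm (Φ - g) 2 volume ≤ ENNReal.ofReal (1 / ((n : ℝ) + 1)) ∧ Continuous g ∧ MemLp g 2 volume := by
    intro n
    exact h.exists_hasCompactSupport_eLpNorm_sub_le (by norm_num)
      (by rw [Ne, ENNReal.ofReal_eq_zero, not_le]; positivity)
  choose g hgc hgle hgcont hgmem using hex
  -- the fibre errors
  set a : ℕ → Space → ℝ := fun n x => ∫ y, ‖Φ (cons3 x y) - g n (cons3 x y)‖ ^ 2 with ha
  have hd : ∀ n, MemLp (fun X => Φ X - g n X) 2 volume := fun n => h.sub (hgmem n)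
  have hsq : ∀ n, Integrable (fun X => ‖Φ X - g n X‖ ^ 2) volume := fun n =>
    (memLp_two_iff_integrable_sq_norm (hd n).1).1 (hd n)
  have haI : ∀ n, Integrable (a n) volume := fun n => (integral_cons3 (hsq n)).2.1
  have haint : ∀ n, ∫ x, a n x = ∫ X, ‖Φ X - g n X‖ ^ 2 := fun n => ((integral_cons3 (hsq n)).2.2).symm
  have hann : ∀ n x, 0 ≤ a n x := fun n x => integral_nonneg fun y => by positivity
  have hbound : ∀ n, ∫ X, ‖Φ X - g n X‖ ^ 2 ≤ (1 / ((n : ℝ) + 1)) ^ 2 := by
    intro n
    have h1 : eLpNorm (fun X => Φ X - g n X) 2 volume ≤ ENNReal.ofReal (1 / ((n : ℝ) + 1)) := hgle n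
    have h2 := (hd n).eLpNorm_eq_integral_rpow_norm (by norm_num) (by norm_num)
    rw [h2] at h1
    have h3 : (∫ X, ‖Φ X - g n X‖ ^ ENNReal.toReal 2) ^ (ENNReal.toReal 2)⁻¹ ≤ 1 / ((n : ℝ) + 1) :=
      (ENNReal.ofReal_le_ofReal_iff (by positivity)).1 h1
    have h4 : (∫ X, ‖Φ X - g n X‖ ^ ENNReal.toReal 2) = ∫ X, ‖Φ X - g n X‖ ^ 2 := by
      simp
    rw [h4] at h3
    have h5 : 0 ≤ ∫ X, ‖Φ X - g n X‖ ^ 2 := integral_nonneg fun X => by positivity
    have h6 : (ENNReal.toReal 2)⁻¹ = 1 / 2 := by simp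
    rw [h6, ← Real.sqrt_eq_rpow] at h3
    calc ∫ X, ‖Φ X - g n X‖ ^ 2 = (√(∫ X, ‖Φ X - g n X‖ ^ 2)) ^ 2 := (Real.sq_sqrt h5).symm
      _ ≤ _ := by gcongr
  have hlim : Tendsto (fun n => eLpNorm (a n - 0) 1 volume) atTop (𝓝 0) := by
    have e : ∀ n, eLpNorm (a n - 0) 1 volume = ENNReal.ofReal (∫ x, a n x) := by
      intro n
      rw [sub_zero, eLpNorm_one_eq_lintegral_enorm, ofReal_integral_eq_lintegral_ofReal (haI n)
        (Eventually.of_forall (hann n))]
      refine lintegral_congr fun x => ?_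
      rw [Real.enorm_eq_ofReal (hann n x)]
    simp only [e]
    rw [← ENNReal.ofReal_zero]
    refine ENNReal.tendsto_ofReal ?_
    refine squeeze_zero (fun n => integral_nonneg (hann n)) (fun n => (haint n).le.trans (hbound n)) ?_
    have := (tendsto_one_div_add_atTop_nhds_zero_nat (𝕜 := ℝ)).pow 2
    simpa using this
  have hmeas := tendstoInMeasure_of_tendsto_eLpNorm (by norm_num) (fun n => (haI n).1)
    (aestronglyMeasurable_zero (α := Space) (β := ℝ)) hlim
  obtain ⟨ns, -, hns⟩ := hmeas.exists_seq_tendsto_ae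
  refine aestronglyMeasurable_of_tendsto_ae atTop
    (fun i => (continuous_slice_cc (hgcont (ns i)) (hgc (ns i))).aestronglyMeasurable) ?_
  filter_upwards [hns, ae_memLp_slice h] with x hx hxm
  rw [tendsto_iff_norm_sub_tendsto_zero]
  have e : ∀ i, ‖slice (g (ns i)) x - slice Φ x‖ = √(a (ns i) x) := by
    intro i
    have hgi := (cc_slice_facts (hgcont (ns i)) (hgc (ns i)) x).2.2
    rw [norm_sub_rev, ← slice_sub_of_memLp hxm hgi, ← Real.sqrt_sq (norm_nonneg _),
      norm_slice_sq (Φ := fun X => Φ X - g (ns i) X) (hxm.sub hgi)]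
  simp only [e]
  have := (Real.continuous_sqrt.tendsto _).comp hx
  simpa [Function.comp_def] using this

theorem memLp_slice {Φ : Config 3 → E} (h : MemLp Φ 2 volume) :
    MemLp (slice Φ) 2 (volume : Measure Space) ∧ nsq volume (slice Φ) = nsq volume Φ := by
  have hsq : Integrable (fun X => ‖Φ X‖ ^ 2) volume := (memLp_two_iff_integrable_sq_norm h.1).1 h
  have hF := integral_cons3 hsq
  have hae : (fun x => ‖slice Φ x‖ ^ 2) =ᵐ[volume] fun x : Space => ∫ y, ‖Φ (cons3 x y)‖ ^ 2 := by
    filter_upwards [ae_memLp_slice h] with x hx using norm_slice_sq hx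
  refine ⟨(memLp_two_iff_integrable_sq_norm (aestronglyMeasurable_slice h)).2 (hF.2.1.congr hae.symm), ?_⟩
  rw [nsq, nsq, integral_congr_ae hae, hF.2.2]

theorem slice_congr_ae {Φ Φ' : Config 3 → E} (h : Φ =ᵐ[volume] Φ') : slice Φ =ᵐ[volume] slice Φ' := by
  filter_upwards [ae_ae_cons3 h] with x hx
  by_cases hm : MemLp (fun y : Config 2 => Φ (cons3 x y)) 2 volume
  · have hm' : MemLp (fun y : Config 2 => Φ' (cons3 x y)) 2 volume := (memLp_congr_ae hx).1 hm
    rw [slice_of_memLp hm, slice_of_memLp hm']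
    exact MemLp.toLp_congr hm hm' hx
  · have hm' : ¬ MemLp (fun y : Config 2 => Φ' (cons3 x y)) 2 volume := fun h' => hm ((memLp_congr_ae hx).2 h')
    rw [slice_of_not_memLp hm, slice_of_not_memLp hm']

theorem slice_add {Φ Φ' : Config 3 → E} (h : MemLp Φ 2 volume) (h' : MemLp Φ' 2 volume) :
    slice (fun X => Φ X + Φ' X) =ᵐ[volume] fun x => slice Φ x + slice Φ' x := by
  filter_upwards [ae_memLp_slice h, ae_memLp_slice h'] with x hx hx' using slice_add_of_memLp hx hx'

theorem slice_sub {Φ Φ' : Config 3 → E} (h : MemLp Φ 2 volume) (h' : MemLp Φ' 2 volume) :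
    slice (fun X => Φ X - Φ' X) =ᵐ[volume] fun x => slice Φ x - slice Φ' x := by
  filter_upwards [ae_memLp_slice h, ae_memLp_slice h'] with x hx hx' using slice_sub_of_memLp hx hx'

theorem slice_const_smul (c : ℝ) (Φ : Config 3 → E) (x : Space) :
    slice (fun X => c • Φ X) x = c • slice Φ x := by
  by_cases hm : MemLp (fun y : Config 2 => Φ (cons3 x y)) 2 volume
  · have hm' : MemLp (fun y : Config 2 => (fun X => c • Φ X) (cons3 x y)) 2 volume := hm.const_smul c
    rw [slice_of_memLp hm, slice_of_memLp hm']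
    exact MemLp.toLp_const_smul c hm
  · rw [slice_of_not_memLp hm, smul_zero]
    by_cases hc : c = 0
    · subst hc
      have hm' : MemLp (fun y : Config 2 => (fun X => (0 : ℝ) • Φ X) (cons3 x y)) 2 volume := by
        simp only [zero_smul]; exact MemLp.zero
      rw [slice_of_memLp hm']
      rw [Lp.eq_zero_iff_ae_eq_zero]
      filter_upwards [hm'.coeFn_toLp] with y hy
      rw [hy]; simp
    · refine slice_of_not_memLp fun h' => hm ?_
      have h2 := h'.const_smul c⁻¹
      have e : (c⁻¹ • fun y : Config 2 => (fun X => c • Φ X) (cons3 x y)) = fun y : Config 2 => Φ (cons3 x y) := by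
        funext y
        simp [smul_smul, inv_mul_cancel₀ hc]
      rwa [e] at h2

/-- a factor which depends only on the distinguished electron comes out (for EVERY `x`). -/
theorem slice_smul_fst (φ : Space → ℝ) (Φ : Config 3 → E) (x : Space) :
    slice (fun X => φ (X 0) • Φ X) x = φ x • slice Φ x :=
  slice_const_smul (φ x) Φ x

/-- inner product with a fixed vector of the fibre space. -/
theorem inner_slice {Φ : Config 3 → E} {x : Space} (h : MemLp (fun y : Config 2 => Φ (cons3 x y)) 2 volume)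
    (ξ : FibE E) : ⟪ξ, slice Φ x⟫_ℂ = ∫ y, ⟪ξ y, Φ (cons3 x y)⟫_ℂ := by
  rw [L2.inner_def]
  refine integral_congr_ae ?_
  filter_upwards [slice_coeFn h] with y hy
  rw [hy]

theorem consEquiv_symm_apply' (X : Config 3) : consEquiv.symm X = (X 0, tail3 X) := by
  rw [MeasurableEquiv.symm_apply_eq, consEquiv_apply]
  exact (cons3_tail3 X).symm

theorem measurePreserving_split3 :
    MeasurePreserving (fun X : Config 3 => (X 0, tail3 X)) volume (volume.prod volume) := by
  have h := measurePreserving_consEquiv.symm consEquiv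
  have e : (fun X : Config 3 => (X 0, tail3 X)) = consEquiv.symm := by
    funext X; rw [consEquiv_symm_apply']
  rw [e]; exact h

/-- tensor products of `L²` functions. -/
theorem memLp_tensor {F : Type*} [NormedAddCommGroup F] [NormedSpace ℝ F] {φ : Space → ℝ} (hφ : MemLp φ 2 volume)
    {κ : Config 2 → F} (hκ : MemLp κ 2 volume) :
    MemLp (fun X : Config 3 => φ (X 0) • κ (tail3 X)) 2 volume := by
  have hm : AEStronglyMeasurable (fun p : Space × Config 2 => φ p.1 • κ p.2) (volume.prod volume) :=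
    hφ.1.comp_fst.smul hκ.1.comp_snd
  have h1 : MemLp (fun p : Space × Config 2 => φ p.1 • κ p.2) 2 (volume.prod volume) := by
    rw [memLp_two_iff_integrable_sq_norm hm]
    have i1 : Integrable (fun x => ‖φ x‖ ^ 2) volume := (memLp_two_iff_integrable_sq_norm hφ.1).1 hφ
    have i2 : Integrable (fun y => ‖κ y‖ ^ 2) volume := (memLp_two_iff_integrable_sq_norm hκ.1).1 hκ
    refine (i1.mul_prod i2).congr (Eventually.of_forall fun p => ?_)
    simp only [norm_smul, mul_pow]
  exact h1.comp_measurePreserving measurePreserving_split3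

/-- the pairing identity `∫ ⟪φ(x) ξ(y), Φ(x,y)⟫ dX = ∫ φ(x) ⟪ξ, slice Φ x⟫ dx`. -/
theorem integral_inner_tensor {Φ : Config 3 → E} (h : MemLp Φ 2 volume) {φ : Space → ℝ} (hφ : MemLp φ 2 volume)
    (ξ : FibE E) :
    ∫ X : Config 3, ⟪φ (X 0) • ξ (tail3 X), Φ X⟫_ℂ = ∫ x : Space, (φ x : ℂ) * ⟪ξ, slice Φ x⟫_ℂ := by
  have hT : MemLp (fun X : Config 3 => φ (X 0) • ξ (tail3 X)) 2 volume := memLp_tensor hφ (Lp.memLp ξ)
  rw [(integral_cons3 (integrable_inner' hT h)).2.2]
  refine integral_congr_ae ?_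
  filter_upwards [ae_memLp_slice h] with x hx
  rw [inner_slice hx, ← integral_const_mul]
  refine integral_congr_ae (Eventually.of_forall fun y => ?_)
  show ⟪φ x • ξ y, Φ (cons3 x y)⟫_ℂ = (φ x : ℂ) * ⟪ξ y, Φ (cons3 x y)⟫_ℂ
  rw [← Complex.coe_smul, inner_smul_left, Complex.conj_ofReal]

end L1

/-! ## LEAF AG-L2: weak derivatives of the slice map -/

section L2

theorem cdir_singleton_zero (a : Fin 3) : cdir ({0} : Finset (Fin 3)) a = dir (0, a) := by
  funext i
  by_cases hi : i = 0
  · subst hi; simp [cdir, dir]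
  · simp [cdir, dir, hi]

/-- `tail3` as a continuous linear map. -/
def tail3L : Config 3 →L[ℝ] Config 2 :=
  ContinuousLinearMap.pi fun i => ContinuousLinearMap.proj i.succ

theorem tail3L_apply (X : Config 3) : tail3L X = tail3 X := rfl

theorem tail3_dir_zero (a : Fin 3) : tail3 (dir (0, a)) = 0 := by
  funext i
  simp [tail3, dir, Fin.succ_ne_zero]

theorem tail3_dir_succ (j : Fin 2 × Fin 3) : tail3 (dir (succIdx j)) = dir j := by
  funext i
  by_cases hi : i = j.1
  · subst hi; simp [tail3, dir, succIdx]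
  · simp [tail3, dir, succIdx, hi]

theorem dir_zero_apply_zero (a : Fin 3) : (dir (0, a) : Config 3) 0 = eA a := by
  simp [dir]

theorem dir_succ_apply_zero (j : Fin 2 × Fin 3) : (dir (succIdx j) : Config 3) 0 = 0 := by
  simp [dir, succIdx, (Fin.succ_ne_zero _).symm]

/-- the tensor product of two test functions is a test function on `Config 3`. -/
theorem tensor_test {φ : Space → ℝ} (hφ : ContDiff ℝ ∞ φ) (hφc : HasCompactSupport φ) {ψ : Config 2 → ℝ}
    (hψ : ContDiff ℝ ∞ ψ) (hψc : HasCompactSupport ψ) :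
    ContDiff ℝ ∞ (fun X : Config 3 => φ (X 0) * ψ (tail3 X)) ∧
    HasCompactSupport (fun X : Config 3 => φ (X 0) * ψ (tail3 X)) ∧
    (∀ (a : Fin 3) (X : Config 3), fderiv ℝ (fun X : Config 3 => φ (X 0) * ψ (tail3 X)) X (dir (0, a))
      = fderiv ℝ φ (X 0) (eA a) * ψ (tail3 X)) ∧
    (∀ (j : Fin 2 × Fin 3) (X : Config 3), fderiv ℝ (fun X : Config 3 => φ (X 0) * ψ (tail3 X)) X (dir (succIdx j))
      = φ (X 0) * fderiv ℝ ψ (tail3 X) (dir j)) := by
  have c1 : ContDiff ℝ ∞ (fun X : Config 3 => φ (X 0)) := hφ.comp (contDiff_apply ℝ Space (0 : Fin 3))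
  have c2 : ContDiff ℝ ∞ (fun X : Config 3 => ψ (tail3 X)) := hψ.comp tail3L.contDiff
  have d1 : ∀ X : Config 3, HasFDerivAt (fun X : Config 3 => φ (X 0))
      ((fderiv ℝ φ (X 0)).comp (ContinuousLinearMap.proj (0 : Fin 3))) X := fun X =>
    ((hφ.differentiable (by simp)) (X 0)).hasFDerivAt.comp X
      (ContinuousLinearMap.proj (R := ℝ) (φ := fun _ : Fin 3 => Space) (0 : Fin 3)).hasFDerivAt
  have d2 : ∀ X : Config 3, HasFDerivAt (fun X : Config 3 => ψ (tail3 X))
      ((fderiv ℝ ψ (tail3 X)).comp tail3L) X := fun X =>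
    ((hψ.differentiable (by simp)) (tail3 X)).hasFDerivAt.comp X tail3L.hasFDerivAt
  refine ⟨c1.mul c2, ?_, ?_, ?_⟩
  · refine HasCompactSupport.intro
      ((hφc.isCompact.prod hψc.isCompact).image continuous_cons3) fun X hX => ?_
    by_contra hne
    refine hX ⟨(X 0, tail3 X), ⟨subset_tsupport _ ?_, subset_tsupport _ ?_⟩, cons3_tail3 X⟩
    · intro h0; exact hne (by simp only [h0, zero_mul])
    · intro h0; exact hne (by simp only [h0, mul_zero])
  · intro a X
    have hd : HasFDerivAt (fun X : Config 3 => φ (X 0) * ψ (tail3 X)) _ X := (d1 X).mul (d2 X)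
    rw [hd.fderiv]
    simp [tail3L_apply, tail3_dir_zero, dir_zero_apply_zero, mul_comm]
  · intro j X
    have hd : HasFDerivAt (fun X : Config 3 => φ (X 0) * ψ (tail3 X)) _ X := (d1 X).mul (d2 X)
    rw [hd.fderiv]
    simp [tail3L_apply, tail3_dir_succ, dir_succ_apply_zero]

/-- the functional `κ ↦ ∫ ψ • κ` on the fibre space. -/
def fibT {ψ : Config 2 → ℝ} (hψ : MemLp ψ 2 volume) : FibE E →L[ℝ] E :=
  (ContinuousLinearMap.lsmul ℝ ℝ : ℝ →L[ℝ] E →L[ℝ] E).lpPairing volume 2 2 (hψ.toLp ψ)

theorem fibT_apply {ψ : Config 2 → ℝ} (hψ : MemLp ψ 2 volume) (κ : FibE E) :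
    fibT hψ κ = ∫ y, ψ y • κ y := by
  rw [fibT, ContinuousLinearMap.lpPairing_eq_integral]
  refine integral_congr_ae ?_
  filter_upwards [hψ.coeFn_toLp] with y hy
  simp [hy]

theorem fibT_integral_slice {Φ : Config 3 → E} (h : MemLp Φ 2 volume) {η : Space → ℝ} (hη : Continuous η)
    (hηc : HasCompactSupport η) {ψ : Config 2 → ℝ} (hψ : MemLp ψ 2 volume) :
    fibT hψ (∫ x, η x • slice Φ x) = ∫ X : Config 3, (η (X 0) * ψ (tail3 X)) • Φ X := by
  have hS := (memLp_slice h).1
  have hint : Integrable (fun x => η x • slice Φ x) volume :=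
    fs_int (hS.locallyIntegrable (by norm_num)) hη hηc
  rw [← ContinuousLinearMap.integral_comp_comm _ hint]
  have hη2 : MemLp η 2 volume := hη.memLp_of_hasCompactSupport hηc
  have hT : MemLp (fun X : Config 3 => η (X 0) • ψ (tail3 X)) 2 volume := memLp_tensor hη2 hψ
  have hI : Integrable (fun X : Config 3 => (η (X 0) * ψ (tail3 X)) • Φ X) volume := by
    have h1 : MemLp ((fun X : Config 3 => η (X 0) • ψ (tail3 X)) • Φ) 1 volume := h.smul hT
    exact memLp_one_iff_integrable.1 h1
  rw [(integral_cons3 hI).2.2]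
  refine integral_congr_ae ?_
  filter_upwards [ae_slice_coeFn h] with x hx
  rw [map_smul, fibT_apply, ← integral_smul]
  refine integral_congr_ae ?_
  filter_upwards [hx] with y hy
  rw [hy, smul_smul]
  rfl

/-- **weak `x`-derivatives.**  To prove the identity `∫ ∂_aφ • slice Φ = - ∫ φ • slice Φ'` in `FibE E`, apply to both sides the
continuous linear maps `T_ψ : FibE E → E`, `κ ↦ ∫ ψ • κ` (`ψ ∈ C^∞_c(Config 2)`; they commute with the Bochner integral,
`ContinuousLinearMap.integral_comp_comm`), use Fubini and the definition of the weak derivative of `Φ` with the test function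
`φ ⊗ ψ` (`tensor_test`); finally `ae_eq_zero_of_integral_contDiff_smul_eq_zero` on `Config 2`. -/
theorem slice_wd2 {Φ Φ' : Config 3 → E} {a : Fin 3} (h : WD2 volume (dir (0, a)) Φ Φ') :
    WD2 (volume : Measure Space) (eA a) (slice Φ) (slice Φ') := by
  refine ⟨(memLp_slice h.memf).1, (memLp_slice h.memg).1, fun φ hφ hφc => ?_⟩
  rw [eq_neg_iff_add_eq_zero, Lp.eq_zero_iff_ae_eq_zero]
  refine ae_eq_zero_of_integral_contDiff_smul_eq_zero
    ((Lp.memLp _).locallyIntegrable (by norm_num)) fun ψ hψ hψc => ?_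
  have hψ2 : MemLp ψ 2 volume := hψ.continuous.memLp_of_hasCompactSupport hψc
  have hφ1 : ContDiff ℝ 1 φ := hφ.of_le (by simp)
  obtain ⟨t1, t2, t3, -⟩ := tensor_test hφ hφc hψ hψc
  rw [← fibT_apply hψ2, map_add, fibT_integral_slice h.memf (fs_cont_d hφ1 _) (hφc.fderiv_apply (𝕜 := ℝ) _) hψ2,
    fibT_integral_slice h.memg hφ.continuous hφc hψ2]
  have hw := h.weak _ t1 t2
  simp only [t3] at hw
  rw [hw, neg_add_cancel]

/-- transport of `DirL2` (induction on `k`). -/
theorem slice_dirL2 {k : ℕ} {Φ : Config 3 → E} {M : ℝ}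
    (h : DirL2 volume (cdir ({0} : Finset (Fin 3))) k Φ M) :
    DirL2 (volume : Measure Space) eA k (slice Φ) M := by
  induction k generalizing Φ with
  | zero =>
    obtain ⟨h1, h2⟩ := h
    exact ⟨(memLp_slice h1).1, by rw [(memLp_slice h1).2]; exact h2⟩
  | succ k ih =>
    obtain ⟨⟨h1, h2⟩, h3⟩ := h
    refine ⟨⟨(memLp_slice h1).1, by rw [(memLp_slice h1).2]; exact h2⟩, fun a => ?_⟩
    obtain ⟨g', hw, hg'⟩ := h3 a
    rw [cdir_singleton_zero] at hw
    exact ⟨slice g', (slice_wd2 ⟨h1, hg'.base.1, hw⟩).weak, ih hg'⟩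

end L2

end Claimed.Open.R278.AG
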