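import Claimed.Open.R278.TKCalc

/-!
# Package AN, leaf AN-C: compactness and lower semicontinuity for folded angles, with varying densities

Used twice: for the direct method (`nj j = n₀` for all `j`) and for Prop. 4.2 (`n_t → n₀`).  Only the part of `DensConv` written in the hypotheses is used.

PLAN.  (1) folded + odd ⇒ `|θ_j| ≤ π/2` a.e.  (2) for every `R`, `n_j ≥ c_R > 0` on `closedBall 0 R` for all `j ≥ j(R)` (uniform convergence, `n₀ ≥ 2 c_R`) and for the
finitely many other `j` by continuity/positivity; hence `∫_{B_R} |G_j|² ≤ B / c_R'`.  (3) `IsWeakGrad.exists_subseq_loc` (FSCompact) gives `φ, θ, G`: a.e. convergence,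
`L²_loc` convergence, weak convergence of the gradients against compactly supported `L²` fields.  (4) a.e. limits: `|θ| ≤ π/2`, folded, odd
(`measurePreserving_reflZ` to transport the null set).  (5) `∫ n₀ (θ_{φ j} - θ)² → 0`, `∫ n₀ sin² θ_{φ j} → ∫ n₀ sin² θ` by dominated convergence (`≤ π² n₀`), and
`|∫ (n_j - n₀) sin² θ_j| ≤ ∫ |n_j - n₀| → 0`: the constraint passes to the limit.
(6) lower semicontinuity: for a continuous cutoff `0 ≤ χ ≤ 1` with compact support, `W = χ n₀ G`:
`∫ χ n₀ |G|² = lim ∫ ⟨W, G_{φ j}⟩ ≤ liminf (∫ χ² n₀² n_{φ j}⁻¹ |G|²)^{1/2} (∫ n_{φ j} |G_{φ j}|²)^{1/2}` and `n₀²/n_j → n₀` uniformly on `supp χ`;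
so `∫ χ n₀ |G|² ≤ B'` whenever the energies are frequently `≤ B'`; let `χ ↑ 1` (monotone convergence; this also gives integrability of `n₀ |G|²`).
-/

open MeasureTheory Filter
open scoped ContDiff InnerProductSpace ENNReal Topology

noncomputable section

namespace Claimed.Open.R278

theorem an_abs_le_of_folded {θ : Space → ℝ} (hf : IsFolded θ) (hodd : ∀ᵐ x, θ (reflZ x) = -θ x) :
    ∀ᵐ x, |θ x| ≤ Real.pi / 2 := by
  have hplane : ∀ᵐ x : Space, x 2 ≠ 0 := by
    rw [ae_iff]
    simpa only [not_not] using tk3_plane_null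
  have hf' : ∀ᵐ x : Space, 0 < (reflZ x) 2 → 0 ≤ θ (reflZ x) ∧ θ (reflZ x) ≤ Real.pi / 2 :=
    tk3_ae_comp_reflZ hf
  filter_upwards [hf, hf', hodd, hplane] with x h1 h2 h3 h4
  rcases lt_or_gt_of_ne h4 with hx | hx
  · have := h2 (by simpa using hx)
    rw [h3] at this
    rw [abs_le]
    constructor <;> linarith [this.1, this.2, Real.pi_pos]
  · have := h1 hx
    rw [abs_le]
    constructor <;> linarith [this.1, this.2, Real.pi_pos]

/-- eventual uniform lower bound on balls. -/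
theorem anc_lower {nj : ℕ → Space → ℝ} {n₀ : Space → ℝ} (h0 : DensityBasic n₀)
    (hunif : ∀ R : ℝ, TendstoUniformlyOn nj n₀ atTop (Metric.closedBall 0 R)) (R : ℝ) :
    ∃ c : ℝ, 0 < c ∧ ∀ᶠ j in atTop, ∀ x : Space, ‖x‖ ≤ R → c ≤ nj j x := by
  obtain ⟨c, hc, hlow⟩ := exists_lower_bound_on_ball h0.continuous h0.pos R
  refine ⟨c / 2, by positivity, ?_⟩
  have := (Metric.tendstoUniformlyOn_iff.1 (hunif R)) (c / 2) (by positivity)
  filter_upwards [this] with j hj x hx
  have h1 := hj x (by simpa using hx)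
  rw [Real.dist_eq] at h1
  have h2 := abs_lt.1 h1
  linarith [hlow x hx, h2.1, h2.2]

theorem anc_tendsto_pt {nj : ℕ → Space → ℝ} {n₀ : Space → ℝ}
    (hunif : ∀ R : ℝ, TendstoUniformlyOn nj n₀ atTop (Metric.closedBall 0 R)) (x : Space) :
    Tendsto (fun j => nj j x) atTop (𝓝 (n₀ x)) :=
  (hunif ‖x‖).tendsto_at (by simp)

theorem anc_int_G {n : Space → ℝ} (hn : DensityBasic n) {ϑ : Space → ℝ} {G : Space → Space}
    (h : IsAdmissibleAngle n ϑ G) : Integrable fun x => n x * ‖G x‖ ^ 2 := by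
  have hnm : AEStronglyMeasurable n volume := hn.continuous.aestronglyMeasurable
  have hGm : AEStronglyMeasurable G volume := h.1.2.1.aestronglyMeasurable
  refine h.2.1.mono' (hnm.mul (hGm.norm.pow 2)) (Eventually.of_forall fun x => ?_)
  rw [Real.norm_eq_abs, abs_of_nonneg (mul_nonneg (hn.pos x).le (sq_nonneg _))]
  exact mul_le_mul_of_nonneg_left (le_add_of_nonneg_left (sq_nonneg _)) (hn.pos x).le

/-- the local bounds needed for the extraction. -/
theorem anc_local_bound {nj : ℕ → Space → ℝ} {n₀ : Space → ℝ} (hj : ∀ j, DensityBasic (nj j))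
    (h0 : DensityBasic n₀) (hunif : ∀ R : ℝ, TendstoUniformlyOn nj n₀ atTop (Metric.closedBall 0 R))
    {θj : ℕ → Space → ℝ} {Gj : ℕ → Space → Space} (hadm : ∀ j, IsAdmissibleAngle (nj j) (θj j) (Gj j))
    (hfold : ∀ j, IsFolded (θj j)) {B : ℝ} (hB : ∀ j, angleEnergy (nj j) (Gj j) ≤ B)
    (K : Set Space) (hK : IsCompact K) :
    ∃ C : ℝ, ∀ j, (∫ x in K, θj j x ^ 2) + ∫ x in K, ‖Gj j x‖ ^ 2 ≤ C := by
  obtain ⟨R, hR⟩ := hK.isBounded.subset_closedBall (0 : Space)
  obtain ⟨c, hc, hlow⟩ := anc_lower h0 hunif R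
  have hKfin : volume K ≠ ⊤ := hK.measure_lt_top.ne
  have hev : ∀ᶠ j in atTop, (∫ x in K, θj j x ^ 2) + ∫ x in K, ‖Gj j x‖ ^ 2
      ≤ (Real.pi / 2) ^ 2 * (volume K).toReal + B / c := by
    filter_upwards [hlow] with j hjl
    refine add_le_add ?_ ?_
    · calc ∫ x in K, θj j x ^ 2 ≤ ∫ x in K, (Real.pi / 2) ^ 2 := by
            refine integral_mono_of_nonneg (Eventually.of_forall fun x => sq_nonneg _)
              (integrableOn_const hKfin) ?_
            refine ae_restrict_of_ae ?_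
            filter_upwards [an_abs_le_of_folded (hfold j) (hadm j).2.2.1] with x hx
            rw [← sq_abs]
            exact pow_le_pow_left₀ (abs_nonneg _) hx 2
        _ = (Real.pi / 2) ^ 2 * (volume K).toReal := by
            rw [setIntegral_const, smul_eq_mul, mul_comm]
            rfl
    · rw [le_div_iff₀ hc]
      have hi := anc_int_G (hj j) (hadm j)
      calc (∫ x in K, ‖Gj j x‖ ^ 2) * c = ∫ x in K, c * ‖Gj j x‖ ^ 2 := by
            rw [integral_const_mul, mul_comm]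
        _ ≤ ∫ x in K, nj j x * ‖Gj j x‖ ^ 2 := by
            refine integral_mono_of_nonneg
              (Eventually.of_forall fun x => mul_nonneg hc.le (sq_nonneg _)) hi.integrableOn ?_
            refine (ae_restrict_iff' hK.measurableSet).2 (Eventually.of_forall fun x hx => ?_)
            exact mul_le_mul_of_nonneg_right (hjl x (by simpa using hR hx)) (sq_nonneg _)
        _ ≤ ∫ x, nj j x * ‖Gj j x‖ ^ 2 :=
            setIntegral_le_integral hi
              (Eventually.of_forall fun x => mul_nonneg ((hj j).pos x).le (sq_nonneg _))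
        _ ≤ B := hB j
  obtain ⟨C, hC⟩ := (Filter.isBoundedUnder_of_eventually_le hev).bddAbove_range
  exact ⟨C, fun j => hC ⟨j, rfl⟩⟩

/-- `a ‖G‖²` is integrable on balls for continuous `a` and `G ∈ L²_loc`. -/
theorem anc_int_weight {G H : Space → Space} (hG : AnL2loc G) (hH : AnL2loc H) {a : Space → ℝ}
    (ha : Continuous a) (R : ℝ) :
    IntegrableOn (fun x => a x * ⟪G x, H x⟫_ℝ) (Metric.ball 0 R) := by
  have h1 := Claimed.Agent.R259.ws_integrable_inner (tk1_memLp_smul (hG R) ha) (hH R)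
  refine h1.congr (Eventually.of_forall fun x => ?_)
  simp only
  rw [real_inner_smul_left]

/-- local lower semicontinuity. -/
theorem anc_lsc_local {nj : ℕ → Space → ℝ} {n₀ : Space → ℝ} (hj : ∀ j, DensityBasic (nj j))
    (h0 : DensityBasic n₀) (hunif : ∀ R : ℝ, TendstoUniformlyOn nj n₀ atTop (Metric.closedBall 0 R))
    {Gj : ℕ → Space → Space} {G : Space → Space}
    (hGj : ∀ j, Integrable fun x => nj j x * ‖Gj j x‖ ^ 2) (hGjloc : ∀ j, AnL2loc (Gj j)) (hG : AnL2loc G)
    (hweak : ∀ W : Space → Space, MemLp W 2 volume → HasCompactSupport W →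
        Tendsto (fun j => ∫ x, ⟪W x, Gj j x⟫_ℝ) atTop (𝓝 (∫ x, ⟪W x, G x⟫_ℝ)))
    (R : ℝ) {B' : ℝ} (hfreq : ∃ᶠ j in atTop, angleEnergy (nj j) (Gj j) ≤ B') :
    ∫ x in Metric.ball 0 R, n₀ x * ‖G x‖ ^ 2 ≤ B' := by
  have hm : MeasurableSet (Metric.ball (0 : Space) R) := measurableSet_ball
  set W : Space → Space := (Metric.ball (0 : Space) R).indicator fun x => n₀ x • G x with hW
  have hW2 : MemLp W 2 volume :=
    (memLp_indicator_iff_restrict hm).2 (tk1_memLp_smul (hG R) h0.continuous)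
  have hWc : HasCompactSupport W := by
    refine HasCompactSupport.intro (isCompact_closedBall (0 : Space) R) fun x hx => ?_
    exact Set.indicator_of_notMem (fun h => hx (Metric.ball_subset_closedBall h)) _
  have hWint : ∀ H : Space → Space, ∫ x, ⟪W x, H x⟫_ℝ = ∫ x in Metric.ball 0 R, n₀ x * ⟪G x, H x⟫_ℝ := by
    intro H
    rw [← integral_indicator hm]
    refine integral_congr_ae (Eventually.of_forall fun x => ?_)
    simp only [hW]
    by_cases hx : x ∈ Metric.ball (0 : Space) R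
    · rw [Set.indicator_of_mem hx, Set.indicator_of_mem hx, real_inner_smul_left]
    · rw [Set.indicator_of_notMem hx, Set.indicator_of_notMem hx, inner_zero_left]
  have hI := hweak W hW2 hWc
  simp only [hWint] at hI
  have haa : ∫ x in Metric.ball 0 R, n₀ x * ⟪G x, G x⟫_ℝ = ∫ x in Metric.ball 0 R, n₀ x * ‖G x‖ ^ 2 := by
    simp only [real_inner_self_eq_norm_sq]
  rw [haa] at hI
  -- the second term
  obtain ⟨c, hc, hlow⟩ := anc_lower h0 hunif R
  obtain ⟨M, hM⟩ := (isCompact_closedBall (0 : Space) R).exists_bound_of_continuousOn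
    h0.continuous.continuousOn
  have hacont : ∀ j, Continuous fun x => n₀ x ^ 2 / nj j x := fun j =>
    (h0.continuous.pow 2).div (hj j).continuous fun x => ((hj j).pos x).ne'
  have hGm : AEStronglyMeasurable G (volume.restrict (Metric.ball 0 R)) := (hG R).1
  have hGsq : IntegrableOn (fun x => ‖G x‖ ^ 2) (Metric.ball 0 R) := (hG R).integrable_norm_pow (by simp)
  have hII : Tendsto (fun j => ∫ x in Metric.ball 0 R, n₀ x ^ 2 / nj j x * ‖G x‖ ^ 2) atTop
      (𝓝 (∫ x in Metric.ball 0 R, n₀ x * ‖G x‖ ^ 2)) := by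
    refine tendsto_integral_filter_of_dominated_convergence (fun x => M ^ 2 / c * ‖G x‖ ^ 2)
      (Eventually.of_forall fun j => (hacont j).aestronglyMeasurable.mul (hGm.norm.pow 2)) ?_
      (hGsq.const_mul _) (Eventually.of_forall fun x => ?_)
    · filter_upwards [hlow] with j hjl
      refine (ae_restrict_iff' hm).2 (Eventually.of_forall fun x hx => ?_)
      have hx' : ‖x‖ ≤ R := by
        have := Metric.ball_subset_closedBall hx
        simpa using this
      have h1 : c ≤ nj j x := hjl x hx'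
      have h2 : ‖n₀ x‖ ≤ M := hM x (Metric.ball_subset_closedBall hx)
      rw [Real.norm_eq_abs, abs_of_pos (h0.pos x)] at h2
      rw [Real.norm_eq_abs, abs_of_nonneg (mul_nonneg (div_nonneg (sq_nonneg _) ((hj j).pos x).le)
        (sq_nonneg _))]
      refine mul_le_mul_of_nonneg_right ?_ (sq_nonneg _)
      exact div_le_div₀ (sq_nonneg _) (pow_le_pow_left₀ (h0.pos x).le h2 2) hc h1
    · have h1 : Tendsto (fun j => n₀ x ^ 2 / nj j x) atTop (𝓝 (n₀ x ^ 2 / n₀ x)) :=
        tendsto_const_nhds.div (anc_tendsto_pt hunif x) (h0.pos x).ne'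
      have h2 : n₀ x ^ 2 / n₀ x = n₀ x := by
        have := (h0.pos x).ne'
        field_simp
      rw [h2] at h1
      exact h1.mul_const _
  -- the inequality
  have hineq : ∀ j, 2 * (∫ x in Metric.ball 0 R, n₀ x * ⟪G x, Gj j x⟫_ℝ)
      - (∫ x in Metric.ball 0 R, n₀ x ^ 2 / nj j x * ‖G x‖ ^ 2) ≤ angleEnergy (nj j) (Gj j) := by
    intro j
    have i1 := anc_int_weight hG (hGjloc j) h0.continuous R
    have i2 : IntegrableOn (fun x => n₀ x ^ 2 / nj j x * ‖G x‖ ^ 2) (Metric.ball 0 R) := by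
      have := anc_int_weight hG hG (hacont j) R
      simpa only [real_inner_self_eq_norm_sq] using this
    rw [← integral_const_mul, ← integral_sub (i1.const_mul 2) i2]
    unfold angleEnergy
    refine le_trans ?_ (setIntegral_le_integral (s := Metric.ball 0 R) (hGj j)
      (Eventually.of_forall fun x => mul_nonneg ((hj j).pos x).le (sq_nonneg _)))
    refine integral_mono_ae ((i1.const_mul 2).sub i2) (hGj j).integrableOn
      (Eventually.of_forall fun x => ?_)
    simp only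
    have hp := (hj j).pos x
    have key : 0 ≤ nj j x * ‖Gj j x - (n₀ x / nj j x) • G x‖ ^ 2 := mul_nonneg hp.le (sq_nonneg _)
    rw [norm_sub_sq_real, real_inner_smul_right, norm_smul, mul_pow, Real.norm_eq_abs, sq_abs,
      real_inner_comm] at key
    have e : nj j x * (‖Gj j x‖ ^ 2 - 2 * (n₀ x / nj j x * ⟪G x, Gj j x⟫_ℝ)
        + (n₀ x / nj j x) ^ 2 * ‖G x‖ ^ 2)
        = nj j x * ‖Gj j x‖ ^ 2 - 2 * (n₀ x * ⟪G x, Gj j x⟫_ℝ) + n₀ x ^ 2 / nj j x * ‖G x‖ ^ 2 := by
      field_simp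
    rw [e] at key
    linarith
  have hlim := (hI.const_mul 2).sub hII
  have hfin := le_of_tendsto_of_frequently hlim (hfreq.mono fun j hjB => (hineq j).trans hjB)
  linarith

/-- global lower semicontinuity. -/
theorem anc_lsc {nj : ℕ → Space → ℝ} {n₀ : Space → ℝ} (hj : ∀ j, DensityBasic (nj j))
    (h0 : DensityBasic n₀) (hunif : ∀ R : ℝ, TendstoUniformlyOn nj n₀ atTop (Metric.closedBall 0 R))
    {Gj : ℕ → Space → Space} {G : Space → Space}
    (hGj : ∀ j, Integrable fun x => nj j x * ‖Gj j x‖ ^ 2) (hGjloc : ∀ j, AnL2loc (Gj j)) (hG : AnL2loc G)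
    (hweak : ∀ W : Space → Space, MemLp W 2 volume → HasCompactSupport W →
        Tendsto (fun j => ∫ x, ⟪W x, Gj j x⟫_ℝ) atTop (𝓝 (∫ x, ⟪W x, G x⟫_ℝ)))
    {B' : ℝ} (hfreq : ∃ᶠ j in atTop, angleEnergy (nj j) (Gj j) ≤ B') :
    Integrable (fun x => n₀ x * ‖G x‖ ^ 2) ∧ angleEnergy n₀ G ≤ B' := by
  have hcov : AECover (volume : Measure Space) atTop fun i : ℕ => Metric.ball (0 : Space) (i : ℝ) :=
    aecover_ball tendsto_natCast_atTop_atTop
  have hloc : ∀ i : ℕ, ∫ x in Metric.ball (0 : Space) (i : ℝ), n₀ x * ‖G x‖ ^ 2 ≤ B' := fun i =>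
    anc_lsc_local hj h0 hunif hGj hGjloc hG hweak i hfreq
  have hfi : ∀ i : ℕ, IntegrableOn (fun x => n₀ x * ‖G x‖ ^ 2) (Metric.ball (0 : Space) (i : ℝ)) := by
    intro i
    have := anc_int_weight hG hG h0.continuous i
    simpa only [real_inner_self_eq_norm_sq] using this
  have hint : Integrable (fun x => n₀ x * ‖G x‖ ^ 2) :=
    hcov.integrable_of_integral_bounded_of_nonneg_ae B' hfi
      (Eventually.of_forall fun x => mul_nonneg (h0.pos x).le (sq_nonneg _))
      (Eventually.of_forall hloc)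
  exact ⟨hint, le_of_tendsto' (hcov.integral_tendsto_of_countably_generated hint) hloc⟩

theorem anc_int_sinsq {n : Space → ℝ} (hn : DensityBasic n) {ϑ : Space → ℝ}
    (hm : AEStronglyMeasurable ϑ volume) : Integrable fun x => n x * Real.sin (ϑ x) ^ 2 := by
  refine hn.integrable.mono' (hn.continuous.aestronglyMeasurable.mul
    ((Real.continuous_sin.comp_aestronglyMeasurable hm).pow 2)) (Eventually.of_forall fun x => ?_)
  rw [Real.norm_eq_abs, abs_mul, abs_of_pos (hn.pos x), abs_of_nonneg (sq_nonneg _)]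
  exact mul_le_of_le_one_right (hn.pos x).le (Real.sin_sq_le_one _)

theorem an_limit {nj : ℕ → Space → ℝ} {n₀ : Space → ℝ} (hj : ∀ j, DensityBasic (nj j)) (h0 : DensityBasic n₀)
    (hunif : ∀ R : ℝ, TendstoUniformlyOn nj n₀ atTop (Metric.closedBall 0 R))
    (hl1 : Tendsto (fun j => ∫ x, |nj j x - n₀ x|) atTop (𝓝 0))
    {θj : ℕ → Space → ℝ} {Gj : ℕ → Space → Space} (hadm : ∀ j, IsAdmissibleAngle (nj j) (θj j) (Gj j))
    (hfold : ∀ j, IsFolded (θj j)) {B : ℝ} (hB : ∀ j, angleEnergy (nj j) (Gj j) ≤ B) :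
    ∃ (φ : ℕ → ℕ) (θ : Space → ℝ) (G : Space → Space), StrictMono φ ∧ IsAdmissibleAngle n₀ θ G ∧ IsFolded θ ∧
      (∀ᵐ x, Tendsto (fun j => θj (φ j) x) atTop (𝓝 (θ x))) ∧
      Tendsto (fun j => ∫ x, n₀ x * (θj (φ j) x - θ x) ^ 2) atTop (𝓝 0) ∧
      (∀ B' : ℝ, (∃ᶠ j in atTop, angleEnergy (nj (φ j)) (Gj (φ j)) ≤ B') → angleEnergy n₀ G ≤ B') ∧
      (∀ W : Space → Space, MemLp W 2 volume → HasCompactSupport W →
        Tendsto (fun j => ∫ x, ⟪W x, Gj (φ j) x⟫_ℝ) atTop (𝓝 (∫ x, ⟪W x, G x⟫_ℝ))) := by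
  have hθloc : ∀ j, L2Loc volume (θj j) := fun j =>
    anL2loc_iff_l2Loc.1 (anL2loc_of_memLp_dm (hj j).continuous (hj j).pos ((hadm j).h1 (hj j)).2.1)
  have hGloc : ∀ j, L2Loc volume (Gj j) := fun j =>
    anL2loc_iff_l2Loc.1 (anL2loc_of_memLp_dm (hj j).continuous (hj j).pos ((hadm j).h1 (hj j)).2.2)
  obtain ⟨φ, θ, G, hφ, hw, -, hG2, -, hae, hweak⟩ :=
    IsWeakGrad.exists_subseq_loc (fun j => (hadm j).1) hθloc hGloc
      (anc_local_bound hj h0 hunif hadm hfold hB)
  have hbj : ∀ᵐ x, ∀ j, |θj j x| ≤ Real.pi / 2 :=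
    ae_all_iff.2 fun j => an_abs_le_of_folded (hfold j) (hadm j).2.2.1
  have hb : ∀ᵐ x, |θ x| ≤ Real.pi / 2 := by
    filter_upwards [hae, hbj] with x h1 h2
    exact le_of_tendsto' h1.abs fun j => h2 (φ j)
  have hfolded : IsFolded θ := by
    have h3 : ∀ᵐ x : Space, ∀ j, 0 < x 2 → 0 ≤ θj j x ∧ θj j x ≤ Real.pi / 2 := ae_all_iff.2 hfold
    filter_upwards [hae, h3] with x h1 h2 hx
    exact ⟨ge_of_tendsto' h1 fun j => (h2 (φ j) hx).1, le_of_tendsto' h1 fun j => (h2 (φ j) hx).2⟩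
  have hodd : ∀ᵐ x, θ (reflZ x) = -θ x := by
    have h1 : ∀ᵐ x, ∀ j, θj j (reflZ x) = - θj j x := ae_all_iff.2 fun j => (hadm j).2.2.1
    filter_upwards [hae, tk3_ae_comp_reflZ hae, h1] with x a b c
    refine tendsto_nhds_unique b ?_
    simp only [c]
    exact a.neg
  have hunif' : ∀ R : ℝ, TendstoUniformlyOn (fun j => nj (φ j)) n₀ atTop (Metric.closedBall 0 R) :=
    fun R u hu => hφ.tendsto_atTop.eventually (hunif R u hu)
  have hlsc : ∀ B' : ℝ, (∃ᶠ j in atTop, angleEnergy (nj (φ j)) (Gj (φ j)) ≤ B') →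
      Integrable (fun x => n₀ x * ‖G x‖ ^ 2) ∧ angleEnergy n₀ G ≤ B' := fun B' hf =>
    anc_lsc (fun j => hj (φ j)) h0 hunif' (fun j => anc_int_G (hj (φ j)) (hadm (φ j)))
      (fun j => anL2loc_iff_l2Loc.2 (hGloc (φ j))) (anL2loc_iff_l2Loc.2 hG2) hweak hf
  have hGint := (hlsc B (Eventually.of_forall fun j => hB (φ j)).frequently).1
  have hθm : AEStronglyMeasurable θ volume := hw.1.aestronglyMeasurable
  have hθjm : ∀ j, AEStronglyMeasurable (θj j) volume := fun j => (hadm j).1.1.aestronglyMeasurable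
  have hnm : AEStronglyMeasurable n₀ volume := h0.continuous.aestronglyMeasurable
  have hθint : Integrable fun x => n₀ x * θ x ^ 2 := by
    refine (h0.integrable.mul_const ((Real.pi / 2) ^ 2)).mono' (hnm.mul (hθm.pow 2)) ?_
    filter_upwards [hb] with x hx
    rw [Real.norm_eq_abs, abs_of_nonneg (mul_nonneg (h0.pos x).le (sq_nonneg _))]
    refine mul_le_mul_of_nonneg_left ?_ (h0.pos x).le
    rw [← sq_abs]
    exact pow_le_pow_left₀ (abs_nonneg _) hx 2
  have hconv : Tendsto (fun j => ∫ x, n₀ x * (θj (φ j) x - θ x) ^ 2) atTop (𝓝 0) := by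
    have := tendsto_integral_of_dominated_convergence (fun x => n₀ x * Real.pi ^ 2)
      (F := fun j x => n₀ x * (θj (φ j) x - θ x) ^ 2) (f := fun _ => (0 : ℝ)) (μ := volume)
      (fun j => hnm.mul (((hθjm (φ j)).sub hθm).pow 2)) (h0.integrable.mul_const _)
      (fun j => by
        filter_upwards [hb, hbj] with x h1 h2
        rw [Real.norm_eq_abs, abs_of_nonneg (mul_nonneg (h0.pos x).le (sq_nonneg _))]
        refine mul_le_mul_of_nonneg_left ?_ (h0.pos x).le
        rw [← sq_abs]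
        refine pow_le_pow_left₀ (abs_nonneg _) ?_ 2
        calc |θj (φ j) x - θ x| ≤ |θj (φ j) x| + |θ x| := abs_sub _ _
          _ ≤ Real.pi := by linarith [h2 (φ j)])
      (by
        filter_upwards [hae] with x hx
        have h1 : Tendsto (fun j => θj (φ j) x - θ x) atTop (𝓝 0) := by
          simpa using hx.sub_const (θ x)
        have h2 := ((h1.pow 2).const_mul (n₀ x))
        simpa using h2)
    simpa using this
  have hcon : ∫ x, n₀ x * Real.sin (θ x) ^ 2 = 1 := by
    have l1 : Tendsto (fun j => ∫ x, n₀ x * Real.sin (θj (φ j) x) ^ 2) atTop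
        (𝓝 (∫ x, n₀ x * Real.sin (θ x) ^ 2)) := by
      refine tendsto_integral_of_dominated_convergence n₀
        (fun j => (anc_int_sinsq h0 (hθjm (φ j))).1) h0.integrable
        (fun j => Eventually.of_forall fun x => ?_) ?_
      · rw [Real.norm_eq_abs, abs_mul, abs_of_pos (h0.pos x), abs_of_nonneg (sq_nonneg _)]
        exact mul_le_of_le_one_right (h0.pos x).le (Real.sin_sq_le_one _)
      · filter_upwards [hae] with x hx
        exact (((Real.continuous_sin.tendsto _).comp hx).pow 2).const_mul _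
    have l2 : Tendsto (fun j => ∫ x, n₀ x * Real.sin (θj (φ j) x) ^ 2) atTop (𝓝 1) := by
      have e : ∀ j, ∫ x, n₀ x * Real.sin (θj (φ j) x) ^ 2
          = 1 - ∫ x, (nj (φ j) x - n₀ x) * Real.sin (θj (φ j) x) ^ 2 := by
        intro j
        have i1 := anc_int_sinsq (hj (φ j)) (hθjm (φ j))
        have i2 := anc_int_sinsq h0 (hθjm (φ j))
        have : ∫ x, (nj (φ j) x - n₀ x) * Real.sin (θj (φ j) x) ^ 2
            = (∫ x, nj (φ j) x * Real.sin (θj (φ j) x) ^ 2) - ∫ x, n₀ x * Real.sin (θj (φ j) x) ^ 2 := by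
          rw [← integral_sub i1 i2]
          refine integral_congr_ae (Eventually.of_forall fun x => ?_)
          simp only
          ring
        rw [this, (hadm (φ j)).2.2.2]
        ring
      have l3 : Tendsto (fun j => ∫ x, (nj (φ j) x - n₀ x) * Real.sin (θj (φ j) x) ^ 2) atTop (𝓝 0) := by
        refine squeeze_zero_norm (fun j => ?_) (hl1.comp hφ.tendsto_atTop)
        have hd : Integrable fun x => |nj (φ j) x - n₀ x| := ((hj (φ j)).integrable.sub h0.integrable).abs
        refine norm_integral_le_of_norm_le hd (Eventually.of_forall fun x => ?_)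
        rw [norm_mul, Real.norm_eq_abs, Real.norm_eq_abs, abs_of_nonneg (sq_nonneg (Real.sin _))]
        exact mul_le_of_le_one_right (abs_nonneg _) (Real.sin_sq_le_one _)
      simp only [e]
      simpa using (tendsto_const_nhds (x := (1 : ℝ))).sub l3
    exact tendsto_nhds_unique l1 l2
  refine ⟨φ, θ, G, hφ, ⟨hw, ?_, hodd, hcon⟩, hfolded, hae, hconv, fun B' hf => (hlsc B' hf).2, hweak⟩
  refine (hθint.add hGint).congr (Eventually.of_forall fun x => ?_)
  simp only [Pi.add_apply]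
  ring

end Claimed.Open.R278
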