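import Claimed.Open.R278.TopDefs
import Claimed.Open.R278.FSH2
import Claimed.Agent.R259.Reg

/-!
# Result 278, packages AN / AC / GP (Section 4): shared definitions and the plan of package AN

Architect: helper214.

BASE LIBRARY.  `Claimed.Agent.R259` (sorry-free, generic finite dimensional inner product space `E`, here `E = Space`):
* `WeakGrad u g`, `H1 m u g`, `dm η = volume.withDensity (ofReal ∘ η)`, `IsTest` (`S3Defs.lean`);
* `WS.lean` (exports): `ws_weakGrad_*` (C¹ functions, uniqueness, congr, add, smul, Leibniz, chain rule, products of bounded functions, C¹ tests),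
  `ws_dense`, `ws_closed`, `ws_lsc`, `ws_weak_conv`; `WsTrunc.lean`: `wsg_comp_limit`, `wsg_posPart`, `wsg_abs`, `wsg_clip`, `wsg_level`, ...;
  `WsH1.lean`: cutoffs `wsCut`; `WsMol.lean`, `WsGrad.lean`: mollifiers `wsMol`, `wsMol_gradient`; `WsLoc.lean`: `ws_weakGrad_of_loc`; `WsIbp.lean`: `wsg_div_ibp`;
  `WsBasic.lean`: `ws_integral_dm`, `ws_integrable_dm_iff`, comparison of `dm η` and `volume` on compact sets; `WsLim.lean`: Hilbert space limits.
* `Reg*.lean`: `RegVW u G` (`-Δu = G` very weakly), `reg_repr : u = ρ₁ * u + T G` a.e., `reg_T_C1`, `reg_young`, `reg_holder_conv`, ladder templates.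
* kit FS of helper42 (`FSBridge`, `FSHardy`, `FSCompact`, `FSH2`; statements on main, leaves `FS-..`): `isWeakGrad_iff_weakGrad` (THE bridge),
  scalar calculus `IsWeakGrad.add/mul/comp/posPart/...`, `IsWeakGrad.exists_subseq_loc` (Rellich + diagonal + weak limits),
  `IsWeakGrad.indicator_upper_of_odd`, `IsWeakGrad.odd_extension`, `IsWeakGrad.comp_reflZ`, `IsWeakGrad.grad_of_odd`, `IsWeakGrad.comp_lipschitz`,
  `integral_space_eq_plane` (Fubini `ℝ³ = ℝ² × ℝ`), `IsH1.integrable_nuclear`.

PACKAGE AN (Proposition 4.1).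
  TK*      toolkit: weighted bridge, extension of weak equations/inequalities to `H¹` tests, constants, local chain rule
  ANFold   folding `ϑ ↦ sign(z) arcsin|sin ϑ|` does not increase the energy
  ANCpt    compactness of bounded-energy folded angles, also for varying densities `n_j → n₀` (used again by AC)
  ANExist  nonemptiness, direct method  ⇒ `IsWeakFoldedMin`
  ANMult   Lagrange multiplier (IVT instead of the implicit function theorem), `d > 0`, uniqueness of `d`
  ANReg*   `C¹` regularity WITHOUT Calderon-Zygmund, with uniform local `C^{1,1/2}` estimates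
  ANTop    `an_exists_foldedMinimizer`
-/

open MeasureTheory
open scoped ContDiff InnerProductSpace ENNReal Topology

noncomputable section

namespace Claimed.Open.R278

/-- The open upper half space `Ω₊`. -/
def upperHalf : Set Space := {x | 0 < x 2}

/-- `L²` on every ball. -/
def AnL2loc {F : Type*} [NormedAddCommGroup F] (f : Space → F) : Prop :=
  ∀ R : ℝ, MemLp f 2 (volume.restrict (Metric.ball 0 R))

/-- The angle energy `∫ n |G|²`. -/
def angleEnergy (n : Space → ℝ) (G : Space → Space) : ℝ := ∫ x, n x * ‖G x‖ ^ 2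

/-- Folded (almost everywhere version): `0 ≤ θ ≤ π/2` on `Ω₊`. -/
def IsFolded (θ : Space → ℝ) : Prop := ∀ᵐ x : Space, 0 < x 2 → 0 ≤ θ x ∧ θ x ≤ Real.pi / 2

/-- A folded minimizer in the energy space (no regularity). -/
def IsWeakFoldedMin (n θ : Space → ℝ) (G : Space → Space) : Prop :=
  IsAdmissibleAngle n θ G ∧ IsFolded θ ∧
    ∀ ϑ G', IsAdmissibleAngle n ϑ G' → angleEnergy n G ≤ angleEnergy n G'

/-- The weak Euler-Lagrange equation for an angle with weak gradient `G`. -/
def IsWeakMultiplier (n θ : Space → ℝ) (G : Space → Space) (d : ℝ) : Prop :=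
  ∀ φ : Space → ℝ, ContDiff ℝ ∞ φ → HasCompactSupport φ →
    (∫ x, n x * ⟪G x, gradient φ x⟫_ℝ) = d * ∫ x, n x * Real.sin (2 * θ x) * φ x

/-- The folding map `t ↦ arcsin |sin t|` (triangle wave, distance to `π ℤ`). -/
def foldMap (t : ℝ) : ℝ := Real.arcsin |Real.sin t|

/-- The drift `∇ log n = ∇n / n`. -/
def anDrift (n : Space → ℝ) (x : Space) : Space := (n x)⁻¹ • gradient n x

/-- `-div (n g) = n f` weakly, `g = ∇u ∈ L²_loc`. -/
structure DriftEq (n u f : Space → ℝ) (g : Space → Space) : Prop where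
  wg : Claimed.Agent.R259.WeakGrad u g
  g2 : AnL2loc g
  fm : AEStronglyMeasurable f volume
  eq : ∀ φ : Space → ℝ, ContDiff ℝ ∞ φ → HasCompactSupport φ →
    (∫ x, n x * ⟪g x, gradient φ x⟫_ℝ) = ∫ x, n x * f x * φ x

/-- Quantitative local control of a density on `ball 0 R`. -/
structure DensLoc (n : Space → ℝ) (R c Λ : ℝ) : Prop where
  lower : ∀ x : Space, ‖x‖ < R → c ≤ n x
  grad6 : eLpNorm (gradient n) 6 (volume.restrict (Metric.ball 0 R)) ≤ ENNReal.ofReal Λ

/-- The gradient potential `T₁ G` of the REG kit as a vector. -/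
def anT1 (G : Space → ℝ) (x : Space) : Space :=
  (InnerProductSpace.toDual ℝ Space).symm (Claimed.Agent.R259.regT1 G x)

/-- The scalar majorant kernel of `T₁`: `P₁(w) = ∫_0^1 |(Dψ)_s(w)| ds  (≲ |w|⁻² 1_{|w| ≤ 2})`. -/
def anP1 (w : Space) : ℝ≥0∞ :=
  ∫⁻ s in Set.Ioc (0 : ℝ) 1,
    ‖Claimed.Agent.R259.regScale (fderiv ℝ (Claimed.Agent.R259.regPsi : Space → ℝ)) s w‖ₑ

/-- A sequence of densities converging to `n₀` in the sense supplied by `uniform_channels`. -/
structure DensConv (nj : ℕ → Space → ℝ) (n₀ : Space → ℝ) : Prop where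
  basic : ∀ j, DensityBasic (nj j)
  basic0 : DensityBasic n₀
  unif : ∀ R : ℝ, TendstoUniformlyOn nj n₀ Filter.atTop (Metric.closedBall 0 R)
  l1 : Filter.Tendsto (fun j => ∫ x, |nj j x - n₀ x|) Filter.atTop (𝓝 0)
  grad6 : ∀ R : ℝ, ∃ Λ : ℝ, ∀ j,
    eLpNorm (gradient (nj j)) 6 (volume.restrict (Metric.ball 0 R)) ≤ ENNReal.ofReal Λ

end Claimed.Open.R278
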