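import Claimed.Open.R278.ANFold
import Claimed.Open.R278.ANCpt

/-!
# Package AN, leaves AN-N (nonemptiness) and AN-X (direct method)

`an_nonempty`.  Let `K_j = {x : 1/j ≤ z, ‖x‖ ≤ j}` (compact, in `Ω₊`, increasing to `Ω₊`).  Take a smooth `0 ≤ β ≤ 1` with compact support in `Ω₊`, `β = 1` on `K_j`
(`exists_contDiff_tsupport_subset` / `exists_smooth_one_zero...`), `ϑ₁ = (π/2)(β - β ∘ reflZ)`: smooth, odd, compactly supported, and
`∫ n sin² ϑ₁ ≥ 2 ∫_{K_j} n → ∫ n = 3` (plane is a null set, `n` even), so it is `> 1` for `j` large.  `s ↦ ∫ n sin² (s ϑ₁)` is continuous on `[0,1]`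
(dominated convergence), `0` at `s = 0`: intermediate value theorem.  `s ϑ₁` is `C¹_c`, so admissible (`isWeakGrad_gradient`).

`an_exists_weak`.  `I = sInf` of the energies of folded admissible angles (nonempty by `an_nonempty`, `an_fold`; bounded below by `0`).  Minimising sequence with energies `≤ I + 1/(j+1)`;
`an_limit` with the constant sequence `nj = n`; the limit is admissible, folded, with energy `≤ B'` for all `B' > I`.  An arbitrary admissible competitor is folded first (`an_fold`).
-/

open MeasureTheory Filter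
open scoped ContDiff InnerProductSpace ENNReal Topology

noncomputable section

namespace Claimed.Open.R278

variable {n : Space → ℝ}

/-- a smooth odd compactly supported angle with constraint value `> 1` (also used for recovery sequences). -/
theorem an_exists_big_angle (hn : DensityBasic n) :
    ∃ ϑ₁ : Space → ℝ, ContDiff ℝ ∞ ϑ₁ ∧ HasCompactSupport ϑ₁ ∧ (∀ x, ϑ₁ (reflZ x) = -ϑ₁ x) ∧
      1 < ∫ x, n x * Real.sin (ϑ₁ x) ^ 2 := by
  have hcont2 : Continuous fun x : Space => x 2 := by fun_prop
  have hop : IsOpen upperHalf := isOpen_lt continuous_const hcont2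
  have hhalf : ∫ x in upperHalf, n x = 3 / 2 := by
    have := tk_integral_even hn.integrable (Eventually.of_forall hn.even)
    rw [hn.integral_eq] at this
    linarith
  set μ : Measure Space := Claimed.Agent.R259.dm n with hμ
  have : IsLocallyFiniteMeasure μ := Claimed.Agent.R259.ws_dm_locallyFinite hn.continuous
  have hμs : ∀ s, MeasurableSet s → μ s = ENNReal.ofReal (∫ x in s, n x) := by
    intro s hs
    rw [hμ, Claimed.Agent.R259.dm, withDensity_apply _ hs,
      ofReal_integral_eq_lintegral_ofReal hn.integrable.integrableOn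
        (ae_of_all _ fun x => (hn.pos x).le)]
  have h1 : (1 : ℝ≥0∞) < μ upperHalf := by
    rw [hμs _ hop.measurableSet, hhalf, ← ENNReal.ofReal_one]
    exact (ENNReal.ofReal_lt_ofReal_iff (by norm_num)).2 (by norm_num)
  obtain ⟨K, hKU, hK, hK1⟩ := hop.exists_lt_isCompact h1
  have hK1' : 1 < ∫ x in K, n x := by
    rw [hμs _ hK.measurableSet, ← ENNReal.ofReal_one] at hK1
    exact (ENNReal.ofReal_lt_ofReal_iff_of_nonneg zero_le_one).1 hK1
  obtain ⟨δ, hδ, hδI⟩ := hK.exists_cthickening_subset_open hop hKU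
  have hT : IsCompact (Metric.cthickening δ K) := hK.cthickening
  have hKT : K ⊆ interior (Metric.cthickening δ K) :=
    (Metric.self_subset_thickening hδ K).trans
      (interior_maximal (Metric.thickening_subset_cthickening δ K) Metric.isOpen_thickening)
  obtain ⟨χ, hχ1, hχ0, -⟩ := exists_contMDiffMap_one_nhds_of_subset_interior (n := (⊤ : ℕ∞))
    (modelWithCornersSelf ℝ Space) hK.isClosed hKT
  have hχ : ContDiff ℝ ∞ (χ : Space → ℝ) := contMDiff_iff_contDiff.1 χ.contMDiff
  have hts : tsupport (χ : Space → ℝ) ⊆ Metric.cthickening δ K :=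
    closure_minimal (fun x hx => by_contra fun h => hx (hχ0 x h)) hT.isClosed
  have hcs0 : HasCompactSupport (χ : Space → ℝ) := hT.of_isClosed_subset (isClosed_tsupport _) hts
  have hcs1 : HasCompactSupport (fun x => χ (reflZ x)) :=
    hcs0.comp_homeomorph (reflZIsometry.toLinearIsometryEquiv rfl).toHomeomorph
  have hr : ContDiff ℝ ∞ reflZ := reflZIsometry.contDiff
  refine ⟨fun x => Real.pi / 2 * (χ x - χ (reflZ x)), contDiff_const.mul (hχ.sub (hχ.comp hr)),
    (hcs0.sub hcs1).mul_left, fun x => by simp only [reflZ_reflZ]; ring, ?_⟩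
  have hint : Integrable fun x => n x * Real.sin (Real.pi / 2 * (χ x - χ (reflZ x))) ^ 2 := by
    refine hn.integrable.mono' ?_ (Eventually.of_forall fun x => ?_)
    · exact (hn.continuous.mul ((Real.continuous_sin.comp (continuous_const.mul
        (hχ.continuous.sub (hχ.continuous.comp hr.continuous)))).pow 2)).aestronglyMeasurable
    · rw [Real.norm_eq_abs, abs_mul, abs_of_pos (hn.pos x), abs_of_nonneg (sq_nonneg _)]
      exact mul_le_of_le_one_right (hn.pos x).le (Real.sin_sq_le_one _)
  calc (1 : ℝ) < ∫ x in K, n x := hK1'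
    _ = ∫ x in K, n x * Real.sin (Real.pi / 2 * (χ x - χ (reflZ x))) ^ 2 := by
        refine setIntegral_congr_fun hK.measurableSet fun x hx => ?_
        have e1 : χ x = 1 := hχ1.self_of_nhdsSet x hx
        have e0 : χ (reflZ x) = 0 := by
          refine hχ0 _ fun hmem => ?_
          have h2 : 0 < (reflZ x) 2 := hδI hmem
          have h3 : 0 < x 2 := hKU hx
          simp at h2
          linarith
        simp only [e1, e0, sub_zero, mul_one, Real.sin_pi_div_two, one_pow]
    _ ≤ ∫ x, n x * Real.sin (Real.pi / 2 * (χ x - χ (reflZ x))) ^ 2 :=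
        setIntegral_le_integral hint
          (Eventually.of_forall fun x => mul_nonneg (hn.pos x).le (sq_nonneg _))

/-- a `C¹` odd compactly supported function with the right constraint value is admissible. -/
theorem an_admissible_of_contDiff (hn : DensityBasic n) {ϑ : Space → ℝ} (h1 : ContDiff ℝ 1 ϑ)
    (hc : HasCompactSupport ϑ) (hodd : ∀ x, ϑ (reflZ x) = -ϑ x) (hcon : (∫ x, n x * Real.sin (ϑ x) ^ 2) = 1) :
    IsAdmissibleAngle n ϑ (gradient ϑ) := by
  refine ⟨isWeakGrad_iff_weakGrad.2 (Claimed.Agent.R259.ws_weakGrad_of_contDiff h1), ?_,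
    Eventually.of_forall hodd, hcon⟩
  have hg : Continuous (gradient ϑ) := Claimed.Agent.R259.ws_gradient_continuous h1
  have hgc : HasCompactSupport (gradient ϑ) := Claimed.Agent.R259.ws_gradient_hasCompactSupport hc
  have hcont : Continuous fun x => n x * (ϑ x ^ 2 + ‖gradient ϑ x‖ ^ 2) :=
    hn.continuous.mul ((h1.continuous.pow 2).add (hg.norm.pow 2))
  refine hcont.integrable_of_hasCompactSupport ?_
  refine HasCompactSupport.mul_left ?_
  have a1 : HasCompactSupport fun x => ϑ x ^ 2 := by
    have e : (fun x => ϑ x ^ 2) = ϑ * ϑ := by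
      ext x
      simp [pow_two]
    rw [e]
    exact hc.mul_left (f := ϑ)
  have a2 : HasCompactSupport fun x => ‖gradient ϑ x‖ ^ 2 := by
    have e : (fun x => ‖gradient ϑ x‖ ^ 2) = (fun x => ‖gradient ϑ x‖) * fun x => ‖gradient ϑ x‖ := by
      ext x
      simp [pow_two]
    rw [e]
    exact hgc.norm.mul_left (f := fun x => ‖gradient ϑ x‖)
  exact a1.add a2

theorem an_nonempty (hn : DensityBasic n) : ∃ ϑ G, IsAdmissibleAngle n ϑ G := by
  obtain ⟨ϑ₁, h1, hc, hodd, hbig⟩ := an_exists_big_angle hn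
  set f : ℝ → ℝ := fun s => ∫ x, n x * Real.sin (s * ϑ₁ x) ^ 2 with hf
  have hfc : Continuous f := by
    refine continuous_of_dominated (bound := n) ?_ ?_ hn.integrable ?_
    · intro s
      exact (hn.continuous.mul ((Real.continuous_sin.comp
        (continuous_const.mul h1.continuous)).pow 2)).aestronglyMeasurable
    · intro s
      refine Eventually.of_forall fun x => ?_
      rw [Real.norm_eq_abs, abs_mul, abs_of_pos (hn.pos x), abs_of_nonneg (sq_nonneg _)]
      exact mul_le_of_le_one_right (hn.pos x).le (Real.sin_sq_le_one _)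
    · refine Eventually.of_forall fun x => ?_
      fun_prop
  have h0 : f 0 = 0 := by simp [hf]
  have h1' : 1 < f 1 := by simpa [hf] using hbig
  obtain ⟨s, -, hs⟩ := intermediate_value_Icc (zero_le_one) hfc.continuousOn
    (show (1 : ℝ) ∈ Set.Icc (f 0) (f 1) from ⟨by rw [h0]; norm_num, h1'.le⟩)
  exact ⟨fun x => s * ϑ₁ x, _, an_admissible_of_contDiff hn (contDiff_const.mul (h1.of_le (by simp)))
    hc.mul_left (fun x => by rw [hodd]; ring) hs⟩

/-- **Existence of a folded minimizer in the energy space.** -/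
theorem an_exists_weak (hn : DensityBasic n) : ∃ θ G, IsWeakFoldedMin n θ G := by
  set S : Set ℝ := {E : ℝ | ∃ θ G, IsAdmissibleAngle n θ G ∧ IsFolded θ ∧ angleEnergy n G = E} with hS
  have hfoldS : ∀ ϑ G, IsAdmissibleAngle n ϑ G → ∃ E ∈ S, E ≤ angleEnergy n G := by
    intro ϑ G h
    obtain ⟨ϑ', G', h1, h2, -, h4⟩ := an_fold hn h
    exact ⟨angleEnergy n G', ⟨ϑ', G', h1, Eventually.of_forall h2, rfl⟩, h4⟩
  have hne : S.Nonempty := by
    obtain ⟨ϑ, G, h⟩ := an_nonempty hn
    obtain ⟨E, hE, -⟩ := hfoldS ϑ G h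
    exact ⟨E, hE⟩
  have hbdd : BddBelow S := by
    refine ⟨0, ?_⟩
    rintro E ⟨θ, G, -, -, rfl⟩
    exact integral_nonneg fun x => mul_nonneg (hn.pos x).le (by positivity)
  set I : ℝ := sInf S with hI
  have hseq : ∀ j : ℕ, ∃ θ G, IsAdmissibleAngle n θ G ∧ IsFolded θ ∧
      angleEnergy n G < I + 1 / ((j : ℝ) + 1) := by
    intro j
    have hpos : (0 : ℝ) < 1 / ((j : ℝ) + 1) := by positivity
    obtain ⟨E, ⟨θ, G, h1, h2, rfl⟩, hlt⟩ := Real.lt_sInf_add_pos hne hpos
    exact ⟨θ, G, h1, h2, hlt⟩
  choose θj Gj hadm hfold hlt using hseq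
  have hB : ∀ j, angleEnergy n (Gj j) ≤ I + 1 := by
    intro j
    refine (hlt j).le.trans ?_
    have : 1 / ((j : ℝ) + 1) ≤ 1 := by
      rw [div_le_one (by positivity)]
      have : (0 : ℝ) ≤ j := Nat.cast_nonneg j
      linarith
    linarith
  obtain ⟨φ, θ, G, hφ, hA, hF, -, -, hlsc, -⟩ :=
    an_limit (nj := fun _ => n) (n₀ := n) (fun _ => hn) hn
      (fun R => by
        intro u hu
        exact Eventually.of_forall fun j x _ => refl_mem_uniformity hu)
      (by simp) hadm hfold hB
  have hle : angleEnergy n G ≤ I := by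
    refine le_of_forall_pos_le_add fun ε hε => ?_
    refine hlsc (I + ε) (Eventually.frequently ?_)
    have h1 : Tendsto (fun j : ℕ => 1 / (((φ j : ℕ) : ℝ) + 1)) atTop (𝓝 0) :=
      tendsto_one_div_add_atTop_nhds_zero_nat.comp hφ.tendsto_atTop
    filter_upwards [h1.eventually (gt_mem_nhds hε)] with j hj
    have := hlt (φ j)
    linarith
  refine ⟨θ, G, hA, hF, fun ϑ G' h => ?_⟩
  obtain ⟨E, hE, hEle⟩ := hfoldS ϑ G' h
  exact hle.trans ((csInf_le hbdd hE).trans hEle)

end Claimed.Open.R278
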