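import Claimed.Open.R278.TKCalc

/-!
# Package AN, leaf AN-F: folding does not increase the energy (first paragraph of the proof of Prop. 4.1)

`foldMap t = arcsin |sin t|` is the triangle wave: values in `[0, π/2]`, `sin² (foldMap t) = sin² t`, even, `foldMap 0 = 0`, `1`-Lipschitz, `C¹` (affine with slope `±1`) off the
closed countable set `N = {k π/2 : k ∈ ℤ}`.

`an_fold`.  `u₀ = 1_{z>0} ϑ` has weak gradient `1_{z>0} G` (`IsWeakGrad.indicator_upper_of_odd`: this replaces the zero trace),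
`u₁ = foldMap ∘ u₀` has weak gradient `deriv foldMap (u₀) • 1_{z>0} G` (`IsWeakGrad.comp_lipschitz`), and `u₁ = 0` for `z ≤ 0`;
`ϑ' = u₁ - u₁ ∘ reflZ` (`IsWeakGrad.odd_extension`).  For `z > 0`: `ϑ' = foldMap (ϑ x)`; for `z < 0`: `ϑ' = - foldMap (ϑ (reflZ x))`; `ϑ' = 0` on the plane.
Oddness is exact.  `sin² ϑ' = sin² ϑ` a.e. (oddness of `ϑ`), `|ϑ'| ≤ π/2`, `‖G'‖ ≤ ‖G‖` a.e. (`IsWeakGrad.grad_of_odd`, `norm_reflZ`, `n` even not even needed
for the pointwise bound: for `z<0`, `‖G' x‖ ≤ ‖G (reflZ x)‖ = ‖G x‖` a.e.).  Integrability: `n ϑ'² ≤ (π/2)² n`.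
-/

open MeasureTheory
open scoped ContDiff InnerProductSpace ENNReal Topology

noncomputable section

namespace Claimed.Open.R278

theorem foldMap_mem (t : ℝ) : 0 ≤ foldMap t ∧ foldMap t ≤ Real.pi / 2 :=
  ⟨Real.arcsin_nonneg.2 (abs_nonneg _), Real.arcsin_le_pi_div_two _⟩

theorem anf_sin_foldMap (t : ℝ) : Real.sin (foldMap t) = |Real.sin t| :=
  Real.sin_arcsin (by linarith [abs_nonneg (Real.sin t)]) (Real.abs_sin_le_one t)

theorem sin_sq_foldMap (t : ℝ) : Real.sin (foldMap t) ^ 2 = Real.sin t ^ 2 := by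
  rw [anf_sin_foldMap, sq_abs]

theorem foldMap_neg (t : ℝ) : foldMap (-t) = foldMap t := by
  simp [foldMap]

theorem foldMap_zero : foldMap 0 = 0 := by
  simp [foldMap]

/-- `t = k π ± foldMap t`. -/
theorem anf_repr (t : ℝ) : ∃ k : ℤ, t = k * Real.pi + foldMap t ∨ t = k * Real.pi - foldMap t := by
  have h := anf_sin_foldMap t
  rcases le_total 0 (Real.sin t) with h0 | h0
  · rw [abs_of_nonneg h0] at h
    obtain ⟨k, hk | hk⟩ := Real.sin_eq_sin_iff.1 h
    · exact ⟨2 * k, Or.inl (by push_cast; linarith)⟩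
    · exact ⟨2 * k + 1, Or.inr (by push_cast; linarith)⟩
  · rw [abs_of_nonpos h0, ← Real.sin_neg] at h
    obtain ⟨k, hk | hk⟩ := Real.sin_eq_sin_iff.1 h
    · exact ⟨-(2 * k), Or.inr (by push_cast; linarith)⟩
    · exact ⟨-(2 * k + 1), Or.inl (by push_cast; linarith)⟩

theorem anf_key (j : ℤ) {a b c : ℝ} (ha : 0 ≤ a) (ha' : a ≤ Real.pi / 2) (hb : 0 ≤ b) (hb' : b ≤ Real.pi / 2)
    (hc : c = a - b ∨ c = a + b ∨ c = -a - b ∨ c = -a + b) : |a - b| ≤ |j * Real.pi + c| := by
  have hc1 : c ≤ a + b := by rcases hc with h | h | h | h <;> linarith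
  have hc2 : -(a + b) ≤ c := by rcases hc with h | h | h | h <;> linarith
  rcases lt_trichotomy j 0 with h | h | h
  · have h1 : (j : ℝ) ≤ -1 := by exact_mod_cast Int.le_sub_one_of_lt h
    have h2 : (j : ℝ) * Real.pi ≤ -Real.pi := by nlinarith [Real.pi_pos]
    refine le_trans ?_ (neg_le_abs _)
    rw [abs_le]
    constructor <;> linarith
  · subst h
    simp only [Int.cast_zero, zero_mul, zero_add]
    rcases hc with h | h | h | h
    · rw [h]
    · rw [h, abs_of_nonneg (add_nonneg ha hb), abs_le]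
      constructor <;> linarith
    · rw [h, show -a - b = -(a + b) by ring, abs_neg, abs_of_nonneg (add_nonneg ha hb), abs_le]
      constructor <;> linarith
    · rw [h, show -a + b = -(a - b) by ring, abs_neg]
  · have h1 : (1 : ℝ) ≤ j := by exact_mod_cast Int.add_one_le_of_lt h
    have h2 : Real.pi ≤ (j : ℝ) * Real.pi := by nlinarith [Real.pi_pos]
    refine le_trans ?_ (le_abs_self _)
    rw [abs_le]
    constructor <;> linarith

theorem foldMap_lipschitz : LipschitzWith 1 foldMap := by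
  refine LipschitzWith.of_dist_le_mul fun s t => ?_
  rw [NNReal.coe_one, one_mul, Real.dist_eq, Real.dist_eq]
  obtain ⟨k, hk⟩ := anf_repr s
  obtain ⟨m, hm⟩ := anf_repr t
  obtain ⟨ha, ha'⟩ := foldMap_mem s
  obtain ⟨hb, hb'⟩ := foldMap_mem t
  rcases hk with hk | hk <;> rcases hm with hm | hm
  · have := anf_key (k - m) ha ha' hb hb' (c := foldMap s - foldMap t) (Or.inl rfl)
    have e : s - t = ((k - m : ℤ) : ℝ) * Real.pi + (foldMap s - foldMap t) := by
      push_cast; linarith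
    rw [e]; exact this
  · have := anf_key (k - m) ha ha' hb hb' (c := foldMap s + foldMap t) (Or.inr (Or.inl rfl))
    have e : s - t = ((k - m : ℤ) : ℝ) * Real.pi + (foldMap s + foldMap t) := by
      push_cast; linarith
    rw [e]; exact this
  · have := anf_key (k - m) ha ha' hb hb' (c := -foldMap s - foldMap t) (Or.inr (Or.inr (Or.inl rfl)))
    have e : s - t = ((k - m : ℤ) : ℝ) * Real.pi + (-foldMap s - foldMap t) := by
      push_cast; linarith
    rw [e]; exact this
  · have := anf_key (k - m) ha ha' hb hb' (c := -foldMap s + foldMap t) (Or.inr (Or.inr (Or.inr rfl)))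
    have e : s - t = ((k - m : ℤ) : ℝ) * Real.pi + (-foldMap s + foldMap t) := by
      push_cast; linarith
    rw [e]; exact this

/-- the kinks. -/
def foldKinks : Set ℝ := Set.range fun k : ℤ => (k : ℝ) * (Real.pi / 2)

theorem foldKinks_countable : foldKinks.Countable := Set.countable_range _

theorem foldKinks_isClosed : IsClosed foldKinks := by
  have h : (Real.pi / 2) ≠ 0 := by positivity
  exact ((Homeomorph.mulRight₀ (Real.pi / 2) h).isClosedEmbedding.comp
    Int.isClosedEmbedding_coe_real).isClosed_range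

theorem foldMap_contDiffOn : ContDiffOn ℝ 1 foldMap foldKinksᶜ := by
  intro t ht
  refine ContDiffAt.contDiffWithinAt ?_
  have h0 : Real.sin t ≠ 0 := by
    intro h
    obtain ⟨k, hk⟩ := Real.sin_eq_zero_iff.1 h
    exact ht ⟨2 * k, by simp only; push_cast; linarith⟩
  have hcos : Real.cos t ≠ 0 := by
    intro h
    obtain ⟨k, hk⟩ := Real.cos_eq_zero_iff.1 h
    exact ht ⟨2 * k + 1, by simp only; push_cast; linarith⟩
  have h1 : |Real.sin t| ≠ 1 := by
    intro h
    apply hcos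
    rw [Real.cos_eq_zero_iff_sin_eq]
    rcases abs_eq (zero_le_one' ℝ) |>.1 h with h | h
    · exact Or.inl h
    · exact Or.inr h
  have h2 : |Real.sin t| ≠ -1 := by
    have := abs_nonneg (Real.sin t)
    intro h
    linarith
  have hA : ContDiffAt ℝ 1 (fun s => |Real.sin s|) t :=
    (contDiffAt_abs h0).comp t Real.contDiff_sin.contDiffAt
  exact (Real.contDiffAt_arcsin h2 h1).comp t hA

theorem abs_deriv_foldMap_le (t : ℝ) : |deriv foldMap t| ≤ 1 := by
  have := norm_deriv_le_of_lipschitz (x₀ := t) foldMap_lipschitz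
  simpa using this

/-- **Folding.** -/
theorem an_fold {n : Space → ℝ} (hn : DensityBasic n) {ϑ : Space → ℝ} {G : Space → Space}
    (h : IsAdmissibleAngle n ϑ G) :
    ∃ (ϑ' : Space → ℝ) (G' : Space → Space), IsAdmissibleAngle n ϑ' G' ∧
      (∀ x : Space, 0 < x 2 → 0 ≤ ϑ' x ∧ ϑ' x ≤ Real.pi / 2) ∧ (∀ x, |ϑ' x| ≤ Real.pi / 2) ∧
      angleEnergy n G' ≤ angleEnergy n G := by
  obtain ⟨hw, hi, ho, hs⟩ := h
  set u₀ : Space → ℝ := fun x => if 0 < x 2 then ϑ x else 0 with hu₀
  set g₀ : Space → Space := fun x => if 0 < x 2 then G x else 0 with hg₀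
  have hw0 : IsWeakGrad u₀ g₀ := hw.indicator_upper_of_odd ho
  set u₁ : Space → ℝ := fun x => foldMap (u₀ x) with hu₁
  set g₁ : Space → Space := fun x => deriv foldMap (u₀ x) • g₀ x with hg₁
  have hw1 : IsWeakGrad u₁ g₁ :=
    hw0.comp_lipschitz foldMap_lipschitz foldKinks_countable foldKinks_isClosed foldMap_contDiffOn
  have hw2 : IsWeakGrad (fun x => u₁ x - u₁ (reflZ x)) (fun x => g₁ x - reflZ (g₁ (reflZ x))) :=
    hw1.odd_extension
  set ϑ' : Space → ℝ := fun x => u₁ x - u₁ (reflZ x) with hϑ'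
  set G' : Space → Space := fun x => g₁ x - reflZ (g₁ (reflZ x)) with hG'
  have hrz : reflZ (0 : Space) = 0 := reflZIsometry.map_zero
  -- values
  have hu_nonpos : ∀ x : Space, x 2 ≤ 0 → u₁ x = 0 := by
    intro x hx
    simp only [hu₁, hu₀, if_neg (not_lt.2 hx), foldMap_zero]
  have hg_nonpos : ∀ x : Space, x 2 ≤ 0 → g₁ x = 0 := by
    intro x hx
    simp only [hg₁, hg₀, if_neg (not_lt.2 hx), smul_zero]
  have hu_pos : ∀ x : Space, 0 < x 2 → u₁ x = foldMap (ϑ x) := by
    intro x hx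
    simp only [hu₁, hu₀, if_pos hx]
  have hg_pos : ∀ x : Space, 0 < x 2 → g₁ x = deriv foldMap (ϑ x) • G x := by
    intro x hx
    simp only [hg₁, hg₀, hu₀, if_pos hx]
  have hr2 : ∀ x : Space, (reflZ x) 2 = - x 2 := fun x => by simp
  have hϑpos : ∀ x : Space, 0 < x 2 → ϑ' x = foldMap (ϑ x) := by
    intro x hx
    simp only [hϑ']
    rw [hu_pos x hx, hu_nonpos (reflZ x) (by rw [hr2]; linarith), sub_zero]
  have hϑneg : ∀ x : Space, x 2 < 0 → ϑ' x = - foldMap (ϑ (reflZ x)) := by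
    intro x hx
    simp only [hϑ']
    rw [hu_nonpos x hx.le, hu_pos (reflZ x) (by rw [hr2]; linarith), zero_sub]
  have hϑzero : ∀ x : Space, x 2 = 0 → ϑ' x = 0 := by
    intro x hx
    simp only [hϑ']
    rw [hu_nonpos x hx.le, hu_nonpos (reflZ x) (by rw [hr2]; linarith), sub_zero]
  have hGpos : ∀ x : Space, 0 < x 2 → G' x = deriv foldMap (ϑ x) • G x := by
    intro x hx
    simp only [hG']
    rw [hg_pos x hx, hg_nonpos (reflZ x) (by rw [hr2]; linarith), hrz, sub_zero]
  have hGneg : ∀ x : Space, x 2 < 0 →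
      G' x = - reflZ (deriv foldMap (ϑ (reflZ x)) • G (reflZ x)) := by
    intro x hx
    simp only [hG']
    rw [hg_nonpos x hx.le, hg_pos (reflZ x) (by rw [hr2]; linarith), zero_sub]
  have hGzero : ∀ x : Space, x 2 = 0 → G' x = 0 := by
    intro x hx
    simp only [hG']
    rw [hg_nonpos x hx.le, hg_nonpos (reflZ x) (by rw [hr2]; linarith), hrz, sub_zero]
  have hfolded : ∀ x : Space, 0 < x 2 → 0 ≤ ϑ' x ∧ ϑ' x ≤ Real.pi / 2 := by
    intro x hx
    rw [hϑpos x hx]
    exact foldMap_mem _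
  have habs : ∀ x, |ϑ' x| ≤ Real.pi / 2 := by
    intro x
    rcases lt_trichotomy (x 2) 0 with hx | hx | hx
    · rw [hϑneg x hx, abs_neg, abs_of_nonneg (foldMap_mem _).1]
      exact (foldMap_mem _).2
    · rw [hϑzero x hx, abs_zero]
      positivity
    · rw [hϑpos x hx, abs_of_nonneg (foldMap_mem _).1]
      exact (foldMap_mem _).2
  have hsmul_le : ∀ (t : ℝ) (v : Space), ‖deriv foldMap t • v‖ ≤ ‖v‖ := by
    intro t v
    rw [norm_smul, Real.norm_eq_abs]
    exact mul_le_of_le_one_left (norm_nonneg _) (abs_deriv_foldMap_le t)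
  have hGle : ∀ᵐ x, ‖G' x‖ ≤ ‖G x‖ := by
    filter_upwards [hw.grad_of_odd ho] with x hx
    rcases lt_trichotomy (x 2) 0 with h2 | h2 | h2
    · rw [hGneg x h2, norm_neg, norm_reflZ]
      refine (hsmul_le _ _).trans ?_
      rw [hx, norm_neg, norm_reflZ]
    · rw [hGzero x h2, norm_zero]
      exact norm_nonneg _
    · rw [hGpos x h2]
      exact hsmul_le _ _
  have hsin : ∀ᵐ x, Real.sin (ϑ' x) ^ 2 = Real.sin (ϑ x) ^ 2 := by
    have hplane : ∀ᵐ x : Space, x 2 ≠ 0 := by
      rw [ae_iff]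
      simpa only [not_not] using tk3_plane_null
    filter_upwards [ho, hplane] with x hx hx0
    rcases lt_or_gt_of_ne hx0 with h2 | h2
    · rw [hϑneg x h2, Real.sin_neg, neg_sq, sin_sq_foldMap, hx, Real.sin_neg, neg_sq]
    · rw [hϑpos x h2, sin_sq_foldMap]
  have hnm : AEStronglyMeasurable n volume := hn.continuous.aestronglyMeasurable
  have hGm : AEStronglyMeasurable G volume := hw.2.1.aestronglyMeasurable
  have hG'm : AEStronglyMeasurable G' volume := hw2.2.1.aestronglyMeasurable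
  have hϑ'm : AEStronglyMeasurable ϑ' volume := hw2.1.aestronglyMeasurable
  have hiG : Integrable fun x => n x * ‖G x‖ ^ 2 := by
    refine hi.mono' (hnm.mul (hGm.norm.pow 2)) (Filter.Eventually.of_forall fun x => ?_)
    rw [Real.norm_eq_abs, abs_of_nonneg (mul_nonneg (hn.pos x).le (sq_nonneg _))]
    exact mul_le_mul_of_nonneg_left (le_add_of_nonneg_left (sq_nonneg _)) (hn.pos x).le
  have hiG' : Integrable fun x => n x * ‖G' x‖ ^ 2 := by
    refine hiG.mono' (hnm.mul (hG'm.norm.pow 2)) ?_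
    filter_upwards [hGle] with x hx
    rw [Real.norm_eq_abs, abs_of_nonneg (mul_nonneg (hn.pos x).le (sq_nonneg _))]
    exact mul_le_mul_of_nonneg_left (pow_le_pow_left₀ (norm_nonneg _) hx 2) (hn.pos x).le
  have hiϑ' : Integrable fun x => n x * ϑ' x ^ 2 := by
    refine (hn.integrable.mul_const ((Real.pi / 2) ^ 2)).mono' (hnm.mul (hϑ'm.pow 2))
      (Filter.Eventually.of_forall fun x => ?_)
    rw [Real.norm_eq_abs, abs_of_nonneg (mul_nonneg (hn.pos x).le (sq_nonneg _))]
    refine mul_le_mul_of_nonneg_left ?_ (hn.pos x).le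
    rw [← sq_abs]
    exact pow_le_pow_left₀ (abs_nonneg _) (habs x) 2
  refine ⟨ϑ', G', ⟨hw2, ?_, ?_, ?_⟩, hfolded, habs, ?_⟩
  · have := hiϑ'.add hiG'
    refine this.congr (Filter.Eventually.of_forall fun x => ?_)
    simp only [Pi.add_apply]
    ring
  · refine Filter.Eventually.of_forall fun x => ?_
    simp only [hϑ', reflZ_reflZ]
    ring
  · rw [← hs]
    refine integral_congr_ae ?_
    filter_upwards [hsin] with x hx
    rw [hx]
  · unfold angleEnergy
    refine integral_mono_ae hiG' hiG ?_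
    filter_upwards [hGle] with x hx
    exact mul_le_mul_of_nonneg_left (pow_le_pow_left₀ (norm_nonneg _) hx 2) (hn.pos x).le

end Claimed.Open.R278
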