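import Claimed.Open.R278.TKBridge

/-!
# Toolkit, leaf TK-2: weak equations and inequalities may be tested with compactly supported `H¹` functions

PLAN.  `ψ_k = wsMol k ψ` is a test function (`wsMol_isTest`), `gradient ψ_k = wsMol k Ψ` (`wsMol_gradient`), supports stay in a fixed compact
neighbourhood of `tsupport ψ` (inside `Ω` for large `k`), `ψ_k ≥ 0` if `ψ ≥ 0`, and `ψ_k → ψ`, `∇ψ_k → Ψ` in `L²` (WsMol.lean).  Pass to the limit with
Cauchy-Schwarz on the compact neighbourhood (`A, B ∈ L²_loc`).  `Ψ = 0` a.e. off `tsupport ψ` (`wsg_level` with `c = 0`).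
-/

open MeasureTheory
open Claimed.Agent.R259 (WeakGrad H1 dm IsTest)
open scoped ContDiff InnerProductSpace ENNReal Topology

noncomputable section

namespace Claimed.Open.R278

open Claimed.Agent.R259 (wsMol) in
theorem tk2_tsupport (k : ℕ) (ψ : Space → ℝ) :
    tsupport (wsMol k ψ) ⊆ Metric.cthickening (1 / ((k : ℝ) + 1)) (tsupport ψ) := by
  refine closure_minimal ?_ Metric.isClosed_cthickening
  intro x hx
  by_contra hx'
  apply hx
  apply Claimed.Agent.R259.wsMol_eq_zero_of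
  intro y hy
  by_contra hy'
  apply hx'
  have h1 : y ∈ tsupport ψ := subset_tsupport _ hy'
  refine Metric.mem_cthickening_of_dist_le x y _ _ h1 ?_
  rw [dist_comm]
  exact (Metric.mem_ball.1 hy).le

theorem tk2_one_div_le_one (k : ℕ) : 1 / ((k : ℝ) + 1) ≤ 1 := by
  rw [div_le_one (by positivity)]
  have : (0 : ℝ) ≤ k := Nat.cast_nonneg k
  linarith

theorem tk2_gradient_zero {φ : Space → ℝ} {x : Space} (hx : x ∉ tsupport φ) : gradient φ x = 0 := by
  have : fderiv ℝ φ x = 0 := by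
    by_contra hne
    exact hx (support_fderiv_subset ℝ hne)
  unfold gradient
  rw [this, map_zero]

/-- `Ψ ∈ L²`. -/
theorem tk2_grad_memLp {ψ : Space → ℝ} {Ψ : Space → Space} (hψ : WeakGrad ψ Ψ) (hΨ2 : AnL2loc Ψ)
    (hc : HasCompactSupport ψ) : MemLp Ψ 2 volume := by
  obtain ⟨R, hR⟩ := hc.isCompact.isBounded.subset_ball (0 : Space)
  have h1 := (memLp_indicator_iff_restrict (measurableSet_ball (x := (0 : Space)) (ε := R))).2 (hΨ2 R)
  refine h1.ae_eq ?_
  filter_upwards [Claimed.Agent.R259.wsg_level hψ 0] with x hx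
  by_cases hxB : x ∈ Metric.ball (0 : Space) R
  · rw [Set.indicator_of_mem hxB]
  · rw [Set.indicator_of_notMem hxB, hx (image_eq_zero_of_notMem_tsupport fun h => hxB (hR h))]

open Claimed.Agent.R259 (wsMol) in
/-- the two limits. -/
theorem tk2_core {A : Space → Space} {B : Space → ℝ} (hA : AnL2loc A) (hB : AnL2loc B)
    {ψ : Space → ℝ} {Ψ : Space → Space} (hψ : WeakGrad ψ Ψ) (hψ2 : AnL2loc ψ) (hΨ2 : AnL2loc Ψ)
    (hc : HasCompactSupport ψ) :
    Filter.Tendsto (fun k => ∫ x, ⟪A x, gradient (wsMol k ψ) x⟫_ℝ) Filter.atTop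
        (𝓝 (∫ x, ⟪A x, Ψ x⟫_ℝ)) ∧
      Filter.Tendsto (fun k => ∫ x, B x * wsMol k ψ x) Filter.atTop (𝓝 (∫ x, B x * ψ x)) := by
  have hK1 : IsCompact (Metric.cthickening 1 (tsupport ψ)) := hc.isCompact.cthickening
  obtain ⟨R, hR⟩ := hK1.isBounded.subset_ball (0 : Space)
  set μ : Measure Space := volume.restrict (Metric.ball (0 : Space) R) with hμ
  have hμle : μ ≤ volume := Measure.restrict_le_self
  have hψL : MemLp ψ 2 volume := hψ2.memLp_of_compactSupport hc
  have hΨL : MemLp Ψ 2 volume := tk2_grad_memLp hψ hΨ2 hc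
  have hts : ∀ k, tsupport (wsMol k ψ) ⊆ Metric.ball (0 : Space) R := fun k =>
    ((tk2_tsupport k ψ).trans (Metric.cthickening_mono (tk2_one_div_le_one k) _)).trans hR
  have hts0 : tsupport ψ ⊆ Metric.ball (0 : Space) R :=
    (Metric.self_subset_cthickening _).trans hR
  -- L² convergence on the ball
  have c1 : Filter.Tendsto (fun k => ∫ x, ‖wsMol k Ψ x - Ψ x‖ ^ 2 ∂μ) Filter.atTop (𝓝 0) := by
    rw [Claimed.Agent.R259.ws_tendsto_sq_iff (g := fun k x => wsMol k Ψ x - Ψ x) fun k =>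
      (((Claimed.Agent.R259.wsMol_memLp k (by norm_num) (by norm_num) hΨL).sub hΨL).mono_measure
        hμle)]
    exact tendsto_of_tendsto_of_tendsto_of_le_of_le tendsto_const_nhds
      (Claimed.Agent.R259.wsMol_tendsto_eLpNorm (by norm_num) (by norm_num) hΨL)
      (fun _ => zero_le) fun k => eLpNorm_mono_measure _ hμle
  have c2 : Filter.Tendsto (fun k => ∫ x, (wsMol k ψ x - ψ x) ^ 2 ∂μ) Filter.atTop (𝓝 0) := by
    have : Filter.Tendsto (fun k => ∫ x, ‖wsMol k ψ x - ψ x‖ ^ 2 ∂μ) Filter.atTop (𝓝 0) := by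
      rw [Claimed.Agent.R259.ws_tendsto_sq_iff (g := fun k x => wsMol k ψ x - ψ x) fun k =>
        (((Claimed.Agent.R259.wsMol_memLp k (by norm_num) (by norm_num) hψL).sub hψL).mono_measure
          hμle)]
      exact tendsto_of_tendsto_of_tendsto_of_le_of_le tendsto_const_nhds
        (Claimed.Agent.R259.wsMol_tendsto_eLpNorm (by norm_num) (by norm_num) hψL)
        (fun _ => zero_le) fun k => eLpNorm_mono_measure _ hμle
    simpa only [Real.norm_eq_abs, sq_abs] using this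
  constructor
  · have h1 := Claimed.Agent.R259.ws_tendsto_inner (m := μ) (f := fun _ => A) (f' := A)
      (g := fun k => wsMol k Ψ) (g' := Ψ) (fun _ => hA R) (hA R)
      (fun k => (Claimed.Agent.R259.wsMol_memLp k (by norm_num) (by norm_num) hΨL).mono_measure hμle)
      (hΨL.mono_measure hμle) (by simp) c1
    have e1 : ∀ k, ∫ x, ⟪A x, gradient (wsMol k ψ) x⟫_ℝ = ∫ x, ⟪A x, wsMol k Ψ x⟫_ℝ ∂μ := by
      intro k
      rw [← Claimed.Agent.R259.wsMol_gradient hψ k, hμ,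
        setIntegral_eq_integral_of_forall_compl_eq_zero]
      intro x hx
      rw [tk2_gradient_zero fun h => hx (hts k h), inner_zero_right]
    have e2 : ∫ x, ⟪A x, Ψ x⟫_ℝ = ∫ x, ⟪A x, Ψ x⟫_ℝ ∂μ := by
      rw [hμ, setIntegral_eq_integral_of_ae_compl_eq_zero]
      filter_upwards [Claimed.Agent.R259.wsg_level hψ 0] with x hx hxB
      rw [hx (image_eq_zero_of_notMem_tsupport fun h => hxB (hts0 h)), inner_zero_right]
    simp only [e1, e2]
    exact h1
  · have h1 := Claimed.Agent.R259.ws_tendsto_mul (m := μ) (f := fun _ => B) (f' := B)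
      (g := fun k => wsMol k ψ) (g' := ψ) (fun _ => hB R) (hB R)
      (fun k => (Claimed.Agent.R259.wsMol_memLp k (by norm_num) (by norm_num) hψL).mono_measure hμle)
      (hψL.mono_measure hμle) (by simp) c2
    have e1 : ∀ k, ∫ x, B x * wsMol k ψ x = ∫ x, B x * wsMol k ψ x ∂μ := by
      intro k
      rw [hμ, setIntegral_eq_integral_of_forall_compl_eq_zero]
      intro x hx
      rw [image_eq_zero_of_notMem_tsupport fun h => hx (hts k h), mul_zero]
    have e2 : ∫ x, B x * ψ x = ∫ x, B x * ψ x ∂μ := by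
      rw [hμ, setIntegral_eq_integral_of_forall_compl_eq_zero]
      intro x hx
      rw [image_eq_zero_of_notMem_tsupport fun h => hx (hts0 h), mul_zero]
    simp only [e1, e2]
    exact h1

open Claimed.Agent.R259 (wsMol) in
/-- the supports of the mollifications are eventually inside `Ω`. -/
theorem tk2_eventually_subset {Ω : Set Space} (hΩ : IsOpen Ω) {ψ : Space → ℝ}
    (hc : HasCompactSupport ψ) (hs : tsupport ψ ⊆ Ω) :
    ∀ᶠ k : ℕ in Filter.atTop, tsupport (wsMol k ψ) ⊆ Ω := by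
  obtain ⟨δ, hδ, hδΩ⟩ := hc.isCompact.exists_cthickening_subset_open hΩ hs
  obtain ⟨k₀, hk₀⟩ := exists_nat_one_div_lt hδ
  filter_upwards [Filter.eventually_ge_atTop k₀] with k hk
  refine ((tk2_tsupport k ψ).trans (Metric.cthickening_mono ?_ _)).trans hδΩ
  refine le_trans ?_ hk₀.le
  apply one_div_le_one_div_of_le (by positivity)
  have : (k₀ : ℝ) ≤ k := by exact_mod_cast hk
  linarith

/-- Inequality version, localised to an open set `Ω`, nonnegative tests. -/
theorem tk_test_ext_le {A : Space → Space} {B : Space → ℝ} (hA : AnL2loc A) (hB : AnL2loc B) {Ω : Set Space}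
    (hΩ : IsOpen Ω)
    (h : ∀ φ : Space → ℝ, ContDiff ℝ ∞ φ → HasCompactSupport φ → tsupport φ ⊆ Ω → (∀ x, 0 ≤ φ x) →
      0 ≤ (∫ x, ⟪A x, gradient φ x⟫_ℝ) + ∫ x, B x * φ x)
    {ψ : Space → ℝ} {Ψ : Space → Space} (hψ : WeakGrad ψ Ψ) (hψ2 : AnL2loc ψ) (hΨ2 : AnL2loc Ψ)
    (hc : HasCompactSupport ψ) (hs : tsupport ψ ⊆ Ω) (h0 : ∀ᵐ x, 0 ≤ ψ x) :
    0 ≤ (∫ x, ⟪A x, Ψ x⟫_ℝ) + ∫ x, B x * ψ x := by
  obtain ⟨t1, t2⟩ := tk2_core hA hB hψ hψ2 hΨ2 hc
  refine ge_of_tendsto (t1.add t2) ?_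
  filter_upwards [tk2_eventually_subset hΩ hc hs] with k hk
  have ht := Claimed.Agent.R259.wsMol_isTest k hψ.1 hc
  exact h _ ht.1 ht.2 hk (Claimed.Agent.R259.wsMol_nonneg k h0)

/-- Equality version, localised to an open set `Ω`. -/
theorem tk_test_ext_eq {A : Space → Space} {B : Space → ℝ} (hA : AnL2loc A) (hB : AnL2loc B) {Ω : Set Space}
    (hΩ : IsOpen Ω)
    (h : ∀ φ : Space → ℝ, ContDiff ℝ ∞ φ → HasCompactSupport φ → tsupport φ ⊆ Ω →
      (∫ x, ⟪A x, gradient φ x⟫_ℝ) = ∫ x, B x * φ x)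
    {ψ : Space → ℝ} {Ψ : Space → Space} (hψ : WeakGrad ψ Ψ) (hψ2 : AnL2loc ψ) (hΨ2 : AnL2loc Ψ)
    (hc : HasCompactSupport ψ) (hs : tsupport ψ ⊆ Ω) :
    (∫ x, ⟪A x, Ψ x⟫_ℝ) = ∫ x, B x * ψ x := by
  obtain ⟨t1, t2⟩ := tk2_core hA hB hψ hψ2 hΨ2 hc
  refine tendsto_nhds_unique t1 (t2.congr' ?_)
  filter_upwards [tk2_eventually_subset hΩ hc hs] with k hk
  have ht := Claimed.Agent.R259.wsMol_isTest k hψ.1 hc
  exact (h _ ht.1 ht.2 hk).symm

/-- The form in which the Euler-Lagrange equation is used: `∫ n ∇u·∇ψ = ∫ n f ψ` for compactly supported `H¹` tests. -/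
theorem DriftEq.test {n u f : Space → ℝ} {g : Space → Space} (hn : Continuous n) (h : DriftEq n u f g) {F : ℝ}
    (hf : ∀ᵐ x, |f x| ≤ F) {ψ : Space → ℝ} {Ψ : Space → Space} (hψ : WeakGrad ψ Ψ) (hψ2 : AnL2loc ψ)
    (hΨ2 : AnL2loc Ψ) (hc : HasCompactSupport ψ) :
    (∫ x, n x * ⟪g x, Ψ x⟫_ℝ) = ∫ x, n x * f x * ψ x := by
  have hA : AnL2loc (fun x => n x • g x) := h.g2.smul_continuous hn
  have hf2 : AnL2loc f := fun R => by
    have := tk1_finite_ball R
    exact MemLp.of_bound h.fm.restrict F (ae_restrict_of_ae (hf.mono fun x hx => by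
      rwa [Real.norm_eq_abs]))
  have hB : AnL2loc (fun x => n x * f x) := by
    simpa only [smul_eq_mul] using hf2.smul_continuous hn
  have key := tk_test_ext_eq hA hB isOpen_univ (fun φ h1 h2 _ => by
    have := h.eq φ h1 h2
    simpa only [inner_smul_left, conj_trivial] using this) hψ hψ2 hΨ2 hc (Set.subset_univ _)
  simpa only [inner_smul_left, conj_trivial] using key

end Claimed.Open.R278
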