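import Claimed.Open.R278.ANRegD
import Claimed.Open.R278.TKTest
import Claimed.Open.R278.TKCalc

/-!
# Package AN, leaves AN-R1 (nondivergence form) and AN-R2 (representation of the gradient)

AN-R1 `an_nondiv`.  For a test function `ξ` put `ψ = ξ / n`: compact support, continuous, weak gradient `Ψ = n⁻¹ ∇ξ - ξ n⁻² ∇n` (`tk_weakGrad_comp_loc` with `Θ = 1/t` on `I = (0,∞)`,
then `IsWeakGrad.mul_contDiff`), `Ψ ∈ L²_loc` because `∇n ∈ L⁶_loc` and `n⁻¹` is locally bounded.  `DriftEq.test` gives `∫ ⟨g,∇ξ⟩ - ∫ ξ ⟨∇n/n, g⟩ = ∫ f ξ`.  Finally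
`∫ ⟨g, ∇ξ⟩ = - ∫ u Δξ` (`wsg_div_ibp` with `W = ∇ξ`; `wsDiv (gradient ξ) = Δ ξ`).  Local integrability of `⟨∇n/n, g⟩`: Hölder `L⁶_loc ⊂ L²_loc`, `g ∈ L²_loc`.

AN-R2.  `an_T_weakGrad`: for `G ∈ L¹_loc` the functions `T G`, `T₁ G` are locally integrable (`reg_T_enorm_le`, `an_T1_enorm_le`, `∫ regP, ∫ anP1 < ∞`, compact support of the kernels, Tonelli) and for a test function
`ζ`: `∫ T G ∇ζ = ∫_0^1 ∫ s (ψ_s * G) ∇ζ dx ds = - ∫_0^1 ∫ ((Dψ)_s * G) ζ dx ds` (Fubini; for fixed `s > 0`, `x ↦ s regAvg ψ G s x` is `C¹` with derivative `regAvg (Dψ) G s x`: `regpa_hasFDerivAt`).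
`an_grad_repr`: `u = ρ₁ * u + T G` a.e. (`reg_repr`), `ρ₁ * u = regAvg regRho u 1` is smooth (`reg_avg_rho_contDiff`), uniqueness of weak gradients.
-/

open MeasureTheory
open Claimed.Agent.R259 (WeakGrad RegVW regT regT1 regAvg regRho regPsi regScale)
open scoped ContDiff InnerProductSpace ENNReal Topology

noncomputable section

namespace Claimed.Open.R278

/-! ### AN-R1 -/

theorem an1_finite_ball (R : ℝ) : IsFiniteMeasure (volume.restrict (Metric.ball (0 : Space) R)) :=
  ⟨by rw [Measure.restrict_apply_univ]; exact measure_ball_lt_top⟩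

theorem an1_locInt_of_balls {W : Type} [NormedAddCommGroup W] {f : Space → W}
    (h : ∀ R : ℝ, IntegrableOn f (Metric.ball (0 : Space) R)) : LocallyIntegrable f volume := by
  intro x
  exact ⟨Metric.ball 0 (‖x‖ + 1), Metric.isOpen_ball.mem_nhds (by simp), h _⟩

/-- `∫ ⟨g, ∇ξ⟩ = - ∫ u Δξ`. -/
theorem an1_lap {u : Space → ℝ} {g : Space → Space} (h : WeakGrad u g) {ξ : Space → ℝ}
    (hξ : Claimed.Agent.R259.IsTest ξ) :
    ∫ x, ⟪g x, gradient ξ x⟫_ℝ = - ∫ x, u x * Laplacian.laplacian ξ x := by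
  have h1 := Claimed.Agent.R259.wsg_ibp_test (η := fun _ : Space => (1 : ℝ)) contDiff_const
    (fun _ => one_pos) h hξ
  simp only [one_mul] at h1
  rw [h1, ← integral_neg]
  refine integral_congr_ae (Filter.Eventually.of_forall fun x => ?_)
  simp only [Claimed.Agent.R259.opA, Real.log_one, gradient_fun_const, map_zero, sub_zero]
  ring

theorem an1_integrable_inner {A W : Space → Space} (hA : AnL2loc A) (hW : Continuous W)
    (hc : HasCompactSupport W) : Integrable (fun x => ⟪A x, W x⟫_ℝ) volume := by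
  obtain ⟨R, hR⟩ := hc.isCompact.isBounded.subset_ball (0 : Space)
  have h1 : IntegrableOn (fun x => ⟪A x, W x⟫_ℝ) (Metric.ball (0 : Space) R) :=
    Claimed.Agent.R259.ws_integrable_inner (hA R) (anL2loc_of_continuous hW R)
  refine (integrableOn_iff_integrable_of_support_subset ?_).1 h1
  intro x hx
  refine hR (subset_tsupport W ?_)
  intro h0
  exact hx (by simp [h0])

theorem an_nondiv {n u f : Space → ℝ} {g : Space → Space} (hn : DensityBasic n) (h : DriftEq n u f g) {F : ℝ}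
    (hf : ∀ᵐ x, |f x| ≤ F) : RegVW u (fun x => ⟪anDrift n x, g x⟫_ℝ + f x) := by
  have hnc := hn.continuous
  have hnpos := hn.pos
  have hne : ∀ x, n x ≠ 0 := fun x => (hnpos x).ne'
  have hninv : Continuous fun x => (n x)⁻¹ := hnc.inv₀ hne
  -- local integrability
  have hdrift2 : AnL2loc (anDrift n) := fun R => by
    have := an1_finite_ball R
    exact (anDrift_memLp hn R).mono_exponent (by norm_num)
  have hgrad2 : AnL2loc (gradient n) := fun R => by
    have := an1_finite_ball R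
    exact (hn.grad_L6 R).mono_exponent (by norm_num)
  have hDG : LocallyIntegrable (fun x => ⟪anDrift n x, g x⟫_ℝ) volume :=
    an1_locInt_of_balls fun R => Claimed.Agent.R259.ws_integrable_inner (hdrift2 R) (h.g2 R)
  have hfl : LocallyIntegrable f volume := an1_locInt_of_balls fun R => by
    have := an1_finite_ball R
    exact Integrable.of_bound h.fm.restrict F (ae_restrict_of_ae hf)
  refine ⟨h.wg.1, hDG.add hfl, fun ξ hξ => ?_⟩
  -- the test function `ξ / n`
  have hΘ : ContDiffOn ℝ 1 (fun t : ℝ => t⁻¹) (Set.Ioi 0) :=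
    contDiffOn_id.inv fun t ht => (ne_of_gt ht)
  have hw1 : WeakGrad (fun x => (n x)⁻¹) (fun x => deriv (fun t : ℝ => t⁻¹) (n x) • gradient n x) :=
    isWeakGrad_iff_weakGrad.1
      (tk_weakGrad_comp_loc hn.weakGrad hnc isOpen_Ioi (fun x => hnpos x) hΘ)
  have hξ1 : ContDiff ℝ 1 ξ := hξ.1.of_le (by simp)
  have hw2 := Claimed.Agent.R259.ws_weakGrad_mul hw1 hξ1
  have hgξc : Continuous (gradient ξ) := Claimed.Agent.R259.ws_gradient_continuous hξ1
  have hψ2 : AnL2loc (fun x => ξ x * (n x)⁻¹) := anL2loc_of_continuous (hξ.1.continuous.mul hninv)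
  have hderiv : ∀ x, deriv (fun t : ℝ => t⁻¹) (n x) = -((n x) ^ 2)⁻¹ := fun x => by
    simp [deriv_inv]
  have hΨ2 : AnL2loc (fun x => ξ x • (deriv (fun t : ℝ => t⁻¹) (n x) • gradient n x)
      + (n x)⁻¹ • gradient ξ x) := by
    have ha : Continuous fun x => ξ x * -((n x) ^ 2)⁻¹ :=
      hξ.1.continuous.mul ((hnc.pow 2).inv₀ fun x => pow_ne_zero 2 (hne x)).neg
    have h1 : AnL2loc (fun x => (ξ x * -((n x) ^ 2)⁻¹) • gradient n x) := hgrad2.smul_continuous ha
    have h2 : AnL2loc (fun x => (n x)⁻¹ • gradient ξ x) := anL2loc_of_continuous (hninv.smul hgξc)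
    have e : (fun x => ξ x • (deriv (fun t : ℝ => t⁻¹) (n x) • gradient n x)
        + (n x)⁻¹ • gradient ξ x)
        = fun x => (ξ x * -((n x) ^ 2)⁻¹) • gradient n x + (n x)⁻¹ • gradient ξ x := by
      funext x
      rw [hderiv, smul_smul]
    rw [e]
    exact fun R => (h1 R).add (h2 R)
  have hcs : HasCompactSupport (fun x => ξ x * (n x)⁻¹) := hξ.2.mul_right
  have key := DriftEq.test hnc h hf hw2 hψ2 hΨ2 hcs
  have e1 : ∀ x, n x * ⟪g x, ξ x • (deriv (fun t : ℝ => t⁻¹) (n x) • gradient n x)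
      + (n x)⁻¹ • gradient ξ x⟫_ℝ
      = ⟪g x, gradient ξ x⟫_ℝ - ⟪anDrift n x, g x⟫_ℝ * ξ x := by
    intro x
    have hx := hne x
    rw [hderiv, inner_add_right, inner_smul_right, inner_smul_right, inner_smul_right, anDrift,
      inner_smul_left, real_inner_comm (g x) (gradient n x)]
    simp only [conj_trivial]
    field_simp
    ring
  have e2 : ∀ x, n x * f x * (ξ x * (n x)⁻¹) = f x * ξ x := by
    intro x
    have hx := hne x
    field_simp
  simp only [e1, e2] at key
  have i1 : Integrable (fun x => ⟪g x, gradient ξ x⟫_ℝ) volume :=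
    an1_integrable_inner h.g2 hgξc (Claimed.Agent.R259.ws_gradient_hasCompactSupport hξ.2)
  have i2 : Integrable (fun x => ⟪anDrift n x, g x⟫_ℝ * ξ x) volume := by
    simpa only [smul_eq_mul] using
      hDG.integrable_smul_right_of_hasCompactSupport hξ.1.continuous hξ.2
  have i3 : Integrable (fun x => f x * ξ x) volume := by
    simpa only [smul_eq_mul] using
      hfl.integrable_smul_right_of_hasCompactSupport hξ.1.continuous hξ.2
  rw [integral_sub i1 i2, an1_lap h.wg hξ] at key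
  simp only [add_mul]
  rw [integral_add i2 i3]
  linarith

/-! ### AN-R2 -/

section kit2

variable {V : Type} [NormedAddCommGroup V] [NormedSpace ℝ V]

theorem an2_scale_lintegral {κ : Space → V} (hκ : Continuous κ) {s : ℝ} (hs : 0 < s) :
    ∫⁻ w : Space, ‖regScale κ s w‖ₑ = ∫⁻ z : Space, ‖κ z‖ₑ := by
  have hm : Measurable fun z : Space => ‖κ z‖ₑ := (continuous_enorm.comp hκ).measurable
  have hfr : Module.finrank ℝ Space = 3 := by simp
  have hpos : (0 : ℝ) < (s ^ 3)⁻¹ := by positivity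
  have h2 : ∀ w : Space, ‖regScale κ s w‖ₑ = ENNReal.ofReal ((s ^ 3)⁻¹) * ‖κ (s⁻¹ • w)‖ₑ := by
    intro w
    unfold regScale
    rw [hfr, enorm_smul, Real.enorm_eq_ofReal hpos.le]
  simp_rw [h2]
  have hm' : Measurable fun w : Space => ‖κ (s⁻¹ • w)‖ₑ := hm.comp (measurable_const_smul s⁻¹)
  rw [lintegral_const_mul _ hm', Claimed.Agent.R259.reglk_lintegral_comp_inv_smul hm hs, hfr,
    ← mul_assoc, ← ENNReal.ofReal_mul hpos.le, inv_mul_cancel₀ (by positivity), ENNReal.ofReal_one,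
    one_mul]

/-- Young's inequality `L¹ * L¹ → L¹` at a fixed scale. -/
theorem an2_avg_lintegral_le {κ : Space → V} (hκ : Continuous κ) {G : Space → ℝ}
    (hG : AEStronglyMeasurable G volume) {s : ℝ} (hs : 0 < s) :
    ∫⁻ x, ‖regAvg κ G s x‖ₑ ≤ (∫⁻ z, ‖κ z‖ₑ) * ∫⁻ t, ‖G t‖ₑ := by
  have hcs : Continuous (regScale κ s) := an5_scale_continuous hκ s
  have hm2 : Measurable fun p : Space × Space => ‖regScale κ s (p.1 - p.2)‖ₑ :=
    (continuous_enorm.comp (hcs.comp (continuous_fst.sub continuous_snd))).measurable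
  calc ∫⁻ x, ‖regAvg κ G s x‖ₑ
      ≤ ∫⁻ x, ∫⁻ t, ‖regScale κ s (x - t)‖ₑ * ‖G t‖ₑ := by
        refine lintegral_mono fun x => ?_
        rw [an5_avg_eq κ G hs x]
        refine (enorm_integral_le_lintegral_enorm _).trans (le_of_eq ?_)
        refine lintegral_congr fun t => ?_
        rw [enorm_smul, mul_comm]
    _ = ∫⁻ t, ∫⁻ x, ‖regScale κ s (x - t)‖ₑ * ‖G t‖ₑ := by
        refine lintegral_lintegral_swap ?_
        exact hm2.aemeasurable.mul hG.enorm.comp_snd
    _ = ∫⁻ t, (∫⁻ z, ‖κ z‖ₑ) * ‖G t‖ₑ := by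
        refine lintegral_congr fun t => ?_
        rw [lintegral_mul_const' _ _ enorm_ne_top,
          lintegral_sub_right_eq_self (fun w => ‖regScale κ s w‖ₑ) t, an2_scale_lintegral hκ hs]
    _ = (∫⁻ z, ‖κ z‖ₑ) * ∫⁻ t, ‖G t‖ₑ := by
        rw [lintegral_const_mul'' _ hG.enorm]

/-- local version. -/
theorem an2_avg_setLIntegral_le {κ : Space → V} (hκ : Continuous κ)
    (hc : ∀ z, 2 ≤ ‖z‖ ^ 2 → κ z = 0) {G : Space → ℝ} (hG : AEStronglyMeasurable G volume)
    {s : ℝ} (hs : s ∈ Set.Ioc (0 : ℝ) 1) (R : ℝ) :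
    ∫⁻ x in Metric.ball (0 : Space) R, ‖regAvg κ G s x‖ₑ
      ≤ (∫⁻ z, ‖κ z‖ₑ) * ∫⁻ t in Metric.ball (0 : Space) (R + 2), ‖G t‖ₑ := by
  calc ∫⁻ x in Metric.ball (0 : Space) R, ‖regAvg κ G s x‖ₑ
      = ∫⁻ x in Metric.ball (0 : Space) R,
          ‖regAvg κ ((Metric.ball (0 : Space) (R + 2)).indicator G) s x‖ₑ := by
        refine setLIntegral_congr_fun measurableSet_ball fun x hx => ?_
        simp only
        rw [an5_avg_indicator hc G hs.1 hs.2 hx]
    _ ≤ ∫⁻ x, ‖regAvg κ ((Metric.ball (0 : Space) (R + 2)).indicator G) s x‖ₑ :=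
        setLIntegral_le_lintegral _ _
    _ ≤ (∫⁻ z, ‖κ z‖ₑ) * ∫⁻ t, ‖(Metric.ball (0 : Space) (R + 2)).indicator G t‖ₑ :=
        an2_avg_lintegral_le hκ (hG.indicator measurableSet_ball) hs.1
    _ = _ := by
        simp_rw [enorm_indicator_eq_indicator_enorm]
        rw [lintegral_indicator measurableSet_ball]

theorem an2_avg_continuousOn [CompleteSpace V] {κ : Space → V} (hκ : ContDiff ℝ ∞ κ)
    (hc : ∀ z, 2 ≤ ‖z‖ ^ 2 → κ z = 0) {G : Space → ℝ} (hG : LocallyIntegrable G volume) :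
    ContinuousOn (fun p : Space × ℝ => regAvg κ G p.2 p.1)
      ((Set.univ : Set Space) ×ˢ Set.Ioc (0 : ℝ) 1) := by
  have hsub : Set.Ioc (0 : ℝ) 1 ×ˢ (Set.univ : Set Space) ⊆ Set.Ioi (0 : ℝ) ×ˢ Set.univ := by
    rintro ⟨p, w⟩ ⟨hp, -⟩
    exact ⟨hp.1, trivial⟩
  have hcont := continuousOn_convolution_right_with_param (ContinuousLinearMap.lsmul ℝ ℝ)
    (μ := (volume : Measure Space)) (f := G) (s := Set.Ioc (0 : ℝ) 1)
    (g := fun p w => regScale κ p w) (isCompact_closedBall (0 : Space) 2)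
    (fun p w hp hw => by
      rw [Metric.mem_closedBall, dist_zero_right, not_le] at hw
      exact Claimed.Agent.R259.reg_scale_zero hc hp.1 (by linarith [hp.2]))
    hG (((Claimed.Agent.R259.reg_scale_contDiffOn hκ).continuousOn).mono hsub)
  have h2 : ContinuousOn (fun q : ℝ × Space => regAvg κ G q.1 q.2)
      (Set.Ioc (0 : ℝ) 1 ×ˢ (Set.univ : Set Space)) :=
    hcont.congr fun q hq => Claimed.Agent.R259.regAvg_eq_conv κ G hq.1.1 q.2
  exact h2.comp continuous_swap.continuousOn fun p hp => ⟨hp.2, hp.1⟩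

/-- joint integrability of the averages on `ball 0 R × (0,1]`. -/
theorem an2_avg_integrable [CompleteSpace V] {κ : Space → V} (hκ : ContDiff ℝ ∞ κ)
    (hc : ∀ z, 2 ≤ ‖z‖ ^ 2 → κ z = 0) {G : Space → ℝ} (hG : LocallyIntegrable G volume) (R : ℝ) :
    Integrable (fun p : Space × ℝ => regAvg κ G p.2 p.1)
      ((volume.restrict (Metric.ball (0 : Space) R)).prod (volume.restrict (Set.Ioc (0 : ℝ) 1))) := by
  have hm : AEStronglyMeasurable (fun p : Space × ℝ => regAvg κ G p.2 p.1)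
      ((volume.restrict (Metric.ball (0 : Space) R)).prod
        (volume.restrict (Set.Ioc (0 : ℝ) 1))) := by
    rw [Measure.prod_restrict]
    exact ((an2_avg_continuousOn hκ hc hG).mono
      (Set.prod_mono (Set.subset_univ _) subset_rfl)).aestronglyMeasurable
        (measurableSet_ball.prod measurableSet_Ioc)
  refine ⟨hm, ?_⟩
  have hκ1 : ∫⁻ z, ‖κ z‖ₑ < ⊤ :=
    (hκ.continuous.integrable_of_hasCompactSupport (an5_compact hc)).2
  have hG1 : ∫⁻ t in Metric.ball (0 : Space) (R + 2), ‖G t‖ₑ < ⊤ :=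
    ((hG.integrableOn_isCompact (isCompact_closedBall (0 : Space) (R + 2))).mono_set
      Metric.ball_subset_closedBall).2
  unfold HasFiniteIntegral
  rw [lintegral_prod_symm _ hm.enorm]
  calc ∫⁻ s in Set.Ioc (0 : ℝ) 1, ∫⁻ x in Metric.ball (0 : Space) R, ‖regAvg κ G s x‖ₑ
      ≤ ∫⁻ _s in Set.Ioc (0 : ℝ) 1,
          (∫⁻ z, ‖κ z‖ₑ) * ∫⁻ t in Metric.ball (0 : Space) (R + 2), ‖G t‖ₑ :=
        setLIntegral_mono measurable_const fun s hs =>
          an2_avg_setLIntegral_le hκ.continuous hc hG.aestronglyMeasurable hs R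
    _ = (∫⁻ z, ‖κ z‖ₑ) * ∫⁻ t in Metric.ball (0 : Space) (R + 2), ‖G t‖ₑ := by simp
    _ < ⊤ := ENNReal.mul_lt_top hκ1 hG1

end kit2

/-- abbreviation-free names for the two measures. -/
theorem an2_psi_integrable {G : Space → ℝ} (hG : LocallyIntegrable G volume) (R : ℝ) :
    Integrable (fun p : Space × ℝ => p.2 * regAvg regPsi G p.2 p.1)
      ((volume.restrict (Metric.ball (0 : Space) R)).prod (volume.restrict (Set.Ioc (0 : ℝ) 1))) := by
  have h0 := an2_avg_integrable (κ := (regPsi : Space → ℝ)) Claimed.Agent.R259.reg_psi_test.1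
    (fun z hz => Claimed.Agent.R259.reg_psi_zero hz) hG R
  refine h0.mono (measurable_snd.aestronglyMeasurable.mul h0.1) ?_
  rw [Measure.prod_restrict]
  refine ae_restrict_of_forall_mem (measurableSet_ball.prod measurableSet_Ioc) fun p hp => ?_
  rw [norm_mul, Real.norm_of_nonneg hp.2.1.le]
  calc p.2 * ‖regAvg regPsi G p.2 p.1‖ ≤ 1 * ‖regAvg regPsi G p.2 p.1‖ :=
        mul_le_mul_of_nonneg_right hp.2.2 (norm_nonneg _)
    _ = _ := one_mul _

theorem an2_dpsi_integrable {G : Space → ℝ} (hG : LocallyIntegrable G volume) (R : ℝ) :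
    Integrable (fun p : Space × ℝ => regAvg (fderiv ℝ (regPsi : Space → ℝ)) G p.2 p.1)
      ((volume.restrict (Metric.ball (0 : Space) R)).prod (volume.restrict (Set.Ioc (0 : ℝ) 1))) :=
  an2_avg_integrable Claimed.Agent.R259.regpa_dpsi_contDiff Claimed.Agent.R259.regpa_dpsi_zero hG R

theorem an2_locInt_of_balls {W : Type} [NormedAddCommGroup W] {f : Space → W}
    (h : ∀ R : ℝ, IntegrableOn f (Metric.ball (0 : Space) R)) : LocallyIntegrable f volume := by
  intro x
  exact ⟨Metric.ball 0 (‖x‖ + 1), Metric.isOpen_ball.mem_nhds (by simp), h _⟩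

theorem an2_T_locInt {G : Space → ℝ} (hG : LocallyIntegrable G volume) :
    LocallyIntegrable (regT G) volume :=
  an2_locInt_of_balls fun R => (an2_psi_integrable hG R).integral_prod_left

theorem an2_T1_integrableOn {G : Space → ℝ} (hG : LocallyIntegrable G volume) (R : ℝ) :
    IntegrableOn (regT1 G) (Metric.ball (0 : Space) R) :=
  (an2_dpsi_integrable hG R).integral_prod_left

theorem an2_anT1_locInt {G : Space → ℝ} (hG : LocallyIntegrable G volume) :
    LocallyIntegrable (anT1 G) volume := by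
  refine an2_locInt_of_balls fun R => ?_
  have h := an2_T1_integrableOn hG R
  refine Integrable.mono h ?_ (Filter.Eventually.of_forall fun x => (anT1_norm G x).le)
  exact (InnerProductSpace.toDual ℝ Space).symm.continuous.comp_aestronglyMeasurable h.1

/-- the fixed scale identity. -/
theorem an2_ibp_scale {G : Space → ℝ} (hG : LocallyIntegrable G volume) {s : ℝ} (hs : 0 < s)
    {ζ : Space → ℝ} (hζ : Claimed.Agent.R259.IsTest ζ) (v : Space) :
    ∫ x, (s * regAvg regPsi G s x) * fderiv ℝ ζ x v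
      = - ∫ x, ζ x * regAvg (fderiv ℝ (regPsi : Space → ℝ)) G s x v := by
  have hd : ∀ x, HasFDerivAt (fun x => s * regAvg regPsi G s x)
      (regAvg (fderiv ℝ (regPsi : Space → ℝ)) G s x) x :=
    fun x => Claimed.Agent.R259.regpa_hasFDerivAt hG hs x
  have hC1 : ContDiff ℝ 1 (fun x => s * regAvg regPsi G s x) := by
    rw [contDiff_one_iff_fderiv]
    refine ⟨fun x => (hd x).differentiableAt, ?_⟩
    have : fderiv ℝ (fun x => s * regAvg regPsi G s x)
        = regAvg (fderiv ℝ (regPsi : Space → ℝ)) G s := funext fun x => (hd x).fderiv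
    rw [this]
    exact Claimed.Agent.R259.regpa_avg_continuous Claimed.Agent.R259.regpa_dpsi_contDiff
      Claimed.Agent.R259.regpa_dpsi_zero hG hs
  have h1 := Claimed.Agent.R259.ws_weakGrad_dir
    (Claimed.Agent.R259.ws_weakGrad_of_contDiff hC1) hζ v
  simp only [inner_gradient_left, (hd _).fderiv] at h1
  exact h1

theorem an_T_weakGrad {G : Space → ℝ} (hG : LocallyIntegrable G volume) : WeakGrad (regT G) (anT1 G) := by
  refine ⟨an2_T_locInt hG, an2_anT1_locInt hG, fun ζ hζ => ?_⟩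
  refine Claimed.Agent.R259.ws_vec_of_dir (an2_T_locInt hG) (an2_anT1_locInt hG)
    (hζ.1.of_le (by simp)) hζ.2 fun v => ?_
  simp only [anT1_inner]
  -- a ball carrying the test function
  obtain ⟨R, hR⟩ := hζ.2.isCompact.isBounded.subset_ball (0 : Space)
  have hζ0 : ∀ x ∉ Metric.ball (0 : Space) R, ζ x = 0 := fun x hx =>
    image_eq_zero_of_notMem_tsupport fun h => hx (hR h)
  have hdζ0 : ∀ x ∉ Metric.ball (0 : Space) R, fderiv ℝ ζ x v = 0 := fun x hx => by
    have : fderiv ℝ ζ x = 0 := by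
      by_contra hne
      exact hx (hR (support_fderiv_subset ℝ hne))
    rw [this]; rfl
  set μ : Measure Space := volume.restrict (Metric.ball (0 : Space) R) with hμ
  set ν : Measure ℝ := volume.restrict (Set.Ioc (0 : ℝ) 1) with hν
  have hζc : Continuous ζ := hζ.1.continuous
  have hdζc : Continuous fun x => fderiv ℝ ζ x v :=
    (hζ.1.continuous_fderiv (by simp)).clm_apply continuous_const
  obtain ⟨C0, hC0⟩ := hζ.2.exists_bound_of_continuous hζc
  have hdζcs : HasCompactSupport fun x => fderiv ℝ ζ x v :=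
    HasCompactSupport.intro (isCompact_closedBall (0 : Space) R) fun x hx =>
      hdζ0 x fun h => hx (Metric.ball_subset_closedBall h)
  obtain ⟨C1, hC1⟩ := hdζcs.exists_bound_of_continuous hdζc
  have J0 := an2_psi_integrable hG R
  have J1 := an2_dpsi_integrable hG R
  -- joint integrability of the two integrands
  have I0 : Integrable (Function.uncurry fun (x : Space) (s : ℝ) =>
      (s * regAvg regPsi G s x) * fderiv ℝ ζ x v) (μ.prod ν) := by
    refine (J0.norm.const_mul C1).mono'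
      (J0.1.mul (hdζc.comp continuous_fst).aestronglyMeasurable) ?_
    refine Filter.Eventually.of_forall fun p => ?_
    simp only [Function.uncurry]
    rw [norm_mul, mul_comm]
    exact mul_le_mul_of_nonneg_right (hC1 p.1) (norm_nonneg _)
  have J1v : Integrable (fun p : Space × ℝ =>
      regAvg (fderiv ℝ (regPsi : Space → ℝ)) G p.2 p.1 v) (μ.prod ν) :=
    ((ContinuousLinearMap.apply ℝ ℝ v).integrable_comp J1)
  have I1 : Integrable (Function.uncurry fun (x : Space) (s : ℝ) =>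
      ζ x * regAvg (fderiv ℝ (regPsi : Space → ℝ)) G s x v) (μ.prod ν) := by
    refine (J1v.norm.const_mul C0).mono'
      ((hζc.comp continuous_fst).aestronglyMeasurable.mul J1v.1) ?_
    refine Filter.Eventually.of_forall fun p => ?_
    simp only [Function.uncurry]
    rw [norm_mul]
    exact mul_le_mul_of_nonneg_right (hC0 p.1) (norm_nonneg _)
  calc ∫ x, regT G x * fderiv ℝ ζ x v
      = ∫ x, regT G x * fderiv ℝ ζ x v ∂μ :=
        (setIntegral_eq_integral_of_forall_compl_eq_zero fun x hx => by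
          rw [hdζ0 x hx, mul_zero]).symm
    _ = ∫ x, ∫ s, (s * regAvg regPsi G s x) * fderiv ℝ ζ x v ∂ν ∂μ := by
        refine integral_congr_ae (Filter.Eventually.of_forall fun x => ?_)
        simp only
        rw [integral_mul_const]
        rfl
    _ = ∫ s, ∫ x, (s * regAvg regPsi G s x) * fderiv ℝ ζ x v ∂μ ∂ν := integral_integral_swap I0
    _ = ∫ s, - ∫ x, ζ x * regAvg (fderiv ℝ (regPsi : Space → ℝ)) G s x v ∂μ ∂ν := by
        refine setIntegral_congr_fun measurableSet_Ioc fun s hs => ?_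
        simp only
        rw [hμ, setIntegral_eq_integral_of_forall_compl_eq_zero fun x hx => by
            rw [hdζ0 x hx, mul_zero],
          setIntegral_eq_integral_of_forall_compl_eq_zero fun x hx => by
            rw [hζ0 x hx, zero_mul]]
        exact an2_ibp_scale hG hs.1 hζ v
    _ = - ∫ s, ∫ x, ζ x * regAvg (fderiv ℝ (regPsi : Space → ℝ)) G s x v ∂μ ∂ν := integral_neg _
    _ = - ∫ x, ∫ s, ζ x * regAvg (fderiv ℝ (regPsi : Space → ℝ)) G s x v ∂ν ∂μ := by
        rw [integral_integral_swap I1]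
    _ = - ∫ x, ζ x * regT1 G x v ∂μ := by
        congr 1
        refine integral_congr_ae ?_
        filter_upwards [J1.prod_right_ae] with x hx
        rw [integral_const_mul]
        unfold regT1
        rw [ContinuousLinearMap.integral_apply hx]
    _ = - ∫ x, ζ x * regT1 G x v := by
        rw [hμ, setIntegral_eq_integral_of_forall_compl_eq_zero fun x hx => by
          rw [hζ0 x hx, zero_mul]]

theorem an_grad_repr {u G : Space → ℝ} {g : Space → Space} (h : RegVW u G) (hg : WeakGrad u g) :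
    ∀ᵐ x, g x = gradient (regAvg regRho u 1) x + anT1 G x := by
  have h1 : WeakGrad (regAvg regRho u 1) (gradient (regAvg regRho u 1)) :=
    Claimed.Agent.R259.ws_weakGrad_of_contDiff
      ((Claimed.Agent.R259.reg_avg_rho_contDiff h.1).of_le (by simp))
  have h2 := Claimed.Agent.R259.ws_weakGrad_add h1 (an_T_weakGrad h.2.1)
  have h3 : (fun x => regAvg regRho u 1 x + regT G x) =ᵐ[volume] u := by
    filter_upwards [Claimed.Agent.R259.reg_repr h] with x hx
    exact hx.symm
  exact Claimed.Agent.R259.ws_weakGrad_unique hg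
    (Claimed.Agent.R259.ws_weakGrad_congr h2 h3 (Filter.EventuallyEq.refl _ _))

section kit3

variable {V : Type} [NormedAddCommGroup V] [NormedSpace ℝ V]

theorem an2_fderiv_zero {κ : Space → V} (hκ : ContDiff ℝ ∞ κ) (hc : ∀ z, 2 ≤ ‖z‖ ^ 2 → κ z = 0) :
    ∀ z, 2 ≤ ‖z‖ ^ 2 → fderiv ℝ κ z = 0 := by
  have hopen : ∀ w : Space, 2 < ‖w‖ ^ 2 → fderiv ℝ κ w = 0 := by
    intro w hw
    have ho : IsOpen {y : Space | 2 < ‖y‖ ^ 2} :=
      isOpen_lt continuous_const (continuous_norm.pow 2)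
    have he : κ =ᶠ[𝓝 w] fun _ => (0 : V) := by
      filter_upwards [ho.mem_nhds hw] with y hy
      exact hc y (le_of_lt hy)
    rw [he.fderiv_eq]
    simp
  intro z hz
  have hcont : Continuous (fderiv ℝ κ) := hκ.continuous_fderiv (by simp)
  have hlin : Continuous fun ε : ℝ => (1 + ε) • z := by fun_prop
  have ht : Filter.Tendsto (fun ε : ℝ => fderiv ℝ κ ((1 + ε) • z)) (𝓝[>] 0) (𝓝 (fderiv ℝ κ z)) := by
    have := (hcont.comp hlin).tendsto 0
    simp only [Function.comp, add_zero, one_smul] at this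
    exact this.mono_left nhdsWithin_le_nhds
  have he : ∀ᶠ ε : ℝ in 𝓝[>] 0, fderiv ℝ κ ((1 + ε) • z) = 0 := by
    filter_upwards [self_mem_nhdsWithin] with ε hε
    have hε0 : (0 : ℝ) < ε := hε
    refine hopen _ ?_
    rw [norm_smul, Real.norm_of_nonneg (by linarith), mul_pow]
    nlinarith [sq_nonneg ε, sq_nonneg ‖z‖]
  exact tendsto_nhds_unique (ht.congr' he) tendsto_const_nhds

theorem an2_scale_one (κ : Space → V) : regScale κ 1 = κ := by
  funext w
  simp [regScale]

theorem an2_avg_hasFDerivAt [CompleteSpace V] {κ : Space → V} (hκ : ContDiff ℝ ∞ κ)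
    (hc : ∀ z, 2 ≤ ‖z‖ ^ 2 → κ z = 0) {G : Space → ℝ} (hG : LocallyIntegrable G volume)
    (x : Space) : HasFDerivAt (regAvg κ G 1) (regAvg (fderiv ℝ κ) G 1 x) x := by
  have h1 := (an5_compact hc).hasFDerivAt_convolution_right (ContinuousLinearMap.lsmul ℝ ℝ) hG
    (hκ.of_le (by exact_mod_cast le_top)) x (μ := volume)
  have h2 : regAvg κ G 1 = convolution G κ (ContinuousLinearMap.lsmul ℝ ℝ) volume := by
    funext y
    rw [Claimed.Agent.R259.regAvg_eq_conv κ G one_pos y, an2_scale_one]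
  rw [h2]
  refine h1.congr_fderiv ?_
  rw [Claimed.Agent.R259.regAvg_eq_conv _ G one_pos x, an2_scale_one, convolution_def,
    convolution_def]
  refine integral_congr_ae (Filter.Eventually.of_forall fun t => ?_)
  ext v
  simp [ContinuousLinearMap.precompR_apply]

theorem an2_avg_bound {κ : Space → V} (hκ : ContDiff ℝ ∞ κ) (hc : ∀ z, 2 ≤ ‖z‖ ^ 2 → κ z = 0)
    {u : Space → ℝ} {F : ℝ} (hF : ∀ᵐ x, |u x| ≤ F) (x : Space) :
    ‖regAvg κ u 1 x‖ ≤ |F| * ∫ z, ‖κ z‖ :=
  Claimed.Agent.R259.regpa_bound hκ hc (r := ‖x‖ + 2) (C := F)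
    (hF.mono fun _ hy _ => hy) one_pos le_rfl le_rfl

end kit3

/-- the smooth part: bounds in terms of `sup |u|` only. -/
theorem an_avg_bounds : ∃ C : ℝ, 0 ≤ C ∧ ∀ (u : Space → ℝ) (F : ℝ), LocallyIntegrable u volume →
    (∀ᵐ x, |u x| ≤ F) →
    (∀ x, ‖gradient (regAvg regRho u 1) x‖ ≤ C * F) ∧
    ∀ x y, ‖gradient (regAvg regRho u 1) x - gradient (regAvg regRho u 1) y‖ ≤ C * F * ‖x - y‖ := by
  have hρ : ContDiff ℝ ∞ (regRho : Space → ℝ) := Claimed.Agent.R259.reg_rho_test.1
  have hρ0 : ∀ z : Space, 2 ≤ ‖z‖ ^ 2 → regRho z = 0 := fun z hz =>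
    Claimed.Agent.R259.reg_rho_zero hz
  have hρ1 : ContDiff ℝ ∞ (fderiv ℝ (regRho : Space → ℝ)) := hρ.fderiv_right (by simp)
  have hρ10 := an2_fderiv_zero hρ hρ0
  have hρ2 : ContDiff ℝ ∞ (fderiv ℝ (fderiv ℝ (regRho : Space → ℝ))) := hρ1.fderiv_right (by simp)
  have hρ20 := an2_fderiv_zero hρ1 hρ10
  set K1 : ℝ := ∫ z : Space, ‖fderiv ℝ (regRho : Space → ℝ) z‖ with hK1
  set K2 : ℝ := ∫ z : Space, ‖fderiv ℝ (fderiv ℝ (regRho : Space → ℝ)) z‖ with hK2
  have hK1n : 0 ≤ K1 := integral_nonneg fun _ => norm_nonneg _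
  have hK2n : 0 ≤ K2 := integral_nonneg fun z =>
    norm_nonneg (fderiv ℝ (fderiv ℝ (regRho : Space → ℝ)) z)
  refine ⟨K1 + K2, by positivity, fun u F hu hF => ?_⟩
  have hF0 : 0 ≤ F := by
    obtain ⟨x, hx⟩ := hF.exists
    exact (abs_nonneg _).trans hx
  have hgrad : ∀ x, gradient (regAvg regRho u 1) x
      = (InnerProductSpace.toDual ℝ Space).symm (regAvg (fderiv ℝ (regRho : Space → ℝ)) u 1 x) := by
    intro x
    unfold gradient
    rw [(an2_avg_hasFDerivAt hρ hρ0 hu x).fderiv]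
  refine ⟨fun x => ?_, fun x y => ?_⟩
  · rw [hgrad, LinearIsometryEquiv.norm_map]
    have := an2_avg_bound hρ1 hρ10 hF x
    rw [abs_of_nonneg hF0] at this
    nlinarith [mul_nonneg hK2n hF0]
  · rw [hgrad, hgrad, ← map_sub, LinearIsometryEquiv.norm_map]
    have := Convex.norm_image_sub_le_of_norm_hasFDerivWithin_le (𝕜 := ℝ)
      (f := regAvg (fderiv ℝ (regRho : Space → ℝ)) u 1)
      (f' := fun x => regAvg (fderiv ℝ (fderiv ℝ (regRho : Space → ℝ))) u 1 x)
      (s := Set.univ) (C := F * K2) (x := y) (y := x)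
      (fun x _ => (an2_avg_hasFDerivAt hρ1 hρ10 hu x).hasFDerivWithinAt)
      (fun x _ => by
        have := an2_avg_bound hρ2 hρ20 hF x
        rwa [abs_of_nonneg hF0] at this)
      convex_univ (Set.mem_univ _) (Set.mem_univ _)
    refine this.trans ?_
    have h3 : 0 ≤ K1 * F * ‖x - y‖ := by positivity
    nlinarith

end Claimed.Open.R278
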