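import Claimed.Open.R278.TKBridge

/-!
# Package AN, leaf AN-R3: the majorant kernel `anP1` of the gradient potential `T₁`

TEMPLATE: `Claimed/Agent/R259/RegLadK.lean` does exactly this for the kernel `regP` of `T` (`reg_P_measurable`, `reg_P_zero`, `reg_P_rpow`, `reg_T_enorm_le`); copy and adapt.
`regT1 G x = ∫_{s ∈ (0,1]} regAvg (Dψ) G s x ds`, `regAvg κ G s x = ∫ G(x - s z) κ(z) dz = ∫ G(y) κ_s(x - y) dy`, `κ_s = regScale κ s = s⁻³ κ(·/s)`.
* support: `Dψ(z) = 0` for `‖z‖² ≥ 2` (`regpa_dpsi_zero`), so `κ_s(w) = 0` for `‖w‖ ≥ 2 s` (`reg_scale_zero`).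
* `L^r`: Jensen on the probability space `((0,1], ds)` (`reglk_jensen`): `P₁^r ≤ ∫_0^1 ‖κ_s‖^r ds`, and `∫ ‖κ_s(w)‖^r dw = s^{3 - 3r} ∫ ‖κ‖^r` (`reglk_lintegral_comp_inv_smul`);
  for `r = 5/4` the exponent is `-3/4 > -1`.  (The true threshold is `r < 3/2`; `5/4` is what the cheap proof gives, and it is enough.)
-/

open MeasureTheory
open Claimed.Agent.R259 (regT regT1 regAvg regRho regPsi regScale)
open scoped ContDiff InnerProductSpace ENNReal Topology

noncomputable section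

namespace Claimed.Open.R278

/-- the kernel `Dψ`. -/
theorem an3_dpsi_continuous : Continuous (fderiv ℝ (regPsi : Space → ℝ)) :=
  Claimed.Agent.R259.regpa_dpsi_contDiff.continuous

theorem an3_enorm_scale (s : ℝ) (w : Space) :
    ‖regScale (fderiv ℝ (regPsi : Space → ℝ)) s w‖ₑ
      = ‖(s ^ 3)⁻¹‖ₑ * ‖fderiv ℝ (regPsi : Space → ℝ) (s⁻¹ • w)‖ₑ := by
  have hfr : Module.finrank ℝ Space = 3 := by simp
  unfold regScale
  rw [hfr, enorm_smul]

/-- joint measurability of the integrand of `anP1`. -/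
theorem an3_meas :
    Measurable (fun p : Space × ℝ => ‖regScale (fderiv ℝ (regPsi : Space → ℝ)) p.2 p.1‖ₑ) := by
  have hκ : Measurable fun z : Space => ‖fderiv ℝ (regPsi : Space → ℝ) z‖ₑ :=
    (continuous_enorm.comp an3_dpsi_continuous).measurable
  have h1 : Measurable (fun p : Space × ℝ => (p.2)⁻¹ • p.1) :=
    measurable_snd.inv.smul measurable_fst
  simp_rw [an3_enorm_scale]
  exact ((measurable_snd.pow_const 3).inv.enorm).mul (hκ.comp h1)

theorem anP1_measurable : Measurable anP1 := by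
  unfold anP1
  exact an3_meas.lintegral_prod_right'

theorem anP1_zero {w : Space} (h : 2 ≤ ‖w‖) : anP1 w = 0 := by
  unfold anP1
  rw [setLIntegral_congr_fun (g := fun _ => 0) measurableSet_Ioc]
  · simp
  · intro s hs
    have : regScale (fderiv ℝ (regPsi : Space → ℝ)) s w = 0 :=
      Claimed.Agent.R259.reg_scale_zero Claimed.Agent.R259.regpa_dpsi_zero hs.1
        (by linarith [hs.2])
    show ‖regScale (fderiv ℝ (regPsi : Space → ℝ)) s w‖ₑ = 0
    rw [this, ← ofReal_norm, norm_zero, ENNReal.ofReal_zero]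

theorem an3_dpsi_rpow_lt_top {r : ℝ} (hr : 0 < r) :
    ∫⁻ z : Space, ‖fderiv ℝ (regPsi : Space → ℝ) z‖ₑ ^ r < ⊤ := by
  have h1 : ∀ z : Space, ‖fderiv ℝ (regPsi : Space → ℝ) z‖ₑ ^ r
      = ENNReal.ofReal (‖fderiv ℝ (regPsi : Space → ℝ) z‖ ^ r) := fun z => by
    rw [← ofReal_norm, ENNReal.ofReal_rpow_of_nonneg (norm_nonneg _) hr.le]
  simp_rw [h1]
  have hc : Continuous fun z : Space => ‖fderiv ℝ (regPsi : Space → ℝ) z‖ ^ r :=
    an3_dpsi_continuous.norm.rpow_const fun _ => Or.inr hr.le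
  have hs : HasCompactSupport fun z : Space => ‖fderiv ℝ (regPsi : Space → ℝ) z‖ ^ r :=
    Claimed.Agent.R259.reg_hasCompactSupport_of_zero fun z hz => by
      simp only [Claimed.Agent.R259.regpa_dpsi_zero z hz, norm_zero]
      exact Real.zero_rpow hr.ne'
  exact (hc.integrable_of_hasCompactSupport hs).lintegral_lt_top

/-- scaling of the `L^r` norms. -/
theorem an3_scale_rpow {r : ℝ} (hr : 0 < r) {s : ℝ} (hs : 0 < s) :
    ∫⁻ w : Space, ‖regScale (fderiv ℝ (regPsi : Space → ℝ)) s w‖ₑ ^ r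
      = ENNReal.ofReal (s ^ (3 - 3 * r)) * ∫⁻ z : Space, ‖fderiv ℝ (regPsi : Space → ℝ) z‖ₑ ^ r := by
  have hm : Measurable fun z : Space => ‖fderiv ℝ (regPsi : Space → ℝ) z‖ₑ ^ r :=
    ((continuous_enorm.comp an3_dpsi_continuous).measurable).pow_const _
  have hfr : Module.finrank ℝ Space = 3 := by simp
  have hpos : (0 : ℝ) < (s ^ 3)⁻¹ := by positivity
  have h2 : ∀ w : Space, ‖regScale (fderiv ℝ (regPsi : Space → ℝ)) s w‖ₑ ^ r
      = ENNReal.ofReal (((s ^ 3)⁻¹) ^ r) * ‖fderiv ℝ (regPsi : Space → ℝ) (s⁻¹ • w)‖ₑ ^ r := by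
    intro w
    rw [an3_enorm_scale, ENNReal.mul_rpow_of_nonneg _ _ hr.le, Real.enorm_eq_ofReal hpos.le,
      ENNReal.ofReal_rpow_of_pos hpos]
  simp_rw [h2]
  have hm' : Measurable fun w : Space => ‖fderiv ℝ (regPsi : Space → ℝ) (s⁻¹ • w)‖ₑ ^ r :=
    hm.comp (measurable_const_smul s⁻¹)
  rw [lintegral_const_mul _ hm', Claimed.Agent.R259.reglk_lintegral_comp_inv_smul hm hs, hfr,
    ← mul_assoc, ← ENNReal.ofReal_mul (by positivity)]
  congr 2
  have h3 : s ^ 3 = s ^ (3 : ℝ) := by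
    rw [← Real.rpow_natCast]; norm_num
  rw [h3, ← Real.rpow_neg hs.le, ← Real.rpow_mul hs.le, ← Real.rpow_add hs]
  congr 1
  ring

theorem anP1_rpow : ∫⁻ w, anP1 w ^ (5 / 4 : ℝ) < ⊤ := by
  have : IsProbabilityMeasure (volume.restrict (Set.Ioc (0 : ℝ) 1)) := by
    constructor
    simp
  set C : ℝ≥0∞ := ∫⁻ z : Space, ‖fderiv ℝ (regPsi : Space → ℝ) z‖ₑ ^ (5 / 4 : ℝ) with hC
  have hCtop : C < ⊤ := an3_dpsi_rpow_lt_top (by norm_num)
  have hI : ∫⁻ s in Set.Ioc (0 : ℝ) 1, ENNReal.ofReal (s ^ (-(3 / 4) : ℝ)) < ⊤ := by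
    have h1 : IntegrableOn (fun s : ℝ => s ^ (-(3 / 4) : ℝ)) (Set.Ioc 0 1) := by
      rw [← intervalIntegrable_iff_integrableOn_Ioc_of_le zero_le_one]
      exact intervalIntegral.intervalIntegrable_rpow' (by norm_num)
    exact h1.lintegral_lt_top
  calc ∫⁻ w : Space, anP1 w ^ (5 / 4 : ℝ)
      ≤ ∫⁻ w : Space, ∫⁻ s in Set.Ioc (0 : ℝ) 1,
          ‖regScale (fderiv ℝ (regPsi : Space → ℝ)) s w‖ₑ ^ (5 / 4 : ℝ) := by
        refine lintegral_mono fun w => ?_
        refine Claimed.Agent.R259.reglk_jensen _ (by norm_num) ?_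
        exact (an3_meas.comp (measurable_const.prodMk measurable_id)).aemeasurable
    _ = ∫⁻ s in Set.Ioc (0 : ℝ) 1, ∫⁻ w : Space,
          ‖regScale (fderiv ℝ (regPsi : Space → ℝ)) s w‖ₑ ^ (5 / 4 : ℝ) := by
        refine lintegral_lintegral_swap ?_
        exact (an3_meas.pow_const _).aemeasurable
    _ = ∫⁻ s in Set.Ioc (0 : ℝ) 1, ENNReal.ofReal (s ^ (-(3 / 4) : ℝ)) * C := by
        refine setLIntegral_congr_fun measurableSet_Ioc fun s hs => ?_
        rw [an3_scale_rpow (by norm_num) hs.1]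
        congr 2
        norm_num
    _ = (∫⁻ s in Set.Ioc (0 : ℝ) 1, ENNReal.ofReal (s ^ (-(3 / 4) : ℝ))) * C := by
        rw [lintegral_mul_const' _ _ hCtop.ne]
    _ < ⊤ := ENNReal.mul_lt_top hI hCtop

theorem anP1_lintegral : ∫⁻ w, anP1 w < ⊤ := by
  set C : ℝ≥0∞ := ∫⁻ z : Space, ‖fderiv ℝ (regPsi : Space → ℝ) z‖ₑ ^ (1 : ℝ) with hC
  have hCtop : C < ⊤ := an3_dpsi_rpow_lt_top one_pos
  unfold anP1
  calc ∫⁻ w : Space, ∫⁻ s in Set.Ioc (0 : ℝ) 1, ‖regScale (fderiv ℝ (regPsi : Space → ℝ)) s w‖ₑ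
      = ∫⁻ s in Set.Ioc (0 : ℝ) 1, ∫⁻ w : Space,
          ‖regScale (fderiv ℝ (regPsi : Space → ℝ)) s w‖ₑ := by
        refine lintegral_lintegral_swap ?_
        exact an3_meas.aemeasurable
    _ = ∫⁻ s in Set.Ioc (0 : ℝ) 1, C := by
        refine setLIntegral_congr_fun measurableSet_Ioc fun s hs => ?_
        have := an3_scale_rpow one_pos hs.1
        simp only [ENNReal.rpow_one] at this
        rw [this]
        norm_num [hC]
    _ = C := by simp
    _ < ⊤ := hCtop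

theorem an_T1_enorm_le {G : Space → ℝ} (hG : AEStronglyMeasurable G volume) (x : Space) :
    ‖regT1 G x‖ₑ ≤ ∫⁻ y, anP1 (x - y) * ‖G y‖ₑ := by
  unfold regT1
  have hm2 : Measurable (fun p : ℝ × Space =>
      ‖regScale (fderiv ℝ (regPsi : Space → ℝ)) p.1 (x - p.2)‖ₑ) := by
    have hκ : Measurable fun z : Space => ‖fderiv ℝ (regPsi : Space → ℝ) z‖ₑ :=
      (continuous_enorm.comp an3_dpsi_continuous).measurable
    have h1 : Measurable (fun p : ℝ × Space => (p.1)⁻¹ • (x - p.2)) :=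
      measurable_fst.inv.smul (measurable_const.sub measurable_snd)
    simp_rw [an3_enorm_scale]
    exact ((measurable_fst.pow_const 3).inv.enorm).mul (hκ.comp h1)
  calc ‖∫ s in Set.Ioc (0 : ℝ) 1, regAvg (fderiv ℝ regPsi) G s x‖ₑ
      ≤ ∫⁻ s in Set.Ioc (0 : ℝ) 1, ‖regAvg (fderiv ℝ regPsi) G s x‖ₑ :=
        enorm_integral_le_lintegral_enorm _
    _ ≤ ∫⁻ s in Set.Ioc (0 : ℝ) 1, ∫⁻ y : Space,
          ‖regScale (fderiv ℝ (regPsi : Space → ℝ)) s (x - y)‖ₑ * ‖G y‖ₑ := by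
        refine setLIntegral_mono' measurableSet_Ioc fun s hs => ?_
        have hs0 : 0 < s := hs.1
        rw [Claimed.Agent.R259.regAvg_eq_conv _ G hs0 x, convolution_def]
        refine (enorm_integral_le_lintegral_enorm _).trans (le_of_eq ?_)
        refine lintegral_congr fun t => ?_
        simp only [ContinuousLinearMap.lsmul_apply, enorm_smul]
        ring
    _ = ∫⁻ y : Space, ∫⁻ s in Set.Ioc (0 : ℝ) 1,
          ‖regScale (fderiv ℝ (regPsi : Space → ℝ)) s (x - y)‖ₑ * ‖G y‖ₑ := by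
        refine lintegral_lintegral_swap ?_
        exact hm2.aemeasurable.mul hG.enorm.comp_snd
    _ = ∫⁻ y, anP1 (x - y) * ‖G y‖ₑ := by
        refine lintegral_congr fun y => ?_
        rw [lintegral_mul_const' _ _ enorm_ne_top]
        rfl

theorem anT1_norm (G : Space → ℝ) (x : Space) : ‖anT1 G x‖ = ‖regT1 G x‖ := by
  simp [anT1]

theorem anT1_inner (G : Space → ℝ) (x v : Space) : ⟪anT1 G x, v⟫_ℝ = regT1 G x v := by
  simp [anT1]

end Claimed.Open.R278
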