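import Claimed.Open.R278.CH1Amp
import Claimed.Open.R278.CHQ

/-!
# Result 278, layer L4, master file of the package CH1: leading bounds and the scalar amplitude

Top theorems: `channel_leading` (CH1a), `channel_amplitude` (CH1b).  Paper-free.  Sub-captain helper162.
No `sorry` in this file.

## CH1a (files `CH1Words`, `CH1Eq`, `CH1Ineq`, `CH1Comp`, `CH1Lead`)
1. `𝔇_w F` solves the channel system with the source `src w` (`chanEq_word`), and by the Leibniz formula over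
   the splits of `w` (`dword_bilin`, `CHTD0`) `src w = 𝔇_w Res - ∑' (𝔇_u u) 𝔇_v F - λ ∑' (𝔇_u W) 𝔇_v F` (`src_eq`), which is
   `O(A r⁻²)` if the shorter words satisfy the leading bounds (`ch1_source_bound`).
2. fibre inequalities (`CH1Ineq`) + `comparison_principle` + `supersol_full`, `supersol_Q` give the basic
   estimate `ch1_basic` for every solution `(H, Sr)`.
3. induction on the word length: `ch1_leading`.

## CH1b (files `CH1Ray`, `CH1Amp`)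
1. scalar equation (`scalar_eq`): `½Δf_w - (k²/2 - (2-2λ)/r) f_w = N_w`, `f_w = ⟪φ, 𝔇_w F⟫`,
   `N_w = (u + 2/r) f_w + λ ⟪Wφ - (2/r)φ, 𝔇_w F⟫ - ⟪φ, src w⟫ = O(A r⁻²)`.
2. for rotation words `𝔇_w h = f_w / A` (`h_word`); conjugation (`ch1_laplacian_conj`) gives the radial equation
   `-½ ∂_r² g + (k - (β+1)/r) ∂_r g = G_w = O(r⁻²)`, `g = 𝔇_w h` (`ray_eq`, `ch1_rayG_bound`).
3. along each ray `radial_ode` with `q = 2` (`ch1_one_ray`, `ch1_ray`).
4. `a₀` and its smoothness by `smooth_limit_of_rot_words` (`ch1_channel_amplitude`).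
-/

open MeasureTheory Filter
open scoped ContDiff InnerProductSpace ComplexConjugate ENNReal Topology Laplacian

noncomputable section

namespace Claimed.Open.R278

variable {𝒦 : Type} [NormedAddCommGroup 𝒦] [InnerProductSpace ℂ 𝒦] [CompleteSpace 𝒦]
variable {κ : ChannelConsts}

/-- the two notions of "solution of the channel system" (`CHQ1`, `CH1Eq`) are the same. -/
theorem chanEq_iff (S : ChannelCore 𝒦 κ) (R : ℝ) (H Src : Space → 𝒦) :
    ChanEq S R H Src ↔ S.ChanEq R H Src := Iff.rfl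

/-- **CH1a** (3.13) with all words: `‖𝔇_w F‖ ≤ C A`, `‖Q 𝔇_w F‖ ≤ C A r⁻²`. -/
theorem channel_leading (κ : ChannelConsts) :
    ∃ (R₀ : ℝ) (C : ℕ → ℝ), κ.R₁ ≤ R₀ ∧ ∀ S : ChannelCore 𝒦 κ,
      WordBdd R₀ C S.A S.F ∧
      WordBdd R₀ C (fun x => S.A x * (‖x‖ ^ 2)⁻¹) (fun x => S.Q (S.F x)) :=
  ch1_channel_leading κ

/-- **CH1b** (3.14)-(3.16), first order only: `h → a₀` with rotation derivatives, radial derivatives
`O(r⁻²)`. -/
theorem channel_amplitude (κ : ChannelConsts) :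
    ∃ (R₀ : ℝ) (C : ℕ → ℝ), κ.R₁ ≤ R₀ ∧ ∀ S : ChannelCore 𝒦 κ,
      ContDiffOn ℝ ∞ S.a₀ (Ext 0) ∧
      (∀ x ∈ Ext 0, ∀ ρ : ℝ, 0 < ρ → S.a₀ (ρ • x) = S.a₀ x) ∧
      (∀ w, IsRotWord w → ∀ x ∈ Ext 0, ‖dword w S.a₀ x‖ ≤ C w.length) ∧
      ∀ w, IsRotWord w → ∀ x ∈ Ext R₀,
        ‖dword w S.h x‖ ≤ C w.length ∧
        ‖dword w S.h x - dword w S.a₀ x‖ ≤ C w.length * ‖x‖⁻¹ ∧
        ‖dr (dword w S.h) x‖ ≤ C w.length * (‖x‖ ^ 2)⁻¹ ∧
        ‖dr (dr (dword w S.h)) x‖ ≤ C w.length * (‖x‖ ^ 2)⁻¹ :=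
  ch1_channel_amplitude κ

/-! ## further exports for CH2 -/

/-- `f = O(A)` with all words. -/
theorem ch1_f_bdd (κ : ChannelConsts) : ∃ (R₀ : ℝ) (C : ℕ → ℝ), κ.R₁ ≤ R₀ ∧
    ∀ S : ChannelCore 𝒦 κ, WordBdd R₀ C S.A S.f := by
  obtain ⟨R₀, C, hR₀, h⟩ := channel_leading (𝒦 := 𝒦) κ
  refine ⟨R₀, C, hR₀, fun S => ?_⟩
  have h1 := (h S).1
  refine ⟨S.contDiffOn_f.mono (Ext_mono hR₀), fun w x hx => ?_⟩
  have e : S.f = fun y => innerSL ℂ S.φ (S.F y) := by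
    funext y; rw [innerSL_apply_apply]; rfl
  rw [e, dword_clmC h1.1 (innerSL ℂ S.φ) w x hx, innerSL_apply_apply]
  exact (S.norm_inner_φ_le _).trans (h1.2 w x hx)

/-- the limit defining `a₀` exists. -/
theorem ch1_tendsto_a₀ (S : ChannelCore 𝒦 κ) : ∀ x ∈ Ext 0,
    Tendsto (fun ρ : ℝ => S.h ((ρ / ‖x‖) • x)) atTop (𝓝 (S.a₀ x)) := by
  intro x hx
  have hx0 : x ≠ 0 := by
    intro h0
    have : (0 : ℝ) < ‖x‖ := hx
    rw [h0, norm_zero] at this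
    exact lt_irrefl _ this
  obtain ⟨R₀, hR₀, hlead⟩ := ch1_leading (𝒦 := 𝒦) κ
  obtain ⟨Γ, hΓ, hray⟩ := ch1_rayG_bound (𝒦 := 𝒦) κ
  obtain ⟨K, hK, hl⟩ := hlead 2
  have hD : (1 : ℝ) ≤ bigD := by unfold bigD; norm_num
  have hR1 : 2 ≤ κ.R₁ := by have := κ.R₁_ge; linarith
  have hw : IsRotWord [] := fun a ha => absurd ha (List.not_mem_nil)
  have hne : ∀ y ∈ Ext R₀, y ≠ 0 := by
    intro y hy h0
    have : R₀ < ‖y‖ := hy
    rw [h0, norm_zero] at this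
    linarith
  have hb : ∀ y ∈ Ext R₀, ‖dword [] S.h y‖ ≤ K := by
    intro y hy
    have hA := S.A_pos (hne y hy)
    rw [S.h_word hw y (Ext_mono (by linarith) hy), norm_div, Complex.norm_real,
      Real.norm_of_nonneg hA.le, div_le_iff₀ hA]
    exact (S.norm_inner_φ_le _).trans (hl S [] (by simp) y hy).1
  have hG : ∀ y ∈ Ext R₀, ‖S.rayG [] y‖ ≤ Γ * K * (‖y‖ ^ 2)⁻¹ :=
    hray S R₀ K (by linarith) hK.le [] hw (fun v hv y hy => (hl S v (by simpa using hv) y hy).1)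
      (fun y hy => (hl S [] (by simp) y hy).2.2)
  have ht := (ch1_one_ray S hR₀ (by positivity) hw hb hG (ch1_unit hx0).1).1
  rw [S.a₀_eq]
  refine ht.congr (fun ρ => ?_)
  rw [dword_nil, smul_smul, div_eq_mul_inv]

end Claimed.Open.R278
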