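import Claimed.Open.R278.CH1Ray

/-!
# Result 278, package CH1, file 7: the angular amplitude

Sub-captain helper162.  No `sorry` in this file: `ch1_ray` and `ch1_channel_amplitude` are proved from `ch1_leading`
(`CH1Lead`), `ray_eq`, `ch1_rayG_bound`, `h_word` (`CH1Ray`), `radial_ode` (`CHTF1`) and
`smooth_limit_of_rot_words` (`CHTG`).
-/

open MeasureTheory Filter
open scoped ContDiff InnerProductSpace ComplexConjugate ENNReal Topology Laplacian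

noncomputable section

namespace Claimed.Open.R278

variable {𝒦 : Type} [NormedAddCommGroup 𝒦] [InnerProductSpace ℂ 𝒦] [CompleteSpace 𝒦]

/-- the limit of `𝔇_w h` along the ray through `e₀`. -/
def ChannelCore.rayL {κ : ChannelConsts} (S : ChannelCore 𝒦 κ) (w : List (Fin 3 ⊕ Fin 3))
    (e₀ : Space) : ℂ := limUnder atTop (fun ρ : ℝ => dword w S.h (ρ • e₀))

theorem ch1_norm_ray {e₀ : Space} (he : ‖e₀‖ = 1) {r : ℝ} (hr : 0 ≤ r) : ‖r • e₀‖ = r := by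
  rw [norm_smul, he, mul_one, Real.norm_of_nonneg hr]

theorem ch1_unit {x : Space} (hx : x ≠ 0) : ‖‖x‖⁻¹ • x‖ = 1 ∧ ‖x‖ • (‖x‖⁻¹ • x) = x := by
  have h : ‖x‖ ≠ 0 := norm_ne_zero_iff.2 hx
  constructor
  · rw [norm_smul, norm_inv, norm_norm, inv_mul_cancel₀ h]
  · rw [smul_smul, mul_inv_cancel₀ h, one_smul]

theorem ChannelCore.β_bounds {κ : ChannelConsts} (S : ChannelCore 𝒦 κ) :
    0 ≤ S.β + 1 ∧ S.β + 1 ≤ 2.3 := by
  have hk := S.k_lo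
  have hk0 : 0 < S.k := by linarith
  have h1 := S.lam_nonneg
  have h2 := S.lam_le
  have e : S.β + 1 = (2 - 2 * S.lam) / S.k := by unfold ChannelCore.β; ring
  rw [e]
  constructor
  · apply div_nonneg <;> linarith
  · rw [div_le_iff₀ hk0]; nlinarith

/-- **everything along one ray.** -/
theorem ch1_one_ray {κ : ChannelConsts} (S : ChannelCore 𝒦 κ) {R₀ K C : ℝ} (hR₀ : κ.R₁ + 1 ≤ R₀)
    (hC : 0 ≤ C) {w : List (Fin 3 ⊕ Fin 3)} (hw : IsRotWord w)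
    (hb : ∀ x ∈ Ext R₀, ‖dword w S.h x‖ ≤ K)
    (hG : ∀ x ∈ Ext R₀, ‖S.rayG w x‖ ≤ C * (‖x‖ ^ 2)⁻¹) {e₀ : Space} (he : ‖e₀‖ = 1) :
    Tendsto (fun ρ : ℝ => dword w S.h (ρ • e₀)) atTop (𝓝 (S.rayL w e₀)) ∧
    ∀ r, R₀ < r → ‖dr (dword w S.h) (r • e₀)‖ ≤ 3 * C * (r ^ 2)⁻¹ ∧
      ‖dr (dr (dword w S.h)) (r • e₀)‖ ≤ 26 * C * (r ^ 2)⁻¹ ∧
      ‖dword w S.h (r • e₀) - S.rayL w e₀‖ ≤ 3 * C * r⁻¹ := by
  have hD : (1 : ℝ) ≤ bigD := by unfold bigD; norm_num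
  have hR1 : 2 ≤ κ.R₁ := by have := κ.R₁_ge; linarith
  have hk := S.k_lo
  have hk' := S.k_hi
  have hk0 : 0 < S.k := by linarith
  obtain ⟨hβ0, hβ1⟩ := S.β_bounds
  have hsm : ContDiffOn ℝ ∞ (dword w S.h) (Ext κ.R₁) := contDiffOn_dword S.contDiffOn_h w
  have hsm1 : ContDiffOn ℝ ∞ (dr (dword w S.h)) (Ext κ.R₁) := contDiffOn_dr (by linarith) hsm
  have hsm2 : ContDiffOn ℝ ∞ (dr (dr (dword w S.h))) (Ext κ.R₁) := contDiffOn_dr (by linarith) hsm1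
  have hmem : ∀ r, R₀ < r → r • e₀ ∈ Ext κ.R₁ := by
    intro r hr
    show κ.R₁ < ‖r • e₀‖
    rw [ch1_norm_ray he (by linarith)]; linarith
  have hmem0 : ∀ r, R₀ < r → r • e₀ ∈ Ext R₀ := by
    intro r hr
    show R₀ < ‖r • e₀‖
    rw [ch1_norm_ray he (by linarith)]; exact hr
  have hdiff : ∀ {H : Space → ℂ}, ContDiffOn ℝ ∞ H (Ext κ.R₁) → ∀ r, R₀ < r →
      DifferentiableAt ℝ H (r • e₀) := fun hH r hr =>
    ((hH.contDiffAt ((isOpen_Ext κ.R₁).mem_nhds (hmem r hr))).differentiableAt (by simp))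
  have hcont : ∀ {H : Space → ℂ}, ContDiffOn ℝ ∞ H (Ext κ.R₁) →
      ContinuousOn (fun r : ℝ => H (r • e₀)) (Set.Ioi R₀) := fun hH =>
    hH.continuousOn.comp (by fun_prop) (fun r hr => hmem r hr)
  have hGc : ContinuousOn (fun r : ℝ => -(1 / 2 : ℂ) * dr (dr (dword w S.h)) (r • e₀)
      + ((S.k - (S.β + 1) / r : ℝ) : ℂ) * dr (dword w S.h) (r • e₀)) (Set.Ioi R₀) := by
    refine (continuousOn_const.mul (hcont hsm2)).add (ContinuousOn.mul ?_ (hcont hsm1))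
    refine Complex.continuous_ofReal.comp_continuousOn ?_
    refine continuousOn_const.sub (continuousOn_const.div continuousOn_id ?_)
    intro r hr h0
    have : R₀ < r := hr
    rw [h0] at this
    linarith
  have hGb : ∀ r, R₀ < r → ‖-(1 / 2 : ℂ) * dr (dr (dword w S.h)) (r • e₀)
      + ((S.k - (S.β + 1) / r : ℝ) : ℂ) * dr (dword w S.h) (r • e₀)‖ ≤ C * r ^ (-(2 : ℝ)) := by
    intro r hr
    have hr0 : 0 < r := by linarith
    have e := S.ray_eq hw (r • e₀) (hmem r hr)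
    rw [ch1_norm_ray he hr0.le] at e
    have hGr := hG (r • e₀) (hmem0 r hr)
    rw [ch1_norm_ray he hr0.le] at hGr
    rw [e, Real.rpow_neg hr0.le, Real.rpow_two]
    exact hGr
  have hode := radial_ode (k := S.k) (β := S.β) (q := 2) (C := C) (B := K) (r₀ := R₀) hk0 (by norm_num)
    (by linarith) (by nlinarith)
    (g := fun r => dword w S.h (r • e₀)) (g' := fun r => dr (dword w S.h) (r • e₀))
    (g'' := fun r => dr (dr (dword w S.h)) (r • e₀))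
    (G := fun r => -(1 / 2 : ℂ) * dr (dr (dword w S.h)) (r • e₀)
      + ((S.k - (S.β + 1) / r : ℝ) : ℂ) * dr (dword w S.h) (r • e₀))
    (fun r hr => hasDerivAt_ray he (by linarith) (hdiff hsm r hr))
    (fun r hr => hasDerivAt_ray he (by linarith) (hdiff hsm1 r hr))
    hGc (fun r _ => rfl) hGb (fun r hr => hb _ (hmem0 r hr))
  obtain ⟨h1, ℓ, hℓ, h2⟩ := hode
  have hL : S.rayL w e₀ = ℓ := hℓ.limUnder_eq
  rw [hL]
  refine ⟨hℓ, ?_⟩
  intro r hr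
  have hr0 : 0 < r := by linarith
  have hr1 : 1 ≤ r := by linarith
  have hrr : 0 < (r ^ 2)⁻¹ := by positivity
  have hc3 : 2 * C / S.k ≤ 3 * C := by
    rw [div_le_iff₀ hk0]; nlinarith
  have hg1 : ‖dr (dword w S.h) (r • e₀)‖ ≤ 3 * C * (r ^ 2)⁻¹ := by
    have := h1 r hr
    rw [Real.rpow_neg hr0.le, Real.rpow_two] at this
    exact this.trans (mul_le_mul_of_nonneg_right hc3 hrr.le)
  refine ⟨hg1, ?_, ?_⟩
  · have e := S.ray_eq hw (r • e₀) (hmem r hr)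
    rw [ch1_norm_ray he hr0.le] at e
    have hGr := hG (r • e₀) (hmem0 r hr)
    rw [ch1_norm_ray he hr0.le] at hGr
    have e2 : dr (dr (dword w S.h)) (r • e₀) =
        2 * (((S.k - (S.β + 1) / r : ℝ) : ℂ) * dr (dword w S.h) (r • e₀) - S.rayG w (r • e₀)) := by
      rw [← e]; ring
    have hcoef : ‖((S.k - (S.β + 1) / r : ℝ) : ℂ)‖ ≤ 4 := by
      rw [Complex.norm_real, Real.norm_eq_abs, abs_le]
      have h3 : (S.β + 1) / r ≤ 2.3 := by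
        rw [div_le_iff₀ hr0]; nlinarith
      have h4 : 0 ≤ (S.β + 1) / r := div_nonneg hβ0 hr0.le
      constructor <;> linarith
    rw [e2, norm_mul]
    have h5 : ‖((S.k - (S.β + 1) / r : ℝ) : ℂ) * dr (dword w S.h) (r • e₀) - S.rayG w (r • e₀)‖
        ≤ 4 * (3 * C * (r ^ 2)⁻¹) + C * (r ^ 2)⁻¹ := by
      refine (norm_sub_le _ _).trans (add_le_add ?_ hGr)
      rw [norm_mul]
      exact mul_le_mul hcoef hg1 (norm_nonneg _) (by norm_num)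
    have h6 : ‖(2 : ℂ)‖ = 2 := by simp
    rw [h6]
    nlinarith
  · have := h2 r hr
    have e1 : (1 - 2 : ℝ) = -1 := by norm_num
    rw [e1, Real.rpow_neg_one] at this
    have e3 : 2 * C / (S.k * (2 - 1)) = 2 * C / S.k := by norm_num
    rw [e3] at this
    exact this.trans (mul_le_mul_of_nonneg_right hc3 (by positivity))

/-- **all rays, uniform constants.** -/
theorem ch1_ray (κ : ChannelConsts) : ∃ R₀ : ℝ, κ.R₁ + 1 ≤ R₀ ∧ ∀ n : ℕ, ∃ K : ℝ, 0 < K ∧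
    ∀ (S : ChannelCore 𝒦 κ) (w : List (Fin 3 ⊕ Fin 3)), IsRotWord w → w.length ≤ n →
      (∀ x ∈ Ext R₀, ‖dword w S.h x‖ ≤ K ∧ ‖dr (dword w S.h) x‖ ≤ K * (‖x‖ ^ 2)⁻¹ ∧
        ‖dr (dr (dword w S.h)) x‖ ≤ K * (‖x‖ ^ 2)⁻¹ ∧
        ‖dword w S.h x - S.rayL w (‖x‖⁻¹ • x)‖ ≤ K * ‖x‖⁻¹) ∧
      ∀ e₀ : Space, ‖e₀‖ = 1 → ‖S.rayL w e₀‖ ≤ K := by
  obtain ⟨R₀, hR₀, hlead⟩ := ch1_leading (𝒦 := 𝒦) κ
  obtain ⟨Γ, hΓ, hray⟩ := ch1_rayG_bound (𝒦 := 𝒦) κ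
  have hD : (1 : ℝ) ≤ bigD := by unfold bigD; norm_num
  have hR1 : 2 ≤ κ.R₁ := by have := κ.R₁_ge; linarith
  refine ⟨R₀, hR₀, fun n => ?_⟩
  obtain ⟨K, hK, hl⟩ := hlead (n + 2)
  have hC : 0 ≤ Γ * K := by positivity
  refine ⟨K + 26 * (Γ * K), by positivity, ?_⟩
  intro S w hw hwn
  have hne : ∀ x ∈ Ext R₀, x ≠ 0 := by
    intro x hx h0
    have : R₀ < ‖x‖ := hx
    rw [h0, norm_zero] at this
    linarith
  have hb : ∀ x ∈ Ext R₀, ‖dword w S.h x‖ ≤ K := by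
    intro x hx
    have hA := S.A_pos (hne x hx)
    rw [S.h_word hw x (Ext_mono (by linarith) hx), norm_div, Complex.norm_real,
      Real.norm_of_nonneg hA.le, div_le_iff₀ hA]
    exact (S.norm_inner_φ_le _).trans (hl S w (by omega) x hx).1
  have hG : ∀ x ∈ Ext R₀, ‖S.rayG w x‖ ≤ Γ * K * (‖x‖ ^ 2)⁻¹ :=
    hray S R₀ K (by linarith) hK.le w hw (fun v hv x hx => (hl S v (by omega) x hx).1)
      (fun x hx => (hl S w (by omega) x hx).2.2)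
  constructor
  · intro x hx
    obtain ⟨hu1, hu2⟩ := ch1_unit (hne x hx)
    have h := (ch1_one_ray S hR₀ hC hw hb hG hu1).2 ‖x‖ hx
    rw [hu2] at h
    have hr0 : 0 < ‖x‖ := norm_pos_iff.2 (hne x hx)
    have hrr : 0 < (‖x‖ ^ 2)⁻¹ := by positivity
    have hri : 0 < ‖x‖⁻¹ := by positivity
    refine ⟨(hb x hx).trans (by linarith), h.1.trans ?_, h.2.1.trans ?_, h.2.2.trans ?_⟩
    · exact mul_le_mul_of_nonneg_right (by linarith) hrr.le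
    · exact mul_le_mul_of_nonneg_right (by linarith) hrr.le
    · exact mul_le_mul_of_nonneg_right (by linarith) hri.le
  · intro e₀ he
    have ht := (ch1_one_ray S hR₀ hC hw hb hG he).1
    have : ‖S.rayL w e₀‖ ≤ K := by
      refine le_of_tendsto ht.norm ?_
      filter_upwards [eventually_gt_atTop R₀] with ρ hρ
      apply hb
      show R₀ < ‖ρ • e₀‖
      rw [ch1_norm_ray he (by linarith)]; exact hρ
    linarith

theorem ChannelCore.a₀_eq {κ : ChannelConsts} (S : ChannelCore 𝒦 κ) :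
    S.a₀ = fun x => S.rayL [] (‖x‖⁻¹ • x) := by
  funext x
  unfold ChannelCore.a₀ ChannelCore.rayL
  congr 1
  funext ρ
  rw [dword_nil, smul_smul, div_eq_mul_inv]

/-- **CH1b** (3.14)-(3.16), first order only: `h → a₀` with rotation derivatives, radial derivatives
`O(r⁻²)`. -/
theorem ch1_channel_amplitude (κ : ChannelConsts) :
    ∃ (R₀ : ℝ) (C : ℕ → ℝ), κ.R₁ ≤ R₀ ∧ ∀ S : ChannelCore 𝒦 κ,
      ContDiffOn ℝ ∞ S.a₀ (Ext 0) ∧
      (∀ x ∈ Ext 0, ∀ ρ : ℝ, 0 < ρ → S.a₀ (ρ • x) = S.a₀ x) ∧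
      (∀ w, IsRotWord w → ∀ x ∈ Ext 0, ‖dword w S.a₀ x‖ ≤ C w.length) ∧
      ∀ w, IsRotWord w → ∀ x ∈ Ext R₀,
        ‖dword w S.h x‖ ≤ C w.length ∧
        ‖dword w S.h x - dword w S.a₀ x‖ ≤ C w.length * ‖x‖⁻¹ ∧
        ‖dr (dword w S.h) x‖ ≤ C w.length * (‖x‖ ^ 2)⁻¹ ∧
        ‖dr (dr (dword w S.h)) x‖ ≤ C w.length * (‖x‖ ^ 2)⁻¹ := by
  obtain ⟨R₀, hR₀, h⟩ := ch1_ray (𝒦 := 𝒦) κ
  choose C hC h using h
  have hD : (1 : ℝ) ≤ bigD := by unfold bigD; norm_num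
  have hR1 : 2 ≤ κ.R₁ := by have := κ.R₁_ge; linarith
  have hle : κ.R₁ ≤ R₀ := by linarith
  refine ⟨R₀, C, hle, fun S => ?_⟩
  obtain ⟨hs1, hs2⟩ := smooth_limit_of_rot_words (R := R₀) (by linarith)
    (S.contDiffOn_h.mono (Ext_mono hle)) (C := C) (L := S.rayL)
    (fun w hw x hx => ((h w.length S w hw le_rfl).1 x hx).2.2.2)
  have hne : ∀ x ∈ Ext 0, x ≠ 0 := by
    intro x hx h0
    have : (0 : ℝ) < ‖x‖ := hx
    rw [h0, norm_zero] at this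
    exact lt_irrefl _ this
  rw [S.a₀_eq]
  refine ⟨hs1, ?_, ?_, ?_⟩
  · intro x hx ρ hρ
    show S.rayL [] (‖ρ • x‖⁻¹ • ρ • x) = S.rayL [] (‖x‖⁻¹ • x)
    congr 1
    rw [norm_smul, Real.norm_of_nonneg hρ.le, smul_smul, mul_inv, mul_assoc, mul_comm ‖x‖⁻¹ ρ,
      ← mul_assoc, inv_mul_cancel₀ hρ.ne', one_mul]
  · intro w hw x hx
    rw [hs2 w hw x hx]
    exact (h w.length S w hw le_rfl).2 _ (ch1_unit (hne x hx)).1
  · intro w hw x hx
    have hx0 : x ∈ Ext 0 := Ext_mono (by linarith) hx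
    rw [hs2 w hw x hx0]
    have := (h w.length S w hw le_rfl).1 x hx
    exact ⟨this.1, this.2.2.2, this.2.1, this.2.2.1⟩

end Claimed.Open.R278
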