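import Claimed.Open.R278.CH1Ineq

/-!
# Result 278, package CH1, file 4: the two comparison arguments

Sub-captain helper162.  PAPER-FREE.

`ch1_basic` : there are `R₀, Λ` depending only on `κ` such that for every solution `(H, Sr)` of the channel
system with `‖Sr‖ ≤ K A r⁻²` on `Ext R₀` and `‖H‖ ≤ K` on the sphere `|x| = R₀`:
`‖H‖ ≤ Λ K A`, `‖QH‖ ≤ Λ K A r⁻²` on `Ext R₀`.

Leaves `CH1-C1`, `CH1-C2`: PROVED, no `sorry` in this file.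
-/

open MeasureTheory Filter
open scoped ContDiff InnerProductSpace ComplexConjugate ENNReal Topology Laplacian

noncomputable section

namespace Claimed.Open.R278

variable {𝒦 : Type} [NormedAddCommGroup 𝒦] [InnerProductSpace ℂ 𝒦] [CompleteSpace 𝒦]

/-- `A(r) ≥ e^{-1.1 r} r⁻¹`. -/
theorem ch1_A_lower {κ : ChannelConsts} (S : ChannelCore 𝒦 κ) {r : ℝ} (hr : 1 ≤ r) :
    Real.exp (-(1.1 * r)) * r⁻¹ ≤ radialA S.k S.β r := by
  have hr0 : 0 < r := by linarith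
  have hk := S.k_lo
  have hk0 : 0 < S.k := by linarith
  have hβ : -1 ≤ S.β := by
    have e : S.β = (2 - 2 * S.lam) / S.k - 1 := rfl
    have : 0 ≤ (2 - 2 * S.lam) / S.k := div_nonneg (by linarith [S.lam_le]) hk0.le
    linarith
  unfold radialA
  have h1 : Real.exp (-(1.1 * r)) ≤ Real.exp (-(S.k * r)) := by
    apply Real.exp_le_exp.2
    have := S.k_hi
    nlinarith
  have h2 : r⁻¹ ≤ r ^ S.β := by
    rw [← Real.rpow_neg_one]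
    exact Real.rpow_le_rpow_of_exponent_le hr hβ
  exact mul_le_mul h1 h2 (by positivity) (Real.exp_pos _).le

/-- **comparison for the full norm.**  `R₂ = max` of the radii of `ch1_ineq_full κ` (giving `C₁`) and
`supersol_full C₁` (giving `M`), and `κ.R₁ + 1`.  Given `R₀ ≥ R₂` apply `comparison_principle` with
`q = k²/2 - (2-2λ)/r - C₁/r²`, `s = K A r⁻²`, `Φ = Λ' K A (1 - M/r)`, `Λ' = max 1 (2 e^{1.1 R₀} R₀)`:
* `hsub` : `ch1_ineq_full` at `H x, Δ H x, Sr x` (unfold `ChanEq`, `chanG`), `‖Sr x‖ ≤ s x`;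
* `hsup` : `supersol_full` multiplied by `Λ' K ≥ K` (`Δ (c • Φ₀) = c • Δ Φ₀`; `S.β = betaOf S.lam S.k` by `rfl`);
* `hbd`  : `A(R₀) ≥ e^{-1.1 R₀} R₀⁻¹` (`β ≥ -1`, `R₀ ≥ 1`), `1 - M/R₀ ≥ 1/2`;
* smoothness of `Φ` : `contDiffOn_radialA` composed with the norm; continuity up to the sphere since
  `R₀ > κ.R₁ ≥ 0`.
Conclusion `‖H‖ ≤ Φ ≤ Λ' K A`. -/
theorem ch1_comp_full (κ : ChannelConsts) : ∃ R₂ : ℝ, κ.R₁ + 1 ≤ R₂ ∧ ∀ R₀ : ℝ, R₂ ≤ R₀ →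
    ∃ Λ : ℝ, 0 ≤ Λ ∧ ∀ (S : ChannelCore 𝒦 κ) (H Sr : Space → 𝒦) (K : ℝ), 0 < K →
      ContDiffOn ℝ ∞ H (Ext κ.R₁) → Tendsto (fun x => ‖H x‖) (cocompact Space) (𝓝 0) →
      S.ChanEq κ.R₁ H Sr →
      (∀ x ∈ Ext R₀, ‖Sr x‖ ≤ K * (S.A x * (‖x‖ ^ 2)⁻¹)) →
      (∀ x, ‖x‖ = R₀ → ‖H x‖ ≤ K) →
      ∀ x, R₀ ≤ ‖x‖ → ‖H x‖ ≤ Λ * K * S.A x := by
  obtain ⟨Ri, C₁, hRi, hC₁, hineq⟩ := ch1_ineq_full (𝒦 := 𝒦) κ
  obtain ⟨M, Rs, hM, h2M, hRs1, hsup⟩ := supersol_full C₁ hC₁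
  have hR1 : 0 < κ.R₁ := lt_of_lt_of_le (by unfold bigD; positivity) κ.R₁_ge
  refine ⟨max (max Ri Rs) (κ.R₁ + 1), le_max_right _ _, ?_⟩
  intro R₀ hR₀
  have hRi0 : Ri ≤ R₀ := ((le_max_left _ _).trans (le_max_left _ _)).trans hR₀
  have hRs0 : Rs ≤ R₀ := ((le_max_right _ _).trans (le_max_left _ _)).trans hR₀
  have hR10 : κ.R₁ + 1 ≤ R₀ := (le_max_right _ _).trans hR₀
  have hR₀1 : 1 ≤ R₀ := hRs1.trans hRs0
  have hR₀pos : 0 < R₀ := by linarith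
  set Λ : ℝ := 2 * Real.exp (1.1 * R₀) * R₀ + 1 with hΛ
  have hΛ1 : 1 ≤ Λ := by
    have : 0 < 2 * Real.exp (1.1 * R₀) * R₀ := by positivity
    linarith
  refine ⟨Λ, by linarith, ?_⟩
  intro S H Sr K hK hH hdec hEq hSr hbd
  have hΛK : 0 < Λ * K := by positivity
  -- the comparison function
  set ψ : ℝ → ℝ := fun r => radialA S.k (betaOf S.lam S.k) r * (1 - M / r) with hψ
  have hψs : ContDiffOn ℝ ∞ ψ (Set.Ioi 0) :=
    (contDiffOn_radialA _ _).mul (contDiffOn_const.sub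
      (contDiffOn_const.div contDiffOn_id (fun r hr => (ne_of_gt hr))))
  have hΦ₀ : ContDiffOn ℝ ∞ (fun y : Space => ψ ‖y‖) (Ext 0) := contDiffOn_radial le_rfl hψs
  have hΦs : ContDiffOn ℝ ∞ (fun y : Space => (Λ * K) * ψ ‖y‖) (Ext 0) := contDiffOn_const.mul hΦ₀
  have hsub0 : {x : Space | R₀ ≤ ‖x‖} ⊆ Ext 0 := fun x hx => lt_of_lt_of_le hR₀pos hx
  have hsub1 : {x : Space | R₀ ≤ ‖x‖} ⊆ Ext κ.R₁ := fun x hx =>
    lt_of_lt_of_le (by linarith) (show R₀ ≤ ‖x‖ from hx)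
  have hfac : ∀ x : Space, R₀ ≤ ‖x‖ → 1 / 2 ≤ 1 - M / ‖x‖ ∧ 1 - M / ‖x‖ ≤ 1 := by
    intro x hx
    have hr : 0 < ‖x‖ := by linarith
    have h1 : M / ‖x‖ ≤ 1 / 2 := by
      rw [div_le_iff₀ hr]; linarith
    have h2 : 0 ≤ M / ‖x‖ := by positivity
    constructor <;> linarith
  have main := comparison_principle (H := H) (Φ := fun y : Space => (Λ * K) * ψ ‖y‖)
    (q := fun x => S.k ^ 2 / 2 - (2 - 2 * S.lam) / ‖x‖ - C₁ / ‖x‖ ^ 2)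
    (s := fun x => K * (S.A x * (‖x‖ ^ 2)⁻¹)) (R₀ := R₀)
    ((hH.mono (Ext_mono (by linarith))).of_le (WithTop.coe_le_coe.2 le_top))
    (hH.continuousOn.mono hsub1) hdec
    ((hΦs.mono (Ext_mono hR₀pos.le)).of_le (WithTop.coe_le_coe.2 le_top))
    (hΦs.continuousOn.mono hsub0)
    (by
      intro x hx
      have hr : 0 < ‖x‖ := by linarith
      have := (hfac x hx).1
      have hA := radialA_pos S.k (betaOf S.lam S.k) hr
      have : 0 < ψ ‖x‖ := by rw [hψ]; exact mul_pos hA (by linarith)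
      positivity)
    (fun x hx => (hsup S.k S.lam S.k_lo.le S.k_hi.le S.lam_nonneg S.lam_le x
      (Ext_mono hRs0 hx)).1)
    (by
      intro x hx
      have hx1 : x ∈ Ext κ.R₁ := Ext_mono (by linarith) hx
      have h := hineq S x (Ext_mono hRi0 hx) (H x) (Δ H x) (Sr x) (hEq x hx1).1 (hEq x hx1).2
      have h2 := mul_le_mul_of_nonneg_right (hSr x hx) (norm_nonneg (H x))
      show (S.k ^ 2 / 2 - (2 - 2 * S.lam) / ‖x‖ - C₁ / ‖x‖ ^ 2) * ‖H x‖ ^ 2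
        - K * (S.A x * (‖x‖ ^ 2)⁻¹) * ‖H x‖ ≤ _
      linarith)
    (by
      intro x hx
      have hx0 : x ∈ Ext 0 := Ext_mono hR₀pos.le hx
      have h := (hsup S.k S.lam S.k_lo.le S.k_hi.le S.lam_nonneg S.lam_le x
        (Ext_mono hRs0 hx)).2
      have hc : ContDiffAt ℝ 2 (fun y : Space => ψ ‖y‖) x := contDiffAt_two_of_mem_Ext hΦ₀ hx0
      have hΔ : Δ (fun y : Space => (Λ * K) * ψ ‖y‖) x = (Λ * K) * Δ (fun y : Space => ψ ‖y‖) x := by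
        have := InnerProductSpace.laplacian_smul (Λ * K) hc
        simpa [Pi.smul_def, smul_eq_mul] using this
      have hr : 0 < ‖x‖ := hx0
      have hA : 0 < S.A x * (‖x‖ ^ 2)⁻¹ := by
        have := radialA_pos S.k S.β hr
        have h2 : 0 < S.A x := this
        positivity
      show K * (S.A x * (‖x‖ ^ 2)⁻¹) ≤ -(1 / 2) * Δ (fun y : Space => (Λ * K) * ψ ‖y‖) x
        + (S.k ^ 2 / 2 - (2 - 2 * S.lam) / ‖x‖ - C₁ / ‖x‖ ^ 2) * ((Λ * K) * ψ ‖x‖)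
      rw [hΔ]
      have h' : S.A x * (‖x‖ ^ 2)⁻¹ ≤ -(1 / 2) * Δ (fun y : Space => ψ ‖y‖) x
        + (S.k ^ 2 / 2 - (2 - 2 * S.lam) / ‖x‖ - C₁ / ‖x‖ ^ 2) * ψ ‖x‖ := h
      have h3 := mul_le_mul_of_nonneg_left h' hΛK.le
      have h4 : K * (S.A x * (‖x‖ ^ 2)⁻¹) ≤ Λ * K * (S.A x * (‖x‖ ^ 2)⁻¹) := by
        apply mul_le_mul_of_nonneg_right _ hA.le
        nlinarith
      linarith)
    (by
      intro x hx
      refine (hbd x hx).trans ?_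
      have h1 := ch1_A_lower S hR₀1
      have h2 := (hfac x hx.ge).1
      rw [hx] at h2
      show K ≤ (Λ * K) * ψ ‖x‖
      rw [hx, hψ]
      have hA : Real.exp (-(1.1 * R₀)) * R₀⁻¹ ≤ radialA S.k (betaOf S.lam S.k) R₀ := h1
      have hE : Real.exp (1.1 * R₀) * Real.exp (-(1.1 * R₀)) = 1 := by
        rw [← Real.exp_add]; simp
      have h3 : 1 / (2 * Real.exp (1.1 * R₀) * R₀) ≤
          radialA S.k (betaOf S.lam S.k) R₀ * (1 - M / R₀) := by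
        have e : 1 / (2 * Real.exp (1.1 * R₀) * R₀) = (Real.exp (-(1.1 * R₀)) * R₀⁻¹) * (1 / 2) := by
          rw [Real.exp_neg]; field_simp
        rw [e]
        exact mul_le_mul hA h2 (by norm_num) (le_trans (by positivity) hA)
      have h4 : 0 < 2 * Real.exp (1.1 * R₀) * R₀ := by positivity
      have h5 : 1 ≤ Λ * (radialA S.k (betaOf S.lam S.k) R₀ * (1 - M / R₀)) := by
        have h6 : 0 ≤ radialA S.k (betaOf S.lam S.k) R₀ * (1 - M / R₀) :=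
          le_trans (by positivity) h3
        calc (1 : ℝ) = (2 * Real.exp (1.1 * R₀) * R₀) * (1 / (2 * Real.exp (1.1 * R₀) * R₀)) := by
              field_simp
          _ ≤ (2 * Real.exp (1.1 * R₀) * R₀) * (radialA S.k (betaOf S.lam S.k) R₀ * (1 - M / R₀)) :=
              mul_le_mul_of_nonneg_left h3 h4.le
          _ ≤ Λ * (radialA S.k (betaOf S.lam S.k) R₀ * (1 - M / R₀)) :=
              mul_le_mul_of_nonneg_right (by rw [hΛ]; linarith) h6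
      nlinarith)
  intro x hx
  refine (main x hx).trans ?_
  have hr : 0 < ‖x‖ := by linarith
  have hA : 0 < S.A x := radialA_pos _ _ hr
  have h2 := (hfac x hx).2
  show (Λ * K) * (S.A x * (1 - M / ‖x‖)) ≤ Λ * K * S.A x
  have : S.A x * (1 - M / ‖x‖) ≤ S.A x * 1 := mul_le_mul_of_nonneg_left h2 hA.le
  nlinarith

/-- **comparison for the `Q`-part.**  `R₂ = max (κ.R₁ + 1)` (radius of `supersol_Q κ.c _ 2`).  Apply
`comparison_principle` to `x ↦ Q (H x) = Qc (H x)` (`Δ (Qc ∘ H) = Qc (Δ H)`), `q = c + k²/2 + u`,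
`s = (C₀ + 1) K A r⁻²` (`ch1_ineq_Q`, `‖H‖ ≤ K A`), `Φ = p₀ A r⁻²` (`supersol_Q` with `p₂ = p₄ = 0`),
`p₀ = K max (4 (C₀+1)/(3c)) (R₀²)`; boundary: `‖QH‖ ≤ ‖H‖ ≤ K A(R₀) ≤ p₀ A(R₀) R₀⁻²`. -/
theorem ch1_comp_Q (κ : ChannelConsts) : ∃ R₂ : ℝ, κ.R₁ + 1 ≤ R₂ ∧ ∀ R₀ : ℝ, R₂ ≤ R₀ →
    ∃ Λ : ℝ, 0 ≤ Λ ∧ ∀ (S : ChannelCore 𝒦 κ) (H Sr : Space → 𝒦) (K : ℝ), 0 < K →
      ContDiffOn ℝ ∞ H (Ext κ.R₁) → Tendsto (fun x => ‖H x‖) (cocompact Space) (𝓝 0) →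
      S.ChanEq κ.R₁ H Sr →
      (∀ x ∈ Ext R₀, ‖Sr x‖ ≤ K * (S.A x * (‖x‖ ^ 2)⁻¹)) →
      (∀ x, R₀ ≤ ‖x‖ → ‖H x‖ ≤ K * S.A x) →
      ∀ x, R₀ ≤ ‖x‖ → ‖S.Q (H x)‖ ≤ Λ * K * (S.A x * (‖x‖ ^ 2)⁻¹) := by
  obtain ⟨C₀, hC₀, hineq⟩ := ch1_ineq_Q (𝒦 := 𝒦) κ
  obtain ⟨Rs, hRs, hsup⟩ := supersol_Q κ.c κ.c_pos 2
  have hR1 : 0 < κ.R₁ := lt_of_lt_of_le (by unfold bigD; positivity) κ.R₁_ge
  have hc := κ.c_pos
  refine ⟨max Rs (κ.R₁ + 1), le_max_right _ _, ?_⟩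
  intro R₀ hR₀
  have hRs0 : Rs ≤ R₀ := (le_max_left _ _).trans hR₀
  have hR10 : κ.R₁ + 1 ≤ R₀ := (le_max_right _ _).trans hR₀
  have hR₀pos : 0 < R₀ := by linarith
  set Λ : ℝ := 4 * (C₀ + 1) / (3 * κ.c) + R₀ ^ 2 with hΛ
  have hΛ0 : 0 < Λ := by positivity
  refine ⟨Λ, hΛ0.le, ?_⟩
  intro S H Sr K hK hH hdec hEq hSr hHb
  have hΛK : 0 < Λ * K := by positivity
  set ψ : ℝ → ℝ := fun r => radialA S.k (betaOf S.lam S.k) r * (r ^ 2)⁻¹ * (Λ * K) with hψ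
  have hψs : ContDiffOn ℝ ∞ ψ (Set.Ioi 0) :=
    ((contDiffOn_radialA _ _).mul ((contDiffOn_id.pow 2).inv
      (fun r hr => pow_ne_zero 2 (ne_of_gt hr)))).mul contDiffOn_const
  have hΦs : ContDiffOn ℝ ∞ (fun y : Space => ψ ‖y‖) (Ext 0) := contDiffOn_radial le_rfl hψs
  have hsub0 : {x : Space | R₀ ≤ ‖x‖} ⊆ Ext 0 := fun x hx => lt_of_lt_of_le hR₀pos hx
  have hsub1 : {x : Space | R₀ ≤ ‖x‖} ⊆ Ext κ.R₁ := fun x hx =>
    lt_of_lt_of_le (by linarith) (show R₀ ≤ ‖x‖ from hx)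
  have hQs := S.contDiffOn_Q hH
  have hdecQ : Tendsto (fun x => ‖S.Q (H x)‖) (cocompact Space) (𝓝 0) :=
    squeeze_zero (fun _ => norm_nonneg _) (fun x => S.norm_Q_le (H x)) hdec
  have hΦeq : (fun y : Space => radialA S.k (betaOf S.lam S.k) ‖y‖ * (‖y‖ ^ 2)⁻¹ *
      (Λ * K + 0 * y 2 ^ 2 + 0 * y 2 ^ 4)) = fun y : Space => ψ ‖y‖ := by
    funext y; simp [hψ]
  have main := comparison_principle (H := fun x => S.Q (H x)) (Φ := fun y : Space => ψ ‖y‖)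
    (q := fun x => κ.c + S.k ^ 2 / 2 + uD x)
    (s := fun x => (C₀ + 1) * K * (S.A x * (‖x‖ ^ 2)⁻¹)) (R₀ := R₀)
    ((hQs.mono (Ext_mono (by linarith))).of_le (WithTop.coe_le_coe.2 le_top))
    (hQs.continuousOn.mono hsub1) hdecQ
    ((hΦs.mono (Ext_mono hR₀pos.le)).of_le (WithTop.coe_le_coe.2 le_top))
    (hΦs.continuousOn.mono hsub0)
    (by
      intro x hx
      have hr : 0 < ‖x‖ := by linarith
      have hA := radialA_pos S.k (betaOf S.lam S.k) hr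
      show 0 < radialA S.k (betaOf S.lam S.k) ‖x‖ * (‖x‖ ^ 2)⁻¹ * (Λ * K)
      positivity)
    (fun x hx => (hsup S.k S.lam (Λ * K) 0 0 S.k_lo.le S.k_hi.le S.lam_nonneg S.lam_le hΛK.le
      le_rfl le_rfl x (Ext_mono hRs0 hx)).1)
    (by
      intro x hx
      have hx1 : x ∈ Ext κ.R₁ := Ext_mono (by linarith) hx
      have hr : 0 < ‖x‖ := lt_trans hR₀pos hx
      have h := hineq S x hx1 (H x) (Δ H x) (Sr x) (hEq x hx1).1 (hEq x hx1).2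
      have hr2 : (0 : ℝ) < (‖x‖ ^ 2)⁻¹ := by positivity
      have h1 : C₀ * (‖x‖ ^ 2)⁻¹ * ‖H x‖ + ‖Sr x‖ ≤ (C₀ + 1) * K * (S.A x * (‖x‖ ^ 2)⁻¹) := by
        have a := mul_le_mul_of_nonneg_left (hHb x (le_of_lt hx)) (mul_nonneg hC₀ hr2.le)
        have b := hSr x hx
        calc C₀ * (‖x‖ ^ 2)⁻¹ * ‖H x‖ + ‖Sr x‖
            ≤ C₀ * (‖x‖ ^ 2)⁻¹ * (K * S.A x) + K * (S.A x * (‖x‖ ^ 2)⁻¹) := add_le_add a b
          _ = (C₀ + 1) * K * (S.A x * (‖x‖ ^ 2)⁻¹) := by ring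
      have h2 := mul_le_mul_of_nonneg_right h1 (norm_nonneg (S.Q (H x)))
      show (κ.c + S.k ^ 2 / 2 + uD x) * ‖S.Q (H x)‖ ^ 2
        - (C₀ + 1) * K * (S.A x * (‖x‖ ^ 2)⁻¹) * ‖S.Q (H x)‖
        ≤ (1 / 2) * (⟪S.Q (H x), Δ (fun y => S.Q (H y)) x⟫_ℂ).re
      rw [S.laplacian_Q (contDiffAt_two_of_mem_Ext hH hx1)]
      linarith)
    (by
      intro x hx
      have hr : 0 < ‖x‖ := lt_trans hR₀pos hx
      have h := (hsup S.k S.lam (Λ * K) 0 0 S.k_lo.le S.k_hi.le S.lam_nonneg S.lam_le hΛK.le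
        le_rfl le_rfl x (Ext_mono hRs0 hx)).2
      rw [hΦeq] at h
      simp only [zero_mul, add_zero, mul_zero, sub_zero] at h
      have hA : 0 < S.A x * (‖x‖ ^ 2)⁻¹ := by
        have h2 : 0 < S.A x := radialA_pos S.k S.β hr
        positivity
      have h' : S.A x * (‖x‖ ^ 2)⁻¹ * (3 * κ.c / 4 * (Λ * K)) ≤
          -(1 / 2) * Δ (fun y : Space => ψ ‖y‖) x + (κ.c + S.k ^ 2 / 2 + uD x) * ψ ‖x‖ := h
      refine le_trans ?_ h'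
      have h3 : (C₀ + 1) * K ≤ 3 * κ.c / 4 * (Λ * K) := by
        have e : 3 * κ.c / 4 * (Λ * K) = (C₀ + 1) * K + 3 * κ.c / 4 * R₀ ^ 2 * K := by
          rw [hΛ]; field_simp
        rw [e]
        have : 0 ≤ 3 * κ.c / 4 * R₀ ^ 2 * K := by positivity
        linarith
      calc (C₀ + 1) * K * (S.A x * (‖x‖ ^ 2)⁻¹) ≤ 3 * κ.c / 4 * (Λ * K) * (S.A x * (‖x‖ ^ 2)⁻¹) :=
            mul_le_mul_of_nonneg_right h3 hA.le
        _ = S.A x * (‖x‖ ^ 2)⁻¹ * (3 * κ.c / 4 * (Λ * K)) := by ring)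
    (by
      intro x hx
      refine (S.norm_Q_le _).trans ((hHb x hx.ge).trans ?_)
      have hr : 0 < ‖x‖ := by rw [hx]; exact hR₀pos
      have hA : 0 < S.A x := radialA_pos S.k S.β hr
      show K * S.A x ≤ S.A x * (‖x‖ ^ 2)⁻¹ * (Λ * K)
      rw [hx]
      have h1 : 1 ≤ (R₀ ^ 2)⁻¹ * Λ := by
        rw [hΛ, mul_add, inv_mul_cancel₀ (by positivity)]
        have : 0 ≤ (R₀ ^ 2)⁻¹ * (4 * (C₀ + 1) / (3 * κ.c)) := by positivity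
        linarith
      calc K * S.A x = K * S.A x * 1 := (mul_one _).symm
        _ ≤ K * S.A x * ((R₀ ^ 2)⁻¹ * Λ) := mul_le_mul_of_nonneg_left h1 (by positivity)
        _ = S.A x * (R₀ ^ 2)⁻¹ * (Λ * K) := by ring)
  intro x hx
  refine (main x hx).trans (le_of_eq ?_)
  show S.A x * (‖x‖ ^ 2)⁻¹ * (Λ * K) = Λ * K * (S.A x * (‖x‖ ^ 2)⁻¹)
  ring

theorem ChannelCore.A_pos {κ : ChannelConsts} (S : ChannelCore 𝒦 κ) {x : Space} (hx : x ≠ 0) :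
    0 < S.A x := radialA_pos _ _ (norm_pos_iff.2 hx)

/-- **the basic estimate.** -/
theorem ch1_basic (κ : ChannelConsts) : ∃ R₀ Λ : ℝ, κ.R₁ + 1 ≤ R₀ ∧ 0 ≤ Λ ∧
    ∀ (S : ChannelCore 𝒦 κ) (H Sr : Space → 𝒦) (K : ℝ), 0 < K →
      ContDiffOn ℝ ∞ H (Ext κ.R₁) → Tendsto (fun x => ‖H x‖) (cocompact Space) (𝓝 0) →
      S.ChanEq κ.R₁ H Sr →
      (∀ x ∈ Ext R₀, ‖Sr x‖ ≤ K * (S.A x * (‖x‖ ^ 2)⁻¹)) →
      (∀ x, ‖x‖ = R₀ → ‖H x‖ ≤ K) →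
      ∀ x, R₀ ≤ ‖x‖ → ‖H x‖ ≤ Λ * K * S.A x ∧ ‖S.Q (H x)‖ ≤ Λ * K * (S.A x * (‖x‖ ^ 2)⁻¹) := by
  obtain ⟨Ra, hRa, ha⟩ := ch1_comp_full (𝒦 := 𝒦) κ
  obtain ⟨Rb, hRb, hb⟩ := ch1_comp_Q (𝒦 := 𝒦) κ
  obtain ⟨Λa, hΛa, ha⟩ := ha (max Ra Rb) (le_max_left _ _)
  obtain ⟨Λb, hΛb, hb⟩ := hb (max Ra Rb) (le_max_right _ _)
  have hR1 : 0 < κ.R₁ := lt_of_lt_of_le (by unfold bigD; positivity) κ.R₁_ge
  refine ⟨max Ra Rb, (Λa + 1) * (Λb + 1), hRa.trans (le_max_left _ _), by positivity, ?_⟩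
  intro S H Sr K hK hH hdec hEq hSr hbd
  have h1 := ha S H Sr K hK hH hdec hEq hSr hbd
  have hApos : ∀ x : Space, max Ra Rb ≤ ‖x‖ → 0 < S.A x := fun x hx => S.A_pos (by
    intro h0
    rw [h0, norm_zero] at hx
    have := hRa.trans ((le_max_left Ra Rb).trans hx)
    linarith)
  have hK' : 0 < (Λa + 1) * K := by positivity
  have h2 := hb S H Sr ((Λa + 1) * K) hK' hH hdec hEq
    (fun x hx => (hSr x hx).trans (by
      have hx' : max Ra Rb ≤ ‖x‖ := le_of_lt hx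
      have : 0 ≤ S.A x * (‖x‖ ^ 2)⁻¹ := by have := hApos x hx'; positivity
      have hk : K ≤ (Λa + 1) * K := by nlinarith
      exact mul_le_mul_of_nonneg_right hk this))
    (fun x hx => (h1 x hx).trans (by
      have := hApos x hx
      have hk : Λa * K ≤ (Λa + 1) * K := by nlinarith
      exact mul_le_mul_of_nonneg_right hk this.le))
  intro x hx
  have hA := hApos x hx
  refine ⟨(h1 x hx).trans ?_, (h2 x hx).trans ?_⟩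
  · have hk : Λa * K ≤ (Λa + 1) * (Λb + 1) * K := by
      nlinarith [mul_nonneg hΛa hΛb, mul_nonneg hΛa hK.le,
        mul_nonneg hΛb hK.le, mul_nonneg (mul_nonneg hΛa hΛb) hK.le]
    exact mul_le_mul_of_nonneg_right hk hA.le
  · have h0 : 0 ≤ S.A x * (‖x‖ ^ 2)⁻¹ := by positivity
    have hk : Λb * ((Λa + 1) * K) ≤ (Λa + 1) * (Λb + 1) * K := by
      nlinarith [mul_nonneg hΛa hΛb, mul_nonneg hΛa hK.le,
        mul_nonneg hΛb hK.le, mul_nonneg (mul_nonneg hΛa hΛb) hK.le]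
    exact mul_le_mul_of_nonneg_right hk h0

end Claimed.Open.R278
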