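import Claimed.Open.R278.CH1Words

/-!
# Result 278, package CH1, file 2: the differentiated channel system

Sub-captain helper162.  PAPER-FREE.

* `ChannelCore.ChanEq R H Sr` : `H` solves the channel system on `Ext R` with residual `Sr`.
* `ChannelCore.src w` : the residual of the system satisfied by `𝔇_w F`;
  `chanEq_word : ChanEq κ.R₁ (𝔇_w F) (src w)`.
* `src_eq` : `src w = 𝔇_w Res - ∑' (𝔇_u u) 𝔇_v F - λ ∑' (𝔇_u W) 𝔇_v F` (sums over the proper splits).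
* `ch1_source_bound` : `‖src w‖ ≤ Γ (K+1) A r⁻²` if the shorter words satisfy the leading bounds with `K`.

Leaves `CH1-E1`, `CH1-E2`, `CH1-E3`: PROVED, no `sorry` in this file.
-/

open MeasureTheory Filter
open scoped ContDiff InnerProductSpace ComplexConjugate ENNReal Topology Laplacian

noncomputable section

namespace Claimed.Open.R278

variable {𝒦 : Type} [NormedAddCommGroup 𝒦] [InnerProductSpace ℂ 𝒦] [CompleteSpace 𝒦]

namespace ChannelCore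
variable {κ : ChannelConsts} (S : ChannelCore 𝒦 κ)

/-! ## the projection `Q` (leaf CH1-E1) -/

/-- `Q` as a continuous linear map. -/
def Qc : 𝒦 →L[ℂ] 𝒦 := ContinuousLinearMap.id ℂ 𝒦 - (innerSL ℂ S.φ).smulRight S.φ

theorem Qc_apply (v : 𝒦) : S.Qc v = S.Q v := by
  simp [Qc, Q]

theorem inner_φ_φ : ⟪S.φ, S.φ⟫_ℂ = 1 := by
  rw [inner_self_eq_norm_sq_to_K, S.φ_norm]; simp

theorem inner_φ_Q (v : 𝒦) : ⟪S.φ, S.Q v⟫_ℂ = 0 := by
  unfold Q
  rw [inner_sub_right, inner_smul_right, S.inner_φ_φ, mul_one, sub_self]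

theorem Q_add_eq (v : 𝒦) : v = ⟪S.φ, v⟫_ℂ • S.φ + S.Q v := by
  unfold Q; abel

/-- Pythagoras: `‖v‖² = |⟪φ,v⟫|² + ‖Qv‖²`. -/
theorem norm_sq_eq (v : 𝒦) : ‖v‖ ^ 2 = ‖⟪S.φ, v⟫_ℂ‖ ^ 2 + ‖S.Q v‖ ^ 2 := by
  have h : ⟪⟪S.φ, v⟫_ℂ • S.φ, S.Q v⟫_ℂ = 0 := by
    rw [inner_smul_left, S.inner_φ_Q, mul_zero]
  have h2 := norm_add_sq_eq_norm_sq_add_norm_sq_of_inner_eq_zero (𝕜 := ℂ) _ _ h
  rw [← S.Q_add_eq v, norm_smul, S.φ_norm, mul_one] at h2
  nlinarith [h2]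

theorem norm_Q_le (v : 𝒦) : ‖S.Q v‖ ≤ ‖v‖ := by
  have h := S.norm_sq_eq v
  have h1 := sq_nonneg ‖⟪S.φ, v⟫_ℂ‖
  exact le_of_sq_le_sq (by linarith) (norm_nonneg v)

theorem norm_inner_φ_le (v : 𝒦) : ‖⟪S.φ, v⟫_ℂ‖ ≤ ‖v‖ := by
  have := norm_inner_le_norm (𝕜 := ℂ) S.φ v
  rwa [S.φ_norm, one_mul] at this

/-! ## the equation (leaf CH1-E1) -/

/-- `H` solves the channel system on `Ext R` with residual `Sr`. -/
def ChanEq (R : ℝ) (H Sr : Space → 𝒦) : Prop :=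
  ∀ x ∈ Ext R, ⟪S.φ, chanG S.lam S.k S.W H x + Sr x⟫_ℂ = 0 ∧
    S.Q (H x) = S.Rr (chanG S.lam S.k S.W H x + Sr x)

/-- the residual of the system satisfied by `𝔇_w F`. -/
def src (w : List (Fin 3 ⊕ Fin 3)) (x : Space) : 𝒦 :=
  dword w (fun y => chanG S.lam S.k S.W S.F y + S.Res y) x - chanG S.lam S.k S.W (dword w S.F) x

theorem chanEq_self : S.ChanEq κ.R₁ S.F S.Res := fun x hx => ⟨S.eqP x hx, S.eqQ x hx⟩

theorem contDiffOn_W_apply {H : Space → 𝒦} (hH : ContDiffOn ℝ ∞ H (Ext κ.R₁)) :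
    ContDiffOn ℝ ∞ (fun y => S.W y (H y)) (Ext κ.R₁) := by
  have h : ContDiffOn ℝ ∞ (fun y => (S.W y).restrictScalars ℝ) (Ext κ.R₁) :=
    (ContinuousLinearMap.restrictScalarsL ℂ 𝒦 𝒦 ℝ ℝ).contDiff.comp_contDiffOn S.W_bdd.1
  exact h.clm_apply hH

theorem contDiffOn_chanG {H : Space → 𝒦} (hH : ContDiffOn ℝ ∞ H (Ext κ.R₁)) :
    ContDiffOn ℝ ∞ (chanG S.lam S.k S.W H) (Ext κ.R₁) := by
  have hu : ContDiffOn ℝ ∞ uD (Ext κ.R₁) := ch1_contDiffOn_uD.mono (Ext_mono κ.R₁_ge)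
  have hΔ := contDiffOn_laplacian hH
  unfold chanG
  exact ((hΔ.const_smul _).sub ((contDiffOn_const.add hu).smul hH)).sub
    ((S.contDiffOn_W_apply hH).const_smul _)

/-- `chanG F + Res` is smooth. -/
theorem contDiffOn_Gtot :
    ContDiffOn ℝ ∞ (fun y => chanG S.lam S.k S.W S.F y + S.Res y) (Ext κ.R₁) :=
  (S.contDiffOn_chanG S.F_bdd.1).add S.Res_bdd.1

omit [CompleteSpace 𝒦] in
theorem _root_.Claimed.Open.R278.ch1_dword_zero {V : Type*} [NormedAddCommGroup V] [NormedSpace ℝ V]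
    (w : List (Fin 3 ⊕ Fin 3)) : dword w (fun _ : Space => (0 : V)) = fun _ => 0 := by
  induction w with
  | nil => rfl
  | cons a w ih =>
    rw [dword_cons, ih]
    funext x
    simp [dfield]

/-- **the differentiated system.**  Apply `𝔇_w` to `eqP`, `eqQ`: `dword_clmC` for `innerSL ℂ φ`, `Rr`, `Qc`;
`dword_congr` (both sides agree on the open set `Ext κ.R₁`); `𝔇_w 0 = 0`; by definition
`chanG (𝔇_w F) + src w = 𝔇_w (chanG F + Res)`. -/
theorem chanEq_word (w : List (Fin 3 ⊕ Fin 3)) : S.ChanEq κ.R₁ (dword w S.F) (S.src w) := by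
  intro x hx
  have hG := S.contDiffOn_Gtot
  have e : chanG S.lam S.k S.W (dword w S.F) x + S.src w x =
      dword w (fun y => chanG S.lam S.k S.W S.F y + S.Res y) x := by
    unfold src; abel
  rw [e]
  constructor
  · have h1 := dword_clmC hG (innerSL ℂ S.φ) w x hx
    have h2 : dword w (fun y => innerSL ℂ S.φ (chanG S.lam S.k S.W S.F y + S.Res y)) x =
        dword w (fun _ => (0 : ℂ)) x :=
      dword_congr (fun y hy => by rw [innerSL_apply_apply]; exact S.eqP y hy) w x hx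
    rw [ch1_dword_zero] at h2
    rw [h2] at h1
    simpa using h1.symm
  · have h1 := dword_clmC hG S.Rr w x hx
    have h2 := dword_clmC S.F_bdd.1 S.Qc w x hx
    have h3 : dword w (fun y => S.Qc (S.F y)) x =
        dword w (fun y => S.Rr (chanG S.lam S.k S.W S.F y + S.Res y)) x :=
      dword_congr (fun y hy => by rw [S.Qc_apply]; exact S.eqQ y hy) w x hx
    rw [← S.Qc_apply, ← h2, h3, h1]

/-! ## the source formula (leaf CH1-E2) -/

theorem _root_.Claimed.Open.R278.ch1_dword_const_smul {V : Type*} [NormedAddCommGroup V] [NormedSpace ℝ V] {R : ℝ}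
    {H : Space → V} (hH : ContDiffOn ℝ ∞ H (Ext R)) (c : ℝ) (w : List (Fin 3 ⊕ Fin 3)) :
    ∀ x ∈ Ext R, dword w (fun y => c • H y) x = c • dword w H x :=
  dword_clm hH (c • ContinuousLinearMap.id ℝ V) w

theorem _root_.Claimed.Open.R278.ch1_sum_wsplits {V : Type*} [AddCommMonoid V] (w : List (Fin 3 ⊕ Fin 3))
    (t : List (Fin 3 ⊕ Fin 3) × List (Fin 3 ⊕ Fin 3) → V) :
    ((wsplits w).map t).sum = ((wsplits' w).map t).sum + t ([], w) := by
  rw [wsplits_eq, List.map_append, List.sum_append]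
  simp

/-- `laplacian_dword`, `dword_add/sub/clm` (scalar multiples are continuous linear maps),
`dword_smul_sum`, `dword_applyC_sum`, `wsplits_eq` (the split `([], w)` gives `u 𝔇_w F`, `W 𝔇_w F`, which
cancel against `chanG (𝔇_w F)`). -/
theorem src_eq (w : List (Fin 3 ⊕ Fin 3)) : ∀ x ∈ Ext κ.R₁,
    S.src w x = dword w S.Res x
      - ((wsplits' w).map fun p => dword p.1 uD x • dword p.2 S.F x).sum
      - S.lam • ((wsplits' w).map fun p => dword p.1 S.W x (dword p.2 S.F x)).sum := by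
  intro x hx
  have hF := S.F_bdd.1
  have hW := S.W_bdd.1
  have hRes := S.Res_bdd.1
  have hu : ContDiffOn ℝ ∞ uD (Ext κ.R₁) := ch1_contDiffOn_uD.mono (Ext_mono κ.R₁_ge)
  have hΔ := contDiffOn_laplacian hF
  have hWF := S.contDiffOn_W_apply hF
  have h1 : ContDiffOn ℝ ∞ (fun y => (1 / 2 : ℝ) • Δ S.F y) (Ext κ.R₁) := hΔ.const_smul _
  have h2 : ContDiffOn ℝ ∞ (fun y => (S.k ^ 2 / 2) • S.F y) (Ext κ.R₁) := hF.const_smul _
  have h3 : ContDiffOn ℝ ∞ (fun y => uD y • S.F y) (Ext κ.R₁) := hu.smul hF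
  have h4 : ContDiffOn ℝ ∞ (fun y => S.lam • S.W y (S.F y)) (Ext κ.R₁) := hWF.const_smul _
  have e : (fun y => chanG S.lam S.k S.W S.F y + S.Res y) = fun y =>
      ((((1 / 2 : ℝ) • Δ S.F y - (S.k ^ 2 / 2) • S.F y) - uD y • S.F y)
        - S.lam • S.W y (S.F y)) + S.Res y := by
    funext y
    unfold chanG
    rw [add_smul]
    abel
  unfold src
  rw [e, dword_add (((h1.sub h2).sub h3).sub h4) hRes w x hx,
    dword_sub ((h1.sub h2).sub h3) h4 w x hx, dword_sub (h1.sub h2) h3 w x hx,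
    dword_sub h1 h2 w x hx, ch1_dword_const_smul hΔ _ w x hx, ch1_dword_const_smul hF _ w x hx,
    ch1_dword_const_smul hWF _ w x hx, dword_smul_sum hu hF w x hx,
    dword_applyC_sum hW hF w x hx, ch1_sum_wsplits, ch1_sum_wsplits,
    ← laplacian_dword hF w x hx]
  unfold chanG
  simp only [dword_nil]
  module

end ChannelCore

/-! ## `Q` commutes with words and with the Laplacian -/

/-- words commute with `Q`. -/
theorem ChannelCore.dword_Q {κ : ChannelConsts} (S : ChannelCore 𝒦 κ) {R : ℝ} {H : Space → 𝒦}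
    (hH : ContDiffOn ℝ ∞ H (Ext R)) (w : List (Fin 3 ⊕ Fin 3)) :
    ∀ x ∈ Ext R, dword w (fun y => S.Q (H y)) x = S.Q (dword w H x) := by
  intro x hx
  have e : (fun y => S.Q (H y)) = fun y => S.Qc (H y) := by
    funext y; rw [S.Qc_apply]
  rw [e, dword_clmC hH S.Qc w x hx, S.Qc_apply]

theorem ChannelCore.contDiffOn_Q {κ : ChannelConsts} (S : ChannelCore 𝒦 κ) {R : ℝ} {H : Space → 𝒦}
    (hH : ContDiffOn ℝ ∞ H (Ext R)) : ContDiffOn ℝ ∞ (fun y => S.Q (H y)) (Ext R) := by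
  have e : (fun y => S.Q (H y)) = fun y => (S.Qc.restrictScalars ℝ) (H y) := by
    funext y; rw [ContinuousLinearMap.coe_restrictScalars', S.Qc_apply]
  rw [e]
  exact (S.Qc.restrictScalars ℝ).contDiff.comp_contDiffOn hH

theorem ChannelCore.laplacian_Q {κ : ChannelConsts} (S : ChannelCore 𝒦 κ) {H : Space → 𝒦} {x : Space}
    (hH : ContDiffAt ℝ 2 H x) : Δ (fun y => S.Q (H y)) x = S.Q (Δ H x) := by
  have e : (fun y => S.Q (H y)) = (S.Qc.restrictScalars ℝ) ∘ H := by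
    funext y; rw [Function.comp_apply, ContinuousLinearMap.coe_restrictScalars', S.Qc_apply]
  rw [e, hH.laplacian_CLM_comp_left, Function.comp_apply, ContinuousLinearMap.coe_restrictScalars',
    S.Qc_apply]

/-! ## the source bound (leaf CH1-E3) -/

/-- nonempty words of `W` applied to `φ` are `O(r⁻²)`:
`(𝔇_u W) φ = 𝔇_u (W φ - (2/r) φ) + (𝔇_u (2/r)) φ` (`dword_clm` for the evaluation at `φ`), `Wφ_bdd`,
`ch1_uD_word`. -/
theorem ch1_Wφ_word (κ : ChannelConsts) : ∃ C : ℕ → ℝ, (∀ n, 0 ≤ C n) ∧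
    ∀ (S : ChannelCore 𝒦 κ) (u : List (Fin 3 ⊕ Fin 3)), u ≠ [] → ∀ x ∈ Ext κ.R₁,
      ‖dword u S.W x S.φ‖ ≤ C u.length * (‖x‖ ^ 2)⁻¹ := by
  obtain ⟨Cu, hCu, -, hu⟩ := ch1_uD_word
  have hR0 : (0 : ℝ) ≤ κ.R₁ := le_trans (by unfold bigD; positivity) κ.R₁_ge
  refine ⟨fun n => |κ.C n| + Cu n, fun n => add_nonneg (abs_nonneg _) (hCu n), ?_⟩
  intro S u hune x hx
  have hW := S.W_bdd.1
  have h2r : ContDiffOn ℝ ∞ (fun y : Space => 2 / ‖y‖) (Ext κ.R₁) :=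
    contDiffOn_two_div_norm.mono (Ext_mono hR0)
  have h2φ : ContDiffOn ℝ ∞ (fun y : Space => (2 / ‖y‖) • S.φ) (Ext κ.R₁) :=
    h2r.smul contDiffOn_const
  have e1 := dword_clmC hW (ContinuousLinearMap.apply ℂ 𝒦 S.φ) u x hx
  simp only [ContinuousLinearMap.apply_apply] at e1
  have e2 : (fun y => S.W y S.φ) = fun y => (S.W y S.φ - (2 / ‖y‖) • S.φ) + (2 / ‖y‖) • S.φ := by
    funext y; abel
  have e3 := dword_clm h2r ((ContinuousLinearMap.id ℝ ℝ).smulRight S.φ) u x hx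
  simp only [ContinuousLinearMap.smulRight_apply, ContinuousLinearMap.id_apply] at e3
  rw [← e1, e2, dword_add S.Wφ_bdd.1 h2φ u x hx, e3]
  have hr2 : (0 : ℝ) ≤ (‖x‖ ^ 2)⁻¹ := by positivity
  have b1 := S.Wφ_bdd.2 u x hx
  have b2 := (hu u hune x (Ext_mono κ.R₁_ge hx)).2
  calc ‖dword u (fun y => S.W y S.φ - (2 / ‖y‖) • S.φ) x + dword u (fun y : Space => 2 / ‖y‖) x • S.φ‖
      ≤ ‖dword u (fun y => S.W y S.φ - (2 / ‖y‖) • S.φ) x‖
        + ‖dword u (fun y : Space => 2 / ‖y‖) x • S.φ‖ := norm_add_le _ _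
    _ ≤ |κ.C u.length| * (‖x‖ ^ 2)⁻¹ + Cu u.length * (‖x‖ ^ 2)⁻¹ := by
        refine add_le_add (b1.trans (mul_le_mul_of_nonneg_right (le_abs_self _) hr2)) ?_
        rw [norm_smul, S.φ_norm, mul_one, Real.norm_eq_abs]
        exact b2
    _ = (|κ.C u.length| + Cu u.length) * (‖x‖ ^ 2)⁻¹ := by ring

/-- **the source bound.**  By `src_eq`: `‖𝔇_w Res‖ ≤ |κ.C n| e^{-σ r} ≤ C A r⁻²` (`exp_le_radialA κ.μ _ 0 2`);
`‖(𝔇_u u) 𝔇_v F‖ ≤ C r⁻² K A`; `𝔇_v F = ⟪φ, 𝔇_v F⟫ φ + Q 𝔇_v F`, `‖(𝔇_u W) φ‖ ≤ C r⁻²` (`ch1_Wφ_word`),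
`‖(𝔇_u W) Q 𝔇_v F‖ ≤ |κ.C| r⁻¹ K A r⁻²`; at most `2^n` terms (`length_wsplits'_le`,
`length_lt_of_mem_wsplits'`); use monotone envelopes `cumC`. -/
theorem ch1_source_bound (κ : ChannelConsts) (n : ℕ) : ∃ Γ : ℝ, 0 ≤ Γ ∧
    ∀ (S : ChannelCore 𝒦 κ) (R K : ℝ), κ.R₁ ≤ R → 0 ≤ K →
      (∀ v : List (Fin 3 ⊕ Fin 3), v.length < n → ∀ x ∈ Ext R,
        ‖dword v S.F x‖ ≤ K * S.A x ∧ ‖S.Q (dword v S.F x)‖ ≤ K * (S.A x * (‖x‖ ^ 2)⁻¹)) →
      ∀ w : List (Fin 3 ⊕ Fin 3), w.length ≤ n → ∀ x ∈ Ext R,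
        ‖S.src w x‖ ≤ Γ * (K + 1) * (S.A x * (‖x‖ ^ 2)⁻¹) := by
  obtain ⟨Cu, hCu, -, hu⟩ := ch1_uD_word
  obtain ⟨Cw, hCw, hw⟩ := ch1_Wφ_word (𝒦 := 𝒦) κ
  obtain ⟨Ce, hCe, hexp⟩ := exp_le_radialA κ.μ κ.μ_pos 0 2
  have hD : (1 : ℝ) ≤ bigD := by unfold bigD; norm_num
  have hR1 : 2 ≤ κ.R₁ := by have := κ.R₁_ge; linarith
  set cu := cumC Cu n with hcu
  set cw := cumC Cw n with hcw
  set cκ := cumC κ.C n with hcκ
  have hcu0 : 0 ≤ cu := cumC_nonneg _ _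
  have hcw0 : 0 ≤ cw := cumC_nonneg _ _
  have hcκ0 : 0 ≤ cκ := cumC_nonneg _ _
  refine ⟨cκ * Ce + 2 ^ n * cu + 2 ^ n * (cw + cκ), by positivity, ?_⟩
  intro S R K hR hK hyp w hwn x hx
  have hx1 : x ∈ Ext κ.R₁ := Ext_mono hR hx
  have hxr : κ.R₁ < ‖x‖ := hx1
  have hr1 : 1 ≤ ‖x‖ := by linarith
  have hr0 : 0 < ‖x‖ := by linarith
  have hA : 0 < S.A x := radialA_pos _ _ hr0
  have hr2 : (0 : ℝ) < (‖x‖ ^ 2)⁻¹ := by positivity
  set a := S.A x * (‖x‖ ^ 2)⁻¹ with ha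
  have ha0 : 0 < a := by positivity
  have hlen : ((wsplits' w).length : ℝ) ≤ 2 ^ n := by
    have h1 : (wsplits' w).length ≤ 2 ^ n :=
      (length_wsplits'_le w).trans (Nat.pow_le_pow_right (by norm_num) hwn)
    exact_mod_cast h1
  -- the residual
  have t1 : ‖dword w S.Res x‖ ≤ cκ * Ce * a := by
    have b := S.Res_bdd.2 w x hx1
    have e := hexp S.k S.lam κ.σ ‖x‖ S.k_lo.le S.k_hi.le S.lam_nonneg S.lam_le S.sigma_gt hr1
    rw [Real.rpow_zero, mul_one] at e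
    have e' : Real.exp (-(κ.σ * ‖x‖)) ≤ Ce * a := e
    have hexp0 : 0 < Real.exp (-(κ.σ * ‖x‖)) := Real.exp_pos _
    have c1 : S.lam * Real.exp (-(κ.σ * ‖x‖)) ≤ Ce * a := by
      have : S.lam * Real.exp (-(κ.σ * ‖x‖)) ≤ 1 * Real.exp (-(κ.σ * ‖x‖)) :=
        mul_le_mul_of_nonneg_right S.lam_le hexp0.le
      linarith
    have c0 : 0 ≤ S.lam * Real.exp (-(κ.σ * ‖x‖)) := mul_nonneg S.lam_nonneg hexp0.le
    calc ‖dword w S.Res x‖ ≤ κ.C w.length * (S.lam * Real.exp (-(κ.σ * ‖x‖))) := b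
      _ ≤ cκ * (S.lam * Real.exp (-(κ.σ * ‖x‖))) :=
          mul_le_mul_of_nonneg_right (le_cumC κ.C hwn) c0
      _ ≤ cκ * (Ce * a) := mul_le_mul_of_nonneg_left c1 hcκ0
      _ = cκ * Ce * a := by ring
  -- the potential terms
  have t2 : ‖((wsplits' w).map fun p => dword p.1 uD x • dword p.2 S.F x).sum‖
      ≤ 2 ^ n * (cu * K * a) := by
    have hterm : ∀ p ∈ wsplits' w, ‖dword p.1 uD x • dword p.2 S.F x‖ ≤ cu * K * a := by
      intro p hp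
      obtain ⟨l2, l1⟩ := length_lt_of_mem_wsplits' hp
      have b1 := (hu p.1 (ne_nil_of_mem_wsplits' hp) x (Ext_mono κ.R₁_ge hx1)).1
      have b1' : |dword p.1 uD x| ≤ cu * (‖x‖ ^ 2)⁻¹ :=
        b1.trans (mul_le_mul_of_nonneg_right (le_cumC Cu (by omega)) hr2.le)
      have b2 := (hyp p.2 (by omega) x hx).1
      rw [norm_smul, Real.norm_eq_abs]
      calc |dword p.1 uD x| * ‖dword p.2 S.F x‖ ≤ (cu * (‖x‖ ^ 2)⁻¹) * (K * S.A x) :=
            mul_le_mul b1' b2 (norm_nonneg _) (by positivity)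
        _ = cu * K * a := by rw [ha]; ring
    refine (norm_list_sum_le _ _ hterm).trans ?_
    exact mul_le_mul_of_nonneg_right hlen (by positivity)
  -- the interaction terms
  have t3 : ‖((wsplits' w).map fun p => dword p.1 S.W x (dword p.2 S.F x)).sum‖
      ≤ 2 ^ n * ((cw + cκ) * K * a) := by
    have hterm : ∀ p ∈ wsplits' w, ‖dword p.1 S.W x (dword p.2 S.F x)‖ ≤ (cw + cκ) * K * a := by
      intro p hp
      obtain ⟨l2, l1⟩ := length_lt_of_mem_wsplits' hp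
      have b1 := hw S p.1 (ne_nil_of_mem_wsplits' hp) x hx1
      have b1' : ‖dword p.1 S.W x S.φ‖ ≤ cw * (‖x‖ ^ 2)⁻¹ :=
        b1.trans (mul_le_mul_of_nonneg_right (le_cumC Cw (by omega)) hr2.le)
      have b2 := hyp p.2 (by omega) x hx
      have b3 := S.W_bdd.2 p.1 x hx1
      have hri : ‖x‖⁻¹ ≤ 1 := inv_le_one_of_one_le₀ hr1
      have b3' : ‖dword p.1 S.W x‖ ≤ cκ := by
        calc ‖dword p.1 S.W x‖ ≤ κ.C p.1.length * ‖x‖⁻¹ := b3
          _ ≤ cκ * ‖x‖⁻¹ := mul_le_mul_of_nonneg_right (le_cumC κ.C (by omega)) (by positivity)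
          _ ≤ cκ * 1 := mul_le_mul_of_nonneg_left hri hcκ0
          _ = cκ := mul_one _
      conv_lhs => rw [S.Q_add_eq (dword p.2 S.F x)]
      rw [map_add, map_smul]
      have f1 : ‖⟪S.φ, dword p.2 S.F x⟫_ℂ‖ ≤ K * S.A x := (S.norm_inner_φ_le _).trans b2.1
      calc ‖⟪S.φ, dword p.2 S.F x⟫_ℂ • dword p.1 S.W x S.φ
            + dword p.1 S.W x (S.Q (dword p.2 S.F x))‖
          ≤ ‖⟪S.φ, dword p.2 S.F x⟫_ℂ • dword p.1 S.W x S.φ‖
            + ‖dword p.1 S.W x (S.Q (dword p.2 S.F x))‖ := norm_add_le _ _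
        _ ≤ (K * S.A x) * (cw * (‖x‖ ^ 2)⁻¹) + cκ * (K * a) := by
            refine add_le_add ?_ ?_
            · rw [norm_smul]
              exact mul_le_mul f1 b1' (norm_nonneg _) (by positivity)
            · exact ((dword p.1 S.W x).le_opNorm _).trans
                (mul_le_mul b3' b2.2 (norm_nonneg _) hcκ0)
        _ = (cw + cκ) * K * a := by rw [ha]; ring
    refine (norm_list_sum_le _ _ hterm).trans ?_
    exact mul_le_mul_of_nonneg_right hlen (by positivity)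
  rw [S.src_eq w x hx1]
  have t3' : ‖S.lam • ((wsplits' w).map fun p => dword p.1 S.W x (dword p.2 S.F x)).sum‖
      ≤ 2 ^ n * ((cw + cκ) * K * a) := by
    rw [norm_smul, Real.norm_of_nonneg S.lam_nonneg]
    calc S.lam * _ ≤ 1 * ‖((wsplits' w).map fun p => dword p.1 S.W x (dword p.2 S.F x)).sum‖ :=
          mul_le_mul_of_nonneg_right S.lam_le (norm_nonneg _)
      _ ≤ _ := by rw [one_mul]; exact t3
  have tot := (norm_sub_le _ _).trans (add_le_add ((norm_sub_le _ _).trans (add_le_add t1 t2)) t3')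
  refine tot.trans ?_
  have hp2 : (0 : ℝ) < 2 ^ n := by positivity
  have key : cκ * Ce * a + 2 ^ n * (cu * K * a) + 2 ^ n * ((cw + cκ) * K * a) ≤
      (cκ * Ce + 2 ^ n * cu + 2 ^ n * (cw + cκ)) * (K + 1) * a := by
    have e : (cκ * Ce + 2 ^ n * cu + 2 ^ n * (cw + cκ)) * (K + 1) * a -
        (cκ * Ce * a + 2 ^ n * (cu * K * a) + 2 ^ n * ((cw + cκ) * K * a)) =
        (cκ * Ce * K + 2 ^ n * cu + 2 ^ n * (cw + cκ)) * a := by ring
    have : 0 ≤ (cκ * Ce * K + 2 ^ n * cu + 2 ^ n * (cw + cκ)) * a := by positivity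
    linarith
  exact key

end Claimed.Open.R278
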