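import Claimed.Open.R278.CH1Eq

/-!
# Result 278, package CH1, file 3: pointwise inequalities in the fibre Hilbert space

Sub-captain helper162.  PAPER-FREE, NO ANALYSIS: everything is algebra of inner products at a fixed point
`x`; `H, L, s : 𝒦` stand for `H x`, `Δ H x`, `Sr x`.

With `g = ½ L - (k²/2 + u) H - λ W H + s`, `⟪φ, g⟫ = 0`, `Q H = Rr g`:
* `ch1_inner_gap`  : `c ‖QH‖² ≤ Re⟪QH, g⟫ = Re⟪H, g⟫`;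
* `ch1_schur`      : `(2λ/r - Cs/r²) ‖H‖² ≤ c ‖QH‖² + λ Re⟪H, W H⟫` far out;
* `ch1_ineq_full`  : `(k²/2 - (2-2λ)/r - C₁/r²) ‖H‖² - ‖s‖ ‖H‖ ≤ ½ Re⟪H, L⟫`;
* `ch1_ineq_Q`     : `(c + k²/2 + u) ‖QH‖² - (C₀ r⁻² ‖H‖ + ‖s‖) ‖QH‖ ≤ ½ Re⟪QH, QL⟫`.

All proved (leaves `CH1-I1`, `CH1-I2` closed): no `sorry` in this file.
-/

open MeasureTheory Filter
open scoped ContDiff InnerProductSpace ComplexConjugate ENNReal Topology Laplacian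
noncomputable section

namespace Claimed.Open.R278

variable {𝒦 : Type} [NormedAddCommGroup 𝒦] [InnerProductSpace ℂ 𝒦] [CompleteSpace 𝒦]

/-- `⟪QH, g⟫ = ⟪Rr g, g⟫`, `Rr_gap`; `H = QH + ⟪φ,H⟫ φ` and `⟪φ, g⟫ = 0`. -/
theorem ch1_inner_gap {κ : ChannelConsts} (S : ChannelCore 𝒦 κ) {H g : 𝒦} (hP : ⟪S.φ, g⟫_ℂ = 0)
    (hQ : S.Q H = S.Rr g) :
    κ.c * ‖S.Q H‖ ^ 2 ≤ (⟪S.Q H, g⟫_ℂ).re ∧ (⟪H, g⟫_ℂ).re = (⟪S.Q H, g⟫_ℂ).re := by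
  constructor
  · rw [hQ]; exact S.Rr_gap g
  · conv_lhs => rw [S.Q_add_eq H]
    rw [inner_add_left, inner_smul_left, hP, mul_zero, zero_add]

namespace ChannelCore
variable {κ : ChannelConsts} (S : ChannelCore 𝒦 κ)

/-- `d = Wφ - (2/r)φ`. -/
def dW (x : Space) : 𝒦 := S.W x S.φ - (2 / ‖x‖) • S.φ

theorem norm_dW_le {x : Space} (hx : x ∈ Ext κ.R₁) : ‖S.dW x‖ ≤ |κ.C 0| * (‖x‖ ^ 2)⁻¹ := by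
  have h := S.Wφ_bdd.2 [] x hx
  have h2 : (0 : ℝ) ≤ (‖x‖ ^ 2)⁻¹ := by positivity
  exact h.trans (mul_le_mul_of_nonneg_right (le_abs_self _) h2)

theorem W_φ_eq (x : Space) : S.W x S.φ = S.dW x + ((2 / ‖x‖ : ℝ) : ℂ) • S.φ := by
  unfold dW
  rw [Complex.coe_smul]; abel

theorem inner_Q_φ (v : 𝒦) : ⟪S.Q v, S.φ⟫_ℂ = 0 := by
  rw [← inner_conj_symm, S.inner_φ_Q, map_zero]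

theorem inner_Q_Wφ (v : 𝒦) (x : Space) : ⟪S.Q v, S.W x S.φ⟫_ℂ = ⟪S.Q v, S.dW x⟫_ℂ := by
  rw [S.W_φ_eq, inner_add_right, inner_smul_right, S.inner_Q_φ, mul_zero, add_zero]

theorem inner_Wφ_Q (v : 𝒦) (x : Space) : ⟪S.W x S.φ, S.Q v⟫_ℂ = ⟪S.dW x, S.Q v⟫_ℂ := by
  rw [S.W_φ_eq, inner_add_left, inner_smul_left, S.inner_φ_Q, mul_zero, add_zero]

/-- `⟪q, W H⟫ = f ⟪q, d⟫ + ⟪q, W q⟫`. -/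
theorem inner_Q_W (H : 𝒦) (x : Space) :
    ⟪S.Q H, S.W x H⟫_ℂ = ⟪S.φ, H⟫_ℂ * ⟪S.Q H, S.dW x⟫_ℂ + ⟪S.Q H, S.W x (S.Q H)⟫_ℂ := by
  conv_lhs => rw [S.Q_add_eq H]
  rw [map_add, map_smul, inner_add_right, inner_smul_right]
  have e : S.Q (⟪S.φ, H⟫_ℂ • S.φ + S.Q H) = S.Q H := by rw [← S.Q_add_eq H]
  rw [e, S.inner_Q_Wφ]

/-- `⟪H, W H⟫ = f ⟪H, d⟫ + (2/r)|f|² + conj f ⟪d, q⟫ + ⟪q, W q⟫`. -/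
theorem inner_W_expand {x : Space} (hx : x ∈ Ext κ.R₁) (H : 𝒦) :
    ⟪H, S.W x H⟫_ℂ = ⟪S.φ, H⟫_ℂ * ⟪H, S.dW x⟫_ℂ + ((2 / ‖x‖ * ‖⟪S.φ, H⟫_ℂ‖ ^ 2 : ℝ) : ℂ)
      + conj ⟪S.φ, H⟫_ℂ * ⟪S.dW x, S.Q H⟫_ℂ + ⟪S.Q H, S.W x (S.Q H)⟫_ℂ := by
  have e1 : S.W x H = ⟪S.φ, H⟫_ℂ • S.W x S.φ + S.W x (S.Q H) := by
    conv_lhs => rw [S.Q_add_eq H]
    rw [map_add, map_smul]
  have e2 : ⟪H, S.W x S.φ⟫_ℂ = ⟪H, S.dW x⟫_ℂ + ((2 / ‖x‖ : ℝ) : ℂ) * conj ⟪S.φ, H⟫_ℂ := by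
    rw [S.W_φ_eq, inner_add_right, inner_smul_right, inner_conj_symm]
  have e3 : ⟪H, S.W x (S.Q H)⟫_ℂ =
      conj ⟪S.φ, H⟫_ℂ * ⟪S.dW x, S.Q H⟫_ℂ + ⟪S.Q H, S.W x (S.Q H)⟫_ℂ := by
    conv_lhs => rw [S.Q_add_eq H]
    have e : S.Q (⟪S.φ, H⟫_ℂ • S.φ + S.Q H) = S.Q H := by rw [← S.Q_add_eq H]
    rw [e, inner_add_left, inner_smul_left, ← S.W_symm x hx, S.inner_Wφ_Q]
  rw [e1, inner_add_right, inner_smul_right, e2, e3]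
  have e4 : ⟪S.φ, H⟫_ℂ * conj ⟪S.φ, H⟫_ℂ = ((‖⟪S.φ, H⟫_ℂ‖ ^ 2 : ℝ) : ℂ) := by
    rw [Complex.mul_conj, Complex.normSq_eq_norm_sq]
  push_cast
  push_cast at e4
  linear_combination (2 / (‖x‖ : ℂ)) * e4

/-- `Re⟪H, W H⟫ ≥ (2/r)|f|² - 2‖d‖‖H‖²`. -/
theorem re_inner_W_ge {x : Space} (hx : x ∈ Ext κ.R₁) (H : 𝒦) :
    2 / ‖x‖ * ‖⟪S.φ, H⟫_ℂ‖ ^ 2 - 2 * ‖S.dW x‖ * ‖H‖ ^ 2 ≤ (⟪H, S.W x H⟫_ℂ).re := by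
  rw [S.inner_W_expand hx H]
  simp only [Complex.add_re, Complex.ofReal_re]
  have hf := S.norm_inner_φ_le H
  have hq := S.norm_Q_le H
  have h1 : -(‖H‖ * (‖H‖ * ‖S.dW x‖)) ≤ (⟪S.φ, H⟫_ℂ * ⟪H, S.dW x⟫_ℂ).re := by
    have a := Complex.abs_re_le_norm (⟪S.φ, H⟫_ℂ * ⟪H, S.dW x⟫_ℂ)
    rw [norm_mul] at a
    have b : ‖⟪S.φ, H⟫_ℂ‖ * ‖⟪H, S.dW x⟫_ℂ‖ ≤ ‖H‖ * (‖H‖ * ‖S.dW x‖) :=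
      mul_le_mul hf (norm_inner_le_norm _ _) (norm_nonneg _) (norm_nonneg _)
    have := neg_abs_le (⟪S.φ, H⟫_ℂ * ⟪H, S.dW x⟫_ℂ).re
    linarith
  have h2 : -(‖H‖ * (‖S.dW x‖ * ‖H‖)) ≤ (conj ⟪S.φ, H⟫_ℂ * ⟪S.dW x, S.Q H⟫_ℂ).re := by
    have a := Complex.abs_re_le_norm (conj ⟪S.φ, H⟫_ℂ * ⟪S.dW x, S.Q H⟫_ℂ)
    rw [norm_mul, RCLike.norm_conj] at a
    have b : ‖⟪S.φ, H⟫_ℂ‖ * ‖⟪S.dW x, S.Q H⟫_ℂ‖ ≤ ‖H‖ * (‖S.dW x‖ * ‖H‖) :=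
      mul_le_mul hf ((norm_inner_le_norm _ _).trans
        (mul_le_mul_of_nonneg_left hq (norm_nonneg _))) (norm_nonneg _) (norm_nonneg _)
    have := neg_abs_le (conj ⟪S.φ, H⟫_ℂ * ⟪S.dW x, S.Q H⟫_ℂ).re
    linarith
  have h3 := S.W_nonneg x hx (S.Q H)
  nlinarith

end ChannelCore

/-- **Schur bound.**  `H = f φ + q`, `q = QH`, `C₀ = |κ.C 0|`:
`⟪H, W H⟫ = |f|² ⟪φ, Wφ⟫ + 2 Re (conj f ⟪φ, W q⟫) + ⟪q, W q⟫`, `⟪q, W q⟫ ≥ 0`,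
`Re⟪φ, Wφ⟫ ≥ 2/r - C₀/r²`, `|⟪φ, W q⟫| = |⟪Wφ - (2/r)φ, q⟫| ≤ C₀ r⁻² ‖q‖` (`W_symm`, `inner_φ_Q`, `Wφ_bdd` with the
empty word), `2|f|‖q‖ ≤ |f|² + ‖q‖²`; so the right side is
`≥ (2λ/r - 2C₀/r²)|f|² + (c - C₀/r²)‖q‖²`, and `c - C₀/r² ≥ 2/r` for `r ≥ Rs`.  `Cs = 2 C₀`. -/
theorem ch1_schur (κ : ChannelConsts) : ∃ Rs Cs : ℝ, κ.R₁ ≤ Rs ∧ 0 ≤ Cs ∧
    ∀ (S : ChannelCore 𝒦 κ), ∀ x ∈ Ext Rs, ∀ H : 𝒦,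
      (2 * S.lam / ‖x‖ - Cs / ‖x‖ ^ 2) * ‖H‖ ^ 2 ≤
        κ.c * ‖S.Q H‖ ^ 2 + S.lam * (⟪H, S.W x H⟫_ℂ).re := by
  have hR1 : 0 < κ.R₁ := lt_of_lt_of_le (by unfold bigD; positivity) κ.R₁_ge
  refine ⟨max κ.R₁ (2 / κ.c), 2 * |κ.C 0|, le_max_left _ _, by positivity, ?_⟩
  intro S x hx H
  have hx1 : κ.R₁ < ‖x‖ := lt_of_le_of_lt (le_max_left _ _) hx
  have hx2 : 2 / κ.c < ‖x‖ := lt_of_le_of_lt (le_max_right _ _) hx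
  have hr : 0 < ‖x‖ := by linarith
  have hc := κ.c_pos
  have h1 := S.re_inner_W_ge hx1 H
  have h2 := S.norm_dW_le hx1
  have h3 := S.norm_sq_eq H
  have hl0 := S.lam_nonneg
  have hl1 := S.lam_le
  have h4 : 2 / ‖x‖ ≤ κ.c := by
    rw [div_le_iff₀ hr]
    rw [div_lt_iff₀ hc] at hx2
    linarith
  have h5 : S.lam * (2 / ‖x‖ * ‖⟪S.φ, H⟫_ℂ‖ ^ 2 - 2 * ‖S.dW x‖ * ‖H‖ ^ 2) ≤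
      S.lam * (⟪H, S.W x H⟫_ℂ).re := mul_le_mul_of_nonneg_left h1 hl0
  have h6 : S.lam * (2 * ‖S.dW x‖ * ‖H‖ ^ 2) ≤ 2 * (|κ.C 0| * (‖x‖ ^ 2)⁻¹) * ‖H‖ ^ 2 := by
    have a : 0 ≤ 2 * ‖S.dW x‖ * ‖H‖ ^ 2 := by positivity
    have b : 2 * ‖S.dW x‖ * ‖H‖ ^ 2 ≤ 2 * (|κ.C 0| * (‖x‖ ^ 2)⁻¹) * ‖H‖ ^ 2 := by
      apply mul_le_mul_of_nonneg_right _ (by positivity)
      linarith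
    calc S.lam * (2 * ‖S.dW x‖ * ‖H‖ ^ 2) ≤ 1 * (2 * ‖S.dW x‖ * ‖H‖ ^ 2) :=
          mul_le_mul_of_nonneg_right hl1 a
      _ ≤ _ := by rw [one_mul]; exact b
  have h7 : S.lam * (2 / ‖x‖) * ‖S.Q H‖ ^ 2 ≤ κ.c * ‖S.Q H‖ ^ 2 := by
    apply mul_le_mul_of_nonneg_right _ (by positivity)
    have : S.lam * (2 / ‖x‖) ≤ 1 * (2 / ‖x‖) := mul_le_mul_of_nonneg_right hl1 (by positivity)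
    linarith
  have e1 : (2 * S.lam / ‖x‖ - 2 * |κ.C 0| / ‖x‖ ^ 2) * ‖H‖ ^ 2 =
      S.lam * (2 / ‖x‖) * ‖⟪S.φ, H⟫_ℂ‖ ^ 2 + S.lam * (2 / ‖x‖) * ‖S.Q H‖ ^ 2
        - 2 * (|κ.C 0| * (‖x‖ ^ 2)⁻¹) * ‖H‖ ^ 2 := by
    rw [h3]; field_simp
  rw [e1]
  nlinarith

omit [CompleteSpace 𝒦] in
theorem ch1_re_inner_g (v H L s WH : 𝒦) (a b c : ℝ) :
    (⟪v, a • L - b • H - c • WH + s⟫_ℂ).re =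
      a * (⟪v, L⟫_ℂ).re - b * (⟪v, H⟫_ℂ).re - c * (⟪v, WH⟫_ℂ).re + (⟪v, s⟫_ℂ).re := by
  simp

omit [CompleteSpace 𝒦] in
theorem ch1_re_inner_self (v : 𝒦) : (⟪v, v⟫_ℂ).re = ‖v‖ ^ 2 := by
  rw [inner_self_eq_norm_sq_to_K]
  norm_cast

omit [CompleteSpace 𝒦] in
theorem ch1_re_inner_le (v w : 𝒦) : (⟪v, w⟫_ℂ).re ≤ ‖v‖ * ‖w‖ :=
  (le_abs_self _).trans ((Complex.abs_re_le_norm _).trans (norm_inner_le_norm _ _))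

/-- **differential inequality for the full norm.**  `c‖QH‖² ≤ Re⟪H, g⟫ =
½Re⟪H,L⟫ - (k²/2+u)‖H‖² - λRe⟪H,WH⟫ + Re⟪H,s⟫`, `ch1_schur`, `u ≥ -2/r - C_u r⁻³` (`ch1_uD_word`), `r ≥ 1`. -/
theorem ch1_ineq_full (κ : ChannelConsts) : ∃ R₂ C₁ : ℝ, κ.R₁ ≤ R₂ ∧ 0 ≤ C₁ ∧
    ∀ (S : ChannelCore 𝒦 κ), ∀ x ∈ Ext R₂, ∀ H L s : 𝒦,
      ⟪S.φ, (1 / 2 : ℝ) • L - (S.k ^ 2 / 2 + uD x) • H - S.lam • S.W x H + s⟫_ℂ = 0 →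
      S.Q H = S.Rr ((1 / 2 : ℝ) • L - (S.k ^ 2 / 2 + uD x) • H - S.lam • S.W x H + s) →
      (S.k ^ 2 / 2 - (2 - 2 * S.lam) / ‖x‖ - C₁ / ‖x‖ ^ 2) * ‖H‖ ^ 2 - ‖s‖ * ‖H‖ ≤
        (1 / 2) * (⟪H, L⟫_ℂ).re := by
  obtain ⟨Rs, Cs, hRs, hCs, hschur⟩ := ch1_schur (𝒦 := 𝒦) κ
  obtain ⟨Cu, hCu, hu, -⟩ := ch1_uD_word
  have hD : (1 : ℝ) ≤ bigD := by unfold bigD; norm_num
  have hR1 : 2 ≤ κ.R₁ := by have := κ.R₁_ge; linarith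
  refine ⟨Rs, Cs + Cu 0, hRs, add_nonneg hCs (hCu 0), ?_⟩
  intro S x hx H L s hP hQ
  have hxr : Rs < ‖x‖ := hx
  have hr1 : 1 ≤ ‖x‖ := by linarith
  have hr : 0 < ‖x‖ := by linarith
  obtain ⟨g1, g2⟩ := ch1_inner_gap S hP hQ
  rw [← g2, ch1_re_inner_g, ch1_re_inner_self] at g1
  have h1 := hschur S x hx H
  have h2 := hu x (show 2 * bigD < ‖x‖ by have := κ.R₁_ge; linarith)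
  have h3 := ch1_re_inner_le H s
  have h4 : (‖x‖ ^ 3)⁻¹ ≤ (‖x‖ ^ 2)⁻¹ := by
    apply inv_anti₀ (by positivity)
    exact pow_le_pow_right₀ hr1 (by norm_num)
  have h5 : -(2 / ‖x‖) - Cu 0 * (‖x‖ ^ 2)⁻¹ ≤ uD x := by
    have a := (abs_le.1 h2).1
    have b : Cu 0 * (‖x‖ ^ 3)⁻¹ ≤ Cu 0 * (‖x‖ ^ 2)⁻¹ := mul_le_mul_of_nonneg_left h4 (hCu 0)
    linarith
  have h6 : (-(2 / ‖x‖) - Cu 0 * (‖x‖ ^ 2)⁻¹) * ‖H‖ ^ 2 ≤ uD x * ‖H‖ ^ 2 :=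
    mul_le_mul_of_nonneg_right h5 (by positivity)
  have e1 : (S.k ^ 2 / 2 - (2 - 2 * S.lam) / ‖x‖ - (Cs + Cu 0) / ‖x‖ ^ 2) * ‖H‖ ^ 2 =
      (2 * S.lam / ‖x‖ - Cs / ‖x‖ ^ 2) * ‖H‖ ^ 2 + S.k ^ 2 / 2 * ‖H‖ ^ 2
        + (-(2 / ‖x‖) - Cu 0 * (‖x‖ ^ 2)⁻¹) * ‖H‖ ^ 2 := by
    field_simp; ring
  rw [e1]
  nlinarith

/-- **differential inequality for the `Q`-part.**  With `q = QH`: `⟪q, L⟫ = ⟪q, QL⟫`, `⟪q, H⟫ = ‖q‖²`,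
`⟪q, W H⟫ = f ⟪q, Wφ - (2/r)φ⟫ + ⟪q, W q⟫`, `Re⟪q, W q⟫ ≥ 0`, `|f| ≤ ‖H‖`, `λ ≤ 1`.  `C₀ = |κ.C 0|`. -/
theorem ch1_ineq_Q (κ : ChannelConsts) : ∃ C₀ : ℝ, 0 ≤ C₀ ∧
    ∀ (S : ChannelCore 𝒦 κ), ∀ x ∈ Ext κ.R₁, ∀ H L s : 𝒦,
      ⟪S.φ, (1 / 2 : ℝ) • L - (S.k ^ 2 / 2 + uD x) • H - S.lam • S.W x H + s⟫_ℂ = 0 →
      S.Q H = S.Rr ((1 / 2 : ℝ) • L - (S.k ^ 2 / 2 + uD x) • H - S.lam • S.W x H + s) →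
      (κ.c + S.k ^ 2 / 2 + uD x) * ‖S.Q H‖ ^ 2 - (C₀ * (‖x‖ ^ 2)⁻¹ * ‖H‖ + ‖s‖) * ‖S.Q H‖ ≤
        (1 / 2) * (⟪S.Q H, S.Q L⟫_ℂ).re := by
  refine ⟨|κ.C 0|, abs_nonneg _, ?_⟩
  intro S x hx H L s hP hQ
  obtain ⟨g1, -⟩ := ch1_inner_gap S hP hQ
  rw [ch1_re_inner_g] at g1
  have eL : ⟪S.Q H, L⟫_ℂ = ⟪S.Q H, S.Q L⟫_ℂ := by
    conv_lhs => rw [S.Q_add_eq L]
    rw [inner_add_right, inner_smul_right, S.inner_Q_φ, mul_zero, zero_add]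
  have eH : (⟪S.Q H, H⟫_ℂ).re = ‖S.Q H‖ ^ 2 := by
    have : ⟪S.Q H, H⟫_ℂ = ⟪S.Q H, S.Q H⟫_ℂ := by
      conv_lhs => rw [S.Q_add_eq H]
      have e : S.Q (⟪S.φ, H⟫_ℂ • S.φ + S.Q H) = S.Q H := by rw [← S.Q_add_eq H]
      rw [e, inner_add_right, inner_smul_right, S.inner_Q_φ, mul_zero, zero_add]
    rw [this, ch1_re_inner_self]
  rw [eL, eH, S.inner_Q_W, Complex.add_re] at g1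
  have h1 := S.W_nonneg x hx (S.Q H)
  have h2 := S.norm_dW_le hx
  have h3 := ch1_re_inner_le (S.Q H) s
  have hf := S.norm_inner_φ_le H
  have hl0 := S.lam_nonneg
  have hl1 := S.lam_le
  have h4 : -(‖H‖ * (‖S.Q H‖ * (|κ.C 0| * (‖x‖ ^ 2)⁻¹))) ≤
      (⟪S.φ, H⟫_ℂ * ⟪S.Q H, S.dW x⟫_ℂ).re := by
    have a := Complex.abs_re_le_norm (⟪S.φ, H⟫_ℂ * ⟪S.Q H, S.dW x⟫_ℂ)
    rw [norm_mul] at a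
    have b : ‖⟪S.φ, H⟫_ℂ‖ * ‖⟪S.Q H, S.dW x⟫_ℂ‖ ≤ ‖H‖ * (‖S.Q H‖ * (|κ.C 0| * (‖x‖ ^ 2)⁻¹)) :=
      mul_le_mul hf ((norm_inner_le_norm _ _).trans
        (mul_le_mul_of_nonneg_left h2 (norm_nonneg _))) (norm_nonneg _) (norm_nonneg _)
    have := neg_abs_le (⟪S.φ, H⟫_ℂ * ⟪S.Q H, S.dW x⟫_ℂ).re
    linarith
  have h5 : 0 ≤ ‖H‖ * (‖S.Q H‖ * (|κ.C 0| * (‖x‖ ^ 2)⁻¹)) := by positivity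
  have h6 : -(‖H‖ * (‖S.Q H‖ * (|κ.C 0| * (‖x‖ ^ 2)⁻¹))) ≤
      S.lam * ((⟪S.φ, H⟫_ℂ * ⟪S.Q H, S.dW x⟫_ℂ).re + (⟪S.Q H, S.W x (S.Q H)⟫_ℂ).re) := by
    nlinarith [mul_nonneg hl0 h1]
  nlinarith

end Claimed.Open.R278
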