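import Claimed.Open.R278.CH1Comp

/-!
# Result 278, package CH1, file 5: the leading bounds with all words

Sub-captain helper162.  No `sorry` in this file: `ch1_leading` and `channel_leading` are proved from
`ch1_basic` (`CH1Comp`), `ch1_source_bound`, `chanEq_word` (`CH1Eq`), `ch1_decay` (`CH1Words`) by induction on the
word length.
-/

open MeasureTheory Filter
open scoped ContDiff InnerProductSpace ComplexConjugate ENNReal Topology Laplacian

noncomputable section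

namespace Claimed.Open.R278

variable {𝒦 : Type} [NormedAddCommGroup 𝒦] [InnerProductSpace ℂ 𝒦] [CompleteSpace 𝒦]

theorem ch1_le_cumC (C : ℕ → ℝ) {m n : ℕ} (h : m ≤ n) : |C m| ≤ cumC C n := by
  unfold cumC
  exact Finset.single_le_sum (f := fun i => |C i|) (fun i _ => abs_nonneg _)
    (Finset.mem_range.2 (Nat.lt_succ_of_le h))

theorem ch1_cumC_nonneg (C : ℕ → ℝ) (n : ℕ) : 0 ≤ cumC C n :=
  (abs_nonneg _).trans (ch1_le_cumC C (le_refl n))

/-- a priori bound of the words of `F` by a constant. -/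
theorem ch1_apriori {κ : ChannelConsts} (S : ChannelCore 𝒦 κ) {n : ℕ} {w : List (Fin 3 ⊕ Fin 3)}
    (hw : w.length ≤ n) {x : Space} (hx : x ∈ Ext κ.R₁) : ‖dword w S.F x‖ ≤ cumC κ.C n := by
  have h1 := S.F_bdd.2 w x hx
  have h2 : Real.exp (-(κ.τ * ‖x‖)) ≤ 1 := by
    rw [Real.exp_le_one_iff]
    have := mul_nonneg κ.τ_pos.le (norm_nonneg x)
    linarith
  have h3 : 0 < Real.exp (-(κ.τ * ‖x‖)) := Real.exp_pos _
  calc ‖dword w S.F x‖ ≤ κ.C w.length * Real.exp (-(κ.τ * ‖x‖)) := h1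
    _ ≤ |κ.C w.length| * Real.exp (-(κ.τ * ‖x‖)) :=
        mul_le_mul_of_nonneg_right (le_abs_self _) h3.le
    _ ≤ |κ.C w.length| * 1 := mul_le_mul_of_nonneg_left h2 (abs_nonneg _)
    _ = |κ.C w.length| := mul_one _
    _ ≤ cumC κ.C n := ch1_le_cumC κ.C hw

/-- **the leading bounds**, together with the bound of the sources. -/
theorem ch1_leading (κ : ChannelConsts) : ∃ R₀ : ℝ, κ.R₁ + 1 ≤ R₀ ∧ ∀ n : ℕ, ∃ K : ℝ, 0 < K ∧
    ∀ (S : ChannelCore 𝒦 κ) (w : List (Fin 3 ⊕ Fin 3)), w.length ≤ n → ∀ x ∈ Ext R₀,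
      ‖dword w S.F x‖ ≤ K * S.A x ∧ ‖S.Q (dword w S.F x)‖ ≤ K * (S.A x * (‖x‖ ^ 2)⁻¹) ∧
      ‖S.src w x‖ ≤ K * (S.A x * (‖x‖ ^ 2)⁻¹) := by
  obtain ⟨R₀, Λ, hR₀, hΛ, hbasic⟩ := ch1_basic (𝒦 := 𝒦) κ
  have hR1 : 0 < κ.R₁ := lt_of_lt_of_le (by unfold bigD; positivity) κ.R₁_ge
  refine ⟨R₀, hR₀, ?_⟩
  -- the induction is on the statement for words of length `< n`
  have key : ∀ n : ℕ, ∃ K : ℝ, 0 < K ∧
      ∀ (S : ChannelCore 𝒦 κ) (w : List (Fin 3 ⊕ Fin 3)), w.length < n → ∀ x ∈ Ext R₀,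
        ‖dword w S.F x‖ ≤ K * S.A x ∧ ‖S.Q (dword w S.F x)‖ ≤ K * (S.A x * (‖x‖ ^ 2)⁻¹) ∧
        ‖S.src w x‖ ≤ K * (S.A x * (‖x‖ ^ 2)⁻¹) := by
    intro n
    induction n with
    | zero => exact ⟨1, one_pos, fun S w hw => absurd hw (Nat.not_lt_zero _)⟩
    | succ n ih =>
      obtain ⟨K, hK, ih⟩ := ih
      obtain ⟨Γ, hΓ, hsrc⟩ := ch1_source_bound (𝒦 := 𝒦) κ n
      set K' : ℝ := Γ * (K + 1) + cumC κ.C n + 1 with hK'
      have hc := ch1_cumC_nonneg κ.C n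
      have hK'pos : 0 < K' := by positivity
      refine ⟨Λ * K' + K', by positivity, ?_⟩
      intro S w hw x hx
      have hw' : w.length ≤ n := Nat.lt_succ_iff.1 hw
      have hs : ∀ y ∈ Ext R₀, ‖S.src w y‖ ≤ Γ * (K + 1) * (S.A y * (‖y‖ ^ 2)⁻¹) :=
        hsrc S R₀ K (by linarith) hK.le (fun v hv y hy => ⟨(ih S v hv y hy).1, (ih S v hv y hy).2.1⟩)
          w hw'
      have hApos : ∀ y ∈ Ext R₀, 0 ≤ S.A y * (‖y‖ ^ 2)⁻¹ := by
        intro y hy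
        have hy0 : y ≠ 0 := by
          intro h0
          have : R₀ < ‖y‖ := hy
          rw [h0, norm_zero] at this
          linarith
        have := S.A_pos hy0
        positivity
      have hs' : ∀ y ∈ Ext R₀, ‖S.src w y‖ ≤ K' * (S.A y * (‖y‖ ^ 2)⁻¹) := fun y hy =>
        (hs y hy).trans (mul_le_mul_of_nonneg_right (by rw [hK']; linarith) (hApos y hy))
      have hb := hbasic S (dword w S.F) (S.src w) K' hK'pos (contDiffOn_dword S.F_bdd.1 w)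
        (ch1_decay κ.τ_pos (S.F_bdd.2 w)) (S.chanEq_word w) hs'
        (fun y hy => (ch1_apriori S hw' (show κ.R₁ < ‖y‖ by rw [hy]; linarith)).trans
          (by rw [hK']; nlinarith [mul_nonneg hΓ (by linarith : (0:ℝ) ≤ K + 1)]))
        x (le_of_lt hx)
      have hx0 : x ≠ 0 := by
        intro h0
        have : R₀ < ‖x‖ := hx
        rw [h0, norm_zero] at this
        linarith
      have hA := S.A_pos hx0
      have hA2 := hApos x hx
      refine ⟨hb.1.trans ?_, hb.2.trans ?_, (hs' x hx).trans ?_⟩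
      · exact mul_le_mul_of_nonneg_right (by linarith) hA.le
      · exact mul_le_mul_of_nonneg_right (by linarith) hA2
      · exact mul_le_mul_of_nonneg_right (by nlinarith [mul_nonneg hΛ hK'pos.le]) hA2
  intro n
  obtain ⟨K, hK, h⟩ := key (n + 1)
  exact ⟨K, hK, fun S w hw => h S w (Nat.lt_succ_of_le hw)⟩

/-- **CH1a** (3.13) with all words: `‖𝔇_w F‖ ≤ C A`, `‖Q 𝔇_w F‖ ≤ C A r⁻²`. -/
theorem ch1_channel_leading (κ : ChannelConsts) :
    ∃ (R₀ : ℝ) (C : ℕ → ℝ), κ.R₁ ≤ R₀ ∧ ∀ S : ChannelCore 𝒦 κ,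
      WordBdd R₀ C S.A S.F ∧
      WordBdd R₀ C (fun x => S.A x * (‖x‖ ^ 2)⁻¹) (fun x => S.Q (S.F x)) := by
  obtain ⟨R₀, hR₀, h⟩ := ch1_leading (𝒦 := 𝒦) κ
  choose C hC h using h
  have hle : κ.R₁ ≤ R₀ := by linarith
  refine ⟨R₀, C, hle, fun S => ⟨⟨S.F_bdd.1.mono (Ext_mono hle), ?_⟩,
    ⟨(S.contDiffOn_Q S.F_bdd.1).mono (Ext_mono hle), ?_⟩⟩⟩
  · intro w x hx
    exact (h w.length S w le_rfl x hx).1
  · intro w x hx
    rw [S.dword_Q S.F_bdd.1 w x (Ext_mono hle hx)]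
    exact (h w.length S w le_rfl x hx).2.1

end Claimed.Open.R278
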