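import Claimed.Open.R278.CH1Lead

/-!
# Result 278, package CH1, file 6: the radial equation of the scalar amplitude

Sub-captain helper162.  PAPER-FREE.

`h = f / A`, `f = ⟪φ, F⟫`.  For a rotation word `w` put `g = 𝔇_w h = ⟪φ, 𝔇_w F⟫ / A` (`h_word`).  The P-equation of the
differentiated system (`chanEq_word`) reads (`scalar_eq`)
`½ Δ f_w - (k²/2 - (2-2λ)/r) f_w = N_w`, `N_w = (u + 2/r) f_w + λ ⟪Wφ - (2/r)φ, 𝔇_w F⟫ - ⟪φ, src w⟫`,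
and with `f_w = A g`, `k (β+1) = 2 - 2λ` and `ch1_laplacian_conj` it becomes (`ray_eq`)
`-½ ∂_r² g + (k - (β+1)/r) ∂_r g = G_w`, `G_w = ½β(β+1) r⁻² g + ½ r⁻² ∑ᵢ Ωᵢ² g - N_w / A = O(r⁻²)`.

Leaves `CH1-R1` ... `CH1-R4`: PROVED, no `sorry` in this file.
-/

open MeasureTheory Filter
open scoped ContDiff InnerProductSpace ComplexConjugate ENNReal Topology Laplacian

noncomputable section

namespace Claimed.Open.R278

variable {𝒦 : Type} [NormedAddCommGroup 𝒦] [InnerProductSpace ℂ 𝒦] [CompleteSpace 𝒦]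

namespace ChannelCore
variable {κ : ChannelConsts} (S : ChannelCore 𝒦 κ)

/-! ## smoothness, rotation words of `h` (leaf CH1-R1) -/

theorem R₁_pos (κ : ChannelConsts) : 0 < κ.R₁ :=
  lt_of_lt_of_le (by unfold bigD; positivity) κ.R₁_ge

theorem contDiffOn_A : ContDiffOn ℝ ∞ S.A (Ext 0) :=
  contDiffOn_radial le_rfl (contDiffOn_radialA _ _)

theorem f_eq : S.f = fun y => innerSL ℂ S.φ (S.F y) := by
  funext y; rw [innerSL_apply_apply]; rfl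

theorem contDiffOn_f : ContDiffOn ℝ ∞ S.f (Ext κ.R₁) := by
  rw [S.f_eq]
  exact ((innerSL ℂ S.φ).restrictScalars ℝ).contDiff.comp_contDiffOn S.F_bdd.1

theorem h_eq : S.h = fun y => (fun r => (radialA S.k S.β r)⁻¹) ‖y‖ • S.f y := by
  funext y
  unfold h A
  rw [Complex.real_smul, Complex.ofReal_inv, div_eq_inv_mul]

theorem contDiffOn_invA : ContDiffOn ℝ ∞ (fun r => (radialA S.k S.β r)⁻¹) (Set.Ioi κ.R₁) :=
  ((contDiffOn_radialA S.k S.β).inv (fun _ hr => (radialA_pos _ _ hr).ne')).mono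
    (Set.Ioi_subset_Ioi (R₁_pos κ).le)

theorem contDiffOn_h : ContDiffOn ℝ ∞ S.h (Ext κ.R₁) := by
  rw [S.h_eq]
  exact (contDiffOn_radial (R₁_pos κ).le S.contDiffOn_invA).smul S.contDiffOn_f

theorem f_word (w : List (Fin 3 ⊕ Fin 3)) : ∀ x ∈ Ext κ.R₁,
    dword w S.f x = ⟪S.φ, dword w S.F x⟫_ℂ := by
  intro x hx
  rw [S.f_eq, dword_clmC S.F_bdd.1 (innerSL ℂ S.φ) w x hx, innerSL_apply_apply]

/-- **rotation words of `h`.**  `h y = ρ ‖y‖ • innerSL ℂ φ (F y)`, `ρ = (radialA k β)⁻¹`; `dword_rot_radial_smul`,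
`dword_clmC`. -/
theorem h_word {w : List (Fin 3 ⊕ Fin 3)} (hw : IsRotWord w) : ∀ x ∈ Ext κ.R₁,
    dword w S.h x = ⟪S.φ, dword w S.F x⟫_ℂ / S.A x := by
  intro x hx
  rw [S.h_eq, dword_rot_radial_smul (R₁_pos κ).le S.contDiffOn_invA S.contDiffOn_f hw x hx,
    S.f_word w x hx]
  unfold A
  rw [Complex.real_smul, Complex.ofReal_inv, div_eq_inv_mul]

end ChannelCore

/-! ## conjugation of the Laplacian by `A` (leaf CH1-R2) -/

/-- `Δ(A g) = A [∂_r² g + 2(-k + (β+1)/r) ∂_r g + (k² - 2k(β+1)/r + β(β+1)/r²) g + r⁻² ∑ᵢ Ωᵢ² g]`.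
`laplacian_smul_fun` with `σ = A(|·|)`; `Δσ = A'' + (2/r) A'` (`laplacian_radial_mul_height` with `P = 1`, or
`laplacian_polar`), `deriv_radialA`, `iteratedDeriv_two_radialA`; `∂ⱼσ = A'(r) xⱼ/r`, so
`∑ⱼ ∂ⱼσ ∂ⱼg = A'(r) ∂_r g` (`dr_eq_sum`); `laplacian_polar` for `Δ g`. -/
theorem ch1_laplacian_conj {V : Type*} [NormedAddCommGroup V] [NormedSpace ℝ V] (k β : ℝ) {R : ℝ}
    (hR : 0 ≤ R) {g : Space → V} (hg : ContDiffOn ℝ ∞ g (Ext R)) : ∀ x ∈ Ext R,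
    Δ (fun y => radialA k β ‖y‖ • g y) x =
      radialA k β ‖x‖ • (dr (dr g) x + (2 * (-k + (β + 1) / ‖x‖)) • dr g x
        + (k ^ 2 - 2 * k * (β + 1) / ‖x‖ + β * (β + 1) / ‖x‖ ^ 2) • g x
        + (‖x‖ ^ 2)⁻¹ • ∑ i : Fin 3, dfield (Sum.inr i) (dfield (Sum.inr i) g) x) := by
  intro x hx
  have hx0 : x ≠ 0 := ne_zero_of_mem_Ext hR hx
  have hr : 0 < ‖x‖ := norm_pos_iff.2 hx0
  have hA : ContDiffAt ℝ ∞ (radialA k β) ‖x‖ :=
    (contDiffOn_radialA k β).contDiffAt (Ioi_mem_nhds hr)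
  have hA2 : ContDiffAt ℝ 2 (radialA k β) ‖x‖ := hA.of_le (WithTop.coe_le_coe.2 le_top)
  have hσ : ContDiffAt ℝ 2 (fun y : Space => radialA k β ‖y‖) x :=
    hA2.comp x (contDiffAt_norm ℝ hx0)
  have hg2 : ContDiffAt ℝ 2 g x := contDiffAt_two_of_mem_Ext hg hx
  rw [laplacian_smul_fun hσ hg2, laplacian_radial hx0 hA2, iteratedDeriv_two_radialA k β hr,
    deriv_radialA k β hr, laplacian_polar hR hg x hx]
  have e : ∑ j : Fin 3, dfield (Sum.inl j) (fun y : Space => radialA k β ‖y‖) x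
      • dfield (Sum.inl j) g x = ((-k + β / ‖x‖) * radialA k β ‖x‖) • dr g x := by
    rw [dr_eq_sum, Finset.smul_sum]
    refine Finset.sum_congr rfl fun j _ => ?_
    rw [dfield_trans_radial hx0 (hA.differentiableAt (by simp)), deriv_radialA k β hr, smul_smul]
  rw [e]
  have e1 : β / ‖x‖ = β * ‖x‖⁻¹ := div_eq_mul_inv _ _
  have e2 : (β + 1) / ‖x‖ = (β + 1) * ‖x‖⁻¹ := div_eq_mul_inv _ _
  have e3 : β / ‖x‖ ^ 2 = β * ‖x‖⁻¹ ^ 2 := by rw [div_eq_mul_inv, inv_pow]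
  have e4 : (2 : ℝ) / ‖x‖ = 2 * ‖x‖⁻¹ := div_eq_mul_inv _ _
  have e5 : 2 * k * (β + 1) / ‖x‖ = 2 * k * (β + 1) * ‖x‖⁻¹ := div_eq_mul_inv _ _
  have e6 : β * (β + 1) / ‖x‖ ^ 2 = β * (β + 1) * ‖x‖⁻¹ ^ 2 := by rw [div_eq_mul_inv, inv_pow]
  rw [e1, e2, e3, e4, e5, e6]
  module

omit [CompleteSpace 𝒦] in
theorem ch1_inner_real_smul_right (u v : 𝒦) (r : ℝ) : ⟪u, r • v⟫_ℂ = (r : ℂ) * ⟪u, v⟫_ℂ := by
  rw [← Complex.coe_smul, inner_smul_right]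

omit [CompleteSpace 𝒦] in
theorem ch1_inner_real_smul_left (u v : 𝒦) (r : ℝ) : ⟪r • u, v⟫_ℂ = (r : ℂ) * ⟪u, v⟫_ℂ := by
  rw [← Complex.coe_smul, inner_smul_left, Complex.conj_ofReal]

namespace ChannelCore
variable {κ : ChannelConsts} (S : ChannelCore 𝒦 κ)

/-! ## the scalar equation and the radial equation (leaf CH1-R3) -/

/-- the right side of the scalar equation. -/
def rayN (w : List (Fin 3 ⊕ Fin 3)) (x : Space) : ℂ :=
  ((uD x + 2 / ‖x‖ : ℝ) : ℂ) * ⟪S.φ, dword w S.F x⟫_ℂ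
    + (S.lam : ℂ) * ⟪S.W x S.φ - (2 / ‖x‖) • S.φ, dword w S.F x⟫_ℂ - ⟪S.φ, S.src w x⟫_ℂ

/-- the right side of the radial equation. -/
def rayG (w : List (Fin 3 ⊕ Fin 3)) (x : Space) : ℂ :=
  ((S.β * (S.β + 1) / 2 * (‖x‖ ^ 2)⁻¹ : ℝ) : ℂ) * dword w S.h x
    + ((1 / 2 * (‖x‖ ^ 2)⁻¹ : ℝ) : ℂ) * ∑ i : Fin 3, dword (Sum.inr i :: Sum.inr i :: w) S.h x
    - (((S.A x)⁻¹ : ℝ) : ℂ) * S.rayN w x

/-- **the scalar equation** (any word).  `(S.chanEq_word w x hx).1`, unfold `chanG`, `inner_add_right`, `inner_sub_right`,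
`inner_smul_right` (real scalars: `real_inner_smul`-type / `Complex.coe_smul`), `W_symm`,
`⟪φ, Δ H x⟫ = Δ ⟪φ, H ·⟫ x` (`ContDiffAt.laplacian_CLM_comp_left` for `(innerSL ℂ φ).restrictScalars ℝ`). -/
theorem scalar_eq (w : List (Fin 3 ⊕ Fin 3)) : ∀ x ∈ Ext κ.R₁,
    (1 / 2 : ℂ) * Δ (fun y => ⟪S.φ, dword w S.F y⟫_ℂ) x
      - ((S.k ^ 2 / 2 - (2 - 2 * S.lam) / ‖x‖ : ℝ) : ℂ) * ⟪S.φ, dword w S.F x⟫_ℂ = S.rayN w x := by
  intro x hx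
  have hH := contDiffOn_dword S.F_bdd.1 w
  have hH2 := contDiffAt_two_of_mem_Ext hH hx
  have hΔ : Δ (fun y => ⟪S.φ, dword w S.F y⟫_ℂ) x = ⟪S.φ, Δ (dword w S.F) x⟫_ℂ :=
    hH2.laplacian_CLM_comp_left (l := (innerSL ℂ S.φ).restrictScalars ℝ)
  have hP := (S.chanEq_word w x hx).1
  unfold chanG at hP
  rw [inner_add_right, inner_sub_right, inner_sub_right, ch1_inner_real_smul_right,
    ch1_inner_real_smul_right, ch1_inner_real_smul_right] at hP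
  have hW : ⟪S.φ, S.W x (dword w S.F x)⟫_ℂ =
      ⟪S.W x S.φ - (2 / ‖x‖) • S.φ, dword w S.F x⟫_ℂ
        + ((2 / ‖x‖ : ℝ) : ℂ) * ⟪S.φ, dword w S.F x⟫_ℂ := by
    rw [← S.W_symm x hx, inner_sub_left, ch1_inner_real_smul_left]; ring
  rw [hW] at hP
  unfold rayN
  rw [hΔ]
  push_cast at hP ⊢
  linear_combination hP

theorem k_mul_β : S.k * (S.β + 1) = 2 - 2 * S.lam := by
  have hk : S.k ≠ 0 := by have := S.k_lo; intro h; rw [h] at this; norm_num at this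
  unfold β
  field_simp
  ring

/-- **the radial equation** (rotation words).  On the open set `Ext κ.R₁`, `⟪φ, 𝔇_w F⟫ = A • 𝔇_w h` (`h_word`), so the
Laplacians agree (`Filter.EventuallyEq.laplacian_eq`-type locality); `ch1_laplacian_conj`; `scalar_eq`;
`S.k * (S.β + 1) = 2 - 2 * S.lam`; divide by `A > 0`. -/
theorem ray_eq {w : List (Fin 3 ⊕ Fin 3)} (hw : IsRotWord w) : ∀ x ∈ Ext κ.R₁,
    -(1 / 2 : ℂ) * dr (dr (dword w S.h)) x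
      + ((S.k - (S.β + 1) / ‖x‖ : ℝ) : ℂ) * dr (dword w S.h) x = S.rayG w x := by
  intro x hx
  have hR0 : (0 : ℝ) ≤ κ.R₁ := le_trans (by unfold bigD; positivity) κ.R₁_ge
  have hx0 : x ≠ 0 := ne_zero_of_mem_Ext hR0 hx
  have hr : 0 < ‖x‖ := norm_pos_iff.2 hx0
  have hg := contDiffOn_dword S.contDiffOn_h w
  have hfw : ∀ y ∈ Ext κ.R₁, ⟪S.φ, dword w S.F y⟫_ℂ = radialA S.k S.β ‖y‖ • dword w S.h y := by
    intro y hy
    have hA : 0 < S.A y := S.A_pos (ne_zero_of_mem_Ext hR0 hy)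
    have hA' : (S.A y : ℂ) ≠ 0 := by exact_mod_cast hA.ne'
    rw [S.h_word hw y hy, Complex.real_smul]
    show _ = (S.A y : ℂ) * _
    field_simp
  have hN := S.scalar_eq w x hx
  rw [laplacian_congr_Ext hfw x hx, ch1_laplacian_conj S.k S.β hR0 hg x hx, hfw x hx] at hN
  have hA : 0 < S.A x := S.A_pos hx0
  have hA' : (S.A x : ℂ) ≠ 0 := by exact_mod_cast hA.ne'
  have hkβ : (S.k : ℂ) * ((S.β : ℂ) + 1) = 2 - 2 * (S.lam : ℂ) := by exact_mod_cast S.k_mul_β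
  have hrc : (‖x‖ : ℂ) ≠ 0 := by exact_mod_cast hr.ne'
  unfold rayG
  rw [← hN]
  simp only [Complex.real_smul, dword_cons]
  change _ = _ - (((S.A x)⁻¹ : ℝ) : ℂ) * ((1 / 2 : ℂ) * ((S.A x : ℂ) * _) - _ * ((S.A x : ℂ) * _))
  push_cast
  field_simp
  linear_combination (-2 * (‖x‖ : ℂ) * dword w S.h x) * hkβ

end ChannelCore

/-! ## the bound of the right side (leaf CH1-R4) -/

/-- `|β(β+1)/2| ≤ 2` (`-1 ≤ β ≤ 2/0.9 - 1`); `|𝔇_v h| = |⟪φ, 𝔇_v F⟫| / A ≤ K` for the rotation words `v = w`,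
`v = i :: i :: w` (`h_word`, `norm_inner_φ_le`); `|u + 2/r| ≤ C_u r⁻³ ≤ C_u r⁻²` (`ch1_uD_word`),
`‖Wφ - (2/r)φ‖ ≤ |κ.C 0| r⁻²` (`Wφ_bdd` with the empty word), `λ ≤ 1`.  `Γ = 2 + 3/2 + C_u + |κ.C 0| + 1`. -/
theorem ch1_rayG_bound (κ : ChannelConsts) : ∃ Γ : ℝ, 0 ≤ Γ ∧
    ∀ (S : ChannelCore 𝒦 κ) (R K : ℝ), κ.R₁ ≤ R → 0 ≤ K →
      ∀ w : List (Fin 3 ⊕ Fin 3), IsRotWord w →
      (∀ v : List (Fin 3 ⊕ Fin 3), v.length ≤ w.length + 2 → ∀ x ∈ Ext R,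
        ‖dword v S.F x‖ ≤ K * S.A x) →
      (∀ x ∈ Ext R, ‖S.src w x‖ ≤ K * (S.A x * (‖x‖ ^ 2)⁻¹)) →
      ∀ x ∈ Ext R, ‖S.rayG w x‖ ≤ Γ * K * (‖x‖ ^ 2)⁻¹ := by
  obtain ⟨Cu, hCu, hu, -⟩ := ch1_uD_word
  have hD : (1 : ℝ) ≤ bigD := by unfold bigD; norm_num
  have hR1 : 2 ≤ κ.R₁ := by have := κ.R₁_ge; linarith
  refine ⟨2 + 3 / 2 + (Cu 0 + |κ.C 0| + 1), by have := hCu 0; positivity, ?_⟩
  intro S R K hR hK w hw hF hsrc x hx
  have hx1 : x ∈ Ext κ.R₁ := Ext_mono hR hx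
  have hxr : κ.R₁ < ‖x‖ := hx1
  have hr1 : 1 ≤ ‖x‖ := by linarith
  have hr0 : 0 < ‖x‖ := by linarith
  have hA : 0 < S.A x := radialA_pos _ _ hr0
  have hr2 : (0 : ℝ) < (‖x‖ ^ 2)⁻¹ := by positivity
  set ρ := (‖x‖ ^ 2)⁻¹ with hρ
  -- rotation words of `h`
  have hh : ∀ v : List (Fin 3 ⊕ Fin 3), IsRotWord v → v.length ≤ w.length + 2 →
      ‖dword v S.h x‖ ≤ K := by
    intro v hv hl
    rw [S.h_word hv x hx1, norm_div, Complex.norm_real, Real.norm_of_nonneg hA.le, div_le_iff₀ hA]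
    exact (S.norm_inner_φ_le _).trans (hF v hl x hx)
  -- the coefficient
  have hβ : |S.β * (S.β + 1) / 2 * ρ| ≤ 2 * ρ := by
    have hk := S.k_lo
    have hk0 : 0 < S.k := by linarith
    have e : S.β + 1 = (2 - 2 * S.lam) / S.k := by unfold ChannelCore.β; ring
    have b0 : 0 ≤ S.β + 1 := by
      rw [e]; apply div_nonneg <;> linarith [S.lam_le]
    have b1 : S.β + 1 ≤ 2.3 := by
      rw [e, div_le_iff₀ hk0]; nlinarith [S.lam_nonneg]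
    rw [abs_mul, abs_of_pos hr2]
    refine mul_le_mul_of_nonneg_right ?_ hr2.le
    rw [abs_le]
    constructor <;> nlinarith
  have t1 : ‖((S.β * (S.β + 1) / 2 * ρ : ℝ) : ℂ) * dword w S.h x‖ ≤ 2 * ρ * K := by
    rw [norm_mul, Complex.norm_real, Real.norm_eq_abs]
    exact mul_le_mul hβ (hh w hw (by omega)) (norm_nonneg _) (by positivity)
  have t2 : ‖((1 / 2 * ρ : ℝ) : ℂ) * ∑ i : Fin 3, dword (Sum.inr i :: Sum.inr i :: w) S.h x‖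
      ≤ 1 / 2 * ρ * (3 * K) := by
    rw [norm_mul, Complex.norm_real, Real.norm_of_nonneg (by positivity)]
    refine mul_le_mul_of_nonneg_left ?_ (by positivity)
    refine (norm_sum_le _ _).trans ?_
    have : ∀ i ∈ (Finset.univ : Finset (Fin 3)),
        ‖dword (Sum.inr i :: Sum.inr i :: w) S.h x‖ ≤ K := fun i _ =>
      hh _ ((hw.cons i).cons i) (by simp)
    refine (Finset.sum_le_sum this).trans ?_
    simp
  -- the source `N`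
  have f1 : ‖⟪S.φ, dword w S.F x⟫_ℂ‖ ≤ K * S.A x :=
    (S.norm_inner_φ_le _).trans (hF w (by omega) x hx)
  have n1 : ‖((uD x + 2 / ‖x‖ : ℝ) : ℂ) * ⟪S.φ, dword w S.F x⟫_ℂ‖ ≤ Cu 0 * ρ * (K * S.A x) := by
    rw [norm_mul, Complex.norm_real, Real.norm_eq_abs]
    have h23 : (‖x‖ ^ 3)⁻¹ ≤ ρ := by
      apply inv_anti₀ (by positivity)
      exact pow_le_pow_right₀ hr1 (by norm_num)
    have a := (hu x (Ext_mono κ.R₁_ge hx1)).trans (mul_le_mul_of_nonneg_left h23 (hCu 0))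
    exact mul_le_mul a f1 (norm_nonneg _) (mul_nonneg (hCu 0) hr2.le)
  have n2 : ‖(S.lam : ℂ) * ⟪S.W x S.φ - (2 / ‖x‖) • S.φ, dword w S.F x⟫_ℂ‖
      ≤ |κ.C 0| * ρ * (K * S.A x) := by
    rw [norm_mul, Complex.norm_real, Real.norm_of_nonneg S.lam_nonneg]
    have a : ‖⟪S.W x S.φ - (2 / ‖x‖) • S.φ, dword w S.F x⟫_ℂ‖ ≤ |κ.C 0| * ρ * (K * S.A x) :=
      (norm_inner_le_norm _ _).trans (mul_le_mul (S.norm_dW_le hx1) (hF w (by omega) x hx)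
        (norm_nonneg _) (by positivity))
    calc S.lam * _ ≤ 1 * ‖⟪S.W x S.φ - (2 / ‖x‖) • S.φ, dword w S.F x⟫_ℂ‖ :=
          mul_le_mul_of_nonneg_right S.lam_le (norm_nonneg _)
      _ ≤ _ := by rw [one_mul]; exact a
  have n3 : ‖⟪S.φ, S.src w x⟫_ℂ‖ ≤ K * (S.A x * ρ) := (S.norm_inner_φ_le _).trans (hsrc x hx)
  have tN : ‖S.rayN w x‖ ≤ (Cu 0 + |κ.C 0| + 1) * K * ρ * S.A x := by
    unfold ChannelCore.rayN
    refine ((norm_sub_le _ _).trans (add_le_add ((norm_add_le _ _).trans (add_le_add n1 n2)) n3)).trans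
      (le_of_eq ?_)
    ring
  have t3 : ‖(((S.A x)⁻¹ : ℝ) : ℂ) * S.rayN w x‖ ≤ (Cu 0 + |κ.C 0| + 1) * K * ρ := by
    rw [norm_mul, Complex.norm_real, Real.norm_of_nonneg (inv_nonneg.2 hA.le)]
    calc (S.A x)⁻¹ * ‖S.rayN w x‖ ≤ (S.A x)⁻¹ * ((Cu 0 + |κ.C 0| + 1) * K * ρ * S.A x) :=
          mul_le_mul_of_nonneg_left tN (inv_nonneg.2 hA.le)
      _ = (Cu 0 + |κ.C 0| + 1) * K * ρ := by field_simp
  unfold ChannelCore.rayG
  refine ((norm_sub_le _ _).trans (add_le_add ((norm_add_le _ _).trans (add_le_add t1 t2)) t3)).trans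
    (le_of_eq ?_)
  ring

end Claimed.Open.R278
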