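import Claimed.Open.R278.CHTools

/-!
# Result 278, package CH1 (leading bounds and scalar amplitude), file 1: words of the potentials

Sub-captain helper162.  PAPER-FREE.  (The splits of a word and the Leibniz formula `dword_bilin` are in `CHTD0.lean`.)

* `ch1_uD_word` : nonempty words of `u` and of `2/r` are `O(r⁻²)`.

Leaf `CH1-W2`: PROVED, no `sorry` in this file.
-/

open MeasureTheory Filter
open scoped ContDiff InnerProductSpace ComplexConjugate ENNReal Topology Laplacian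
noncomputable section

namespace Claimed.Open.R278

/-! ## nonempty words of the potentials, decay -/

/-- Nonempty words of `u` and of `2/r` are `O(r⁻²)`; `u + 2/r = O(r⁻³)`.  From `uD_wordBdd`: a nonempty
word is `v ++ [a]`, `dword (v ++ [a]) σ = dword v (dfield a σ)`; `2/r = (u + 2/r) - u`, `r⁻³ ≤ r⁻²` on `Ext (2D)`. -/
theorem ch1_uD_word : ∃ C : ℕ → ℝ, (∀ n, 0 ≤ C n) ∧
    (∀ x ∈ Ext (2 * bigD), |uD x + 2 / ‖x‖| ≤ C 0 * (‖x‖ ^ 3)⁻¹) ∧
    ∀ w : List (Fin 3 ⊕ Fin 3), w ≠ [] → ∀ x ∈ Ext (2 * bigD),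
      |dword w uD x| ≤ C w.length * (‖x‖ ^ 2)⁻¹ ∧
      |dword w (fun y : Space => 2 / ‖y‖) x| ≤ C w.length * (‖x‖ ^ 2)⁻¹ := by
  obtain ⟨C, h1, h2, h3⟩ := uD_wordBdd
  have hD : (1 : ℝ) ≤ bigD := by unfold bigD; norm_num
  refine ⟨fun n => |C n| + |C (n - 1)|, fun n => by positivity, ?_, ?_⟩
  · intro x hx
    have := h2.2 [] x hx
    rw [dword_nil, Real.norm_eq_abs] at this
    refine this.trans (mul_le_mul_of_nonneg_right ?_ (by positivity))
    have a := le_abs_self (C 0)
    have b := abs_nonneg (C (0 - 1))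
    simp only [List.length_nil]
    linarith
  · intro w hw x hx
    have hr : 1 ≤ ‖x‖ := by
      have : 2 * bigD < ‖x‖ := hx
      linarith
    have h23 : (‖x‖ ^ 3)⁻¹ ≤ (‖x‖ ^ 2)⁻¹ := by
      apply inv_anti₀ (by positivity)
      exact pow_le_pow_right₀ hr (by norm_num)
    have hr2 : (0 : ℝ) ≤ (‖x‖ ^ 2)⁻¹ := by positivity
    have hr3 : (0 : ℝ) ≤ (‖x‖ ^ 3)⁻¹ := by positivity
    have hu : |dword w uD x| ≤ |C (w.length - 1)| * (‖x‖ ^ 2)⁻¹ := by
      rcases List.eq_nil_or_concat w with rfl | ⟨v, a, rfl⟩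
      · exact absurd rfl hw
      · rw [List.concat_eq_append, dword_append, List.length_append, List.length_singleton,
          Nat.add_sub_cancel]
        have := (h3 a).2 v x hx
        rw [Real.norm_eq_abs] at this
        exact this.trans (mul_le_mul_of_nonneg_right (le_abs_self _) hr2)
    refine ⟨hu.trans (mul_le_mul_of_nonneg_right (by have := abs_nonneg (C w.length); linarith) hr2),
      ?_⟩
    have e : (fun y : Space => 2 / ‖y‖) = fun y => (uD y + 2 / ‖y‖) - uD y := by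
      funext y; ring
    rw [e, dword_sub h2.1 h1.1 w x hx]
    have a := h2.2 w x hx
    rw [Real.norm_eq_abs] at a
    have a' : |dword w (fun x => uD x + 2 / ‖x‖) x| ≤ |C w.length| * (‖x‖ ^ 2)⁻¹ :=
      a.trans ((mul_le_mul_of_nonneg_right (le_abs_self _) hr3).trans
        (mul_le_mul_of_nonneg_left h23 (abs_nonneg _)))
    calc |dword w (fun y => uD y + 2 / ‖y‖) x - dword w uD x|
        ≤ |dword w (fun y => uD y + 2 / ‖y‖) x| + |dword w uD x| := abs_sub _ _
      _ ≤ |C w.length| * (‖x‖ ^ 2)⁻¹ + |C (w.length - 1)| * (‖x‖ ^ 2)⁻¹ := add_le_add a' hu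
      _ = (|C w.length| + |C (w.length - 1)|) * (‖x‖ ^ 2)⁻¹ := by ring

theorem ch1_contDiffOn_uD : ContDiffOn ℝ ∞ uD (Ext (2 * bigD)) := by
  obtain ⟨C, h, -⟩ := uD_wordBdd
  exact h.1

theorem ch1_ne_zero_of_mem_Ext {R : ℝ} (hR : 0 ≤ R) {x : Space} (hx : x ∈ Ext R) : x ≠ 0 := by
  intro h0
  have : R < ‖x‖ := hx
  rw [h0, norm_zero] at this
  linarith

/-- `2/r` is smooth away from the origin. -/
theorem contDiffOn_two_div_norm : ContDiffOn ℝ ∞ (fun y : Space => 2 / ‖y‖) (Ext 0) :=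
  contDiffOn_const.div (contDiffOn_norm_Ext le_rfl)
    (fun _ hx => norm_ne_zero_iff.2 (ch1_ne_zero_of_mem_Ext le_rfl hx))

/-- an exponentially bounded function tends to zero at infinity. -/
theorem ch1_decay {V : Type*} [NormedAddCommGroup V] {H : Space → V} {R C τ : ℝ} (hτ : 0 < τ)
    (h : ∀ x ∈ Ext R, ‖H x‖ ≤ C * Real.exp (-(τ * ‖x‖))) :
    Tendsto (fun x => ‖H x‖) (cocompact Space) (𝓝 0) := by
  have hn : Tendsto (fun x : Space => ‖x‖) (cocompact Space) atTop := tendsto_norm_cocompact_atTop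
  have h1 : Tendsto (fun x : Space => C * Real.exp (-(τ * ‖x‖))) (cocompact Space) (𝓝 0) := by
    have := (Real.tendsto_exp_neg_atTop_nhds_zero.comp (hn.const_mul_atTop hτ)).const_mul C
    simpa using this
  refine squeeze_zero' (Eventually.of_forall fun x => norm_nonneg _) ?_ h1
  filter_upwards [hn.eventually_gt_atTop R] with x hx
  exact h x hx

end Claimed.Open.R278
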