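import Claimed.Open.R278.CH2Defs

/-!
# Result 278, layer L4, file CH2A (leaf `CH2-A` in the team table)

Part of the package CH2 (parity, `H = QF - bG`, the plane ansatz); the plan is in `CH2.lean`.
Paper-free.  Leaf `CH2-A`: PROVED (helper225), no `sorry` in this file.  Auxiliary lemmas may be added;
statements are changed only after telling helper225 (channel open278).
-/

open MeasureTheory Filter
open scoped ContDiff InnerProductSpace ComplexConjugate ENNReal Topology Laplacian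

noncomputable section

namespace Claimed.Open.R278

variable {𝒦 : Type} [NormedAddCommGroup 𝒦] [InnerProductSpace ℂ 𝒦] [CompleteSpace 𝒦]
variable {κ : ChannelConsts} {b : Space → ℝ} {γ : ℝ}

/-! ## CH2a: consequences of oddness for the scalar channel -/

theorem ch2_A_reflZ (S : ChannelCore 𝒦 κ) (x : Space) : S.A (reflZ x) = S.A x := by
  simp only [ChannelCore.A, norm_reflZ]

theorem ch2_A_rotZ (S : ChannelCore 𝒦 κ) (α : ℝ) (x : Space) : S.A (rotZ α x) = S.A x := by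
  simp only [ChannelCore.A, norm_rotZ]

theorem ch2_h_odd (S : ChannelSys 𝒦 κ b γ) : ∀ x ∈ Ext κ.R₁, S.h (reflZ x) = -S.h x := by
  intro x hx
  simp only [ChannelCore.h, ChannelCore.f]
  rw [S.f_odd x hx, ch2_A_reflZ, neg_div]

theorem ch2_h_axi (S : ChannelSys 𝒦 κ b γ) (α : ℝ) : ∀ x ∈ Ext κ.R₁, S.h (rotZ α x) = S.h x := by
  intro x hx
  simp only [ChannelCore.h, ChannelCore.f]
  rw [S.f_axi α x hx, ch2_A_rotZ]

theorem rotZ_smul (α c : ℝ) (x : Space) : rotZ α (c • x) = c • rotZ α x := by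
  apply space_ext <;> simp [rotZ] <;> ring

theorem ch2_ray_mem {x : Space} (hx : x ∈ Ext 0) (R : ℝ) :
    ∀ᶠ ρ : ℝ in atTop, (ρ / ‖x‖) • x ∈ Ext R := by
  have hx0 : (0 : ℝ) < ‖x‖ := hx
  filter_upwards [eventually_gt_atTop (max R 0)] with ρ hρ
  have h0 : 0 < ρ := lt_of_le_of_lt (le_max_right _ _) hρ
  show R < ‖(ρ / ‖x‖) • x‖
  rw [norm_smul, Real.norm_of_nonneg (by positivity), div_mul_cancel₀ _ hx0.ne']
  exact lt_of_le_of_lt (le_max_left _ _) hρ

/-- limits of odd functions. -/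
theorem ch2_a₀_odd (S : ChannelSys 𝒦 κ b γ) : ∀ x ∈ Ext 0, S.a₀ (reflZ x) = -S.a₀ x := by
  intro x hx
  have h1 := ch1_tendsto_a₀ S.toChannelCore (reflZ x) (reflZ_mem_Ext hx)
  have h2 := (ch1_tendsto_a₀ S.toChannelCore x hx).neg
  refine tendsto_nhds_unique h1 (h2.congr' ?_)
  filter_upwards [ch2_ray_mem hx κ.R₁] with ρ hρ
  rw [norm_reflZ, ← reflZ_smul, ch2_h_odd S _ hρ]

theorem ch2_a₀_axi (S : ChannelSys 𝒦 κ b γ) (α : ℝ) : ∀ x ∈ Ext 0, S.a₀ (rotZ α x) = S.a₀ x := by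
  intro x hx
  have h1 := ch1_tendsto_a₀ S.toChannelCore (rotZ α x) (rotZ_mem_Ext α hx)
  have h2 := ch1_tendsto_a₀ S.toChannelCore x hx
  refine tendsto_nhds_unique h1 (h2.congr' ?_)
  filter_upwards [ch2_ray_mem hx κ.R₁] with ρ hρ
  rw [norm_rotZ, ← rotZ_smul, ch2_h_axi S α _ hρ]

theorem isRotWord_singleton (i : Fin 3) : IsRotWord [Sum.inr i] := isRotWord_nil.cons i

theorem single_zero_mem_Ext : (EuclideanSpace.single 0 (1 : ℝ) : Space) ∈ Ext 0 := by
  show (0 : ℝ) < ‖(EuclideanSpace.single 0 (1 : ℝ) : Space)‖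
  simp

/-- `|a'| ≤ C` (`channel_amplitude`, word `[Ω₁]` at `e₀`). -/
theorem ch2_slope_bound (κ : ChannelConsts) (b : Space → ℝ) (γ : ℝ) :
    ∃ C : ℝ, ∀ S : ChannelSys 𝒦 κ b γ, ‖S.slope‖ ≤ C := by
  obtain ⟨R₀, C, -, h⟩ := channel_amplitude (𝒦 := 𝒦) κ
  refine ⟨C 1, fun S => ?_⟩
  have := (h S.toChannelCore).2.2.1 [Sum.inr 1] (isRotWord_singleton 1) _ single_zero_mem_Ext
  simpa [ChannelSys.slope, dword_cons, dword_nil] using this


theorem dr_neg_fun {V : Type*} [NormedAddCommGroup V] [NormedSpace ℝ V] (H : Space → V)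
    (x : Space) : dr (fun y => -H y) x = -dr H x := by
  simp only [dr]
  rw [show (fun y => -H y) = -H from rfl, fderiv_neg]; rfl

theorem dr_odd {V : Type*} [NormedAddCommGroup V] [NormedSpace ℝ V] {R : ℝ} {H : Space → V}
    (hodd : ∀ x ∈ Ext R, H (reflZ x) = -H x) : ∀ x ∈ Ext R, dr H (reflZ x) = -dr H x := by
  intro x hx
  rw [← dr_comp_reflZ' H x, dr_congr hodd x hx, dr_neg_fun]

/-- **CH2a**.  `odd_bound` for `h`, `h - a₀`, `∂_r h`, `∂_r² h` (all odd: `dr_comp_reflZ`; their rotation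
derivatives are controlled by `channel_amplitude` with words of length `1`, using
`dfield_rot_dr`), and `odd_axisym_taylor` for `a₀`. -/
theorem channel_odd (κ : ChannelConsts) (b : Space → ℝ) (γ : ℝ) :
    ∃ (R₀ C : ℝ), κ.R₁ ≤ R₀ ∧ ∀ S : ChannelSys 𝒦 κ b γ, ∀ x ∈ Ext R₀,
      ‖S.h x‖ ≤ C * |tz x| ∧
      ‖S.h x - S.a₀ x‖ ≤ C * |tz x| / ‖x‖ ∧
      ‖S.a₀ x - S.slope * tz x‖ ≤ C * tz x ^ 2 ∧
      ‖dr S.h x‖ ≤ C * |tz x| / ‖x‖ ^ 2 ∧
      ‖dr (dr S.h) x‖ ≤ C * |tz x| / ‖x‖ ^ 2 := by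
  obtain ⟨R₀, C, hR₀, h⟩ := channel_amplitude (𝒦 := 𝒦) κ
  refine ⟨R₀, 3 * |C 1| + 8 * (|C 1| + |C 2|), hR₀, fun S x hx => ?_⟩
  obtain ⟨ha_smooth, ha_hom, ha_bd, hw⟩ := h S.toChannelCore
  have hR0 : 0 ≤ R₀ := (ChannelCore.R₁_pos κ).le.trans hR₀
  have hr : 0 < ‖x‖ := norm_pos_of_mem_Ext hR0 hx
  have hh : ContDiffOn ℝ ∞ S.h (Ext R₀) := S.contDiffOn_h.mono (Ext_mono hR₀)
  have ha : ContDiffOn ℝ ∞ S.a₀ (Ext R₀) := ha_smooth.mono (Ext_mono hR0)
  have hodd : ∀ y ∈ Ext R₀, S.h (reflZ y) = -S.h y := fun y hy => ch2_h_odd S y (Ext_mono hR₀ hy)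
  have hmem : ∀ y : Space, ‖y‖ = ‖x‖ → y ∈ Ext R₀ := fun y hy => by
    show R₀ < ‖y‖
    rw [hy]; exact hx
  have hle : (1 : ℕ∞ω) ≤ ((⊤ : ℕ∞) : ℕ∞ω) := WithTop.coe_le_coe.2 le_top
  have ht0 : 0 ≤ |tz x| := abs_nonneg _
  have hK1 : 3 * C 1 ≤ 3 * |C 1| + 8 * (|C 1| + |C 2|) := by
    have := le_abs_self (C 1)
    have := abs_nonneg (C 1)
    have := abs_nonneg (C 2)
    linarith
  refine ⟨?_, ?_, ?_, ?_, ?_⟩
  · have := odd_bound hR0 (hh.of_le hle) hodd hx (M := C 1) fun y hy i =>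
      (hw [Sum.inr i] (isRotWord_singleton i) y (hmem y hy)).1
    exact this.trans (mul_le_mul_of_nonneg_right hK1 ht0)
  · have := odd_bound hR0 ((hh.sub ha).of_le hle) (H := fun y => S.h y - S.a₀ y)
      (fun y hy => by
        rw [hodd y hy, ch2_a₀_odd S y (Ext_mono hR0 hy)]; ring) hx (M := C 1 * ‖x‖⁻¹)
      fun y hy i => by
        have h1 := (hw [Sum.inr i] (isRotWord_singleton i) y (hmem y hy)).2.1
        rw [dfield_sub (differentiableAt_of_mem_Ext hh (hmem y hy))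
          (differentiableAt_of_mem_Ext ha (hmem y hy)), ← hy]
        exact h1
    refine this.trans (le_of_eq_of_le ?_
      (div_le_div_of_nonneg_right (mul_le_mul_of_nonneg_right hK1 ht0) hr.le))
    field_simp
  · have := odd_axisym_taylor (ha_smooth.of_le (WithTop.coe_le_coe.2 le_top)) ha_hom
      (ch2_a₀_odd S) (fun α => ch2_a₀_axi S α) (M := |C 1| + |C 2|) (fun y hy => by
        have h1 := ha_bd [Sum.inr 1] (isRotWord_singleton 1) y hy
        have h2 := ha_bd [Sum.inr 1, Sum.inr 1] ((isRotWord_singleton 1).cons 1) y hy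
        have h3 := le_abs_self (C 1)
        have h4 := le_abs_self (C 2)
        have h5 := abs_nonneg (C 1)
        have h6 := abs_nonneg (C 2)
        simp only [dword_cons, dword_nil, List.length_cons, List.length_nil] at h1 h2
        norm_num at h1 h2
        exact ⟨by linarith, by linarith⟩) x (Ext_mono hR0 hx)
    refine this.trans (mul_le_mul_of_nonneg_right ?_ (sq_nonneg _))
    have := abs_nonneg (C 1)
    linarith
  · have := odd_bound hR0 ((contDiffOn_dr hR0 hh).of_le hle) (dr_odd hodd) hx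
      (M := C 1 * (‖x‖ ^ 2)⁻¹) fun y hy i => by
        have h1 := (hw [Sum.inr i] (isRotWord_singleton i) y (hmem y hy)).2.2.1
        rw [dfield_rot_dr hR0 hh i y (hmem y hy), ← hy]
        exact h1
    refine this.trans (le_of_eq_of_le ?_
      (div_le_div_of_nonneg_right (mul_le_mul_of_nonneg_right hK1 ht0) (by positivity)))
    field_simp
  · have := odd_bound hR0 ((contDiffOn_dr hR0 (contDiffOn_dr hR0 hh)).of_le hle)
      (dr_odd (dr_odd hodd)) hx (M := C 1 * (‖x‖ ^ 2)⁻¹) fun y hy i => by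
        have h1 := (hw [Sum.inr i] (isRotWord_singleton i) y (hmem y hy)).2.2.2
        rw [dfield_rot_dr hR0 (contDiffOn_dr hR0 hh) i y (hmem y hy),
          dr_congr (dfield_rot_dr hR0 hh i) y (hmem y hy), ← hy]
        exact h1
    refine this.trans (le_of_eq_of_le ?_
      (div_le_div_of_nonneg_right (mul_le_mul_of_nonneg_right hK1 ht0) (by positivity)))
    field_simp

/-- consequence: `f = a' A t + O(A (t² + |t|/r))`. -/
theorem ch2_f_expansion (κ : ChannelConsts) (b : Space → ℝ) (γ : ℝ) :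
    ∃ (R₀ C : ℝ), κ.R₁ ≤ R₀ ∧ ∀ S : ChannelSys 𝒦 κ b γ, ∀ x ∈ Ext R₀,
      ‖S.f x - S.slope * ((S.A x * tz x : ℝ) : ℂ)‖ ≤ C * S.A x * (tz x ^ 2 + |tz x| / ‖x‖) ∧
      ‖S.f x‖ ≤ C * S.A x * |tz x| := by
  obtain ⟨R₀, C, hR₀, h⟩ := channel_odd (𝒦 := 𝒦) κ b γ
  refine ⟨R₀, C, hR₀, fun S x hx => ?_⟩
  obtain ⟨h1, h2, h3, -, -⟩ := h S x hx
  have hR0 : 0 ≤ R₀ := (ChannelCore.R₁_pos κ).le.trans hR₀
  have hA : 0 < S.A x := S.A_pos (ne_zero_of_mem_Ext hR0 hx)
  have hf : S.f x = (S.A x : ℂ) * S.h x := by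
    simp only [ChannelCore.h]
    have : (S.A x : ℂ) ≠ 0 := by exact_mod_cast hA.ne'
    field_simp
  constructor
  · have e : S.f x - S.slope * ((S.A x * tz x : ℝ) : ℂ)
        = (S.A x : ℂ) * ((S.h x - S.a₀ x) + (S.a₀ x - S.slope * tz x)) := by
      rw [hf]; push_cast; ring
    rw [e, norm_mul, Complex.norm_real, Real.norm_of_nonneg hA.le]
    calc S.A x * ‖(S.h x - S.a₀ x) + (S.a₀ x - S.slope * tz x)‖
        ≤ S.A x * (C * |tz x| / ‖x‖ + C * tz x ^ 2) := by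
          gcongr
          exact (norm_add_le _ _).trans (add_le_add h2 h3)
      _ = _ := by ring
  · rw [hf, norm_mul, Complex.norm_real, Real.norm_of_nonneg hA.le]
    calc S.A x * ‖S.h x‖ ≤ S.A x * (C * |tz x|) := by gcongr
      _ = _ := by ring

end Claimed.Open.R278
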