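import Claimed.Open.R278.CH2A

/-!
# Result 278, layer L4, file CH2B (leaf `CH2-B` in the team table)

Part of the package CH2 (parity, `H = QF - bG`, the plane ansatz); the plan is in `CH2.lean`.
Paper-free.  Leaf `CH2-B`: PROVED (helper225), no `sorry` in this file.  Auxiliary lemmas may be added;
statements are changed only after telling helper225 (channel open278).
-/

open MeasureTheory Filter
open scoped ContDiff InnerProductSpace ComplexConjugate ENNReal Topology Laplacian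

noncomputable section

namespace Claimed.Open.R278

variable {𝒦 : Type} [NormedAddCommGroup 𝒦] [InnerProductSpace ℂ 𝒦] [CompleteSpace 𝒦]
variable {κ : ChannelConsts} {b : Space → ℝ} {γ : ℝ}

/-! ## CH2b: `H = QF - bG = O(λ A r⁻²)` with all words -/

/-- `‖Rr v‖ ≤ ‖v‖ / c` (from `Rr_gap` and Cauchy-Schwarz). -/
theorem ChannelCore.norm_Rr_le (S : ChannelCore 𝒦 κ) (v : 𝒦) : ‖S.Rr v‖ ≤ κ.c⁻¹ * ‖v‖ := by
  have h1 := S.Rr_gap v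
  have h2 := ch1_re_inner_le (S.Rr v) v
  have hc := κ.c_pos
  by_cases h0 : ‖S.Rr v‖ = 0
  · rw [h0]; positivity
  · have hpos : 0 < ‖S.Rr v‖ := lt_of_le_of_ne (norm_nonneg _) (Ne.symm h0)
    have h3 : κ.c * ‖S.Rr v‖ ≤ ‖v‖ := by
      have : κ.c * ‖S.Rr v‖ * ‖S.Rr v‖ ≤ ‖v‖ * ‖S.Rr v‖ := by nlinarith
      exact le_of_mul_le_mul_right this hpos
    rw [inv_mul_eq_div, le_div_iff₀ hc]
    linarith

theorem ch2_contDiffOn_H {Cb : ℕ → ℝ} {cb : ℝ} (hb : FastOrbital b γ κ.R₁ Cb cb)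
    (S : ChannelSys 𝒦 κ b γ) : ContDiffOn ℝ ∞ S.H (Ext κ.R₁) :=
  (S.contDiffOn_Q S.F_bdd.1).sub (hb.smooth.smul contDiffOn_const)

/-- `ChanEq.toQ` for `(F, Res)`. -/
theorem ch2_qeq_QF (S : ChannelSys 𝒦 κ b γ) :
    QEq S.toChannelCore S.W κ.R₁ (fun x => S.Q (S.F x)) S.SrcQF :=
  ChanEq.toQ le_rfl S.toChannelCore.chanEq S.F_bdd.1

/-- `bG = Rr (b G♯)`, `𝒢[bG] = ((γ²-k²)/2) b G - λ b W G` (`chanG_smul_vec`, `FastOrbital.eq`). -/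
theorem ch2_qeq_bG {Cb : ℕ → ℝ} {cb : ℝ} (hb : FastOrbital b γ κ.R₁ Cb cb)
    (S : ChannelSys 𝒦 κ b γ) :
    QEq S.toChannelCore S.W κ.R₁ (fun x => b x • S.G) S.SrcB := by
  intro x hx
  rw [chanG_smul_vec S.G (contDiffAt_two_of_mem_Ext hb.smooth hx)]
  have h1 := hb.eq x hx
  have h2 : (1 / 2) * Δ b x - (S.k ^ 2 / 2 + uD x) * b x = (γ ^ 2 - S.k ^ 2) / 2 * b x := by
    linear_combination h1
  rw [h2]
  have e : ((γ ^ 2 - S.k ^ 2) / 2 * b x) • S.G - (S.lam * b x) • S.W x S.G + S.SrcB x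
      = b x • S.Gs := by
    simp only [ChannelSys.SrcB, ChannelSys.g₀]
    module
  rw [e, clmC_real_smul, ← S.G_eq]

theorem ch2_qeq_H {Cb : ℕ → ℝ} {cb : ℝ} (hb : FastOrbital b γ κ.R₁ Cb cb)
    (S : ChannelSys 𝒦 κ b γ) : QEq S.toChannelCore S.W κ.R₁ S.H S.SrcH :=
  (ch2_qeq_QF S).sub (ch2_qeq_bG hb S) (S.contDiffOn_Q S.F_bdd.1)
    (hb.smooth.smul contDiffOn_const)

theorem ChannelCore.β_eq_betaOf (S : ChannelCore 𝒦 κ) : S.β = betaOf S.lam S.k := rfl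

theorem ChannelCore.A_nonneg (S : ChannelCore 𝒦 κ) (x : Space) : 0 ≤ S.A x :=
  mul_nonneg (Real.exp_pos _).le (Real.rpow_nonneg (norm_nonneg _) _)

theorem one_lt_norm_of_mem_Ext_R₁ {x : Space} (hx : x ∈ Ext κ.R₁) : 1 < ‖x‖ := by
  have h1 : κ.R₁ < ‖x‖ := hx
  have h2 := κ.R₁_ge
  have h3 := cht_one_le_bigD
  linarith

/-- faster exponentials, in terms of `S.A`. -/
theorem ch2_exp_le (κ : ChannelConsts) (a : ℝ) (m : ℕ) : ∃ C : ℝ, 0 < C ∧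
    ∀ (S : ChannelCore 𝒦 κ) (σ : ℝ), S.k + κ.μ ≤ σ → ∀ x ∈ Ext κ.R₁,
      Real.exp (-(σ * ‖x‖)) * ‖x‖ ^ a ≤ C * (S.A x * (‖x‖ ^ m)⁻¹) := by
  obtain ⟨C, hC, h⟩ := exp_le_radialA κ.μ κ.μ_pos a m
  exact ⟨C, hC, fun S σ hσ x hx => h S.k S.lam σ ‖x‖ S.k_lo.le S.k_hi.le S.lam_nonneg S.lam_le hσ
    (one_lt_norm_of_mem_Ext_R₁ hx).le⟩

/-- the fast orbital is negligible: all words of `b` are `O(A r^{-m})`
(`FastOrbital.words`, `upper`, `exp_le_radialA` with `σ = γ ≥ k + μ`, `a = 2/γ - 1`). -/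
theorem ch2_b_bdd (κ : ChannelConsts) (b : Space → ℝ) (γ : ℝ) (Cb : ℕ → ℝ) (cb : ℝ)
    (hb : FastOrbital b γ κ.R₁ Cb cb) (m : ℕ) : ∃ C : ℕ → ℝ, ∀ S : ChannelSys 𝒦 κ b γ,
      WordBdd κ.R₁ C (fun x => S.A x * (‖x‖ ^ m)⁻¹) b := by
  obtain ⟨Ce, hCe, he⟩ := ch2_exp_le (𝒦 := 𝒦) κ (2 / γ - 1) m
  refine ⟨fun n => |Cb n| * (|Cb 0| * Ce), fun S => ⟨hb.smooth, fun w x hx => ?_⟩⟩
  have hr : 0 < ‖x‖ := lt_trans zero_lt_one (one_lt_norm_of_mem_Ext_R₁ hx)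
  have hb0 : 0 ≤ b x :=
    (mul_nonneg hb.c_pos.le (radialA_pos γ (2 / γ - 1) hr).le).trans (hb.lower x hx)
  have h1 := hb.words w x hx
  have h2 := hb.upper x hx
  have h3 := he S.toChannelCore γ S.k_sep x hx
  have h4 : b x ≤ |Cb 0| * (Ce * (S.A x * (‖x‖ ^ m)⁻¹)) :=
    h2.trans ((mul_le_mul_of_nonneg_right (le_abs_self _) (radialA_pos γ _ hr).le).trans
      (mul_le_mul_of_nonneg_left h3 (abs_nonneg _)))
  calc ‖dword w b x‖ ≤ Cb w.length * b x := h1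
    _ ≤ |Cb w.length| * b x := mul_le_mul_of_nonneg_right (le_abs_self _) hb0
    _ ≤ |Cb w.length| * (|Cb 0| * (Ce * (S.A x * (‖x‖ ^ m)⁻¹))) :=
        mul_le_mul_of_nonneg_left h4 (abs_nonneg _)
    _ = _ := by ring

/-! ### small calculus of word bounds -/

section wcalc
variable {V : Type*} [NormedAddCommGroup V] [NormedSpace ℝ V]

/-- a nonnegative constant goes into the profile. -/
theorem WordBdd.const_smul_profile {R : ℝ} {C : ℕ → ℝ} {g : Space → ℝ} {σ : Space → V}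
    (h : WordBdd R C g σ) {c : ℝ} (hc : 0 ≤ c) :
    WordBdd R C (fun x => c * g x) (fun x => c • σ x) := by
  refine ⟨h.1.const_smul c, fun w x hx => ?_⟩
  rw [ch1_dword_const_smul h.1 c w x hx, norm_smul, Real.norm_of_nonneg hc]
  calc c * ‖dword w σ x‖ ≤ c * (C w.length * g x) := mul_le_mul_of_nonneg_left (h.2 w x hx) hc
    _ = _ := by ring

/-- scalar symbol times a fixed vector of norm `≤ B c`. -/
theorem WordBdd.smul_vec_profile {R : ℝ} {C : ℕ → ℝ} {g : Space → ℝ} {ψ : Space → ℝ}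
    (h : WordBdd R C g ψ) {v : V} {B c : ℝ} (hv : ‖v‖ ≤ B * c) :
    WordBdd R (fun n => C n * B) (fun x => c * g x) (fun x => ψ x • v) := by
  refine ⟨h.1.smul contDiffOn_const, fun w x hx => ?_⟩
  have e := dword_clm h.1 ((ContinuousLinearMap.id ℝ ℝ).smulRight v) w x hx
  have e' : dword w (fun y => ψ y • v) x = dword w ψ x • v := by simpa using e
  rw [e', norm_smul]
  have h1 := h.2 w x hx
  calc ‖dword w ψ x‖ * ‖v‖ ≤ (C w.length * g x) * (B * c) :=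
        mul_le_mul h1 hv (norm_nonneg _) ((norm_nonneg _).trans h1)
    _ = _ := by ring

end wcalc


theorem ChannelSys.norm_G (S : ChannelSys 𝒦 κ b γ) : ‖S.G‖ = √2 := by
  rw [← S.G_norm, Real.sqrt_sq (norm_nonneg _)]

theorem ChannelSys.norm_g₀_le (S : ChannelSys 𝒦 κ b γ) : ‖S.g₀‖ ≤ κ.C 0 * S.lam := by
  simp only [ChannelSys.g₀]
  rw [norm_sub_rev]
  exact S.Gs_close

/-- `x ↦ W(x) v` for a fixed vector. -/
theorem ch2_W_vec_bdd (S : ChannelCore 𝒦 κ) (v : 𝒦) :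
    WordBdd κ.R₁ (mulC κ.C (fun _ => ‖v‖)) (fun x => ‖x‖⁻¹) (fun x => S.W x v) := by
  have h := S.W_bdd.applyC (fun x _ => by positivity) (fun _ _ => zero_le_one)
    (wordBdd_const κ.R₁ v)
  simpa using h

/-- the residual. -/
theorem ch2_Res_bdd (κ : ChannelConsts) (m : ℕ) : ∃ C : ℕ → ℝ, ∀ S : ChannelCore 𝒦 κ,
    WordBdd κ.R₁ C (fun x => S.lam * (S.A x * (‖x‖ ^ m)⁻¹)) S.Res := by
  obtain ⟨Ce, hCe, he⟩ := ch2_exp_le (𝒦 := 𝒦) κ 0 m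
  refine ⟨fun n => |κ.C n| * Ce, fun S => S.Res_bdd.mono le_rfl fun n x hx => ?_⟩
  have h1 := he S κ.σ S.sigma_gt x hx
  rw [Real.rpow_zero, mul_one] at h1
  have h2 : 0 ≤ S.lam * Real.exp (-(κ.σ * ‖x‖)) := mul_nonneg S.lam_nonneg (Real.exp_pos _).le
  calc κ.C n * (S.lam * Real.exp (-(κ.σ * ‖x‖)))
      ≤ |κ.C n| * (S.lam * Real.exp (-(κ.σ * ‖x‖))) :=
        mul_le_mul_of_nonneg_right (le_abs_self _) h2
    _ ≤ |κ.C n| * (S.lam * (Ce * (S.A x * (‖x‖ ^ m)⁻¹))) := by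
        gcongr
        exact S.lam_nonneg
    _ = _ := by ring

/-- `b g₀ = O(λ A r^{-m})`. -/
theorem ch2_b_g₀_bdd (κ : ChannelConsts) (b : Space → ℝ) (γ : ℝ) (Cb : ℕ → ℝ) (cb : ℝ)
    (hb : FastOrbital b γ κ.R₁ Cb cb) (m : ℕ) : ∃ C : ℕ → ℝ, ∀ S : ChannelSys 𝒦 κ b γ,
      WordBdd κ.R₁ C (fun x => S.lam * (S.A x * (‖x‖ ^ m)⁻¹)) (fun x => b x • S.g₀) := by
  obtain ⟨C, hC⟩ := ch2_b_bdd (𝒦 := 𝒦) κ b γ Cb cb hb m
  exact ⟨fun n => C n * κ.C 0, fun S => (hC S).smul_vec_profile S.norm_g₀_le⟩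

/-- `λ b W G = O(λ A r^{-m-1})`. -/
theorem ch2_b_W_G_bdd (κ : ChannelConsts) (b : Space → ℝ) (γ : ℝ) (Cb : ℕ → ℝ) (cb : ℝ)
    (hb : FastOrbital b γ κ.R₁ Cb cb) (m : ℕ) : ∃ C : ℕ → ℝ, ∀ S : ChannelSys 𝒦 κ b γ,
      WordBdd κ.R₁ C (fun x => S.lam * (S.A x * (‖x‖ ^ (m + 1))⁻¹))
        (fun x => (S.lam * b x) • S.W x S.G) := by
  obtain ⟨C, hC⟩ := ch2_b_bdd (𝒦 := 𝒦) κ b γ Cb cb hb m
  refine ⟨mulC C (mulC κ.C (fun _ => √2)), fun S => ?_⟩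
  have h1 := ch2_W_vec_bdd S.toChannelCore S.G
  rw [S.norm_G] at h1
  have h2 := ((hC S).smul (fun x _ => mul_nonneg (S.A_nonneg x) (by positivity))
    (fun x _ => by positivity) h1).const_smul_profile S.lam_nonneg
  refine (h2.congr fun x _ => by rw [mul_smul]).mono le_rfl fun n x _ => le_of_eq ?_
  rw [pow_succ, mul_inv]; ring

/-- `λ f (Wφ - (2/r)φ) = O(λ A r⁻²)`. -/
theorem ch2_f_dW_bdd (κ : ChannelConsts) : ∃ (R₀ : ℝ) (C : ℕ → ℝ), κ.R₁ ≤ R₀ ∧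
    ∀ S : ChannelCore 𝒦 κ, WordBdd R₀ C (fun x => S.lam * (S.A x * (‖x‖ ^ 2)⁻¹))
      (fun x => ((S.lam : ℂ) * ⟪S.φ, S.F x⟫_ℂ) • (S.W x S.φ - (2 / ‖x‖) • S.φ)) := by
  obtain ⟨R₀, C, hR₀, h⟩ := ch1_f_bdd (𝒦 := 𝒦) κ
  refine ⟨R₀, mulC C κ.C, hR₀, fun S => ?_⟩
  have h1 := ((h S).smulC (fun x _ => S.A_nonneg x) (fun x _ => by positivity)
    (S.Wφ_bdd.mono hR₀ fun _ _ _ => le_rfl)).const_smul_profile S.lam_nonneg
  exact h1.congr fun x _ => by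
    rw [mul_smul, Complex.coe_smul]; rfl

/-- `SrcH = O(λ A r⁻²)` with all words: `Res_bdd` + `exp_le_radialA`; `ch1_f_bdd` × `Wφ_bdd`;
`ch2_b_bdd` × (`‖g₀‖ ≤ C λ` by `Gs_close`); `ch2_b_bdd` × `W_bdd` × `‖G‖ = √2`. -/
theorem ch2_SrcH_bdd (κ : ChannelConsts) (b : Space → ℝ) (γ : ℝ) (Cb : ℕ → ℝ) (cb : ℝ)
    (hb : FastOrbital b γ κ.R₁ Cb cb) : ∃ (R₀ : ℝ) (C : ℕ → ℝ), κ.R₁ ≤ R₀ ∧
      ∀ S : ChannelSys 𝒦 κ b γ, WordBdd R₀ C (fun x => S.lam * (S.A x * (‖x‖ ^ 2)⁻¹)) S.SrcH := by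
  obtain ⟨C₁, h₁⟩ := ch2_Res_bdd (𝒦 := 𝒦) κ 2
  obtain ⟨R₀, C₂, hR₀, h₂⟩ := ch2_f_dW_bdd (𝒦 := 𝒦) κ
  obtain ⟨C₃, h₃⟩ := ch2_b_g₀_bdd (𝒦 := 𝒦) κ b γ Cb cb hb 2
  obtain ⟨C₄, h₄⟩ := ch2_b_W_G_bdd (𝒦 := 𝒦) κ b γ Cb cb hb 1
  refine ⟨R₀, fun n => C₁ n + C₂ n + (C₃ n + C₄ n), hR₀, fun S => ?_⟩
  exact (((h₁ S.toChannelCore).mono hR₀ fun _ _ _ => le_rfl).sub (h₂ S.toChannelCore)).sub
    (((h₃ S).mono hR₀ fun _ _ _ => le_rfl).add ((h₄ S).mono hR₀ fun _ _ _ => le_rfl))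


/-- **CH2b**: `H = QF - bG = O(λ A r⁻²)` with all words (`qeq_words` with `m = 2`, `K = λ`; the a priori
bound is `diff_bdd`). -/
theorem channel_H (κ : ChannelConsts) (b : Space → ℝ) (γ : ℝ) (Cb : ℕ → ℝ) (cb : ℝ)
    (hb : FastOrbital b γ κ.R₁ Cb cb) :
    ∃ (R₀ : ℝ) (C : ℕ → ℝ), κ.R₁ ≤ R₀ ∧ ∀ S : ChannelSys 𝒦 κ b γ,
      WordBdd R₀ C (fun x => S.lam * S.A x * (‖x‖ ^ 2)⁻¹) S.H := by
  obtain ⟨Rs, hRs, h⟩ := qeq_words (𝒦 := 𝒦) κ 2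
  obtain ⟨R₁', C₁, hR₁', hC₁⟩ := ch2_SrcH_bdd (𝒦 := 𝒦) κ b γ Cb cb hb
  obtain ⟨C', hC'⟩ := h (max Rs R₁') (le_max_left _ _) (fun n => max (κ.C n) (C₁ n))
  refine ⟨max Rs R₁', C', hRs.le.trans (le_max_left _ _), fun S => ?_⟩
  have hA : ∀ x : Space, 0 ≤ S.lam * (S.A x * (‖x‖ ^ 2)⁻¹) := fun x =>
    mul_nonneg S.lam_nonneg
      (mul_nonneg (mul_nonneg (Real.exp_pos _).le (Real.rpow_nonneg (norm_nonneg _) _))
        (inv_nonneg.2 (by positivity)))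
  have h1 : WordBdd κ.R₁ (fun n => max (κ.C n) (C₁ n))
      (fun x => S.lam * Real.exp (-(κ.τ * ‖x‖))) S.H :=
    S.diff_bdd.mono le_rfl fun n x _ =>
      mul_le_mul_of_nonneg_right (le_max_left _ _) (mul_nonneg S.lam_nonneg (Real.exp_pos _).le)
  have h2 : WordBdd (max Rs R₁') (fun n => max (κ.C n) (C₁ n))
      (fun x => S.lam * (S.A x * (‖x‖ ^ 2)⁻¹)) S.SrcH :=
    (hC₁ S).mono (le_max_right _ _) fun n x _ =>
      mul_le_mul_of_nonneg_right (le_max_right _ _) (hA x)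
  have h3 := hC' S.toChannelCore S.lam S.H S.SrcH S.lam_nonneg
    ((ch2_qeq_H hb S).mono (hRs.le.trans (le_max_left _ _))) h1 h2
  exact h3.mono le_rfl fun n x _ => by rw [mul_assoc S.lam]

/-- the odd and even parts inherit the bounds (`WordBdd.comp_reflZ`). -/
theorem ch2_Hodd_Hev_bdd (κ : ChannelConsts) (b : Space → ℝ) (γ : ℝ) (Cb : ℕ → ℝ) (cb : ℝ)
    (hb : FastOrbital b γ κ.R₁ Cb cb) :
    ∃ (R₀ : ℝ) (C : ℕ → ℝ), κ.R₁ ≤ R₀ ∧ ∀ S : ChannelSys 𝒦 κ b γ,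
      WordBdd R₀ C (fun x => S.lam * S.A x * (‖x‖ ^ 2)⁻¹) S.Hodd ∧
      WordBdd R₀ C (fun x => S.lam * S.A x * (‖x‖ ^ 2)⁻¹) S.Hev := by
  obtain ⟨R₀, C, hR₀, h⟩ := channel_H (𝒦 := 𝒦) κ b γ Cb cb hb
  refine ⟨R₀, fun n => ‖(1 / 2 : ℝ) • ContinuousLinearMap.id ℝ 𝒦‖ * (C n + C n), hR₀, fun S => ?_⟩
  have h1 := h S
  have h2 := h1.comp_reflZ fun x => by rw [ch2_A_reflZ, norm_reflZ]
  exact ⟨(h1.sub h2).clm ((1 / 2 : ℝ) • ContinuousLinearMap.id ℝ 𝒦),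
    (h1.add h2).clm ((1 / 2 : ℝ) • ContinuousLinearMap.id ℝ 𝒦)⟩

end Claimed.Open.R278
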