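import Claimed.Open.R278.CH2B

/-!
# Result 278, layer L4, file CH2C (leaf `CH2-C` in the team table)

Part of the package CH2 (parity, `H = QF - bG`, the plane ansatz); the plan is in `CH2.lean`.
Paper-free.  Leaf `CH2-C`: PROVED (helper225), no `sorry` in this file.  Auxiliary lemmas may be added;
statements are changed only after telling helper225 (channel open278).
-/

open MeasureTheory Filter
open scoped ContDiff InnerProductSpace ComplexConjugate ENNReal Topology Laplacian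

noncomputable section

namespace Claimed.Open.R278

variable {𝒦 : Type} [NormedAddCommGroup 𝒦] [InnerProductSpace ℂ 𝒦] [CompleteSpace 𝒦]
variable {κ : ChannelConsts} {b : Space → ℝ} {γ : ℝ}

/-! ## CH2c, part 1: the equations of `H⁺` and `E` -/

theorem ChannelSys.Wp_apply (S : ChannelSys 𝒦 κ b γ) (x : Space) (v : 𝒦) :
    S.Wp x v = (1 / 2 : ℝ) • (S.W x v + S.W (reflZ x) v) := rfl

theorem ChannelSys.Wm_apply (S : ChannelSys 𝒦 κ b γ) (x : Space) (v : 𝒦) :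
    S.Wm x v = (1 / 2 : ℝ) • (S.W x v - S.W (reflZ x) v) := rfl

theorem ch2_Wp_nonneg (S : ChannelSys 𝒦 κ b γ) :
    ∀ x ∈ Ext κ.R₁, ∀ v, 0 ≤ (⟪v, S.Wp x v⟫_ℂ).re := by
  intro x hx v
  have h1 := S.W_nonneg x hx v
  have h2 := S.W_nonneg (reflZ x) (reflZ_mem_Ext hx) v
  rw [S.Wp_apply, ch1_inner_real_smul_right, inner_add_right, Complex.re_ofReal_mul, Complex.add_re]
  positivity

/-- `W H + (W∘ι)(H∘ι) = 2 W₊ H⁺ + 2 W₋ H⁻`. -/
theorem ch2_W_split (S : ChannelSys 𝒦 κ b γ) (x : Space) :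
    (1 / 2 : ℝ) • (S.W x (S.H x) + S.W (reflZ x) (S.H (reflZ x)))
      = S.Wp x (S.Hev x) + S.Wm x (S.Hodd x) := by
  rw [S.Wp_apply, S.Wm_apply]
  simp only [ChannelSys.Hev, ChannelSys.Hodd, clmC_real_smul, map_add, map_sub]
  module

/-- the even part of `SrcH` (`f` odd, `b` even, `|ι x| = |x|`):
`½(SrcH + SrcH∘ι) = Res⁺ - λ f W₋φ - b g₀ - λ b W₊ G`. -/
theorem ch2_SrcH_even {Cb : ℕ → ℝ} {cb : ℝ} (hb : FastOrbital b γ κ.R₁ Cb cb)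
    (S : ChannelSys 𝒦 κ b γ) : ∀ x ∈ Ext κ.R₁,
    (1 / 2 : ℝ) • (S.SrcH x + S.SrcH (reflZ x)) = S.SrcEv x + S.lam • S.Wm x (S.Hodd x) := by
  intro x hx
  simp only [ChannelSys.SrcH, ChannelSys.SrcQF, ChannelSys.SrcB, ChannelSys.SrcEv, ChannelCore.f]
  rw [S.f_odd x hx, hb.even x, norm_reflZ, S.Wp_apply, S.Wm_apply]
  set c : ℂ := (S.lam : ℂ) * ⟪S.φ, S.F x⟫_ℂ with hc
  have e : (S.lam : ℂ) * -⟪S.φ, S.F x⟫_ℂ = -c := by rw [hc]; ring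
  rw [e]
  module


theorem laplacian_const_smul_fun {V : Type*} [NormedAddCommGroup V] [NormedSpace ℝ V] (c : ℝ)
    {H : Space → V} {x : Space} (h : ContDiffAt ℝ 2 H x) :
    Δ (fun y => c • H y) x = c • Δ H x := by
  have e' : (fun y => c • H y) = (c • ContinuousLinearMap.id ℝ V) ∘ H := by
    funext y; simp
  rw [e', h.laplacian_CLM_comp_left]; simp

theorem ch2_contDiffOn_H_refl {Cb : ℕ → ℝ} {cb : ℝ} (hb : FastOrbital b γ κ.R₁ Cb cb)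
    (S : ChannelSys 𝒦 κ b γ) : ContDiffOn ℝ ∞ (fun y => S.H (reflZ y)) (Ext κ.R₁) :=
  contDiffOn_comp_reflZ (ch2_contDiffOn_H hb S)

theorem ch2_contDiffOn_Hev {Cb : ℕ → ℝ} {cb : ℝ} (hb : FastOrbital b γ κ.R₁ Cb cb)
    (S : ChannelSys 𝒦 κ b γ) : ContDiffOn ℝ ∞ S.Hev (Ext κ.R₁) :=
  ((ch2_contDiffOn_H hb S).add (ch2_contDiffOn_H_refl hb S)).const_smul _

theorem ch2_contDiffOn_Hodd {Cb : ℕ → ℝ} {cb : ℝ} (hb : FastOrbital b γ κ.R₁ Cb cb)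
    (S : ChannelSys 𝒦 κ b γ) : ContDiffOn ℝ ∞ S.Hodd (Ext κ.R₁) :=
  ((ch2_contDiffOn_H hb S).sub (ch2_contDiffOn_H_refl hb S)).const_smul _

theorem ch2_laplacian_Hev {Cb : ℕ → ℝ} {cb : ℝ} (hb : FastOrbital b γ κ.R₁ Cb cb)
    (S : ChannelSys 𝒦 κ b γ) : ∀ x ∈ Ext κ.R₁,
    Δ S.Hev x = (1 / 2 : ℝ) • (Δ S.H x + Δ S.H (reflZ x)) := by
  intro x hx
  have h1 := contDiffAt_two_of_mem_Ext (ch2_contDiffOn_H hb S) hx
  have h2 := contDiffAt_two_of_mem_Ext (ch2_contDiffOn_H_refl hb S) hx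
  have e : S.Hev = fun y => (1 / 2 : ℝ) • (S.H y + S.H (reflZ y)) := rfl
  rw [e, laplacian_const_smul_fun _ (h1.add h2), laplacian_fun_add h1 h2, laplacian_comp_reflZ']

/-- average of the equation of `H` at `x` and at `ι x` (`chanG_comp_reflZ`, `ch2_W_split`,
`ch2_SrcH_even`). -/
theorem ch2_qeq_Hev {Cb : ℕ → ℝ} {cb : ℝ} (hb : FastOrbital b γ κ.R₁ Cb cb)
    (S : ChannelSys 𝒦 κ b γ) : QEq S.toChannelCore S.Wp κ.R₁ S.Hev S.SrcEv := by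
  intro x hx
  have hx' := reflZ_mem_Ext hx
  have h1 := ch2_qeq_H hb S x hx
  have h2 := ch2_qeq_H hb S (reflZ x) hx'
  have key : chanG S.lam S.k S.Wp S.Hev x + S.SrcEv x
      = (1 / 2 : ℝ) • ((chanG S.lam S.k S.W S.H x + S.SrcH x)
        + (chanG S.lam S.k S.W S.H (reflZ x) + S.SrcH (reflZ x))) := by
    have e1 := ch2_SrcH_even hb S x hx
    have e2 := ch2_W_split S x
    have e3 : S.SrcEv x = (1 / 2 : ℝ) • (S.SrcH x + S.SrcH (reflZ x))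
        - S.lam • S.Wm x (S.Hodd x) := by rw [e1]; abel
    have e4 : S.Wp x (S.Hev x) = (1 / 2 : ℝ) • (S.W x (S.H x) + S.W (reflZ x) (S.H (reflZ x)))
        - S.Wm x (S.Hodd x) := by rw [e2]; abel
    unfold chanG
    rw [ch2_laplacian_Hev hb S x hx, e3, e4, uD_reflZ]
    simp only [ChannelSys.Hev]
    module
  rw [key, clmC_real_smul, map_add, ← h1, ← h2]
  rfl

theorem ch2_contDiffOn_prof (S : ChannelCore 𝒦 κ) (m : ℕ) :
    ContDiffOn ℝ ∞ (fun x : Space => S.lam * S.A x * (‖x‖ ^ m)⁻¹) (Ext 0) :=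
  (contDiffOn_const.mul S.contDiffOn_A).mul
    (((contDiffOn_norm_Ext le_rfl).pow m).inv fun _ hx =>
      pow_ne_zero _ (norm_pos_of_mem_Ext le_rfl hx).ne')

theorem ch2_contDiffOn_Z (S : ChannelSys 𝒦 κ b γ) : ContDiffOn ℝ ∞ S.Z (Ext 0) := by
  have h1 : ContDiffOn ℝ ∞ (fun x : Space => -((S.lam * S.A x * (‖x‖ ^ 4)⁻¹ : ℝ) : ℂ)) (Ext 0) :=
    (Complex.ofRealCLM.contDiff.comp_contDiffOn (ch2_contDiffOn_prof S.toChannelCore 4)).neg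
  have h2 : ContDiffOn ℝ ∞ (fun x : Space => ((x 2 ^ 2 : ℝ) • S.v₁ + S.v₂)) (Ext 0) :=
    ((((contDiff_coord 2).pow 2).contDiffOn).smul contDiffOn_const).add contDiffOn_const
  exact h1.smul (h2.const_smul S.slope)

/-- `Z = Rr Z♯`. -/
theorem ch2_Z_eq (S : ChannelSys 𝒦 κ b γ) (x : Space) : S.Z x = S.Rr (S.Zs x) := by
  simp only [ChannelSys.Z, ChannelSys.Zs, map_smul, map_add, clmC_real_smul, ChannelSys.v₁,
    ChannelSys.v₂]

theorem ch2_contDiffOn_E {Cb : ℕ → ℝ} {cb : ℝ} (hb : FastOrbital b γ κ.R₁ Cb cb)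
    (S : ChannelSys 𝒦 κ b γ) : ContDiffOn ℝ ∞ S.E (Ext κ.R₁) :=
  (ch2_contDiffOn_Hev hb S).sub ((ch2_contDiffOn_Z S).mono (Ext_mono (ChannelCore.R₁_pos κ).le))

/-- `E = H⁺ - Z = Rr (𝒢₊[H⁺] + SrcEv - Z♯) = Rr (𝒢₊[E] + 𝒢₊[Z] - Z♯ + SrcEv)`. -/
theorem ch2_qeq_E {Cb : ℕ → ℝ} {cb : ℝ} (hb : FastOrbital b γ κ.R₁ Cb cb)
    (S : ChannelSys 𝒦 κ b γ) : QEq S.toChannelCore S.Wp κ.R₁ S.E S.SrcE := by
  intro x hx
  have h1 := contDiffAt_two_of_mem_Ext (ch2_contDiffOn_Hev hb S) hx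
  have h2 := contDiffAt_two_of_mem_Ext
    ((ch2_contDiffOn_Z S).mono (Ext_mono (ChannelCore.R₁_pos κ).le)) hx
  have e : S.E = fun y => S.Hev y - S.Z y := rfl
  have key : chanG S.lam S.k S.Wp S.E x + S.SrcE x
      = (chanG S.lam S.k S.Wp S.Hev x + S.SrcEv x) - S.Zs x := by
    rw [e, chanG_sub h1 h2]
    simp only [ChannelSys.SrcE]
    abel
  rw [key, map_sub, ← ch2_qeq_Hev hb S x hx, ← ch2_Z_eq]
  rfl

end Claimed.Open.R278
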