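import Claimed.Open.R278.CH2A
import Claimed.Open.R278.CH2B
import Claimed.Open.R278.CH2C

/-!
# Result 278, layer L4, file CH2D (leaf `CH2-D` in the team table)

Part of the package CH2 (parity, `H = QF - bG`, the plane ansatz); the plan is in `CH2.lean`.
Paper-free.  Leaf `CH2-D`: PROVED (helper225), no `sorry` in this file.  Auxiliary lemmas may be added;
statements are changed only after telling helper225 (channel open278).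
-/

open MeasureTheory Filter
open scoped ContDiff InnerProductSpace ComplexConjugate ENNReal Topology Laplacian

noncomputable section

namespace Claimed.Open.R278

variable {𝒦 : Type} [NormedAddCommGroup 𝒦] [InnerProductSpace ℂ 𝒦] [CompleteSpace 𝒦]
variable {κ : ChannelConsts} {b : Space → ℝ} {γ : ℝ}

theorem ch2_mem_of_norm_eq {R : ℝ} {x y : Space} (hx : x ∈ Ext R) (hy : ‖y‖ = ‖x‖) : y ∈ Ext R := by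
  show R < ‖y‖
  rw [hy]; exact hx

theorem ch2_one_le_top : (1 : ℕ∞ω) ≤ ((⊤ : ℕ∞) : ℕ∞ω) := WithTop.coe_le_coe.2 le_top

/-- `‖W₋‖ ≤ C |t| / r`. -/
theorem ch2_Wm_bound (κ : ChannelConsts) (b : Space → ℝ) (γ : ℝ) :
    ∃ C : ℝ, ∀ S : ChannelSys 𝒦 κ b γ, ∀ x ∈ Ext κ.R₁, ‖S.Wm x‖ ≤ C * |tz x| / ‖x‖ := by
  refine ⟨3 * κ.C 1, fun S x hx => ?_⟩
  have hr : 0 < ‖x‖ := norm_pos_of_mem_Ext (ChannelCore.R₁_pos κ).le hx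
  have h := refl_diff_bound (ChannelCore.R₁_pos κ).le (S.W_bdd.1.of_le ch2_one_le_top) hx
    (M := κ.C 1 * ‖x‖⁻¹) fun y hy i => by
      have := S.W_bdd.2 [Sum.inr i] y (ch2_mem_of_norm_eq hx hy)
      rw [← hy]
      exact this
  simp only [ChannelSys.Wm]
  rw [norm_smul, Real.norm_of_nonneg (by norm_num)]
  calc (1 / 2 : ℝ) * ‖S.W x - S.W (reflZ x)‖ ≤ (1 / 2) * (6 * (κ.C 1 * ‖x‖⁻¹) * |tz x|) := by gcongr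
    _ = _ := by field_simp; ring

/-- `W₋φ = z r⁻³ Y_zφ + O(|z| r⁻⁴)`. -/
theorem ch2_Wm_phi (κ : ChannelConsts) (b : Space → ℝ) (γ : ℝ) :
    ∃ C : ℝ, ∀ S : ChannelSys 𝒦 κ b γ, ∀ x ∈ Ext κ.R₁,
      ‖S.Wm x S.φ - (x 2 * (‖x‖ ^ 3)⁻¹) • S.Y 2‖ ≤ C * |x 2| * (‖x‖ ^ 4)⁻¹ := by
  refine ⟨3 * κ.C 1, fun S x hx => ?_⟩
  have hr : 0 < ‖x‖ := norm_pos_of_mem_Ext (ChannelCore.R₁_pos κ).le hx
  have h := refl_diff_bound (ChannelCore.R₁_pos κ).le (S.dipole.1.of_le ch2_one_le_top) hx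
    (M := κ.C 1 * (‖x‖ ^ 3)⁻¹) fun y hy i => by
      have := S.dipole.2 [Sum.inr i] y (ch2_mem_of_norm_eq hx hy)
      rw [← hy]
      exact this
  have e : S.Wm x S.φ - (x 2 * (‖x‖ ^ 3)⁻¹) • S.Y 2
      = (1 / 2 : ℝ) • ((S.W x S.φ - (2 / ‖x‖) • S.φ - (‖x‖ ^ 3)⁻¹ • ∑ i, x i • S.Y i)
        - (S.W (reflZ x) S.φ - (2 / ‖reflZ x‖) • S.φ
          - (‖reflZ x‖ ^ 3)⁻¹ • ∑ i, (reflZ x) i • S.Y i)) := by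
    rw [S.Wm_apply, norm_reflZ, Fin.sum_univ_three, Fin.sum_univ_three]
    simp only [reflZ]
    simp
    module
  rw [e, norm_smul, Real.norm_of_nonneg (by norm_num)]
  calc (1 / 2 : ℝ) * _ ≤ (1 / 2) * (6 * (κ.C 1 * (‖x‖ ^ 3)⁻¹) * |tz x|) := by gcongr
    _ = _ := by
      simp only [tz]
      rw [abs_div, abs_of_pos hr]
      field_simp; ring


theorem ch2_Hodd_odd (S : ChannelSys 𝒦 κ b γ) (x : Space) : S.Hodd (reflZ x) = -S.Hodd x := by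
  simp only [ChannelSys.Hodd, reflZ_reflZ]
  module

/-- `H⁻ = O(λ A |t| r⁻²)` (`odd_bound` + `ch2_Hodd_Hev_bdd`). -/
theorem ch2_Hodd_bound (κ : ChannelConsts) (b : Space → ℝ) (γ : ℝ) (Cb : ℕ → ℝ) (cb : ℝ)
    (hb : FastOrbital b γ κ.R₁ Cb cb) :
    ∃ (R₀ C : ℝ), κ.R₁ ≤ R₀ ∧ ∀ S : ChannelSys 𝒦 κ b γ, ∀ x ∈ Ext R₀,
      ‖S.Hodd x‖ ≤ C * S.lam * S.A x * |tz x| * (‖x‖ ^ 2)⁻¹ := by
  obtain ⟨R₀, C, hR₀, h⟩ := ch2_Hodd_Hev_bdd (𝒦 := 𝒦) κ b γ Cb cb hb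
  refine ⟨R₀, 3 * C 1, hR₀, fun S x hx => ?_⟩
  have hR0 : 0 ≤ R₀ := (ChannelCore.R₁_pos κ).le.trans hR₀
  have h1 := (h S).1
  have := odd_bound hR0 (h1.1.of_le ch2_one_le_top) (fun y _ => ch2_Hodd_odd S y) hx
    (M := C 1 * (S.lam * S.A x * (‖x‖ ^ 2)⁻¹)) fun y hy i => by
      have h2 := h1.2 [Sum.inr i] y (ch2_mem_of_norm_eq hx hy)
      have e : S.A x = S.A y := by simp only [ChannelCore.A, hy]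
      rw [← hy, e]
      exact h2
  refine this.trans (le_of_eq ?_)
  ring

theorem ch2_abs_tz (x : Space) : |tz x| = |x 2| / ‖x‖ := by
  simp only [tz]
  rw [abs_div, abs_of_nonneg (norm_nonneg x)]

/-- `λ f W₋φ = X + O(λ A r⁻⁵ (z² + |z|³))` (`ch2_f_expansion`, `ch2_Wm_phi`, `Y_upper`). -/
theorem ch2_f_Wm_phi (κ : ChannelConsts) (b : Space → ℝ) (γ : ℝ) :
    ∃ (R₀ C : ℝ), κ.R₁ ≤ R₀ ∧ ∀ S : ChannelSys 𝒦 κ b γ, ∀ x ∈ Ext R₀,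
      ‖((S.lam : ℂ) * S.f x) • S.Wm x S.φ - S.Xc x‖
        ≤ C * S.lam * S.A x * (‖x‖ ^ 5)⁻¹ * (x 2 ^ 2 + |x 2| ^ 3) := by
  obtain ⟨R₀, C₁, hR₀, h₁⟩ := ch2_f_expansion (𝒦 := 𝒦) κ b γ
  obtain ⟨C₂, h₂⟩ := ch2_Wm_phi (𝒦 := 𝒦) κ b γ
  refine ⟨R₀, |C₁| * |κ.C 0| + |C₁| * |C₂|, hR₀, fun S x hx => ?_⟩
  have hR0 : 0 ≤ R₀ := (ChannelCore.R₁_pos κ).le.trans hR₀
  have hr : 0 < ‖x‖ := norm_pos_of_mem_Ext hR0 hx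
  obtain ⟨hf1, hf2⟩ := h₁ S x hx
  have hW := h₂ S x (Ext_mono hR₀ hx)
  have hA := S.A_nonneg x
  have hl := S.lam_nonneg
  set ef : ℂ := S.f x - S.slope * ((S.A x * tz x : ℝ) : ℂ) with hef
  set eW : 𝒦 := S.Wm x S.φ - (x 2 * (‖x‖ ^ 3)⁻¹) • S.Y 2 with heW
  have e : ((S.lam : ℂ) * S.f x) • S.Wm x S.φ - S.Xc x
      = ((S.lam : ℂ) * ef * ((x 2 * (‖x‖ ^ 3)⁻¹ : ℝ) : ℂ)) • S.Y 2
        + ((S.lam : ℂ) * S.f x) • eW := by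
    have e1 : S.Wm x S.φ = eW + ((x 2 * (‖x‖ ^ 3)⁻¹ : ℝ) : ℂ) • S.Y 2 := by
      rw [heW, Complex.coe_smul]; abel
    have e2 : S.Xc x = ((S.lam : ℂ) * (S.slope * ((S.A x * tz x : ℝ) : ℂ))
        * ((x 2 * (‖x‖ ^ 3)⁻¹ : ℝ) : ℂ)) • S.Y 2 := by
      simp only [ChannelSys.Xc, tz]
      rw [smul_smul]
      congr 1
      push_cast
      have : (‖x‖ : ℂ) ≠ 0 := by exact_mod_cast hr.ne'
      field_simp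
    rw [e1, e2, hef]
    module
  rw [e]
  have ht := ch2_abs_tz x
  have hz : 0 ≤ |x 2| := abs_nonneg _
  have n1 : ‖((S.lam : ℂ) * ef * ((x 2 * (‖x‖ ^ 3)⁻¹ : ℝ) : ℂ)) • S.Y 2‖
      ≤ |C₁| * |κ.C 0| * S.lam * S.A x * (‖x‖ ^ 5)⁻¹ * (x 2 ^ 2 + |x 2| ^ 3) := by
    rw [norm_smul, norm_mul, norm_mul, Complex.norm_real, Complex.norm_real,
      Real.norm_of_nonneg hl, Real.norm_eq_abs, abs_mul, abs_of_pos (by positivity : 0 < (‖x‖ ^ 3)⁻¹)]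
    have h3 : ‖ef‖ ≤ |C₁| * S.A x * (tz x ^ 2 + |tz x| / ‖x‖) :=
      hf1.trans (by gcongr; exact le_abs_self _)
    have h4 : ‖S.Y 2‖ ≤ |κ.C 0| := S.Y_upper.trans (le_abs_self _)
    calc S.lam * ‖ef‖ * (|x 2| * (‖x‖ ^ 3)⁻¹) * ‖S.Y 2‖
        ≤ S.lam * (|C₁| * S.A x * (tz x ^ 2 + |tz x| / ‖x‖)) * (|x 2| * (‖x‖ ^ 3)⁻¹) * |κ.C 0| := by
          gcongr
      _ = _ := by
          rw [← sq_abs (tz x), ht, ← sq_abs (x 2)]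
          field_simp
          ring
  have n2 : ‖((S.lam : ℂ) * S.f x) • eW‖
      ≤ |C₁| * |C₂| * S.lam * S.A x * (‖x‖ ^ 5)⁻¹ * (x 2 ^ 2 + |x 2| ^ 3) := by
    rw [norm_smul, norm_mul, Complex.norm_real, Real.norm_of_nonneg hl]
    have h3 : ‖S.f x‖ ≤ |C₁| * S.A x * |tz x| := hf2.trans (by gcongr; exact le_abs_self _)
    have h4 : ‖eW‖ ≤ |C₂| * |x 2| * (‖x‖ ^ 4)⁻¹ := hW.trans (by gcongr; exact le_abs_self _)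
    calc S.lam * ‖S.f x‖ * ‖eW‖
        ≤ S.lam * (|C₁| * S.A x * |tz x|) * (|C₂| * |x 2| * (‖x‖ ^ 4)⁻¹) := by gcongr
      _ = |C₁| * |C₂| * S.lam * S.A x * (‖x‖ ^ 5)⁻¹ * (x 2 ^ 2) := by
          rw [ht, ← sq_abs (x 2)]
          field_simp
      _ ≤ _ := by
          gcongr
          have : 0 ≤ |x 2| ^ 3 := by positivity
          linarith
  calc _ ≤ _ := norm_add_le _ _
    _ ≤ _ := add_le_add n1 n2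
    _ = _ := by ring

/-- `‖v₁‖, ‖v₂‖ ≤ C` and `(W₊ - 2/r) vᵢ = O(r⁻²)` (`norm_Rr_le`, `Y_upper`, `W_v₁`, `W_v₂`). -/
theorem ch2_v_bounds (κ : ChannelConsts) (b : Space → ℝ) (γ : ℝ) :
    ∃ C : ℝ, ∀ S : ChannelSys 𝒦 κ b γ, ‖S.v₁‖ ≤ C ∧ ‖S.v₂‖ ≤ C ∧ ∀ x ∈ Ext κ.R₁,
      ‖S.Wp x S.v₁ - (2 / ‖x‖) • S.v₁‖ ≤ C * (‖x‖ ^ 2)⁻¹ ∧
      ‖S.Wp x S.v₂ - (2 / ‖x‖) • S.v₂‖ ≤ C * (‖x‖ ^ 2)⁻¹ := by
  have hc := κ.c_pos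
  refine ⟨κ.c⁻¹ * |κ.C 0| + κ.c⁻¹ * (κ.c⁻¹ * |κ.C 0|) + |κ.C 0|, fun S => ?_⟩
  have hY : ‖S.Y 2‖ ≤ |κ.C 0| := S.Y_upper.trans (le_abs_self _)
  have h1 : ‖S.v₁‖ ≤ κ.c⁻¹ * |κ.C 0| :=
    (S.norm_Rr_le _).trans (mul_le_mul_of_nonneg_left hY (by positivity))
  have h2 : ‖S.v₂‖ ≤ κ.c⁻¹ * (κ.c⁻¹ * |κ.C 0|) :=
    (S.norm_Rr_le _).trans (mul_le_mul_of_nonneg_left h1 (by positivity))
  have p1 : 0 ≤ κ.c⁻¹ * |κ.C 0| := by positivity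
  have p2 : 0 ≤ κ.c⁻¹ * (κ.c⁻¹ * |κ.C 0|) := by positivity
  have p3 : 0 ≤ |κ.C 0| := abs_nonneg _
  refine ⟨by linarith, by linarith, fun x hx => ?_⟩
  have hx' := reflZ_mem_Ext hx
  have gen : ∀ v : 𝒦, ‖S.W x v - (2 / ‖x‖) • v‖ ≤ κ.C 0 * (‖x‖ ^ 2)⁻¹ →
      ‖S.W (reflZ x) v - (2 / ‖reflZ x‖) • v‖ ≤ κ.C 0 * (‖reflZ x‖ ^ 2)⁻¹ →
      ‖S.Wp x v - (2 / ‖x‖) • v‖ ≤ (κ.c⁻¹ * |κ.C 0| + κ.c⁻¹ * (κ.c⁻¹ * |κ.C 0|) + |κ.C 0|)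
        * (‖x‖ ^ 2)⁻¹ := by
    intro v a1 a2
    rw [norm_reflZ] at a2
    have e : S.Wp x v - (2 / ‖x‖) • v = (1 / 2 : ℝ) • ((S.W x v - (2 / ‖x‖) • v)
        + (S.W (reflZ x) v - (2 / ‖x‖) • v)) := by
      rw [S.Wp_apply]; module
    rw [e, norm_smul, Real.norm_of_nonneg (by norm_num)]
    have h3 := (norm_add_le _ _).trans (add_le_add a1 a2)
    have h4 : κ.C 0 * (‖x‖ ^ 2)⁻¹ ≤ |κ.C 0| * (‖x‖ ^ 2)⁻¹ := by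
      gcongr; exact le_abs_self _
    have h5 : 0 ≤ (‖x‖ ^ 2)⁻¹ := by positivity
    calc (1 / 2 : ℝ) * _ ≤ (1 / 2) * (κ.C 0 * (‖x‖ ^ 2)⁻¹ + κ.C 0 * (‖x‖ ^ 2)⁻¹) := by gcongr
      _ = κ.C 0 * (‖x‖ ^ 2)⁻¹ := by ring
      _ ≤ |κ.C 0| * (‖x‖ ^ 2)⁻¹ := h4
      _ ≤ _ := by gcongr; linarith
  exact ⟨gen _ (S.W_v₁ x hx) (S.W_v₁ _ hx'), gen _ (S.W_v₂ x hx) (S.W_v₂ _ hx')⟩


theorem ch2_contDiffAt_profile (k β p₀ p₂ : ℝ) (m : ℕ) {x : Space} (hx : x ≠ 0) :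
    ContDiffAt ℝ 2 (fun y : Space => radialA k β ‖y‖ * (‖y‖ ^ m)⁻¹ * (p₀ + p₂ * y 2 ^ 2)) x := by
  have hr : 0 < ‖x‖ := norm_pos_iff.2 hx
  have h1 : ContDiffAt ℝ 2 (fun y : Space => ‖y‖) x := contDiffAt_norm ℝ hx
  have h2 : ContDiffAt ℝ 2 (fun y : Space => radialA k β ‖y‖) x :=
    ContDiffAt.comp (g := radialA k β) (f := fun y : Space => ‖y‖) x
      (contDiffAt_radialA k β hr) h1
  have h3 : ContDiffAt ℝ 2 (fun y : Space => (‖y‖ ^ m)⁻¹) x :=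
    (h1.pow m).inv (pow_ne_zero _ hr.ne')
  have h4 : ContDiffAt ℝ 2 (fun y : Space => y 2) x :=
    ((contDiff_coord 2).of_le (WithTop.coe_le_coe.2 le_top)).contDiffAt
  exact (h2.mul h3).mul (contDiffAt_const.add (contDiffAt_const.mul (h4.pow 2)))

/-- `𝒢₊[Z] - Z♯ = X + O(λ A r⁻⁵ (1 + z²))`. -/
theorem ch2_chanG_Z (κ : ChannelConsts) (b : Space → ℝ) (γ : ℝ) :
    ∃ (R₀ C : ℝ), κ.R₁ ≤ R₀ ∧ ∀ S : ChannelSys 𝒦 κ b γ, ∀ x ∈ Ext R₀,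
      ‖chanG S.lam S.k S.Wp S.Z x - S.Zs x - S.Xc x‖
        ≤ C * S.lam * S.A x * (‖x‖ ^ 5)⁻¹ * (1 + x 2 ^ 2) := by
  obtain ⟨R₁', Cp, hR₁', hp⟩ := conj_op_profile 4
  obtain ⟨Cs, hs⟩ := ch2_slope_bound (𝒦 := 𝒦) κ b γ
  obtain ⟨Cv, hv⟩ := ch2_v_bounds (𝒦 := 𝒦) κ b γ
  refine ⟨max κ.R₁ R₁', (|Cp| + 1) * (Cs * Cv), le_max_left _ _, fun S x hx => ?_⟩
  have hx1 : x ∈ Ext κ.R₁ := Ext_mono (le_max_left _ _) hx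
  have hx2 : x ∈ Ext R₁' := Ext_mono (le_max_right _ _) hx
  have hr1 : 1 < ‖x‖ := one_lt_norm_of_mem_Ext_R₁ hx1
  have hr : 0 < ‖x‖ := lt_trans zero_lt_one hr1
  have hx0 : x ≠ 0 := norm_pos_iff.1 hr
  obtain ⟨hv1, hv2, hvW⟩ := hv S
  obtain ⟨hδ1, hδ2⟩ := hvW x hx1
  have hsl := hs S
  have hl := S.lam_nonneg
  have hl1 := S.lam_le
  have hp1 := hp S.k S.lam 0 1 S.k_lo.le S.k_hi.le hl hl1 x hx2
  have hp2 := hp S.k S.lam 1 0 S.k_lo.le S.k_hi.le hl hl1 x hx2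
  set P₁ : Space → ℝ := fun y => radialA S.k (betaOf S.lam S.k) ‖y‖ * (‖y‖ ^ 4)⁻¹ *
    (0 + 1 * y 2 ^ 2) with hP₁
  set P₂ : Space → ℝ := fun y => radialA S.k (betaOf S.lam S.k) ‖y‖ * (‖y‖ ^ 4)⁻¹ *
    (1 + 0 * y 2 ^ 2) with hP₂
  have c1 : ContDiffAt ℝ 2 P₁ x := ch2_contDiffAt_profile _ _ 0 1 4 hx0
  have c2 : ContDiffAt ℝ 2 P₂ x := ch2_contDiffAt_profile _ _ 1 0 4 hx0
  have hZ : S.Z = fun y => (-S.lam) • (P₁ y • (S.slope • S.v₁) + P₂ y • (S.slope • S.v₂)) := by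
    funext y
    simp only [ChannelSys.Z, hP₁, hP₂, ChannelCore.A, S.β_eq_betaOf]
    rw [neg_smul, Complex.coe_smul]
    module
  have hA : S.A x = radialA S.k (betaOf S.lam S.k) ‖x‖ := rfl
  have hA0 := S.A_nonneg x
  set a := S.A x with ha
  rw [← hA] at hp1 hp2
  set L₁ := Δ P₁ x with hL₁
  set L₂ := Δ P₂ x with hL₂
  set ε₁ : ℝ := 1 / 2 * L₁ - (S.k ^ 2 / 2 + uD x + 2 * S.lam / ‖x‖) *
    (a * (‖x‖ ^ 4)⁻¹ * (0 + 1 * x 2 ^ 2)) - a * (‖x‖ ^ 4)⁻¹ * 1 with hε₁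
  set ε₂ : ℝ := 1 / 2 * L₂ - (S.k ^ 2 / 2 + uD x + 2 * S.lam / ‖x‖) *
    (a * (‖x‖ ^ 4)⁻¹ * (1 + 0 * x 2 ^ 2)) - a * (‖x‖ ^ 4)⁻¹ * 0 with hε₂
  set δ₁ := S.Wp x S.v₁ - (2 / ‖x‖) • S.v₁ with hδ₁
  set δ₂ := S.Wp x S.v₂ - (2 / ‖x‖) • S.v₂ with hδ₂
  have key : chanG S.lam S.k S.Wp S.Z x - S.Zs x - S.Xc x
      = (-S.lam) • (ε₁ • (S.slope • S.v₁) + ε₂ • (S.slope • S.v₂)
        - (S.lam * (a * (‖x‖ ^ 4)⁻¹ * x 2 ^ 2)) • (S.slope • δ₁)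
        - (S.lam * (a * (‖x‖ ^ 4)⁻¹)) • (S.slope • δ₂)) := by
    have s1 : ContDiffAt ℝ 2 (fun y => P₁ y • (S.slope • S.v₁)) x := c1.smul contDiffAt_const
    have s2 : ContDiffAt ℝ 2 (fun y => P₂ y • (S.slope • S.v₂)) x := c2.smul contDiffAt_const
    have s12 : ContDiffAt ℝ 2 (fun y => P₁ y • (S.slope • S.v₁) + P₂ y • (S.slope • S.v₂)) x :=
      s1.add s2
    rw [hZ, chanG_const_smul (-S.lam) s12, chanG_add s1 s2,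
      chanG_smul_vec _ c1, chanG_smul_vec _ c2, map_smul, map_smul, ← hL₁, ← hL₂]
    have e1 : P₁ x = a * (‖x‖ ^ 4)⁻¹ * (0 + 1 * x 2 ^ 2) := rfl
    have e2 : P₂ x = a * (‖x‖ ^ 4)⁻¹ * (1 + 0 * x 2 ^ 2) := rfl
    rw [e1, e2, hε₁, hε₂, hδ₁, hδ₂]
    simp only [ChannelSys.Zs, ChannelSys.Xc, neg_smul, Complex.coe_smul, ← ha]
    module
  rw [key, norm_smul, norm_neg, Real.norm_of_nonneg hl]
  have hCs : 0 ≤ Cs := (norm_nonneg _).trans hsl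
  have hCv : 0 ≤ Cv := (norm_nonneg _).trans hv1
  have w1 : ‖S.slope • S.v₁‖ ≤ Cs * Cv := by
    rw [norm_smul]; exact mul_le_mul hsl hv1 (norm_nonneg _) hCs
  have w2 : ‖S.slope • S.v₂‖ ≤ Cs * Cv := by
    rw [norm_smul]; exact mul_le_mul hsl hv2 (norm_nonneg _) hCs
  have d1 : ‖S.slope • δ₁‖ ≤ Cs * (Cv * (‖x‖ ^ 2)⁻¹) := by
    rw [norm_smul]; exact mul_le_mul hsl hδ1 (norm_nonneg _) hCs
  have d2 : ‖S.slope • δ₂‖ ≤ Cs * (Cv * (‖x‖ ^ 2)⁻¹) := by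
    rw [norm_smul]; exact mul_le_mul hsl hδ2 (norm_nonneg _) hCs
  have q1 : |ε₁| ≤ |Cp| * a * (‖x‖ ^ 5)⁻¹ * x 2 ^ 2 := by
    refine hp1.trans ?_
    have : Cp * a * (‖x‖ ^ (4 + 1))⁻¹ * (|(0 : ℝ)| + |(1 : ℝ)| * x 2 ^ 2)
        = Cp * (a * (‖x‖ ^ 5)⁻¹ * x 2 ^ 2) := by simp; ring
    rw [this]
    calc Cp * (a * (‖x‖ ^ 5)⁻¹ * x 2 ^ 2) ≤ |Cp| * (a * (‖x‖ ^ 5)⁻¹ * x 2 ^ 2) := by
          gcongr; exact le_abs_self _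
      _ = _ := by ring
  have q2 : |ε₂| ≤ |Cp| * a * (‖x‖ ^ 5)⁻¹ := by
    refine hp2.trans ?_
    have : Cp * a * (‖x‖ ^ (4 + 1))⁻¹ * (|(1 : ℝ)| + |(0 : ℝ)| * x 2 ^ 2)
        = Cp * (a * (‖x‖ ^ 5)⁻¹) := by simp; ring
    rw [this]
    calc Cp * (a * (‖x‖ ^ 5)⁻¹) ≤ |Cp| * (a * (‖x‖ ^ 5)⁻¹) := by
          gcongr; exact le_abs_self _
      _ = _ := by ring
  have hinv : (‖x‖ ^ 4)⁻¹ * (‖x‖ ^ 2)⁻¹ ≤ (‖x‖ ^ 5)⁻¹ := by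
    rw [← mul_inv, ← pow_add]
    exact inv_anti₀ (by positivity) (pow_le_pow_right₀ hr1.le (by norm_num))
  have hz : 0 ≤ x 2 ^ 2 := sq_nonneg _
  have t1 : ‖ε₁ • (S.slope • S.v₁)‖ ≤ |Cp| * a * (‖x‖ ^ 5)⁻¹ * x 2 ^ 2 * (Cs * Cv) := by
    rw [norm_smul, Real.norm_eq_abs]
    exact mul_le_mul q1 w1 (norm_nonneg _) ((abs_nonneg _).trans q1)
  have t2 : ‖ε₂ • (S.slope • S.v₂)‖ ≤ |Cp| * a * (‖x‖ ^ 5)⁻¹ * (Cs * Cv) := by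
    rw [norm_smul, Real.norm_eq_abs]
    exact mul_le_mul q2 w2 (norm_nonneg _) ((abs_nonneg _).trans q2)
  have t3 : ‖(S.lam * (a * (‖x‖ ^ 4)⁻¹ * x 2 ^ 2)) • (S.slope • δ₁)‖
      ≤ a * (‖x‖ ^ 5)⁻¹ * x 2 ^ 2 * (Cs * Cv) := by
    rw [norm_smul, Real.norm_of_nonneg (by positivity)]
    calc S.lam * (a * (‖x‖ ^ 4)⁻¹ * x 2 ^ 2) * ‖S.slope • δ₁‖
        ≤ 1 * (a * (‖x‖ ^ 4)⁻¹ * x 2 ^ 2) * (Cs * (Cv * (‖x‖ ^ 2)⁻¹)) := by gcongr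
      _ = a * ((‖x‖ ^ 4)⁻¹ * (‖x‖ ^ 2)⁻¹) * x 2 ^ 2 * (Cs * Cv) := by ring
      _ ≤ _ := by gcongr
  have t4 : ‖(S.lam * (a * (‖x‖ ^ 4)⁻¹)) • (S.slope • δ₂)‖
      ≤ a * (‖x‖ ^ 5)⁻¹ * (Cs * Cv) := by
    rw [norm_smul, Real.norm_of_nonneg (by positivity)]
    calc S.lam * (a * (‖x‖ ^ 4)⁻¹) * ‖S.slope • δ₂‖
        ≤ 1 * (a * (‖x‖ ^ 4)⁻¹) * (Cs * (Cv * (‖x‖ ^ 2)⁻¹)) := by gcongr
      _ = a * ((‖x‖ ^ 4)⁻¹ * (‖x‖ ^ 2)⁻¹) * (Cs * Cv) := by ring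
      _ ≤ _ := by gcongr
  have tot := (norm_sub_le _ _).trans (add_le_add ((norm_sub_le _ _).trans
    (add_le_add ((norm_add_le _ _).trans (add_le_add t1 t2)) t3)) t4)
  calc S.lam * _ ≤ S.lam * _ := mul_le_mul_of_nonneg_left tot hl
    _ = _ := by ring


/-- the exponentially small terms: `Res⁺`, `b g₀`, `λ b W₊ G` are `O(λ A r⁻⁵)`. -/
theorem ch2_small_terms (κ : ChannelConsts) (b : Space → ℝ) (γ : ℝ) (Cb : ℕ → ℝ) (cb : ℝ)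
    (hb : FastOrbital b γ κ.R₁ Cb cb) :
    ∃ C : ℝ, ∀ S : ChannelSys 𝒦 κ b γ, ∀ x ∈ Ext κ.R₁,
      ‖(1 / 2 : ℝ) • (S.Res x + S.Res (reflZ x)) - b x • S.g₀ - (S.lam * b x) • S.Wp x S.G‖
        ≤ C * S.lam * S.A x * (‖x‖ ^ 5)⁻¹ := by
  obtain ⟨C₁, h₁⟩ := ch2_Res_bdd (𝒦 := 𝒦) κ 5
  obtain ⟨C₃, h₃⟩ := ch2_b_g₀_bdd (𝒦 := 𝒦) κ b γ Cb cb hb 5
  obtain ⟨C₄, h₄⟩ := ch2_b_W_G_bdd (𝒦 := 𝒦) κ b γ Cb cb hb 4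
  refine ⟨C₁ 0 + C₃ 0 + C₄ 0, fun S x hx => ?_⟩
  have hx' := reflZ_mem_Ext hx
  have a1 := (h₁ S.toChannelCore).norm_le x hx
  have a2 := (h₁ S.toChannelCore).norm_le _ hx'
  have a3 := (h₃ S).norm_le x hx
  have a4 := (h₄ S).norm_le x hx
  have a5 := (h₄ S).norm_le _ hx'
  simp only [ch2_A_reflZ, norm_reflZ, hb.even x] at a2 a5
  set g := S.lam * (S.A x * (‖x‖ ^ 5)⁻¹) with hg
  have e : (1 / 2 : ℝ) • (S.Res x + S.Res (reflZ x)) - b x • S.g₀ - (S.lam * b x) • S.Wp x S.G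
      = (1 / 2 : ℝ) • (S.Res x + S.Res (reflZ x)) - b x • S.g₀
        - (1 / 2 : ℝ) • ((S.lam * b x) • S.W x S.G + (S.lam * b x) • S.W (reflZ x) S.G) := by
    rw [S.Wp_apply]; module
  rw [e]
  have n1 : ‖(1 / 2 : ℝ) • (S.Res x + S.Res (reflZ x))‖ ≤ C₁ 0 * g := by
    rw [norm_smul, Real.norm_of_nonneg (by norm_num)]
    have := (norm_add_le _ _).trans (add_le_add a1 a2)
    linarith
  have n2 : ‖(1 / 2 : ℝ) • ((S.lam * b x) • S.W x S.G + (S.lam * b x) • S.W (reflZ x) S.G)‖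
      ≤ C₄ 0 * g := by
    rw [norm_smul, Real.norm_of_nonneg (by norm_num)]
    have := (norm_add_le _ _).trans (add_le_add a4 a5)
    linarith
  have tot := (norm_sub_le _ _).trans (add_le_add ((norm_sub_le _ _).trans (add_le_add n1 a3)) n2)
  refine tot.trans (le_of_eq ?_)
  rw [hg]; ring

/-- **the source estimate**: the two `X` cancel;
`SrcE = (𝒢₊[Z] - Z♯ - X) - (λ f W₋φ - X) + small - λ W₋ H⁻`, `λ ‖W₋‖ ‖H⁻‖ ≤ C λ A z² r⁻⁵`;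
`1 + z² + |z|³ ≤ 3 (1 + z⁴)`. -/
theorem ch2_SrcE_bound (κ : ChannelConsts) (b : Space → ℝ) (γ : ℝ) (Cb : ℕ → ℝ) (cb : ℝ)
    (hb : FastOrbital b γ κ.R₁ Cb cb) :
    ∃ (R₀ C : ℝ), κ.R₁ ≤ R₀ ∧ ∀ S : ChannelSys 𝒦 κ b γ, ∀ x ∈ Ext R₀,
      ‖S.SrcE x‖ ≤ C * S.lam * S.A x * (‖x‖ ^ 5)⁻¹ * (1 + x 2 ^ 4) := by
  obtain ⟨R₁', C₁, hR₁', h₁⟩ := ch2_chanG_Z (𝒦 := 𝒦) κ b γ
  obtain ⟨R₂', C₂, hR₂', h₂⟩ := ch2_f_Wm_phi (𝒦 := 𝒦) κ b γ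
  obtain ⟨C₃, h₃⟩ := ch2_small_terms (𝒦 := 𝒦) κ b γ Cb cb hb
  obtain ⟨C₄, h₄⟩ := ch2_Wm_bound (𝒦 := 𝒦) κ b γ
  obtain ⟨R₅', C₅, hR₅', h₅⟩ := ch2_Hodd_bound (𝒦 := 𝒦) κ b γ Cb cb hb
  refine ⟨max R₁' (max R₂' R₅'), 2 * |C₁| + 2 * |C₂| + |C₃| + |C₄| * |C₅|,
    hR₁'.trans (le_max_left _ _), fun S x hx => ?_⟩
  have hx1 : x ∈ Ext R₁' := Ext_mono (le_max_left _ _) hx
  have hx2 : x ∈ Ext R₂' := Ext_mono ((le_max_left _ _).trans (le_max_right _ _)) hx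
  have hx5 : x ∈ Ext R₅' := Ext_mono ((le_max_right _ _).trans (le_max_right _ _)) hx
  have hx0 : x ∈ Ext κ.R₁ := Ext_mono hR₁' hx1
  have hr1 : 1 < ‖x‖ := one_lt_norm_of_mem_Ext_R₁ hx0
  have hr : 0 < ‖x‖ := lt_trans zero_lt_one hr1
  have hl := S.lam_nonneg
  have hl1 := S.lam_le
  have hA := S.A_nonneg x
  have a1 := h₁ S x hx1
  have a2 := h₂ S x hx2
  have a3 := h₃ S x hx0
  have a4 := h₄ S x hx0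
  have a5 := h₅ S x hx5
  set g := S.lam * S.A x * (‖x‖ ^ 5)⁻¹ with hg
  have hg0 : 0 ≤ g := by positivity
  set z := x 2 with hz
  have z2 : z ^ 2 ≤ 1 + z ^ 4 := by nlinarith [sq_nonneg (z ^ 2 - 1), sq_nonneg z]
  have z3 : |z| ^ 3 ≤ 1 + z ^ 4 := by
    have h0 : 0 ≤ |z| := abs_nonneg z
    have e4 : z ^ 4 = |z| ^ 4 := by
      calc z ^ 4 = (z ^ 2) ^ 2 := by ring
        _ = (|z| ^ 2) ^ 2 := by rw [sq_abs]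
        _ = |z| ^ 4 := by ring
    rw [e4]
    nlinarith [sq_nonneg (|z| ^ 2 - |z|), sq_nonneg (|z| - 1), sq_nonneg (|z|), mul_nonneg h0 h0]
  have e : S.SrcE x = (chanG S.lam S.k S.Wp S.Z x - S.Zs x - S.Xc x)
      - (((S.lam : ℂ) * S.f x) • S.Wm x S.φ - S.Xc x)
      + ((1 / 2 : ℝ) • (S.Res x + S.Res (reflZ x)) - b x • S.g₀ - (S.lam * b x) • S.Wp x S.G)
      - S.lam • S.Wm x (S.Hodd x) := by
    simp only [ChannelSys.SrcE, ChannelSys.SrcEv]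
    abel
  have b1 : ‖chanG S.lam S.k S.Wp S.Z x - S.Zs x - S.Xc x‖ ≤ 2 * |C₁| * g * (1 + z ^ 4) := by
    refine a1.trans ?_
    calc C₁ * S.lam * S.A x * (‖x‖ ^ 5)⁻¹ * (1 + z ^ 2) = C₁ * (g * (1 + z ^ 2)) := by
          rw [hg]; ring
      _ ≤ |C₁| * (g * (1 + z ^ 2)) := by gcongr; exact le_abs_self _
      _ ≤ |C₁| * (g * (2 * (1 + z ^ 4))) := by
          gcongr
          nlinarith [sq_nonneg (z ^ 2)]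
      _ = _ := by ring
  have b2 : ‖((S.lam : ℂ) * S.f x) • S.Wm x S.φ - S.Xc x‖ ≤ 2 * |C₂| * g * (1 + z ^ 4) := by
    refine a2.trans ?_
    calc C₂ * S.lam * S.A x * (‖x‖ ^ 5)⁻¹ * (z ^ 2 + |z| ^ 3) = C₂ * (g * (z ^ 2 + |z| ^ 3)) := by
          rw [hg]; ring
      _ ≤ |C₂| * (g * (z ^ 2 + |z| ^ 3)) := by gcongr; exact le_abs_self _
      _ ≤ |C₂| * (g * (2 * (1 + z ^ 4))) := by
          gcongr
          linarith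
      _ = _ := by ring
  have b3 : ‖(1 / 2 : ℝ) • (S.Res x + S.Res (reflZ x)) - b x • S.g₀ - (S.lam * b x) • S.Wp x S.G‖
      ≤ |C₃| * g * (1 + z ^ 4) := by
    refine a3.trans ?_
    calc C₃ * S.lam * S.A x * (‖x‖ ^ 5)⁻¹ = C₃ * g := by rw [hg]; ring
      _ ≤ |C₃| * g := by gcongr; exact le_abs_self _
      _ ≤ |C₃| * g * (1 + z ^ 4) := by
          apply le_mul_of_one_le_right (by positivity)
          nlinarith [sq_nonneg (z ^ 2)]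
  have b4 : ‖S.lam • S.Wm x (S.Hodd x)‖ ≤ |C₄| * |C₅| * g * (1 + z ^ 4) := by
    rw [norm_smul, Real.norm_of_nonneg hl]
    have ht := ch2_abs_tz x
    have c4 : ‖S.Wm x‖ ≤ |C₄| * |tz x| / ‖x‖ := a4.trans (by gcongr; exact le_abs_self _)
    have c5 : ‖S.Hodd x‖ ≤ |C₅| * S.lam * S.A x * |tz x| * (‖x‖ ^ 2)⁻¹ :=
      a5.trans (by gcongr; exact le_abs_self _)
    calc S.lam * ‖S.Wm x (S.Hodd x)‖ ≤ 1 * (‖S.Wm x‖ * ‖S.Hodd x‖) := by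
          gcongr
          exact (S.Wm x).le_opNorm _
      _ ≤ 1 * ((|C₄| * |tz x| / ‖x‖) * (|C₅| * S.lam * S.A x * |tz x| * (‖x‖ ^ 2)⁻¹)) := by
          gcongr
      _ = |C₄| * |C₅| * g * z ^ 2 := by
          rw [ht, hg, ← sq_abs z]
          field_simp
          ring
      _ ≤ _ := by gcongr
  rw [e]
  have tot := (norm_sub_le _ _).trans (add_le_add ((norm_add_le _ _).trans
    (add_le_add ((norm_sub_le _ _).trans (add_le_add b1 b2)) b3)) b4)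
  refine tot.trans (le_of_eq ?_)
  rw [hg]; ring

end Claimed.Open.R278
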