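import Claimed.Open.R278.CH1

/-!
# Result 278, layer L4, file CH2Defs: definitions of the package CH2 (no `sorry`)

`ι = reflZ`.  `W± = (W ± W∘ι)/2`, sources of the `Q`-equations of `QF`, `bG`, `H = QF - bG`, `H⁺`, `E`.
-/

open MeasureTheory Filter
open scoped ContDiff InnerProductSpace ComplexConjugate ENNReal Topology Laplacian

noncomputable section

namespace Claimed.Open.R278

variable {𝒦 : Type} [NormedAddCommGroup 𝒦] [InnerProductSpace ℂ 𝒦] [CompleteSpace 𝒦]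
variable {κ : ChannelConsts} {b : Space → ℝ} {γ : ℝ}

namespace ChannelSys
variable (S : ChannelSys 𝒦 κ b γ)

/-- `W₊ = (W + W∘ι)/2`. -/
def Wp (x : Space) : 𝒦 →L[ℂ] 𝒦 := (1 / 2 : ℝ) • (S.W x + S.W (reflZ x))

/-- `W₋ = (W - W∘ι)/2`. -/
def Wm (x : Space) : 𝒦 →L[ℂ] 𝒦 := (1 / 2 : ℝ) • (S.W x - S.W (reflZ x))

/-- `g₀ = G♯ - ((γ²-k²)/2) G = O(λ)`. -/
def g₀ : 𝒦 := S.Gs - ((γ ^ 2 - S.k ^ 2) / 2) • S.G

/-- source of the `Q`-equation of `QF`. -/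
def SrcQF (x : Space) : 𝒦 :=
  S.Res x - ((S.lam : ℂ) * ⟪S.φ, S.F x⟫_ℂ) • (S.W x S.φ - (2 / ‖x‖) • S.φ)

/-- source of the `Q`-equation of `bG`. -/
def SrcB (x : Space) : 𝒦 := b x • S.g₀ + (S.lam * b x) • S.W x S.G

/-- source of the `Q`-equation of `H = QF - bG`. -/
def SrcH (x : Space) : 𝒦 := S.SrcQF x - S.SrcB x

/-- source of the `Q`-equation (with `W₊`) of the even part `H⁺`. -/
def SrcEv (x : Space) : 𝒦 :=
  (1 / 2 : ℝ) • (S.Res x + S.Res (reflZ x)) - ((S.lam : ℂ) * S.f x) • S.Wm x S.φ - b x • S.g₀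
    - (S.lam * b x) • S.Wp x S.G - S.lam • S.Wm x (S.Hodd x)

/-- `Z♯ = -λ a' A r⁻⁴ (z² Y_zφ + v₁)`, so that `Z = Rr Z♯`. -/
def Zs (x : Space) : 𝒦 :=
  (-(S.lam * S.A x * (‖x‖ ^ 4)⁻¹ : ℝ) : ℂ) • (S.slope • ((x 2 ^ 2 : ℝ) • S.Y 2 + S.v₁))

/-- the term which cancels: `X = λ a' A r⁻⁴ z² Y_zφ`. -/
def Xc (x : Space) : 𝒦 :=
  ((S.lam * S.A x * (‖x‖ ^ 4)⁻¹ * x 2 ^ 2 : ℝ) : ℂ) • (S.slope • S.Y 2)

/-- source of the `Q`-equation (with `W₊`) of `E = H⁺ - Z`. -/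
def SrcE (x : Space) : 𝒦 := chanG S.lam S.k S.Wp S.Z x - S.Zs x + S.SrcEv x

end ChannelSys

end Claimed.Open.R278
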