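import Claimed.Open.R278.CH2C
import Claimed.Open.R278.CH2D

/-!
# Result 278, layer L4, file CH2E (leaf `CH2-E` in the team table)

Part of the package CH2 (parity, `H = QF - bG`, the plane ansatz); the plan is in `CH2.lean`.
Paper-free.  Leaf `CH2-E`: PROVED (helper225), no `sorry` in this file.  Auxiliary lemmas may be added;
statements are changed only after telling helper225 (channel open278).
-/

open MeasureTheory Filter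
open scoped ContDiff InnerProductSpace ComplexConjugate ENNReal Topology Laplacian

noncomputable section

namespace Claimed.Open.R278

variable {𝒦 : Type} [NormedAddCommGroup 𝒦] [InnerProductSpace ℂ 𝒦] [CompleteSpace 𝒦]
variable {κ : ChannelConsts} {b : Space → ℝ} {γ : ℝ}

/-! ## CH2c, part 3: the comparison argument for `E` -/

theorem ch2_sq_coord_le (x : Space) : x 2 ^ 2 ≤ ‖x‖ ^ 2 := by
  have := norm_sq_space x
  nlinarith [sq_nonneg (x 0), sq_nonneg (x 1)]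

/-- `‖Z‖ ≤ C λ A r⁻²`. -/
theorem ch2_Z_norm (κ : ChannelConsts) (b : Space → ℝ) (γ : ℝ) :
    ∃ C : ℝ, 0 ≤ C ∧ ∀ S : ChannelSys 𝒦 κ b γ, ∀ x ∈ Ext κ.R₁,
      ‖S.Z x‖ ≤ C * S.lam * (S.A x * (‖x‖ ^ 2)⁻¹) := by
  obtain ⟨Cs, hs⟩ := ch2_slope_bound (𝒦 := 𝒦) κ b γ
  obtain ⟨Cv, hv⟩ := ch2_v_bounds (𝒦 := 𝒦) κ b γ
  refine ⟨2 * (|Cs| * |Cv|), by positivity, fun S x hx => ?_⟩
  have hr1 : 1 < ‖x‖ := one_lt_norm_of_mem_Ext_R₁ hx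
  have hr : 0 < ‖x‖ := lt_trans zero_lt_one hr1
  obtain ⟨hv1, hv2, -⟩ := hv S
  have hsl := (hs S).trans (le_abs_self _)
  have hv1' := hv1.trans (le_abs_self _)
  have hv2' := hv2.trans (le_abs_self _)
  have hl := S.lam_nonneg
  have hA := S.A_nonneg x
  simp only [ChannelSys.Z]
  rw [norm_smul, norm_smul, norm_neg, Complex.norm_real, Real.norm_of_nonneg (by positivity)]
  have h1 : ‖(x 2 ^ 2 : ℝ) • S.v₁ + S.v₂‖ ≤ 2 * ‖x‖ ^ 2 * |Cv| := by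
    refine (norm_add_le _ _).trans ?_
    rw [norm_smul, Real.norm_of_nonneg (sq_nonneg _)]
    have h2 := ch2_sq_coord_le x
    have h3 : (1 : ℝ) ≤ ‖x‖ ^ 2 := by nlinarith
    have h4 : x 2 ^ 2 * ‖S.v₁‖ ≤ ‖x‖ ^ 2 * |Cv| := mul_le_mul h2 hv1' (norm_nonneg _) (by positivity)
    have h5 : ‖S.v₂‖ ≤ ‖x‖ ^ 2 * |Cv| := hv2'.trans (le_mul_of_one_le_left (abs_nonneg _) h3)
    linarith
  calc S.lam * S.A x * (‖x‖ ^ 4)⁻¹ * (‖S.slope‖ * ‖(x 2 ^ 2 : ℝ) • S.v₁ + S.v₂‖)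
      ≤ S.lam * S.A x * (‖x‖ ^ 4)⁻¹ * (|Cs| * (2 * ‖x‖ ^ 2 * |Cv|)) := by gcongr
    _ = _ := by field_simp

theorem ch2_Hev_norm (S : ChannelSys 𝒦 κ b γ) : ∀ x ∈ Ext κ.R₁,
    ‖S.Hev x‖ ≤ κ.C 0 * (S.lam * Real.exp (-(κ.τ * ‖x‖))) := by
  intro x hx
  have h1 := S.diff_bdd.norm_le x hx
  have h2 := S.diff_bdd.norm_le _ (reflZ_mem_Ext hx)
  simp only [norm_reflZ] at h2
  simp only [ChannelSys.Hev]
  rw [norm_smul, Real.norm_of_nonneg (by norm_num)]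
  have h3 : ‖S.H x + S.H (reflZ x)‖ ≤ _ := (norm_add_le _ _).trans (add_le_add h1 h2)
  linarith

/-- a priori bound of `E`: `‖E‖ ≤ C λ e^{-τ' r}`-type decay and the boundary values.
`‖H⁺‖ ≤ C λ e^{-τ r}` (`diff_bdd`), `‖Z‖ ≤ C λ A r⁻²`. -/
theorem ch2_E_apriori (κ : ChannelConsts) (b : Space → ℝ) (γ : ℝ) :
    ∃ C : ℝ, ∀ S : ChannelSys 𝒦 κ b γ, ∀ x ∈ Ext κ.R₁,
      ‖S.E x‖ ≤ C * S.lam * (Real.exp (-(κ.τ * ‖x‖)) + S.A x * (‖x‖ ^ 2)⁻¹) := by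
  obtain ⟨Cz, hCz, hz⟩ := ch2_Z_norm (𝒦 := 𝒦) κ b γ
  refine ⟨|κ.C 0| + Cz, fun S x hx => ?_⟩
  have h1 := ch2_Hev_norm S x hx
  have h2 := hz S x hx
  have hl := S.lam_nonneg
  have hA := S.A_nonneg x
  have he := (Real.exp_pos (-(κ.τ * ‖x‖))).le
  have hq : 0 ≤ S.A x * (‖x‖ ^ 2)⁻¹ := by positivity
  simp only [ChannelSys.E]
  refine (norm_sub_le _ _).trans ((add_le_add h1 h2).trans ?_)
  have h3 : κ.C 0 * (S.lam * Real.exp (-(κ.τ * ‖x‖))) ≤ |κ.C 0| * (S.lam * Real.exp (-(κ.τ * ‖x‖))) := by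
    gcongr; exact le_abs_self _
  have h4 : 0 ≤ |κ.C 0| * S.lam * (S.A x * (‖x‖ ^ 2)⁻¹) := by positivity
  have h5 : 0 ≤ Cz * S.lam * Real.exp (-(κ.τ * ‖x‖)) := by positivity
  nlinarith


theorem ch2_contDiffAt_profile4 (k β p₀ p₂ p₄ : ℝ) (m : ℕ) {x : Space} (hx : x ≠ 0) :
    ContDiffAt ℝ 2 (fun y : Space => radialA k β ‖y‖ * (‖y‖ ^ m)⁻¹ *
      (p₀ + p₂ * y 2 ^ 2 + p₄ * y 2 ^ 4)) x := by
  have hr : 0 < ‖x‖ := norm_pos_iff.2 hx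
  have h1 : ContDiffAt ℝ 2 (fun y : Space => ‖y‖) x := contDiffAt_norm ℝ hx
  have h2 : ContDiffAt ℝ 2 (fun y : Space => radialA k β ‖y‖) x :=
    ContDiffAt.comp (g := radialA k β) (f := fun y : Space => ‖y‖) x
      (contDiffAt_radialA k β hr) h1
  have h3 : ContDiffAt ℝ 2 (fun y : Space => (‖y‖ ^ m)⁻¹) x :=
    (h1.pow m).inv (pow_ne_zero _ hr.ne')
  have h4 : ContDiffAt ℝ 2 (fun y : Space => y 2) x :=
    ((contDiff_coord 2).of_le (WithTop.coe_le_coe.2 le_top)).contDiffAt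
  exact (h2.mul h3).mul ((contDiffAt_const.add (contDiffAt_const.mul (h4.pow 2))).add
    (contDiffAt_const.mul (h4.pow 4)))

/-- `A r⁻² ≤ e^{-0.9 r}`. -/
theorem ch2_A_le_exp (S : ChannelCore 𝒦 κ) {x : Space} (hr : 1 ≤ ‖x‖) :
    S.A x * (‖x‖ ^ 2)⁻¹ ≤ Real.exp (-(0.9 * ‖x‖)) := by
  have hr0 : 0 < ‖x‖ := by linarith
  have hβ := S.β_bounds.2
  simp only [ChannelCore.A, radialA]
  have h1 : Real.exp (-(S.k * ‖x‖)) ≤ Real.exp (-(0.9 * ‖x‖)) := by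
    apply Real.exp_le_exp.2
    have := S.k_lo
    nlinarith
  have h2 : ‖x‖ ^ S.β ≤ ‖x‖ ^ 2 := by
    rw [← Real.rpow_natCast]
    exact Real.rpow_le_rpow_of_exponent_le hr (by push_cast; linarith)
  have h3 : ‖x‖ ^ S.β * (‖x‖ ^ 2)⁻¹ ≤ 1 := by
    rw [← div_eq_mul_inv, div_le_one (by positivity)]; exact h2
  have h4 : 0 ≤ ‖x‖ ^ S.β * (‖x‖ ^ 2)⁻¹ := by positivity
  calc Real.exp (-(S.k * ‖x‖)) * ‖x‖ ^ S.β * (‖x‖ ^ 2)⁻¹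
      = Real.exp (-(S.k * ‖x‖)) * (‖x‖ ^ S.β * (‖x‖ ^ 2)⁻¹) := by ring
    _ ≤ Real.exp (-(0.9 * ‖x‖)) * 1 := mul_le_mul h1 h3 h4 (Real.exp_pos _).le
    _ = _ := mul_one _

/-- **CH2c**: the remainder of the even part, `‖E‖ ≤ C λ A r⁻⁵ (1 + z⁴)`.
`qeq_compare` with `T = W₊` (`ch2_Wp_nonneg`, `ch2_qeq_E`) and
`Φ = (C' λ + ε) A r⁻⁵ (p₀ + p₂ z² + z⁴)`, `p₂ = 8/c`, `p₀ = 1 + 4 p₂/(3c)`: by `supersol_Q (m := 5)`
`-½ΔΦ + (c + k²/2 + u) Φ ≥ (C'λ+ε) A r⁻⁵ (3c/4) (1 + z⁴)`, which dominates `‖SrcE‖`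
(`ch2_SrcE_bound`); boundary values by `ch2_E_apriori`; `ε ↓ 0`; `z² ≤ 1 + z⁴`. -/
theorem channel_E (κ : ChannelConsts) (b : Space → ℝ) (γ : ℝ) (Cb : ℕ → ℝ) (cb : ℝ)
    (hb : FastOrbital b γ κ.R₁ Cb cb) :
    ∃ (R₀ C : ℝ), κ.R₁ ≤ R₀ ∧ ∀ S : ChannelSys 𝒦 κ b γ, ∀ x ∈ Ext R₀,
      ‖S.E x‖ ≤ C * S.lam * S.A x * (‖x‖ ^ 5)⁻¹ * (1 + x 2 ^ 4) := by
  obtain ⟨Rs, hRs, hsup⟩ := supersol_Q κ.c κ.c_pos 5
  obtain ⟨Rb, Cs, hRb, hsrc⟩ := ch2_SrcE_bound (𝒦 := 𝒦) κ b γ Cb cb hb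
  obtain ⟨Ca, hap⟩ := ch2_E_apriori (𝒦 := 𝒦) κ b γ
  have hc := κ.c_pos
  have hR1 : 0 < κ.R₁ := ChannelCore.R₁_pos κ
  set R₀ : ℝ := max (max Rs Rb) (κ.R₁ + 1) with hR₀
  have hRs0 : Rs ≤ R₀ := (le_max_left _ _).trans (le_max_left _ _)
  have hRb0 : Rb ≤ R₀ := (le_max_right _ _).trans (le_max_left _ _)
  have hR10 : κ.R₁ + 1 ≤ R₀ := le_max_right _ _
  have hR₀pos : 0 < R₀ := by linarith
  have hR₀1 : 1 ≤ R₀ := by linarith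
  set q₂ : ℝ := 8 / κ.c with hq₂
  set q₀ : ℝ := 1 + 32 / (3 * κ.c ^ 2) with hq₀
  have hq₂0 : 0 < q₂ := by positivity
  have hq₀1 : 1 ≤ q₀ := by
    have : 0 ≤ 32 / (3 * κ.c ^ 2) := by positivity
    linarith
  set Λ : ℝ := 4 * |Cs| / (3 * κ.c) + |Ca| * (Real.exp (1.1 * R₀) * R₀ ^ 6 + R₀ ^ 3) with hΛ
  have hΛ0 : 0 ≤ Λ := by positivity
  refine ⟨R₀, Λ * (q₀ + q₂ + 1), by linarith, fun S => ?_⟩
  have hl := S.lam_nonneg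
  -- decay
  have hdec : Tendsto (fun x => ‖S.E x‖) (cocompact Space) (𝓝 0) := by
    refine ch1_decay (R := κ.R₁) (C := 2 * (|Ca| * S.lam)) (τ := min κ.τ 0.9)
      (lt_min κ.τ_pos (by norm_num)) fun x hx => ?_
    have hr1 := one_lt_norm_of_mem_Ext_R₁ hx
    have h1 := hap S x hx
    have h2 := ch2_A_le_exp S.toChannelCore hr1.le
    have h3 : Real.exp (-(κ.τ * ‖x‖)) ≤ Real.exp (-(min κ.τ 0.9 * ‖x‖)) := by
      apply Real.exp_le_exp.2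
      have := min_le_left κ.τ 0.9
      nlinarith
    have h4 : Real.exp (-(0.9 * ‖x‖)) ≤ Real.exp (-(min κ.τ 0.9 * ‖x‖)) := by
      apply Real.exp_le_exp.2
      have := min_le_right κ.τ 0.9
      nlinarith
    have h5 : 0 ≤ Real.exp (-(κ.τ * ‖x‖)) + S.A x * (‖x‖ ^ 2)⁻¹ := by
      have := S.A_nonneg x
      positivity
    calc ‖S.E x‖ ≤ Ca * S.lam * (Real.exp (-(κ.τ * ‖x‖)) + S.A x * (‖x‖ ^ 2)⁻¹) := h1
      _ ≤ |Ca| * S.lam * (Real.exp (-(κ.τ * ‖x‖)) + S.A x * (‖x‖ ^ 2)⁻¹) := by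
          gcongr; exact le_abs_self _
      _ ≤ |Ca| * S.lam * (Real.exp (-(min κ.τ 0.9 * ‖x‖)) + Real.exp (-(min κ.τ 0.9 * ‖x‖))) := by
          gcongr
          exact h2.trans h4
      _ = _ := by ring
  -- the bound with `ε`
  have key : ∀ ε : ℝ, 0 < ε → ∀ x, R₀ ≤ ‖x‖ →
      ‖S.E x‖ ≤ S.A x * (‖x‖ ^ 5)⁻¹ * ((Λ * S.lam + ε) * q₀ + (Λ * S.lam + ε) * q₂ * x 2 ^ 2
        + (Λ * S.lam + ε) * x 2 ^ 4) := by
    intro ε hε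
    set N : ℝ := Λ * S.lam + ε with hN
    have hN0 : 0 < N := by positivity
    have hsupS := hsup S.k S.lam (N * q₀) (N * q₂) N S.k_lo.le S.k_hi.le hl S.lam_le
      (by positivity) (by positivity) hN0.le
    refine qeq_compare S.toChannelCore (T := S.Wp) (Src := S.SrcE)
      (Φ := fun y : Space => radialA S.k (betaOf S.lam S.k) ‖y‖ * (‖y‖ ^ 5)⁻¹ *
        (N * q₀ + N * q₂ * y 2 ^ 2 + N * y 2 ^ 4)) (by linarith)
      (fun x hx => ch2_Wp_nonneg S x (Ext_mono (by linarith) hx))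
      ((ch2_qeq_E hb S).mono (by linarith))
      ((ch2_contDiffOn_E hb S).of_le (WithTop.coe_le_coe.2 le_top)) hdec
      (fun y hy => (ch2_contDiffAt_profile4 _ _ _ _ _ 5
        (ne_zero_of_mem_Ext hR1.le hy)).contDiffWithinAt) ?_ ?_ ?_ ?_
    · intro x hx
      have hr : 0 < ‖x‖ := by linarith
      have hA := radialA_pos S.k (betaOf S.lam S.k) hr
      positivity
    · exact fun x hx => (hsupS x (Ext_mono hRs0 hx)).1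
    · intro x hx
      have hr : 0 < ‖x‖ := lt_trans hR₀pos hx
      refine le_trans ((hsrc S x (Ext_mono hRb0 hx)).trans ?_) (hsupS x (Ext_mono hRs0 hx)).2
      have hA : 0 ≤ S.A x * (‖x‖ ^ 5)⁻¹ := by
        have := S.A_nonneg x
        positivity
      have e : 3 * κ.c / 4 * (N * q₀ + N * q₂ * x 2 ^ 2 + N * x 2 ^ 4) - (N * q₂ + 6 * N * x 2 ^ 2)
          = N * (3 * κ.c / 4) * (1 + x 2 ^ 4) := by
        rw [hq₀, hq₂]; field_simp; ring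
      rw [e]
      have h3 : Cs * S.lam ≤ N * (3 * κ.c / 4) := by
        have e2 : N * (3 * κ.c / 4) = |Cs| * S.lam
            + (|Ca| * (Real.exp (1.1 * R₀) * R₀ ^ 6 + R₀ ^ 3) * S.lam + ε) * (3 * κ.c / 4) := by
          rw [hN, hΛ]; field_simp; ring
        rw [e2]
        have h4 : 0 ≤ (|Ca| * (Real.exp (1.1 * R₀) * R₀ ^ 6 + R₀ ^ 3) * S.lam + ε) * (3 * κ.c / 4) := by
          positivity
        have h5 : Cs * S.lam ≤ |Cs| * S.lam := by gcongr; exact le_abs_self _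
        linarith
      have hz : 0 ≤ 1 + x 2 ^ 4 := by positivity
      calc Cs * S.lam * S.A x * (‖x‖ ^ 5)⁻¹ * (1 + x 2 ^ 4)
          = (Cs * S.lam) * ((S.A x * (‖x‖ ^ 5)⁻¹) * (1 + x 2 ^ 4)) := by ring
        _ ≤ (N * (3 * κ.c / 4)) * ((S.A x * (‖x‖ ^ 5)⁻¹) * (1 + x 2 ^ 4)) := by gcongr
        _ = _ := by
          show _ = S.A x * (‖x‖ ^ 5)⁻¹ * (N * (3 * κ.c / 4) * (1 + x 2 ^ 4))
          ring
    · intro x hx
      have hx1 : x ∈ Ext κ.R₁ := by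
        show κ.R₁ < ‖x‖
        rw [hx]; linarith
      refine (hap S x hx1).trans ?_
      show _ ≤ S.A x * (‖x‖ ^ 5)⁻¹ * (N * q₀ + N * q₂ * x 2 ^ 2 + N * x 2 ^ 4)
      have hAx : S.A x = radialA S.k S.β R₀ := by simp only [ChannelCore.A, hx]
      rw [hx, hAx]
      set a := radialA S.k S.β R₀ with ha
      have ha0 : 0 < a := radialA_pos _ _ hR₀pos
      have h1 := ch1_A_lower S.toChannelCore hR₀1
      have he : Real.exp (-(κ.τ * R₀)) ≤ 1 := by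
        apply Real.exp_le_one_iff.2
        have := mul_pos κ.τ_pos hR₀pos
        linarith
      have hE : Real.exp (1.1 * R₀) * Real.exp (-(1.1 * R₀)) = 1 := by
        rw [← Real.exp_add]; simp
      have h2 : 1 ≤ a * (R₀ ^ 5)⁻¹ * (Real.exp (1.1 * R₀) * R₀ ^ 6) := by
        calc (1 : ℝ) = (Real.exp (1.1 * R₀) * Real.exp (-(1.1 * R₀))) * 1 := by rw [hE, one_mul]
          _ = (Real.exp (-(1.1 * R₀)) * R₀⁻¹) * (R₀ ^ 5)⁻¹ * (Real.exp (1.1 * R₀) * R₀ ^ 6) := by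
              field_simp
          _ ≤ _ := by gcongr
      have h3 : Real.exp (-(κ.τ * R₀)) + a * (R₀ ^ 2)⁻¹
          ≤ a * (R₀ ^ 5)⁻¹ * (Real.exp (1.1 * R₀) * R₀ ^ 6 + R₀ ^ 3) := by
        have e3 : a * (R₀ ^ 5)⁻¹ * R₀ ^ 3 = a * (R₀ ^ 2)⁻¹ := by field_simp
        rw [mul_add, e3]
        linarith
      have h4 : |Ca| * (Real.exp (1.1 * R₀) * R₀ ^ 6 + R₀ ^ 3) * S.lam ≤ N := by
        rw [hN, hΛ]
        have : 0 ≤ 4 * |Cs| / (3 * κ.c) * S.lam := by positivity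
        nlinarith
      have h5 : N ≤ N * q₀ + N * q₂ * x 2 ^ 2 + N * x 2 ^ 4 := by
        have t1 : N ≤ N * q₀ := le_mul_of_one_le_right hN0.le hq₀1
        have t2 : 0 ≤ N * q₂ * x 2 ^ 2 := by positivity
        have t3 : 0 ≤ N * x 2 ^ 4 := by positivity
        linarith
      have h6 : 0 ≤ Real.exp (-(κ.τ * R₀)) + a * (R₀ ^ 2)⁻¹ := by positivity
      calc Ca * S.lam * (Real.exp (-(κ.τ * R₀)) + a * (R₀ ^ 2)⁻¹)
          ≤ |Ca| * S.lam * (Real.exp (-(κ.τ * R₀)) + a * (R₀ ^ 2)⁻¹) := by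
            gcongr; exact le_abs_self _
        _ ≤ |Ca| * S.lam * (a * (R₀ ^ 5)⁻¹ * (Real.exp (1.1 * R₀) * R₀ ^ 6 + R₀ ^ 3)) := by gcongr
        _ = a * (R₀ ^ 5)⁻¹ * (|Ca| * (Real.exp (1.1 * R₀) * R₀ ^ 6 + R₀ ^ 3) * S.lam) := by ring
        _ ≤ a * (R₀ ^ 5)⁻¹ * (N * q₀ + N * q₂ * x 2 ^ 2 + N * x 2 ^ 4) := by
            gcongr
            exact h4.trans h5
  intro x hx
  have hr : 0 < ‖x‖ := lt_trans hR₀pos hx
  have hA : 0 < S.A x * (‖x‖ ^ 5)⁻¹ := by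
    have h2 : 0 < S.A x := radialA_pos S.k S.β hr
    positivity
  set z := x 2 with hz
  have z2 : z ^ 2 ≤ 1 + z ^ 4 := by nlinarith [sq_nonneg (z ^ 2 - 1), sq_nonneg z]
  have hP : 0 < q₀ + q₂ * z ^ 2 + z ^ 4 := by positivity
  have hlim : ‖S.E x‖ ≤ S.A x * (‖x‖ ^ 5)⁻¹ * (Λ * S.lam) * (q₀ + q₂ * z ^ 2 + z ^ 4) := by
    apply le_of_forall_pos_le_add
    intro δ hδ
    have hBP : 0 < S.A x * (‖x‖ ^ 5)⁻¹ * (q₀ + q₂ * z ^ 2 + z ^ 4) := by positivity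
    have h := key (δ / (S.A x * (‖x‖ ^ 5)⁻¹ * (q₀ + q₂ * z ^ 2 + z ^ 4))) (by positivity) x
      (le_of_lt hx)
    refine h.trans (le_of_eq ?_)
    set ε := δ / (S.A x * (‖x‖ ^ 5)⁻¹ * (q₀ + q₂ * z ^ 2 + z ^ 4)) with hε
    have e1 : ε * (S.A x * (‖x‖ ^ 5)⁻¹ * (q₀ + q₂ * z ^ 2 + z ^ 4)) = δ :=
      div_mul_cancel₀ _ hBP.ne'
    calc S.A x * (‖x‖ ^ 5)⁻¹ * ((Λ * S.lam + ε) * q₀ + (Λ * S.lam + ε) * q₂ * z ^ 2
          + (Λ * S.lam + ε) * z ^ 4)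
        = S.A x * (‖x‖ ^ 5)⁻¹ * (Λ * S.lam) * (q₀ + q₂ * z ^ 2 + z ^ 4)
          + ε * (S.A x * (‖x‖ ^ 5)⁻¹ * (q₀ + q₂ * z ^ 2 + z ^ 4)) := by ring
      _ = _ := by rw [e1]
  refine hlim.trans ?_
  have hP2 : q₀ + q₂ * z ^ 2 + z ^ 4 ≤ (q₀ + q₂ + 1) * (1 + z ^ 4) := by
    have t1 : q₂ * z ^ 2 ≤ q₂ * (1 + z ^ 4) := by gcongr
    have t2 : q₀ ≤ q₀ * (1 + z ^ 4) := le_mul_of_one_le_right (by linarith) (by
      have : 0 ≤ z ^ 4 := by positivity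
      linarith)
    have e2 : (q₀ + q₂ + 1) * (1 + z ^ 4) = q₀ * (1 + z ^ 4) + q₂ * (1 + z ^ 4) + (1 + z ^ 4) := by
      ring
    rw [e2]
    linarith
  calc S.A x * (‖x‖ ^ 5)⁻¹ * (Λ * S.lam) * (q₀ + q₂ * z ^ 2 + z ^ 4)
      ≤ S.A x * (‖x‖ ^ 5)⁻¹ * (Λ * S.lam) * ((q₀ + q₂ + 1) * (1 + z ^ 4)) := by gcongr
    _ = _ := by ring

end Claimed.Open.R278
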