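import Claimed.Open.R278.CH2E

/-!
# Result 278, layer L4, file CH2F (leaf `CH2-F` in the team table)

Part of the package CH2 (parity, `H = QF - bG`, the plane ansatz); the plan is in `CH2.lean`.
Paper-free.  Leaf `CH2-F`: PROVED (helper225), no `sorry` in this file.  Auxiliary lemmas may be added;
statements are changed only after telling helper225 (channel open278).
-/

open MeasureTheory Filter
open scoped ContDiff InnerProductSpace ComplexConjugate ENNReal Topology Laplacian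

noncomputable section

namespace Claimed.Open.R278

variable {𝒦 : Type} [NormedAddCommGroup 𝒦] [InnerProductSpace ℂ 𝒦] [CompleteSpace 𝒦]
variable {κ : ChannelConsts} {b : Space → ℝ} {γ : ℝ}

/-! ## CH2d: derivatives of `E` by interpolation -/

theorem one_le_R₁ (κ : ChannelConsts) : 1 ≤ κ.R₁ := by
  have h2 := κ.R₁_ge
  have h3 := cht_one_le_bigD
  linarith

/-- all words of `A` are `O(A)`, uniformly. -/
theorem ch2_A_bdd (κ : ChannelConsts) : ∃ C : ℕ → ℝ, ∀ S : ChannelCore 𝒦 κ,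
    WordBdd 1 C S.A S.A := by
  obtain ⟨C, hC⟩ := radialA_wordBdd 2
  refine ⟨C, fun S => hC S.k S.β ?_ ?_⟩
  · rw [abs_le]; constructor <;> linarith [S.k_lo, S.k_hi]
  · have := S.β_bounds
    rw [abs_le]; constructor <;> linarith [this.1, this.2]

/-- all words of the explicit ansatz: `Z = O(λ A r⁻²)`. -/
theorem ch2_Z_bdd (κ : ChannelConsts) (b : Space → ℝ) (γ : ℝ) :
    ∃ C : ℕ → ℝ, ∀ S : ChannelSys 𝒦 κ b γ,
      WordBdd κ.R₁ C (fun x => S.lam * S.A x * (‖x‖ ^ 2)⁻¹) S.Z := by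
  obtain ⟨Cs, hs⟩ := ch2_slope_bound (𝒦 := 𝒦) κ b γ
  obtain ⟨Cv, hv⟩ := ch2_v_bounds (𝒦 := 𝒦) κ b γ
  obtain ⟨CA, hA⟩ := ch2_A_bdd (𝒦 := 𝒦) κ
  obtain ⟨C4, h4⟩ := norm_inv_pow_wordBdd 4
  have hz := coord_wordBdd 2
  have hzz := hz.smul (fun x _ => norm_nonneg x) (fun x _ => norm_nonneg x) hz
  have h4zz := h4.smul (fun x _ => by positivity) (fun x _ => by positivity) hzz
  refine ⟨fun n => mulC CA (mulC C4 (mulC (fun _ => 1) fun _ => 1)) n * (|Cs| * |Cv|)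
    + mulC CA C4 n * (|Cs| * |Cv|), fun S => ?_⟩
  obtain ⟨hv1, hv2, -⟩ := hv S
  have hsl := (hs S).trans (le_abs_self _)
  have w1 : ‖-(S.slope • S.v₁)‖ ≤ |Cs| * |Cv| * 1 := by
    rw [norm_neg, norm_smul, mul_one]
    exact mul_le_mul hsl (hv1.trans (le_abs_self _)) (norm_nonneg _) (abs_nonneg _)
  have w2 : ‖-(S.slope • S.v₂)‖ ≤ |Cs| * |Cv| * 1 := by
    rw [norm_neg, norm_smul, mul_one]
    exact mul_le_mul hsl (hv2.trans (le_abs_self _)) (norm_nonneg _) (abs_nonneg _)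
  have hAS := hA S.toChannelCore
  have p1 := ((hAS.smul (fun x _ => S.A_nonneg x) (fun x _ => by positivity) h4zz).smul_vec_profile
    w1)
  have p2 := ((hAS.smul (fun x _ => S.A_nonneg x) (fun x _ => by positivity) h4).smul_vec_profile
    w2)
  have q1 := p1.mono (g' := fun x => S.A x * (‖x‖ ^ 2)⁻¹)
    (C' := fun n => mulC CA (mulC C4 (mulC (fun _ => 1) fun _ => 1)) n * (|Cs| * |Cv|))
    (one_le_R₁ κ) fun n x hx => le_of_eq (by
      have hr : 0 < ‖x‖ := norm_pos_of_mem_Ext (ChannelCore.R₁_pos κ).le hx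
      field_simp)
  have q2 := p2.mono (g' := fun x => S.A x * (‖x‖ ^ 2)⁻¹)
    (C' := fun n => mulC CA C4 n * (|Cs| * |Cv|))
    (one_le_R₁ κ) fun n x hx => by
      have hr1 : 1 < ‖x‖ := one_lt_norm_of_mem_Ext_R₁ hx
      have hr : 0 < ‖x‖ := lt_trans zero_lt_one hr1
      have h1 : (‖x‖ ^ 4)⁻¹ ≤ (‖x‖ ^ 2)⁻¹ :=
        inv_anti₀ (by positivity) (pow_le_pow_right₀ hr1.le (by norm_num))
      have h2 := S.A_nonneg x
      have h3 := mulC_nonneg CA C4 n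
      rw [one_mul]
      gcongr
  have q := (q1.add q2).const_smul_profile S.lam_nonneg
  refine (q.congr fun x _ => ?_).mono le_rfl fun n x _ => le_of_eq (by ring)
  simp only [ChannelSys.Z, neg_smul, Complex.coe_smul, smul_eq_mul]
  module

/-- all words of `E = H⁺ - Z` are `O(λ A r⁻²)`. -/
theorem ch2_E_bdd (κ : ChannelConsts) (b : Space → ℝ) (γ : ℝ) (Cb : ℕ → ℝ) (cb : ℝ)
    (hb : FastOrbital b γ κ.R₁ Cb cb) :
    ∃ (R₀ : ℝ) (C : ℕ → ℝ), κ.R₁ ≤ R₀ ∧ ∀ S : ChannelSys 𝒦 κ b γ,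
      WordBdd R₀ C (fun x => S.lam * S.A x * (‖x‖ ^ 2)⁻¹) S.E := by
  obtain ⟨R₀, C₁, hR₀, h₁⟩ := ch2_Hodd_Hev_bdd (𝒦 := 𝒦) κ b γ Cb cb hb
  obtain ⟨C₂, h₂⟩ := ch2_Z_bdd (𝒦 := 𝒦) κ b γ
  exact ⟨R₀, fun n => C₁ n + C₂ n, hR₀, fun S =>
    (h₁ S).2.sub ((h₂ S).mono hR₀ fun _ _ _ => le_rfl)⟩


theorem ch2_line_facts {x v : Space} (hv : ‖v‖ = 1) {s : ℝ} (hs0 : 0 ≤ s) (hs1 : s ≤ 1)
    (hx : 2 ≤ ‖x‖) :
    |‖x + s • v‖ - ‖x‖| ≤ 1 ∧ ‖x‖ / 2 ≤ ‖x + s • v‖ ∧ |(x + s • v) 2| ≤ |x 2| + 1 := by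
  have h1 : ‖s • v‖ ≤ 1 := by rw [norm_smul, hv, mul_one, Real.norm_of_nonneg hs0]; exact hs1
  have h2 : |‖x + s • v‖ - ‖x‖| ≤ 1 := by
    have := abs_norm_sub_norm_le (x + s • v) x
    rw [add_sub_cancel_left] at this
    exact this.trans h1
  refine ⟨h2, by linarith [(abs_le.1 h2).1], ?_⟩
  have h3 : |(s • v) 2| ≤ 1 := (PiLp.norm_apply_le (s • v) 2).trans h1
  have e : (x + s • v) 2 = x 2 + (s • v) 2 := rfl
  rw [e]
  exact (abs_add_le _ _).trans (by linarith)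

theorem ch2_line_mem {x v : Space} (hv : ‖v‖ = 1) {s R : ℝ} (hs : |s| ≤ 2) (hx : R + 2 < ‖x‖) :
    x + s • v ∈ Ext R := by
  show R < ‖x + s • v‖
  have h1 : ‖s • v‖ ≤ 2 := by rw [norm_smul, hv, mul_one]; exact hs
  have := norm_sub_norm_le x (-(s • v))
  rw [norm_neg, sub_neg_eq_add] at this
  linarith

/-- the two power identities of the interpolation step. -/
theorem ch2_rpow_facts {r : ℝ} (hr : 0 < r) :
    (r ^ 5)⁻¹ = r ^ (-(17 / 4) : ℝ) * (r ^ (-(3 / 8) : ℝ)) ^ 2 ∧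
    (r ^ 2)⁻¹ * (r ^ (-(3 / 8) : ℝ)) ^ 6 = r ^ (-(17 / 4) : ℝ) := by
  constructor
  · rw [← Real.rpow_natCast (r ^ (-(3 / 8) : ℝ)) 2, ← Real.rpow_mul hr.le, ← Real.rpow_add hr,
      ← Real.rpow_natCast r 5, ← Real.rpow_neg hr.le]
    congr 1; norm_num
  · rw [← Real.rpow_natCast (r ^ (-(3 / 8) : ℝ)) 6, ← Real.rpow_mul hr.le,
      ← Real.rpow_natCast r 2, ← Real.rpow_neg hr.le, ← Real.rpow_add hr]
    congr 1; norm_num

/-- **CH2d**: first and second Fréchet derivatives of `E` by interpolation with CH2b: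
`‖D^a E‖ ≤ C λ A r^{-4-1/4} (1 + |z|)^4`, `a = 1, 2`.
For a unit vector `v` put `g(s) = E(x + s v)` (`|x| > R₀ + 2`); on `[0,1]`:
`‖g‖ ≤ ε := C λ A(r) r⁻⁵ (1+|z|)⁴` (`channel_E`, `radialA_ratio`, `|z + s v_z| ≤ |z| + 1`,
`r/2 ≤ |x + s v|`), `‖g⁽⁸⁾‖ ≤ M := C λ A(r) r⁻²` (`iteratedDeriv_line_le`, `ch2_E_bdd`);
`interpolation_eight` with the step `η = r^{-3/8}/8`: `ε η⁻² = 64 C λ A r^{-17/4} (1+|z|)⁴`,
`M η⁶ = C' λ A r^{-17/4}`, `ε η⁻¹ ≤ ε η⁻²`, `M η⁷ ≤ M η⁶`; then `norm_fderiv_le_of_lines`. -/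
theorem channel_E_deriv (κ : ChannelConsts) (b : Space → ℝ) (γ : ℝ) (Cb : ℕ → ℝ)
    (cb : ℝ) (hb : FastOrbital b γ κ.R₁ Cb cb) :
    ∃ (R₀ C : ℝ), κ.R₁ ≤ R₀ ∧ ∀ S : ChannelSys 𝒦 κ b γ, ∀ x ∈ Ext R₀,
      ‖fderiv ℝ S.E x‖ ≤ C * S.lam * S.A x * ‖x‖ ^ (-(17 / 4) : ℝ) * (1 + |x 2|) ^ 4 ∧
      ‖fderiv ℝ (fderiv ℝ S.E) x‖ ≤ C * S.lam * S.A x * ‖x‖ ^ (-(17 / 4) : ℝ) * (1 + |x 2|) ^ 4 := by
  obtain ⟨RE, CE, hRE, hE⟩ := channel_E (𝒦 := 𝒦) κ b γ Cb cb hb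
  obtain ⟨RB, CB, hRB, hB⟩ := ch2_E_bdd (𝒦 := 𝒦) κ b γ Cb cb hb
  obtain ⟨Cr, hCr, hrat⟩ := radialA_ratio
  obtain ⟨CI, hCI, hI⟩ := interpolation_eight (V := 𝒦)
  set e₀ : ℝ := 64 * |CE| * Cr with he₀
  set m₀ : ℝ := 3 ^ 8 * (4 * |CB 8| * Cr) with hm₀
  have he₀0 : 0 ≤ e₀ := by positivity
  have hm₀0 : 0 ≤ m₀ := by positivity
  set K : ℝ := CI * (64 * e₀ + 64 / 8 ^ 8 * m₀) with hK
  have hK0 : 0 ≤ K := by positivity
  have h1R := one_le_R₁ κ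
  refine ⟨max RE RB + 2, 4 * K, by linarith [le_max_left RE RB], fun S x hx => ?_⟩
  have hxr : max RE RB + 2 < ‖x‖ := hx
  have hxE : RE + 2 < ‖x‖ := by linarith [le_max_left RE RB]
  have hxB : RB + 2 < ‖x‖ := by linarith [le_max_right RE RB]
  have hr2 : 2 ≤ ‖x‖ := by linarith
  have hr : 0 < ‖x‖ := by linarith
  have hl := S.lam_nonneg
  have hA0 := S.A_nonneg x
  set r := ‖x‖ with hrdef
  set a := S.A x with ha
  set z := x 2 with hz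
  set ρ : ℝ := r ^ (-(3 / 8) : ℝ) with hρ
  set T : ℝ := r ^ (-(17 / 4) : ℝ) with hT
  have hρ0 : 0 < ρ := Real.rpow_pos_of_pos hr _
  have hT0 : 0 < T := Real.rpow_pos_of_pos hr _
  have hρ1 : ρ ≤ 1 := Real.rpow_le_one_of_one_le_of_nonpos (by linarith) (by norm_num)
  obtain ⟨L1, L2⟩ := ch2_rpow_facts hr
  rw [← hρ, ← hT] at L1 L2
  set η : ℝ := ρ / 8 with hη
  have hη0 : 0 < η := by positivity
  have hη1 : η ≤ 1 / 8 := by rw [hη]; linarith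
  set w4 : ℝ := (1 + |z|) ^ 4 with hw4
  have hw41 : 1 ≤ w4 := one_le_pow₀ (by linarith [abs_nonneg z])
  set ε : ℝ := e₀ * S.lam * a * (r ^ 5)⁻¹ * w4 with hε
  set M : ℝ := m₀ * S.lam * a * (r ^ 2)⁻¹ with hM
  set D : ℝ := CI * (64 * e₀ * S.lam * a * w4 * T + 64 / 8 ^ 8 * m₀ * S.lam * a * T) with hD
  have hX : CI * (ε + M * η ^ 8) = η ^ 2 * D := by
    have e1 : (r ^ 2)⁻¹ * η ^ 8 = T * η ^ 2 * (64 / 8 ^ 8) := by
      rw [← L2, hη]; ring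
    have e2 : M * η ^ 8 = m₀ * S.lam * a * ((r ^ 2)⁻¹ * η ^ 8) := by rw [hM]; ring
    rw [e2, e1, hε, L1, hD, hη]
    ring
  have hD0 : 0 ≤ D := by positivity
  have hlines : ∀ v : Space, ‖v‖ = 1 →
      ‖iteratedDeriv 1 (fun s : ℝ => S.E (x + s • v)) 0‖ ≤ D ∧
      ‖iteratedDeriv 2 (fun s : ℝ => S.E (x + s • v)) 0‖ ≤ D := by
    intro v hv
    have hg : ContDiffOn ℝ 8 (fun s : ℝ => S.E (x + s • v)) (Set.Ioo (-1) 2) := fun s hs =>
      (contDiffAt_line (hB S).1 (ch2_line_mem hv (abs_le.2 ⟨by linarith [hs.1], hs.2.le⟩) hxB)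
        8).contDiffWithinAt
    have hAy : ∀ s ∈ Set.Icc (0 : ℝ) 1, S.A (x + s • v) ≤ Cr * a := fun s hs =>
      hrat S.k S.lam r ‖x + s • v‖ S.k_lo.le S.k_hi.le hl S.lam_le hr2
        (ch2_line_facts hv hs.1 hs.2 hr2).1
    have hgε : ∀ s ∈ Set.Icc (0 : ℝ) 1, ‖S.E (x + s • v)‖ ≤ ε := by
      intro s hs
      obtain ⟨-, f2, f3⟩ := ch2_line_facts hv hs.1 hs.2 hr2
      have hmem : x + s • v ∈ Ext RE :=
        ch2_line_mem hv (abs_le.2 ⟨by linarith [hs.1], by linarith [hs.2]⟩) hxE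
      have h1 := hE S _ hmem
      have hy0 : 0 < ‖x + s • v‖ := by linarith
      have h2 : (‖x + s • v‖ ^ 5)⁻¹ ≤ 32 * (r ^ 5)⁻¹ := by
        have : (r / 2) ^ 5 ≤ ‖x + s • v‖ ^ 5 := pow_le_pow_left₀ (by positivity) f2 5
        calc (‖x + s • v‖ ^ 5)⁻¹ ≤ ((r / 2) ^ 5)⁻¹ := inv_anti₀ (by positivity) this
          _ = 32 * (r ^ 5)⁻¹ := by rw [div_pow, inv_div]; norm_num; ring
      have h3 : 1 + (x + s • v) 2 ^ 4 ≤ 2 * w4 := by
        have e4 : (x + s • v) 2 ^ 4 = |(x + s • v) 2| ^ 4 := by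
          calc (x + s • v) 2 ^ 4 = ((x + s • v) 2 ^ 2) ^ 2 := by ring
            _ = (|(x + s • v) 2| ^ 2) ^ 2 := by rw [sq_abs]
            _ = _ := by ring
        have : |(x + s • v) 2| ^ 4 ≤ w4 := by
          rw [hw4]
          exact pow_le_pow_left₀ (abs_nonneg _) (by linarith) 4
        rw [e4]; linarith
      have hAy0 := S.A_nonneg (x + s • v)
      calc ‖S.E (x + s • v)‖
          ≤ CE * S.lam * S.A (x + s • v) * (‖x + s • v‖ ^ 5)⁻¹ * (1 + (x + s • v) 2 ^ 4) := h1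
        _ ≤ |CE| * S.lam * S.A (x + s • v) * (‖x + s • v‖ ^ 5)⁻¹ * (1 + (x + s • v) 2 ^ 4) := by
            gcongr; exact le_abs_self _
        _ ≤ |CE| * S.lam * (Cr * a) * (32 * (r ^ 5)⁻¹) * (2 * w4) := by
            gcongr
            exact hAy s hs
        _ = ε := by rw [hε, he₀]; ring
    have hgM : ∀ s ∈ Set.Icc (0 : ℝ) 1,
        ‖iteratedDeriv 8 (fun s : ℝ => S.E (x + s • v)) s‖ ≤ M := by
      intro s hs
      obtain ⟨-, f2, -⟩ := ch2_line_facts hv hs.1 hs.2 hr2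
      have hmem : x + s • v ∈ Ext RB :=
        ch2_line_mem hv (abs_le.2 ⟨by linarith [hs.1], by linarith [hs.2]⟩) hxB
      have hy0 : 0 < ‖x + s • v‖ := by linarith
      have h2 : (‖x + s • v‖ ^ 2)⁻¹ ≤ 4 * (r ^ 2)⁻¹ := by
        have : (r / 2) ^ 2 ≤ ‖x + s • v‖ ^ 2 := pow_le_pow_left₀ (by positivity) f2 2
        calc (‖x + s • v‖ ^ 2)⁻¹ ≤ ((r / 2) ^ 2)⁻¹ := inv_anti₀ (by positivity) this
          _ = 4 * (r ^ 2)⁻¹ := by rw [div_pow, inv_div]; norm_num; ring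
      have hAy0 := S.A_nonneg (x + s • v)
      have := iteratedDeriv_line_le (hB S).1 hv.le 8 hmem
        (M := |CB 8| * (S.lam * (Cr * a) * (4 * (r ^ 2)⁻¹))) fun w hw => by
          have h1 := (hB S).2 w _ hmem
          rw [hw] at h1
          calc ‖dword w S.E (x + s • v)‖
              ≤ CB 8 * (S.lam * S.A (x + s • v) * (‖x + s • v‖ ^ 2)⁻¹) := h1
            _ ≤ |CB 8| * (S.lam * S.A (x + s • v) * (‖x + s • v‖ ^ 2)⁻¹) := by
                gcongr; exact le_abs_self _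
            _ ≤ _ := by
                gcongr
                exact hAy s hs
      refine this.trans (le_of_eq ?_)
      rw [hM, hm₀]; ring
    obtain ⟨i1, i2⟩ := hI _ ε M η hη0 hη1 hg hgε hgM
    rw [hX] at i1 i2
    have hη2 : 0 < η ^ 2 := by positivity
    constructor
    · have h1 : ‖iteratedDeriv 1 (fun s : ℝ => S.E (x + s • v)) 0‖ * η ^ 2 ≤ η ^ 2 * D := by
        calc _ = (‖iteratedDeriv 1 (fun s : ℝ => S.E (x + s • v)) 0‖ * η) * η := by ring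
          _ ≤ (η ^ 2 * D) * η := by gcongr
          _ ≤ (η ^ 2 * D) * 1 := by gcongr; linarith
          _ = _ := mul_one _
      rw [mul_comm] at h1
      exact le_of_mul_le_mul_left h1 hη2
    · rw [mul_comm] at i2
      exact le_of_mul_le_mul_left i2 hη2
  have hc2 : ContDiffAt ℝ 2 S.E x :=
    contDiffAt_two_of_mem_Ext (hB S).1 (show RB < ‖x‖ by linarith)
  obtain ⟨d1, d2⟩ := norm_fderiv_le_of_lines hc2 (fun v hv => (hlines v hv).1)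
    (fun v hv => (hlines v hv).2)
  have hDK : D ≤ K * S.lam * a * T * w4 := by
    have h1 : 64 / 8 ^ 8 * m₀ * S.lam * a * T ≤ 64 / 8 ^ 8 * m₀ * S.lam * a * T * w4 :=
      le_mul_of_one_le_right (by positivity) hw41
    calc D ≤ CI * (64 * e₀ * S.lam * a * w4 * T + 64 / 8 ^ 8 * m₀ * S.lam * a * T * w4) := by
          rw [hD]; gcongr
      _ = _ := by rw [hK]; ring
  have hKD0 : 0 ≤ K * S.lam * a * T * w4 := by positivity
  constructor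
  · calc _ ≤ D := d1
      _ ≤ K * S.lam * a * T * w4 := hDK
      _ ≤ 4 * (K * S.lam * a * T * w4) := by linarith
      _ = 4 * K * S.lam * a * T * w4 := by ring
  · calc _ ≤ 4 * D := d2
      _ ≤ 4 * (K * S.lam * a * T * w4) := by gcongr
      _ = _ := by ring

end Claimed.Open.R278
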