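import Claimed.Open.R278.CH1Ineq

/-!
# Result 278, layer L4, file CHQ1 (leaf `CHQ-1` in the team table)

Part 1 of the calculus of the channel equations; the plan of the whole package is in `CHQ.lean`.
Paper-free.  Leaf `CHQ-1`: PROVED (helper162), no `sorry` in this file.
-/

open MeasureTheory Filter
open scoped ContDiff InnerProductSpace ComplexConjugate ENNReal Topology Laplacian

noncomputable section

namespace Claimed.Open.R278

variable {𝒦 : Type} [NormedAddCommGroup 𝒦] [InnerProductSpace ℂ 𝒦] [CompleteSpace 𝒦]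
variable {κ : ChannelConsts}

/-- `H = Rr (𝒢_T[H] + Src)` on `Ext R`. -/
def QEq (S : ChannelCore 𝒦 κ) (T : Space → 𝒦 →L[ℂ] 𝒦) (R : ℝ) (H Src : Space → 𝒦) : Prop :=
  ∀ x ∈ Ext R, H x = S.Rr (chanG S.lam S.k T H x + Src x)

/-- the full channel system with source `Src` on `Ext R`. -/
def ChanEq (S : ChannelCore 𝒦 κ) (R : ℝ) (H Src : Space → 𝒦) : Prop :=
  ∀ x ∈ Ext R, ⟪S.φ, chanG S.lam S.k S.W H x + Src x⟫_ℂ = 0 ∧
    S.Q (H x) = S.Rr (chanG S.lam S.k S.W H x + Src x)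

/-- the source of the differentiated equation. -/
def dSrc (lam : ℝ) (T : Space → 𝒦 →L[ℂ] 𝒦) (a : Fin 3 ⊕ Fin 3) (H Src : Space → 𝒦) (x : Space) : 𝒦 :=
  dfield a Src x - dfield a uD x • H x - lam • dfield a T x (H x)

/-! ## 1. Algebra (leaf CHQ-1) -/

section algebra

theorem contDiffOn_uD {R : ℝ} (hR : 2 * bigD ≤ R) : ContDiffOn ℝ ∞ uD (Ext R) :=
  ch1_contDiffOn_uD.mono (Ext_mono hR)

theorem uD_reflZ (x : Space) : uD (reflZ x) = uD x := nuclearPotential_reflZ 1 bigD x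

omit [CompleteSpace 𝒦] in
theorem contDiffOn_applyC {R : ℝ} {T : Space → 𝒦 →L[ℂ] 𝒦} {H : Space → 𝒦}
    (hT : ContDiffOn ℝ ∞ T (Ext R)) (hH : ContDiffOn ℝ ∞ H (Ext R)) :
    ContDiffOn ℝ ∞ (fun y => T y (H y)) (Ext R) := by
  have h : ContDiffOn ℝ ∞ (fun y => (T y).restrictScalars ℝ) (Ext R) :=
    (ContinuousLinearMap.restrictScalarsL ℂ 𝒦 𝒦 ℝ ℝ).contDiff.comp_contDiffOn hT
  exact h.clm_apply hH

omit [CompleteSpace 𝒦] in
theorem contDiffOn_chanG {lam k R : ℝ} (hR : 2 * bigD ≤ R) {T : Space → 𝒦 →L[ℂ] 𝒦} {H : Space → 𝒦}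
    (hT : ContDiffOn ℝ ∞ T (Ext R)) (hH : ContDiffOn ℝ ∞ H (Ext R)) :
    ContDiffOn ℝ ∞ (chanG lam k T H) (Ext R) := by
  have hu := contDiffOn_uD hR
  have hΔ := contDiffOn_laplacian hH
  unfold chanG
  exact ((hΔ.const_smul _).sub ((contDiffOn_const.add hu).smul hH)).sub
    ((contDiffOn_applyC hT hH).const_smul _)

omit [CompleteSpace 𝒦] in
theorem chanG_add {lam k : ℝ} {T : Space → 𝒦 →L[ℂ] 𝒦} {H₁ H₂ : Space → 𝒦} {x : Space}
    (h₁ : ContDiffAt ℝ 2 H₁ x) (h₂ : ContDiffAt ℝ 2 H₂ x) :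
    chanG lam k T (fun y => H₁ y + H₂ y) x = chanG lam k T H₁ x + chanG lam k T H₂ x := by
  unfold chanG
  rw [laplacian_fun_add h₁ h₂, map_add]
  module

omit [CompleteSpace 𝒦] in
theorem chanG_sub {lam k : ℝ} {T : Space → 𝒦 →L[ℂ] 𝒦} {H₁ H₂ : Space → 𝒦} {x : Space}
    (h₁ : ContDiffAt ℝ 2 H₁ x) (h₂ : ContDiffAt ℝ 2 H₂ x) :
    chanG lam k T (fun y => H₁ y - H₂ y) x = chanG lam k T H₁ x - chanG lam k T H₂ x := by
  unfold chanG
  rw [laplacian_fun_sub h₁ h₂, map_sub]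
  module

omit [CompleteSpace 𝒦] in
theorem laplacian_clmC {L : 𝒦 →L[ℂ] 𝒦} {H : Space → 𝒦} {x : Space} (h : ContDiffAt ℝ 2 H x) :
    Δ (fun y => L (H y)) x = L (Δ H x) := by
  have e : (fun y => L (H y)) = (L.restrictScalars ℝ) ∘ H := rfl
  rw [e, h.laplacian_CLM_comp_left, Function.comp_apply, ContinuousLinearMap.coe_restrictScalars']

omit [CompleteSpace 𝒦] in
theorem chanG_const_smul {lam k : ℝ} {T : Space → 𝒦 →L[ℂ] 𝒦} {H : Space → 𝒦} {x : Space}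
    (c : ℝ) (h : ContDiffAt ℝ 2 H x) :
    chanG lam k T (fun y => c • H y) x = c • chanG lam k T H x := by
  have e : Δ (fun y => c • H y) x = c • Δ H x := by
    have e' : (fun y => c • H y) = (c • ContinuousLinearMap.id ℝ 𝒦) ∘ H := by
      funext y; simp
    rw [e', h.laplacian_CLM_comp_left]; simp
  have e2 : T x (c • H x) = c • T x (H x) := by
    rw [← Complex.coe_smul, map_smul, Complex.coe_smul]
  unfold chanG
  rw [e, e2]
  module

omit [CompleteSpace 𝒦] in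
theorem clmC_real_smul (L : 𝒦 →L[ℂ] 𝒦) (c : ℝ) (v : 𝒦) : L (c • v) = c • L v := by
  rw [← Complex.coe_smul, map_smul, Complex.coe_smul]

omit [CompleteSpace 𝒦] in
/-- `𝒢[ψ v] = (½Δψ - (k²/2+u)ψ) v - λ ψ T v` for a real function `ψ` and a fixed vector `v`. -/
theorem chanG_smul_vec {lam k : ℝ} {T : Space → 𝒦 →L[ℂ] 𝒦} {ψ : Space → ℝ} {x : Space} (v : 𝒦)
    (h : ContDiffAt ℝ 2 ψ x) :
    chanG lam k T (fun y => ψ y • v) x
      = ((1 / 2) * Δ ψ x - (k ^ 2 / 2 + uD x) * ψ x) • v - (lam * ψ x) • T x v := by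
  have e : Δ (fun y => ψ y • v) x = Δ ψ x • v := by
    have e' : (fun y => ψ y • v) = ((ContinuousLinearMap.id ℝ ℝ).smulRight v) ∘ ψ := by
      funext y; simp
    rw [e', h.laplacian_CLM_comp_left]; simp
  unfold chanG
  rw [e, clmC_real_smul]
  module

omit [CompleteSpace 𝒦] in
/-- the same for a complex function `ψ`. -/
theorem chanG_smulC_vec {lam k : ℝ} {T : Space → 𝒦 →L[ℂ] 𝒦} {ψ : Space → ℂ} {x : Space} (v : 𝒦)
    (h : ContDiffAt ℝ 2 ψ x) :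
    chanG lam k T (fun y => ψ y • v) x
      = ((1 / 2 : ℂ) * Δ ψ x - ((k ^ 2 / 2 + uD x : ℝ) : ℂ) * ψ x) • v - ((lam : ℂ) * ψ x) • T x v := by
  have e : Δ (fun y => ψ y • v) x = Δ ψ x • v := by
    have e' : (fun y => ψ y • v)
        = (((ContinuousLinearMap.id ℂ ℂ).smulRight v).restrictScalars ℝ) ∘ ψ := by
      funext y; simp
    rw [e', h.laplacian_CLM_comp_left]; simp
  unfold chanG
  rw [e, map_smul, ← Complex.coe_smul (1 / 2 : ℝ), ← Complex.coe_smul (k ^ 2 / 2 + uD x),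
    ← Complex.coe_smul lam]
  simp only [smul_smul, sub_smul]
  norm_num

omit [CompleteSpace 𝒦] in
/-- `𝒢` and the reflection. -/
theorem chanG_comp_reflZ {lam k : ℝ} {T : Space → 𝒦 →L[ℂ] 𝒦} {H : Space → 𝒦} {x : Space}
    (h : ContDiffAt ℝ 2 H (reflZ x)) :
    chanG lam k (fun y => T (reflZ y)) (fun y => H (reflZ y)) x = chanG lam k T H (reflZ x) := by
  unfold chanG
  rw [laplacian_comp_reflZ h, uD_reflZ]

omit [CompleteSpace 𝒦] in
/-- commutation of `𝒢` with the six fields (`laplacian_dfield`, `dfield_smul`, `dfield_clm_applyC`). -/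
theorem dfield_chanG {lam k R : ℝ} (hR : 2 * bigD ≤ R) {T : Space → 𝒦 →L[ℂ] 𝒦} {H : Space → 𝒦}
    (hT : ContDiffOn ℝ ∞ T (Ext R)) (hH : ContDiffOn ℝ ∞ H (Ext R)) (a : Fin 3 ⊕ Fin 3) :
    ∀ x ∈ Ext R, dfield a (chanG lam k T H) x
      = chanG lam k T (dfield a H) x - dfield a uD x • H x - lam • dfield a T x (H x) := by
  intro x hx
  have hu := contDiffOn_uD hR
  have hΔ := contDiffOn_laplacian hH
  have hTH := contDiffOn_applyC hT hH
  have d {V : Type} [NormedAddCommGroup V] [NormedSpace ℝ V] {G : Space → V}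
      (hG : ContDiffOn ℝ ∞ G (Ext R)) : DifferentiableAt ℝ G x :=
    differentiableAt_of_mem_Ext hG hx
  have h1 : ContDiffOn ℝ ∞ (fun y => (1 / 2 : ℝ) • Δ H y) (Ext R) := hΔ.const_smul _
  have h2 : ContDiffOn ℝ ∞ (fun y => (k ^ 2 / 2 + uD y) • H y) (Ext R) :=
    (contDiffOn_const.add hu).smul hH
  have h3 : ContDiffOn ℝ ∞ (fun y => lam • T y (H y)) (Ext R) := hTH.const_smul _
  have hq : ContDiffOn ℝ ∞ (fun y => k ^ 2 / 2 + uD y) (Ext R) := contDiffOn_const.add hu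
  have e : chanG lam k T H = fun y =>
      ((1 / 2 : ℝ) • Δ H y - (k ^ 2 / 2 + uD y) • H y) - lam • T y (H y) := rfl
  have eq : dfield a (fun y => k ^ 2 / 2 + uD y) x = dfield a uD x := by
    simp only [dfield]
    rw [fderiv_const_add]
  have c1 : dfield a (fun y => (1 / 2 : ℝ) • Δ H y) x = (1 / 2 : ℝ) • dfield a (Δ H) x :=
    dfield_clm (d hΔ) ((1 / 2 : ℝ) • ContinuousLinearMap.id ℝ 𝒦) a
  have c3 : dfield a (fun y => lam • T y (H y)) x = lam • dfield a (fun y => T y (H y)) x :=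
    dfield_clm (d hTH) (lam • ContinuousLinearMap.id ℝ 𝒦) a
  rw [e, dfield_sub (d (h1.sub h2)) (d h3), dfield_sub (d h1) (d h2), c1, c3,
    dfield_smul (d hq) (d hH), dfield_clm_applyC (d hT) (d hH), eq,
    ← laplacian_dfield hH a x hx]
  unfold chanG
  module

omit [CompleteSpace 𝒦] in
theorem contDiffOn_dSrc {lam R : ℝ} (hR : 2 * bigD ≤ R) {T : Space → 𝒦 →L[ℂ] 𝒦} {H Src : Space → 𝒦}
    (hT : ContDiffOn ℝ ∞ T (Ext R)) (hH : ContDiffOn ℝ ∞ H (Ext R))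
    (hS : ContDiffOn ℝ ∞ Src (Ext R)) (a : Fin 3 ⊕ Fin 3) :
    ContDiffOn ℝ ∞ (dSrc lam T a H Src) (Ext R) := by
  unfold dSrc
  exact ((contDiffOn_dfield hS a).sub ((contDiffOn_dfield (contDiffOn_uD hR) a).smul hH)).sub
    ((contDiffOn_applyC (contDiffOn_dfield hT a) hH).const_smul _)

theorem QEq.mono {S : ChannelCore 𝒦 κ} {T : Space → 𝒦 →L[ℂ] 𝒦} {R R' : ℝ} {H Src : Space → 𝒦}
    (h : QEq S T R H Src) (hR : R ≤ R') : QEq S T R' H Src :=
  fun x hx => h x (Ext_mono hR hx)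

theorem ChanEq.mono {S : ChannelCore 𝒦 κ} {R R' : ℝ} {H Src : Space → 𝒦}
    (h : ChanEq S R H Src) (hR : R ≤ R') : ChanEq S R' H Src :=
  fun x hx => h x (Ext_mono hR hx)

theorem QEq.sub {S : ChannelCore 𝒦 κ} {T : Space → 𝒦 →L[ℂ] 𝒦} {R : ℝ} {H₁ H₂ S₁ S₂ : Space → 𝒦}
    (h₁ : QEq S T R H₁ S₁) (h₂ : QEq S T R H₂ S₂) (c₁ : ContDiffOn ℝ ∞ H₁ (Ext R))
    (c₂ : ContDiffOn ℝ ∞ H₂ (Ext R)) :
    QEq S T R (fun x => H₁ x - H₂ x) (fun x => S₁ x - S₂ x) := by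
  intro x hx
  rw [chanG_sub (contDiffAt_two_of_mem_Ext c₁ hx) (contDiffAt_two_of_mem_Ext c₂ hx)]
  have e : chanG S.lam S.k T H₁ x - chanG S.lam S.k T H₂ x + (S₁ x - S₂ x)
      = (chanG S.lam S.k T H₁ x + S₁ x) - (chanG S.lam S.k T H₂ x + S₂ x) := by abel
  rw [e, map_sub, ← h₁ x hx, ← h₂ x hx]

/-- the differentiated `Q`-equation (`𝔇ₐ` commutes with the bounded operator `Rr`). -/
theorem QEq.dfield_eq {S : ChannelCore 𝒦 κ} {T : Space → 𝒦 →L[ℂ] 𝒦} {R : ℝ} (hR : 2 * bigD ≤ R)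
    {H Src : Space → 𝒦} (h : QEq S T R H Src) (hT : ContDiffOn ℝ ∞ T (Ext R))
    (hH : ContDiffOn ℝ ∞ H (Ext R)) (hS : ContDiffOn ℝ ∞ Src (Ext R)) (a : Fin 3 ⊕ Fin 3) :
    QEq S T R (dfield a H) (dSrc S.lam T a H Src) := by
  intro x hx
  have hG := contDiffOn_chanG (lam := S.lam) (k := S.k) hR hT hH
  have e : chanG S.lam S.k T (dfield a H) x + dSrc S.lam T a H Src x
      = dfield a (fun y => chanG S.lam S.k T H y + Src y) x := by
    rw [dfield_add (differentiableAt_of_mem_Ext hG hx) (differentiableAt_of_mem_Ext hS hx),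
      dfield_chanG hR hT hH a x hx]
    unfold dSrc
    abel
  rw [e, dfield_congr h a x hx]
  exact dfield_clm (differentiableAt_of_mem_Ext (hG.add hS) hx) (S.Rr.restrictScalars ℝ) a

/-- the differentiated channel system. -/
theorem ChanEq.dfield_eq {S : ChannelCore 𝒦 κ} {R : ℝ} (hR : κ.R₁ ≤ R)
    {H Src : Space → 𝒦} (h : ChanEq S R H Src)
    (hH : ContDiffOn ℝ ∞ H (Ext R)) (hS : ContDiffOn ℝ ∞ Src (Ext R)) (a : Fin 3 ⊕ Fin 3) :
    ChanEq S R (dfield a H) (dSrc S.lam S.W a H Src) := by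
  intro x hx
  have hR' : 2 * bigD ≤ R := κ.R₁_ge.trans hR
  have hT : ContDiffOn ℝ ∞ S.W (Ext R) := S.W_bdd.1.mono (Ext_mono hR)
  have hG := contDiffOn_chanG (lam := S.lam) (k := S.k) hR' hT hH
  have e : chanG S.lam S.k S.W (dfield a H) x + dSrc S.lam S.W a H Src x
      = dfield a (fun y => chanG S.lam S.k S.W H y + Src y) x := by
    rw [dfield_add (differentiableAt_of_mem_Ext hG hx) (differentiableAt_of_mem_Ext hS hx),
      dfield_chanG hR' hT hH a x hx]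
    unfold dSrc
    abel
  have dG := differentiableAt_of_mem_Ext (hG.add hS) hx
  rw [e]
  constructor
  · have h1 : dfield a (fun y => (innerSL ℂ S.φ) (chanG S.lam S.k S.W H y + Src y)) x
        = (innerSL ℂ S.φ) (dfield a (fun y => chanG S.lam S.k S.W H y + Src y) x) :=
      dfield_clm dG ((innerSL ℂ S.φ).restrictScalars ℝ) a
    have h2 : dfield a (fun y => (innerSL ℂ S.φ) (chanG S.lam S.k S.W H y + Src y)) x
        = dfield a (fun _ => (0 : ℂ)) x :=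
      dfield_congr (fun y hy => by rw [innerSL_apply_apply]; exact (h y hy).1) a x hx
    rw [h2] at h1
    rw [innerSL_apply_apply] at h1
    rw [← h1]
    simp [dfield]
  · have h1 : dfield a (fun y => S.Rr (chanG S.lam S.k S.W H y + Src y)) x
        = S.Rr (dfield a (fun y => chanG S.lam S.k S.W H y + Src y) x) :=
      dfield_clm dG (S.Rr.restrictScalars ℝ) a
    have h2 : dfield a (fun y => S.Qc (H y)) x = S.Qc (dfield a H x) :=
      dfield_clm (differentiableAt_of_mem_Ext hH hx) (S.Qc.restrictScalars ℝ) a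
    have h3 : dfield a (fun y => S.Qc (H y)) x
        = dfield a (fun y => S.Rr (chanG S.lam S.k S.W H y + Src y)) x :=
      dfield_congr (fun y hy => by rw [S.Qc_apply]; exact (h y hy).2) a x hx
    rw [← S.Qc_apply, ← h2, h3, h1]

/-- `Q H` solves a `Q`-equation: `Rr 𝒢[f φ] = -λ f Rr (Wφ - (2/r)φ)` because `Rr φ = 0`. -/
theorem ChanEq.toQ {S : ChannelCore 𝒦 κ} {R : ℝ} (_hR : κ.R₁ ≤ R) {H Src : Space → 𝒦}
    (h : ChanEq S R H Src) (hH : ContDiffOn ℝ ∞ H (Ext R)) :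
    QEq S S.W R (fun x => S.Q (H x))
      (fun x => Src x - ((S.lam : ℂ) * ⟪S.φ, H x⟫_ℂ) • (S.W x S.φ - (2 / ‖x‖) • S.φ)) := by
  intro x hx
  have hf : ContDiffOn ℝ ∞ (fun y => ⟪S.φ, H y⟫_ℂ) (Ext R) :=
    ((innerSL ℂ S.φ).restrictScalars ℝ).contDiff.comp_contDiffOn hH
  have hQ := S.contDiffOn_Q hH
  have hfφ : ContDiffOn ℝ ∞ (fun y => ⟪S.φ, H y⟫_ℂ • S.φ) (Ext R) := hf.smul contDiffOn_const
  have e : H = fun y => ⟪S.φ, H y⟫_ℂ • S.φ + S.Q (H y) := by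
    funext y; exact S.Q_add_eq (H y)
  have e1 : chanG S.lam S.k S.W H x = chanG S.lam S.k S.W (fun y => ⟪S.φ, H y⟫_ℂ • S.φ) x
      + chanG S.lam S.k S.W (fun y => S.Q (H y)) x := by
    conv_lhs => rw [e]
    exact chanG_add (contDiffAt_two_of_mem_Ext hfφ hx) (contDiffAt_two_of_mem_Ext hQ hx)
  show S.Q (H x) = _
  rw [(h x hx).2, e1, chanG_smulC_vec S.φ (contDiffAt_two_of_mem_Ext hf hx)]
  simp only [map_add, map_sub, map_smul, S.Rr_φ, smul_zero, clmC_real_smul]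
  abel_nf

/-- `F` itself. -/
theorem ChannelCore.chanEq (S : ChannelCore 𝒦 κ) : ChanEq S κ.R₁ S.F S.Res :=
  fun x hx => ⟨S.eqP x hx, S.eqQ x hx⟩

end algebra

end Claimed.Open.R278
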