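import Claimed.Open.R278.CHQ1
import Claimed.Open.R278.CH1Ineq

/-!
# Result 278, layer L4, file CHQ2 (leaf `CHQ-2` in the team table)

Part 2 of the calculus of the channel equations; the plan of the whole package is in `CHQ.lean`.
Paper-free.  Leaf `CHQ-2`: PROVED (no `sorry` in this file; the inequality of the full system is `ch1_ineq_full`, `CH1Ineq.lean`).  Auxiliary lemmas may be added;
statements are changed only after telling helper225 (channel open278).
-/

open MeasureTheory Filter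
open scoped ContDiff InnerProductSpace ComplexConjugate ENNReal Topology Laplacian

noncomputable section

namespace Claimed.Open.R278

variable {𝒦 : Type} [NormedAddCommGroup 𝒦] [InnerProductSpace ℂ 𝒦] [CompleteSpace 𝒦]
variable {κ : ChannelConsts}

/-! ## 2. The differential inequalities (leaf CHQ-2) -/

section ineq

/-- `Re⟪H, 𝒢[H] + Src⟫ = Re⟪Rr g, g⟫ ≥ c ‖Rr g‖² = c ‖H‖²`, and `λ Re⟪H, T H⟫ ≥ 0`. -/
theorem QEq.sub_ineq {S : ChannelCore 𝒦 κ} {T : Space → 𝒦 →L[ℂ] 𝒦} {R : ℝ} {H Src : Space → 𝒦}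
    (h : QEq S T R H Src) {x : Space} (hx : x ∈ Ext R) (hT : 0 ≤ (⟪H x, T x (H x)⟫_ℂ).re) :
    (κ.c + S.k ^ 2 / 2 + uD x) * ‖H x‖ ^ 2 - ‖Src x‖ * ‖H x‖ ≤ (1 / 2) * (⟪H x, Δ H x⟫_ℂ).re := by
  have hg := S.Rr_gap (chanG S.lam S.k T H x + Src x)
  rw [← h x hx] at hg
  unfold chanG at hg
  rw [ch1_re_inner_g, ch1_re_inner_self] at hg
  have h3 := ch1_re_inner_le (H x) (Src x)
  have h4 := mul_nonneg S.lam_nonneg hT
  nlinarith

end ineq

end Claimed.Open.R278
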