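import Claimed.Open.R278.CHQ2
import Claimed.Open.R278.CH1Comp

/-!
# Result 278, layer L4, file CHQ3 (leaf `CHQ-3` in the team table)

Part 3 of the calculus of the channel equations; the plan of the whole package is in `CHQ.lean`.
Paper-free.  Leaf `CHQ-3`: PROVED (helper162), no `sorry` in this file.
-/

open MeasureTheory Filter
open scoped ContDiff InnerProductSpace ComplexConjugate ENNReal Topology Laplacian

noncomputable section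

namespace Claimed.Open.R278

variable {𝒦 : Type} [NormedAddCommGroup 𝒦] [InnerProductSpace ℂ 𝒦] [CompleteSpace 𝒦]
variable {κ : ChannelConsts}

/-! ## 3. Zeroth order bounds (leaf CHQ-3) -/

section zeroth

/-- generic comparison for `Q`-equations (`comparison_principle` with `q = c + k²/2 + u`,
`s = ‖Src‖`, and `QEq.sub_ineq`). -/
theorem qeq_compare (S : ChannelCore 𝒦 κ) {T : Space → 𝒦 →L[ℂ] 𝒦} {R₀ : ℝ} (hR₀ : κ.R₁ < R₀)
    {H Src : Space → 𝒦} {Φ : Space → ℝ}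
    (hT : ∀ x ∈ Ext R₀, ∀ v, 0 ≤ (⟪v, T x v⟫_ℂ).re) (heq : QEq S T R₀ H Src)
    (hH : ContDiffOn ℝ 2 H (Ext κ.R₁))
    (hdecay : Tendsto (fun x => ‖H x‖) (cocompact Space) (𝓝 0))
    (hΦ : ContDiffOn ℝ 2 Φ (Ext κ.R₁)) (hΦpos : ∀ x, R₀ ≤ ‖x‖ → 0 < Φ x)
    (hq : ∀ x ∈ Ext R₀, 0 < κ.c + S.k ^ 2 / 2 + uD x)
    (hsup : ∀ x ∈ Ext R₀, ‖Src x‖ ≤ -(1 / 2) * Δ Φ x + (κ.c + S.k ^ 2 / 2 + uD x) * Φ x)
    (hbd : ∀ x, ‖x‖ = R₀ → ‖H x‖ ≤ Φ x) :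
    ∀ x, R₀ ≤ ‖x‖ → ‖H x‖ ≤ Φ x := by
  have hsub1 : {x : Space | R₀ ≤ ‖x‖} ⊆ Ext κ.R₁ := fun x hx =>
    lt_of_lt_of_le hR₀ (show R₀ ≤ ‖x‖ from hx)
  exact comparison_principle (q := fun x => κ.c + S.k ^ 2 / 2 + uD x) (s := fun x => ‖Src x‖)
    (hH.mono (Ext_mono hR₀.le)) (hH.continuousOn.mono hsub1) hdecay (hΦ.mono (Ext_mono hR₀.le))
    (hΦ.continuousOn.mono hsub1) hΦpos hq (fun x hx => heq.sub_ineq hx (hT x hx _)) hsup hbd

/-- `Q`-equation, profile `K A r^{-m}`.  Supersolution `(C' K + ε) A r^{-m}` (`supersol_Q` with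
`p₀ = 1`, `p₂ = p₄ = 0`), `ε ↓ 0`; on `|x| = R₀` use `A(R₀) ≥ e^{-1.1 R₀} R₀⁻¹`. -/
theorem qeq_bound0 (κ : ChannelConsts) (m : ℕ) : ∃ Rs : ℝ, κ.R₁ < Rs ∧ ∀ R₀ : ℝ, Rs ≤ R₀ →
    ∀ C₀ : ℝ, ∃ C' : ℝ, ∀ (S : ChannelCore 𝒦 κ) (K : ℝ) (H Src : Space → 𝒦), 0 ≤ K →
      QEq S S.W R₀ H Src → ContDiffOn ℝ ∞ H (Ext κ.R₁) →
      (∀ x ∈ Ext κ.R₁, ‖H x‖ ≤ C₀ * (K * Real.exp (-(κ.τ * ‖x‖)))) →
      (∀ x ∈ Ext R₀, ‖Src x‖ ≤ C₀ * (K * (S.A x * (‖x‖ ^ m)⁻¹))) →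
      ∀ x ∈ Ext R₀, ‖H x‖ ≤ C' * (K * (S.A x * (‖x‖ ^ m)⁻¹)) := by
  obtain ⟨Rs, hRs, hsup⟩ := supersol_Q κ.c κ.c_pos m
  have hR1 : 0 < κ.R₁ := lt_of_lt_of_le (by unfold bigD; positivity) κ.R₁_ge
  have hc := κ.c_pos
  refine ⟨max Rs (κ.R₁ + 1), lt_of_lt_of_le (by linarith) (le_max_right _ _), ?_⟩
  intro R₀ hR₀ C₀
  have hRs0 : Rs ≤ R₀ := (le_max_left _ _).trans hR₀
  have hR10 : κ.R₁ + 1 ≤ R₀ := (le_max_right _ _).trans hR₀
  have hR₀pos : 0 < R₀ := by linarith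
  have hR₀1 : 1 ≤ R₀ := by linarith
  set c0 : ℝ := |C₀| with hc0
  have hc0n : 0 ≤ c0 := abs_nonneg _
  have hC₀le : C₀ ≤ c0 := le_abs_self _
  set Λ : ℝ := 4 * c0 / (3 * κ.c) + c0 * (Real.exp (1.1 * R₀) * R₀ ^ (m + 1)) with hΛ
  have hΛ0 : 0 ≤ Λ := by positivity
  refine ⟨Λ, ?_⟩
  intro S K H Src hK hEq hH hHb hSr
  have hdec : Tendsto (fun x => ‖H x‖) (cocompact Space) (𝓝 0) :=
    ch1_decay (R := κ.R₁) (C := C₀ * K) κ.τ_pos (fun x hx => by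
      have := hHb x hx
      rwa [← mul_assoc] at this)
  -- the bound with `ε`
  have key : ∀ ε : ℝ, 0 < ε → ∀ x, R₀ ≤ ‖x‖ →
      ‖H x‖ ≤ S.A x * (‖x‖ ^ m)⁻¹ * (Λ * K + ε) := by
    intro ε hε
    have hp : 0 < Λ * K + ε := by positivity
    set ψ : ℝ → ℝ := fun r => radialA S.k (betaOf S.lam S.k) r * (r ^ m)⁻¹ * (Λ * K + ε) with hψ
    have hψs : ContDiffOn ℝ ∞ ψ (Set.Ioi 0) :=
      ((contDiffOn_radialA _ _).mul ((contDiffOn_id.pow m).inv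
        (fun r hr => pow_ne_zero m (ne_of_gt hr)))).mul contDiffOn_const
    have hΦs : ContDiffOn ℝ ∞ (fun y : Space => ψ ‖y‖) (Ext 0) := contDiffOn_radial le_rfl hψs
    have hΦeq : (fun y : Space => radialA S.k (betaOf S.lam S.k) ‖y‖ * (‖y‖ ^ m)⁻¹ *
        (Λ * K + ε + 0 * y 2 ^ 2 + 0 * y 2 ^ 4)) = fun y : Space => ψ ‖y‖ := by
      funext y; simp [hψ]
    refine qeq_compare S (T := S.W) (Src := Src) (Φ := fun y : Space => ψ ‖y‖) (by linarith)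
      (fun x hx => S.W_nonneg x (Ext_mono (by linarith) hx)) hEq
      (hH.of_le (WithTop.coe_le_coe.2 le_top)) hdec
      ((hΦs.mono (Ext_mono hR1.le)).of_le (WithTop.coe_le_coe.2 le_top)) ?_ ?_ ?_ ?_
    · intro x hx
      have hr : 0 < ‖x‖ := by linarith
      have hA := radialA_pos S.k (betaOf S.lam S.k) hr
      show 0 < radialA S.k (betaOf S.lam S.k) ‖x‖ * (‖x‖ ^ m)⁻¹ * (Λ * K + ε)
      positivity
    · exact fun x hx => (hsup S.k S.lam (Λ * K + ε) 0 0 S.k_lo.le S.k_hi.le S.lam_nonneg S.lam_le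
        hp.le le_rfl le_rfl x (Ext_mono hRs0 hx)).1
    · intro x hx
      have hr : 0 < ‖x‖ := lt_trans hR₀pos hx
      have h := (hsup S.k S.lam (Λ * K + ε) 0 0 S.k_lo.le S.k_hi.le S.lam_nonneg S.lam_le hp.le
        le_rfl le_rfl x (Ext_mono hRs0 hx)).2
      rw [hΦeq] at h
      simp only [zero_mul, add_zero, mul_zero, sub_zero] at h
      have hA : 0 < S.A x * (‖x‖ ^ m)⁻¹ := by
        have h2 : 0 < S.A x := radialA_pos S.k S.β hr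
        positivity
      have h' : S.A x * (‖x‖ ^ m)⁻¹ * (3 * κ.c / 4 * (Λ * K + ε)) ≤
          -(1 / 2) * Δ (fun y : Space => ψ ‖y‖) x + (κ.c + S.k ^ 2 / 2 + uD x) * ψ ‖x‖ := h
      refine le_trans ((hSr x hx).trans ?_) h'
      have h3 : c0 * K ≤ 3 * κ.c / 4 * (Λ * K + ε) := by
        have e : 3 * κ.c / 4 * (Λ * K + ε) = c0 * K
            + 3 * κ.c / 4 * (c0 * (Real.exp (1.1 * R₀) * R₀ ^ (m + 1)) * K + ε) := by
          rw [hΛ]; field_simp; ring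
        rw [e]
        have : 0 ≤ 3 * κ.c / 4 * (c0 * (Real.exp (1.1 * R₀) * R₀ ^ (m + 1)) * K + ε) := by
          positivity
        linarith
      calc C₀ * (K * (S.A x * (‖x‖ ^ m)⁻¹)) ≤ c0 * (K * (S.A x * (‖x‖ ^ m)⁻¹)) :=
            mul_le_mul_of_nonneg_right hC₀le (by positivity)
        _ = c0 * K * (S.A x * (‖x‖ ^ m)⁻¹) := by ring
        _ ≤ 3 * κ.c / 4 * (Λ * K + ε) * (S.A x * (‖x‖ ^ m)⁻¹) :=
            mul_le_mul_of_nonneg_right h3 hA.le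
        _ = S.A x * (‖x‖ ^ m)⁻¹ * (3 * κ.c / 4 * (Λ * K + ε)) := by ring
    · intro x hx
      have hx1 : x ∈ Ext κ.R₁ := by
        show κ.R₁ < ‖x‖
        rw [hx]; linarith
      refine (hHb x hx1).trans ?_
      show C₀ * (K * Real.exp (-(κ.τ * ‖x‖))) ≤
        radialA S.k S.β ‖x‖ * (‖x‖ ^ m)⁻¹ * (Λ * K + ε)
      rw [hx]
      have h1 := ch1_A_lower S hR₀1
      have he : Real.exp (-(κ.τ * R₀)) ≤ 1 := by
        apply Real.exp_le_one_iff.2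
        have := mul_pos κ.τ_pos hR₀pos
        linarith
      have hE : Real.exp (1.1 * R₀) * Real.exp (-(1.1 * R₀)) = 1 := by
        rw [← Real.exp_add]; simp
      have h2 : 1 ≤ radialA S.k S.β R₀ * (R₀ ^ m)⁻¹ * (Real.exp (1.1 * R₀) * R₀ ^ (m + 1)) := by
        have e : (1 : ℝ) = (Real.exp (-(1.1 * R₀)) * R₀⁻¹) * (R₀ ^ m)⁻¹
            * (Real.exp (1.1 * R₀) * R₀ ^ (m + 1)) := by
          have : (Real.exp (-(1.1 * R₀)) * R₀⁻¹) * (R₀ ^ m)⁻¹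
            * (Real.exp (1.1 * R₀) * R₀ ^ (m + 1))
            = (Real.exp (1.1 * R₀) * Real.exp (-(1.1 * R₀))) * (R₀⁻¹ * (R₀ ^ m)⁻¹ * R₀ ^ (m + 1)) := by
            ring
          rw [this, hE, one_mul, pow_succ]
          field_simp
        calc (1 : ℝ) = (Real.exp (-(1.1 * R₀)) * R₀⁻¹) * (R₀ ^ m)⁻¹
            * (Real.exp (1.1 * R₀) * R₀ ^ (m + 1)) := e
          _ ≤ _ := by gcongr
      have hA0 : 0 ≤ radialA S.k S.β R₀ * (R₀ ^ m)⁻¹ := by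
        have := radialA_pos S.k S.β hR₀pos
        positivity
      calc C₀ * (K * Real.exp (-(κ.τ * R₀))) ≤ c0 * (K * 1) := by gcongr
        _ = c0 * K * 1 := by ring
        _ ≤ c0 * K * (radialA S.k S.β R₀ * (R₀ ^ m)⁻¹ * (Real.exp (1.1 * R₀) * R₀ ^ (m + 1))) :=
            mul_le_mul_of_nonneg_left h2 (by positivity)
        _ = radialA S.k S.β R₀ * (R₀ ^ m)⁻¹ * (c0 * (Real.exp (1.1 * R₀) * R₀ ^ (m + 1)) * K) := by
            ring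
        _ ≤ radialA S.k S.β R₀ * (R₀ ^ m)⁻¹ * (Λ * K + ε) := by
            apply mul_le_mul_of_nonneg_left _ hA0
            have : 0 ≤ 4 * c0 / (3 * κ.c) * K := by positivity
            rw [hΛ]
            nlinarith
  intro x hx
  have hr : 0 < ‖x‖ := lt_trans hR₀pos hx
  have hA : 0 < S.A x * (‖x‖ ^ m)⁻¹ := by
    have h2 : 0 < S.A x := radialA_pos S.k S.β hr
    positivity
  apply le_of_forall_pos_le_add
  intro δ hδ
  have h := key (δ / (S.A x * (‖x‖ ^ m)⁻¹)) (by positivity) x (le_of_lt hx)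
  refine h.trans (le_of_eq ?_)
  rw [mul_add, mul_div_cancel₀ _ hA.ne']
  ring

end zeroth

end Claimed.Open.R278
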