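import Claimed.Open.R278.CHQ3

/-!
# Result 278, layer L4, file CHQ4 (leaf `CHQ-4` in the team table)

Part 4 of the calculus of the channel equations; the plan of the whole package is in `CHQ.lean`.
Paper-free.  Leaf `CHQ-4`: PROVED (helper162), no `sorry` in this file.
-/

open MeasureTheory Filter
open scoped ContDiff InnerProductSpace ComplexConjugate ENNReal Topology Laplacian

noncomputable section

namespace Claimed.Open.R278

variable {𝒦 : Type} [NormedAddCommGroup 𝒦] [InnerProductSpace ℂ 𝒦] [CompleteSpace 𝒦]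
variable {κ : ChannelConsts}

/-! ## 4. All words for `Q`-equations (leaf CHQ-4) -/

section Qwords

/-- enlarge the constants of a graded bound (nonnegative profile). -/
theorem WordBddN.mono_const {V : Type*} [NormedAddCommGroup V] [NormedSpace ℝ V] {n : ℕ} {R : ℝ}
    {C C' : ℕ → ℝ} {g : Space → ℝ} {σ : Space → V} (h : WordBddN n R C g σ)
    (hg : ∀ x ∈ Ext R, 0 ≤ g x) (hC : ∀ i, C i ≤ C' i) : WordBddN n R C' g σ :=
  h.mono le_rfl fun i _ x hx => mul_le_mul_of_nonneg_right (hC i) (hg x hx)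

/-- a real scalar of modulus `≤ 1` does not change a graded bound. -/
theorem WordBddN.const_smul_le_one {V : Type*} [NormedAddCommGroup V] [NormedSpace ℝ V] {n : ℕ}
    {R : ℝ} {C : ℕ → ℝ} {g : Space → ℝ} {σ : Space → V} (h : WordBddN n R C g σ) {c : ℝ}
    (hc : |c| ≤ 1) : WordBddN n R C g (fun x => c • σ x) := by
  refine ⟨h.1.const_smul c, fun w hw x hx => ?_⟩
  rw [ch1_dword_const_smul h.1 c w x hx, norm_smul, Real.norm_eq_abs]
  calc |c| * ‖dword w σ x‖ ≤ 1 * ‖dword w σ x‖ := mul_le_mul_of_nonneg_right hc (norm_nonneg _)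
    _ = ‖dword w σ x‖ := one_mul _
    _ ≤ _ := h.2 w hw x hx

/-- the differentiated source stays in the class (no gain of decay is needed):
`𝔇ₐu = O(r⁻²)`, `𝔇ₐW = O(r⁻¹)`, both `≤ C` on `Ext R₀`. -/
theorem dSrc_wordBddN_Q (κ : ChannelConsts) (n : ℕ) (C : ℕ → ℝ) : ∃ C' : ℕ → ℝ,
    ∀ (S : ChannelCore 𝒦 κ) (R₀ : ℝ) (g : Space → ℝ) (H Src : Space → 𝒦) (a : Fin 3 ⊕ Fin 3),
      κ.R₁ ≤ R₀ → (∀ x ∈ Ext R₀, 0 ≤ g x) →
      WordBddN n R₀ C g H → WordBddN (n + 1) R₀ C g Src →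
      WordBddN n R₀ C' g (dSrc S.lam S.W a H Src) := by
  obtain ⟨Cu, -, -, hu⟩ := uD_wordBdd
  refine ⟨fun i => C (i + 1) + mulC (fun i => |Cu i|) C i
    + mulC (fun i => |κ.C (i + 1)|) C i, ?_⟩
  intro S R₀ g H Src a hR₀ hg hH hS
  have hD : (1 : ℝ) ≤ 2 * bigD := by unfold bigD; norm_num
  have hR2 : 2 * bigD ≤ R₀ := κ.R₁_ge.trans hR₀
  have hr1 : ∀ x ∈ Ext R₀, 1 ≤ ‖x‖ := fun x hx => (hD.trans hR2).trans (le_of_lt hx)
  have h1 : WordBddN n R₀ (fun i => C (i + 1)) g (dfield a Src) := hS.dfield_bdd a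
  have h2 : WordBddN n R₀ (fun i => |Cu i|) (fun _ => 1) (dfield a uD) :=
    ((hu a).toN n).mono hR2 fun i _ x hx => by
      have h := hr1 x hx
      have h' : (‖x‖ ^ 2)⁻¹ ≤ 1 := inv_le_one_of_one_le₀ (one_le_pow₀ h)
      calc Cu i * (‖x‖ ^ 2)⁻¹ ≤ |Cu i| * (‖x‖ ^ 2)⁻¹ :=
            mul_le_mul_of_nonneg_right (le_abs_self _) (by positivity)
        _ ≤ |Cu i| * 1 := mul_le_mul_of_nonneg_left h' (abs_nonneg _)
  have h3 : WordBddN n R₀ (fun i => |κ.C (i + 1)|) (fun _ => 1) (dfield a S.W) :=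
    ((S.W_bdd.dfield_bdd a).toN n).mono hR₀ fun i _ x hx => by
      have h := hr1 x hx
      have h' : ‖x‖⁻¹ ≤ 1 := inv_le_one_of_one_le₀ h
      calc κ.C (i + 1) * ‖x‖⁻¹ ≤ |κ.C (i + 1)| * ‖x‖⁻¹ :=
            mul_le_mul_of_nonneg_right (le_abs_self _) (by positivity)
        _ ≤ |κ.C (i + 1)| * 1 := mul_le_mul_of_nonneg_left h' (abs_nonneg _)
  have h4 := WordBddN.smul (fun _ _ => zero_le_one) hg h2 hH
  have h5 := (WordBddN.applyC (fun _ _ => zero_le_one) hg h3 hH).const_smul_le_one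
    (c := S.lam) (by rw [abs_of_nonneg S.lam_nonneg]; exact S.lam_le)
  simp only [one_mul] at h4 h5
  exact (h1.sub h4).sub h5

/-- **graded a priori estimate for `Q`-equations**.  Induction on `n`.  `n = 0`: `qeq_bound0`.
`n → n+1`: by the case `n`, `H ∈ WordBddN n`; by `dSrc_wordBddN_Q` the source of `𝔇ₐH`
(`QEq.dfield_eq`) is in `WordBddN n`; by the case `n` for `(𝔇ₐH, dSrc)`, `𝔇ₐH ∈ WordBddN n`; conclude with
`WordBddN.succ`.  The radius `R₀` does not change. -/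
theorem qeq_wordsN (κ : ChannelConsts) (m : ℕ) : ∃ Rs : ℝ, κ.R₁ < Rs ∧ ∀ R₀ : ℝ, Rs ≤ R₀ →
    ∀ (n : ℕ) (C : ℕ → ℝ), ∃ C' : ℕ → ℝ,
    ∀ (S : ChannelCore 𝒦 κ) (K : ℝ) (H Src : Space → 𝒦), 0 ≤ K → QEq S S.W R₀ H Src →
      WordBdd κ.R₁ C (fun x => K * Real.exp (-(κ.τ * ‖x‖))) H →
      WordBddN n R₀ C (fun x => K * (S.A x * (‖x‖ ^ m)⁻¹)) Src →
      WordBddN n R₀ C' (fun x => K * (S.A x * (‖x‖ ^ m)⁻¹)) H := by
  obtain ⟨Rs, hRs, h0⟩ := qeq_bound0 (𝒦 := 𝒦) κ m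
  have hR1 : 0 < κ.R₁ := lt_of_lt_of_le (by unfold bigD; positivity) κ.R₁_ge
  refine ⟨Rs, hRs, fun R₀ hR₀ n => ?_⟩
  have hR10 : κ.R₁ ≤ R₀ := hRs.le.trans hR₀
  have hg : ∀ (S : ChannelCore 𝒦 κ) (K : ℝ), 0 ≤ K →
      ∀ x ∈ Ext R₀, 0 ≤ K * (S.A x * (‖x‖ ^ m)⁻¹) := by
    intro S K hK x hx
    have hr : 0 < ‖x‖ := lt_of_lt_of_le hR1 (hR10.trans (le_of_lt hx))
    have h2 : 0 < S.A x := radialA_pos S.k S.β hr
    positivity
  have hge : ∀ (K : ℝ), 0 ≤ K → ∀ x ∈ Ext κ.R₁, 0 ≤ K * Real.exp (-(κ.τ * ‖x‖)) :=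
    fun K hK x _ => by positivity
  induction n with
  | zero =>
    intro C
    obtain ⟨C', hC'⟩ := h0 R₀ hR₀ (C 0)
    refine ⟨fun _ => C', fun S K H Src hK hEq hH hS => ⟨hH.1.mono (Ext_mono hR10), ?_⟩⟩
    intro w hw x hx
    have hw0 : w = [] := List.length_eq_zero_iff.1 (Nat.le_zero.1 hw)
    subst hw0
    exact hC' S K H Src hK hEq hH.1 hH.norm_le hS.norm_le x hx
  | succ n ih =>
    intro C
    obtain ⟨C₁, hC₁⟩ := ih C
    obtain ⟨C₂, hC₂⟩ := dSrc_wordBddN_Q (𝒦 := 𝒦) κ n (fun i => |C₁ i| + |C i|)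
    obtain ⟨C₄, hC₄⟩ := ih (fun i => |C (i + 1)| + |C₂ i|)
    refine ⟨fun i => Nat.casesOn i (C₁ 0) C₄, fun S K H Src hK hEq hH hS => ?_⟩
    have hHn := hC₁ S K H Src hK hEq hH (hS.of_le (Nat.le_succ n))
    have hW : ContDiffOn ℝ ∞ S.W (Ext R₀) := S.W_bdd.1.mono (Ext_mono hR10)
    refine WordBddN.succ hHn.1 hHn.norm_le fun a => ?_
    have hsrc := hC₂ S R₀ _ H Src a hR10 (hg S K hK)
      (hHn.mono_const (hg S K hK) fun i => by
        have := le_abs_self (C₁ i); have := abs_nonneg (C i); linarith)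
      (hS.mono_const (hg S K hK) fun i => by
        have := le_abs_self (C i); have := abs_nonneg (C₁ i); linarith)
    exact hC₄ S K (dfield a H) (dSrc S.lam S.W a H Src) hK
      (hEq.dfield_eq (κ.R₁_ge.trans hR10) hW hHn.1 hS.1 a)
      ((hH.dfield_bdd a).mono_const (hge K hK) fun i => by
        have := le_abs_self (C (i + 1)); have := abs_nonneg (C₂ i); linarith)
      (hsrc.mono_const (hg S K hK) fun i => by
        have := le_abs_self (C₂ i); have := abs_nonneg (C (i + 1)); linarith)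

/-- ungraded form. -/
theorem qeq_words (κ : ChannelConsts) (m : ℕ) : ∃ Rs : ℝ, κ.R₁ < Rs ∧ ∀ R₀ : ℝ, Rs ≤ R₀ →
    ∀ (C : ℕ → ℝ), ∃ C' : ℕ → ℝ,
    ∀ (S : ChannelCore 𝒦 κ) (K : ℝ) (H Src : Space → 𝒦), 0 ≤ K → QEq S S.W R₀ H Src →
      WordBdd κ.R₁ C (fun x => K * Real.exp (-(κ.τ * ‖x‖))) H →
      WordBdd R₀ C (fun x => K * (S.A x * (‖x‖ ^ m)⁻¹)) Src →
      WordBdd R₀ C' (fun x => K * (S.A x * (‖x‖ ^ m)⁻¹)) H := by
  obtain ⟨Rs, hRs, h⟩ := qeq_wordsN (𝒦 := 𝒦) κ m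
  refine ⟨Rs, hRs, fun R₀ hR₀ C => ?_⟩
  choose C' hC' using fun n => h R₀ hR₀ n C
  exact ⟨fun n => C' n n, fun S K H Src hK heq hap hsrc =>
    wordBdd_of_forall fun n => hC' n S K H Src hK heq hap (hsrc.toN n)⟩

end Qwords

end Claimed.Open.R278
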