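import Claimed.Open.R278.CHDefs

/-!
# Result 278, package CHT (paper-free analysis tools for the channel layer), file CHTA1

Exterior regions, the six fields, words: basic calculus.  Conventions: `Space = ℝ³`,
`Ext R = {R < |x|}` (open), `vfield/dfield/dword/dr/WordBdd` from `CHDefs`.
-/

open MeasureTheory Filter
open scoped ContDiff InnerProductSpace ComplexConjugate ENNReal Topology Laplacian

noncomputable section

namespace Claimed.Open.R278

/-! ## A. Exterior regions and the six fields (leaf CHT-A1) -/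

section A
variable {V V' : Type*} [NormedAddCommGroup V] [NormedSpace ℝ V]
  [NormedAddCommGroup V'] [NormedSpace ℝ V']

theorem isOpen_Ext (R : ℝ) : IsOpen (Ext R) := isOpen_lt continuous_const continuous_norm

theorem reflZ_mem_Ext {R : ℝ} {x : Space} (hx : x ∈ Ext R) : reflZ x ∈ Ext R := by
  simpa [Ext, norm_reflZ] using hx

theorem rotZ_mem_Ext {R : ℝ} {x : Space} (a : ℝ) (hx : x ∈ Ext R) : rotZ a x ∈ Ext R := by
  simpa [Ext, norm_rotZ] using hx

theorem Ext_mono {R R' : ℝ} (h : R ≤ R') : Ext R' ⊆ Ext R := fun _ hx => lt_of_le_of_lt h hx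

theorem Ext_mem_nhds {R : ℝ} {x : Space} (hx : x ∈ Ext R) : Ext R ∈ 𝓝 x :=
  (isOpen_Ext R).mem_nhds hx

theorem ne_zero_of_mem_Ext {R : ℝ} (hR : 0 ≤ R) {x : Space} (hx : x ∈ Ext R) : x ≠ 0 := by
  rintro rfl
  have hx' : R < ‖(0 : Space)‖ := hx
  rw [norm_zero] at hx'
  exact absurd hx' (not_lt.2 hR)

theorem norm_pos_of_mem_Ext {R : ℝ} (hR : 0 ≤ R) {x : Space} (hx : x ∈ Ext R) : 0 < ‖x‖ :=
  lt_of_le_of_lt hR hx

@[simp] theorem vfield_inl (j : Fin 3) (x : Space) :
    vfield (Sum.inl j) x = EuclideanSpace.single j 1 := rfl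

theorem vfield_inr_zero (x : Space) : vfield (Sum.inr 0) x = !₂[0, -x 2, x 1] := rfl
theorem vfield_inr_one (x : Space) : vfield (Sum.inr 1) x = !₂[x 2, 0, -x 0] := rfl
theorem vfield_inr_two (x : Space) : vfield (Sum.inr 2) x = !₂[-x 1, x 0, 0] := rfl

/-- the rotation fields as continuous linear maps. -/
def rotL (i : Fin 3) : Space →L[ℝ] Space :=
  LinearMap.toContinuousLinearMap
    { toFun := vfield (Sum.inr i)
      map_add' := fun x y => by
        fin_cases i <;> apply space_ext <;>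
          simp [vfield_inr_zero, vfield_inr_one, vfield_inr_two] <;> ring
      map_smul' := fun c x => by
        fin_cases i <;> apply space_ext <;>
          simp [vfield_inr_zero, vfield_inr_one, vfield_inr_two] }

theorem rotL_apply (i : Fin 3) (x : Space) : rotL i x = vfield (Sum.inr i) x := rfl

theorem contDiff_vfield (a : Fin 3 ⊕ Fin 3) : ContDiff ℝ ∞ (vfield a) := by
  rcases a with j | i
  · exact contDiff_const
  · exact (rotL i).contDiff

/-- rotation fields are tangent to spheres and have length `≤ |x|`. -/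
theorem inner_vfield_rot (i : Fin 3) (x : Space) : ⟪vfield (Sum.inr i) x, x⟫_ℝ = 0 := by
  fin_cases i <;>
    simp [vfield_inr_zero, vfield_inr_one, vfield_inr_two, PiLp.inner_apply, Fin.sum_univ_three] <;>
    ring

theorem norm_vfield_rot_le (i : Fin 3) (x : Space) : ‖vfield (Sum.inr i) x‖ ≤ ‖x‖ := by
  have h : ‖vfield (Sum.inr i) x‖ ^ 2 ≤ ‖x‖ ^ 2 := by
    rw [norm_sq_space, norm_sq_space]
    fin_cases i <;> simp [vfield_inr_zero, vfield_inr_one, vfield_inr_two] <;>
      nlinarith [sq_nonneg (x 0), sq_nonneg (x 1), sq_nonneg (x 2)]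
  exact (sq_le_sq₀ (norm_nonneg _) (norm_nonneg _)).1 h

theorem norm_vfield_trans (j : Fin 3) (x : Space) : ‖vfield (Sum.inl j) x‖ = 1 := by
  simp

/-- resolution of a vector into its radial and rotational parts:
`|x|² v = ⟪x,v⟫ x + ∑ᵢ ⟪eᵢ×x, v⟫ (eᵢ×x)`. -/
theorem vector_decomp (x v : Space) :
    ‖x‖ ^ 2 • v = ⟪x, v⟫_ℝ • x + ∑ i : Fin 3, ⟪vfield (Sum.inr i) x, v⟫_ℝ • vfield (Sum.inr i) x := by
  rw [norm_sq_space, Fin.sum_univ_three]
  apply space_ext <;>
    simp [vfield_inr_zero, vfield_inr_one, vfield_inr_two, PiLp.inner_apply, Fin.sum_univ_three] <;>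
    ring

theorem contDiffOn_fderiv_Ext {R : ℝ} {H : Space → V} (hH : ContDiffOn ℝ ∞ H (Ext R)) :
    ContDiffOn ℝ ∞ (fderiv ℝ H) (Ext R) :=
  hH.fderiv_of_isOpen (isOpen_Ext R) (by simp)

theorem contDiffOn_dfield {R : ℝ} {H : Space → V} (hH : ContDiffOn ℝ ∞ H (Ext R))
    (a : Fin 3 ⊕ Fin 3) : ContDiffOn ℝ ∞ (dfield a H) (Ext R) :=
  (contDiffOn_fderiv_Ext hH).clm_apply (contDiff_vfield a).contDiffOn

theorem contDiffOn_dword {R : ℝ} {H : Space → V} (hH : ContDiffOn ℝ ∞ H (Ext R))
    (w : List (Fin 3 ⊕ Fin 3)) : ContDiffOn ℝ ∞ (dword w H) (Ext R) := by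
  induction w with
  | nil => exact hH
  | cons a w ih => exact contDiffOn_dfield ih a

theorem contDiffOn_norm_Ext {R : ℝ} (hR : 0 ≤ R) :
    ContDiffOn ℝ ∞ (fun x : Space => ‖x‖) (Ext R) := fun x hx =>
  (contDiffAt_norm ℝ (ne_zero_of_mem_Ext hR hx)).contDiffWithinAt

theorem contDiffOn_dr {R : ℝ} (hR : 0 ≤ R) {H : Space → V} (hH : ContDiffOn ℝ ∞ H (Ext R)) :
    ContDiffOn ℝ ∞ (dr H) (Ext R) := by
  refine (contDiffOn_fderiv_Ext hH).clm_apply ?_
  exact ((contDiffOn_norm_Ext hR).inv fun _ hx =>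
    (norm_pos_of_mem_Ext hR hx).ne').smul contDiffOn_id

theorem differentiableAt_of_mem_Ext {R : ℝ} {H : Space → V} (hH : ContDiffOn ℝ ∞ H (Ext R))
    {x : Space} (hx : x ∈ Ext R) : DifferentiableAt ℝ H x :=
  (hH.contDiffAt (Ext_mem_nhds hx)).differentiableAt (by simp)

theorem dword_nil (H : Space → V) : dword [] H = H := rfl

theorem dword_cons (a : Fin 3 ⊕ Fin 3) (w : List (Fin 3 ⊕ Fin 3)) (H : Space → V) :
    dword (a :: w) H = dfield a (dword w H) := rfl

theorem dword_append (w w' : List (Fin 3 ⊕ Fin 3)) (H : Space → V) :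
    dword (w ++ w') H = dword w (dword w' H) := by
  simp [dword, List.foldr_append]

/-- `dfield` only depends on the germ. -/
theorem dfield_congr {R : ℝ} {H H' : Space → V} (h : ∀ x ∈ Ext R, H x = H' x)
    (a : Fin 3 ⊕ Fin 3) : ∀ x ∈ Ext R, dfield a H x = dfield a H' x := by
  intro x hx
  have : H =ᶠ[𝓝 x] H' := Filter.eventually_of_mem (Ext_mem_nhds hx) h
  simp only [dfield, this.fderiv_eq]

/-- `dr` only depends on the germ. -/
theorem dr_congr {R : ℝ} {H H' : Space → V} (h : ∀ x ∈ Ext R, H x = H' x) :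
    ∀ x ∈ Ext R, dr H x = dr H' x := by
  intro x hx
  have : H =ᶠ[𝓝 x] H' := Filter.eventually_of_mem (Ext_mem_nhds hx) h
  simp only [dr, this.fderiv_eq]

/-- `dword` only depends on the germ: functions agreeing on the open set `Ext R`. -/
theorem dword_congr {R : ℝ} {H H' : Space → V} (h : ∀ x ∈ Ext R, H x = H' x)
    (w : List (Fin 3 ⊕ Fin 3)) : ∀ x ∈ Ext R, dword w H x = dword w H' x := by
  induction w with
  | nil => exact h
  | cons a w ih => exact dfield_congr ih a

theorem dfield_add {H H' : Space → V} {x : Space} (hH : DifferentiableAt ℝ H x)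
    (hH' : DifferentiableAt ℝ H' x) (a : Fin 3 ⊕ Fin 3) :
    dfield a (fun y => H y + H' y) x = dfield a H x + dfield a H' x := by
  simp only [dfield]
  rw [fderiv_fun_add hH hH']; rfl

theorem dfield_sub {H H' : Space → V} {x : Space} (hH : DifferentiableAt ℝ H x)
    (hH' : DifferentiableAt ℝ H' x) (a : Fin 3 ⊕ Fin 3) :
    dfield a (fun y => H y - H' y) x = dfield a H x - dfield a H' x := by
  simp only [dfield]
  rw [fderiv_fun_sub hH hH']; rfl

theorem dfield_clm {H : Space → V} {x : Space} (hH : DifferentiableAt ℝ H x) (L : V →L[ℝ] V')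
    (a : Fin 3 ⊕ Fin 3) : dfield a (fun y => L (H y)) x = L (dfield a H x) := by
  have h : HasFDerivAt (fun y => L (H y)) (L.comp (fderiv ℝ H x)) x :=
    L.hasFDerivAt.comp x hH.hasFDerivAt
  simp only [dfield, h.fderiv]; rfl

theorem dword_add {R : ℝ} {H H' : Space → V} (hH : ContDiffOn ℝ ∞ H (Ext R))
    (hH' : ContDiffOn ℝ ∞ H' (Ext R)) (w : List (Fin 3 ⊕ Fin 3)) :
    ∀ x ∈ Ext R, dword w (fun y => H y + H' y) x = dword w H x + dword w H' x := by
  induction w with
  | nil => intro x _; rfl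
  | cons a w ih =>
    intro x hx
    rw [dword_cons, dfield_congr ih a x hx, dfield_add
      (differentiableAt_of_mem_Ext (contDiffOn_dword hH w) hx)
      (differentiableAt_of_mem_Ext (contDiffOn_dword hH' w) hx)]
    rfl

theorem dword_sub {R : ℝ} {H H' : Space → V} (hH : ContDiffOn ℝ ∞ H (Ext R))
    (hH' : ContDiffOn ℝ ∞ H' (Ext R)) (w : List (Fin 3 ⊕ Fin 3)) :
    ∀ x ∈ Ext R, dword w (fun y => H y - H' y) x = dword w H x - dword w H' x := by
  induction w with
  | nil => intro x _; rfl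
  | cons a w ih =>
    intro x hx
    rw [dword_cons, dfield_congr ih a x hx, dfield_sub
      (differentiableAt_of_mem_Ext (contDiffOn_dword hH w) hx)
      (differentiableAt_of_mem_Ext (contDiffOn_dword hH' w) hx)]
    rfl

/-- words commute with continuous linear maps. -/
theorem dword_clm {R : ℝ} {H : Space → V} (hH : ContDiffOn ℝ ∞ H (Ext R)) (L : V →L[ℝ] V')
    (w : List (Fin 3 ⊕ Fin 3)) : ∀ x ∈ Ext R, dword w (fun y => L (H y)) x = L (dword w H x) := by
  induction w with
  | nil => intro x _; rfl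
  | cons a w ih =>
    intro x hx
    rw [dword_cons, dfield_congr ih a x hx, dfield_clm
      (differentiableAt_of_mem_Ext (contDiffOn_dword hH w) hx)]
    rfl

end A

end Claimed.Open.R278
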