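import Claimed.Open.R278.CHTA1

/-!
# Result 278, package CHT (paper-free analysis tools for the channel layer), file CHTA2

Leibniz rules, radial derivative, decompositions.  Conventions: `Space = ℝ³`, `Ext R = {R < |x|}` (open),
`vfield/dfield/dword/dr/WordBdd` from `CHDefs`.
-/

open MeasureTheory Filter
open scoped ContDiff InnerProductSpace ComplexConjugate ENNReal Topology Laplacian

noncomputable section

namespace Claimed.Open.R278

/-! ## A2. Leibniz rules, radial derivative, decompositions (leaf CHT-A2) -/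

section A
variable {V V' : Type*} [NormedAddCommGroup V] [NormedSpace ℝ V]
  [NormedAddCommGroup V'] [NormedSpace ℝ V']

/-- first order Leibniz rules -/
theorem dfield_smul {σ : Space → ℝ} {H : Space → V} {x : Space} (hσ : DifferentiableAt ℝ σ x)
    (hH : DifferentiableAt ℝ H x) (a : Fin 3 ⊕ Fin 3) :
    dfield a (fun y => σ y • H y) x = dfield a σ x • H x + σ x • dfield a H x := by
  simp only [dfield]
  rw [fderiv_fun_smul hσ hH]
  simp [add_comm]

theorem dfield_clm_apply {T : Space → V →L[ℝ] V'} {H : Space → V} {x : Space}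
    (hT : DifferentiableAt ℝ T x) (hH : DifferentiableAt ℝ H x) (a : Fin 3 ⊕ Fin 3) :
    dfield a (fun y => T y (H y)) x = dfield a T x (H x) + T x (dfield a H x) := by
  simp only [dfield]
  rw [fderiv_clm_apply hT hH]
  simp [add_comm]

/-- the derivative of the norm. -/
theorem hasFDerivAt_norm_space {x : Space} (hx : x ≠ 0) :
    HasFDerivAt (fun y : Space => ‖y‖) (‖x‖⁻¹ • innerSL ℝ x) x := by
  have h2 : HasFDerivAt (fun y : Space => ‖y‖ ^ 2) (2 • innerSL ℝ x) x :=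
    (hasStrictFDerivAt_norm_sq x).hasFDerivAt
  have hx' : ‖x‖ ^ 2 ≠ 0 := pow_ne_zero 2 (norm_ne_zero_iff.2 hx)
  have h3 := h2.sqrt hx'
  have e1 : (fun y : Space => √(‖y‖ ^ 2)) = fun y => ‖y‖ := by
    funext y; exact Real.sqrt_sq (norm_nonneg y)
  rw [e1, Real.sqrt_sq (norm_nonneg x)] at h3
  refine h3.congr_fderiv ?_
  have : ‖x‖ ≠ 0 := norm_ne_zero_iff.2 hx
  rw [← Nat.cast_smul_eq_nsmul ℝ, smul_smul]
  congr 1
  push_cast
  field_simp

theorem fderiv_norm_space {x : Space} (hx : x ≠ 0) (v : Space) :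
    fderiv ℝ (fun y : Space => ‖y‖) x v = ‖x‖⁻¹ * ⟪x, v⟫_ℝ := by
  rw [(hasFDerivAt_norm_space hx).fderiv]; simp

/-- rotation fields kill radial functions. -/
theorem dfield_rot_radial {ρ : ℝ → ℝ} {x : Space} (hx : x ≠ 0) (hρ : DifferentiableAt ℝ ρ ‖x‖)
    (i : Fin 3) : dfield (Sum.inr i) (fun y => ρ ‖y‖) x = 0 := by
  have h : HasFDerivAt (fun y : Space => ρ ‖y‖)
      ((fderiv ℝ ρ ‖x‖).comp (‖x‖⁻¹ • innerSL ℝ x)) x :=
    hρ.hasFDerivAt.comp x (hasFDerivAt_norm_space hx)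
  simp only [dfield, h.fderiv]
  have h0 : ⟪x, vfield (Sum.inr i) x⟫_ℝ = 0 := by rw [real_inner_comm]; exact inner_vfield_rot i x
  simp [h0]

theorem IsRotWord.tail {a : Fin 3 ⊕ Fin 3} {w : List (Fin 3 ⊕ Fin 3)} (h : IsRotWord (a :: w)) :
    IsRotWord w := fun b hb => h b (List.mem_cons_of_mem _ hb)

theorem IsRotWord.head {a : Fin 3 ⊕ Fin 3} {w : List (Fin 3 ⊕ Fin 3)} (h : IsRotWord (a :: w)) :
    ∃ i, a = Sum.inr i := h a List.mem_cons_self

theorem isRotWord_nil : IsRotWord [] := fun _ h => absurd h List.not_mem_nil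

theorem IsRotWord.cons (i : Fin 3) {w : List (Fin 3 ⊕ Fin 3)} (h : IsRotWord w) :
    IsRotWord (Sum.inr i :: w) := by
  intro b hb
  rcases List.mem_cons.1 hb with rfl | hb
  · exact ⟨i, rfl⟩
  · exact h b hb

theorem contDiffOn_radial {R : ℝ} (hR : 0 ≤ R) {ρ : ℝ → V} (hρ : ContDiffOn ℝ ∞ ρ (Set.Ioi R)) :
    ContDiffOn ℝ ∞ (fun y : Space => ρ ‖y‖) (Ext R) :=
  hρ.comp (contDiffOn_norm_Ext hR) fun _ hx => hx

/-- rotation words pass through radial factors. -/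
theorem dword_rot_radial_smul {R : ℝ} (hR : 0 ≤ R) {ρ : ℝ → ℝ} (hρ : ContDiffOn ℝ ∞ ρ (Set.Ioi R))
    {H : Space → V} (hH : ContDiffOn ℝ ∞ H (Ext R)) {w : List (Fin 3 ⊕ Fin 3)} (hw : IsRotWord w) :
    ∀ x ∈ Ext R, dword w (fun y => ρ ‖y‖ • H y) x = ρ ‖x‖ • dword w H x := by
  induction w with
  | nil => intro x _; rfl
  | cons a w ih =>
    intro x hx
    obtain ⟨i, rfl⟩ := hw.head
    have hρx : DifferentiableAt ℝ ρ ‖x‖ :=
      (hρ.contDiffAt (Ioi_mem_nhds hx)).differentiableAt (by simp)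
    rw [dword_cons, dfield_congr (ih hw.tail) _ x hx, dfield_smul
      (differentiableAt_of_mem_Ext (contDiffOn_radial hR hρ) hx)
      (differentiableAt_of_mem_Ext (contDiffOn_dword hH w) hx),
      dfield_rot_radial (ne_zero_of_mem_Ext hR hx) hρx, zero_smul, zero_add]
    rfl

/-! ### second derivatives -/

theorem differentiableAt_fderiv {H : Space → V} {x : Space} (hH : ContDiffAt ℝ 2 H x) :
    DifferentiableAt ℝ (fderiv ℝ H) x :=
  (hH.fderiv_right (m := 1) (by norm_num)).differentiableAt (by simp)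

/-- derivative of `y ↦ DH(y)[X y]`. -/
theorem fderiv_fderiv_apply_field {H : Space → V} {X : Space → Space} {x : Space}
    (hH : ContDiffAt ℝ 2 H x) (hX : DifferentiableAt ℝ X x) (v : Space) :
    fderiv ℝ (fun y => fderiv ℝ H y (X y)) x v
      = fderiv ℝ (fderiv ℝ H) x v (X x) + fderiv ℝ H x (fderiv ℝ X x v) := by
  rw [fderiv_clm_apply (differentiableAt_fderiv hH) hX]
  simp [add_comm]

theorem snd_fderiv_symm {H : Space → V} {x : Space} (hH : ContDiffAt ℝ 2 H x) (v w : Space) :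
    fderiv ℝ (fderiv ℝ H) x v w = fderiv ℝ (fderiv ℝ H) x w v :=
  (hH.isSymmSndFDerivAt (by simp)) v w

theorem fderiv_vfield (a : Fin 3 ⊕ Fin 3) (x v : Space) :
    fderiv ℝ (vfield a) x v = match a with
      | Sum.inl _ => 0
      | Sum.inr i => rotL i v := by
  rcases a with j | i
  · have : vfield (Sum.inl j) = fun _ => EuclideanSpace.single j (1 : ℝ) := rfl
    rw [this]; simp
  · have : vfield (Sum.inr i) = rotL i := rfl
    rw [this, ContinuousLinearMap.fderiv]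

/-- `𝔇ₐ𝔇_b H = D²H[Xₐ, X_b] + DH[DX_b Xₐ]`. -/
theorem dfield_dfield_eq {H : Space → V} {x : Space} (hH : ContDiffAt ℝ 2 H x)
    (a b : Fin 3 ⊕ Fin 3) :
    dfield a (dfield b H) x = fderiv ℝ (fderiv ℝ H) x (vfield a x) (vfield b x)
      + fderiv ℝ H x (fderiv ℝ (vfield b) x (vfield a x)) :=
  fderiv_fderiv_apply_field hH ((contDiff_vfield b).differentiable (by simp) x) _

/-- the unit radial field. -/
def urad (x : Space) : Space := ‖x‖⁻¹ • x

theorem dr_eq (H : Space → V) (x : Space) : dr H x = fderiv ℝ H x (urad x) := rfl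

theorem hasFDerivAt_urad {x : Space} (hx : x ≠ 0) :
    HasFDerivAt urad (‖x‖⁻¹ • ContinuousLinearMap.id ℝ Space
      + (-(‖x‖ ^ 2)⁻¹ • (‖x‖⁻¹ • innerSL ℝ x)).smulRight x) x := by
  have h1 : HasFDerivAt (fun y : Space => ‖y‖⁻¹) (-(‖x‖ ^ 2)⁻¹ • (‖x‖⁻¹ • innerSL ℝ x)) x := by
    exact (hasDerivAt_inv (norm_ne_zero_iff.2 hx)).comp_hasFDerivAt x (hasFDerivAt_norm_space hx)
  exact h1.smul (hasFDerivAt_id x)

theorem fderiv_urad {x : Space} (hx : x ≠ 0) (v : Space) :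
    fderiv ℝ urad x v = ‖x‖⁻¹ • v - ((‖x‖ ^ 3)⁻¹ * ⟪x, v⟫_ℝ) • x := by
  rw [(hasFDerivAt_urad hx).fderiv]
  simp only [_root_.add_apply, _root_.smul_apply,
    ContinuousLinearMap.id_apply, ContinuousLinearMap.smulRight_apply, innerSL_apply_apply,
    smul_eq_mul]
  rw [sub_eq_add_neg, ← neg_smul]
  congr 2
  have : ‖x‖ ≠ 0 := norm_ne_zero_iff.2 hx
  field_simp

theorem fderiv_urad_self {x : Space} (hx : x ≠ 0) : fderiv ℝ urad x (urad x) = 0 := by
  rw [fderiv_urad hx, urad, inner_smul_right, real_inner_self_eq_norm_sq, smul_smul, ← sub_smul]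
  have : ‖x‖ ≠ 0 := norm_ne_zero_iff.2 hx
  convert zero_smul ℝ x using 2
  field_simp
  ring

theorem fderiv_urad_rot {x : Space} (hx : x ≠ 0) (i : Fin 3) :
    fderiv ℝ urad x (vfield (Sum.inr i) x) = ‖x‖⁻¹ • vfield (Sum.inr i) x := by
  rw [fderiv_urad hx, real_inner_comm, inner_vfield_rot]; simp

/-- `∂_r² H = D²H[u,u]`. -/
theorem dr_dr_eq {H : Space → V} {x : Space} (hx : x ≠ 0) (hH : ContDiffAt ℝ 2 H x) :
    dr (dr H) x = fderiv ℝ (fderiv ℝ H) x (urad x) (urad x) := by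
  have := fderiv_fderiv_apply_field hH (hasFDerivAt_urad hx).differentiableAt (urad x)
  rw [fderiv_urad_self hx, map_zero, add_zero] at this
  exact this

/-- `∂_r Ωᵢ H = D²H[u, Jᵢx] + r⁻¹ Ωᵢ H`. -/
theorem dr_dfield_rot_eq {H : Space → V} {x : Space} (hH : ContDiffAt ℝ 2 H x) (i : Fin 3) :
    dr (dfield (Sum.inr i) H) x = fderiv ℝ (fderiv ℝ H) x (urad x) (vfield (Sum.inr i) x)
      + ‖x‖⁻¹ • dfield (Sum.inr i) H x := by
  have key := fderiv_fderiv_apply_field hH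
    ((contDiff_vfield (Sum.inr i)).differentiable (by simp) x) (urad x)
  rw [fderiv_vfield] at key
  have e : rotL i (urad x) = ‖x‖⁻¹ • vfield (Sum.inr i) x := by rw [urad, map_smul, rotL_apply]
  simp only [e, map_smul] at key
  exact key

/-- `Ωᵢ ∂_r H = D²H[Jᵢx, u] + r⁻¹ Ωᵢ H`. -/
theorem dfield_rot_dr_eq {H : Space → V} {x : Space} (hx : x ≠ 0) (hH : ContDiffAt ℝ 2 H x)
    (i : Fin 3) :
    dfield (Sum.inr i) (dr H) x = fderiv ℝ (fderiv ℝ H) x (vfield (Sum.inr i) x) (urad x)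
      + ‖x‖⁻¹ • dfield (Sum.inr i) H x := by
  have := fderiv_fderiv_apply_field hH (hasFDerivAt_urad hx).differentiableAt
    (vfield (Sum.inr i) x)
  rw [fderiv_urad_rot hx, map_smul] at this
  exact this

theorem contDiffAt_two_of_mem_Ext {R : ℝ} {H : Space → V} (hH : ContDiffOn ℝ ∞ H (Ext R))
    {x : Space} (hx : x ∈ Ext R) : ContDiffAt ℝ 2 H x :=
  (hH.contDiffAt (Ext_mem_nhds hx)).of_le (WithTop.coe_le_coe.2 le_top)

/-- rotation fields commute with the radial derivative. -/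
theorem dfield_rot_dr {R : ℝ} (hR : 0 ≤ R) {H : Space → V} (hH : ContDiffOn ℝ ∞ H (Ext R)) (i : Fin 3) :
    ∀ x ∈ Ext R, dfield (Sum.inr i) (dr H) x = dr (dfield (Sum.inr i) H) x := by
  intro x hx
  have h2 := contDiffAt_two_of_mem_Ext hH hx
  rw [dfield_rot_dr_eq (ne_zero_of_mem_Ext hR hx) h2, dr_dfield_rot_eq h2, snd_fderiv_symm h2]

theorem space_eq_sum_single (x : Space) :
    x = ∑ j : Fin 3, x j • (EuclideanSpace.single j (1 : ℝ) : Space) := by
  rw [Fin.sum_univ_three]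
  apply space_ext <;> simp

/-- `∂_r = ∑ⱼ (xⱼ/r) ∂ⱼ`. -/
theorem dr_eq_sum (H : Space → V) (x : Space) :
    dr H x = ∑ j : Fin 3, (x j / ‖x‖) • dfield (Sum.inl j) H x := by
  have h : ‖x‖⁻¹ • x = ∑ j : Fin 3, (x j / ‖x‖) • (EuclideanSpace.single j (1 : ℝ) : Space) := by
    have := congrArg (fun y => ‖x‖⁻¹ • y) (space_eq_sum_single x)
    simp only [Finset.smul_sum, smul_smul] at this
    rw [this]
    refine Finset.sum_congr rfl fun j _ => ?_
    rw [div_eq_inv_mul]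
  simp only [dr, dfield, vfield_inl]
  rw [h, map_sum]
  simp only [map_smul]

/-- **T6a**: any directional derivative in terms of `∂_r` and the rotation fields. -/
theorem fderiv_decomp {H : Space → V} {x : Space} (hx : x ≠ 0) (v : Space) :
    fderiv ℝ H x v = (⟪x, v⟫_ℝ / ‖x‖) • dr H x
      + (‖x‖ ^ 2)⁻¹ • ∑ i : Fin 3, ⟪vfield (Sum.inr i) x, v⟫_ℝ • dfield (Sum.inr i) H x := by
  have hn : ‖x‖ ≠ 0 := norm_ne_zero_iff.2 hx
  have h := congrArg (fderiv ℝ H x) (vector_decomp x v)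
  rw [map_smul, map_add, map_smul, map_sum] at h
  simp only [map_smul] at h
  have h' : fderiv ℝ H x v = (‖x‖ ^ 2)⁻¹ • (‖x‖ ^ 2 • fderiv ℝ H x v) := by
    rw [smul_smul, inv_mul_cancel₀ (pow_ne_zero 2 hn), one_smul]
  rw [h', h, smul_add]
  congr 1
  simp only [dr, map_smul, smul_smul]
  congr 1
  field_simp

theorem inner_cyl_single_zero (p z : ℝ) :
    ⟪cyl p z, (EuclideanSpace.single 0 (1 : ℝ) : Space)⟫_ℝ = p := by
  simp [PiLp.inner_apply]

/-- `e₀ = (p/r) u + (z/r²) J₁x` at `x = cyl p z`. -/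
theorem single_zero_eq_cyl {p z : ℝ} (hx : cyl p z ≠ 0) :
    (EuclideanSpace.single 0 (1 : ℝ) : Space) = (p / ‖cyl p z‖) • urad (cyl p z)
      + (z / ‖cyl p z‖ ^ 2) • vfield (Sum.inr 1) (cyl p z) := by
  have hn : ‖cyl p z‖ ≠ 0 := norm_ne_zero_iff.2 hx
  have h2 : ‖cyl p z‖ ^ 2 = p ^ 2 + z ^ 2 := by rw [norm_sq_space]; simp
  apply space_ext
  · simp only [urad, vfield_inr_one, PiLp.add_apply, PiLp.smul_apply, cyl_apply_zero,
      cyl_apply_two, smul_eq_mul]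
    simp
    field_simp
    linarith
  · simp [urad, vfield_inr_one]
  · simp only [urad, vfield_inr_one, PiLp.add_apply, PiLp.smul_apply, cyl_apply_zero,
      cyl_apply_two, smul_eq_mul]
    simp
    field_simp
    ring

/-- **T6b**: `∂₀ = (p/r) ∂_r + (z/r²) Ω₁` at `x = cyl p z`. -/
theorem dfield_zero_cyl {H : Space → V} {p z : ℝ} (hx : cyl p z ≠ 0) :
    dfield (Sum.inl 0) H (cyl p z) = (p / ‖cyl p z‖) • dr H (cyl p z)
      + (z / ‖cyl p z‖ ^ 2) • dfield (Sum.inr 1) H (cyl p z) := by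
  simp only [dfield, vfield_inl, dr_eq]
  conv_lhs => rw [single_zero_eq_cyl hx]
  rw [map_add, map_smul, map_smul]

theorem rotL_one_rotL_one_cyl (p z : ℝ) :
    rotL 1 (vfield (Sum.inr 1) (cyl p z)) = -cyl p z := by
  rw [rotL_apply]
  apply space_ext <;> simp [vfield_inr_one]

/-- **T6c**: second order version at `x = cyl p z`, `r = |x|`:
`∂₀² = (z²/r³)∂_r + (p/r)²∂_r² + 2(pz/r³) ∂_rΩ₁ - (2pz/r⁴)Ω₁ + (z/r²)²Ω₁²`. -/
theorem dfield_zero_zero_cyl {R : ℝ} (hR : 0 ≤ R) {H : Space → V} (hH : ContDiffOn ℝ ∞ H (Ext R))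
    {p z : ℝ} (hx : cyl p z ∈ Ext R) :
    dfield (Sum.inl 0) (dfield (Sum.inl 0) H) (cyl p z) =
      (z ^ 2 / ‖cyl p z‖ ^ 3) • dr H (cyl p z)
      + (p / ‖cyl p z‖) ^ 2 • dr (dr H) (cyl p z)
      + (2 * p * z / ‖cyl p z‖ ^ 3) • dr (dfield (Sum.inr 1) H) (cyl p z)
      - (2 * p * z / ‖cyl p z‖ ^ 4) • dfield (Sum.inr 1) H (cyl p z)
      + (z / ‖cyl p z‖ ^ 2) ^ 2 • dfield (Sum.inr 1) (dfield (Sum.inr 1) H) (cyl p z) := by
  have hx0 := ne_zero_of_mem_Ext hR hx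
  have hn : ‖cyl p z‖ ≠ 0 := norm_ne_zero_iff.2 hx0
  have h2 := contDiffAt_two_of_mem_Ext hH hx
  set x := cyl p z with hxdef
  set r := ‖x‖ with hr
  set B := fderiv ℝ (fderiv ℝ H) x with hB
  set u := urad x with hu
  set J := vfield (Sum.inr 1) x with hJ
  have e1 : dfield (Sum.inl 0) (dfield (Sum.inl 0) H) x
      = B (EuclideanSpace.single 0 1) (EuclideanSpace.single 0 1) := by
    rw [dfield_dfield_eq h2, fderiv_vfield]; simp [hB]
  have e2 : dr (dr H) x = B u u := dr_dr_eq hx0 h2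
  have e3 : dr (dfield (Sum.inr 1) H) x = B u J + r⁻¹ • dfield (Sum.inr 1) H x :=
    dr_dfield_rot_eq h2 1
  have e4 : dfield (Sum.inr 1) (dfield (Sum.inr 1) H) x = B J J - r • dr H x := by
    rw [dfield_dfield_eq h2, fderiv_vfield]
    simp only
    rw [hxdef, rotL_one_rotL_one_cyl, ← hxdef, map_neg, sub_eq_add_neg]
    congr 2
    rw [dr, map_smul, smul_smul, mul_inv_cancel₀ hn, one_smul]
  have e5 : B J u = B u J := snd_fderiv_symm h2 J u
  rw [e1, e2, e3, e4, single_zero_eq_cyl hx0, ← hxdef, ← hr, ← hu, ← hJ]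
  simp only [map_add, map_smul, _root_.add_apply, _root_.smul_apply, e5]
  have c1 : z ^ 2 / r ^ 3 = (z / r ^ 2) ^ 2 * r := by field_simp
  have c2 : 2 * p * z / r ^ 4 = 2 * p * z / r ^ 3 * r⁻¹ := by field_simp
  have c3 : 2 * p * z / r ^ 3 = 2 * ((p / r) * (z / r ^ 2)) := by field_simp
  rw [c1, c2, c3]
  module

/-- derivatives along the line `p' ↦ cyl p' z`. -/
theorem hasDerivAt_comp_cyl {H : Space → V} {p z : ℝ} (hH : DifferentiableAt ℝ H (cyl p z)) :
    HasDerivAt (fun p' => H (cyl p' z)) (dfield (Sum.inl 0) H (cyl p z)) p := by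
  have h1 : HasDerivAt (fun p' : ℝ => cyl p' z) (EuclideanSpace.single 0 (1 : ℝ) : Space) p := by
    have e : (fun p' : ℝ => cyl p' z)
        = fun p' : ℝ => cyl 0 z + p' • (EuclideanSpace.single 0 (1 : ℝ) : Space) := by
      funext p'
      apply space_ext <;> simp
    rw [e]
    simpa using ((hasDerivAt_id p).smul_const (EuclideanSpace.single 0 (1 : ℝ) : Space)).const_add
      (cyl 0 z)
  exact hH.hasFDerivAt.comp_hasDerivAt p h1

end A

end Claimed.Open.R278
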