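import Claimed.Open.R278.CHTA2

/-!
# Result 278, package CHT (paper-free analysis tools for the channel layer), file CHTB

The Laplacian on `ℝ³`: commutation with the six fields and the reflection, polar decomposition,
Leibniz rule, radial functions times functions of the height, the profile `A(r) = e^{-kr} r^a`.
-/

open MeasureTheory Filter
open scoped ContDiff InnerProductSpace ComplexConjugate ENNReal Topology Laplacian

noncomputable section

namespace Claimed.Open.R278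

section B
variable {V : Type*} [NormedAddCommGroup V] [NormedSpace ℝ V]

/-- `Δ H = ∑ⱼ D²H[eⱼ,eⱼ]`. -/
theorem laplacian_eq_sum_snd (H : Space → V) (x : Space) :
    Δ H x = ∑ j : Fin 3, fderiv ℝ (fderiv ℝ H) x (EuclideanSpace.single j 1)
      (EuclideanSpace.single j 1) := by
  rw [InnerProductSpace.laplacian_eq_iteratedFDeriv_orthonormalBasis H
    (EuclideanSpace.basisFun (Fin 3) ℝ)]
  simp [iteratedFDeriv_two_apply]

theorem dfield_trans_trans_eq {H : Space → V} {x : Space} (hH : ContDiffAt ℝ 2 H x) (j k : Fin 3) :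
    dfield (Sum.inl j) (dfield (Sum.inl k) H) x
      = fderiv ℝ (fderiv ℝ H) x (EuclideanSpace.single j 1) (EuclideanSpace.single k 1) := by
  rw [dfield_dfield_eq hH, fderiv_vfield]; simp

/-- `Δ H = ∑ⱼ ∂ⱼ∂ⱼ H`. -/
theorem laplacian_eq_sum_dfield {H : Space → V} {x : Space} (hH : ContDiffAt ℝ 2 H x) :
    Δ H x = ∑ j : Fin 3, dfield (Sum.inl j) (dfield (Sum.inl j) H) x := by
  rw [laplacian_eq_sum_snd]
  exact Finset.sum_congr rfl fun j _ => (dfield_trans_trans_eq hH j j).symm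

theorem dfield_trans_comm {H : Space → V} {x : Space} (hH : ContDiffAt ℝ 2 H x) (j k : Fin 3) :
    dfield (Sum.inl j) (dfield (Sum.inl k) H) x = dfield (Sum.inl k) (dfield (Sum.inl j) H) x := by
  rw [dfield_trans_trans_eq hH, dfield_trans_trans_eq hH, snd_fderiv_symm hH]

theorem dfield_sum {ι : Type*} (s : Finset ι) {F : ι → Space → V} {x : Space}
    (hF : ∀ i ∈ s, DifferentiableAt ℝ (F i) x) (a : Fin 3 ⊕ Fin 3) :
    dfield a (fun y => ∑ i ∈ s, F i y) x = ∑ i ∈ s, dfield a (F i) x := by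
  simp only [dfield]
  rw [fderiv_fun_sum hF]
  simp

theorem dfield_congr_nhds {H H' : Space → V} {x : Space} (h : H =ᶠ[𝓝 x] H')
    (a : Fin 3 ⊕ Fin 3) : dfield a H x = dfield a H' x := by
  simp only [dfield, h.fderiv_eq]

theorem laplacian_congr_Ext {R : ℝ} {H H' : Space → V} (h : ∀ x ∈ Ext R, H x = H' x) :
    ∀ x ∈ Ext R, Δ H x = Δ H' x := by
  intro x hx
  have : H =ᶠ[𝓝 x] H' := Filter.eventually_of_mem (Ext_mem_nhds hx) h
  exact (InnerProductSpace.laplacian_congr_nhds this).self_of_nhds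

theorem contDiffOn_laplacian {R : ℝ} {H : Space → V} (hH : ContDiffOn ℝ ∞ H (Ext R)) :
    ContDiffOn ℝ ∞ (Δ H) (Ext R) := by
  have h : ContDiffOn ℝ ∞
      (fun x => ∑ j : Fin 3, dfield (Sum.inl j) (dfield (Sum.inl j) H) x) (Ext R) :=
    ContDiffOn.sum fun j _ => contDiffOn_dfield (contDiffOn_dfield hH _) _
  exact h.congr fun x hx => laplacian_eq_sum_dfield (contDiffAt_two_of_mem_Ext hH hx)

theorem laplacian_dfield_trans {R : ℝ} {H : Space → V} (hH : ContDiffOn ℝ ∞ H (Ext R))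
    (k : Fin 3) : ∀ x ∈ Ext R, Δ (dfield (Sum.inl k) H) x = dfield (Sum.inl k) (Δ H) x := by
  intro x hx
  rw [laplacian_eq_sum_dfield (contDiffAt_two_of_mem_Ext (contDiffOn_dfield hH _) hx),
    dfield_congr (fun y hy => laplacian_eq_sum_dfield (contDiffAt_two_of_mem_Ext hH hy)) _ x hx,
    dfield_sum _ fun j _ => differentiableAt_of_mem_Ext
      (contDiffOn_dfield (contDiffOn_dfield hH _) _) hx]
  refine Finset.sum_congr rfl fun j _ => ?_
  rw [dfield_congr (fun y hy => dfield_trans_comm (contDiffAt_two_of_mem_Ext hH hy) j k) _ x hx,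
    dfield_trans_comm (contDiffAt_two_of_mem_Ext (contDiffOn_dfield hH _) hx)]

/-- Leibniz rule for the Laplacian of a scalar times a vector function. -/
theorem laplacian_smul_fun {σ : Space → ℝ} {H : Space → V} {x : Space} (hσ : ContDiffAt ℝ 2 σ x)
    (hH : ContDiffAt ℝ 2 H x) :
    Δ (fun y => σ y • H y) x = Δ σ x • H x
      + (2 : ℝ) • ∑ j : Fin 3, dfield (Sum.inl j) σ x • dfield (Sum.inl j) H x + σ x • Δ H x := by
  have hsm : ContDiffAt ℝ 2 (fun y => σ y • H y) x := hσ.smul hH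
  rw [laplacian_eq_sum_dfield hsm, laplacian_eq_sum_dfield hσ, laplacian_eq_sum_dfield hH,
    Finset.sum_smul, Finset.smul_sum, Finset.smul_sum, ← Finset.sum_add_distrib,
    ← Finset.sum_add_distrib]
  refine Finset.sum_congr rfl fun j _ => ?_
  have hev : (dfield (Sum.inl j) fun y => σ y • H y) =ᶠ[𝓝 x]
      fun y => dfield (Sum.inl j) σ y • H y + σ y • dfield (Sum.inl j) H y := by
    filter_upwards [hσ.eventually (by simp), hH.eventually (by simp)] with y h1 h2
    exact dfield_smul (h1.differentiableAt (by simp)) (h2.differentiableAt (by simp)) _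
  have d1 : DifferentiableAt ℝ σ x := hσ.differentiableAt (by simp)
  have d2 : DifferentiableAt ℝ H x := hH.differentiableAt (by simp)
  have d3 : DifferentiableAt ℝ (dfield (Sum.inl j) σ) x :=
    (differentiableAt_fderiv hσ).clm_apply (differentiableAt_const _)
  have d4 : DifferentiableAt ℝ (dfield (Sum.inl j) H) x :=
    (differentiableAt_fderiv hH).clm_apply (differentiableAt_const _)
  have d5 : DifferentiableAt ℝ (fun y => dfield (Sum.inl j) σ y • H y) x := d3.smul d2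
  have d6 : DifferentiableAt ℝ (fun y => σ y • dfield (Sum.inl j) H y) x := d1.smul d4
  rw [dfield_congr_nhds hev, dfield_add d5 d6, dfield_smul d3 d2, dfield_smul d1 d4]
  module

/-! ### coordinates -/

theorem dfield_coord (a : Fin 3 ⊕ Fin 3) (j : Fin 3) (x : Space) :
    dfield a (fun y : Space => y j) x = vfield a x j := by
  have : (fun y : Space => y j) = (EuclideanSpace.proj j : Space →L[ℝ] ℝ) := rfl
  simp only [dfield]
  rw [this, ContinuousLinearMap.fderiv]; rfl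

theorem contDiff_coord (j : Fin 3) : ContDiff ℝ ∞ (fun y : Space => y j) :=
  (EuclideanSpace.proj j : Space →L[ℝ] ℝ).contDiff

theorem laplacian_coord (j : Fin 3) (x : Space) : Δ (fun y : Space => y j) x = 0 := by
  have : (fun y : Space => y j) = (EuclideanSpace.proj j : Space →L[ℝ] ℝ) := rfl
  rw [laplacian_eq_sum_snd, this]
  have h2 : fderiv ℝ ((EuclideanSpace.proj j : Space →L[ℝ] ℝ) : Space → ℝ)
      = fun _ => (EuclideanSpace.proj j : Space →L[ℝ] ℝ) := by
    funext y; exact ContinuousLinearMap.fderiv _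
  rw [h2]; simp

theorem laplacian_fun_sub {H₁ H₂ : Space → V} {x : Space} (h₁ : ContDiffAt ℝ 2 H₁ x)
    (h₂ : ContDiffAt ℝ 2 H₂ x) : Δ (fun y => H₁ y - H₂ y) x = Δ H₁ x - Δ H₂ x :=
  h₁.laplacian_sub h₂

theorem laplacian_fun_add {H₁ H₂ : Space → V} {x : Space} (h₁ : ContDiffAt ℝ 2 H₁ x)
    (h₂ : ContDiffAt ℝ 2 H₂ x) : Δ (fun y => H₁ y + H₂ y) x = Δ H₁ x + Δ H₂ x :=
  h₁.laplacian_add h₂

/-- `Δ (xⱼ ∂ₖ H) = xⱼ ∂ₖ ΔH + 2 ∂ⱼ∂ₖ H`. -/
theorem laplacian_coord_smul_dfield {R : ℝ} {H : Space → V} (hH : ContDiffOn ℝ ∞ H (Ext R))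
    (j k : Fin 3) : ∀ x ∈ Ext R, Δ (fun y => y j • dfield (Sum.inl k) H y) x
      = x j • dfield (Sum.inl k) (Δ H) x
        + (2 : ℝ) • dfield (Sum.inl j) (dfield (Sum.inl k) H) x := by
  intro x hx
  have h1 : ContDiffAt ℝ 2 (fun y : Space => y j) x :=
    ((contDiff_coord j).of_le (WithTop.coe_le_coe.2 le_top)).contDiffAt
  rw [laplacian_smul_fun h1 (contDiffAt_two_of_mem_Ext (contDiffOn_dfield hH _) hx),
    laplacian_coord, zero_smul, zero_add, laplacian_dfield_trans hH k x hx, add_comm]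
  congr 2
  simp only [dfield_coord, vfield_inl]
  rw [Finset.sum_eq_single j]
  · simp
  · intro i _ hij
    simp [hij]
  · simp

/-- a field of the form `xⱼ eₖ - xₖ eⱼ` commutes with the Laplacian. -/
theorem laplacian_dfield_of_eq {R : ℝ} {H : Space → V} (hH : ContDiffOn ℝ ∞ H (Ext R))
    (a : Fin 3 ⊕ Fin 3) (j k : Fin 3)
    (ha : ∀ y, vfield a y = y j • (EuclideanSpace.single k (1 : ℝ) : Space)
      - y k • (EuclideanSpace.single j (1 : ℝ) : Space)) :
    ∀ x ∈ Ext R, Δ (dfield a H) x = dfield a (Δ H) x := by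
  intro x hx
  have e : ∀ (G : Space → V) (y : Space), dfield a G y
      = y j • dfield (Sum.inl k) G y - y k • dfield (Sum.inl j) G y := by
    intro G y
    simp only [dfield, ha, map_sub, map_smul, vfield_inl]
  have c : ∀ j k : Fin 3, ContDiffAt ℝ 2 (fun y => y j • dfield (Sum.inl k) H y) x := fun j k =>
    (((contDiff_coord j).of_le (WithTop.coe_le_coe.2 le_top)).contDiffAt).smul
      (contDiffAt_two_of_mem_Ext (contDiffOn_dfield hH _) hx)
  have e' : dfield a H = fun y => y j • dfield (Sum.inl k) H y - y k • dfield (Sum.inl j) H y :=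
    funext (e H)
  rw [e', laplacian_fun_sub (c j k) (c k j), laplacian_coord_smul_dfield hH j k x hx,
    laplacian_coord_smul_dfield hH k j x hx, e,
    dfield_trans_comm (contDiffAt_two_of_mem_Ext hH hx) j k]
  abel

/-- **T4**: the six fields commute with the Laplacian. -/
theorem laplacian_dfield {R : ℝ} {H : Space → V} (hH : ContDiffOn ℝ ∞ H (Ext R))
    (a : Fin 3 ⊕ Fin 3) : ∀ x ∈ Ext R, Δ (dfield a H) x = dfield a (Δ H) x := by
  rcases a with k | i
  · exact laplacian_dfield_trans hH k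
  · fin_cases i
    · refine laplacian_dfield_of_eq hH _ 1 2 fun y => ?_
      apply space_ext <;> simp [vfield_inr_zero]
    · refine laplacian_dfield_of_eq hH _ 2 0 fun y => ?_
      apply space_ext <;> simp [vfield_inr_one]
    · refine laplacian_dfield_of_eq hH _ 0 1 fun y => ?_
      apply space_ext <;> simp [vfield_inr_two]

theorem laplacian_dword {R : ℝ} {H : Space → V} (hH : ContDiffOn ℝ ∞ H (Ext R))
    (w : List (Fin 3 ⊕ Fin 3)) : ∀ x ∈ Ext R, Δ (dword w H) x = dword w (Δ H) x := by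
  induction w with
  | nil => intro x _; rfl
  | cons a w ih =>
    intro x hx
    rw [dword_cons, laplacian_dfield (contDiffOn_dword hH w) a x hx, dfield_congr ih a x hx]
    rfl

/-- the reflection as a continuous linear equivalence. -/
def reflZCLE : Space ≃L[ℝ] Space :=
  (reflZIsometry.toLinearIsometryEquiv rfl).toContinuousLinearEquiv

theorem reflZCLE_apply (x : Space) : reflZCLE x = reflZ x := rfl

/-- the Laplacian commutes with the reflection (no smoothness needed). -/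
theorem laplacian_comp_reflZ' (H : Space → V) (x : Space) :
    Δ (fun y => H (reflZ y)) x = Δ H (reflZ x) := by
  have h := reflZCLE.iteratedFDerivWithin_comp_right H uniqueDiffOn_univ (Set.mem_univ (reflZCLE x)) 2
  rw [Set.preimage_univ, iteratedFDerivWithin_univ, iteratedFDerivWithin_univ] at h
  have e : (fun y => H (reflZ y)) = H ∘ reflZCLE := rfl
  rw [InnerProductSpace.laplacian_eq_iteratedFDeriv_orthonormalBasis _
      (EuclideanSpace.basisFun (Fin 3) ℝ),
    InnerProductSpace.laplacian_eq_iteratedFDeriv_orthonormalBasis _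
      (EuclideanSpace.basisFun (Fin 3) ℝ), e]
  simp only [h, ContinuousMultilinearMap.compContinuousLinearMap_apply, iteratedFDeriv_two_apply,
    EuclideanSpace.basisFun_apply, reflZCLE_apply]
  refine Finset.sum_congr rfl fun j _ => ?_
  have hj : reflZ (EuclideanSpace.single j (1 : ℝ)) = EuclideanSpace.single j (1 : ℝ)
      ∨ reflZ (EuclideanSpace.single j (1 : ℝ)) = -EuclideanSpace.single j (1 : ℝ) := by
    fin_cases j
    · left; apply space_ext <;> simp
    · left; apply space_ext <;> simp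
    · right; apply space_ext <;> simp
  have e0 : ((reflZCLE : Space →L[ℝ] Space) (![EuclideanSpace.single j (1 : ℝ),
      EuclideanSpace.single j (1 : ℝ)] 0)) = reflZ (EuclideanSpace.single j (1 : ℝ)) := rfl
  have e1 : ((reflZCLE : Space →L[ℝ] Space) (![EuclideanSpace.single j (1 : ℝ),
      EuclideanSpace.single j (1 : ℝ)] 1)) = reflZ (EuclideanSpace.single j (1 : ℝ)) := rfl
  rw [e0, e1]
  rcases hj with hj | hj <;> rw [hj] <;> simp

theorem laplacian_comp_reflZ {H : Space → V} {x : Space} (_hH : ContDiffAt ℝ 2 H (reflZ x)) :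
    Δ (fun y => H (reflZ y)) x = Δ H (reflZ x) := laplacian_comp_reflZ' H x

/-! ### polar decomposition -/

theorem vfield_rot_eq (x : Space) :
    vfield (Sum.inr 0) x = x 1 • (EuclideanSpace.single 2 (1 : ℝ) : Space)
        - x 2 • (EuclideanSpace.single 1 (1 : ℝ) : Space) ∧
    vfield (Sum.inr 1) x = x 2 • (EuclideanSpace.single 0 (1 : ℝ) : Space)
        - x 0 • (EuclideanSpace.single 2 (1 : ℝ) : Space) ∧
    vfield (Sum.inr 2) x = x 0 • (EuclideanSpace.single 1 (1 : ℝ) : Space)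
        - x 1 • (EuclideanSpace.single 0 (1 : ℝ) : Space) := by
  refine ⟨?_, ?_, ?_⟩
  · apply space_ext <;> simp [vfield_inr_zero]
  · apply space_ext <;> simp [vfield_inr_one]
  · apply space_ext <;> simp [vfield_inr_two]

/-- `r² tr B = B(x,x) + ∑ᵢ B(Jᵢx, Jᵢx)` for a bilinear map `B`. -/
theorem bilin_trace_decomp (B : Space →L[ℝ] Space →L[ℝ] V) (x : Space) :
    ‖x‖ ^ 2 • ∑ j : Fin 3, B (EuclideanSpace.single j 1) (EuclideanSpace.single j 1)
      = B x x + ∑ i : Fin 3, B (vfield (Sum.inr i) x) (vfield (Sum.inr i) x) := by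
  obtain ⟨h0, h1, h2⟩ := vfield_rot_eq x
  have hx : x = x 0 • (EuclideanSpace.single 0 (1 : ℝ) : Space)
      + x 1 • (EuclideanSpace.single 1 (1 : ℝ) : Space)
      + x 2 • (EuclideanSpace.single 2 (1 : ℝ) : Space) := by
    conv_lhs => rw [space_eq_sum_single x, Fin.sum_univ_three]
  rw [norm_sq_space, Fin.sum_univ_three, Fin.sum_univ_three, h0, h1, h2]
  generalize x 0 = a at *
  generalize x 1 = b at *
  generalize x 2 = c at *
  rw [hx]
  simp only [map_add, map_sub, map_smul, _root_.add_apply, _root_.sub_apply, _root_.smul_apply]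
  module

theorem sum_rotL_rotL (x : Space) :
    ∑ i : Fin 3, rotL i (vfield (Sum.inr i) x) = (-2 : ℝ) • x := by
  rw [Fin.sum_univ_three]
  simp only [rotL_apply]
  apply space_ext <;> simp [vfield_inr_zero, vfield_inr_one, vfield_inr_two] <;> ring

/-- **T5**: polar decomposition `Δ = ∂_r² + (2/r)∂_r + r⁻² ∑ᵢ Ωᵢ²`. -/
theorem laplacian_polar {R : ℝ} (hR : 0 ≤ R) {H : Space → V} (hH : ContDiffOn ℝ ∞ H (Ext R)) :
    ∀ x ∈ Ext R, Δ H x = dr (dr H) x + (2 / ‖x‖) • dr H x
      + (‖x‖ ^ 2)⁻¹ • ∑ i : Fin 3, dfield (Sum.inr i) (dfield (Sum.inr i) H) x := by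
  intro x hx
  have hx0 := ne_zero_of_mem_Ext hR hx
  have hn : ‖x‖ ≠ 0 := norm_ne_zero_iff.2 hx0
  have h2 := contDiffAt_two_of_mem_Ext hH hx
  have e1 : ∑ i : Fin 3, dfield (Sum.inr i) (dfield (Sum.inr i) H) x
      = ∑ i : Fin 3, fderiv ℝ (fderiv ℝ H) x (vfield (Sum.inr i) x) (vfield (Sum.inr i) x)
        + fderiv ℝ H x ((-2 : ℝ) • x) := by
    rw [← sum_rotL_rotL, map_sum, ← Finset.sum_add_distrib]
    refine Finset.sum_congr rfl fun i _ => ?_
    rw [dfield_dfield_eq h2, fderiv_vfield]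
  have e2 := bilin_trace_decomp (fderiv ℝ (fderiv ℝ H) x) x
  rw [← laplacian_eq_sum_snd] at e2
  have e3 : Δ H x = (‖x‖ ^ 2)⁻¹ • (‖x‖ ^ 2 • Δ H x) := by
    rw [smul_smul, inv_mul_cancel₀ (pow_ne_zero 2 hn), one_smul]
  rw [e3, e2, e1, dr_dr_eq hx0 h2, dr]
  simp only [urad, map_smul, _root_.smul_apply, smul_add, smul_smul]
  have c1 : ‖x‖⁻¹ * ‖x‖⁻¹ = (‖x‖ ^ 2)⁻¹ := by field_simp
  have c2 : 2 / ‖x‖ * ‖x‖⁻¹ = -((‖x‖ ^ 2)⁻¹ * -2) := by field_simp
  rw [c1, c2]
  module

/-- along a ray: `g(r) = H(r u)` has derivative `∂_r H`, for a unit vector `u`. -/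
theorem hasDerivAt_ray {H : Space → V} {u : Space} (hu : ‖u‖ = 1) {r : ℝ} (hr : 0 < r)
    (hH : DifferentiableAt ℝ H (r • u)) : HasDerivAt (fun s : ℝ => H (s • u)) (dr H (r • u)) r := by
  have h1 : HasDerivAt (fun s : ℝ => s • u) u r := by
    simpa using (hasDerivAt_id r).smul_const u
  have h2 := hH.hasFDerivAt.comp_hasDerivAt r h1
  have e : ‖r • u‖⁻¹ • (r • u) = u := by
    rw [norm_smul, hu, mul_one, Real.norm_of_nonneg hr.le, smul_smul, inv_mul_cancel₀ hr.ne',
      one_smul]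
  rw [dr, e]
  exact h2

/-! ### radial functions times functions of the height -/

theorem dfield_comp_real {ρ : ℝ → ℝ} {g : Space → ℝ} {x : Space} (hρ : DifferentiableAt ℝ ρ (g x))
    (hg : DifferentiableAt ℝ g x) (a : Fin 3 ⊕ Fin 3) :
    dfield a (fun y => ρ (g y)) x = deriv ρ (g x) * dfield a g x := by
  have h := hρ.hasDerivAt.comp_hasFDerivAt x hg.hasFDerivAt
  have e : (fun y => ρ (g y)) = ρ ∘ g := rfl
  simp only [dfield]
  rw [e, h.fderiv]; simp

theorem dfield_trans_norm {x : Space} (hx : x ≠ 0) (j : Fin 3) :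
    dfield (Sum.inl j) (fun y : Space => ‖y‖) x = x j / ‖x‖ := by
  simp only [dfield, vfield_inl]
  rw [fderiv_norm_space hx, EuclideanSpace.inner_single_right]
  simp [div_eq_inv_mul]

theorem differentiableAt_norm_space {x : Space} (hx : x ≠ 0) :
    DifferentiableAt ℝ (fun y : Space => ‖y‖) x := (hasFDerivAt_norm_space hx).differentiableAt

theorem dfield_trans_radial {ρ : ℝ → ℝ} {x : Space} (hx : x ≠ 0) (hρ : DifferentiableAt ℝ ρ ‖x‖)
    (j : Fin 3) : dfield (Sum.inl j) (fun y : Space => ρ ‖y‖) x = deriv ρ ‖x‖ * (x j / ‖x‖) := by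
  rw [dfield_comp_real (g := fun y : Space => ‖y‖) hρ (differentiableAt_norm_space hx),
    dfield_trans_norm hx]

theorem differentiableAt_deriv_of_contDiffAt {ρ : ℝ → ℝ} {r : ℝ} (h : ContDiffAt ℝ 2 ρ r) :
    DifferentiableAt ℝ (deriv ρ) r := by
  have h1 : ContDiffAt ℝ 1 (fderiv ℝ ρ) r := h.fderiv_right (m := 1) (by norm_num)
  have h2 : DifferentiableAt ℝ (fun s => fderiv ℝ ρ s 1) r :=
    (h1.differentiableAt (by simp)).clm_apply (differentiableAt_const _)
  exact h2

/-- `Δ (ψ(|x|)) = ψ'' + 2ψ'/r`. -/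
theorem laplacian_radial {ψ : ℝ → ℝ} {x : Space} (hx : x ≠ 0) (hψ : ContDiffAt ℝ 2 ψ ‖x‖) :
    Δ (fun y : Space => ψ ‖y‖) x = iteratedDeriv 2 ψ ‖x‖ + 2 / ‖x‖ * deriv ψ ‖x‖ := by
  have hn : ‖x‖ ≠ 0 := norm_ne_zero_iff.2 hx
  have hc : ContDiffAt ℝ 2 (fun y : Space => ψ ‖y‖) x := hψ.comp x (contDiffAt_norm ℝ hx)
  rw [laplacian_eq_sum_dfield hc]
  have key : ∀ j : Fin 3, dfield (Sum.inl j) (dfield (Sum.inl j) fun y : Space => ψ ‖y‖) x
      = iteratedDeriv 2 ψ ‖x‖ * (x j / ‖x‖) ^ 2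
        + deriv ψ ‖x‖ * (1 / ‖x‖ - x j ^ 2 / ‖x‖ ^ 3) := by
    intro j
    have hev : (dfield (Sum.inl j) fun y : Space => ψ ‖y‖) =ᶠ[𝓝 x]
        fun y => deriv ψ ‖y‖ • (y j • ‖y‖⁻¹) := by
      have h1 : ∀ᶠ y : Space in 𝓝 x, ContDiffAt ℝ 2 ψ ‖y‖ :=
        continuous_norm.continuousAt.eventually (hψ.eventually (by simp))
      have h2 : ∀ᶠ y : Space in 𝓝 x, y ≠ 0 := isOpen_ne.mem_nhds hx
      filter_upwards [h1, h2] with y hy1 hy2
      rw [dfield_trans_radial hy2 (hy1.differentiableAt (by simp))]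
      simp [div_eq_mul_inv]
    have d1 : DifferentiableAt ℝ (fun y : Space => deriv ψ ‖y‖) x :=
      (differentiableAt_deriv_of_contDiffAt hψ).comp x (differentiableAt_norm_space hx)
    have d2 : DifferentiableAt ℝ (fun y : Space => y j) x :=
      (contDiff_coord j).differentiable (by simp) x
    have d3 : DifferentiableAt ℝ (fun y : Space => ‖y‖⁻¹) x :=
      (differentiableAt_norm_space hx).inv hn
    have d4 : DifferentiableAt ℝ (fun y : Space => y j • ‖y‖⁻¹) x := d2.smul d3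
    rw [dfield_congr_nhds hev, dfield_smul d1 d4, dfield_smul d2 d3, dfield_coord,
      dfield_trans_radial hx (differentiableAt_deriv_of_contDiffAt hψ),
      dfield_trans_radial (ρ := fun s => s⁻¹) hx (differentiableAt_inv hn)]
    have e1 : deriv (deriv ψ) ‖x‖ = iteratedDeriv 2 ψ ‖x‖ := by
      rw [iteratedDeriv_succ, iteratedDeriv_one]
    rw [e1, deriv_inv]
    simp only [vfield_inl, smul_eq_mul, PiLp.single_apply, if_true]
    field_simp
    ring
  simp only [key]
  rw [Fin.sum_univ_three]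
  have h2 := norm_sq_space x
  have h3 : (x 0 / ‖x‖) ^ 2 + (x 1 / ‖x‖) ^ 2 + (x 2 / ‖x‖) ^ 2 = 1 := by
    field_simp; linarith
  have h4 : (1 / ‖x‖ - x 0 ^ 2 / ‖x‖ ^ 3) + (1 / ‖x‖ - x 1 ^ 2 / ‖x‖ ^ 3)
      + (1 / ‖x‖ - x 2 ^ 2 / ‖x‖ ^ 3) = 2 / ‖x‖ := by
    have : x 0 ^ 2 / ‖x‖ ^ 3 + x 1 ^ 2 / ‖x‖ ^ 3 + x 2 ^ 2 / ‖x‖ ^ 3 = 1 / ‖x‖ := by
      rw [← add_div, ← add_div, ← h2]; field_simp
    have e : (2 : ℝ) / ‖x‖ = 2 * (1 / ‖x‖) := by ring
    rw [e]
    linarith
  calc _ = iteratedDeriv 2 ψ ‖x‖ * ((x 0 / ‖x‖) ^ 2 + (x 1 / ‖x‖) ^ 2 + (x 2 / ‖x‖) ^ 2)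
        + deriv ψ ‖x‖ * ((1 / ‖x‖ - x 0 ^ 2 / ‖x‖ ^ 3) + (1 / ‖x‖ - x 1 ^ 2 / ‖x‖ ^ 3)
          + (1 / ‖x‖ - x 2 ^ 2 / ‖x‖ ^ 3)) := by ring
    _ = _ := by rw [h3, h4]; ring

theorem dfield_trans_height {P : ℝ → ℝ} {x : Space} (hP : DifferentiableAt ℝ P (x 2)) (j : Fin 3) :
    dfield (Sum.inl j) (fun y : Space => P (y 2)) x
      = deriv P (x 2) * (EuclideanSpace.single j (1 : ℝ) : Space) 2 := by
  rw [dfield_comp_real (g := fun y : Space => y 2) hP
    ((contDiff_coord 2).differentiable (by simp) x), dfield_coord]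
  rfl

/-- `Δ (P(z)) = P''`. -/
theorem laplacian_height {P : ℝ → ℝ} {x : Space} (hP : ContDiffAt ℝ 2 P (x 2)) :
    Δ (fun y : Space => P (y 2)) x = iteratedDeriv 2 P (x 2) := by
  have hc2 : ContDiffAt ℝ 2 (fun y : Space => y 2) x :=
    ((contDiff_coord 2).of_le (WithTop.coe_le_coe.2 le_top)).contDiffAt
  have hc : ContDiffAt ℝ 2 (fun y : Space => P (y 2)) x := hP.comp x hc2
  rw [laplacian_eq_sum_dfield hc]
  have key : ∀ j : Fin 3, dfield (Sum.inl j) (dfield (Sum.inl j) fun y : Space => P (y 2)) x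
      = iteratedDeriv 2 P (x 2) * ((EuclideanSpace.single j (1 : ℝ) : Space) 2) ^ 2 := by
    intro j
    have hev : (dfield (Sum.inl j) fun y : Space => P (y 2)) =ᶠ[𝓝 x]
        fun y => (EuclideanSpace.single j (1 : ℝ) : Space) 2 • deriv P (y 2) := by
      have h1 : ∀ᶠ y : Space in 𝓝 x, ContDiffAt ℝ 2 P (y 2) :=
        (contDiff_coord 2).continuous.continuousAt.eventually (hP.eventually (by simp))
      filter_upwards [h1] with y hy1
      rw [dfield_trans_height (hy1.differentiableAt (by simp)), smul_eq_mul, mul_comm]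
    have d1 : DifferentiableAt ℝ (fun y : Space => deriv P (y 2)) x :=
      DifferentiableAt.comp (g := deriv P) (f := fun y : Space => y 2) x
        (differentiableAt_deriv_of_contDiffAt hP) ((contDiff_coord 2).differentiable (by simp) x)
    rw [dfield_congr_nhds hev, dfield_smul (differentiableAt_const _) d1,
      dfield_trans_height (P := deriv P) (differentiableAt_deriv_of_contDiffAt hP)]
    have e1 : deriv (deriv P) (x 2) = iteratedDeriv 2 P (x 2) := by
      rw [iteratedDeriv_succ, iteratedDeriv_one]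
    have e2 : dfield (Sum.inl j) (fun _ : Space => (EuclideanSpace.single j (1 : ℝ) : Space) 2) x
        = 0 := by simp [dfield]
    rw [e1, e2]
    simp only [smul_eq_mul]
    ring
  simp only [key]
  rw [Fin.sum_univ_three]
  simp

/-- **T10**: `Δ (ψ(|x|) P(z)) = P (ψ'' + 2ψ'/r) + 2 ψ' (z/r) P' + ψ P''`. -/
theorem laplacian_radial_mul_height {ψ P : ℝ → ℝ} {x : Space} (hx : x ≠ 0)
    (hψ : ContDiffAt ℝ 2 ψ ‖x‖) (hP : ContDiffAt ℝ 2 P (x 2)) :
    Δ (fun y : Space => ψ ‖y‖ * P (y 2)) x =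
      P (x 2) * (iteratedDeriv 2 ψ ‖x‖ + 2 / ‖x‖ * deriv ψ ‖x‖)
        + 2 * deriv ψ ‖x‖ * (x 2 / ‖x‖) * deriv P (x 2) + ψ ‖x‖ * iteratedDeriv 2 P (x 2) := by
  have hc2 : ContDiffAt ℝ 2 (fun y : Space => y 2) x :=
    ((contDiff_coord 2).of_le (WithTop.coe_le_coe.2 le_top)).contDiffAt
  have h1 : ContDiffAt ℝ 2 (fun y : Space => ψ ‖y‖) x := hψ.comp x (contDiffAt_norm ℝ hx)
  have h2 : ContDiffAt ℝ 2 (fun y : Space => P (y 2)) x := hP.comp x hc2
  have := laplacian_smul_fun h1 h2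
  simp only [smul_eq_mul] at this
  rw [this, laplacian_radial hx hψ, laplacian_height hP, Fin.sum_univ_three]
  simp only [dfield_trans_radial hx (hψ.differentiableAt (by simp)),
    dfield_trans_height (hP.differentiableAt (by simp))]
  simp
  ring

/-! ### the profile `A` -/

theorem radialA_pos (k a : ℝ) {r : ℝ} (hr : 0 < r) : 0 < radialA k a r :=
  mul_pos (Real.exp_pos _) (Real.rpow_pos_of_pos hr _)

theorem hasDerivAt_radialA (k a : ℝ) {r : ℝ} (hr : 0 < r) :
    HasDerivAt (radialA k a) ((-k + a / r) * radialA k a r) r := by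
  have h1 : HasDerivAt (fun s : ℝ => Real.exp (-(k * s))) (Real.exp (-(k * r)) * (-(k * 1))) r :=
    (((hasDerivAt_id r).const_mul k).neg).exp
  have h2 : HasDerivAt (fun s : ℝ => s ^ a) (a * r ^ (a - 1)) r :=
    Real.hasDerivAt_rpow_const (Or.inl hr.ne')
  have h3 := h1.mul h2
  refine h3.congr_deriv ?_
  rw [Real.rpow_sub_one hr.ne', radialA]
  field_simp

/-- derivatives of `ψ(r) = e^{-kr} r^a`. -/
theorem deriv_radialA (k a : ℝ) {r : ℝ} (hr : 0 < r) :
    deriv (radialA k a) r = (-k + a / r) * radialA k a r := (hasDerivAt_radialA k a hr).deriv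

theorem iteratedDeriv_two_radialA (k a : ℝ) {r : ℝ} (hr : 0 < r) :
    iteratedDeriv 2 (radialA k a) r = ((-k + a / r) ^ 2 - a / r ^ 2) * radialA k a r := by
  rw [iteratedDeriv_succ, iteratedDeriv_one]
  have hev : deriv (radialA k a) =ᶠ[𝓝 r] fun s => (-k + a / s) * radialA k a s := by
    filter_upwards [Ioi_mem_nhds hr] with s hs
    exact deriv_radialA k a hs
  rw [hev.deriv_eq]
  have h1 : HasDerivAt (fun s : ℝ => -k + a / s) (-a / r ^ 2) r := by
    have := ((hasDerivAt_inv hr.ne').const_mul a).const_add (-k)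
    refine (this.congr_deriv ?_)
    field_simp
  have h2 : HasDerivAt (fun s => (-k + a / s) * radialA k a s) _ r :=
    h1.mul (hasDerivAt_radialA k a hr)
  rw [h2.deriv]
  ring

theorem contDiffOn_radialA (k a : ℝ) : ContDiffOn ℝ ∞ (radialA k a) (Set.Ioi 0) := by
  intro r hr
  have hr' : (0 : ℝ) < r := hr
  have h1 : ContDiffAt ℝ ∞ (fun s : ℝ => Real.exp (-(k * s))) r :=
    ((contDiffAt_const.mul contDiffAt_id).neg).exp
  have h2 : ContDiffAt ℝ ∞ (fun s : ℝ => s ^ a) r := Real.contDiffAt_rpow_const_of_ne hr'.ne'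
  exact (h1.mul h2).contDiffWithinAt

end B

end Claimed.Open.R278
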