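import Claimed.Open.R278.CHTB

/-!
# Result 278, package CHT (paper-free analysis tools for the channel layer), file CHTC

The classical maximum principle for vector valued functions on an exterior domain.
-/

open MeasureTheory Filter
open scoped ContDiff InnerProductSpace ComplexConjugate ENNReal Topology Laplacian

noncomputable section

namespace Claimed.Open.R278

/-! ## C. The comparison principle (leaf CHT-C) -/

section C
variable {𝒦 : Type*} [NormedAddCommGroup 𝒦] [InnerProductSpace ℂ 𝒦]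

/-- one-dimensional second derivative test (necessary condition). -/
theorem deriv_deriv_nonpos_of_isLocalMax {g : ℝ → ℝ} {s₀ : ℝ} (hc : ContinuousAt g s₀)
    (hmax : IsLocalMax g s₀) : deriv (deriv g) s₀ ≤ 0 := by
  by_contra hpos
  push Not at hpos
  have hmin : IsLocalMin g s₀ := isLocalMin_of_deriv_deriv_pos hpos hmax.deriv_eq_zero hc
  have hconst : g =ᶠ[𝓝 s₀] fun _ => g s₀ := by
    filter_upwards [hmax, hmin] with s h1 h2
    exact le_antisymm h1 h2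
  have h1 : deriv g =ᶠ[𝓝 s₀] fun _ => 0 := by
    have := hconst.eventuallyEq_nhds
    filter_upwards [this] with s hs
    rw [hs.deriv_eq]; simp
  rw [h1.deriv_eq] at hpos
  simp at hpos

/-- **T1**: second derivative test. -/
theorem laplacian_nonpos_of_isLocalMax {ψ : Space → ℝ} {x₀ : Space} (hψ : ContDiffAt ℝ 2 ψ x₀)
    (hmax : IsLocalMax ψ x₀) : Δ ψ x₀ ≤ 0 := by
  rw [laplacian_eq_sum_snd]
  refine Finset.sum_nonpos fun j _ => ?_
  set e : Space := EuclideanSpace.single j 1 with he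
  set γ : ℝ → Space := fun s => x₀ + s • e with hγ
  have hγ0 : γ 0 = x₀ := by simp [hγ]
  have hγc : Continuous γ := by fun_prop
  have hγd : ∀ s, HasDerivAt γ e s := fun s => by
    have h := ((hasDerivAt_id s).smul_const e).const_add x₀
    rw [one_smul] at h
    exact h
  have hloc : IsLocalMax (fun s => ψ (γ s)) 0 := by
    have : Tendsto γ (𝓝 0) (𝓝 x₀) := by
      have := hγc.tendsto 0
      rwa [hγ0] at this
    have h2 := this.eventually hmax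
    filter_upwards [h2] with s hs
    simpa [hγ0] using hs
  have hcont : ContinuousAt (fun s => ψ (γ s)) 0 := by
    have h1 : ContinuousAt ψ (γ 0) := by rw [hγ0]; exact hψ.continuousAt
    exact h1.comp hγc.continuousAt
  have h1 : deriv (fun s => ψ (γ s)) =ᶠ[𝓝 0] fun s => fderiv ℝ ψ (γ s) e := by
    have hev : ∀ᶠ y in 𝓝 x₀, ContDiffAt ℝ 2 ψ y := hψ.eventually (by simp)
    have : Tendsto γ (𝓝 0) (𝓝 x₀) := by
      have := hγc.tendsto 0
      rwa [hγ0] at this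
    filter_upwards [this.eventually hev] with s hs
    exact ((hs.differentiableAt (by simp)).hasFDerivAt.comp_hasDerivAt s (hγd s)).deriv
  have h2 : HasDerivAt (fun s => fderiv ℝ ψ (γ s) e) (fderiv ℝ (fderiv ℝ ψ) x₀ e e) 0 := by
    have hd : DifferentiableAt ℝ (fderiv ℝ ψ) (γ 0) := by
      rw [hγ0]; exact differentiableAt_fderiv hψ
    have h3 := hd.hasFDerivAt.comp_hasDerivAt 0 (hγd 0)
    rw [hγ0] at h3
    exact h3.clm_apply (hasDerivAt_const 0 e) |>.congr_deriv (by simp)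
  have h3 := deriv_deriv_nonpos_of_isLocalMax hcont hloc
  rwa [h1.deriv_eq, h2.deriv] at h3

/-- derivative of `Re⟪F, G⟫`. -/
theorem dfield_re_inner {F G : Space → 𝒦} {x : Space} (hF : DifferentiableAt ℝ F x)
    (hG : DifferentiableAt ℝ G x) (a : Fin 3 ⊕ Fin 3) :
    dfield a (fun y => (⟪F y, G y⟫_ℂ).re) x
      = (⟪F x, dfield a G x⟫_ℂ).re + (⟪dfield a F x, G x⟫_ℂ).re := by
  have h1 := hF.hasFDerivAt.inner ℂ hG.hasFDerivAt
  have h2 := Complex.reCLM.hasFDerivAt.comp x h1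
  have e : (fun y => (⟪F y, G y⟫_ℂ).re) = Complex.reCLM ∘ fun y => ⟪F y, G y⟫_ℂ := rfl
  simp only [dfield]
  rw [e, h2.fderiv]
  simp [fderivInnerCLM_apply]

theorem norm_sq_eq_re_inner (v : 𝒦) : ‖v‖ ^ 2 = (⟪v, v⟫_ℂ).re :=
  (inner_self_eq_norm_sq (𝕜 := ℂ) v).symm

theorem re_inner_comm (v w : 𝒦) : (⟪v, w⟫_ℂ).re = (⟪w, v⟫_ℂ).re := by
  rw [← inner_conj_symm, Complex.conj_re]

/-- `∂ⱼ ‖H‖² = 2 Re⟪H, ∂ⱼH⟫` for all six fields. -/
theorem dfield_norm_sq {H : Space → 𝒦} {x : Space} (hH : DifferentiableAt ℝ H x)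
    (a : Fin 3 ⊕ Fin 3) : dfield a (fun y => ‖H y‖ ^ 2) x = 2 * (⟪H x, dfield a H x⟫_ℂ).re := by
  have e : (fun y => ‖H y‖ ^ 2) = fun y => (⟪H y, H y⟫_ℂ).re := funext fun y => norm_sq_eq_re_inner _
  rw [e, dfield_re_inner hH hH, re_inner_comm (dfield a H x)]
  ring

theorem contDiffAt_norm_sq {H : Space → 𝒦} {x : Space} (hH : ContDiffAt ℝ 2 H x) :
    ContDiffAt ℝ 2 (fun y => ‖H y‖ ^ 2) x := by
  have e : (fun y => ‖H y‖ ^ 2) = fun y => Complex.reCLM ⟪H y, H y⟫_ℂ :=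
    funext fun y => norm_sq_eq_re_inner _
  rw [e]
  exact Complex.reCLM.contDiff.contDiffAt.comp x (hH.inner ℂ hH)

/-- **T2**: `Δ ‖H‖² = 2 ∑ⱼ ‖∂ⱼH‖² + 2 Re⟪H, ΔH⟫`. -/
theorem laplacian_norm_sq {H : Space → 𝒦} {x : Space} (hH : ContDiffAt ℝ 2 H x) :
    Δ (fun y => ‖H y‖ ^ 2) x = 2 * ∑ j : Fin 3, ‖dfield (Sum.inl j) H x‖ ^ 2
      + 2 * (⟪H x, Δ H x⟫_ℂ).re := by
  rw [laplacian_eq_sum_dfield (contDiffAt_norm_sq hH), laplacian_eq_sum_dfield hH, inner_sum,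
    Complex.re_sum, Finset.mul_sum, Finset.mul_sum, ← Finset.sum_add_distrib]
  refine Finset.sum_congr rfl fun j _ => ?_
  have hev : (dfield (Sum.inl j) fun y => ‖H y‖ ^ 2) =ᶠ[𝓝 x]
      fun y => (2 : ℝ) • (⟪H y, dfield (Sum.inl j) H y⟫_ℂ).re := by
    filter_upwards [hH.eventually (by simp)] with y hy
    rw [dfield_norm_sq (hy.differentiableAt (by simp)), smul_eq_mul]
  have d1 : DifferentiableAt ℝ H x := hH.differentiableAt (by simp)
  have d2 : DifferentiableAt ℝ (dfield (Sum.inl j) H) x :=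
    (differentiableAt_fderiv hH).clm_apply (differentiableAt_const _)
  have d3 : DifferentiableAt ℝ (fun y => (⟪H y, dfield (Sum.inl j) H y⟫_ℂ).re) x :=
    Complex.reCLM.differentiableAt.comp x (d1.inner ℂ d2)
  rw [dfield_congr_nhds hev, dfield_smul (differentiableAt_const _) d3, dfield_re_inner d1 d2,
    ← norm_sq_eq_re_inner]
  have e2 : dfield (Sum.inl j) (fun _ : Space => (2 : ℝ)) x = 0 := by simp [dfield]
  rw [e2]
  simp only [smul_eq_mul]
  ring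

/-- **T3, the comparison principle** (classical maximum principle for vector valued functions on an
exterior domain).  Proof: if `m = sup (‖H‖ - Φ) > 0`, it is attained at an interior point `x₀`
(decay, boundary condition); `ψ = ‖H‖² - (Φ+m)²` has a local maximum `0` at `x₀`; `∇ψ = 0` gives
`(∂ⱼΦ)² ≤ ‖∂ⱼH‖²`, `Δψ ≤ 0` gives `Re⟪H,ΔH⟫ ≤ (Φ+m) ΔΦ`; with `N = ‖H x₀‖ = Φ + m`:
`q N - s ≤ ½ ΔΦ ≤ q Φ - s`, so `q m ≤ 0`. -/
theorem comparison_principle {H : Space → 𝒦} {Φ q s : Space → ℝ} {R₀ : ℝ}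
    (hH : ContDiffOn ℝ 2 H (Ext R₀)) (hHc : ContinuousOn H {x | R₀ ≤ ‖x‖})
    (hdecay : Tendsto (fun x => ‖H x‖) (cocompact Space) (𝓝 0))
    (hΦ : ContDiffOn ℝ 2 Φ (Ext R₀)) (hΦc : ContinuousOn Φ {x | R₀ ≤ ‖x‖})
    (hΦpos : ∀ x, R₀ ≤ ‖x‖ → 0 < Φ x) (hq : ∀ x ∈ Ext R₀, 0 < q x)
    (hsub : ∀ x ∈ Ext R₀, q x * ‖H x‖ ^ 2 - s x * ‖H x‖ ≤ (1 / 2) * (⟪H x, Δ H x⟫_ℂ).re)
    (hsup : ∀ x ∈ Ext R₀, s x ≤ -(1 / 2) * Δ Φ x + q x * Φ x)
    (hbd : ∀ x, ‖x‖ = R₀ → ‖H x‖ ≤ Φ x) :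
    ∀ x, R₀ ≤ ‖x‖ → ‖H x‖ ≤ Φ x := by
  intro x₁ hx₁
  by_contra hcon
  push Not at hcon
  set δ := ‖H x₁‖ - Φ x₁ with hδ
  have hδpos : 0 < δ := sub_pos.2 hcon
  -- a large ball outside of which `‖H‖ < δ`
  obtain ⟨t, ht, hts⟩ := mem_cocompact.1 (hdecay.eventually (gt_mem_nhds hδpos))
  obtain ⟨ρ, hρ⟩ := ht.isBounded.subset_closedBall (0 : Space)
  have hfar : ∀ x : Space, ρ < ‖x‖ → ‖H x‖ < δ := by
    intro x hx
    apply hts
    intro hxt
    have := hρ hxt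
    rw [mem_closedBall_zero_iff] at this
    exact absurd hx (not_lt.2 this)
  -- the maximum of `g = ‖H‖ - Φ`
  set K : Set Space := {x | R₀ ≤ ‖x‖} ∩ Metric.closedBall 0 ρ with hK
  have hKc : IsCompact K :=
    (isCompact_closedBall (0 : Space) ρ).inter_left (isClosed_le continuous_const continuous_norm)
  have hx₁K : x₁ ∈ K := by
    refine ⟨hx₁, ?_⟩
    rw [mem_closedBall_zero_iff]
    by_contra h
    push Not at h
    have := hfar x₁ h
    have := hΦpos x₁ hx₁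
    linarith
  have hgc : ContinuousOn (fun x => ‖H x‖ - Φ x) K :=
    ((hHc.norm).sub hΦc).mono Set.inter_subset_left
  obtain ⟨x₀, hx₀K, hx₀max⟩ := hKc.exists_isMaxOn ⟨x₁, hx₁K⟩ hgc
  set m := ‖H x₀‖ - Φ x₀ with hm
  have hmδ : δ ≤ m := hx₀max hx₁K
  have hmpos : 0 < m := lt_of_lt_of_le hδpos hmδ
  have hglob : ∀ x, R₀ ≤ ‖x‖ → ‖H x‖ ≤ Φ x + m := by
    intro x hx
    by_cases hxρ : ‖x‖ ≤ ρ
    · have : ‖H x‖ - Φ x ≤ m := hx₀max ⟨hx, mem_closedBall_zero_iff.2 hxρ⟩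
      linarith
    · push Not at hxρ
      have := hfar x hxρ
      have := hΦpos x hx
      linarith
  have hx₀E : x₀ ∈ Ext R₀ := by
    have hx₀R : R₀ ≤ ‖x₀‖ := hx₀K.1
    rcases lt_or_eq_of_le hx₀R with h | h
    · exact h
    · have := hbd x₀ h.symm
      linarith
  -- the auxiliary function
  have cH : ContDiffAt ℝ 2 H x₀ := hH.contDiffAt (Ext_mem_nhds hx₀E)
  have cΦ : ContDiffAt ℝ 2 Φ x₀ := hΦ.contDiffAt (Ext_mem_nhds hx₀E)
  have cΦm : ContDiffAt ℝ 2 (fun y => Φ y + m) x₀ := cΦ.add contDiffAt_const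
  have cP : ContDiffAt ℝ 2 (fun y => (Φ y + m) • (Φ y + m)) x₀ := cΦm.smul cΦm
  have cN : ContDiffAt ℝ 2 (fun y => ‖H y‖ ^ 2) x₀ := contDiffAt_norm_sq cH
  set ψ : Space → ℝ := fun y => ‖H y‖ ^ 2 - (Φ y + m) • (Φ y + m) with hψ
  have cψ : ContDiffAt ℝ 2 ψ x₀ := cN.sub cP
  set N := ‖H x₀‖ with hN
  have hNeq : Φ x₀ + m = N := by rw [hm]; ring
  have hNpos : 0 < N := by
    have := hΦpos x₀ hx₀K.1
    linarith
  have hψ0 : ψ x₀ = 0 := by
    simp only [hψ, hNeq, smul_eq_mul]; ring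
  have hmax : IsLocalMax ψ x₀ := by
    filter_upwards [Ext_mem_nhds hx₀E] with y hy
    rw [hψ0]
    have h1 := hglob y (le_of_lt hy)
    have h2 := norm_nonneg (H y)
    simp only [hψ, smul_eq_mul]
    nlinarith
  have dH : DifferentiableAt ℝ H x₀ := cH.differentiableAt (by simp)
  have dΦm : DifferentiableAt ℝ (fun y => Φ y + m) x₀ := cΦm.differentiableAt (by simp)
  have dΦ : DifferentiableAt ℝ Φ x₀ := cΦ.differentiableAt (by simp)
  have eΦm : ∀ a, dfield a (fun y => Φ y + m) x₀ = dfield a Φ x₀ := by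
    intro a
    rw [dfield_add dΦ (differentiableAt_const _)]
    simp [dfield]
  -- first order condition
  have hfirst : ∀ j : Fin 3, (dfield (Sum.inl j) Φ x₀) ^ 2 ≤ ‖dfield (Sum.inl j) H x₀‖ ^ 2 := by
    intro j
    have h0 : dfield (Sum.inl j) ψ x₀ = 0 := by
      simp only [dfield, hmax.fderiv_eq_zero]; simp
    have h1 : dfield (Sum.inl j) ψ x₀ = 2 * (⟪H x₀, dfield (Sum.inl j) H x₀⟫_ℂ).re
        - 2 * (N * dfield (Sum.inl j) Φ x₀) := by
      rw [hψ, dfield_sub (cN.differentiableAt (by simp)) (cP.differentiableAt (by simp)),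
        dfield_norm_sq dH, dfield_smul dΦm dΦm, eΦm, hNeq]
      simp only [smul_eq_mul]; ring
    have h2 : N * dfield (Sum.inl j) Φ x₀ = (⟪H x₀, dfield (Sum.inl j) H x₀⟫_ℂ).re := by
      linarith
    have h3 : |(⟪H x₀, dfield (Sum.inl j) H x₀⟫_ℂ).re| ≤ N * ‖dfield (Sum.inl j) H x₀‖ :=
      (Complex.abs_re_le_norm _).trans (norm_inner_le_norm _ _)
    rw [← h2, abs_mul, abs_of_pos hNpos] at h3
    have h4 : |dfield (Sum.inl j) Φ x₀| ≤ ‖dfield (Sum.inl j) H x₀‖ :=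
      le_of_mul_le_mul_left h3 hNpos
    rw [← sq_abs]
    exact pow_le_pow_left₀ (abs_nonneg _) h4 2
  -- second order condition
  have hsecond : (⟪H x₀, Δ H x₀⟫_ℂ).re ≤ N * Δ Φ x₀ := by
    have h0 := laplacian_nonpos_of_isLocalMax cψ hmax
    have eΔ : Δ (fun y => Φ y + m) x₀ = Δ Φ x₀ := by
      rw [laplacian_fun_add cΦ contDiffAt_const]; simp
    rw [hψ, laplacian_fun_sub cN cP, laplacian_norm_sq cH, laplacian_smul_fun cΦm cΦm, eΔ,
      hNeq] at h0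
    simp only [eΦm, smul_eq_mul] at h0
    have h5 : ∑ j : Fin 3, dfield (Sum.inl j) Φ x₀ * dfield (Sum.inl j) Φ x₀
        ≤ ∑ j : Fin 3, ‖dfield (Sum.inl j) H x₀‖ ^ 2 :=
      Finset.sum_le_sum fun j _ => by
        have := hfirst j
        nlinarith
    nlinarith
  have h1 := hsub x₀ hx₀E
  have h2 := hsup x₀ hx₀E
  have h3 := hq x₀ hx₀E
  rw [← hN] at h1
  have h4 : q x₀ * N - s x₀ ≤ (1 / 2) * Δ Φ x₀ := by
    have : N * (q x₀ * N - s x₀) ≤ N * ((1 / 2) * Δ Φ x₀) := by nlinarith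
    exact le_of_mul_le_mul_left this hNpos
  have h5 : q x₀ * m ≤ 0 := by
    have : q x₀ * (Φ x₀ + m) - s x₀ ≤ (1 / 2) * Δ Φ x₀ := by rw [hNeq]; exact h4
    nlinarith
  have := mul_pos h3 hmpos
  linarith

end C

end Claimed.Open.R278
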