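import Claimed.Open.R278.CHTA2

/-!
# Result 278, package CHT, file CHTD0: splits of a word and the Leibniz formula

helper162.  PAPER-FREE.  No `sorry` in this file.

* `wsplits w` : the `2^|w|` ways of distributing the letters of the word `w` over two factors;
  `wsplits' w` : those with a nonempty first component, `wsplits w = wsplits' w ++ [([], w)]`.
* `dword_bilin` : the Leibniz formula `𝔇_w B(a,b) = ∑_{(u,v) ∈ wsplits w} B(𝔇_u a, 𝔇_v b)` for a continuous
  real bilinear map `B`; instances `dword_smul_sum`, `dword_applyC_sum`.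
* `norm_list_sum_le` : a list sum of `N` terms of norm `≤ M` has norm `≤ N M`.
-/

open MeasureTheory Filter
open scoped ContDiff InnerProductSpace ComplexConjugate ENNReal Topology Laplacian

noncomputable section

namespace Claimed.Open.R278

/-! ## splits of a word -/

/-- all ways of distributing the letters of a word over two factors (orders are kept). -/
def wsplits : List (Fin 3 ⊕ Fin 3) → List (List (Fin 3 ⊕ Fin 3) × List (Fin 3 ⊕ Fin 3))
  | [] => [([], [])]
  | a :: w => (wsplits w).map (fun p => (a :: p.1, p.2)) ++ (wsplits w).map (fun p => (p.1, a :: p.2))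

/-- the splits whose first component is not empty. -/
def wsplits' : List (Fin 3 ⊕ Fin 3) → List (List (Fin 3 ⊕ Fin 3) × List (Fin 3 ⊕ Fin 3))
  | [] => []
  | a :: w => (wsplits w).map (fun p => (a :: p.1, p.2)) ++ (wsplits' w).map (fun p => (p.1, a :: p.2))

theorem wsplits_eq (w : List (Fin 3 ⊕ Fin 3)) : wsplits w = wsplits' w ++ [([], w)] := by
  induction w with
  | nil => rfl
  | cons a w ih =>
    have e : (wsplits w).map (fun p => (p.1, a :: p.2)) =
        (wsplits' w).map (fun p => (p.1, a :: p.2)) ++ [([], a :: w)] := by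
      conv_lhs => rw [ih]
      rw [List.map_append]; rfl
    rw [wsplits, wsplits', e, List.append_assoc]

theorem length_wsplits (w : List (Fin 3 ⊕ Fin 3)) : (wsplits w).length = 2 ^ w.length := by
  induction w with
  | nil => rfl
  | cons a w ih =>
    rw [wsplits, List.length_append, List.length_map, List.length_map, ih, List.length_cons, pow_succ]
    ring

theorem length_wsplits'_le (w : List (Fin 3 ⊕ Fin 3)) : (wsplits' w).length ≤ 2 ^ w.length := by
  have h := length_wsplits w
  rw [wsplits_eq, List.length_append] at h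
  omega

theorem length_of_mem_wsplits {w : List (Fin 3 ⊕ Fin 3)}
    {p : List (Fin 3 ⊕ Fin 3) × List (Fin 3 ⊕ Fin 3)} (hp : p ∈ wsplits w) :
    p.1.length + p.2.length = w.length := by
  induction w generalizing p with
  | nil =>
    simp only [wsplits, List.mem_singleton] at hp
    subst hp; rfl
  | cons a w ih =>
    simp only [wsplits, List.mem_append, List.mem_map] at hp
    rcases hp with ⟨q, hq, rfl⟩ | ⟨q, hq, rfl⟩
    · have := ih hq
      simp only [List.length_cons]; omega
    · have := ih hq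
      simp only [List.length_cons]; omega

theorem mem_wsplits_of_mem' {w : List (Fin 3 ⊕ Fin 3)}
    {p : List (Fin 3 ⊕ Fin 3) × List (Fin 3 ⊕ Fin 3)} (hp : p ∈ wsplits' w) : p ∈ wsplits w := by
  rw [wsplits_eq]; exact List.mem_append_left _ hp

theorem ne_nil_of_mem_wsplits' {w : List (Fin 3 ⊕ Fin 3)}
    {p : List (Fin 3 ⊕ Fin 3) × List (Fin 3 ⊕ Fin 3)} (hp : p ∈ wsplits' w) : p.1 ≠ [] := by
  induction w generalizing p with
  | nil => simp [wsplits'] at hp
  | cons a w ih =>
    simp only [wsplits', List.mem_append, List.mem_map] at hp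
    rcases hp with ⟨q, _, rfl⟩ | ⟨q, hq, rfl⟩
    · simp
    · exact ih (p := q) hq

/-- the second component of a proper split is strictly shorter. -/
theorem length_lt_of_mem_wsplits' {w : List (Fin 3 ⊕ Fin 3)}
    {p : List (Fin 3 ⊕ Fin 3) × List (Fin 3 ⊕ Fin 3)} (hp : p ∈ wsplits' w) :
    p.2.length < w.length ∧ p.1.length ≤ w.length := by
  have h1 := length_of_mem_wsplits (mem_wsplits_of_mem' hp)
  have h2 : 0 < p.1.length := List.length_pos_of_ne_nil (ne_nil_of_mem_wsplits' hp)
  omega

/-! ## the Leibniz formula -/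

section leibniz
variable {V₁ V₂ V₃ : Type*} [NormedAddCommGroup V₁] [NormedSpace ℝ V₁]
  [NormedAddCommGroup V₂] [NormedSpace ℝ V₂] [NormedAddCommGroup V₃] [NormedSpace ℝ V₃]

theorem dfield_bilin (B : V₁ →L[ℝ] V₂ →L[ℝ] V₃) {u : Space → V₁} {v : Space → V₂} {x : Space}
    (hu : DifferentiableAt ℝ u x) (hv : DifferentiableAt ℝ v x) (c : Fin 3 ⊕ Fin 3) :
    dfield c (fun y => B (u y) (v y)) x = B (dfield c u x) (v x) + B (u x) (dfield c v x) := by
  unfold dfield
  rw [(B.hasFDerivAt_of_bilinear hu.hasFDerivAt hv.hasFDerivAt).fderiv]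
  simp [ContinuousLinearMap.precompR_apply, ContinuousLinearMap.precompL_apply, add_comm]

theorem dfield_list_sum {ι : Type*} (l : List ι) (F : ι → Space → V₁) {x : Space}
    (h : ∀ i ∈ l, DifferentiableAt ℝ (F i) x) (c : Fin 3 ⊕ Fin 3) :
    DifferentiableAt ℝ (fun y => (l.map fun i => F i y).sum) x ∧
      dfield c (fun y => (l.map fun i => F i y).sum) x = (l.map fun i => dfield c (F i) x).sum := by
  induction l with
  | nil => simp [dfield]
  | cons i l ih =>
    obtain ⟨h1, h2⟩ := ih (fun j hj => h j (List.mem_cons_of_mem _ hj))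
    have hi := h i List.mem_cons_self
    simp only [List.map_cons, List.sum_cons]
    refine ⟨hi.add h1, ?_⟩
    rw [← h2]
    unfold dfield
    rw [fderiv_fun_add hi h1]
    rfl

theorem differentiableAt_dword {R : ℝ} {H : Space → V₁} (hH : ContDiffOn ℝ ∞ H (Ext R))
    (w : List (Fin 3 ⊕ Fin 3)) {x : Space} (hx : x ∈ Ext R) : DifferentiableAt ℝ (dword w H) x :=
  ((contDiffOn_dword hH w).contDiffAt ((isOpen_Ext R).mem_nhds hx)).differentiableAt (by simp)

/-- **Leibniz formula.** -/
theorem dword_bilin (B : V₁ →L[ℝ] V₂ →L[ℝ] V₃) {R : ℝ} {a : Space → V₁} {b : Space → V₂}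
    (ha : ContDiffOn ℝ ∞ a (Ext R)) (hb : ContDiffOn ℝ ∞ b (Ext R)) (w : List (Fin 3 ⊕ Fin 3)) :
    ∀ x ∈ Ext R, dword w (fun y => B (a y) (b y)) x =
      ((wsplits w).map fun p => B (dword p.1 a x) (dword p.2 b x)).sum := by
  induction w with
  | nil => intro x _; simp [wsplits, dword]
  | cons c w ih =>
    intro x hx
    have hev : dword w (fun y => B (a y) (b y)) =ᶠ[𝓝 x]
        fun y => ((wsplits w).map fun p => B (dword p.1 a y) (dword p.2 b y)).sum :=
      Filter.eventuallyEq_of_mem ((isOpen_Ext R).mem_nhds hx) ih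
    have e1 : dfield c (dword w fun y => B (a y) (b y)) x =
        dfield c (fun y => ((wsplits w).map fun p => B (dword p.1 a y) (dword p.2 b y)).sum) x := by
      unfold dfield; rw [hev.fderiv_eq]
    have hB : ∀ p : List (Fin 3 ⊕ Fin 3) × List (Fin 3 ⊕ Fin 3),
        DifferentiableAt ℝ (fun y => B (dword p.1 a y) (dword p.2 b y)) x := fun p =>
      (B.hasFDerivAt_of_bilinear (differentiableAt_dword ha p.1 hx).hasFDerivAt
        (differentiableAt_dword hb p.2 hx).hasFDerivAt).differentiableAt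
    have e2 : ∀ p : List (Fin 3 ⊕ Fin 3) × List (Fin 3 ⊕ Fin 3),
        dfield c (fun y => B (dword p.1 a y) (dword p.2 b y)) x =
          B (dword (c :: p.1) a x) (dword p.2 b x) + B (dword p.1 a x) (dword (c :: p.2) b x) :=
      fun p => dfield_bilin B (differentiableAt_dword ha p.1 hx) (differentiableAt_dword hb p.2 hx) c
    rw [dword_cons, e1, (dfield_list_sum (wsplits w)
      (fun p y => B (dword p.1 a y) (dword p.2 b y)) (fun p _ => hB p) c).2]
    simp only [e2]
    rw [List.sum_map_add, wsplits, List.map_append, List.sum_append, List.map_map, List.map_map]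
    rfl

/-- scalar times vector. -/
theorem dword_smul_sum {R : ℝ} {σ : Space → ℝ} {H : Space → V₁}
    (hσ : ContDiffOn ℝ ∞ σ (Ext R)) (hH : ContDiffOn ℝ ∞ H (Ext R)) (w : List (Fin 3 ⊕ Fin 3)) :
    ∀ x ∈ Ext R, dword w (fun y => σ y • H y) x =
      ((wsplits w).map fun p => dword p.1 σ x • dword p.2 H x).sum :=
  dword_bilin (ContinuousLinearMap.lsmul ℝ ℝ) hσ hH w

/-- real linear operator applied to a vector. -/
theorem dword_apply_sum {R : ℝ} {T : Space → V₁ →L[ℝ] V₂} {H : Space → V₁}
    (hT : ContDiffOn ℝ ∞ T (Ext R)) (hH : ContDiffOn ℝ ∞ H (Ext R)) (w : List (Fin 3 ⊕ Fin 3)) :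
    ∀ x ∈ Ext R, dword w (fun y => T y (H y)) x =
      ((wsplits w).map fun p => dword p.1 T x (dword p.2 H x)).sum :=
  dword_bilin (ContinuousLinearMap.id ℝ (V₁ →L[ℝ] V₂)) hT hH w

omit [NormedSpace ℝ V₁] in
/-- a list sum with `≤ N` terms, each of norm `≤ M`. -/
theorem norm_list_sum_le {ι : Type*} (l : List ι) (F : ι → V₁) {M : ℝ}
    (h : ∀ i ∈ l, ‖F i‖ ≤ M) : ‖(l.map F).sum‖ ≤ l.length * M := by
  induction l with
  | nil => simp
  | cons i l ih =>
    simp only [List.map_cons, List.sum_cons, List.length_cons]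
    have h1 := ih (fun j hj => h j (List.mem_cons_of_mem _ hj))
    have h2 := h i List.mem_cons_self
    push_cast
    calc ‖F i + (l.map F).sum‖ ≤ ‖F i‖ + ‖(l.map F).sum‖ := norm_add_le _ _
      _ ≤ M + l.length * M := add_le_add h2 h1
      _ = (l.length + 1) * M := by ring

end leibniz

section leibnizC
variable {𝒦 𝒦' : Type*} [NormedAddCommGroup 𝒦] [NormedSpace ℂ 𝒦] [NormedAddCommGroup 𝒦']
  [NormedSpace ℂ 𝒦']

/-- complex linear operator applied to a vector. -/
theorem dword_applyC_sum {R : ℝ} {T : Space → 𝒦 →L[ℂ] 𝒦'} {H : Space → 𝒦}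
    (hT : ContDiffOn ℝ ∞ T (Ext R)) (hH : ContDiffOn ℝ ∞ H (Ext R)) (w : List (Fin 3 ⊕ Fin 3)) :
    ∀ x ∈ Ext R, dword w (fun y => T y (H y)) x =
      ((wsplits w).map fun p => dword p.1 T x (dword p.2 H x)).sum :=
  dword_bilin (ContinuousLinearMap.restrictScalarsL ℂ 𝒦 𝒦' ℝ ℝ :
    (𝒦 →L[ℂ] 𝒦') →L[ℝ] (𝒦 →L[ℝ] 𝒦')) hT hH w

end leibnizC

end Claimed.Open.R278
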