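import Claimed.Open.R278.CHTD0

/-!
# Result 278, package CHT (paper-free analysis tools for the channel layer), file CHTD1

Leaf `CHT-D1`: PROVED (helper162), no `sorry` in this file; the products come from the Leibniz formula
`dword_bilin` of `CHTD0.lean` through `WordBddN.bilin`.  Conventions: `Space = ℝ³`, `Ext R = {R < |x|}` (open),
`vfield/dfield/dword/dr/WordBdd` from `CHDefs`.  You may add auxiliary lemmas to this file, and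
change a statement only after telling helper225 (channel open278).

The graded class `WordBddN n` (words of length `≤ n`) is the primary notion: the a priori estimates
are proved by induction on `n`.  The `WordBdd` versions are derived at the end (already proved).
-/

open MeasureTheory Filter
open scoped ContDiff InnerProductSpace ComplexConjugate ENNReal Topology Laplacian

noncomputable section

namespace Claimed.Open.R278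

/-! ## D. `WordBddN` calculus (leaf CHT-D1) -/

section D
variable {V V' : Type*} [NormedAddCommGroup V] [NormedSpace ℝ V]
  [NormedAddCommGroup V'] [NormedSpace ℝ V']

/-- graded version of `WordBdd`: only words of length `≤ n`. -/
def WordBddN (n : ℕ) (R : ℝ) (C : ℕ → ℝ) (g : Space → ℝ) (σ : Space → V) : Prop :=
  ContDiffOn ℝ ∞ σ (Ext R) ∧
    ∀ (w : List (Fin 3 ⊕ Fin 3)), w.length ≤ n → ∀ x ∈ Ext R, ‖dword w σ x‖ ≤ C w.length * g x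

/-- monotone envelope of a sequence of constants. -/
def cumC (C : ℕ → ℝ) (n : ℕ) : ℝ := ∑ i ∈ Finset.range (n + 1), |C i|

/-- constants for products. -/
def mulC (C₁ C₂ : ℕ → ℝ) (n : ℕ) : ℝ := 2 ^ n * cumC C₁ n * cumC C₂ n

theorem wordBdd_iff_forall {R : ℝ} {C : ℕ → ℝ} {g : Space → ℝ} {σ : Space → V} :
    WordBdd R C g σ ↔ ∀ n, WordBddN n R C g σ :=
  ⟨fun h _ => ⟨h.1, fun w _ => h.2 w⟩, fun h => ⟨(h 0).1, fun w => (h w.length).2 w le_rfl⟩⟩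

theorem WordBdd.toN {R : ℝ} {C : ℕ → ℝ} {g : Space → ℝ} {σ : Space → V} (h : WordBdd R C g σ)
    (n : ℕ) : WordBddN n R C g σ := wordBdd_iff_forall.1 h n

theorem WordBddN.of_le {n m : ℕ} {R : ℝ} {C : ℕ → ℝ} {g : Space → ℝ} {σ : Space → V}
    (h : WordBddN n R C g σ) (hm : m ≤ n) : WordBddN m R C g σ :=
  ⟨h.1, fun w hw => h.2 w (hw.trans hm)⟩

/-- a family of graded bounds with constants depending on the grade gives a full bound. -/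
theorem wordBdd_of_forall {R : ℝ} {C : ℕ → ℕ → ℝ} {g : Space → ℝ} {σ : Space → V}
    (h : ∀ n, WordBddN n R (C n) g σ) : WordBdd R (fun n => C n n) g σ :=
  ⟨(h 0).1, fun w => (h w.length).2 w le_rfl⟩

theorem WordBddN.mono {n : ℕ} {R R' : ℝ} {C C' : ℕ → ℝ} {g g' : Space → ℝ} {σ : Space → V}
    (h : WordBddN n R C g σ) (hR : R ≤ R') (hC : ∀ i ≤ n, ∀ x ∈ Ext R', C i * g x ≤ C' i * g' x) :
    WordBddN n R' C' g' σ :=
  ⟨h.1.mono (Ext_mono hR), fun w hw x hx => (h.2 w hw x (Ext_mono hR hx)).trans (hC _ hw x hx)⟩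

/-- the value itself. -/
theorem WordBddN.norm_le {n : ℕ} {R : ℝ} {C : ℕ → ℝ} {g : Space → ℝ} {σ : Space → V}
    (h : WordBddN n R C g σ) : ∀ x ∈ Ext R, ‖σ x‖ ≤ C 0 * g x :=
  fun x hx => h.2 [] (Nat.zero_le _) x hx

/-- words of `𝔇ₐσ` are the words `w ++ [a]` of `σ`. -/
theorem WordBddN.dfield_bdd {n : ℕ} {R : ℝ} {C : ℕ → ℝ} {g : Space → ℝ} {σ : Space → V}
    (h : WordBddN (n + 1) R C g σ) (a : Fin 3 ⊕ Fin 3) :
    WordBddN n R (fun i => C (i + 1)) g (dfield a σ) := by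
  refine ⟨contDiffOn_dfield h.1 a, fun w hw x hx => ?_⟩
  have := h.2 (w ++ [a]) (by simp only [List.length_append, List.length_singleton]; omega) x hx
  rwa [dword_append, List.length_append] at this

/-- converse: every nonempty word is `w ++ [a]`. -/
theorem WordBddN.succ {n : ℕ} {R : ℝ} {C : ℕ → ℝ} {c₀ : ℝ} {g : Space → ℝ} {σ : Space → V}
    (hσ : ContDiffOn ℝ ∞ σ (Ext R)) (h₀ : ∀ x ∈ Ext R, ‖σ x‖ ≤ c₀ * g x)
    (h : ∀ a, WordBddN n R C g (dfield a σ)) :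
    WordBddN (n + 1) R (fun i => Nat.casesOn i c₀ C) g σ := by
  refine ⟨hσ, fun w hw x hx => ?_⟩
  rcases List.eq_nil_or_concat w with rfl | ⟨v, a, rfl⟩
  · exact h₀ x hx
  · rw [List.concat_eq_append] at hw ⊢
    rw [List.length_append, List.length_singleton] at hw
    have := (h a).2 v (by omega) x hx
    rw [dword_append, List.length_append, List.length_singleton]
    exact this

theorem WordBddN.add {n : ℕ} {R : ℝ} {C C' : ℕ → ℝ} {g : Space → ℝ} {σ σ' : Space → V}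
    (h : WordBddN n R C g σ) (h' : WordBddN n R C' g σ') :
    WordBddN n R (fun n => C n + C' n) g (fun x => σ x + σ' x) := by
  refine ⟨h.1.add h'.1, fun w hw x hx => ?_⟩
  rw [dword_add h.1 h'.1 w x hx, add_mul]
  exact (norm_add_le _ _).trans (add_le_add (h.2 w hw x hx) (h'.2 w hw x hx))

theorem WordBddN.sub {n : ℕ} {R : ℝ} {C C' : ℕ → ℝ} {g : Space → ℝ} {σ σ' : Space → V}
    (h : WordBddN n R C g σ) (h' : WordBddN n R C' g σ') :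
    WordBddN n R (fun n => C n + C' n) g (fun x => σ x - σ' x) := by
  refine ⟨h.1.sub h'.1, fun w hw x hx => ?_⟩
  rw [dword_sub h.1 h'.1 w x hx, add_mul]
  exact (norm_sub_le _ _).trans (add_le_add (h.2 w hw x hx) (h'.2 w hw x hx))

theorem WordBddN.clm {n : ℕ} {R : ℝ} {C : ℕ → ℝ} {g : Space → ℝ} {σ : Space → V}
    (h : WordBddN n R C g σ) (L : V →L[ℝ] V') :
    WordBddN n R (fun n => ‖L‖ * C n) g (fun x => L (σ x)) := by
  refine ⟨L.contDiff.comp_contDiffOn h.1, fun w hw x hx => ?_⟩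
  rw [dword_clm h.1 L w x hx, mul_assoc]
  exact (L.le_opNorm _).trans (mul_le_mul_of_nonneg_left (h.2 w hw x hx) (norm_nonneg _))

/-- only the germ on `Ext R` matters. -/
theorem WordBddN.congr {n : ℕ} {R : ℝ} {C : ℕ → ℝ} {g : Space → ℝ} {σ σ' : Space → V}
    (h : WordBddN n R C g σ) (he : ∀ x ∈ Ext R, σ' x = σ x) : WordBddN n R C g σ' := by
  refine ⟨h.1.congr he, fun w hw x hx => ?_⟩
  rw [dword_congr he w x hx]
  exact h.2 w hw x hx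

theorem le_cumC (C : ℕ → ℝ) {m n : ℕ} (h : m ≤ n) : C m ≤ cumC C n := by
  unfold cumC
  exact (le_abs_self _).trans (Finset.single_le_sum (f := fun i => |C i|) (fun i _ => abs_nonneg _)
    (Finset.mem_range.2 (Nat.lt_succ_of_le h)))

theorem cumC_nonneg (C : ℕ → ℝ) (n : ℕ) : 0 ≤ cumC C n :=
  Finset.sum_nonneg fun _ _ => abs_nonneg _

/-- **the product rule for graded classes**: any continuous real bilinear map `B` with
`‖B u v‖ ≤ ‖u‖ ‖v‖` (Leibniz formula `dword_bilin` over the `2^|w|` splits of the word). -/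
theorem WordBddN.bilin {V₁ V₂ V₃ : Type*} [NormedAddCommGroup V₁] [NormedSpace ℝ V₁]
    [NormedAddCommGroup V₂] [NormedSpace ℝ V₂] [NormedAddCommGroup V₃] [NormedSpace ℝ V₃]
    (B : V₁ →L[ℝ] V₂ →L[ℝ] V₃) (hB : ∀ u v, ‖B u v‖ ≤ ‖u‖ * ‖v‖) {n : ℕ} {R : ℝ} {C₁ C₂ : ℕ → ℝ}
    {g₁ g₂ : Space → ℝ} {a : Space → V₁} {b : Space → V₂} (hg₁ : ∀ x ∈ Ext R, 0 ≤ g₁ x)
    (hg₂ : ∀ x ∈ Ext R, 0 ≤ g₂ x) (h₁ : WordBddN n R C₁ g₁ a) (h₂ : WordBddN n R C₂ g₂ b) :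
    WordBddN n R (mulC C₁ C₂) (fun x => g₁ x * g₂ x) (fun x => B (a x) (b x)) := by
  refine ⟨B.isBoundedBilinearMap.contDiff.comp_contDiffOn (h₁.1.prodMk h₂.1), fun w hw x hx => ?_⟩
  rw [dword_bilin B h₁.1 h₂.1 w x hx]
  have hterm : ∀ p ∈ wsplits w, ‖B (dword p.1 a x) (dword p.2 b x)‖ ≤
      (cumC C₁ w.length * g₁ x) * (cumC C₂ w.length * g₂ x) := by
    intro p hp
    have hl := length_of_mem_wsplits hp
    have a1 : ‖dword p.1 a x‖ ≤ cumC C₁ w.length * g₁ x :=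
      (h₁.2 p.1 (by omega) x hx).trans
        (mul_le_mul_of_nonneg_right (le_cumC C₁ (by omega)) (hg₁ x hx))
    have a2 : ‖dword p.2 b x‖ ≤ cumC C₂ w.length * g₂ x :=
      (h₂.2 p.2 (by omega) x hx).trans
        (mul_le_mul_of_nonneg_right (le_cumC C₂ (by omega)) (hg₂ x hx))
    exact (hB _ _).trans (mul_le_mul a1 a2 (norm_nonneg _)
      (mul_nonneg (cumC_nonneg _ _) (hg₁ x hx)))
  have := norm_list_sum_le (wsplits w) (fun p => B (dword p.1 a x) (dword p.2 b x)) hterm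
  rw [length_wsplits] at this
  refine this.trans (le_of_eq ?_)
  unfold mulC
  push_cast
  ring

/-- product of a scalar symbol and a vector symbol. -/
theorem WordBddN.smul {n : ℕ} {R : ℝ} {C₁ C₂ : ℕ → ℝ} {g₁ g₂ : Space → ℝ} {σ : Space → ℝ}
    {H : Space → V} (hg₁ : ∀ x ∈ Ext R, 0 ≤ g₁ x) (hg₂ : ∀ x ∈ Ext R, 0 ≤ g₂ x)
    (h₁ : WordBddN n R C₁ g₁ σ) (h₂ : WordBddN n R C₂ g₂ H) :
    WordBddN n R (mulC C₁ C₂) (fun x => g₁ x * g₂ x) (fun x => σ x • H x) :=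
  WordBddN.bilin (ContinuousLinearMap.lsmul ℝ ℝ) (fun u v => by simp [norm_smul]) hg₁ hg₂ h₁ h₂

/-- operator valued symbol applied to a vector symbol. -/
theorem WordBddN.apply {n : ℕ} {R : ℝ} {C₁ C₂ : ℕ → ℝ} {g₁ g₂ : Space → ℝ}
    {T : Space → V →L[ℝ] V'} {H : Space → V} (hg₁ : ∀ x ∈ Ext R, 0 ≤ g₁ x)
    (hg₂ : ∀ x ∈ Ext R, 0 ≤ g₂ x) (h₁ : WordBddN n R C₁ g₁ T) (h₂ : WordBddN n R C₂ g₂ H) :
    WordBddN n R (mulC C₁ C₂) (fun x => g₁ x * g₂ x) (fun x => T x (H x)) :=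
  WordBddN.bilin (ContinuousLinearMap.id ℝ (V →L[ℝ] V')) (fun u v => u.le_opNorm v) hg₁ hg₂ h₁ h₂

/-! ### complex linear operators -/

section complexOps
variable {𝒦 𝒦' : Type*} [NormedAddCommGroup 𝒦] [NormedSpace ℂ 𝒦] [NormedAddCommGroup 𝒦']
  [NormedSpace ℂ 𝒦']

theorem dword_clmC {R : ℝ} {H : Space → 𝒦} (hH : ContDiffOn ℝ ∞ H (Ext R)) (L : 𝒦 →L[ℂ] 𝒦')
    (w : List (Fin 3 ⊕ Fin 3)) : ∀ x ∈ Ext R, dword w (fun y => L (H y)) x = L (dword w H x) :=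
  dword_clm hH (L.restrictScalars ℝ) w

theorem WordBddN.clmC {n : ℕ} {R : ℝ} {C : ℕ → ℝ} {g : Space → ℝ} {σ : Space → 𝒦}
    (h : WordBddN n R C g σ) (L : 𝒦 →L[ℂ] 𝒦') :
    WordBddN n R (fun n => ‖L‖ * C n) g (fun x => L (σ x)) := by
  have := h.clm (L.restrictScalars ℝ)
  rwa [ContinuousLinearMap.norm_restrictScalars] at this

theorem dfield_clm_applyC {T : Space → 𝒦 →L[ℂ] 𝒦'} {H : Space → 𝒦} {x : Space}
    (hT : DifferentiableAt ℝ T x) (hH : DifferentiableAt ℝ H x) (a : Fin 3 ⊕ Fin 3) :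
    dfield a (fun y => T y (H y)) x = dfield a T x (H x) + T x (dfield a H x) :=
  dfield_bilin (ContinuousLinearMap.restrictScalarsL ℂ 𝒦 𝒦' ℝ ℝ :
    (𝒦 →L[ℂ] 𝒦') →L[ℝ] (𝒦 →L[ℝ] 𝒦')) hT hH a

theorem WordBddN.applyC {n : ℕ} {R : ℝ} {C₁ C₂ : ℕ → ℝ} {g₁ g₂ : Space → ℝ}
    {T : Space → 𝒦 →L[ℂ] 𝒦'} {H : Space → 𝒦} (hg₁ : ∀ x ∈ Ext R, 0 ≤ g₁ x)
    (hg₂ : ∀ x ∈ Ext R, 0 ≤ g₂ x) (h₁ : WordBddN n R C₁ g₁ T) (h₂ : WordBddN n R C₂ g₂ H) :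
    WordBddN n R (mulC C₁ C₂) (fun x => g₁ x * g₂ x) (fun x => T x (H x)) :=
  WordBddN.bilin (ContinuousLinearMap.restrictScalarsL ℂ 𝒦 𝒦' ℝ ℝ :
    (𝒦 →L[ℂ] 𝒦') →L[ℝ] (𝒦 →L[ℝ] 𝒦')) (fun u v => u.le_opNorm v) hg₁ hg₂ h₁ h₂

/-- complex scalar symbol times vector symbol. -/
theorem WordBddN.smulC {n : ℕ} {R : ℝ} {C₁ C₂ : ℕ → ℝ} {g₁ g₂ : Space → ℝ} {σ : Space → ℂ}
    {H : Space → 𝒦} (hg₁ : ∀ x ∈ Ext R, 0 ≤ g₁ x) (hg₂ : ∀ x ∈ Ext R, 0 ≤ g₂ x)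
    (h₁ : WordBddN n R C₁ g₁ σ) (h₂ : WordBddN n R C₂ g₂ H) :
    WordBddN n R (mulC C₁ C₂) (fun x => g₁ x * g₂ x) (fun x => σ x • H x) :=
  WordBddN.bilin (ContinuousLinearMap.lsmul ℝ ℂ : ℂ →L[ℝ] 𝒦 →L[ℝ] 𝒦)
    (fun u v => by simp [norm_smul]) hg₁ hg₂ h₁ h₂

theorem dfield_smulC {σ : Space → ℂ} {H : Space → 𝒦} {x : Space} (hσ : DifferentiableAt ℝ σ x)
    (hH : DifferentiableAt ℝ H x) (a : Fin 3 ⊕ Fin 3) :
    dfield a (fun y => σ y • H y) x = dfield a σ x • H x + σ x • dfield a H x :=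
  dfield_bilin (ContinuousLinearMap.lsmul ℝ ℂ : ℂ →L[ℝ] 𝒦 →L[ℝ] 𝒦) hσ hH a

end complexOps

/-- the complex inner product as a continuous real bilinear map. -/
def innerBilinR (𝒦 : Type*) [NormedAddCommGroup 𝒦] [InnerProductSpace ℂ 𝒦] : 𝒦 →L[ℝ] 𝒦 →L[ℝ] ℂ :=
  LinearMap.mkContinuous₂
    (LinearMap.mk₂ ℝ (fun u v : 𝒦 => ⟪u, v⟫_ℂ) (fun u u' v => inner_add_left u u' v)
      (fun c u v => by
        rw [← Complex.coe_smul c u, inner_smul_left, Complex.conj_ofReal, Complex.real_smul])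
      (fun u v v' => inner_add_right u v v')
      (fun c u v => by rw [← Complex.coe_smul c v, inner_smul_right, Complex.real_smul]))
    1 (fun u v => by rw [one_mul]; exact norm_inner_le_norm u v)

theorem innerBilinR_apply {𝒦 : Type*} [NormedAddCommGroup 𝒦] [InnerProductSpace ℂ 𝒦] (u v : 𝒦) :
    innerBilinR 𝒦 u v = ⟪u, v⟫_ℂ := rfl

/-- inner product of two vector symbols. -/
theorem WordBddN.inner {𝒦 : Type*} [NormedAddCommGroup 𝒦] [InnerProductSpace ℂ 𝒦] {n : ℕ} {R : ℝ}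
    {C₁ C₂ : ℕ → ℝ} {g₁ g₂ : Space → ℝ} {σ₁ σ₂ : Space → 𝒦} (hg₁ : ∀ x ∈ Ext R, 0 ≤ g₁ x)
    (hg₂ : ∀ x ∈ Ext R, 0 ≤ g₂ x) (h₁ : WordBddN n R C₁ g₁ σ₁) (h₂ : WordBddN n R C₂ g₂ σ₂) :
    WordBddN n R (mulC C₁ C₂) (fun x => g₁ x * g₂ x) (fun x => ⟪σ₁ x, σ₂ x⟫_ℂ) :=
  WordBddN.bilin (innerBilinR 𝒦) (fun u v => norm_inner_le_norm u v) hg₁ hg₂ h₁ h₂

/-! ### the ungraded versions (derived; nothing to prove here) -/

theorem WordBdd.mono {R R' : ℝ} {C C' : ℕ → ℝ} {g g' : Space → ℝ} {σ : Space → V}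
    (h : WordBdd R C g σ) (hR : R ≤ R') (hC : ∀ n, ∀ x ∈ Ext R', C n * g x ≤ C' n * g' x) :
    WordBdd R' C' g' σ :=
  wordBdd_iff_forall.2 fun n => (h.toN n).mono hR fun i _ => hC i

theorem WordBdd.norm_le {R : ℝ} {C : ℕ → ℝ} {g : Space → ℝ} {σ : Space → V}
    (h : WordBdd R C g σ) : ∀ x ∈ Ext R, ‖σ x‖ ≤ C 0 * g x := fun x hx => h.2 [] x hx

theorem WordBdd.dfield_bdd {R : ℝ} {C : ℕ → ℝ} {g : Space → ℝ} {σ : Space → V} (h : WordBdd R C g σ)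
    (a : Fin 3 ⊕ Fin 3) : WordBdd R (fun n => C (n + 1)) g (dfield a σ) :=
  wordBdd_iff_forall.2 fun n => (h.toN (n + 1)).dfield_bdd a

theorem WordBdd.dword_bdd {R : ℝ} {C : ℕ → ℝ} {g : Space → ℝ} {σ : Space → V} (h : WordBdd R C g σ)
    (w : List (Fin 3 ⊕ Fin 3)) : WordBdd R (fun n => C (n + w.length)) g (dword w σ) := by
  refine ⟨contDiffOn_dword h.1 w, fun w' x hx => ?_⟩
  have := h.2 (w' ++ w) x hx
  rwa [dword_append, List.length_append] at this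

theorem WordBdd.add {R : ℝ} {C C' : ℕ → ℝ} {g : Space → ℝ} {σ σ' : Space → V}
    (h : WordBdd R C g σ) (h' : WordBdd R C' g σ') :
    WordBdd R (fun n => C n + C' n) g (fun x => σ x + σ' x) :=
  wordBdd_iff_forall.2 fun n => (h.toN n).add (h'.toN n)

theorem WordBdd.sub {R : ℝ} {C C' : ℕ → ℝ} {g : Space → ℝ} {σ σ' : Space → V}
    (h : WordBdd R C g σ) (h' : WordBdd R C' g σ') :
    WordBdd R (fun n => C n + C' n) g (fun x => σ x - σ' x) :=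
  wordBdd_iff_forall.2 fun n => (h.toN n).sub (h'.toN n)

theorem WordBdd.clm {R : ℝ} {C : ℕ → ℝ} {g : Space → ℝ} {σ : Space → V} (h : WordBdd R C g σ)
    (L : V →L[ℝ] V') : WordBdd R (fun n => ‖L‖ * C n) g (fun x => L (σ x)) :=
  wordBdd_iff_forall.2 fun n => (h.toN n).clm L

theorem WordBdd.congr {R : ℝ} {C : ℕ → ℝ} {g : Space → ℝ} {σ σ' : Space → V}
    (h : WordBdd R C g σ) (he : ∀ x ∈ Ext R, σ' x = σ x) : WordBdd R C g σ' :=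
  wordBdd_iff_forall.2 fun n => (h.toN n).congr he

theorem WordBdd.smul {R : ℝ} {C₁ C₂ : ℕ → ℝ} {g₁ g₂ : Space → ℝ} {σ : Space → ℝ} {H : Space → V}
    (hg₁ : ∀ x ∈ Ext R, 0 ≤ g₁ x) (hg₂ : ∀ x ∈ Ext R, 0 ≤ g₂ x)
    (h₁ : WordBdd R C₁ g₁ σ) (h₂ : WordBdd R C₂ g₂ H) :
    WordBdd R (mulC C₁ C₂) (fun x => g₁ x * g₂ x) (fun x => σ x • H x) :=
  wordBdd_iff_forall.2 fun n => (h₁.toN n).smul hg₁ hg₂ (h₂.toN n)

theorem WordBdd.apply {R : ℝ} {C₁ C₂ : ℕ → ℝ} {g₁ g₂ : Space → ℝ} {T : Space → V →L[ℝ] V'}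
    {H : Space → V} (hg₁ : ∀ x ∈ Ext R, 0 ≤ g₁ x) (hg₂ : ∀ x ∈ Ext R, 0 ≤ g₂ x)
    (h₁ : WordBdd R C₁ g₁ T) (h₂ : WordBdd R C₂ g₂ H) :
    WordBdd R (mulC C₁ C₂) (fun x => g₁ x * g₂ x) (fun x => T x (H x)) :=
  wordBdd_iff_forall.2 fun n => (h₁.toN n).apply hg₁ hg₂ (h₂.toN n)

section complexOps'
variable {𝒦 𝒦' : Type*} [NormedAddCommGroup 𝒦] [NormedSpace ℂ 𝒦] [NormedAddCommGroup 𝒦']
  [NormedSpace ℂ 𝒦']

theorem WordBdd.clmC {R : ℝ} {C : ℕ → ℝ} {g : Space → ℝ} {σ : Space → 𝒦} (h : WordBdd R C g σ)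
    (L : 𝒦 →L[ℂ] 𝒦') : WordBdd R (fun n => ‖L‖ * C n) g (fun x => L (σ x)) :=
  wordBdd_iff_forall.2 fun n => (h.toN n).clmC L

theorem WordBdd.applyC {R : ℝ} {C₁ C₂ : ℕ → ℝ} {g₁ g₂ : Space → ℝ} {T : Space → 𝒦 →L[ℂ] 𝒦'}
    {H : Space → 𝒦} (hg₁ : ∀ x ∈ Ext R, 0 ≤ g₁ x) (hg₂ : ∀ x ∈ Ext R, 0 ≤ g₂ x)
    (h₁ : WordBdd R C₁ g₁ T) (h₂ : WordBdd R C₂ g₂ H) :
    WordBdd R (mulC C₁ C₂) (fun x => g₁ x * g₂ x) (fun x => T x (H x)) :=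
  wordBdd_iff_forall.2 fun n => (h₁.toN n).applyC hg₁ hg₂ (h₂.toN n)

theorem WordBdd.smulC {R : ℝ} {C₁ C₂ : ℕ → ℝ} {g₁ g₂ : Space → ℝ} {σ : Space → ℂ} {H : Space → 𝒦}
    (hg₁ : ∀ x ∈ Ext R, 0 ≤ g₁ x) (hg₂ : ∀ x ∈ Ext R, 0 ≤ g₂ x)
    (h₁ : WordBdd R C₁ g₁ σ) (h₂ : WordBdd R C₂ g₂ H) :
    WordBdd R (mulC C₁ C₂) (fun x => g₁ x * g₂ x) (fun x => σ x • H x) :=
  wordBdd_iff_forall.2 fun n => (h₁.toN n).smulC hg₁ hg₂ (h₂.toN n)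

end complexOps'

theorem WordBdd.inner {𝒦 : Type*} [NormedAddCommGroup 𝒦] [InnerProductSpace ℂ 𝒦] {R : ℝ}
    {C₁ C₂ : ℕ → ℝ} {g₁ g₂ : Space → ℝ} {σ₁ σ₂ : Space → 𝒦} (hg₁ : ∀ x ∈ Ext R, 0 ≤ g₁ x)
    (hg₂ : ∀ x ∈ Ext R, 0 ≤ g₂ x) (h₁ : WordBdd R C₁ g₁ σ₁) (h₂ : WordBdd R C₂ g₂ σ₂) :
    WordBdd R (mulC C₁ C₂) (fun x => g₁ x * g₂ x) (fun x => ⟪σ₁ x, σ₂ x⟫_ℂ) :=
  wordBdd_iff_forall.2 fun n => (h₁.toN n).inner hg₁ hg₂ (h₂.toN n)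

end D

end Claimed.Open.R278
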