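import Claimed.Open.R278.CHTD1

/-!
# Result 278, package CHT (paper-free analysis tools for the channel layer), file CHTD2

Leaf `CHT-D2`: PROVED (helper162), no `sorry` in this file.  Conventions: `Space = ℝ³`, `Ext R = {R < |x|}` (open),
`vfield/dfield/dword/dr/WordBdd` from `CHDefs`.  You may add auxiliary lemmas to this file, and
change a statement only after telling helper225 (channel open278).
-/

open MeasureTheory Filter
open scoped ContDiff InnerProductSpace ComplexConjugate ENNReal Topology Laplacian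
noncomputable section

namespace Claimed.Open.R278

/-! ## D2. Cartesian symbols, homogeneous functions, the two-centre potential (leaf CHT-D2) -/

section D
variable {V V' : Type*} [NormedAddCommGroup V] [NormedSpace ℝ V]
  [NormedAddCommGroup V'] [NormedSpace ℝ V']

/-- Cartesian symbols of order `-m`. -/
def IsSym (R m : ℝ) (C : ℕ → ℝ) (σ : Space → V) : Prop :=
  ContDiffOn ℝ ∞ σ (Ext R) ∧
    ∀ (n : ℕ), ∀ x ∈ Ext R, ‖iteratedFDeriv ℝ n σ x‖ ≤ C n * ‖x‖ ^ (-(m + n))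

theorem norm_rotL_le (i : Fin 3) : ‖rotL i‖ ≤ 1 :=
  ContinuousLinearMap.opNorm_le_bound _ zero_le_one fun x => by
    rw [one_mul, rotL_apply]; exact norm_vfield_rot_le i x

/-- the six fields are "symbols of order `+1`". -/
theorem norm_iteratedFDeriv_vfield_le (a : Fin 3 ⊕ Fin 3) (k : ℕ) {x : Space} (hx : 1 ≤ ‖x‖) :
    ‖iteratedFDeriv ℝ k (vfield a) x‖ ≤ ‖x‖ ^ (1 - (k : ℝ)) := by
  have hpos : 0 < ‖x‖ := by linarith
  have h0 : ∀ e : ℝ, 0 ≤ ‖x‖ ^ e := fun e => Real.rpow_nonneg hpos.le e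
  rcases a with j | i
  · have e : vfield (Sum.inl j) = fun _ => (EuclideanSpace.single j (1 : ℝ) : Space) := rfl
    rcases k with _ | k
    · rw [norm_iteratedFDeriv_zero, norm_vfield_trans]
      simp [hx]
    · rw [e, iteratedFDeriv_const_of_ne (Nat.succ_ne_zero k)]
      simp
  · have e : vfield (Sum.inr i) = rotL i := rfl
    rcases k with _ | _ | k
    · rw [norm_iteratedFDeriv_zero]
      simpa using norm_vfield_rot_le i x
    · rw [← norm_iteratedFDeriv_fderiv, norm_iteratedFDeriv_zero, e, ContinuousLinearMap.fderiv]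
      simpa using norm_rotL_le i
    · have e2 : fderiv ℝ (vfield (Sum.inr i)) = fun _ => rotL i := by
        funext y; rw [e, ContinuousLinearMap.fderiv]
      rw [← norm_iteratedFDeriv_fderiv, e2, iteratedFDeriv_const_of_ne (Nat.succ_ne_zero k)]
      simpa using h0 _

/-- the constants of `𝔇ₐσ`. -/
def symT (C : ℕ → ℝ) (n : ℕ) : ℝ := ∑ i ∈ Finset.range (n + 1), (n.choose i : ℝ) * |C (i + 1)|

/-- `𝔇ₐ` maps symbols of order `-m` to symbols of order `-m`. -/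
theorem IsSym.dfield_sym {R m : ℝ} {C : ℕ → ℝ} {σ : Space → V} (hR : 1 ≤ R) (h : IsSym R m C σ)
    (a : Fin 3 ⊕ Fin 3) : IsSym R m (symT C) (dfield a σ) := by
  refine ⟨contDiffOn_dfield h.1 a, fun n x hx => ?_⟩
  have hx1 : 1 ≤ ‖x‖ := hR.trans (le_of_lt hx)
  have hpos : 0 < ‖x‖ := by linarith
  have ho := isOpen_Ext R
  have key := norm_iteratedFDerivWithin_clm_apply (𝕜 := ℝ) (n := n) (N := ∞)
    (contDiffOn_fderiv_Ext h.1) (contDiff_vfield a).contDiffOn ho.uniqueDiffOn hx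
    (WithTop.coe_le_coe.2 le_top)
  have hW1 : ∀ k, iteratedFDerivWithin ℝ k (fderiv ℝ σ) (Ext R) x = iteratedFDeriv ℝ k (fderiv ℝ σ) x :=
    fun k => iteratedFDerivWithin_of_isOpen k ho hx
  have hW2 : ∀ k, iteratedFDerivWithin ℝ k (vfield a) (Ext R) x = iteratedFDeriv ℝ k (vfield a) x :=
    fun k => iteratedFDerivWithin_of_isOpen k ho hx
  rw [iteratedFDerivWithin_of_isOpen n ho hx] at key
  simp only [hW1, hW2] at key
  refine key.trans ?_
  unfold symT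
  rw [Finset.sum_mul]
  refine Finset.sum_le_sum fun i hi => ?_
  have hin : i ≤ n := Nat.lt_succ_iff.1 (Finset.mem_range.1 hi)
  have b1 : ‖iteratedFDeriv ℝ i (fderiv ℝ σ) x‖ ≤ |C (i + 1)| * ‖x‖ ^ (-(m + (i + 1 : ℕ))) := by
    rw [norm_iteratedFDeriv_fderiv]
    exact (h.2 (i + 1) x hx).trans
      (mul_le_mul_of_nonneg_right (le_abs_self _) (Real.rpow_nonneg hpos.le _))
  have b2 := norm_iteratedFDeriv_vfield_le a (n - i) hx1
  have e : ‖x‖ ^ (-(m + (i + 1 : ℕ))) * ‖x‖ ^ (1 - ((n - i : ℕ) : ℝ)) = ‖x‖ ^ (-(m + n)) := by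
    rw [← Real.rpow_add hpos]
    congr 1
    rw [Nat.cast_sub hin]
    push_cast
    ring
  calc (n.choose i : ℝ) * ‖iteratedFDeriv ℝ i (fderiv ℝ σ) x‖ * ‖iteratedFDeriv ℝ (n - i) (vfield a) x‖
      ≤ (n.choose i : ℝ) * (|C (i + 1)| * ‖x‖ ^ (-(m + (i + 1 : ℕ)))) * ‖x‖ ^ (1 - ((n - i : ℕ) : ℝ)) := by
        refine mul_le_mul (mul_le_mul_of_nonneg_left b1 (Nat.cast_nonneg _)) b2 (norm_nonneg _) ?_
        exact mul_nonneg (Nat.cast_nonneg _)
          (mul_nonneg (abs_nonneg _) (Real.rpow_nonneg hpos.le _))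
    _ = (n.choose i : ℝ) * |C (i + 1)| * (‖x‖ ^ (-(m + (i + 1 : ℕ))) * ‖x‖ ^ (1 - ((n - i : ℕ) : ℝ))) := by
        ring
    _ = (n.choose i : ℝ) * |C (i + 1)| * ‖x‖ ^ (-(m + n)) := by rw [e]

theorem IsSym.dword_sym {R m : ℝ} {C : ℕ → ℝ} {σ : Space → V} (hR : 1 ≤ R) (h : IsSym R m C σ)
    (w : List (Fin 3 ⊕ Fin 3)) : IsSym R m (symT^[w.length] C) (dword w σ) := by
  induction w with
  | nil => exact h
  | cons a w ih =>
    rw [dword_cons, List.length_cons, Function.iterate_succ_apply']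
    exact ih.dfield_sym hR a

/-- a Cartesian symbol is word bounded, with constants depending only on `m, C`
(`𝔇ₐ` maps symbols of order `-m` to symbols of order `-m`: a translation field gains `r⁻¹ ≤ 1`, a
rotation field is `Dσ(x)[Jx]`, use `ContinuousLinearMap.norm_iteratedFDeriv_le_of_bilinear`). -/
theorem IsSym.wordBdd (m : ℝ) (C : ℕ → ℝ) :
    ∃ C' : ℕ → ℝ, ∀ (R : ℝ), 1 ≤ R → ∀ σ : Space → V, IsSym R m C σ →
      WordBdd R C' (fun x => ‖x‖ ^ (-m)) σ := by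
  refine ⟨fun n => (symT^[n] C) 0, fun R hR σ h => ⟨h.1, fun w x hx => ?_⟩⟩
  have := (h.dword_sym hR w).2 0 x hx
  rw [norm_iteratedFDeriv_zero] at this
  simpa using this

/-- translation fields gain one order. -/
theorem IsSym.dfield_trans {R m : ℝ} {C : ℕ → ℝ} {σ : Space → V} (h : IsSym R m C σ) (j : Fin 3) :
    IsSym R (m + 1) (fun n => C (n + 1)) (dfield (Sum.inl j) σ) := by
  refine ⟨contDiffOn_dfield h.1 _, fun n x hx => ?_⟩
  have hc : ContDiffAt ℝ ∞ (fderiv ℝ σ) x := (contDiffOn_fderiv_Ext h.1).contDiffAt (Ext_mem_nhds hx)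
  have key := (ContinuousLinearMap.apply ℝ V (EuclideanSpace.single j (1 : ℝ) : Space)).norm_iteratedFDeriv_comp_left
    (n := n) hc (WithTop.coe_le_coe.2 le_top)
  have hL : ‖ContinuousLinearMap.apply ℝ V (EuclideanSpace.single j (1 : ℝ) : Space)‖ ≤ 1 := by
    refine ContinuousLinearMap.opNorm_le_bound _ zero_le_one fun T => ?_
    rw [ContinuousLinearMap.apply_apply, one_mul]
    have := T.le_opNorm (EuclideanSpace.single j (1 : ℝ) : Space)
    simpa using this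
  have e : (dfield (Sum.inl j) σ) =
      (ContinuousLinearMap.apply ℝ V (EuclideanSpace.single j (1 : ℝ) : Space)) ∘ fderiv ℝ σ := rfl
  rw [e]
  refine key.trans ?_
  rw [norm_iteratedFDeriv_fderiv]
  have h2 := h.2 (n + 1) x hx
  have e2 : -(m + ((n + 1 : ℕ) : ℝ)) = -(m + 1 + n) := by push_cast; ring
  rw [e2] at h2
  calc _ ≤ 1 * ‖iteratedFDeriv ℝ (n + 1) σ x‖ := mul_le_mul_of_nonneg_right hL (norm_nonneg _)
    _ ≤ _ := by rw [one_mul]; exact h2

theorem IsSym.mono {R R' m : ℝ} {C : ℕ → ℝ} {σ : Space → V} (h : IsSym R m C σ) (hR : R ≤ R') :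
    IsSym R' m C σ :=
  ⟨h.1.mono (Ext_mono hR), fun n x hx => h.2 n x (Ext_mono hR hx)⟩

/-- scaling of the iterated derivatives. -/
theorem iteratedFDeriv_comp_smul (σ : Space → V) {ρ : ℝ} (hρ : ρ ≠ 0) (n : ℕ) (x : Space) :
    iteratedFDeriv ℝ n (fun y => σ (ρ • y)) x = ρ ^ n • iteratedFDeriv ℝ n σ (ρ • x) := by
  have h := (ContinuousLinearEquiv.smulLeft (R₁ := ℝ) (M₁ := Space)
    (Units.mk0 ρ hρ)).iteratedFDerivWithin_comp_right σ uniqueDiffOn_univ (x := x)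
      (Set.mem_univ _) n
  rw [Set.preimage_univ, iteratedFDerivWithin_univ, iteratedFDerivWithin_univ] at h
  have e : (σ ∘ (ContinuousLinearEquiv.smulLeft (R₁ := ℝ) (M₁ := Space) (Units.mk0 ρ hρ))) =
      fun y => σ (ρ • y) := rfl
  rw [e] at h
  rw [h]
  ext v
  rw [ContinuousMultilinearMap.compContinuousLinearMap_apply]
  have e2 : (fun i => ((ContinuousLinearEquiv.smulLeft (R₁ := ℝ) (M₁ := Space)
      (Units.mk0 ρ hρ) : Space ≃L[ℝ] Space) : Space →L[ℝ] Space) (v i)) = fun i => ρ • v i := rfl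
  rw [e2, ContinuousMultilinearMap.map_smul_univ]
  simp

/-- smooth positively homogeneous functions of degree `-m` are Cartesian symbols of order `-m`. -/
theorem isSym_of_homogeneous {m : ℝ} {σ : Space → V} (hσ : ContDiffOn ℝ ∞ σ (Ext 0))
    (hom : ∀ x ∈ Ext 0, ∀ ρ : ℝ, 0 < ρ → σ (ρ • x) = ρ ^ (-m) • σ x) :
    ∃ C : ℕ → ℝ, IsSym 0 m C σ := by
  have ho := isOpen_Ext 0
  -- bounds on the unit sphere
  have hsph : Metric.sphere (0 : Space) 1 ⊆ Ext 0 := by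
    intro x hx
    have : ‖x‖ = 1 := by simpa using hx
    show (0 : ℝ) < ‖x‖
    rw [this]; exact one_pos
  have hb : ∀ n : ℕ, ∃ B, ∀ x ∈ Metric.sphere (0 : Space) 1, ‖iteratedFDeriv ℝ n σ x‖ ≤ B := by
    intro n
    have hc : ContinuousOn (iteratedFDeriv ℝ n σ) (Ext 0) :=
      (hσ.continuousOn_iteratedFDerivWithin (m := n) (WithTop.coe_le_coe.2 le_top)
        ho.uniqueDiffOn).congr (fun x hx => (iteratedFDerivWithin_of_isOpen n ho hx).symm)
    exact (isCompact_sphere (0 : Space) 1).exists_bound_of_continuousOn (hc.mono hsph)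
  choose B hB using hb
  refine ⟨B, hσ, fun n x hx => ?_⟩
  have hx0 : x ≠ 0 := ne_zero_of_mem_Ext le_rfl hx
  have hr : 0 < ‖x‖ := hx
  -- the unit vector
  have hu : ‖urad x‖ = 1 := by
    rw [urad, norm_smul, norm_inv, norm_norm, inv_mul_cancel₀ hr.ne']
  have hu0 : urad x ∈ Ext 0 := hsph (by simpa using hu)
  have hxu : ‖x‖ • urad x = x := by rw [urad, smul_smul, mul_inv_cancel₀ hr.ne', one_smul]
  have hev : (fun y => σ (‖x‖ • y)) =ᶠ[𝓝 (urad x)] fun y => ‖x‖ ^ (-m) • σ y :=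
    Filter.eventually_of_mem (Ext_mem_nhds hu0) fun y hy => hom y hy ‖x‖ hr
  have e1 := (hev.iteratedFDeriv ℝ n).eq_of_nhds
  rw [iteratedFDeriv_comp_smul σ hr.ne' n, hxu,
    iteratedFDeriv_const_smul_apply' ((hσ.contDiffAt (Ext_mem_nhds hu0)).of_le
      (WithTop.coe_le_coe.2 le_top))] at e1
  have e2 := congrArg norm e1
  rw [norm_smul, norm_smul, norm_pow, Real.norm_of_nonneg hr.le,
    Real.norm_of_nonneg (Real.rpow_nonneg hr.le _)] at e2
  have e3 : ‖iteratedFDeriv ℝ n σ x‖ = ‖x‖ ^ (-(m + n)) * ‖iteratedFDeriv ℝ n σ (urad x)‖ := by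
    have : ‖x‖ ^ (-(m + n)) = ‖x‖ ^ (-m) * (‖x‖ ^ n)⁻¹ := by
      rw [neg_add, Real.rpow_add hr, Real.rpow_neg hr.le (n : ℝ), Real.rpow_natCast]
    rw [this]
    have hp : (0 : ℝ) < ‖x‖ ^ n := by positivity
    field_simp
    linarith
  rw [e3, mul_comm]
  exact mul_le_mul_of_nonneg_right (hB n _ (by simpa using hu)) (Real.rpow_nonneg hr.le _)

/-- **second differences.** -/
theorem norm_second_diff_le {W : Type*} [NormedAddCommGroup W] [NormedSpace ℝ W] {G : Space → W}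
    {x a : Space} {M : ℝ} (hG : ∀ y ∈ Metric.closedBall x ‖a‖, DifferentiableAt ℝ G y)
    (hG' : ∀ y ∈ Metric.closedBall x ‖a‖, ‖fderiv ℝ G y - fderiv ℝ G x‖ ≤ M) :
    ‖G (x + a) + G (x - a) - (2 : ℝ) • G x‖ ≤ 2 * M * ‖a‖ := by
  have hc : Convex ℝ (Metric.closedBall x ‖a‖) := convex_closedBall x ‖a‖
  have hx : x ∈ Metric.closedBall x ‖a‖ := Metric.mem_closedBall_self (norm_nonneg _)
  have h1 : x + a ∈ Metric.closedBall x ‖a‖ := by simp [Metric.mem_closedBall]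
  have h2 : x - a ∈ Metric.closedBall x ‖a‖ := by simp [Metric.mem_closedBall]
  have b1 := hc.norm_image_sub_le_of_norm_fderiv_le' hG hG' hx h1
  have b2 := hc.norm_image_sub_le_of_norm_fderiv_le' hG hG' hx h2
  have e1 : x + a - x = a := by abel
  have e2 : x - a - x = -a := by abel
  rw [e1] at b1
  rw [e2, norm_neg, map_neg] at b2
  have e : G (x + a) + G (x - a) - (2 : ℝ) • G x =
      (G (x + a) - G x - fderiv ℝ G x a) + (G (x - a) - G x - -fderiv ℝ G x a) := by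
    rw [two_smul]; abel
  rw [e]
  refine (norm_add_le _ _).trans ?_
  linarith

theorem norm_ez : ‖ez‖ = 1 := by simp [ez]

/-- `1/r` is a symbol of order `-1`. -/
theorem inv_norm_isSym : ∃ C : ℕ → ℝ, IsSym 0 1 C (fun y : Space => ‖y‖⁻¹) := by
  refine isSym_of_homogeneous ((contDiffOn_norm_Ext le_rfl).inv
    (fun y hy => norm_ne_zero_iff.2 (ne_zero_of_mem_Ext le_rfl hy))) ?_
  intro x _ ρ hρ
  rw [norm_smul, Real.norm_of_nonneg hρ.le, mul_inv, Real.rpow_neg_one, smul_eq_mul]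

theorem uD_add_eq (x : Space) : uD x + 2 / ‖x‖ =
    -(‖x + bigD • ez‖⁻¹ + ‖x - bigD • ez‖⁻¹ - (2 : ℝ) • ‖x‖⁻¹) := by
  unfold uD nuclearPotential
  rw [smul_eq_mul]
  ring

/-- the two-centre potential: `u + 2/r` is a symbol of order `-3` on `|x| > 2D`
(second order Taylor formula in the nuclear positions, the odd term cancels). -/
theorem uD_add_isSym : ∃ C : ℕ → ℝ, IsSym (2 * bigD) 3 C (fun x => uD x + 2 / ‖x‖) := by
  obtain ⟨Cg, hg⟩ := inv_norm_isSym
  have hD : (0 : ℝ) < bigD := by unfold bigD; positivity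
  set a : Space := bigD • ez with ha
  have hna : ‖a‖ = bigD := by rw [ha, norm_smul, norm_ez, mul_one, Real.norm_of_nonneg hD.le]
  set g : Space → ℝ := fun y => ‖y‖⁻¹ with hgdef
  -- points near `x`
  have hball : ∀ x ∈ Ext (2 * bigD), ∀ z ∈ Metric.closedBall x ‖a‖, ‖x‖ / 2 ≤ ‖z‖ := by
    intro x hx z hz
    have hx' : 2 * bigD < ‖x‖ := hx
    rw [Metric.mem_closedBall, dist_eq_norm, hna] at hz
    have := norm_sub_norm_le x (x - z)
    have e : x - (x - z) = z := by abel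
    rw [e, norm_sub_rev x z] at this
    linarith
  have hball0 : ∀ x ∈ Ext (2 * bigD), ∀ z ∈ Metric.closedBall x ‖a‖, z ∈ Ext 0 := by
    intro x hx z hz
    have hx' : 2 * bigD < ‖x‖ := hx
    have := hball x hx z hz
    show (0 : ℝ) < ‖z‖
    linarith
  have hgat : ∀ z ∈ Ext 0, ContDiffAt ℝ ∞ g z := fun z hz => hg.1.contDiffAt (Ext_mem_nhds hz)
  have hp : ∀ x ∈ Ext (2 * bigD), x + a ∈ Ext 0 ∧ x - a ∈ Ext 0 ∧ x ∈ Ext 0 := by
    intro x hx
    refine ⟨hball0 x hx _ ?_, hball0 x hx _ ?_, hball0 x hx _ ?_⟩ <;>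
      simp [Metric.mem_closedBall, dist_eq_norm]
  have hc1 : ∀ x ∈ Ext (2 * bigD), ContDiffAt ℝ ∞ (fun z => g (z + a)) x := fun x hx =>
    ContDiffAt.comp (g := g) (f := fun z : Space => z + a) x (hgat _ (hp x hx).1)
      (contDiffAt_id.add contDiffAt_const)
  have hc2 : ∀ x ∈ Ext (2 * bigD), ContDiffAt ℝ ∞ (fun z => g (z - a)) x := fun x hx =>
    ContDiffAt.comp (g := g) (f := fun z : Space => z - a) x (hgat _ (hp x hx).2.1)
      (contDiffAt_id.sub contDiffAt_const)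
  have hc3 : ∀ x ∈ Ext (2 * bigD), ContDiffAt ℝ ∞ ((2 : ℝ) • g) x := fun x hx =>
    (hgat _ (hp x hx).2.2).const_smul (2 : ℝ)
  have hfun : (fun x => uD x + 2 / ‖x‖) =
      -((fun z => g (z + a)) + (fun z => g (z - a)) - (2 : ℝ) • g) := by
    funext x
    rw [uD_add_eq]
    rfl
  refine ⟨fun n => 2 * (|Cg (n + 2)| * 2 ^ (n + 3) * bigD) * bigD, ?_, ?_⟩
  · rw [hfun]
    exact fun x hx => ((((hc1 x hx).add (hc2 x hx)).sub (hc3 x hx)).neg).contDiffWithinAt
  · intro n x hx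
    have hx' : 2 * bigD < ‖x‖ := hx
    have hr : 0 < ‖x‖ := by linarith
    have hle : ∀ {f : Space → ℝ}, ContDiffAt ℝ ∞ f x → ContDiffAt ℝ n f x := fun h =>
      h.of_le (WithTop.coe_le_coe.2 le_top)
    have h12 : ContDiffAt ℝ ∞ ((fun z => g (z + a)) + fun z => g (z - a)) x :=
      (hc1 x hx).add (hc2 x hx)
    rw [hfun, iteratedFDeriv_neg_apply, norm_neg,
      iteratedFDeriv_sub_apply (hle h12) (hle (hc3 x hx)),
      iteratedFDeriv_add_apply (hle (hc1 x hx)) (hle (hc2 x hx)),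
      iteratedFDeriv_comp_add_right, iteratedFDeriv_comp_sub,
      iteratedFDeriv_const_smul_apply (hle (hgat _ (hp x hx).2.2))]
    -- bound of the derivatives of order `n + 2` on the ball
    set M : ℝ := |Cg (n + 2)| * 2 ^ (n + 3) * ‖x‖ ^ (-(3 + n : ℝ)) with hM
    have hM2 : ∀ z ∈ Metric.closedBall x ‖a‖, ‖fderiv ℝ (iteratedFDeriv ℝ (n + 1) g) z‖ ≤ M := by
      intro z hz
      rw [norm_fderiv_iteratedFDeriv]
      have h1 := hg.2 (n + 1 + 1) z (hball0 x hx z hz)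
      have h2 : ‖z‖ ^ (-(1 + ((n + 1 + 1 : ℕ) : ℝ))) ≤ (‖x‖ / 2) ^ (-(1 + ((n + 1 + 1 : ℕ) : ℝ))) :=
        Real.rpow_le_rpow_of_nonpos (by positivity) (hball x hx z hz)
          (by have : (0 : ℝ) ≤ ((n + 1 + 1 : ℕ) : ℝ) := Nat.cast_nonneg _; linarith)
      have h3 : (‖x‖ / 2) ^ (-(1 + ((n + 1 + 1 : ℕ) : ℝ))) = 2 ^ (n + 3) * ‖x‖ ^ (-(3 + n : ℝ)) := by
        have e : -(1 + ((n + 1 + 1 : ℕ) : ℝ)) = -(3 + n : ℝ) := by push_cast; ring
        rw [e, Real.div_rpow hr.le (by norm_num), Real.rpow_neg (by norm_num : (0 : ℝ) ≤ 2)]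
        have e2 : (2 : ℝ) ^ (3 + n : ℝ) = 2 ^ (n + 3) := by
          rw [← Real.rpow_natCast]; congr 1; push_cast; ring
        rw [e2]
        field_simp
      calc ‖iteratedFDeriv ℝ (n + 1 + 1) g z‖ ≤ Cg (n + 1 + 1) * ‖z‖ ^ (-(1 + ((n + 1 + 1 : ℕ) : ℝ))) := h1
        _ ≤ |Cg (n + 2)| * ‖z‖ ^ (-(1 + ((n + 1 + 1 : ℕ) : ℝ))) :=
            mul_le_mul_of_nonneg_right (le_abs_self _) (Real.rpow_nonneg (norm_nonneg _) _)
        _ ≤ |Cg (n + 2)| * (‖x‖ / 2) ^ (-(1 + ((n + 1 + 1 : ℕ) : ℝ))) :=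
            mul_le_mul_of_nonneg_left h2 (abs_nonneg _)
        _ = M := by rw [h3, hM]; ring
    have hd : ∀ (k : ℕ), ∀ z ∈ Metric.closedBall x ‖a‖,
        DifferentiableAt ℝ (iteratedFDeriv ℝ k g) z := fun k z hz =>
      (hgat z (hball0 x hx z hz)).differentiableAt_iteratedFDeriv
        (WithTop.coe_lt_coe.2 (ENat.natCast_lt_top k))
    have hxb : x ∈ Metric.closedBall x ‖a‖ := Metric.mem_closedBall_self (norm_nonneg _)
    have hlip : ∀ y ∈ Metric.closedBall x ‖a‖,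
        ‖fderiv ℝ (iteratedFDeriv ℝ n g) y - fderiv ℝ (iteratedFDeriv ℝ n g) x‖ ≤ M * ‖a‖ := by
      intro y hy
      have e : ∀ z, fderiv ℝ (iteratedFDeriv ℝ n g) z =
          (continuousMultilinearCurryLeftEquiv ℝ (fun _ : Fin (n + 1) => Space) ℝ)
            (iteratedFDeriv ℝ (n + 1) g z) := fun z => rfl
      rw [e y, e x, ← LinearIsometryEquiv.map_sub, LinearIsometryEquiv.norm_map]
      refine ((convex_closedBall x ‖a‖).norm_image_sub_le_of_norm_fderiv_le (hd (n + 1)) hM2 hxb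
        hy).trans ?_
      have hM0 : 0 ≤ M := by rw [hM]; positivity
      refine mul_le_mul_of_nonneg_left ?_ hM0
      rw [← dist_eq_norm]; exact hy
    have := norm_second_diff_le (hd n) hlip
    refine this.trans (le_of_eq ?_)
    rw [hna, hM]
    ring

theorem dword_zero_fun (w : List (Fin 3 ⊕ Fin 3)) :
    dword w (fun _ : Space => (0 : V)) = fun _ => 0 := by
  induction w with
  | nil => rfl
  | cons a w ih =>
    rw [dword_cons, ih]
    funext x
    simp [dfield]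

theorem WordBdd.mono_const {R : ℝ} {C C' : ℕ → ℝ} {g : Space → ℝ} {σ : Space → V}
    (h : WordBdd R C g σ) (hg : ∀ x ∈ Ext R, 0 ≤ g x) (hC : ∀ n, C n ≤ C' n) : WordBdd R C' g σ :=
  h.mono le_rfl fun n x hx => mul_le_mul_of_nonneg_right (hC n) (hg x hx)

/-- a function vanishing on `Ext R`. -/
theorem wordBdd_of_eq_zero {R : ℝ} {g : Space → ℝ} {σ : Space → V} (h : ∀ x ∈ Ext R, σ x = 0) :
    WordBdd R (fun _ => 0) g σ := by
  refine ⟨contDiffOn_const.congr h, fun w x hx => ?_⟩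
  rw [dword_congr h w x hx, dword_zero_fun]
  simp

theorem rpow_neg_natCast_eq {r : ℝ} (hr : 0 ≤ r) (k : ℕ) : r ^ (-(k : ℝ)) = (r ^ k)⁻¹ := by
  rw [Real.rpow_neg hr, Real.rpow_natCast]

/-- `2/r` is a symbol of order `-1`. -/
theorem two_div_norm_isSym : ∃ C : ℕ → ℝ, IsSym 0 1 C (fun y : Space => 2 / ‖y‖) := by
  refine isSym_of_homogeneous (contDiffOn_const.div (contDiffOn_norm_Ext le_rfl)
    (fun y hy => norm_ne_zero_iff.2 (ne_zero_of_mem_Ext le_rfl hy))) ?_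
  intro x _ ρ hρ
  rw [norm_smul, Real.norm_of_nonneg hρ.le, Real.rpow_neg_one, smul_eq_mul]
  field_simp

/-- `2/r = O(r⁻¹)`, `𝔇ₐ(2/r) = O(r⁻²)` with all words. -/
theorem two_div_norm_wordBdd : ∃ C : ℕ → ℝ, (∀ n, 0 ≤ C n) ∧
    WordBdd 1 C (fun x => ‖x‖⁻¹) (fun x : Space => 2 / ‖x‖) ∧
    ∀ a, WordBdd 1 C (fun x => (‖x‖ ^ 2)⁻¹) (dfield a (fun x : Space => 2 / ‖x‖)) := by
  obtain ⟨C, hC⟩ := two_div_norm_isSym
  obtain ⟨C₁, h₁⟩ := IsSym.wordBdd (V := ℝ) 1 C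
  obtain ⟨C₂, h₂⟩ := IsSym.wordBdd (V := ℝ) (1 + 1) (fun n => C (n + 1))
  have hC1 : IsSym 1 1 C (fun y : Space => 2 / ‖y‖) := hC.mono zero_le_one
  refine ⟨fun n => |C₁ n| + |C₂ n|, fun n => by positivity, ?_, ?_⟩
  · refine (h₁ 1 le_rfl _ hC1).mono le_rfl fun n x _ => ?_
    rw [Real.rpow_neg_one]
    refine mul_le_mul_of_nonneg_right ?_ (by positivity)
    have := le_abs_self (C₁ n)
    have := abs_nonneg (C₂ n)
    linarith
  · rintro (j | i)
    · refine (h₂ 1 le_rfl _ (hC1.dfield_trans j)).mono le_rfl fun n x _ => ?_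
      have e : ‖x‖ ^ (-(1 + 1 : ℝ)) = (‖x‖ ^ 2)⁻¹ := by
        have := rpow_neg_natCast_eq (norm_nonneg x) 2
        rw [← this]; norm_num
      rw [e]
      refine mul_le_mul_of_nonneg_right ?_ (by positivity)
      have := le_abs_self (C₂ n)
      have := abs_nonneg (C₁ n)
      linarith
    · have hz : ∀ x ∈ Ext 1, dfield (Sum.inr i) (fun x : Space => 2 / ‖x‖) x = 0 := by
        intro x hx
        have hx0 : x ≠ 0 := ne_zero_of_mem_Ext zero_le_one hx
        exact dfield_rot_radial (ρ := fun r => 2 / r) hx0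
          ((differentiableAt_const _).div differentiableAt_id (norm_ne_zero_iff.2 hx0)) i
      exact (wordBdd_of_eq_zero hz).mono_const (fun x _ => by positivity) (fun n => by positivity)

/-- consequences in `WordBdd` form. -/
theorem uD_wordBdd : ∃ C : ℕ → ℝ, WordBdd (2 * bigD) C (fun x => ‖x‖⁻¹) uD ∧
    WordBdd (2 * bigD) C (fun x => (‖x‖ ^ 3)⁻¹) (fun x => uD x + 2 / ‖x‖) ∧
    ∀ a, WordBdd (2 * bigD) C (fun x => (‖x‖ ^ 2)⁻¹) (dfield a uD) := by
  obtain ⟨C₃, h₃⟩ := uD_add_isSym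
  obtain ⟨C₃', h₃'⟩ := IsSym.wordBdd (V := ℝ) 3 C₃
  obtain ⟨C₁, hC₁, h₁, h₂⟩ := two_div_norm_wordBdd
  have hD : (1 : ℝ) ≤ 2 * bigD := by unfold bigD; norm_num
  have hr1 : ∀ x ∈ Ext (2 * bigD), 1 ≤ ‖x‖ := fun x hx => hD.trans (le_of_lt hx)
  -- `u + 2/r`
  have A : WordBdd (2 * bigD) (fun n => |C₃' n|) (fun x => (‖x‖ ^ 3)⁻¹) (fun x => uD x + 2 / ‖x‖) := by
    refine (h₃' _ hD _ h₃).mono le_rfl fun n x _ => ?_
    have e : ‖x‖ ^ (-(3 : ℝ)) = (‖x‖ ^ 3)⁻¹ := by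
      have := rpow_neg_natCast_eq (norm_nonneg x) 3
      rw [← this]; norm_num
    rw [e]
    exact mul_le_mul_of_nonneg_right (le_abs_self _) (by positivity)
  have h31 : ∀ x ∈ Ext (2 * bigD), (‖x‖ ^ 3)⁻¹ ≤ ‖x‖⁻¹ := by
    intro x hx
    have := hr1 x hx
    apply inv_anti₀ (by linarith)
    calc ‖x‖ = ‖x‖ ^ 1 := (pow_one _).symm
      _ ≤ ‖x‖ ^ 3 := pow_le_pow_right₀ this (by norm_num)
  have h32 : ∀ x ∈ Ext (2 * bigD), (‖x‖ ^ 3)⁻¹ ≤ (‖x‖ ^ 2)⁻¹ := by
    intro x hx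
    have := hr1 x hx
    apply inv_anti₀ (by positivity)
    exact pow_le_pow_right₀ this (by norm_num)
  have B : WordBdd (2 * bigD) C₁ (fun x => ‖x‖⁻¹) (fun x : Space => 2 / ‖x‖) :=
    h₁.mono hD fun _ _ _ => le_rfl
  have B' : ∀ a, WordBdd (2 * bigD) C₁ (fun x => (‖x‖ ^ 2)⁻¹) (dfield a (fun x : Space => 2 / ‖x‖)) :=
    fun a => (h₂ a).mono hD fun _ _ _ => le_rfl
  have hu : ∀ x : Space, uD x = (uD x + 2 / ‖x‖) - 2 / ‖x‖ := fun x => by ring
  refine ⟨fun n => |C₃' n| + |C₃' (n + 1)| + C₁ n, ?_, ?_, ?_⟩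
  · have A1 : WordBdd (2 * bigD) (fun n => |C₃' n|) (fun x => ‖x‖⁻¹) (fun x => uD x + 2 / ‖x‖) :=
      A.mono le_rfl fun n x hx => mul_le_mul_of_nonneg_left (h31 x hx) (abs_nonneg _)
    refine ((A1.sub B).congr fun x _ => hu x).mono_const (fun x _ => by positivity) fun n => ?_
    have := abs_nonneg (C₃' (n + 1))
    linarith
  · refine A.mono_const (fun x _ => by positivity) fun n => ?_
    have := abs_nonneg (C₃' (n + 1))
    have := hC₁ n
    linarith
  · intro a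
    have A2 : WordBdd (2 * bigD) (fun n => |C₃' (n + 1)|) (fun x => (‖x‖ ^ 2)⁻¹)
        (dfield a (fun x => uD x + 2 / ‖x‖)) :=
      (A.dfield_bdd a).mono le_rfl fun n x hx => mul_le_mul_of_nonneg_left (h32 x hx) (abs_nonneg _)
    have hd : ∀ x ∈ Ext (2 * bigD), dfield a uD x =
        dfield a (fun x => uD x + 2 / ‖x‖) x - dfield a (fun x : Space => 2 / ‖x‖) x := by
      intro x hx
      rw [← dfield_sub (differentiableAt_of_mem_Ext A.1 hx) (differentiableAt_of_mem_Ext B.1 hx)]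
      congr 1
      funext y
      exact hu y
    refine ((A2.sub (B' a)).congr hd).mono_const (fun x _ => by positivity) fun n => ?_
    have := abs_nonneg (C₃' n)
    linarith

end D

end Claimed.Open.R278
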