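import Claimed.Open.R278.CHTD2
import Claimed.Open.R278.CHTB

/-!
# Result 278, package CHT (paper-free analysis tools for the channel layer), file CHTD3

Leaf `CHT-D3`: PROVED (helper225), no `sorry` in this file.  Conventions: `Space = ℝ³`, `Ext R = {R < |x|}` (open),
`vfield/dfield/dword/dr/WordBdd` from `CHDefs`, `WordBddN` from `CHTD1`.  You may add auxiliary lemmas
to this file, and change a statement only after telling helper225 (channel open278).
-/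

open MeasureTheory Filter
open scoped ContDiff InnerProductSpace ComplexConjugate ENNReal Topology Laplacian

noncomputable section

namespace Claimed.Open.R278

/-! ## D3. Words of the explicit profiles (leaf CHT-D3) -/

section D3

/-- constants of `wordBdd_of_logDeriv`. -/
def logC (C : ℕ → ℝ) : ℕ → ℕ → ℝ
  | 0 => fun _ => 1
  | n + 1 => fun i => Nat.casesOn i 1 (mulC C (logC C n))

theorem wordBdd_of_logDeriv (C : ℕ → ℝ) : ∃ C' : ℕ → ℝ, ∀ (R : ℝ) (σ : Space → ℝ)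
    (ν : Fin 3 ⊕ Fin 3 → Space → ℝ), ContDiffOn ℝ ∞ σ (Ext R) → (∀ x ∈ Ext R, 0 ≤ σ x) →
    (∀ a, WordBdd R C (fun _ => 1) (ν a)) → (∀ a, ∀ x ∈ Ext R, dfield a σ x = ν a x * σ x) →
    WordBdd R C' σ σ := by
  refine ⟨fun n => logC C n n, fun R σ ν hσ h0 hν hd => ?_⟩
  apply wordBdd_of_forall (C := logC C)
  intro n
  induction n with
  | zero =>
    refine ⟨hσ, fun w hw x hx => ?_⟩
    have : w = [] := List.length_eq_zero_iff.1 (Nat.le_zero.1 hw)
    subst this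
    simp [dword_nil, logC, abs_of_nonneg (h0 x hx)]
  | succ n ih =>
    apply WordBddN.succ hσ (c₀ := 1) (fun x hx => by simp [abs_of_nonneg (h0 x hx)])
    intro a
    have h1 := ((hν a).toN n).smul (fun _ _ => zero_le_one) h0 ih
    exact (h1.congr (fun x hx => hd a x hx)).mono le_rfl (fun i _ x _ => by simp)

theorem mulC_nonneg (C₁ C₂ : ℕ → ℝ) (n : ℕ) : 0 ≤ mulC C₁ C₂ n :=
  mul_nonneg (mul_nonneg (by positivity) (cumC_nonneg _ _)) (cumC_nonneg _ _)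

/-- constants of `wordBdd_of_quadDeriv`. -/
def quadC (C : ℕ → ℝ) : ℕ → ℕ → ℝ
  | 0 => fun _ => 1
  | n + 1 => fun i => Nat.casesOn i 1 (mulC C (mulC (quadC C n) (quadC C n)))

/-- quadratic variant: `𝔇ₐσ = μₐ σ²` with `μₐ = O(g)`, `g σ ≤ 1`. -/
theorem wordBdd_of_quadDeriv (C : ℕ → ℝ) : ∃ C' : ℕ → ℝ, ∀ (R : ℝ) (σ g : Space → ℝ)
    (μ : Fin 3 ⊕ Fin 3 → Space → ℝ), ContDiffOn ℝ ∞ σ (Ext R) → (∀ x ∈ Ext R, 0 ≤ σ x) →
    (∀ x ∈ Ext R, 0 ≤ g x) → (∀ x ∈ Ext R, g x * σ x ≤ 1) →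
    (∀ a, WordBdd R C g (μ a)) → (∀ a, ∀ x ∈ Ext R, dfield a σ x = μ a x * (σ x * σ x)) →
    WordBdd R C' σ σ := by
  refine ⟨fun n => quadC C n n, fun R σ g μ hσ h0 hg hgσ hμ hd => ?_⟩
  apply wordBdd_of_forall (C := quadC C)
  intro n
  induction n with
  | zero =>
    refine ⟨hσ, fun w hw x hx => ?_⟩
    have : w = [] := List.length_eq_zero_iff.1 (Nat.le_zero.1 hw)
    subst this
    simp [dword_nil, quadC, abs_of_nonneg (h0 x hx)]
  | succ n ih =>
    apply WordBddN.succ hσ (c₀ := 1) (fun x hx => by simp [abs_of_nonneg (h0 x hx)])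
    intro a
    have h2 := ih.smul h0 h0 ih
    have h1 := ((hμ a).toN n).smul hg (fun x hx => mul_nonneg (h0 x hx) (h0 x hx)) h2
    refine (h1.congr (fun x hx => hd a x hx)).mono le_rfl (fun i _ x hx => ?_)
    apply mul_le_mul_of_nonneg_left _ (mulC_nonneg _ _ _)
    have := mul_le_mul_of_nonneg_right (hgσ x hx) (h0 x hx)
    linarith

/-! ### affine functions -/

/-- constants and linear forms of norm `≤ 1`. -/
def IsAff1 (f : Space → ℝ) : Prop :=
  (∃ c : ℝ, |c| ≤ 1 ∧ f = fun _ => c) ∨ (∃ v : Space, ‖v‖ ≤ 1 ∧ f = fun x => ⟪v, x⟫_ℝ)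

theorem inner_vfield_rot_antisymm (i : Fin 3) (v x : Space) :
    ⟪v, vfield (Sum.inr i) x⟫_ℝ = ⟪-vfield (Sum.inr i) v, x⟫_ℝ := by
  fin_cases i <;>
    simp [vfield_inr_zero, vfield_inr_one, vfield_inr_two, PiLp.inner_apply, Fin.sum_univ_three]

theorem IsAff1.dfield_aff {f : Space → ℝ} (h : IsAff1 f) (a : Fin 3 ⊕ Fin 3) :
    IsAff1 (dfield a f) := by
  rcases h with ⟨c, -, rfl⟩ | ⟨v, hv, rfl⟩
  · exact Or.inl ⟨0, by simp, by funext x; simp [dfield]⟩
  · have e : ∀ x, dfield a (fun y : Space => ⟪v, y⟫_ℝ) x = ⟪v, vfield a x⟫_ℝ := by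
      intro x
      have : (fun y : Space => ⟪v, y⟫_ℝ) = (innerSL ℝ v : Space →L[ℝ] ℝ) := rfl
      simp only [dfield]
      rw [this, ContinuousLinearMap.fderiv]; rfl
    rcases a with j | i
    · refine Or.inl ⟨v j, (PiLp.norm_apply_le v j).trans hv, ?_⟩
      funext x
      rw [e]
      simp [vfield, EuclideanSpace.inner_single_right]
    · refine Or.inr ⟨-vfield (Sum.inr i) v, ?_, ?_⟩
      · rw [norm_neg]; exact (norm_vfield_rot_le i v).trans hv
      · funext x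
        rw [e, inner_vfield_rot_antisymm]

theorem IsAff1.dword_aff {f : Space → ℝ} (h : IsAff1 f) (w : List (Fin 3 ⊕ Fin 3)) :
    IsAff1 (dword w f) := by
  induction w with
  | nil => exact h
  | cons a w ih => rw [dword_cons]; exact ih.dfield_aff a

theorem IsAff1.abs_le {f : Space → ℝ} (h : IsAff1 f) {x : Space} (hx : x ∈ Ext 1) :
    |f x| ≤ ‖x‖ := by
  have hx1 : 1 < ‖x‖ := hx
  rcases h with ⟨c, hc, rfl⟩ | ⟨v, hv, rfl⟩
  · exact hc.trans hx1.le
  · calc |⟪v, x⟫_ℝ| ≤ ‖v‖ * ‖x‖ := abs_real_inner_le_norm v x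
      _ ≤ 1 * ‖x‖ := by gcongr
      _ = ‖x‖ := one_mul _

theorem IsAff1.contDiff {f : Space → ℝ} (h : IsAff1 f) : ContDiff ℝ ∞ f := by
  rcases h with ⟨c, -, rfl⟩ | ⟨v, -, rfl⟩
  · exact contDiff_const
  · exact (innerSL ℝ v : Space →L[ℝ] ℝ).contDiff

theorem IsAff1.wordBdd {f : Space → ℝ} (h : IsAff1 f) :
    WordBdd 1 (fun _ => 1) (fun x => ‖x‖) f :=
  ⟨h.contDiff.contDiffOn, fun w x hx => by
    rw [one_mul]; exact (h.dword_aff w).abs_le hx⟩

theorem isAff1_coord (j : Fin 3) : IsAff1 (fun x : Space => x j) :=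
  Or.inr ⟨EuclideanSpace.single j 1, by simp, by
    funext x; simp [EuclideanSpace.inner_single_left]⟩

/-- coordinates: `𝔇ₐ xⱼ ∈ {0, 1, ± xᵢ}`. -/
theorem coord_wordBdd (j : Fin 3) :
    WordBdd 1 (fun _ => 1) (fun x => ‖x‖) (fun x : Space => x j) := (isAff1_coord j).wordBdd


/-- `r 𝔇ₐ r`: `xⱼ` for a translation field, `0` for a rotation field. -/
def qv : Fin 3 ⊕ Fin 3 → Space → ℝ
  | .inl j, x => x j
  | .inr _, _ => 0

theorem qv_wordBdd (a : Fin 3 ⊕ Fin 3) : WordBdd 1 (fun _ => 1) (fun x => ‖x‖) (qv a) := by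
  rcases a with j | i
  · exact coord_wordBdd j
  · exact IsAff1.wordBdd (Or.inl ⟨0, by simp, rfl⟩)

/-- derivative of a radial function along any of the six fields. -/
theorem dfield_radial {ρ : ℝ → ℝ} {x : Space} (hx : x ≠ 0) (hρ : DifferentiableAt ℝ ρ ‖x‖)
    (a : Fin 3 ⊕ Fin 3) :
    dfield a (fun y : Space => ρ ‖y‖) x = deriv ρ ‖x‖ * (qv a x / ‖x‖) := by
  rcases a with j | i
  · exact dfield_trans_radial hx hρ j
  · rw [dfield_rot_radial hx hρ i]; simp [qv]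

theorem WordBdd.const_mul_le {R : ℝ} {C : ℕ → ℝ} {g : Space → ℝ} {σ : Space → ℝ}
    (h : WordBdd R C g σ) (hg : ∀ x ∈ Ext R, 0 ≤ g x) {c B : ℝ} (hc : |c| ≤ B) :
    WordBdd R (fun n => B * |C n|) g (fun x => c * σ x) := by
  refine ⟨contDiffOn_const.mul h.1, fun w x hx => ?_⟩
  have e := dword_clm h.1 (c • ContinuousLinearMap.id ℝ ℝ) w x hx
  have e' : dword w (fun y => c * σ y) x = c * dword w σ x := by simpa using e
  rw [e', norm_mul, Real.norm_eq_abs, mul_assoc]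
  have h1 := h.2 w x hx
  have h2 : C w.length * g x ≤ |C w.length| * g x :=
    mul_le_mul_of_nonneg_right (le_abs_self _) (hg x hx)
  exact mul_le_mul hc (h1.trans h2) (norm_nonneg _) ((abs_nonneg c).trans hc)

theorem contDiffOn_norm_inv_pow (m : ℕ) :
    ContDiffOn ℝ ∞ (fun x : Space => (‖x‖ ^ m)⁻¹) (Ext 1) :=
  ((contDiffOn_norm_Ext zero_le_one).pow m).inv fun _ hx =>
    pow_ne_zero _ (norm_pos_of_mem_Ext zero_le_one hx).ne'

/-- `r⁻²`. -/
theorem norm_inv_sq_wordBdd : ∃ C : ℕ → ℝ,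
    WordBdd 1 C (fun x => (‖x‖ ^ 2)⁻¹) (fun x : Space => (‖x‖ ^ 2)⁻¹) := by
  obtain ⟨C', hC'⟩ := wordBdd_of_quadDeriv (fun _ => 2 * |(1 : ℝ)|)
  refine ⟨C', hC' 1 _ (fun x => ‖x‖) (fun a x => (-2) * qv a x) (contDiffOn_norm_inv_pow 2)
    (fun x _ => by positivity) (fun x _ => norm_nonneg x) (fun x hx => ?_)
    (fun a => (qv_wordBdd a).const_mul_le (fun x _ => norm_nonneg x) (by norm_num)) ?_⟩
  · have hx1 : 1 < ‖x‖ := hx
    have : ‖x‖ * (‖x‖ ^ 2)⁻¹ = ‖x‖⁻¹ := by field_simp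
    rw [this]
    exact inv_le_one_of_one_le₀ hx1.le
  · intro a x hx
    have hr := norm_pos_of_mem_Ext zero_le_one hx
    have hx0 := ne_zero_of_mem_Ext zero_le_one hx
    have hd : HasDerivAt (fun s : ℝ => (s ^ 2)⁻¹) (-(2 * ‖x‖ ^ 1 * 1) / (‖x‖ ^ 2) ^ 2) ‖x‖ :=
      ((hasDerivAt_id ‖x‖).pow 2).inv (pow_ne_zero _ hr.ne')
    rw [dfield_radial (ρ := fun s : ℝ => (s ^ 2)⁻¹) hx0 hd.differentiableAt a, hd.deriv]
    field_simp

/-- `qv a / r²` is a symbol of order `-1`. -/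
theorem qv_div_sq_wordBdd : ∃ C : ℕ → ℝ, ∀ a,
    WordBdd 1 C (fun x => ‖x‖⁻¹) (fun x : Space => qv a x * (‖x‖ ^ 2)⁻¹) := by
  obtain ⟨C, hC⟩ := norm_inv_sq_wordBdd
  refine ⟨mulC (fun _ => 1) C, fun a => ?_⟩
  have h := (qv_wordBdd a).smul (fun x _ => norm_nonneg x) (fun x _ => by positivity) hC
  refine h.mono le_rfl fun n x hx => le_of_eq ?_
  have hr := norm_pos_of_mem_Ext zero_le_one hx
  congr 1
  field_simp

/-- `r⁻¹`. -/
theorem norm_inv_wordBdd : ∃ C : ℕ → ℝ,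
    WordBdd 1 C (fun x => ‖x‖⁻¹) (fun x : Space => ‖x‖⁻¹) := by
  obtain ⟨C, hC⟩ := qv_div_sq_wordBdd
  obtain ⟨C', hC'⟩ := wordBdd_of_logDeriv (fun n => 1 * |C n|)
  refine ⟨C', hC' 1 _ (fun a x => (-1) * (qv a x * (‖x‖ ^ 2)⁻¹)) ?_
    (fun x _ => by positivity) (fun a => ?_) ?_⟩
  · exact (contDiffOn_norm_Ext zero_le_one).inv fun x hx =>
      (norm_pos_of_mem_Ext zero_le_one hx).ne'
  · refine ((hC a).const_mul_le (fun x _ => by positivity) (B := 1) (by norm_num)).mono le_rfl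
      fun n x hx => ?_
    have hx1 : 1 < ‖x‖ := hx
    exact mul_le_mul_of_nonneg_left (inv_le_one_of_one_le₀ hx1.le) (by positivity)
  · intro a x hx
    have hr := norm_pos_of_mem_Ext zero_le_one hx
    have hx0 := ne_zero_of_mem_Ext zero_le_one hx
    have hd : HasDerivAt (fun s : ℝ => s⁻¹) (-(‖x‖ ^ 2)⁻¹) ‖x‖ := hasDerivAt_inv hr.ne'
    rw [dfield_radial (ρ := fun s : ℝ => s⁻¹) hx0 hd.differentiableAt a, hd.deriv]
    field_simp

theorem dword_const_eq_zero {V : Type*} [NormedAddCommGroup V] [NormedSpace ℝ V] (c : V)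
    (w : List (Fin 3 ⊕ Fin 3)) (hw : w ≠ []) : dword w (fun _ : Space => c) = fun _ => 0 := by
  induction w with
  | nil => exact absurd rfl hw
  | cons a w ih =>
    rw [dword_cons]
    by_cases h : w = []
    · subst h; funext x; simp [dword_nil, dfield]
    · rw [ih h]; funext x; simp [dfield]

theorem wordBdd_const {V : Type*} [NormedAddCommGroup V] [NormedSpace ℝ V] (R : ℝ) (c : V) :
    WordBdd R (fun _ => ‖c‖) (fun _ => 1) (fun _ : Space => c) := by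
  refine ⟨contDiffOn_const, fun w x _ => ?_⟩
  by_cases h : w = []
  · subst h; simp [dword_nil]
  · rw [dword_const_eq_zero c w h]; simp

/-- negative powers of `r`. -/
theorem norm_inv_pow_wordBdd (m : ℕ) : ∃ C : ℕ → ℝ,
    WordBdd 1 C (fun x => (‖x‖ ^ m)⁻¹) (fun x : Space => (‖x‖ ^ m)⁻¹) := by
  induction m with
  | zero =>
    refine ⟨fun _ => ‖(1 : ℝ)‖, ?_⟩
    simpa using wordBdd_const 1 (1 : ℝ)
  | succ m ih =>
    obtain ⟨C, hC⟩ := ih
    obtain ⟨C₁, hC₁⟩ := norm_inv_wordBdd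
    refine ⟨mulC C C₁, ?_⟩
    have h := hC.smul (fun x _ => by positivity) (fun x _ => by positivity) hC₁
    have e : ∀ x : Space, (‖x‖ ^ (m + 1))⁻¹ = (‖x‖ ^ m)⁻¹ * ‖x‖⁻¹ := by
      intro x; rw [pow_succ, mul_inv]
    simp only [e]
    exact h

/-- `𝔇ₐ (2/r) = O(r⁻²)` with all words (rotation fields kill it). -/
theorem dfield_two_div_norm_wordBdd : ∃ C : ℕ → ℝ, ∀ a,
    WordBdd 1 C (fun x => (‖x‖ ^ 2)⁻¹) (dfield a (fun x : Space => 2 / ‖x‖)) := by
  obtain ⟨C, hC⟩ := norm_inv_pow_wordBdd 3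
  refine ⟨fun n => 2 * |mulC (fun _ => 1) C n|, fun a => ?_⟩
  have h := (qv_wordBdd a).smul (fun x _ => norm_nonneg x) (fun x _ => by positivity) hC
  have h2 := h.const_mul_le (fun x _ => by positivity) (c := -2) (B := 2) (by norm_num)
  refine (h2.congr fun x hx => ?_).mono le_rfl fun n x hx => le_of_eq ?_
  · have hr := norm_pos_of_mem_Ext zero_le_one hx
    have hx0 := ne_zero_of_mem_Ext zero_le_one hx
    have hd : HasDerivAt (fun s : ℝ => 2 / s) (2 * -(‖x‖ ^ 2)⁻¹) ‖x‖ := by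
      simpa [div_eq_mul_inv] using (hasDerivAt_inv hr.ne').const_mul (2 : ℝ)
    rw [dfield_radial (ρ := fun s : ℝ => 2 / s) hx0 hd.differentiableAt a, hd.deriv, smul_eq_mul]
    field_simp
  · have hr := norm_pos_of_mem_Ext zero_le_one hx
    congr 1
    field_simp

/-- `qv a / r` is a symbol of order `0`. -/
theorem qv_div_wordBdd : ∃ C : ℕ → ℝ, ∀ a,
    WordBdd 1 C (fun _ => 1) (fun x : Space => qv a x * ‖x‖⁻¹) := by
  obtain ⟨C, hC⟩ := norm_inv_wordBdd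
  refine ⟨mulC (fun _ => 1) C, fun a => ?_⟩
  have h := (qv_wordBdd a).smul (fun x _ => norm_nonneg x) (fun x _ => by positivity) hC
  refine h.mono le_rfl fun n x hx => le_of_eq ?_
  have hr := norm_pos_of_mem_Ext zero_le_one hx
  congr 1
  field_simp

/-- `t = z/r` is a symbol of order `0`. -/
theorem tz_wordBdd : ∃ C : ℕ → ℝ, WordBdd 1 C (fun _ => 1) tz := by
  obtain ⟨C, hC⟩ := qv_div_wordBdd
  exact ⟨C, (hC (Sum.inl 2)).congr fun x _ => by simp [tz, qv, div_eq_mul_inv]⟩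

/-- `𝔇ₐ r` is a symbol of order `0` (`xⱼ/r` resp. `0`). -/
theorem dfield_norm_wordBdd : ∃ C : ℕ → ℝ, ∀ a,
    WordBdd 1 C (fun _ => 1) (dfield a (fun x : Space => ‖x‖)) := by
  obtain ⟨C, hC⟩ := qv_div_wordBdd
  refine ⟨C, fun a => (hC a).congr fun x hx => ?_⟩
  have hx0 := ne_zero_of_mem_Ext zero_le_one hx
  have := dfield_radial (ρ := fun s : ℝ => s) hx0 differentiableAt_id a
  rw [this]
  simp [div_eq_mul_inv]

/-- all words of `A(|x|) = e^{-k|x|} |x|^a` are bounded by `A(|x|)`, uniformly for bounded `k, a`: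
`𝔇ₐ A = (-k + a/r) (𝔇ₐ r) A`, then `wordBdd_of_logDeriv`. -/
theorem radialA_wordBdd (B : ℝ) : ∃ C : ℕ → ℝ, ∀ k a : ℝ, |k| ≤ B → |a| ≤ B →
    WordBdd 1 C (fun x => radialA k a ‖x‖) (fun x : Space => radialA k a ‖x‖) := by
  obtain ⟨C₁, hC₁⟩ := qv_div_wordBdd
  obtain ⟨C₂, hC₂⟩ := qv_div_sq_wordBdd
  obtain ⟨C', hC'⟩ := wordBdd_of_logDeriv (fun n => B * |C₁ n| + B * |C₂ n|)
  refine ⟨C', fun k a hk ha => hC' 1 _
    (fun b x => (-k) * (qv b x * ‖x‖⁻¹) + a * (qv b x * (‖x‖ ^ 2)⁻¹)) ?_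
    (fun x hx => (radialA_pos k a (norm_pos_of_mem_Ext zero_le_one hx)).le) (fun b => ?_) ?_⟩
  · exact contDiffOn_radial zero_le_one
      ((contDiffOn_radialA k a).mono fun s (hs : 1 < s) =>
        show (0 : ℝ) < s from lt_trans zero_lt_one hs)
  · have h1 := (hC₁ b).const_mul_le (fun x _ => zero_le_one) (c := -k) (B := B) (by rwa [abs_neg])
    have h2 := ((hC₂ b).const_mul_le (fun x _ => by positivity) (c := a) (B := B) ha).mono
      (C' := fun n => B * |C₂ n|) (g' := fun _ => 1) le_rfl fun n x hx => by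
        have hx1 : 1 < ‖x‖ := hx
        exact mul_le_mul_of_nonneg_left (inv_le_one_of_one_le₀ hx1.le)
          (mul_nonneg ((abs_nonneg a).trans ha) (abs_nonneg _))
    exact h1.add h2
  · intro b x hx
    have hr := norm_pos_of_mem_Ext zero_le_one hx
    have hx0 := ne_zero_of_mem_Ext zero_le_one hx
    rw [dfield_radial hx0 (hasDerivAt_radialA k a hr).differentiableAt b, deriv_radialA k a hr]
    field_simp

end D3

end Claimed.Open.R278
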