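import Claimed.Open.R278.CHTB

/-!
# Result 278, package CHT (paper-free analysis tools for the channel layer), file CHTE

The oddness lemma, reflection calculus, Taylor expansion at the equator.
-/

open MeasureTheory Filter
open scoped ContDiff InnerProductSpace ComplexConjugate ENNReal Topology Laplacian

noncomputable section

namespace Claimed.Open.R278

/-! ## E. The oddness lemma (leaf CHT-E) -/

section E
variable {V : Type*} [NormedAddCommGroup V] [NormedSpace ℝ V]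

/-- the meridian through the horizontal direction `(n₀, n₁, 0)` on the sphere of radius `r`. -/
def mer (r n0 n1 ϑ : ℝ) : Space := (r * Real.cos ϑ) • !₂[n0, n1, 0] + (r * Real.sin ϑ) • ez

theorem mer_apply (r n0 n1 ϑ : ℝ) : mer r n0 n1 ϑ 0 = r * Real.cos ϑ * n0 ∧
    mer r n0 n1 ϑ 1 = r * Real.cos ϑ * n1 ∧ mer r n0 n1 ϑ 2 = r * Real.sin ϑ := by
  refine ⟨?_, ?_, ?_⟩ <;> simp [mer, ez]

theorem norm_mer {r n0 n1 : ℝ} (hr : 0 ≤ r) (hn : n0 ^ 2 + n1 ^ 2 = 1) (ϑ : ℝ) :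
    ‖mer r n0 n1 ϑ‖ = r := by
  obtain ⟨h0, h1, h2⟩ := mer_apply r n0 n1 ϑ
  have h : ‖mer r n0 n1 ϑ‖ ^ 2 = r ^ 2 := by
    rw [norm_sq_space, h0, h1, h2]
    have := Real.sin_sq_add_cos_sq ϑ
    calc _ = r ^ 2 * (Real.cos ϑ ^ 2 * (n0 ^ 2 + n1 ^ 2) + Real.sin ϑ ^ 2) := by ring
      _ = r ^ 2 := by rw [hn]; nlinarith
  exact (sq_eq_sq₀ (norm_nonneg _) hr).1 h

theorem hasDerivAt_mer (r n0 n1 ϑ : ℝ) :
    HasDerivAt (mer r n0 n1) ((r * -Real.sin ϑ) • !₂[n0, n1, 0] + (r * Real.cos ϑ) • ez) ϑ :=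
  (((Real.hasDerivAt_cos ϑ).const_mul r).smul_const _).add
    (((Real.hasDerivAt_sin ϑ).const_mul r).smul_const _)

theorem deriv_mer_eq {r n0 n1 : ℝ} (hn : n0 ^ 2 + n1 ^ 2 = 1) (ϑ : ℝ) :
    (r * -Real.sin ϑ) • (!₂[n0, n1, 0] : Space) + (r * Real.cos ϑ) • ez
      = n1 • vfield (Sum.inr 0) (mer r n0 n1 ϑ) + (-n0) • vfield (Sum.inr 1) (mer r n0 n1 ϑ) := by
  obtain ⟨h0, h1, h2⟩ := mer_apply r n0 n1 ϑ
  apply space_ext
  · simp [vfield_inr_zero, vfield_inr_one, ez, h2]; ring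
  · simp [vfield_inr_zero, vfield_inr_one, ez, h2]; ring
  · simp only [vfield_inr_zero, vfield_inr_one, ez, h0, h1, PiLp.add_apply, PiLp.smul_apply,
      smul_eq_mul]
    simp
    calc r * Real.cos ϑ = r * Real.cos ϑ * (n0 ^ 2 + n1 ^ 2) := by rw [hn, mul_one]
      _ = _ := by ring

/-- variation along a meridian. -/
theorem meridian_bound {R : ℝ} {H : Space → V} (hH : ContDiffOn ℝ 1 H (Ext R)) {r : ℝ}
    (hR : 0 ≤ R) (hr : R < r) {n0 n1 : ℝ} (hn : n0 ^ 2 + n1 ^ 2 = 1) {M : ℝ}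
    (hM : ∀ y, ‖y‖ = r → ∀ i, ‖dfield (Sum.inr i) H y‖ ≤ M) (ϑ₁ ϑ₂ : ℝ) :
    ‖H (mer r n0 n1 ϑ₂) - H (mer r n0 n1 ϑ₁)‖ ≤ 3 / 2 * M * |ϑ₂ - ϑ₁| := by
  have hr0 : 0 ≤ r := hR.trans hr.le
  have hmem : ∀ ϑ, mer r n0 n1 ϑ ∈ Ext R := fun ϑ => by
    show R < ‖mer r n0 n1 ϑ‖
    rw [norm_mer hr0 hn]; exact hr
  have hd : ∀ ϑ, HasDerivAt (fun s => H (mer r n0 n1 s))
      (n1 • dfield (Sum.inr 0) H (mer r n0 n1 ϑ) + (-n0) • dfield (Sum.inr 1) H (mer r n0 n1 ϑ))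
      ϑ := by
    intro ϑ
    have h1 : DifferentiableAt ℝ H (mer r n0 n1 ϑ) :=
      (hH.contDiffAt (Ext_mem_nhds (hmem ϑ))).differentiableAt (by simp)
    have h2 := h1.hasFDerivAt.comp_hasDerivAt ϑ (hasDerivAt_mer r n0 n1 ϑ)
    rw [deriv_mer_eq hn, map_add, map_smul, map_smul] at h2
    exact h2
  have hM0 : 0 ≤ M := (norm_nonneg _).trans (hM _ (norm_mer hr0 hn 0) 0)
  have habs : |n0| + |n1| ≤ 3 / 2 := by
    have h1 : (|n0| + |n1|) ^ 2 ≤ 2 := by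
      have := sq_nonneg (|n0| - |n1|)
      have e0 := sq_abs n0
      have e1 := sq_abs n1
      nlinarith
    nlinarith [abs_nonneg n0, abs_nonneg n1]
  have hb : ∀ ϑ ∈ (Set.univ : Set ℝ), ‖n1 • dfield (Sum.inr 0) H (mer r n0 n1 ϑ)
      + (-n0) • dfield (Sum.inr 1) H (mer r n0 n1 ϑ)‖ ≤ 3 / 2 * M := by
    intro ϑ _
    have h0 := hM _ (norm_mer hr0 hn ϑ) 0
    have h1 := hM _ (norm_mer hr0 hn ϑ) 1
    calc _ ≤ ‖n1 • dfield (Sum.inr 0) H (mer r n0 n1 ϑ)‖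
          + ‖(-n0) • dfield (Sum.inr 1) H (mer r n0 n1 ϑ)‖ := norm_add_le _ _
      _ = |n1| * ‖dfield (Sum.inr 0) H (mer r n0 n1 ϑ)‖
          + |n0| * ‖dfield (Sum.inr 1) H (mer r n0 n1 ϑ)‖ := by
          rw [norm_smul, norm_smul, Real.norm_eq_abs, Real.norm_eq_abs, abs_neg]
      _ ≤ |n1| * M + |n0| * M := by gcongr
      _ = (|n0| + |n1|) * M := by ring
      _ ≤ 3 / 2 * M := by gcongr
  have := Convex.norm_image_sub_le_of_norm_hasDerivWithin_le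
    (fun ϑ _ => (hd ϑ).hasDerivWithinAt) hb convex_univ (Set.mem_univ ϑ₁) (Set.mem_univ ϑ₂)
  simpa [Real.norm_eq_abs] using this

theorem abs_arcsin_le {t : ℝ} (ht : |t| ≤ 1) : |Real.arcsin t| ≤ 2 * |t| := by
  have key : ∀ s : ℝ, 0 ≤ s → s ≤ 1 → Real.arcsin s ≤ 2 * s := by
    intro s h0 h1
    have h2 := Real.mul_le_sin (Real.arcsin_nonneg.2 h0) (Real.arcsin_le_pi_div_two s)
    rw [Real.sin_arcsin (by linarith) h1] at h2
    have h3 : Real.arcsin s ≤ Real.pi / 2 * s := by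
      have hpi := Real.pi_pos
      have : Real.pi / 2 * (2 / Real.pi * Real.arcsin s) ≤ Real.pi / 2 * s := by gcongr
      calc Real.arcsin s = Real.pi / 2 * (2 / Real.pi * Real.arcsin s) := by field_simp
        _ ≤ _ := this
    have h4 : Real.pi / 2 * s ≤ 2 * s := by
      have := Real.pi_le_four
      nlinarith
    linarith
  rcases le_total 0 t with h | h
  · rw [abs_of_nonneg h] at ht ⊢
    rw [abs_of_nonneg (Real.arcsin_nonneg.2 h)]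
    exact key t h ht
  · rw [abs_of_nonpos h] at ht ⊢
    have h1 : Real.arcsin t ≤ 0 := Real.arcsin_nonpos.2 h
    rw [abs_of_nonpos h1, ← Real.arcsin_neg]
    exact key (-t) (by linarith) ht

theorem abs_tz_le_one (x : Space) : |tz x| ≤ 1 := by
  unfold tz
  rw [abs_div, abs_of_nonneg (norm_nonneg x)]
  apply div_le_one_of_le₀ _ (norm_nonneg x)
  have := norm_sq_space x
  have h2 : x 2 ^ 2 ≤ ‖x‖ ^ 2 := by nlinarith [sq_nonneg (x 0), sq_nonneg (x 1)]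
  exact abs_le_of_sq_le_sq h2 (norm_nonneg x)

/-- polar representation of a point. -/
theorem exists_mer_eq {x : Space} (hx : x ≠ 0) : ∃ n0 n1 : ℝ, n0 ^ 2 + n1 ^ 2 = 1 ∧
    x = mer ‖x‖ n0 n1 (Real.arcsin (tz x)) ∧ reflZ x = mer ‖x‖ n0 n1 (-Real.arcsin (tz x)) := by
  have hn : ‖x‖ ≠ 0 := norm_ne_zero_iff.2 hx
  have hnpos : 0 < ‖x‖ := norm_pos_iff.2 hx
  have ht := abs_le.1 (abs_tz_le_one x)
  set p := √(x 0 ^ 2 + x 1 ^ 2) with hp
  have hp2 : p ^ 2 = x 0 ^ 2 + x 1 ^ 2 := Real.sq_sqrt (by positivity)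
  have hp0 : 0 ≤ p := Real.sqrt_nonneg _
  have hsin : Real.sin (Real.arcsin (tz x)) = x 2 / ‖x‖ := Real.sin_arcsin ht.1 ht.2
  have hcos : Real.cos (Real.arcsin (tz x)) = p / ‖x‖ := by
    rw [Real.cos_arcsin]
    have : 1 - tz x ^ 2 = (p / ‖x‖) ^ 2 := by
      unfold tz
      have := norm_sq_space x
      field_simp
      linarith
    rw [this, Real.sqrt_sq (by positivity)]
  have main : ∀ n0 n1 : ℝ, x 0 = p * n0 → x 1 = p * n1 →
      x = mer ‖x‖ n0 n1 (Real.arcsin (tz x)) ∧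
      reflZ x = mer ‖x‖ n0 n1 (-Real.arcsin (tz x)) := by
    intro n0 n1 e0 e1
    constructor
    · obtain ⟨h0, h1, h2⟩ := mer_apply ‖x‖ n0 n1 (Real.arcsin (tz x))
      apply space_ext
      · rw [h0, hcos, e0]; field_simp
      · rw [h1, hcos, e1]; field_simp
      · rw [h2, hsin]; field_simp
    · obtain ⟨h0, h1, h2⟩ := mer_apply ‖x‖ n0 n1 (-Real.arcsin (tz x))
      apply space_ext
      · rw [h0, Real.cos_neg, hcos, reflZ_apply_zero, e0]; field_simp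
      · rw [h1, Real.cos_neg, hcos, reflZ_apply_one, e1]; field_simp
      · rw [h2, Real.sin_neg, hsin, reflZ_apply_two]; field_simp
  by_cases h0 : p = 0
  · have h1 : x 0 = 0 := by nlinarith [sq_nonneg (x 0), sq_nonneg (x 1)]
    have h2 : x 1 = 0 := by nlinarith [sq_nonneg (x 0), sq_nonneg (x 1)]
    exact ⟨1, 0, by norm_num, main 1 0 (by rw [h0, h1]; ring) (by rw [h0, h2]; ring)⟩
  · refine ⟨x 0 / p, x 1 / p, ?_, main _ _ (by field_simp) (by field_simp)⟩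
    field_simp
    linarith

/-- difference of the values at `x` and `reflZ x` for an arbitrary `C¹` function. -/
theorem refl_diff_bound {R : ℝ} (hR : 0 ≤ R) {H : Space → V} (hH : ContDiffOn ℝ 1 H (Ext R))
    {x : Space} (hx : x ∈ Ext R) {M : ℝ}
    (hM : ∀ y, ‖y‖ = ‖x‖ → ∀ i, ‖dfield (Sum.inr i) H y‖ ≤ M) :
    ‖H x - H (reflZ x)‖ ≤ 6 * M * |tz x| := by
  obtain ⟨n0, n1, hn, e1, e2⟩ := exists_mer_eq (ne_zero_of_mem_Ext hR hx)
  have hM0 : 0 ≤ M := (norm_nonneg _).trans (hM x rfl 0)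
  have h := meridian_bound hH hR hx hn hM (-Real.arcsin (tz x)) (Real.arcsin (tz x))
  rw [← e1, ← e2] at h
  have h2 : |Real.arcsin (tz x) - -Real.arcsin (tz x)| ≤ 4 * |tz x| := by
    have : Real.arcsin (tz x) - -Real.arcsin (tz x) = 2 * Real.arcsin (tz x) := by ring
    rw [this, abs_mul, abs_two]
    have := abs_arcsin_le (abs_tz_le_one x)
    linarith
  calc _ ≤ 3 / 2 * M * |Real.arcsin (tz x) - -Real.arcsin (tz x)| := h
    _ ≤ 3 / 2 * M * (4 * |tz x|) := by gcongr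
    _ = 6 * M * |tz x| := by ring

/-- **T7**: a `C¹` function which is odd under `x ↦ reflZ x` is `O(|t|)`, `t = z/r`, with constant
controlled by its rotation derivatives on the sphere through `x`. -/
theorem odd_bound {R : ℝ} (hR : 0 ≤ R) {H : Space → V} (hH : ContDiffOn ℝ 1 H (Ext R))
    (hodd : ∀ x ∈ Ext R, H (reflZ x) = -H x) {x : Space} (hx : x ∈ Ext R) {M : ℝ}
    (hM : ∀ y, ‖y‖ = ‖x‖ → ∀ i, ‖dfield (Sum.inr i) H y‖ ≤ M) :
    ‖H x‖ ≤ 3 * M * |tz x| := by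
  have h := refl_diff_bound hR hH hx hM
  rw [hodd x hx, sub_neg_eq_add, ← two_smul ℝ, norm_smul, Real.norm_eq_abs, abs_two] at h
  linarith

/-! ### reflection calculus -/

theorem fderiv_comp_reflZ (H : Space → V) (x v : Space) :
    fderiv ℝ (fun y => H (reflZ y)) x v = fderiv ℝ H (reflZ x) (reflZ v) := by
  have e : (fun y => H (reflZ y)) = H ∘ reflZCLE := rfl
  rw [e, reflZCLE.comp_right_fderiv]; rfl

theorem reflZ_smul (c : ℝ) (x : Space) : reflZ (c • x) = c • reflZ x := by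
  apply space_ext <;> simp

/-- parity is inherited: `∂_r` and words behave as follows under the reflection. -/
theorem dr_comp_reflZ' (H : Space → V) (x : Space) :
    dr (fun y => H (reflZ y)) x = dr H (reflZ x) := by
  simp only [dr]
  rw [fderiv_comp_reflZ, reflZ_smul, norm_reflZ]

theorem dr_comp_reflZ {H : Space → V} {x : Space} (_hH : DifferentiableAt ℝ H (reflZ x)) :
    dr (fun y => H (reflZ y)) x = dr H (reflZ x) := dr_comp_reflZ' H x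

/-- the sign of a field under the reflection `ι = reflZ`: `𝔇ₐ (H ∘ ι) = ± (𝔇ₐ H) ∘ ι`. -/
def reflSign : Fin 3 ⊕ Fin 3 → ℝ
  | .inl 0 => 1
  | .inl 1 => 1
  | .inl 2 => -1
  | .inr 0 => -1
  | .inr 1 => -1
  | .inr 2 => 1

theorem reflZ_vfield (a : Fin 3 ⊕ Fin 3) (x : Space) :
    reflZ (vfield a x) = reflSign a • vfield a (reflZ x) := by
  rcases a with j | i
  · fin_cases j <;> apply space_ext <;> simp [reflSign]
  · fin_cases i <;> apply space_ext <;>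
      simp [reflSign, vfield_inr_zero, vfield_inr_one, vfield_inr_two]

theorem abs_reflSign (a : Fin 3 ⊕ Fin 3) : |reflSign a| = 1 := by
  rcases a with j | i
  · fin_cases j <;> simp [reflSign]
  · fin_cases i <;> simp [reflSign]

theorem dfield_comp_reflZ' (H : Space → V) (x : Space) (a : Fin 3 ⊕ Fin 3) :
    dfield a (fun y => H (reflZ y)) x = reflSign a • dfield a H (reflZ x) := by
  simp only [dfield]
  rw [fderiv_comp_reflZ, reflZ_vfield, map_smul]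

theorem dfield_comp_reflZ {H : Space → V} {x : Space} (_hH : DifferentiableAt ℝ H (reflZ x))
    (a : Fin 3 ⊕ Fin 3) :
    dfield a (fun y => H (reflZ y)) x = reflSign a • dfield a H (reflZ x) :=
  dfield_comp_reflZ' H x a

theorem contDiffOn_comp_reflZ {R : ℝ} {H : Space → V} (hH : ContDiffOn ℝ ∞ H (Ext R)) :
    ContDiffOn ℝ ∞ (fun y => H (reflZ y)) (Ext R) :=
  hH.comp (reflZCLE : Space →L[ℝ] Space).contDiff.contDiffOn fun _ hx => reflZ_mem_Ext hx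

theorem dfield_const_smul (c : ℝ) (H : Space → V) (x : Space) (a : Fin 3 ⊕ Fin 3) :
    dfield a (fun y => c • H y) x = c • dfield a H x := by
  have e : (fun y => c • H y) = c • H := rfl
  simp only [dfield]
  rw [e, fderiv_const_smul_field]; rfl

/-- words and the reflection: a sign. -/
theorem exists_sign_dword_comp_reflZ (H : Space → V) (w : List (Fin 3 ⊕ Fin 3)) :
    ∃ ε : ℝ, |ε| = 1 ∧ ∀ x, dword w (fun y => H (reflZ y)) x = ε • dword w H (reflZ x) := by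
  induction w with
  | nil => exact ⟨1, by simp, fun x => by simp [dword_nil]⟩
  | cons a w ih =>
    obtain ⟨ε, hε, h⟩ := ih
    refine ⟨ε * reflSign a, by rw [abs_mul, hε, abs_reflSign, one_mul], fun x => ?_⟩
    have e : dword w (fun y => H (reflZ y)) = fun y => ε • dword w H (reflZ y) := funext h
    rw [dword_cons, e, dfield_const_smul, dfield_comp_reflZ' (dword w H), smul_smul]
    rfl

theorem norm_dword_comp_reflZ {R : ℝ} {H : Space → V} (_hH : ContDiffOn ℝ ∞ H (Ext R))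
    (w : List (Fin 3 ⊕ Fin 3)) :
    ∀ x ∈ Ext R, ‖dword w (fun y => H (reflZ y)) x‖ = ‖dword w H (reflZ x)‖ := by
  intro x _
  obtain ⟨ε, hε, h⟩ := exists_sign_dword_comp_reflZ H w
  rw [h, norm_smul, Real.norm_eq_abs, hε, one_mul]

/-- word bounds with a reflection invariant profile are inherited by `H ∘ ι`. -/
theorem WordBdd.comp_reflZ {R : ℝ} {C : ℕ → ℝ} {g : Space → ℝ} {σ : Space → V}
    (h : WordBdd R C g σ) (hg : ∀ x, g (reflZ x) = g x) :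
    WordBdd R C g (fun x => σ (reflZ x)) := by
  refine ⟨contDiffOn_comp_reflZ h.1, fun w x hx => ?_⟩
  rw [norm_dword_comp_reflZ h.1 w x hx, ← hg x]
  exact h.2 w _ (reflZ_mem_Ext hx)

/-! ### homogeneity -/

theorem smul_mem_Ext_zero {x : Space} (hx : x ∈ Ext 0) {ρ : ℝ} (hρ : 0 < ρ) : ρ • x ∈ Ext 0 := by
  show 0 < ‖ρ • x‖
  rw [norm_smul]
  exact mul_pos (by simpa using hρ.ne') hx

/-- rotation fields preserve homogeneity of degree `0`. -/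
theorem dfield_rot_homogeneous {a : Space → V} (ha : ContDiffOn ℝ ∞ a (Ext 0))
    (hom : ∀ x ∈ Ext 0, ∀ ρ : ℝ, 0 < ρ → a (ρ • x) = a x) (i : Fin 3) :
    ∀ x ∈ Ext 0, ∀ ρ : ℝ, 0 < ρ →
      dfield (Sum.inr i) a (ρ • x) = dfield (Sum.inr i) a x := by
  intro x hx ρ hρ
  have h1 : DifferentiableAt ℝ a (ρ • x) := differentiableAt_of_mem_Ext ha (smul_mem_Ext_zero hx hρ)
  have h2 : HasFDerivAt (fun y : Space => a (ρ • y))
      ((fderiv ℝ a (ρ • x)).comp (ρ • ContinuousLinearMap.id ℝ Space)) x :=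
    h1.hasFDerivAt.comp x ((hasFDerivAt_id x).const_smul ρ)
  have h3 : (fun y : Space => a (ρ • y)) =ᶠ[𝓝 x] a :=
    Filter.eventually_of_mem (Ext_mem_nhds hx) fun y hy => hom y hy ρ hρ
  have h4 := h3.fderiv_eq (𝕜 := ℝ)
  rw [h2.fderiv] at h4
  simp only [dfield]
  rw [← h4, ← rotL_apply, ← rotL_apply, (rotL i).map_smul]
  simp

/-- rotation words of a function homogeneous of degree `0` are homogeneous of degree `0`. -/
theorem dword_rot_homogeneous {a : Space → V} (ha : ContDiffOn ℝ ∞ a (Ext 0))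
    (hom : ∀ x ∈ Ext 0, ∀ ρ : ℝ, 0 < ρ → a (ρ • x) = a x) {w : List (Fin 3 ⊕ Fin 3)}
    (hw : IsRotWord w) : ∀ x ∈ Ext 0, ∀ ρ : ℝ, 0 < ρ → dword w a (ρ • x) = dword w a x := by
  induction w with
  | nil => exact hom
  | cons b w ih =>
    obtain ⟨i, rfl⟩ := hw.head
    exact dfield_rot_homogeneous (contDiffOn_dword ha w) (ih hw.tail) i

/-! ### Taylor expansion at the equator -/

theorem mer_one_zero : mer 1 1 0 0 = (EuclideanSpace.single 0 (1 : ℝ) : Space) := by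
  obtain ⟨h0, h1, h2⟩ := mer_apply 1 1 0 0
  apply space_ext
  · rw [h0]; simp
  · rw [h1]; simp
  · rw [h2]; simp

/-- second order Taylor expansion at the equator for an odd axisymmetric `C²` function which is
homogeneous of degree `0`: `|a(x) - a' t| ≤ C t²`, `a' = -Ω₁ a (e₀)`. -/
theorem odd_axisym_taylor {a : Space → ℂ} (ha : ContDiffOn ℝ 2 a (Ext 0))
    (hom : ∀ x ∈ Ext 0, ∀ ρ : ℝ, 0 < ρ → a (ρ • x) = a x)
    (hodd : ∀ x ∈ Ext 0, a (reflZ x) = -a x) (haxi : ∀ α, ∀ x ∈ Ext 0, a (rotZ α x) = a x) {M : ℝ}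
    (hM : ∀ y ∈ Ext 0, ‖dfield (Sum.inr 1) a y‖ ≤ M ∧
      ‖dfield (Sum.inr 1) (dfield (Sum.inr 1) a) y‖ ≤ M) :
    ∀ x ∈ Ext 0, ‖a x - (-dfield (Sum.inr 1) a (EuclideanSpace.single 0 1)) * tz x‖
      ≤ 8 * M * tz x ^ 2 := by
  have hn : (1 : ℝ) ^ 2 + (0 : ℝ) ^ 2 = 1 := by norm_num
  set c : ℝ → Space := mer 1 1 0 with hc
  have hcmem : ∀ ϑ, c ϑ ∈ Ext 0 := fun ϑ => by
    show 0 < ‖mer 1 1 0 ϑ‖
    rw [norm_mer zero_le_one hn]; exact one_pos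
  have hcd : ∀ ϑ, HasDerivAt c (-vfield (Sum.inr 1) (c ϑ)) ϑ := by
    intro ϑ
    have h := hasDerivAt_mer 1 1 0 ϑ
    rw [deriv_mer_eq hn] at h
    simpa using h
  have c2 : ∀ ϑ, ContDiffAt ℝ 2 a (c ϑ) := fun ϑ => ha.contDiffAt (Ext_mem_nhds (hcmem ϑ))
  set β : ℝ → ℂ := fun ϑ => dfield (Sum.inr 1) a (c ϑ) with hβ
  set β₂ : ℝ → ℂ := fun ϑ => dfield (Sum.inr 1) (dfield (Sum.inr 1) a) (c ϑ) with hβ₂
  have hα : ∀ ϑ, HasDerivAt (fun s => a (c s)) (-β ϑ) ϑ := by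
    intro ϑ
    have h := ((c2 ϑ).differentiableAt (by simp)).hasFDerivAt.comp_hasDerivAt ϑ (hcd ϑ)
    rw [map_neg] at h
    exact h
  have hβd : ∀ ϑ, HasDerivAt β (-β₂ ϑ) ϑ := by
    intro ϑ
    have hd : DifferentiableAt ℝ (dfield (Sum.inr 1) a) (c ϑ) :=
      (differentiableAt_fderiv (c2 ϑ)).clm_apply
        ((contDiff_vfield (Sum.inr 1)).differentiable (by simp) _)
    have h := hd.hasFDerivAt.comp_hasDerivAt ϑ (hcd ϑ)
    rw [map_neg] at h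
    exact h
  have hM0 : 0 ≤ M := (norm_nonneg _).trans (hM _ (hcmem 0)).1
  have hc0 : c 0 = EuclideanSpace.single 0 1 := mer_one_zero
  have ha0 : a (c 0) = 0 := by
    have h1 : reflZ (c 0) = c 0 := by
      rw [hc0]; apply space_ext <;> simp
    have h2 := hodd _ (hcmem 0)
    rw [h1] at h2
    have : (2 : ℂ) * a (c 0) = 0 := by linear_combination h2
    simpa using this
  -- the function `F`
  set F : ℝ → ℂ := fun ϑ => a (c ϑ) - (-β 0) * (Real.sin ϑ : ℂ) with hF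
  set F' : ℝ → ℂ := fun ϑ => -β ϑ - (-β 0) * (Real.cos ϑ : ℂ) with hF'
  set F'' : ℝ → ℂ := fun ϑ => -(-β₂ ϑ) - (-β 0) * (-(Real.sin ϑ : ℂ)) with hF''
  have dsin : ∀ ϑ : ℝ, HasDerivAt (fun s : ℝ => (Real.sin s : ℂ)) (Real.cos ϑ : ℂ) ϑ :=
    fun ϑ => (Real.hasDerivAt_sin ϑ).ofReal_comp
  have dcos : ∀ ϑ : ℝ, HasDerivAt (fun s : ℝ => (Real.cos s : ℂ)) (-(Real.sin ϑ : ℂ)) ϑ :=
    fun ϑ => by simpa using (Real.hasDerivAt_cos ϑ).ofReal_comp
  have hFd : ∀ ϑ, HasDerivAt F (F' ϑ) ϑ := fun ϑ => (hα ϑ).sub ((dsin ϑ).const_mul _)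
  have hF'd : ∀ ϑ, HasDerivAt F' (F'' ϑ) ϑ := fun ϑ => ((hβd ϑ).neg).sub ((dcos ϑ).const_mul _)
  have hF''b : ∀ ϑ, ‖F'' ϑ‖ ≤ 2 * M := by
    intro ϑ
    have h1 : ‖β₂ ϑ‖ ≤ M := (hM _ (hcmem ϑ)).2
    have h2 : ‖β 0‖ ≤ M := (hM _ (hcmem 0)).1
    have h3 : ‖(Real.sin ϑ : ℂ)‖ ≤ 1 := by
      rw [Complex.norm_real]; exact Real.abs_sin_le_one ϑ
    calc ‖F'' ϑ‖ ≤ ‖-(-β₂ ϑ)‖ + ‖(-β 0) * (-(Real.sin ϑ : ℂ))‖ := norm_sub_le _ _
      _ = ‖β₂ ϑ‖ + ‖β 0‖ * ‖(Real.sin ϑ : ℂ)‖ := by simp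
      _ ≤ M + M * 1 := by gcongr
      _ = 2 * M := by ring
  have hF'0 : F' 0 = 0 := by simp [hF']
  have hF0 : F 0 = 0 := by simp [hF, ha0]
  have hF'b : ∀ ϑ, ‖F' ϑ‖ ≤ 2 * M * |ϑ| := by
    intro ϑ
    have := Convex.norm_image_sub_le_of_norm_hasDerivWithin_le
      (fun s _ => (hF'd s).hasDerivWithinAt) (fun s _ => hF''b s) convex_univ
      (Set.mem_univ (0 : ℝ)) (Set.mem_univ ϑ)
    simpa [hF'0, Real.norm_eq_abs] using this
  have hFb : ∀ ϑ, ‖F ϑ‖ ≤ 2 * M * ϑ ^ 2 := by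
    intro ϑ
    have hb : ∀ s ∈ Set.Icc (-|ϑ|) |ϑ|, ‖F' s‖ ≤ 2 * M * |ϑ| := by
      intro s hs
      have : |s| ≤ |ϑ| := abs_le.2 hs
      exact (hF'b s).trans (by gcongr)
    have := Convex.norm_image_sub_le_of_norm_hasDerivWithin_le
      (fun s _ => (hFd s).hasDerivWithinAt) hb (convex_Icc _ _)
      (show (0 : ℝ) ∈ Set.Icc (-|ϑ|) |ϑ| from ⟨by simp, abs_nonneg _⟩)
      (show ϑ ∈ Set.Icc (-|ϑ|) |ϑ| from ⟨neg_abs_le ϑ, le_abs_self ϑ⟩)
    rw [hF0, sub_zero, sub_zero, Real.norm_eq_abs] at this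
    calc ‖F ϑ‖ ≤ 2 * M * |ϑ| * |ϑ| := this
      _ = 2 * M * ϑ ^ 2 := by rw [mul_assoc, ← sq, sq_abs]
  -- reduction of a general point
  intro x hx
  have hx0 : x ≠ 0 := ne_zero_of_mem_Ext le_rfl hx
  have hnpos : 0 < ‖x‖ := norm_pos_iff.2 hx0
  set ϑ₀ := Real.arcsin (tz x) with hϑ₀
  have ht := abs_le.1 (abs_tz_le_one x)
  have hsin : Real.sin ϑ₀ = tz x := Real.sin_arcsin ht.1 ht.2
  have hcos : 0 ≤ Real.cos ϑ₀ := Real.cos_arcsin_nonneg _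
  obtain ⟨n0, n1, hn', e1, -⟩ := exists_mer_eq hx0
  have hax : a x = a (c ϑ₀) := by
    set y := mer 1 n0 n1 ϑ₀ with hy
    have hy1 : x = ‖x‖ • y := by
      have e2 : mer ‖x‖ n0 n1 ϑ₀ = ‖x‖ • mer 1 n0 n1 ϑ₀ := by
        simp only [mer, smul_add, smul_smul, one_mul]
      rw [hy, ← e2]; exact e1
    have hymem : y ∈ Ext 0 := by
      show 0 < ‖mer 1 n0 n1 ϑ₀‖
      rw [norm_mer zero_le_one hn']; exact one_pos
    obtain ⟨φ, hφ⟩ := exists_rotZ_cyl y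
    obtain ⟨h0, h1, h2⟩ := mer_apply 1 n0 n1 ϑ₀
    have hp : √(y 0 ^ 2 + y 1 ^ 2) = Real.cos ϑ₀ := by
      rw [hy, h0, h1]
      have : (1 * Real.cos ϑ₀ * n0) ^ 2 + (1 * Real.cos ϑ₀ * n1) ^ 2 = Real.cos ϑ₀ ^ 2 := by
        calc _ = Real.cos ϑ₀ ^ 2 * (n0 ^ 2 + n1 ^ 2) := by ring
          _ = _ := by rw [hn', mul_one]
      rw [this, Real.sqrt_sq hcos]
    have hcyl : cyl (√(y 0 ^ 2 + y 1 ^ 2)) (y 2) = c ϑ₀ := by
      obtain ⟨g0, g1, g2⟩ := mer_apply 1 1 0 ϑ₀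
      rw [hp]
      apply space_ext
      · rw [hc, g0]; simp
      · rw [hc, g1]; simp
      · rw [hc, g2, hy, h2]; simp
    rw [hy1, hom y hymem _ hnpos, hφ, hcyl, haxi φ _ (hcmem ϑ₀)]
  have hfin : a x - (-dfield (Sum.inr 1) a (EuclideanSpace.single 0 1)) * tz x = F ϑ₀ := by
    simp only [hF, hβ, hc0, hsin, hax]
  rw [hfin]
  have h1 := abs_arcsin_le (abs_tz_le_one x)
  have h2 : ϑ₀ ^ 2 ≤ 4 * tz x ^ 2 := by
    have : |ϑ₀| ^ 2 ≤ (2 * |tz x|) ^ 2 := pow_le_pow_left₀ (abs_nonneg _) h1 2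
    rw [sq_abs, mul_pow, sq_abs] at this
    linarith
  calc ‖F ϑ₀‖ ≤ 2 * M * ϑ₀ ^ 2 := hFb ϑ₀
    _ ≤ 2 * M * (4 * tz x ^ 2) := by gcongr
    _ = 8 * M * tz x ^ 2 := by ring

end E

end Claimed.Open.R278
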