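import Claimed.Open.R278.CHTB

/-!
# Result 278, package CHT (paper-free analysis tools for the channel layer), file CHTF1

One-dimensional lemmas: a tail integral and the radial ODE lemma (integrating factor).
-/

open MeasureTheory Filter
open scoped ContDiff InnerProductSpace ComplexConjugate ENNReal Topology Laplacian

noncomputable section

namespace Claimed.Open.R278

/-! ## F. One-dimensional lemmas (leaf CHT-F1) -/

section F

theorem tendsto_radialA_atTop {k : ℝ} (hk : 0 < k) (a : ℝ) :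
    Tendsto (radialA k a) atTop (𝓝 0) := by
  have h := tendsto_rpow_mul_exp_neg_mul_atTop_nhds_zero a k hk
  refine h.congr fun s => ?_
  rw [radialA, mul_comm, neg_mul]

theorem continuousOn_radialA (k a : ℝ) : ContinuousOn (radialA k a) (Set.Ioi 0) :=
  (contDiffOn_radialA k a).continuousOn

/-- tail integral of `radialA`: for `a ≤ k r`. -/
theorem integral_radialA_tail {k a r : ℝ} (hk : 0 < k) (hr : 0 < r) (ha : a ≤ k * r) :
    IntegrableOn (radialA (2 * k) a) (Set.Ioi r) ∧
    ∫ s in Set.Ioi r, radialA (2 * k) a s ≤ k⁻¹ * radialA (2 * k) a r := by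
  set g := radialA (2 * k) a with hg
  set g' : ℝ → ℝ := fun s => (-(2 * k) + a / s) * g s with hg'
  have hd : ∀ s ∈ Set.Ioi r, HasDerivAt g (g' s) s := fun s hs =>
    hasDerivAt_radialA (2 * k) a (hr.trans hs)
  have hpos : ∀ s ∈ Set.Ioi r, 0 < g s := fun s hs => radialA_pos _ _ (hr.trans hs)
  have hle : ∀ s ∈ Set.Ioi r, g' s ≤ -k * g s := by
    intro s hs
    have hs0 : 0 < s := hr.trans hs
    have h1 : a / s ≤ k := by
      rw [div_le_iff₀ hs0]
      have : k * r ≤ k * s := by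
        have hs' : r < s := hs
        gcongr
      linarith
    have := hpos s hs
    simp only [hg']
    nlinarith
  have hneg : ∀ s ∈ Set.Ioi r, g' s ≤ 0 := fun s hs => by
    have := hle s hs
    have := hpos s hs
    nlinarith
  have hc : ContinuousWithinAt g (Set.Ici r) r :=
    (hasDerivAt_radialA (2 * k) a hr).continuousAt.continuousWithinAt
  have ht : Tendsto g atTop (𝓝 0) := tendsto_radialA_atTop (by positivity) a
  have hint' : IntegrableOn g' (Set.Ioi r) := integrableOn_Ioi_deriv_of_nonpos hc hd hneg ht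
  have hval : ∫ s in Set.Ioi r, g' s = 0 - g r := integral_Ioi_of_hasDerivAt_of_nonpos hc hd hneg ht
  have hbd : ∀ s ∈ Set.Ioi r, g s ≤ -k⁻¹ * g' s := by
    intro s hs
    have := hle s hs
    have h2 : k⁻¹ * g' s ≤ k⁻¹ * (-k * g s) := by gcongr
    have h3 : k⁻¹ * (-k * g s) = -g s := by field_simp
    linarith
  have hmeas : AEStronglyMeasurable g (volume.restrict (Set.Ioi r)) :=
    ((continuousOn_radialA _ _).mono fun s hs => hr.trans hs).aestronglyMeasurable measurableSet_Ioi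
  have hint : IntegrableOn g (Set.Ioi r) := by
    refine Integrable.mono' (hint'.const_mul (-k⁻¹)) hmeas ?_
    refine (ae_restrict_iff' measurableSet_Ioi).2 (ae_of_all _ fun s hs => ?_)
    rw [Real.norm_of_nonneg (hpos s hs).le]
    exact hbd s hs
  refine ⟨hint, ?_⟩
  calc ∫ s in Set.Ioi r, g s ≤ ∫ s in Set.Ioi r, -k⁻¹ * g' s :=
        setIntegral_mono_on hint (hint'.const_mul (-k⁻¹)) measurableSet_Ioi hbd
    _ = -k⁻¹ * (0 - g r) := by rw [integral_const_mul, hval]
    _ = k⁻¹ * g r := by ring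

/-- tail integral: for `a/r ≤ k`, `∫_r^∞ e^{-2ks} s^a ds ≤ k⁻¹ e^{-2kr} r^a`. -/
theorem integral_exp_rpow_tail {k a r : ℝ} (hk : 0 < k) (hr : 0 < r) (ha : a ≤ k * r) :
    IntegrableOn (fun s => Real.exp (-(2 * k * s)) * s ^ a) (Set.Ioi r) ∧
    ∫ s in Set.Ioi r, Real.exp (-(2 * k * s)) * s ^ a ≤ k⁻¹ * (Real.exp (-(2 * k * r)) * r ^ a) :=
  integral_radialA_tail hk hr ha

/-- **T8, the radial ODE lemma**.  `g` bounded, `-½ g'' + (k - (β+1)/r) g' = G`, `|G| ≤ C r^{-q}`,
`q > 1`.  Then `|g'| ≤ (2C/k) r^{-q}`, `g` has a limit `ℓ`, `|g - ℓ| ≤ (2C/(k(q-1))) r^{1-q}`.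
Integrating factor `μ = e^{-2kr} r^{2(β+1)}`, `(μ g')' = -2 μ G`; `μ g'` has a limit at infinity, which
must vanish since otherwise `g'` grows exponentially and `g` is unbounded. -/
theorem radial_ode {k β q C B r₀ : ℝ} (hk : 0 < k) (hq : 1 < q) (hr₀ : 0 < r₀)
    (hr₀' : 2 * (β + 1) - q ≤ k * r₀) {g g' g'' G : ℝ → ℂ}
    (hg : ∀ r, r₀ < r → HasDerivAt g (g' r) r) (hg' : ∀ r, r₀ < r → HasDerivAt g' (g'' r) r)
    (hG : ContinuousOn G (Set.Ioi r₀))
    (hode : ∀ r, r₀ < r → -(1 / 2 : ℂ) * g'' r + ((k - (β + 1) / r : ℝ) : ℂ) * g' r = G r)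
    (hGb : ∀ r, r₀ < r → ‖G r‖ ≤ C * r ^ (-q)) (hB : ∀ r, r₀ < r → ‖g r‖ ≤ B) :
    (∀ r, r₀ < r → ‖g' r‖ ≤ 2 * C / k * r ^ (-q)) ∧
    ∃ ℓ : ℂ, Tendsto g atTop (𝓝 ℓ) ∧
      ∀ r, r₀ < r → ‖g r - ℓ‖ ≤ 2 * C / (k * (q - 1)) * r ^ (1 - q) := by
  have hC : 0 ≤ C := by
    have h1 := (norm_nonneg _).trans (hGb (r₀ + 1) (by linarith))
    have h2 : 0 < (r₀ + 1) ^ (-q) := Real.rpow_pos_of_pos (by linarith) _
    by_contra hneg
    push Not at hneg
    nlinarith
  set b := 2 * (β + 1) with hb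
  set μ := radialA (2 * k) b with hμ
  have hμpos : ∀ r, r₀ < r → 0 < μ r := fun r hr => radialA_pos _ _ (hr₀.trans hr)
  have hμd : ∀ r, r₀ < r → HasDerivAt μ ((-(2 * k) + b / r) * μ r) r := fun r hr =>
    hasDerivAt_radialA _ _ (hr₀.trans hr)
  -- the function `P = μ g'`
  set P : ℝ → ℂ := fun r => (μ r : ℂ) * g' r with hP
  set P' : ℝ → ℂ := fun r => -2 * (μ r : ℂ) * G r with hP'
  have hPd : ∀ r, r₀ < r → HasDerivAt P (P' r) r := by
    intro r hr
    have h1 : HasDerivAt (fun s => (μ s : ℂ)) (((-(2 * k) + b / r) * μ r : ℝ) : ℂ) r :=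
      (hμd r hr).ofReal_comp
    have h2 := h1.mul (hg' r hr)
    refine h2.congr_deriv ?_
    simp only [hP']
    rw [← hode r hr]
    push_cast
    rw [hb]
    push_cast
    ring
  have hμq : ∀ s, 0 < s → μ s * s ^ (-q) = radialA (2 * k) (b - q) s := by
    intro s hs
    simp only [hμ, radialA]
    rw [mul_assoc, ← Real.rpow_add hs, sub_eq_add_neg]
  have hP'b : ∀ s, r₀ < s → ‖P' s‖ ≤ 2 * C * radialA (2 * k) (b - q) s := by
    intro s hs
    have h1 := hGb s hs
    have h2 := hμpos s hs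
    simp only [hP']
    rw [norm_mul, norm_mul, norm_neg, Complex.norm_real, Real.norm_of_nonneg h2.le,
      ← hμq s (hr₀.trans hs)]
    simp only [Complex.norm_ofNat]
    calc 2 * μ s * ‖G s‖ ≤ 2 * μ s * (C * s ^ (-q)) := by gcongr
      _ = _ := by ring
  have hP'c : ContinuousOn P' (Set.Ioi r₀) := by
    have h1 : ContinuousOn (fun s => (μ s : ℂ)) (Set.Ioi r₀) :=
      Complex.continuous_ofReal.comp_continuousOn
        ((continuousOn_radialA _ _).mono fun s hs => hr₀.trans hs)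
    exact (continuousOn_const.mul h1).mul hG
  have htail : ∀ r, r₀ < r → IntegrableOn (radialA (2 * k) (b - q)) (Set.Ioi r) ∧
      ∫ s in Set.Ioi r, radialA (2 * k) (b - q) s ≤ k⁻¹ * radialA (2 * k) (b - q) r := by
    intro r hr
    refine integral_radialA_tail hk (hr₀.trans hr) (hr₀'.trans ?_)
    gcongr
  have hP'int : ∀ r, r₀ < r → IntegrableOn P' (Set.Ioi r) := by
    intro r hr
    refine Integrable.mono' ((htail r hr).1.const_mul (2 * C))
      ((hP'c.mono fun s hs => hr.trans hs).aestronglyMeasurable measurableSet_Ioi) ?_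
    exact (ae_restrict_iff' measurableSet_Ioi).2 (ae_of_all _ fun s hs => hP'b s (hr.trans hs))
  set L := limUnder atTop P with hL
  have hPlim : Tendsto P atTop (𝓝 L) :=
    tendsto_limUnder_of_hasDerivAt_of_integrableOn_Ioi
      (fun s hs => hPd s (lt_trans (lt_add_one r₀) hs)) (hP'int (r₀ + 1) (lt_add_one r₀))
  -- the limit vanishes
  have hL0 : L = 0 := by
    by_contra hLne
    have hLpos : 0 < ‖L‖ := norm_pos_iff.2 hLne
    have hμ0 : Tendsto μ atTop (𝓝 0) := tendsto_radialA_atTop (by positivity) b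
    have ev1 : ∀ᶠ r in atTop, ‖P r - L‖ < ‖L‖ / 2 := by
      have := (tendsto_iff_norm_sub_tendsto_zero.1 hPlim).eventually (gt_mem_nhds (half_pos hLpos))
      exact this
    have ev2 : ∀ᶠ r in atTop, μ r < 1 := hμ0.eventually (gt_mem_nhds one_pos)
    obtain ⟨r₁, hr₁⟩ := ((ev1.and ev2).and (eventually_gt_atTop r₀)).exists_forall_of_atTop
    set φ : ℝ → ℝ := fun r => ((starRingEnd ℂ) L * g r).re with hφ
    have hφd : ∀ r, r₀ < r → HasDerivAt φ (((starRingEnd ℂ) L * g' r).re) r := by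
      intro r hr
      have h1 := ((hg r hr).const_mul ((starRingEnd ℂ) L))
      exact (Complex.reCLM.hasFDerivAt.comp_hasDerivAt r h1)
    set c := ‖L‖ ^ 2 / 2 with hc
    have hcpos : 0 < c := by positivity
    have hlow : ∀ r, r₁ ≤ r → c ≤ ((starRingEnd ℂ) L * g' r).re := by
      intro r hr
      obtain ⟨⟨h1, h2⟩, h3⟩ := hr₁ r hr
      have hμr := hμpos r h3
      have e1 : ((starRingEnd ℂ) L * P r).re = μ r * ((starRingEnd ℂ) L * g' r).re := by
        simp only [hP]
        rw [show (starRingEnd ℂ) L * ((μ r : ℂ) * g' r) = (μ r : ℂ) * ((starRingEnd ℂ) L * g' r) by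
          ring, Complex.re_ofReal_mul]
      have e2 : ((starRingEnd ℂ) L * P r).re = ‖L‖ ^ 2 + ((starRingEnd ℂ) L * (P r - L)).re := by
        rw [mul_sub, Complex.sub_re, Complex.conj_mul', ← Complex.ofReal_pow, Complex.ofReal_re]
        ring
      have e3 : |((starRingEnd ℂ) L * (P r - L)).re| ≤ ‖L‖ * (‖L‖ / 2) := by
        refine (Complex.abs_re_le_norm _).trans ?_
        rw [norm_mul, RCLike.norm_conj]
        gcongr
      have e4 : c ≤ μ r * ((starRingEnd ℂ) L * g' r).re := by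
        rw [← e1, e2]
        have := (abs_le.1 e3).1
        simp only [hc]
        nlinarith
      have e5 : 0 < ((starRingEnd ℂ) L * g' r).re := by
        by_contra hneg
        push Not at hneg
        nlinarith
      nlinarith
    have hgrow : ∀ r, r₁ ≤ r → c * (r - r₁) ≤ φ r - φ r₁ := by
      intro r hr
      have hr₁0 : r₀ < r₁ := (hr₁ r₁ le_rfl).2
      refine Convex.mul_sub_le_image_sub_of_le_deriv (convex_Ici r₁) ?_ ?_ ?_ r₁
        Set.self_mem_Ici r hr hr
      · exact fun s hs => (hφd s (lt_of_lt_of_le hr₁0 hs)).continuousAt.continuousWithinAt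
      · intro s hs
        rw [interior_Ici] at hs
        exact (hφd s (hr₁0.trans hs)).differentiableAt.differentiableWithinAt
      · intro s hs
        rw [interior_Ici] at hs
        rw [(hφd s (hr₁0.trans hs)).deriv]
        exact hlow s (le_of_lt hs)
    have hφb : ∀ r, r₀ < r → |φ r| ≤ ‖L‖ * B := by
      intro r hr
      refine (Complex.abs_re_le_norm _).trans ?_
      rw [norm_mul, RCLike.norm_conj]
      have := hB r hr
      gcongr
    have hr₁0 : r₀ < r₁ := (hr₁ r₁ le_rfl).2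
    set r₂ := r₁ + (2 * (‖L‖ * B) + 1) / c with hr₂
    have hB0 : 0 ≤ B := (norm_nonneg _).trans (hB r₁ hr₁0)
    have hr₂' : r₁ ≤ r₂ := by
      have : 0 ≤ (2 * (‖L‖ * B) + 1) / c := by positivity
      linarith
    have h1 := hgrow r₂ hr₂'
    have h2 := (abs_le.1 (hφb r₂ (lt_of_lt_of_le hr₁0 hr₂'))).2
    have h3 := (abs_le.1 (hφb r₁ hr₁0)).1
    have h4 : c * (r₂ - r₁) = 2 * (‖L‖ * B) + 1 := by
      simp only [hr₂]; field_simp; ring
    linarith
  rw [hL0] at hPlim
  -- bound of `g'`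
  have hg'b : ∀ r, r₀ < r → ‖g' r‖ ≤ 2 * C / k * r ^ (-q) := by
    intro r hr
    have hr0 := hr₀.trans hr
    have h1 : ∫ s in Set.Ioi r, P' s = 0 - P r :=
      integral_Ioi_of_hasDerivAt_of_tendsto (hPd r hr).continuousAt.continuousWithinAt
        (fun s hs => hPd s (hr.trans hs)) (hP'int r hr) hPlim
    have h2 : ‖P r‖ ≤ ∫ s in Set.Ioi r, 2 * C * radialA (2 * k) (b - q) s := by
      have : P r = -∫ s in Set.Ioi r, P' s := by rw [h1]; ring
      rw [this, norm_neg]
      exact norm_integral_le_of_norm_le ((htail r hr).1.const_mul (2 * C))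
        ((ae_restrict_iff' measurableSet_Ioi).2 (ae_of_all _ fun s hs => hP'b s (hr.trans hs)))
    rw [integral_const_mul] at h2
    have h3 : ‖P r‖ ≤ 2 * C * (k⁻¹ * radialA (2 * k) (b - q) r) :=
      h2.trans (by have := (htail r hr).2; gcongr)
    have h4 : ‖P r‖ = μ r * ‖g' r‖ := by
      simp only [hP]
      rw [norm_mul, Complex.norm_real, Real.norm_of_nonneg (hμpos r hr).le]
    rw [h4, ← hμq r hr0] at h3
    have h5 : μ r * ‖g' r‖ ≤ μ r * (2 * C / k * r ^ (-q)) := by
      calc _ ≤ 2 * C * (k⁻¹ * (μ r * r ^ (-q))) := h3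
        _ = _ := by field_simp
    exact le_of_mul_le_mul_left h5 (hμpos r hr)
  refine ⟨hg'b, ?_⟩
  -- the limit of `g`
  have hq' : -q < -1 := by linarith
  have hg'c : ContinuousOn g' (Set.Ioi r₀) := fun s hs =>
    (hg' s hs).continuousAt.continuousWithinAt
  have hg'int : ∀ r, r₀ < r → IntegrableOn g' (Set.Ioi r) := by
    intro r hr
    refine Integrable.mono' ((integrableOn_Ioi_rpow_of_lt hq' (hr₀.trans hr)).const_mul (2 * C / k))
      ((hg'c.mono fun s hs => hr.trans hs).aestronglyMeasurable measurableSet_Ioi) ?_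
    exact (ae_restrict_iff' measurableSet_Ioi).2 (ae_of_all _ fun s hs => hg'b s (hr.trans hs))
  refine ⟨limUnder atTop g, ?_, ?_⟩
  · exact tendsto_limUnder_of_hasDerivAt_of_integrableOn_Ioi
      (fun s hs => hg s (lt_trans (lt_add_one r₀) hs)) (hg'int (r₀ + 1) (lt_add_one r₀))
  · intro r hr
    have hr0 := hr₀.trans hr
    have hlim : Tendsto g atTop (𝓝 (limUnder atTop g)) :=
      tendsto_limUnder_of_hasDerivAt_of_integrableOn_Ioi
        (fun s hs => hg s (lt_trans (lt_add_one r₀) hs)) (hg'int (r₀ + 1) (lt_add_one r₀))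
    have h1 : ∫ s in Set.Ioi r, g' s = limUnder atTop g - g r :=
      integral_Ioi_of_hasDerivAt_of_tendsto (hg r hr).continuousAt.continuousWithinAt
        (fun s hs => hg s (hr.trans hs)) (hg'int r hr) hlim
    rw [norm_sub_rev, ← h1]
    have h2 : ‖∫ s in Set.Ioi r, g' s‖ ≤ ∫ s in Set.Ioi r, 2 * C / k * s ^ (-q) :=
      norm_integral_le_of_norm_le ((integrableOn_Ioi_rpow_of_lt hq' hr0).const_mul (2 * C / k))
        ((ae_restrict_iff' measurableSet_Ioi).2 (ae_of_all _ fun s hs => hg'b s (hr.trans hs)))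
    rw [integral_const_mul, integral_Ioi_rpow_of_lt hq' hr0] at h2
    refine h2.trans (le_of_eq ?_)
    have e1 : -q + 1 = 1 - q := by ring
    have e2 : (1 - q) ≠ 0 := by linarith
    have e3 : (q - 1) ≠ 0 := by linarith
    rw [e1]
    have e4 : -r ^ (1 - q) / (1 - q) = r ^ (1 - q) / (q - 1) := by
      rw [neg_div, ← div_neg]; congr 1; ring
    rw [e4]
    field_simp

end F

end Claimed.Open.R278
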