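import Claimed.Open.R278.CHTA2

/-!
# Result 278, package CHT (paper-free analysis tools for the channel layer), file CHTF2

Leaf `CHT-F2`: PROVED (helper225), no `sorry` in this file.  NOTE: `interpolation_eight` is now stated
with a free step `η ∈ (0,1/8]` (no real powers, no positivity of `ε, M`).  Conventions: `Space = ℝ³`, `Ext R = {R < |x|}` (open),
`vfield/dfield/dword/dr/WordBdd` from `CHDefs`.  You may add auxiliary lemmas to this file, and
change a statement only after telling helper225 (channel open278).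
-/

open MeasureTheory Filter
open scoped ContDiff InnerProductSpace ComplexConjugate ENNReal Topology Laplacian

noncomputable section

namespace Claimed.Open.R278

/-! ## F2. Interpolation and derivatives along lines (leaf CHT-F2) -/

section F

variable {V : Type*} [NormedAddCommGroup V] [NormedSpace ℝ V]

/-- rows of the inverse Vandermonde matrix on the nodes `0..7`. -/
theorem exists_vandermonde_row (j : Fin 8) : ∃ c : Fin 8 → ℝ, ∀ l : Fin 8,
    ∑ i : Fin 8, c i * ((i : ℕ) : ℝ) ^ (l : ℕ) = if j = l then 1 else 0 := by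
  set v : Fin 8 → ℝ := fun i => ((i : ℕ) : ℝ) with hv
  have hinj : Function.Injective v := fun a b h => Fin.ext (Nat.cast_injective h)
  have hdet : (Matrix.vandermonde v).det ≠ 0 := Matrix.det_vandermonde_ne_zero_iff.2 hinj
  have hmul := Matrix.nonsing_inv_mul _ (isUnit_iff_ne_zero.2 hdet)
  refine ⟨fun i => (Matrix.vandermonde v)⁻¹ j i, fun l => ?_⟩
  have := congrFun (congrFun hmul j) l
  simpa [Matrix.mul_apply, Matrix.vandermonde_apply, Matrix.one_apply, hv] using this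

theorem interpolation_aux (j : Fin 8) : ∃ C : ℝ, 0 ≤ C ∧ ∀ (g : ℝ → V) (ε M η : ℝ), 0 < η →
    η ≤ 1 / 8 → ContDiffOn ℝ 8 g (Set.Ioo (-1) 2) → (∀ s ∈ Set.Icc (0 : ℝ) 1, ‖g s‖ ≤ ε) →
    (∀ s ∈ Set.Icc (0 : ℝ) 1, ‖iteratedDeriv 8 g s‖ ≤ M) →
    ‖iteratedDeriv j g 0‖ * η ^ (j : ℕ) ≤ C * (ε + M * η ^ 8) := by
  obtain ⟨c, hc⟩ := exists_vandermonde_row j
  refine ⟨(j : ℕ).factorial * ((∑ i, |c i|) * 8 ^ 8), by positivity, ?_⟩
  intro g ε M η hη hη' hg hε hM
  have hsub : Set.Icc (0 : ℝ) 1 ⊆ Set.Ioo (-1) 2 := fun s hs => ⟨by linarith [hs.1], by linarith [hs.2]⟩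
  have hat : ∀ s ∈ Set.Icc (0 : ℝ) 1, ContDiffAt ℝ 8 g s := fun s hs =>
    hg.contDiffAt (Ioo_mem_nhds (hsub hs).1 (hsub hs).2)
  have hU : UniqueDiffOn ℝ (Set.Icc (0 : ℝ) 1) := uniqueDiffOn_Icc zero_lt_one
  have h0 : (0 : ℝ) ∈ Set.Icc (0 : ℝ) 1 := ⟨le_rfl, zero_le_one⟩
  have hε0 : 0 ≤ ε := (norm_nonneg _).trans (hε 0 h0)
  have hM0 : 0 ≤ M := (norm_nonneg _).trans (hM 0 h0)
  have hxi : ∀ i : Fin 8, ((i : ℕ) : ℝ) * η ∈ Set.Icc (0 : ℝ) 1 := by
    intro i
    have h1 : ((i : ℕ) : ℝ) ≤ 7 := by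
      have : (i : ℕ) ≤ 7 := by omega
      exact_mod_cast this
    have h2 : (0 : ℝ) ≤ ((i : ℕ) : ℝ) := Nat.cast_nonneg _
    constructor
    · positivity
    · nlinarith
  -- Taylor
  have hT : ∀ i : Fin 8, ‖g (((i : ℕ) : ℝ) * η)
      - ∑ l : Fin 8, ((((l : ℕ).factorial : ℝ))⁻¹ * (((i : ℕ) : ℝ) * η) ^ (l : ℕ)) •
        iteratedDeriv l g 0‖ ≤ M * (8 ^ 8 * η ^ 8) := by
    intro i
    have h := taylor_mean_remainder_bound (f := g) (n := 7) (C := M) zero_le_one
      ((hg.mono hsub).of_le (by norm_num)) (hxi i) (fun y hy => by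
        rw [iteratedDerivWithin_eq_iteratedDeriv hU (by exact_mod_cast hat y hy) hy]
        exact hM y hy)
    rw [taylor_within_apply, Finset.sum_range] at h
    have e : ∀ l : Fin 8, iteratedDerivWithin l g (Set.Icc (0 : ℝ) 1) 0 = iteratedDeriv l g 0 := by
      intro l
      apply iteratedDerivWithin_eq_iteratedDeriv hU _ h0
      apply (hat 0 h0).of_le
      have : (l : ℕ) ≤ 8 := by omega
      exact_mod_cast this
    simp only [e, sub_zero] at h
    refine h.trans ?_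
    have h1 : ((i : ℕ) : ℝ) ≤ 8 := by
      have : (i : ℕ) ≤ 8 := by omega
      exact_mod_cast this
    have h2 : (0 : ℝ) ≤ ((i : ℕ) : ℝ) := Nat.cast_nonneg _
    rw [mul_div_assoc]
    apply mul_le_mul_of_nonneg_left _ hM0
    rw [mul_pow]
    have h3 : ((i : ℕ) : ℝ) ^ (7 + 1) ≤ 8 ^ 8 := pow_le_pow_left₀ h2 h1 8
    have h4 : (1 : ℝ) ≤ (Nat.factorial 7 : ℝ) := by exact_mod_cast Nat.succ_le_of_lt (Nat.factorial_pos 7)
    calc ((i : ℕ) : ℝ) ^ (7 + 1) * η ^ (7 + 1) / (Nat.factorial 7 : ℝ)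
        ≤ ((i : ℕ) : ℝ) ^ (7 + 1) * η ^ (7 + 1) / 1 := by gcongr
      _ ≤ 8 ^ 8 * η ^ 8 := by rw [div_one]; gcongr
  -- the combination
  have hcomb : ∑ i : Fin 8, c i • ∑ l : Fin 8,
      ((((l : ℕ).factorial : ℝ))⁻¹ * (((i : ℕ) : ℝ) * η) ^ (l : ℕ)) • iteratedDeriv l g 0
      = ((((j : ℕ).factorial : ℝ))⁻¹ * η ^ (j : ℕ)) • iteratedDeriv j g 0 := by
    simp only [Finset.smul_sum]
    rw [Finset.sum_comm]
    have : ∀ l : Fin 8, ∑ i : Fin 8, c i •
        ((((l : ℕ).factorial : ℝ))⁻¹ * (((i : ℕ) : ℝ) * η) ^ (l : ℕ)) • iteratedDeriv l g 0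
        = (if j = l then (1 : ℝ) else 0) •
          ((((l : ℕ).factorial : ℝ))⁻¹ * η ^ (l : ℕ)) • iteratedDeriv l g 0 := by
      intro l
      rw [← hc l, Finset.sum_smul]
      refine Finset.sum_congr rfl fun i _ => ?_
      rw [smul_smul, smul_smul, mul_pow]
      congr 1; ring
    simp only [this]
    simp
  have hnorm : ‖((((j : ℕ).factorial : ℝ))⁻¹ * η ^ (j : ℕ)) • iteratedDeriv j g 0‖
      ≤ (∑ i, |c i|) * (ε + M * (8 ^ 8 * η ^ 8)) := by
    rw [← hcomb, Finset.sum_mul]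
    refine (norm_sum_le _ _).trans (Finset.sum_le_sum fun i _ => ?_)
    rw [norm_smul, Real.norm_eq_abs]
    apply mul_le_mul_of_nonneg_left _ (abs_nonneg _)
    have h1 := hT i
    have h2 := hε _ (hxi i)
    have h3 := norm_sub_norm_le (∑ l : Fin 8,
      ((((l : ℕ).factorial : ℝ))⁻¹ * (((i : ℕ) : ℝ) * η) ^ (l : ℕ)) • iteratedDeriv l g 0)
      (g (((i : ℕ) : ℝ) * η))
    rw [norm_sub_rev] at h3
    linarith
  rw [norm_smul, Real.norm_of_nonneg (by positivity)] at hnorm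
  have hf : (0 : ℝ) < ((j : ℕ).factorial : ℝ) := by exact_mod_cast Nat.factorial_pos _
  have hS : 0 ≤ ∑ i, |c i| := Finset.sum_nonneg fun _ _ => abs_nonneg _
  have h5 : ‖iteratedDeriv j g 0‖ * η ^ (j : ℕ)
      = ((j : ℕ).factorial : ℝ) * ((((j : ℕ).factorial : ℝ))⁻¹ * η ^ (j : ℕ) * ‖iteratedDeriv j g 0‖) := by
    field_simp
  rw [h5]
  calc ((j : ℕ).factorial : ℝ) *
        ((((j : ℕ).factorial : ℝ))⁻¹ * η ^ (j : ℕ) * ‖iteratedDeriv j g 0‖)
      ≤ ((j : ℕ).factorial : ℝ) * ((∑ i, |c i|) * (ε + M * (8 ^ 8 * η ^ 8))) :=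
        mul_le_mul_of_nonneg_left hnorm hf.le
    _ ≤ ((j : ℕ).factorial : ℝ) * ((∑ i, |c i|) * (8 ^ 8 * (ε + M * η ^ 8))) := by
        apply mul_le_mul_of_nonneg_left _ hf.le
        apply mul_le_mul_of_nonneg_left _ hS
        nlinarith
    _ = _ := by ring

/-- **T9, interpolation** (finite differences with Vandermonde weights on the nodes `jη`,
`j = 0..7`); the step `η ∈ (0, 1/8]` is chosen by the user. -/
theorem interpolation_eight : ∃ C : ℝ, 0 ≤ C ∧ ∀ (g : ℝ → V) (ε M η : ℝ), 0 < η → η ≤ 1 / 8 →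
    ContDiffOn ℝ 8 g (Set.Ioo (-1) 2) → (∀ s ∈ Set.Icc (0 : ℝ) 1, ‖g s‖ ≤ ε) →
    (∀ s ∈ Set.Icc (0 : ℝ) 1, ‖iteratedDeriv 8 g s‖ ≤ M) →
    ‖iteratedDeriv 1 g 0‖ * η ≤ C * (ε + M * η ^ 8) ∧
    ‖iteratedDeriv 2 g 0‖ * η ^ 2 ≤ C * (ε + M * η ^ 8) := by
  obtain ⟨C₁, hC₁, h₁⟩ := interpolation_aux (V := V) 1
  obtain ⟨C₂, hC₂, h₂⟩ := interpolation_aux (V := V) 2
  refine ⟨max C₁ C₂, hC₁.trans (le_max_left _ _), ?_⟩
  intro g ε M η hη hη' hg hε hM
  have h0 : (0 : ℝ) ∈ Set.Icc (0 : ℝ) 1 := ⟨le_rfl, zero_le_one⟩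
  have hε0 : 0 ≤ ε := (norm_nonneg _).trans (hε 0 h0)
  have hM0 : 0 ≤ M := (norm_nonneg _).trans (hM 0 h0)
  have hp : 0 ≤ ε + M * η ^ 8 := by positivity
  constructor
  · have := h₁ g ε M η hη hη' hg hε hM
    simp only [Fin.val_one, pow_one] at this
    exact this.trans (mul_le_mul_of_nonneg_right (le_max_left _ _) hp)
  · have := h₂ g ε M η hη hη' hg hε hM
    exact this.trans (mul_le_mul_of_nonneg_right (le_max_right _ _) hp)


theorem hasDerivAt_line {H : Space → V} {x v : Space} {s : ℝ}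
    (hH : DifferentiableAt ℝ H (x + s • v)) :
    HasDerivAt (fun s' : ℝ => H (x + s' • v)) (fderiv ℝ H (x + s • v) v) s := by
  have h1 : HasDerivAt (fun s' : ℝ => x + s' • v) v s := by
    simpa using ((hasDerivAt_id s).smul_const v).const_add x
  exact hH.hasFDerivAt.comp_hasDerivAt s h1

theorem fderiv_eq_sum_dfield (H : Space → V) (y v : Space) :
    fderiv ℝ H y v = ∑ j : Fin 3, v j • dfield (Sum.inl j) H y := by
  conv_lhs => rw [space_eq_sum_single v]
  simp only [dfield, vfield_inl]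
  rw [map_sum]
  simp only [map_smul]

theorem line_mem_nhds {R : ℝ} {x v : Space} {s : ℝ} (hs : x + s • v ∈ Ext R) :
    ∀ᶠ s' in 𝓝 s, x + s' • v ∈ Ext R := by
  have hc : Continuous fun s' : ℝ => x + s' • v := by fun_prop
  exact hc.continuousAt.preimage_mem_nhds (Ext_mem_nhds hs)

theorem contDiffAt_line {R : ℝ} {H : Space → V} (hH : ContDiffOn ℝ ∞ H (Ext R)) {x v : Space}
    {s : ℝ} (hs : x + s • v ∈ Ext R) (n : ℕ) :
    ContDiffAt ℝ n (fun s' : ℝ => H (x + s' • v)) s := by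
  have h1 : ContDiffAt ℝ n H (x + s • v) :=
    (hH.contDiffAt (Ext_mem_nhds hs)).of_le (WithTop.coe_le_coe.2 le_top)
  have h2 : ContDiffAt ℝ n (fun s' : ℝ => x + s' • v) s := by fun_prop
  exact ContDiffAt.comp (g := H) s h1 h2

/-- derivatives along a line in terms of translation words: for a vector `v` of norm `≤ 1`,
`‖(d/ds)^n H(x+sv)‖ ≤ 3^n max over words of length n`. -/
theorem iteratedDeriv_line_le {R : ℝ} {H : Space → V} (hH : ContDiffOn ℝ ∞ H (Ext R)) {x v : Space}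
    (hv : ‖v‖ ≤ 1) (n : ℕ) {s : ℝ} (hs : x + s • v ∈ Ext R) {M : ℝ}
    (hM : ∀ w : List (Fin 3 ⊕ Fin 3), w.length = n → ‖dword w H (x + s • v)‖ ≤ M) :
    ‖iteratedDeriv n (fun s' : ℝ => H (x + s' • v)) s‖ ≤ 3 ^ n * M := by
  induction n generalizing H M with
  | zero => simpa [dword_nil] using hM [] rfl
  | succ n ih =>
    have hM0 : 0 ≤ M := (norm_nonneg _).trans (hM (List.replicate (n + 1) (Sum.inl 0)) (by simp))
    rw [iteratedDeriv_succ']
    have hev : deriv (fun s' : ℝ => H (x + s' • v)) =ᶠ[𝓝 s]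
        fun s' => ∑ j : Fin 3, v j • dfield (Sum.inl j) H (x + s' • v) := by
      filter_upwards [line_mem_nhds hs] with s' hs'
      rw [(hasDerivAt_line (differentiableAt_of_mem_Ext hH hs')).deriv, fderiv_eq_sum_dfield]
    rw [hev.iteratedDeriv_eq n, iteratedDeriv_fun_sum fun j _ =>
      (contDiffAt_line (contDiffOn_dfield hH (Sum.inl j)) hs n).const_smul (v j)]
    have hterm : ∀ j : Fin 3, ‖iteratedDeriv n
        (fun s' : ℝ => v j • dfield (Sum.inl j) H (x + s' • v)) s‖ ≤ 3 ^ n * M := by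
      intro j
      rw [iteratedDeriv_fun_const_smul_field, norm_smul]
      have h1 := ih (contDiffOn_dfield hH (Sum.inl j)) (M := M) fun w hw => by
        have := hM (w ++ [Sum.inl j]) (by simp [hw])
        rwa [dword_append] at this
      have h2 : ‖v j‖ ≤ 1 := (PiLp.norm_apply_le v j).trans hv
      calc ‖v j‖ * _ ≤ 1 * (3 ^ n * M) := mul_le_mul h2 h1 (norm_nonneg _) zero_le_one
        _ = _ := one_mul _
    calc _ ≤ ∑ j : Fin 3, ‖iteratedDeriv n
          (fun s' : ℝ => v j • dfield (Sum.inl j) H (x + s' • v)) s‖ := norm_sum_le _ _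
      _ ≤ ∑ _j : Fin 3, 3 ^ n * M := Finset.sum_le_sum fun j _ => hterm j
      _ = 3 ^ (n + 1) * M := by simp; ring

theorem iteratedDeriv_one_line {H : Space → V} {x v : Space} (hH : DifferentiableAt ℝ H x) :
    iteratedDeriv 1 (fun s : ℝ => H (x + s • v)) 0 = fderiv ℝ H x v := by
  rw [iteratedDeriv_one]
  have := hasDerivAt_line (H := H) (x := x) (v := v) (s := 0) (by simpa using hH)
  rw [this.deriv]; simp

theorem iteratedDeriv_two_line {H : Space → V} {x v : Space} (hH : ContDiffAt ℝ 2 H x) :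
    iteratedDeriv 2 (fun s : ℝ => H (x + s • v)) 0 = fderiv ℝ (fderiv ℝ H) x v v := by
  rw [iteratedDeriv_succ', iteratedDeriv_one]
  have hd : ∀ᶠ y in 𝓝 x, DifferentiableAt ℝ H y := by
    have := hH.eventually (by simp)
    filter_upwards [this] with y hy
    exact hy.differentiableAt (by norm_num)
  have hc : ContinuousAt (fun s' : ℝ => x + s' • v) 0 := by fun_prop
  have hd' : ∀ᶠ s' in 𝓝 (0 : ℝ), DifferentiableAt ℝ H (x + s' • v) := by
    apply hc.eventually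
    simpa using hd
  have hev : deriv (fun s' : ℝ => H (x + s' • v)) =ᶠ[𝓝 0]
      fun s' => (fun y => fderiv ℝ H y v) (x + s' • v) := by
    filter_upwards [hd'] with s' hs'
    exact (hasDerivAt_line hs').deriv
  rw [hev.deriv_eq]
  have h2 : DifferentiableAt ℝ (fun y => fderiv ℝ H y v) (x + (0 : ℝ) • v) := by
    simpa using (differentiableAt_fderiv hH).clm_apply (differentiableAt_const v)
  rw [(hasDerivAt_line h2).deriv]
  simp only [zero_smul, add_zero]
  rw [fderiv_clm_apply (differentiableAt_fderiv hH) (differentiableAt_const v)]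
  simp

/-- first and second Fréchet derivatives from derivatives along lines (polarisation). -/
theorem norm_fderiv_le_of_lines {H : Space → V} {x : Space} (hH : ContDiffAt ℝ 2 H x) {M₁ M₂ : ℝ}
    (h₁ : ∀ v : Space, ‖v‖ = 1 → ‖iteratedDeriv 1 (fun s : ℝ => H (x + s • v)) 0‖ ≤ M₁)
    (h₂ : ∀ v : Space, ‖v‖ = 1 → ‖iteratedDeriv 2 (fun s : ℝ => H (x + s • v)) 0‖ ≤ M₂) :
    ‖fderiv ℝ H x‖ ≤ M₁ ∧ ‖fderiv ℝ (fderiv ℝ H) x‖ ≤ 4 * M₂ := by
  have hd : DifferentiableAt ℝ H x := hH.differentiableAt (by norm_num)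
  have he : ‖(EuclideanSpace.single 0 (1 : ℝ) : Space)‖ = 1 := by simp
  have hM₁ : 0 ≤ M₁ := (norm_nonneg _).trans (h₁ _ he)
  have hM₂ : 0 ≤ M₂ := (norm_nonneg _).trans (h₂ _ he)
  set B := fderiv ℝ (fderiv ℝ H) x with hB
  have hdiag : ∀ v : Space, ‖B v v‖ ≤ M₂ * ‖v‖ ^ 2 := by
    intro v
    by_cases hv : v = 0
    · subst hv; simp
    · have hn : ‖v‖ ≠ 0 := norm_ne_zero_iff.2 hv
      have hu : ‖‖v‖⁻¹ • v‖ = 1 := by
        rw [norm_smul, norm_inv, norm_norm, inv_mul_cancel₀ hn]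
      have := h₂ _ hu
      rw [iteratedDeriv_two_line hH, ← hB] at this
      simp only [map_smul, _root_.smul_apply, norm_smul, norm_inv, norm_norm] at this
      have h3 : ‖B v v‖ = ‖v‖ ^ 2 * (‖v‖⁻¹ * (‖v‖⁻¹ * ‖B v v‖)) := by field_simp
      rw [h3, mul_comm M₂]
      exact mul_le_mul_of_nonneg_left this (by positivity)
  constructor
  · refine ContinuousLinearMap.opNorm_le_bound _ hM₁ fun v => ?_
    by_cases hv : v = 0
    · subst hv; simp
    · have hn : ‖v‖ ≠ 0 := norm_ne_zero_iff.2 hv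
      have hu : ‖‖v‖⁻¹ • v‖ = 1 := by
        rw [norm_smul, norm_inv, norm_norm, inv_mul_cancel₀ hn]
      have := h₁ _ hu
      rw [iteratedDeriv_one_line hd, map_smul, norm_smul, norm_inv, norm_norm] at this
      have h3 : ‖fderiv ℝ H x v‖ = ‖v‖ * (‖v‖⁻¹ * ‖fderiv ℝ H x v‖) := by field_simp
      rw [h3, mul_comm M₁]
      exact mul_le_mul_of_nonneg_left this (norm_nonneg _)
  · have hsymm : ∀ u w, B u w = B w u := fun u w => snd_fderiv_symm hH u w
    have hpol : ∀ u w : Space, ‖B u w‖ ≤ 4 * M₂ * ‖u‖ * ‖w‖ := by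
      -- first for unit vectors
      have hunit : ∀ u w : Space, ‖u‖ = 1 → ‖w‖ = 1 → ‖B u w‖ ≤ 4 * M₂ := by
        intro u w hu hw
        have e : (4 : ℝ) • B u w = B (u + w) (u + w) - B (u - w) (u - w) := by
          simp only [map_add, map_sub, _root_.add_apply, _root_.sub_apply]
          rw [hsymm w u]
          module
        have h1 := hdiag (u + w)
        have h2 := hdiag (u - w)
        have h3 : ‖u + w‖ ≤ 2 := (norm_add_le _ _).trans (by rw [hu, hw]; norm_num)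
        have h4 : ‖u - w‖ ≤ 2 := (norm_sub_le _ _).trans (by rw [hu, hw]; norm_num)
        have h5 : ‖(4 : ℝ) • B u w‖ ≤ M₂ * ‖u + w‖ ^ 2 + M₂ * ‖u - w‖ ^ 2 := by
          rw [e]; exact (norm_sub_le _ _).trans (add_le_add h1 h2)
        rw [norm_smul, Real.norm_of_nonneg (by norm_num)] at h5
        have h6 : ‖u + w‖ ^ 2 ≤ 4 := by nlinarith [norm_nonneg (u + w)]
        have h7 : ‖u - w‖ ^ 2 ≤ 4 := by nlinarith [norm_nonneg (u - w)]
        nlinarith
      intro u w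
      by_cases hu : u = 0
      · subst hu; simp
      by_cases hw : w = 0
      · subst hw; simp
      have hnu : ‖u‖ ≠ 0 := norm_ne_zero_iff.2 hu
      have hnw : ‖w‖ ≠ 0 := norm_ne_zero_iff.2 hw
      have := hunit (‖u‖⁻¹ • u) (‖w‖⁻¹ • w)
        (by rw [norm_smul, norm_inv, norm_norm, inv_mul_cancel₀ hnu])
        (by rw [norm_smul, norm_inv, norm_norm, inv_mul_cancel₀ hnw])
      simp only [map_smul, _root_.smul_apply, norm_smul, norm_inv, norm_norm] at this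
      have h3 : ‖B u w‖ = (‖u‖ * ‖w‖) * (‖w‖⁻¹ * (‖u‖⁻¹ * ‖B u w‖)) := by field_simp
      rw [h3]
      calc _ ≤ (‖u‖ * ‖w‖) * (4 * M₂) := mul_le_mul_of_nonneg_left this (by positivity)
        _ = _ := by ring
    exact ContinuousLinearMap.opNorm_le_bound₂ _ (by positivity) hpol

end F

end Claimed.Open.R278
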