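import Claimed.Open.R278.CHTD1

/-!
# Result 278, package CHT (paper-free analysis tools for the channel layer), file CHTG

Leaf `CHT-G`: PROVED (helper162), no `sorry` in this file.  Conventions: `Space = ℝ³`, `Ext R = {R < |x|}` (open),
`vfield/dfield/dword/dr/WordBdd` from `CHDefs`.  You may add auxiliary lemmas to this file, and
change a statement only after telling helper225 (channel open278).
-/

open MeasureTheory Filter
open scoped ContDiff InnerProductSpace ComplexConjugate ENNReal Topology Laplacian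
noncomputable section

namespace Claimed.Open.R278

/-! ## G. Limits of homogeneous rescalings (leaf CHT-G) -/

section G

/-- the hypotheses of the limit lemma. -/
def RotLim (R : ℝ) (h : Space → ℂ) (C : ℕ → ℝ) (L : List (Fin 3 ⊕ Fin 3) → Space → ℂ) : Prop :=
  ContDiffOn ℝ ∞ h (Ext R) ∧
    ∀ w, IsRotWord w → ∀ x ∈ Ext R, ‖dword w h x - L w (‖x‖⁻¹ • x)‖ ≤ C w.length * ‖x‖⁻¹

theorem IsRotWord.append {v w : List (Fin 3 ⊕ Fin 3)} (hv : IsRotWord v) (hw : IsRotWord w) :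
    IsRotWord (v ++ w) := by
  intro a ha
  rcases List.mem_append.1 ha with h | h
  · exact hv a h
  · exact hw a h

theorem RotLim.dword_lim {R : ℝ} {h : Space → ℂ} {C : ℕ → ℝ}
    {L : List (Fin 3 ⊕ Fin 3) → Space → ℂ} (H : RotLim R h C L) {w : List (Fin 3 ⊕ Fin 3)}
    (hw : IsRotWord w) :
    RotLim R (dword w h) (fun n => C (n + w.length)) (fun v => L (v ++ w)) := by
  refine ⟨contDiffOn_dword H.1 w, fun v hv x hx => ?_⟩
  have := H.2 (v ++ w) (hv.append hw) x hx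
  rwa [dword_append, List.length_append] at this

/-- `v ↦ r⁻² ∑ᵢ ⟪eᵢ × x, v⟫ cᵢ`. -/
def rotG (x : Space) (c : Fin 3 → ℂ) : Space →L[ℝ] ℂ :=
  (‖x‖ ^ 2)⁻¹ • ∑ i : Fin 3, (innerSL ℝ (vfield (Sum.inr i) x)).smulRight (c i)

theorem rotG_apply (x : Space) (c : Fin 3 → ℂ) (v : Space) :
    rotG x c v = (‖x‖ ^ 2)⁻¹ • ∑ i : Fin 3, ⟪vfield (Sum.inr i) x, v⟫_ℝ • c i := by
  simp [rotG]

theorem norm_rotG_sub_le {x : Space} (hx : x ≠ 0) (c c' : Fin 3 → ℂ) :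
    ‖rotG x c - rotG x c'‖ ≤ ‖x‖⁻¹ * ∑ i : Fin 3, ‖c i - c' i‖ := by
  have hr : 0 < ‖x‖ := norm_pos_iff.2 hx
  refine ContinuousLinearMap.opNorm_le_bound _ (by positivity) fun v => ?_
  rw [_root_.sub_apply, rotG_apply, rotG_apply, ← smul_sub, ← Finset.sum_sub_distrib,
    norm_smul, Real.norm_of_nonneg (by positivity)]
  have h1 : ‖∑ i : Fin 3, (⟪vfield (Sum.inr i) x, v⟫_ℝ • c i - ⟪vfield (Sum.inr i) x, v⟫_ℝ • c' i)‖
      ≤ ∑ i : Fin 3, (‖x‖ * ‖v‖) * ‖c i - c' i‖ := by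
    refine (norm_sum_le _ _).trans (Finset.sum_le_sum fun i _ => ?_)
    rw [← smul_sub, norm_smul]
    refine mul_le_mul_of_nonneg_right ?_ (norm_nonneg _)
    exact (norm_inner_le_norm _ _).trans
      (mul_le_mul_of_nonneg_right (norm_vfield_rot_le i x) (norm_nonneg _))
  calc (‖x‖ ^ 2)⁻¹ * _ ≤ (‖x‖ ^ 2)⁻¹ * ∑ i : Fin 3, (‖x‖ * ‖v‖) * ‖c i - c' i‖ :=
        mul_le_mul_of_nonneg_left h1 (by positivity)
    _ = ‖x‖⁻¹ * (∑ i : Fin 3, ‖c i - c' i‖) * ‖v‖ := by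
        rw [← Finset.mul_sum]; field_simp

theorem norm_smul_urad {y : Space} (hy : y ≠ 0) {ρ : ℝ} (hρ : 0 ≤ ρ) : ‖ρ • urad y‖ = ρ := by
  have : ‖y‖ ≠ 0 := norm_ne_zero_iff.2 hy
  rw [urad, norm_smul, norm_smul, norm_inv, norm_norm, inv_mul_cancel₀ this, mul_one,
    Real.norm_of_nonneg hρ]

theorem urad_smul_urad {y : Space} (hy : y ≠ 0) {ρ : ℝ} (hρ : 0 < ρ) :
    ‖ρ • urad y‖⁻¹ • (ρ • urad y) = ‖y‖⁻¹ • y := by
  rw [norm_smul_urad hy hρ.le, smul_smul, inv_mul_cancel₀ hρ.ne', one_smul]; rfl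

/-- the derivative of the rescaled function `y ↦ h(ρ y/|y|)`. -/
theorem hasFDerivAt_rescaled {R : ℝ} (hR : 0 ≤ R) {h : Space → ℂ} (hh : ContDiffOn ℝ ∞ h (Ext R))
    {ρ : ℝ} (hρ : R < ρ) {y : Space} (hy : y ≠ 0) :
    HasFDerivAt (fun y => h (ρ • urad y))
      (rotG y fun i => dfield (Sum.inr i) h (ρ • urad y)) y := by
  have hρ0 : 0 < ρ := lt_of_le_of_lt hR hρ
  have hr : ‖y‖ ≠ 0 := norm_ne_zero_iff.2 hy
  have hz : ρ • urad y ∈ Ext R := by
    show R < ‖ρ • urad y‖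
    rw [norm_smul_urad hy hρ0.le]; exact hρ
  have h1 : HasFDerivAt h (fderiv ℝ h (ρ • urad y)) (ρ • urad y) :=
    (differentiableAt_of_mem_Ext hh hz).hasFDerivAt
  have h2 : HasFDerivAt (fun y => ρ • urad y) (ρ • fderiv ℝ urad y) y :=
    ((hasFDerivAt_urad hy).differentiableAt.hasFDerivAt).const_smul ρ
  have h3 := h1.comp y h2
  refine h3.congr_fderiv ?_
  ext v
  rw [ContinuousLinearMap.comp_apply, _root_.smul_apply, rotG_apply, fderiv_urad hy]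
  have hdec := vector_decomp y v
  have e : ρ • (‖y‖⁻¹ • v - ((‖y‖ ^ 3)⁻¹ * ⟪y, v⟫_ℝ) • y) =
      (‖y‖ ^ 2)⁻¹ • ∑ i : Fin 3, ⟪vfield (Sum.inr i) y, v⟫_ℝ • vfield (Sum.inr i) (ρ • urad y) := by
    have e1 : ∀ i : Fin 3, vfield (Sum.inr i) (ρ • urad y) = (ρ * ‖y‖⁻¹) • vfield (Sum.inr i) y := by
      intro i
      rw [← rotL_apply, ← rotL_apply, urad, smul_smul, map_smul]
    have e2 : ‖y‖⁻¹ • v = (‖y‖ ^ 3)⁻¹ • (‖y‖ ^ 2 • v) := by
      rw [smul_smul]; congr 1; field_simp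
    simp only [e1]
    rw [e2, hdec]
    simp only [smul_smul, Finset.smul_sum, smul_add, smul_sub]
    rw [add_sub_cancel_left]
    refine Finset.sum_congr rfl fun i _ => ?_
    congr 1
    field_simp
  rw [e, map_smul, map_sum]
  simp only [map_smul]
  rfl

theorem RotLim.bound {R : ℝ} (hR : 0 ≤ R) {h : Space → ℂ} {C : ℕ → ℝ}
    {L : List (Fin 3 ⊕ Fin 3) → Space → ℂ} (H : RotLim R h C L) {w : List (Fin 3 ⊕ Fin 3)}
    (hw : IsRotWord w) {y : Space} (hy : y ≠ 0) {ρ : ℝ} (hρ : R < ρ) :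
    ‖dword w h (ρ • urad y) - L w (‖y‖⁻¹ • y)‖ ≤ C w.length * ρ⁻¹ := by
  have hρ0 : 0 < ρ := lt_of_le_of_lt hR hρ
  have hz : ρ • urad y ∈ Ext R := by
    show R < ‖ρ • urad y‖
    rw [norm_smul_urad hy hρ0.le]; exact hρ
  have := H.2 w hw _ hz
  rwa [urad_smul_urad hy hρ0, norm_smul_urad hy hρ0.le] at this

theorem tendsto_inv_seq (R : ℝ) : Tendsto (fun n : ℕ => (R + 1 + n)⁻¹) atTop (𝓝 0) :=
  tendsto_inv_atTop_zero.comp (tendsto_atTop_add_const_left _ _ tendsto_natCast_atTop_atTop)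

theorem RotLim.tendsto {R : ℝ} (hR : 0 ≤ R) {h : Space → ℂ} {C : ℕ → ℝ}
    {L : List (Fin 3 ⊕ Fin 3) → Space → ℂ} (H : RotLim R h C L) {w : List (Fin 3 ⊕ Fin 3)}
    (hw : IsRotWord w) {y : Space} (hy : y ≠ 0) :
    Tendsto (fun n : ℕ => dword w h ((R + 1 + n) • urad y)) atTop (𝓝 (L w (‖y‖⁻¹ • y))) := by
  rw [tendsto_iff_norm_sub_tendsto_zero]
  have h0 : Tendsto (fun n : ℕ => C w.length * (R + 1 + n)⁻¹) atTop (𝓝 0) := by
    simpa using (tendsto_inv_seq R).const_mul (C w.length)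
  refine squeeze_zero (fun _ => norm_nonneg _) (fun n => ?_) h0
  exact H.bound hR hw hy (by have : (0 : ℝ) ≤ n := Nat.cast_nonneg n; linarith)

/-- **the limit function is differentiable.** -/
theorem RotLim.hasFDerivAt_lim {R : ℝ} (hR : 0 ≤ R) {h : Space → ℂ} {C : ℕ → ℝ}
    {L : List (Fin 3 ⊕ Fin 3) → Space → ℂ} (H : RotLim R h C L) {x : Space} (hx : x ≠ 0) :
    HasFDerivAt (fun y => L [] (‖y‖⁻¹ • y)) (rotG x fun i => L [Sum.inr i] (‖x‖⁻¹ • x)) x := by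
  have hr : 0 < ‖x‖ := norm_pos_iff.2 hx
  have hρR : ∀ n : ℕ, R < R + 1 + n := fun n => by
    have : (0 : ℝ) ≤ n := Nat.cast_nonneg n
    linarith
  have hxs : x ∈ Ext (‖x‖ / 2) := by
    show ‖x‖ / 2 < ‖x‖
    linarith
  have hne : ∀ y ∈ Ext (‖x‖ / 2), y ≠ 0 := fun y hy => ne_zero_of_mem_Ext (by positivity) hy
  have hrot : ∀ i : Fin 3, IsRotWord [Sum.inr i] := fun i => isRotWord_nil.cons i
  refine hasFDerivAt_of_tendstoUniformlyOn (l := atTop)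
    (f := fun (n : ℕ) y => h ((R + 1 + n) • urad y))
    (f' := fun (n : ℕ) y => rotG y fun i => dfield (Sum.inr i) h ((R + 1 + n) • urad y))
    (g := fun y => L [] (‖y‖⁻¹ • y))
    (g' := fun y => rotG y fun i => L [Sum.inr i] (‖y‖⁻¹ • y)) (isOpen_Ext _) ?_ ?_ ?_ hxs
  · rw [Metric.tendstoUniformlyOn_iff]
    intro ε hε
    have hlim : Tendsto (fun n : ℕ => 2 / ‖x‖ * (3 * (|C 1| * (R + 1 + n)⁻¹))) atTop (𝓝 0) := by
      simpa using (((tendsto_inv_seq R).const_mul |C 1|).const_mul 3).const_mul (2 / ‖x‖)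
    filter_upwards [hlim.eventually (gt_mem_nhds hε)] with n hn y hy
    rw [dist_eq_norm]
    refine lt_of_le_of_lt ((norm_rotG_sub_le (hne y hy) _ _).trans ?_) hn
    have hy2 : ‖x‖ / 2 < ‖y‖ := hy
    have h1 : ‖y‖⁻¹ ≤ 2 / ‖x‖ := by
      rw [inv_le_comm₀ (by linarith) (by positivity)]
      rw [inv_div]; exact hy2.le
    have hpos : (0 : ℝ) < (R + 1 + n)⁻¹ := by
      have := hρR n
      have : (0 : ℝ) < R + 1 + n := by linarith
      positivity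
    have h2 : ∑ i : Fin 3, ‖L [Sum.inr i] (‖y‖⁻¹ • y) - dfield (Sum.inr i) h ((R + 1 + n) • urad y)‖
        ≤ 3 * (|C 1| * (R + 1 + n)⁻¹) := by
      have : ∀ i ∈ (Finset.univ : Finset (Fin 3)),
          ‖L [Sum.inr i] (‖y‖⁻¹ • y) - dfield (Sum.inr i) h ((R + 1 + n) • urad y)‖
            ≤ |C 1| * (R + 1 + n)⁻¹ := by
        intro i _
        rw [norm_sub_rev]
        exact (H.bound hR (hrot i) (hne y hy) (hρR n)).trans
          (mul_le_mul_of_nonneg_right (le_abs_self _) hpos.le)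
      refine (Finset.sum_le_sum this).trans ?_
      simp
    exact mul_le_mul h1 h2 (Finset.sum_nonneg fun _ _ => norm_nonneg _) (by positivity)
  · intro n y hy
    exact hasFDerivAt_rescaled hR H.1 (hρR n) (hne y hy)
  · intro y hy
    exact H.tendsto hR isRotWord_nil (hne y hy)

/-- rotation derivatives of the limit function. -/
theorem RotLim.dfield_lim {R : ℝ} (hR : 0 ≤ R) {h : Space → ℂ} {C : ℕ → ℝ}
    {L : List (Fin 3 ⊕ Fin 3) → Space → ℂ} (H : RotLim R h C L) {x : Space} (hx : x ≠ 0)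
    (j : Fin 3) :
    dfield (Sum.inr j) (fun y => L [] (‖y‖⁻¹ • y)) x = L [Sum.inr j] (‖x‖⁻¹ • x) := by
  have hρR : ∀ n : ℕ, R < R + 1 + n := fun n => by
    have : (0 : ℝ) ≤ n := Nat.cast_nonneg n
    linarith
  have hrot : ∀ i : Fin 3, IsRotWord [Sum.inr i] := fun i => isRotWord_nil.cons i
  unfold dfield
  rw [(H.hasFDerivAt_lim hR hx).fderiv, rotG_apply]
  -- both sides are limits of the same sequence
  have h1 : Tendsto (fun n : ℕ => (‖x‖ ^ 2)⁻¹ • ∑ i : Fin 3,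
      ⟪vfield (Sum.inr i) x, vfield (Sum.inr j) x⟫_ℝ • dword [Sum.inr i] h ((R + 1 + n) • urad x))
      atTop (𝓝 ((‖x‖ ^ 2)⁻¹ • ∑ i : Fin 3,
        ⟪vfield (Sum.inr i) x, vfield (Sum.inr j) x⟫_ℝ • L [Sum.inr i] (‖x‖⁻¹ • x))) :=
    (tendsto_finsetSum _ fun i _ => (H.tendsto hR (hrot i) hx).const_smul _).const_smul _
  have h2 := H.tendsto hR (hrot j) hx
  refine tendsto_nhds_unique h1 (h2.congr fun n => ?_)
  -- the identity for the rescaled functions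
  have hρ0 : (0 : ℝ) < R + 1 + n := lt_of_le_of_lt hR (hρR n)
  have hd := (hasFDerivAt_rescaled hR H.1 (hρR n) hx).fderiv
  have e1 : fderiv ℝ (fun y => h ((R + 1 + n) • urad y)) x (vfield (Sum.inr j) x) =
      dword [Sum.inr j] h ((R + 1 + n) • urad x) := by
    have hz : (R + 1 + (n : ℝ)) • urad x ∈ Ext R := by
      show R < ‖(R + 1 + (n : ℝ)) • urad x‖
      rw [norm_smul_urad hx hρ0.le]; exact hρR n
    have g1 : HasFDerivAt h (fderiv ℝ h ((R + 1 + n) • urad x)) ((R + 1 + (n : ℝ)) • urad x) :=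
      (differentiableAt_of_mem_Ext H.1 hz).hasFDerivAt
    have g2 : HasFDerivAt (fun y => (R + 1 + (n : ℝ)) • urad y)
        ((R + 1 + (n : ℝ)) • fderiv ℝ urad x) x :=
      ((hasFDerivAt_urad hx).differentiableAt.hasFDerivAt).const_smul (R + 1 + (n : ℝ))
    have g3 := (g1.comp x g2).fderiv
    have g4 : fderiv ℝ (fun y => h ((R + 1 + n) • urad y)) x =
        (fderiv ℝ h ((R + 1 + n) • urad x)).comp ((R + 1 + (n : ℝ)) • fderiv ℝ urad x) := g3
    rw [g4, ContinuousLinearMap.comp_apply, _root_.smul_apply, fderiv_urad_rot hx, smul_smul]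
    show _ = fderiv ℝ h _ (vfield (Sum.inr j) ((R + 1 + (n : ℝ)) • urad x))
    rw [← rotL_apply, ← rotL_apply, urad, smul_smul, map_smul, map_smul, map_smul]
  rw [← e1, hd, rotG_apply]
  rfl

/-- the limit function is `C^n` for every `n` (induction on `n`, for all data at once). -/
theorem RotLim.contDiffOn_nat {R : ℝ} (hR : 0 ≤ R) (n : ℕ) : ∀ {h : Space → ℂ} {C : ℕ → ℝ}
    {L : List (Fin 3 ⊕ Fin 3) → Space → ℂ}, RotLim R h C L →
    ContDiffOn ℝ n (fun y => L [] (‖y‖⁻¹ • y)) (Ext 0) := by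
  have hne : ∀ y ∈ Ext 0, y ≠ 0 := fun y hy => ne_zero_of_mem_Ext le_rfl hy
  have hrot : ∀ i : Fin 3, IsRotWord [Sum.inr i] := fun i => isRotWord_nil.cons i
  induction n with
  | zero =>
    intro h C L H
    rw [Nat.cast_zero, contDiffOn_zero]
    exact fun x hx => (H.hasFDerivAt_lim hR (hne x hx)).continuousAt.continuousWithinAt
  | succ n ih =>
    intro h C L H
    have e : ((n + 1 : ℕ) : WithTop ℕ∞) = (n : WithTop ℕ∞) + 1 := by push_cast; rfl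
    rw [e, contDiffOn_succ_iff_fderiv_of_isOpen (isOpen_Ext 0)]
    refine ⟨fun x hx => (H.hasFDerivAt_lim hR (hne x hx)).differentiableAt.differentiableWithinAt,
      by simp, ?_⟩
    rw [contDiffOn_clm_apply]
    intro v
    have hcongr : ∀ y ∈ Ext 0, fderiv ℝ (fun y => L [] (‖y‖⁻¹ • y)) y v =
        (‖y‖ ^ 2)⁻¹ • ∑ i : Fin 3, ⟪vfield (Sum.inr i) y, v⟫_ℝ • L [Sum.inr i] (‖y‖⁻¹ • y) :=
      fun y hy => by rw [(H.hasFDerivAt_lim hR (hne y hy)).fderiv, rotG_apply]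
    refine ContDiffOn.congr ?_ hcongr
    have h1 : ContDiffOn ℝ n (fun y : Space => (‖y‖ ^ 2)⁻¹) (Ext 0) :=
      ((((contDiffOn_norm_Ext le_rfl).pow 2).inv
        (fun y hy => pow_ne_zero 2 (norm_ne_zero_iff.2 (hne y hy)))).of_le
          (WithTop.coe_le_coe.2 le_top))
    refine h1.smul (ContDiffOn.sum fun i _ => ?_)
    have h2 : ContDiffOn ℝ n (fun y : Space => ⟪vfield (Sum.inr i) y, v⟫_ℝ) (Ext 0) :=
      (((contDiff_vfield (Sum.inr i)).inner ℝ contDiff_const).of_le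
        (WithTop.coe_le_coe.2 le_top)).contDiffOn
    have h3 : ContDiffOn ℝ n (fun y : Space => L [Sum.inr i] (‖y‖⁻¹ • y)) (Ext 0) :=
      ih (H.dword_lim (hrot i))
    exact h2.smul h3

theorem RotLim.dword_eq {R : ℝ} (hR : 0 ≤ R) {h : Space → ℂ} {C : ℕ → ℝ}
    {L : List (Fin 3 ⊕ Fin 3) → Space → ℂ} (H : RotLim R h C L) {w : List (Fin 3 ⊕ Fin 3)}
    (hw : IsRotWord w) : ∀ x ∈ Ext 0,
    dword w (fun y => L [] (‖y‖⁻¹ • y)) x = L w (‖x‖⁻¹ • x) := by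
  induction w with
  | nil => intro x _; rfl
  | cons a w ih =>
    intro x hx
    obtain ⟨i, rfl⟩ := hw.head
    rw [dword_cons, dfield_congr (ih hw.tail) _ x hx]
    exact (H.dword_lim hw.tail).dfield_lim hR (ne_zero_of_mem_Ext le_rfl hx) i

/-- **T11**.  Let `h` be smooth on `Ext R` and suppose that for every rotation word `w` the
functions `ρ ↦ 𝔇_w h(ρ ω)` converge as `ρ → ∞`, uniformly in the unit vector `ω`, at rate `C/ρ`.  Then
`a(x) = lim h(ρ x/|x|)` is smooth on `ℝ³ \ 0`, homogeneous of degree `0`, and `𝔇_w a (x)` is the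
limit of `𝔇_w h (ρ x/|x|)` for rotation words.  (Rotation fields commute with the dilations
`x ↦ ρ x/|x|`; a function homogeneous of degree `0` has `∂ⱼ = r⁻² ∑ᵢ (eᵢ×x)ⱼ Ωᵢ`;
`hasFDerivAt_of_tendstoUniformlyOn`.) -/
theorem smooth_limit_of_rot_words {R : ℝ} (hR : 0 ≤ R) {h : Space → ℂ}
    (hh : ContDiffOn ℝ ∞ h (Ext R)) {C : ℕ → ℝ} {L : List (Fin 3 ⊕ Fin 3) → Space → ℂ}
    (hL : ∀ w, IsRotWord w → ∀ x ∈ Ext R, ‖dword w h x - L w ((‖x‖)⁻¹ • x)‖ ≤ C w.length * ‖x‖⁻¹) :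
    ContDiffOn ℝ ∞ (fun x => L [] ((‖x‖)⁻¹ • x)) (Ext 0) ∧
    ∀ w, IsRotWord w → ∀ x ∈ Ext 0,
      dword w (fun y => L [] ((‖y‖)⁻¹ • y)) x = L w ((‖x‖)⁻¹ • x) := by
  have H : RotLim R h C L := ⟨hh, hL⟩
  exact ⟨contDiffOn_infty.2 fun n => H.contDiffOn_nat hR n, fun w hw => H.dword_eq hR hw⟩

end G

end Claimed.Open.R278
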