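import Claimed.Open.R278.CHTB

/-!
# Result 278, package CHT (paper-free analysis tools for the channel layer), file CHTH

Every `sorry` of this file belongs to ONE leaf (`CHT-H` in the team table).  No paper reading needed; the
proof idea is in the docstrings.  Conventions: `Space = ℝ³`, `Ext R = {R < |x|}` (open),
`vfield/dfield/dword/dr/WordBdd` from `CHDefs`.  You may add auxiliary lemmas to this file, and
change a statement only after telling helper225 (channel open278).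
-/

open MeasureTheory Filter
open scoped ContDiff InnerProductSpace ComplexConjugate ENNReal Topology Laplacian

noncomputable section

namespace Claimed.Open.R278

/-! ## H. Explicit supersolutions and profile comparisons (leaf CHT-H) -/

section H

/-- `β(λ,k) = (2-2λ)/k - 1`. -/
def betaOf (lam k : ℝ) : ℝ := (2 - 2 * lam) / k - 1

theorem contDiffAt_radialA (k a : ℝ) {r : ℝ} (hr : 0 < r) : ContDiffAt ℝ 2 (radialA k a) r :=
  ((contDiffOn_radialA k a).contDiffAt (Ioi_mem_nhds hr)).of_le (WithTop.coe_le_coe.2 le_top)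

/-- the Laplacian of `A_a(r) P(z)`. -/
theorem laplacian_radialA_mul_height (k a : ℝ) {P : ℝ → ℝ} {x : Space} (hx : x ≠ 0)
    (hP : ContDiffAt ℝ 2 P (x 2)) :
    Δ (fun y : Space => radialA k a ‖y‖ * P (y 2)) x = radialA k a ‖x‖ *
      (P (x 2) * (k ^ 2 - 2 * k * (a + 1) / ‖x‖ + a * (a + 1) / ‖x‖ ^ 2)
        + 2 * (-k + a / ‖x‖) * (x 2 / ‖x‖) * deriv P (x 2) + iteratedDeriv 2 P (x 2)) := by
  have hr : 0 < ‖x‖ := norm_pos_iff.2 hx
  rw [laplacian_radial_mul_height hx (contDiffAt_radialA k a hr) hP, deriv_radialA k a hr,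
    iteratedDeriv_two_radialA k a hr]
  field_simp
  ring

theorem radialA_shift (k a : ℝ) (m : ℕ) {r : ℝ} (hr : 0 < r) :
    radialA k a r * (r ^ m)⁻¹ = radialA k (a - m) r := by
  simp only [radialA]
  rw [Real.rpow_sub hr, Real.rpow_natCast]
  ring

theorem betaOf_bounds {k lam : ℝ} (hk : 0.9 ≤ k) (_hk' : k ≤ 1.1) (hl : 0 ≤ lam) (hl' : lam ≤ 1) :
    -1 ≤ betaOf lam k ∧ betaOf lam k ≤ 5 / 4 ∧ k * (betaOf lam k + 1) = 2 - 2 * lam := by
  have hk0 : 0 < k := by linarith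
  refine ⟨?_, ?_, ?_⟩
  · have : 0 ≤ (2 - 2 * lam) / k := div_nonneg (by linarith) hk0.le
    simp only [betaOf]; linarith
  · have : (2 - 2 * lam) / k ≤ 9 / 4 := by
      rw [div_le_iff₀ hk0]; nlinarith
    simp only [betaOf]; linarith
  · simp only [betaOf]; field_simp; ring

theorem poly4_deriv (p₀ p₂ p₄ z : ℝ) :
    deriv (fun s : ℝ => p₀ + p₂ * s ^ 2 + p₄ * s ^ 4) z = 2 * p₂ * z + 4 * p₄ * z ^ 3 := by
  have h : HasDerivAt (fun s : ℝ => p₀ + p₂ * s ^ 2 + p₄ * s ^ 4)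
      (0 + p₂ * (2 * z ^ 1 * 1) + p₄ * (4 * z ^ 3 * 1)) z :=
    ((hasDerivAt_const z p₀).add (((hasDerivAt_id z).pow 2).const_mul p₂)).add
      (((hasDerivAt_id z).pow 4).const_mul p₄)
  rw [h.deriv]; ring

theorem poly4_deriv2 (p₀ p₂ p₄ z : ℝ) :
    iteratedDeriv 2 (fun s : ℝ => p₀ + p₂ * s ^ 2 + p₄ * s ^ 4) z = 2 * p₂ + 12 * p₄ * z ^ 2 := by
  rw [iteratedDeriv_succ, iteratedDeriv_one]
  have e : deriv (fun s : ℝ => p₀ + p₂ * s ^ 2 + p₄ * s ^ 4)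
      = fun s => 2 * p₂ * s + 4 * p₄ * s ^ 3 := by
    funext s; exact poly4_deriv p₀ p₂ p₄ s
  rw [e]
  have h : HasDerivAt (fun s : ℝ => 2 * p₂ * s + 4 * p₄ * s ^ 3)
      (2 * p₂ * 1 + 4 * p₄ * (3 * z ^ 2 * 1)) z :=
    ((hasDerivAt_id z).const_mul (2 * p₂)).add (((hasDerivAt_id z).pow 3).const_mul (4 * p₄))
  rw [h.deriv]; ring

theorem poly4_contDiff (p₀ p₂ p₄ : ℝ) :
    ContDiff ℝ 2 (fun s : ℝ => p₀ + p₂ * s ^ 2 + p₄ * s ^ 4) := by fun_prop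

/-- the Laplacian of `A r^{-m} (p₀ + p₂ z² + p₄ z⁴)`. -/
theorem laplacian_profile (k β p₀ p₂ p₄ : ℝ) (m : ℕ) {x : Space} (hx : x ≠ 0) :
    Δ (fun y : Space => radialA k β ‖y‖ * (‖y‖ ^ m)⁻¹ * (p₀ + p₂ * y 2 ^ 2 + p₄ * y 2 ^ 4)) x
      = radialA k β ‖x‖ * (‖x‖ ^ m)⁻¹ *
      ((p₀ + p₂ * x 2 ^ 2 + p₄ * x 2 ^ 4)
          * (k ^ 2 - 2 * k * (β - m + 1) / ‖x‖ + (β - m) * (β - m + 1) / ‖x‖ ^ 2)
        + 2 * (-k + (β - m) / ‖x‖) * (x 2 / ‖x‖) * (2 * p₂ * x 2 + 4 * p₄ * x 2 ^ 3)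
        + (2 * p₂ + 12 * p₄ * x 2 ^ 2)) := by
  have hr : 0 < ‖x‖ := norm_pos_iff.2 hx
  have hev : (fun y : Space => radialA k β ‖y‖ * (‖y‖ ^ m)⁻¹ * (p₀ + p₂ * y 2 ^ 2 + p₄ * y 2 ^ 4))
      =ᶠ[𝓝 x] fun y : Space => radialA k (β - m) ‖y‖
        * (fun s : ℝ => p₀ + p₂ * s ^ 2 + p₄ * s ^ 4) (y 2) := by
    filter_upwards [isOpen_ne.mem_nhds hx] with y hy
    rw [radialA_shift k β m (norm_pos_iff.2 hy)]
  rw [(InnerProductSpace.laplacian_congr_nhds hev).self_of_nhds,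
    laplacian_radialA_mul_height k (β - m) hx (poly4_contDiff p₀ p₂ p₄).contDiffAt,
    poly4_deriv, poly4_deriv2, radialA_shift k β m hr]

theorem cht_bigD_pos : 0 < bigD := by unfold bigD; positivity

theorem cht_one_le_bigD : 1 ≤ bigD := by unfold bigD; exact one_le_pow₀ (by norm_num)

theorem cht_norm_ez : ‖ez‖ = 1 := by simp [ez]

/-- `|u| ≤ 4/r` for `r ≥ 2D`. -/
theorem abs_uD_le {x : Space} (hx : 2 * bigD ≤ ‖x‖) : |uD x| ≤ 4 / ‖x‖ := by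
  have hD := cht_bigD_pos
  have hr : 0 < ‖x‖ := by linarith
  have hn : ‖bigD • ez‖ = bigD := by rw [norm_smul, cht_norm_ez, mul_one, Real.norm_of_nonneg hD.le]
  have h1 : ‖x‖ / 2 ≤ ‖x - bigD • ez‖ := by
    have := norm_sub_norm_le x (bigD • ez)
    rw [hn] at this; linarith
  have h2 : ‖x‖ / 2 ≤ ‖x + bigD • ez‖ := by
    have := norm_sub_norm_le x (-(bigD • ez))
    rw [norm_neg, hn, sub_neg_eq_add] at this; linarith
  have h3 : 1 / ‖x - bigD • ez‖ ≤ 2 / ‖x‖ := by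
    rw [div_le_div_iff₀ (by linarith) hr]; linarith
  have h4 : 1 / ‖x + bigD • ez‖ ≤ 2 / ‖x‖ := by
    rw [div_le_div_iff₀ (by linarith) hr]; linarith
  have h5 : 0 ≤ 1 / ‖x - bigD • ez‖ := by positivity
  have h6 : 0 ≤ 1 / ‖x + bigD • ez‖ := by positivity
  have e : (4 : ℝ) / ‖x‖ = 2 / ‖x‖ + 2 / ‖x‖ := by ring
  simp only [uD, nuclearPotential]
  rw [abs_le, e]
  constructor <;> linarith


/-- **Supersolution for the full norm.**  With `g = 1 - M/r`,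
`(-½Δ + k²/2 - (2-2λ)/r - C₁/r²)(A g)
  = A r⁻² [kM - β(β+1)/2 - C₁ + (M/r)(β(β-1)/2 + C₁)]`. -/
theorem supersol_full (C₁ : ℝ) (hC₁ : 0 ≤ C₁) : ∃ M R₀ : ℝ, 0 < M ∧ 2 * M ≤ R₀ ∧ 1 ≤ R₀ ∧
    ∀ k lam : ℝ, 0.9 ≤ k → k ≤ 1.1 → 0 ≤ lam → lam ≤ 1 → ∀ x ∈ Ext R₀,
      0 < k ^ 2 / 2 - (2 - 2 * lam) / ‖x‖ - C₁ / ‖x‖ ^ 2 ∧
      radialA k (betaOf lam k) ‖x‖ * (‖x‖ ^ 2)⁻¹ ≤
        -(1 / 2) * Δ (fun y : Space => radialA k (betaOf lam k) ‖y‖ * (1 - M / ‖y‖)) x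
        + (k ^ 2 / 2 - (2 - 2 * lam) / ‖x‖ - C₁ / ‖x‖ ^ 2)
            * (radialA k (betaOf lam k) ‖x‖ * (1 - M / ‖x‖)) := by
  refine ⟨2 * (4 + C₁), 4 * (4 + C₁), by positivity, by linarith, by linarith, ?_⟩
  intro k lam hk hk' hl hl' x hx
  obtain ⟨hβ1, hβ2, hβ3⟩ := betaOf_bounds hk hk' hl hl'
  set β := betaOf lam k with hβ
  set M := 2 * (4 + C₁) with hM
  have hxr : 4 * (4 + C₁) < ‖x‖ := hx
  have hr : 0 < ‖x‖ := by linarith
  have hx0 : x ≠ 0 := norm_pos_iff.1 hr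
  set r := ‖x‖ with hrdef
  have hr1 : 1 ≤ r := by linarith
  constructor
  · have h1 : (2 - 2 * lam) / r ≤ 2 / r := by gcongr; linarith
    have h2 : C₁ / r ^ 2 ≤ C₁ / r := by
      gcongr
      nlinarith
    have h3 : 2 / r + C₁ / r < 1 / 4 := by
      rw [← add_div, div_lt_iff₀ hr]; linarith
    nlinarith
  · -- the function as a difference of two profiles
    have hev : (fun y : Space => radialA k β ‖y‖ * (1 - M / ‖y‖))
        =ᶠ[𝓝 x] fun y : Space => radialA k β ‖y‖ * (‖y‖ ^ 0)⁻¹ * (1 + 0 * y 2 ^ 2 + 0 * y 2 ^ 4)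
          - radialA k β ‖y‖ * (‖y‖ ^ 1)⁻¹ * (M + 0 * y 2 ^ 2 + 0 * y 2 ^ 4) := by
      filter_upwards [isOpen_ne.mem_nhds hx0] with y hy
      have : ‖y‖ ≠ 0 := norm_ne_zero_iff.2 hy
      field_simp
      ring
    have hc : ∀ (m : ℕ) (p : ℝ), ContDiffAt ℝ 2 (fun y : Space =>
        radialA k β ‖y‖ * (‖y‖ ^ m)⁻¹ * (p + 0 * y 2 ^ 2 + 0 * y 2 ^ 4)) x := by
      intro m p
      have h1 : ContDiffAt ℝ 2 (fun y : Space => ‖y‖) x := contDiffAt_norm ℝ hx0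
      have h2 : ContDiffAt ℝ 2 (fun y : Space => radialA k β ‖y‖) x :=
        ContDiffAt.comp (g := radialA k β) (f := fun y : Space => ‖y‖) x
          (contDiffAt_radialA k β hr) h1
      have h3 : ContDiffAt ℝ 2 (fun y : Space => (‖y‖ ^ m)⁻¹) x :=
        (h1.pow m).inv (pow_ne_zero _ hr.ne')
      have h4 : ContDiffAt ℝ 2 (fun y : Space => y 2) x :=
        ((contDiff_coord 2).of_le (WithTop.coe_le_coe.2 le_top)).contDiffAt
      exact (h2.mul h3).mul ((contDiffAt_const.add (contDiffAt_const.mul (h4.pow 2))).add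
        (contDiffAt_const.mul (h4.pow 4)))
    rw [(InnerProductSpace.laplacian_congr_nhds hev).self_of_nhds,
      laplacian_fun_sub (hc 0 1) (hc 1 M), laplacian_profile k β 1 0 0 0 hx0,
      laplacian_profile k β M 0 0 1 hx0, ← hrdef]
    have hA : 0 < radialA k β r := radialA_pos k β hr
    have key : -(1 / 2) * (radialA k β r * (r ^ 0)⁻¹ *
          ((1 + 0 * x 2 ^ 2 + 0 * x 2 ^ 4)
              * (k ^ 2 - 2 * k * (β - (0 : ℕ) + 1) / r + (β - (0 : ℕ)) * (β - (0 : ℕ) + 1) / r ^ 2)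
            + 2 * (-k + (β - (0 : ℕ)) / r) * (x 2 / r) * (2 * 0 * x 2 + 4 * 0 * x 2 ^ 3)
            + (2 * 0 + 12 * 0 * x 2 ^ 2))
        - radialA k β r * (r ^ 1)⁻¹ *
          ((M + 0 * x 2 ^ 2 + 0 * x 2 ^ 4)
              * (k ^ 2 - 2 * k * (β - (1 : ℕ) + 1) / r + (β - (1 : ℕ)) * (β - (1 : ℕ) + 1) / r ^ 2)
            + 2 * (-k + (β - (1 : ℕ)) / r) * (x 2 / r) * (2 * 0 * x 2 + 4 * 0 * x 2 ^ 3)
            + (2 * 0 + 12 * 0 * x 2 ^ 2)))
        + (k ^ 2 / 2 - (2 - 2 * lam) / r - C₁ / r ^ 2) * (radialA k β r * (1 - M / r))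
        = radialA k β r * (r ^ 2)⁻¹ *
          (k * M - β * (β + 1) / 2 - C₁ + M / r * (β * (β - 1) / 2 + C₁)) := by
      rw [← hβ3]
      push_cast
      field_simp
      ring
    rw [key]
    have h1 : M / r ≤ 1 / 2 := by
      rw [div_le_iff₀ hr]; linarith
    have h0 : 0 ≤ M / r := by positivity
    have h2 : -(1 / 8) ≤ β * (β - 1) / 2 + C₁ := by nlinarith [sq_nonneg (β - 1 / 2)]
    have h3 : -(1 / 16) ≤ M / r * (β * (β - 1) / 2 + C₁) := by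
      by_cases hs : 0 ≤ β * (β - 1) / 2 + C₁
      · have := mul_nonneg h0 hs; linarith
      · push Not at hs
        nlinarith
    have h4 : β * (β + 1) / 2 ≤ 2 := by nlinarith
    have h5 : 4 + C₁ ≤ k * M := by
      rw [hM]; nlinarith
    have h6 : 1 ≤ k * M - β * (β + 1) / 2 - C₁ + M / r * (β * (β - 1) / 2 + C₁) := by linarith
    have h7 : 0 < radialA k β r * (r ^ 2)⁻¹ := by positivity
    exact le_mul_of_one_le_right h7.le h6


/-- bounds for the coefficients of `laplacian_profile`. -/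
theorem profile_coeff_bounds {k lam : ℝ} (hk : 0.9 ≤ k) (hk' : k ≤ 1.1) (hl : 0 ≤ lam)
    (hl' : lam ≤ 1) (m : ℕ) {r : ℝ} (hr : 1 ≤ r) :
    |k * (betaOf lam k - m + 1) / r| ≤ 2 * (m + 3) / r ∧
    |(betaOf lam k - m) * (betaOf lam k - m + 1) / (2 * r ^ 2)| ≤ (m + 3) ^ 2 / r ∧
    |(betaOf lam k - m) / r| ≤ (m + 3) / r := by
  obtain ⟨hβ1, hβ2, -⟩ := betaOf_bounds hk hk' hl hl'
  set β := betaOf lam k
  have hr0 : 0 < r := by linarith
  have hm : (0 : ℝ) ≤ m := Nat.cast_nonneg m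
  have h1 : |β - m| ≤ m + 3 := by rw [abs_le]; constructor <;> linarith
  have h2 : |β - m + 1| ≤ m + 3 := by rw [abs_le]; constructor <;> linarith
  have hk0 : |k| ≤ 2 := by rw [abs_le]; constructor <;> linarith
  refine ⟨?_, ?_, ?_⟩
  · rw [abs_div, abs_mul, abs_of_pos hr0]
    gcongr
  · rw [abs_div, abs_mul, abs_of_pos (by positivity : (0 : ℝ) < 2 * r ^ 2)]
    have h3 : |β - m| * |β - m + 1| ≤ (m + 3) ^ 2 := by
      rw [sq]; gcongr
    have h4 : r ≤ 2 * r ^ 2 := by nlinarith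
    calc |β - m| * |β - m + 1| / (2 * r ^ 2) ≤ (m + 3) ^ 2 / (2 * r ^ 2) := by gcongr
      _ ≤ (m + 3) ^ 2 / r := by gcongr
  · rw [abs_div, abs_of_pos hr0]
    gcongr

/-- **Supersolutions for the `Q`-operator** `-½Δ + c + k²/2 + u`.  For
`Φ = A r^{-m} P(z)`, `P = p₀ + p₂ z² + p₄ z⁴` with nonnegative coefficients,
`(-½Δ + c + k²/2 + u) Φ = A r^{-m} { P [c + u + k(β-m+1)/r - (β-m)(β-m+1)/(2r²)]
   + (k - (β-m)/r) z P'/r - ½ P'' } ≥ A r^{-m} { (3c/4) P - ½ P'' }` far out. -/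
theorem supersol_Q (c : ℝ) (hc : 0 < c) (m : ℕ) : ∃ R₀ : ℝ, 2 * bigD ≤ R₀ ∧
    ∀ k lam p₀ p₂ p₄ : ℝ, 0.9 ≤ k → k ≤ 1.1 → 0 ≤ lam → lam ≤ 1 → 0 ≤ p₀ → 0 ≤ p₂ → 0 ≤ p₄ →
    ∀ x ∈ Ext R₀,
      0 < c + k ^ 2 / 2 + uD x ∧
      radialA k (betaOf lam k) ‖x‖ * (‖x‖ ^ m)⁻¹ *
          (3 * c / 4 * (p₀ + p₂ * x 2 ^ 2 + p₄ * x 2 ^ 4) - (p₂ + 6 * p₄ * x 2 ^ 2)) ≤
        -(1 / 2) * Δ (fun y : Space => radialA k (betaOf lam k) ‖y‖ * (‖y‖ ^ m)⁻¹ *
            (p₀ + p₂ * y 2 ^ 2 + p₄ * y 2 ^ 4)) x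
        + (c + k ^ 2 / 2 + uD x) * (radialA k (betaOf lam k) ‖x‖ * (‖x‖ ^ m)⁻¹ *
            (p₀ + p₂ * x 2 ^ 2 + p₄ * x 2 ^ 4)) := by
  have hm : (0 : ℝ) ≤ m := Nat.cast_nonneg m
  set K : ℝ := 4 + 2 * (m + 3) + (m + 3) ^ 2 with hK
  have hK0 : 0 < K := by positivity
  refine ⟨2 * bigD + 4 * K / c + 2 * (m + 3), by
    have : 0 ≤ 4 * K / c := by positivity
    linarith, ?_⟩
  intro k lam p₀ p₂ p₄ hk hk' hl hl' hp₀ hp₂ hp₄ x hx
  have hD := cht_one_le_bigD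
  have hKc : 0 ≤ 4 * K / c := by positivity
  have hxr : 2 * bigD + 4 * K / c + 2 * (m + 3) < ‖x‖ := hx
  have hr : 0 < ‖x‖ := by linarith
  have hx0 : x ≠ 0 := norm_pos_iff.1 hr
  have hu := abs_uD_le (x := x) (by linarith)
  obtain ⟨hb1, hb2, hb3⟩ := profile_coeff_bounds hk hk' hl hl' m (r := ‖x‖) (by linarith)
  rw [laplacian_profile k (betaOf lam k) p₀ p₂ p₄ m hx0]
  set β := betaOf lam k
  set r := ‖x‖ with hrdef
  set z := x 2
  have hKr : K / r ≤ c / 4 := by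
    rw [div_le_iff₀ hr]
    have : 4 * K / c < r := by linarith
    rw [div_lt_iff₀ hc] at this
    linarith
  have hsum : 4 / r + 2 * (m + 3) / r + (m + 3) ^ 2 / r = K / r := by
    rw [hK]; ring
  have hu' := (abs_le.1 hu).1
  have hb1' := (abs_le.1 hb1).1
  have hb2' := (abs_le.1 hb2).2
  have hb3' := (abs_le.1 hb3).2
  constructor
  · have : 4 / r ≤ K / r := by
      rw [← hsum]
      have h1 : 0 ≤ 2 * ((m : ℝ) + 3) / r := by positivity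
      have h2 : 0 ≤ ((m : ℝ) + 3) ^ 2 / r := by positivity
      linarith
    nlinarith
  · have hA : 0 < radialA k β r * (r ^ m)⁻¹ := by
      have := radialA_pos k β hr
      positivity
    have key : -(1 / 2) * (radialA k β r * (r ^ m)⁻¹ *
          ((p₀ + p₂ * z ^ 2 + p₄ * z ^ 4)
              * (k ^ 2 - 2 * k * (β - m + 1) / r + (β - m) * (β - m + 1) / r ^ 2)
            + 2 * (-k + (β - m) / r) * (z / r) * (2 * p₂ * z + 4 * p₄ * z ^ 3)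
            + (2 * p₂ + 12 * p₄ * z ^ 2)))
        + (c + k ^ 2 / 2 + uD x) * (radialA k β r * (r ^ m)⁻¹ * (p₀ + p₂ * z ^ 2 + p₄ * z ^ 4))
        = radialA k β r * (r ^ m)⁻¹ *
          ((p₀ + p₂ * z ^ 2 + p₄ * z ^ 4)
              * (c + uD x + k * (β - m + 1) / r - (β - m) * (β - m + 1) / (2 * r ^ 2))
            + (k - (β - m) / r) * ((2 * p₂ * z ^ 2 + 4 * p₄ * z ^ 4) / r)
            - (p₂ + 6 * p₄ * z ^ 2)) := by
      field_simp
      ring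
    rw [key]
    apply mul_le_mul_of_nonneg_left _ hA.le
    have hP : 0 ≤ p₀ + p₂ * z ^ 2 + p₄ * z ^ 4 := by positivity
    have hP' : 0 ≤ (2 * p₂ * z ^ 2 + 4 * p₄ * z ^ 4) / r := by positivity
    have h1 : 3 * c / 4 ≤ c + uD x + k * (β - m + 1) / r - (β - m) * (β - m + 1) / (2 * r ^ 2) := by
      linarith
    have h2 : 0 ≤ k - (β - m) / r := by
      have : ((m : ℝ) + 3) / r ≤ 1 / 2 := by
        rw [div_le_iff₀ hr]; linarith
      linarith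
    have h3 := mul_le_mul_of_nonneg_left h1 hP
    have h4 := mul_nonneg h2 hP'
    linarith

/-- the action of the conjugated scalar operator on `A r^{-m} P(z)` (used for the ansatz `Z`):
`[½Δ - (k²/2 + u) - 2λ/r](A r^{-m} P) = A r^{-m} { ½P'' + O((|P| + |z P'|)/r) }`. -/
theorem conj_op_profile (m : ℕ) : ∃ R₀ C : ℝ, 2 * bigD ≤ R₀ ∧
    ∀ k lam p₀ p₂ : ℝ, 0.9 ≤ k → k ≤ 1.1 → 0 ≤ lam → lam ≤ 1 → ∀ x ∈ Ext R₀,
      |(1 / 2) * Δ (fun y : Space => radialA k (betaOf lam k) ‖y‖ * (‖y‖ ^ m)⁻¹ *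
            (p₀ + p₂ * y 2 ^ 2)) x
        - (k ^ 2 / 2 + uD x + 2 * lam / ‖x‖) * (radialA k (betaOf lam k) ‖x‖ * (‖x‖ ^ m)⁻¹ *
            (p₀ + p₂ * x 2 ^ 2))
        - radialA k (betaOf lam k) ‖x‖ * (‖x‖ ^ m)⁻¹ * p₂|
      ≤ C * radialA k (betaOf lam k) ‖x‖ * (‖x‖ ^ (m + 1))⁻¹ * (|p₀| + |p₂| * x 2 ^ 2) := by
  have hm : (0 : ℝ) ≤ m := Nat.cast_nonneg m
  set K : ℝ := 6 + 2 * (m + 3) + (m + 3) ^ 2 + 2 * (2 + (m + 3)) with hK
  refine ⟨2 * bigD, K, le_rfl, ?_⟩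
  intro k lam p₀ p₂ hk hk' hl hl' x hx
  have hD := cht_one_le_bigD
  have hxr : 2 * bigD < ‖x‖ := hx
  have hr : 0 < ‖x‖ := by linarith
  have hx0 : x ≠ 0 := norm_pos_iff.1 hr
  have hu := abs_uD_le (x := x) (by linarith)
  obtain ⟨hb1, hb2, hb3⟩ := profile_coeff_bounds hk hk' hl hl' m (r := ‖x‖) (by linarith)
  have e : (fun y : Space => radialA k (betaOf lam k) ‖y‖ * (‖y‖ ^ m)⁻¹ * (p₀ + p₂ * y 2 ^ 2))
      = fun y : Space => radialA k (betaOf lam k) ‖y‖ * (‖y‖ ^ m)⁻¹ *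
        (p₀ + p₂ * y 2 ^ 2 + 0 * y 2 ^ 4) := by
    funext y; ring
  rw [e, laplacian_profile k (betaOf lam k) p₀ p₂ 0 m hx0]
  set β := betaOf lam k
  set r := ‖x‖ with hrdef
  set z := x 2
  have hr1 : 1 ≤ r := by linarith
  have hA : 0 < radialA k β r * (r ^ m)⁻¹ := by
    have := radialA_pos k β hr
    positivity
  have key : (1 / 2) * (radialA k β r * (r ^ m)⁻¹ *
        ((p₀ + p₂ * z ^ 2 + 0 * z ^ 4)
            * (k ^ 2 - 2 * k * (β - m + 1) / r + (β - m) * (β - m + 1) / r ^ 2)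
          + 2 * (-k + (β - m) / r) * (z / r) * (2 * p₂ * z + 4 * 0 * z ^ 3)
          + (2 * p₂ + 12 * 0 * z ^ 2)))
      - (k ^ 2 / 2 + uD x + 2 * lam / r) * (radialA k β r * (r ^ m)⁻¹ * (p₀ + p₂ * z ^ 2))
      - radialA k β r * (r ^ m)⁻¹ * p₂
      = radialA k β r * (r ^ m)⁻¹ *
        (-((p₀ + p₂ * z ^ 2)
            * (uD x + 2 * lam / r + k * (β - m + 1) / r - (β - m) * (β - m + 1) / (2 * r ^ 2)))
          - (k - (β - m) / r) * (2 * (p₂ * z ^ 2) / r)) := by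
    field_simp
    ring
  rw [key, abs_mul, abs_of_pos hA]
  have e2 : K * radialA k β r * (r ^ (m + 1))⁻¹ * (|p₀| + |p₂| * z ^ 2)
      = radialA k β r * (r ^ m)⁻¹ * (K / r * (|p₀| + |p₂| * z ^ 2)) := by
    rw [pow_succ]; field_simp
  rw [e2]
  apply mul_le_mul_of_nonneg_left _ hA.le
  have hP : |p₀ + p₂ * z ^ 2| ≤ |p₀| + |p₂| * z ^ 2 := by
    calc |p₀ + p₂ * z ^ 2| ≤ |p₀| + |p₂ * z ^ 2| := abs_add_le _ _
      _ = |p₀| + |p₂| * z ^ 2 := by rw [abs_mul, abs_of_nonneg (sq_nonneg z)]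
  have hS : 0 ≤ |p₀| + |p₂| * z ^ 2 := by positivity
  have hl2 : |2 * lam / r| ≤ 2 / r := by
    rw [abs_div, abs_of_pos hr, abs_of_nonneg (by linarith)]
    gcongr; linarith
  have h1 : |uD x + 2 * lam / r + k * (β - m + 1) / r - (β - m) * (β - m + 1) / (2 * r ^ 2)|
      ≤ (6 + 2 * (m + 3) + (m + 3) ^ 2) / r := by
    calc _ ≤ |uD x + 2 * lam / r + k * (β - m + 1) / r|
          + |(β - m) * (β - m + 1) / (2 * r ^ 2)| := abs_sub _ _
      _ ≤ |uD x + 2 * lam / r| + |k * (β - m + 1) / r|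
          + |(β - m) * (β - m + 1) / (2 * r ^ 2)| := by gcongr; exact abs_add_le _ _
      _ ≤ |uD x| + |2 * lam / r| + |k * (β - m + 1) / r|
          + |(β - m) * (β - m + 1) / (2 * r ^ 2)| := by gcongr; exact abs_add_le _ _
      _ ≤ 4 / r + 2 / r + 2 * (m + 3) / r + (m + 3) ^ 2 / r := by gcongr
      _ = _ := by ring
  have h2 : |k - (β - m) / r| ≤ 2 + (m + 3) := by
    calc _ ≤ |k| + |(β - m) / r| := abs_sub _ _
      _ ≤ 2 + (m + 3) / r := by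
          gcongr
          rw [abs_le]; constructor <;> linarith
      _ ≤ 2 + (m + 3) / 1 := by gcongr
      _ = _ := by ring
  have h3 : |2 * (p₂ * z ^ 2) / r| ≤ 2 / r * (|p₀| + |p₂| * z ^ 2) := by
    rw [abs_div, abs_of_pos hr, abs_mul, abs_mul, abs_of_nonneg (sq_nonneg z)]
    have : 0 ≤ |p₀| := abs_nonneg _
    have h0 : 0 ≤ 2 / r := by positivity
    calc |2| * (|p₂| * z ^ 2) / r = 2 / r * (|p₂| * z ^ 2) := by
          rw [abs_of_pos (by norm_num : (0:ℝ) < 2)]; ring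
      _ ≤ _ := by gcongr; linarith
  calc _ ≤ |(p₀ + p₂ * z ^ 2)
            * (uD x + 2 * lam / r + k * (β - m + 1) / r - (β - m) * (β - m + 1) / (2 * r ^ 2))|
          + |(k - (β - m) / r) * (2 * (p₂ * z ^ 2) / r)| := by
        rw [← abs_neg ((p₀ + p₂ * z ^ 2) * _)]
        exact abs_sub _ _
    _ ≤ (|p₀| + |p₂| * z ^ 2) * ((6 + 2 * (m + 3) + (m + 3) ^ 2) / r)
          + (2 + (m + 3)) * (2 / r * (|p₀| + |p₂| * z ^ 2)) := by
        rw [abs_mul, abs_mul]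
        gcongr
    _ = _ := by rw [hK]; ring


/-- faster exponentials are absorbed: `e^{-σ r} r^a ≤ C A(r) r^{-m}` if `σ ≥ k + μ`. -/
theorem exp_le_radialA (μ : ℝ) (hμ : 0 < μ) (a : ℝ) (m : ℕ) : ∃ C : ℝ, 0 < C ∧
    ∀ k lam σ r : ℝ, 0.9 ≤ k → k ≤ 1.1 → 0 ≤ lam → lam ≤ 1 → k + μ ≤ σ → 1 ≤ r →
      Real.exp (-(σ * r)) * r ^ a ≤ C * (radialA k (betaOf lam k) r * (r ^ m)⁻¹) := by
  obtain ⟨n, hn⟩ := exists_nat_ge (a + 1 + m)
  refine ⟨n.factorial / μ ^ n, by positivity, ?_⟩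
  intro k lam σ r hk hk' hl hl' hσ hr
  obtain ⟨hβ1, -, -⟩ := betaOf_bounds hk hk' hl hl'
  set β := betaOf lam k
  have hr0 : 0 < r := by linarith
  rw [radialA_shift k β m hr0]
  simp only [radialA]
  have h1 : Real.exp (-(σ * r)) ≤ Real.exp (-(k * r)) * Real.exp (-(μ * r)) := by
    rw [← Real.exp_add]
    apply Real.exp_le_exp.2
    nlinarith
  have h2 : r ^ a = r ^ (β - m) * r ^ (a - β + m) := by
    rw [← Real.rpow_add hr0]; congr 1; ring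
  have h3 : r ^ (a - β + m) ≤ r ^ (n : ℝ) :=
    Real.rpow_le_rpow_of_exponent_le hr (by linarith)
  rw [Real.rpow_natCast] at h3
  have h4 : (μ * r) ^ n / n.factorial ≤ Real.exp (μ * r) :=
    Real.pow_div_factorial_le_exp _ (by positivity) n
  have h5 : Real.exp (-(μ * r)) * r ^ n ≤ n.factorial / μ ^ n := by
    rw [Real.exp_neg, le_div_iff₀ (by positivity), inv_mul_eq_div, div_mul_eq_mul_div,
      div_le_iff₀ (Real.exp_pos _)]
    rw [div_le_iff₀ (by positivity), mul_pow] at h4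
    linarith
  have hp : 0 < r ^ (β - m) := Real.rpow_pos_of_pos hr0 _
  have hq : 0 < r ^ (a - β + m) := Real.rpow_pos_of_pos hr0 _
  calc Real.exp (-(σ * r)) * r ^ a
      ≤ (Real.exp (-(k * r)) * Real.exp (-(μ * r))) * (r ^ (β - m) * r ^ n) := by
        rw [h2]; gcongr
    _ = (Real.exp (-(μ * r)) * r ^ n) * (Real.exp (-(k * r)) * r ^ (β - m)) := by ring
    _ ≤ _ := by gcongr

/-- `A` varies by a bounded factor on unit scales. -/
theorem radialA_ratio : ∃ C : ℝ, 0 < C ∧ ∀ k lam r r' : ℝ, 0.9 ≤ k → k ≤ 1.1 → 0 ≤ lam → lam ≤ 1 →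
    2 ≤ r → |r' - r| ≤ 1 → radialA k (betaOf lam k) r' ≤ C * radialA k (betaOf lam k) r := by
  refine ⟨Real.exp 2 * 4, by positivity, ?_⟩
  intro k lam r r' hk hk' hl hl' hr hrr
  obtain ⟨hβ1, hβ2, -⟩ := betaOf_bounds hk hk' hl hl'
  set β := betaOf lam k
  obtain ⟨h1, h2⟩ := abs_le.1 hrr
  have hr0 : 0 < r := by linarith
  have hr'0 : 0 < r' := by linarith
  simp only [radialA]
  have e1 : Real.exp (-(k * r')) ≤ Real.exp 2 * Real.exp (-(k * r)) := by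
    rw [← Real.exp_add]
    apply Real.exp_le_exp.2
    nlinarith
  have e2 : r' ^ β ≤ 4 * r ^ β := by
    have hq : r' ^ β = (r' / r) ^ β * r ^ β := by
      rw [← Real.mul_rpow (by positivity) hr0.le, div_mul_cancel₀ _ hr0.ne']
    rw [hq]
    apply mul_le_mul_of_nonneg_right _ (Real.rpow_nonneg hr0.le _)
    have hlo : 1 / 2 ≤ r' / r := by rw [le_div_iff₀ hr0]; linarith
    have hhi : r' / r ≤ 2 := by rw [div_le_iff₀ hr0]; linarith
    by_cases hβ : 0 ≤ β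
    · calc (r' / r) ^ β ≤ 2 ^ β := Real.rpow_le_rpow (by positivity) hhi hβ
        _ ≤ (2 : ℝ) ^ (2 : ℝ) := Real.rpow_le_rpow_of_exponent_le (by norm_num) (by linarith)
        _ = 4 := by norm_num
    · push Not at hβ
      have hinv : (r' / r)⁻¹ ≤ 2 := by
        rw [inv_le_comm₀ (by positivity) (by norm_num)]; linarith
      calc (r' / r) ^ β = ((r' / r)⁻¹) ^ (-β) := by
            rw [Real.inv_rpow (by positivity), Real.rpow_neg (by positivity), inv_inv]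
        _ ≤ 2 ^ (-β) := Real.rpow_le_rpow (by positivity) hinv (by linarith)
        _ ≤ (2 : ℝ) ^ (2 : ℝ) := Real.rpow_le_rpow_of_exponent_le (by norm_num) (by linarith)
        _ = 4 := by norm_num
  have hp : 0 ≤ r' ^ β := Real.rpow_nonneg hr'0.le _
  calc Real.exp (-(k * r')) * r' ^ β ≤ (Real.exp 2 * Real.exp (-(k * r))) * (4 * r ^ β) := by
        gcongr
    _ = _ := by ring

end H

end Claimed.Open.R278
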