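import Claimed.Open.R278.CHXDefs

/-!
# Result 278, package CHX: paper-free lemmas of the assembly

Architect: helper122.

* LEAF CHX-H   (`chx_H_le`): `DriftStripG η 20 n k R`, `η ≤ η₀/2`, `n > 0` ⟹ `H(j) ≤ 1/2` for `j ≥ R` (four `iSup`s of `ENNReal.ofReal`).
* LEAF CHX-NUM (`chx_rate_small`, `chx_pos_small`, `SmallCoupling.chx_mono`, `FastOrbital.chx_mono`): numerics with `D = 10^200`, `η₀ = 10^{-60}`; compactness.
* LEAF CHX-SZ  (`chx_simpleZero_small`): the simple angular zero for small couplings.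
-/

open MeasureTheory Filter
open scoped ContDiff InnerProductSpace ComplexConjugate ENNReal Topology Laplacian

noncomputable section

namespace Claimed.Open.R278

/-! ## LEAF CHX-H -/

section H

/-- **conversion of the pointwise bounds to `H_t(j) ≤ 1/2`.**
`AuxData.H` is a `⊔` of four `⨆ … ∈ …, ENNReal.ofReal (…)`: `sup_le`, `iSup₂_le`, `ENNReal.ofReal_le_of_le_toReal` or
`ENNReal.ofReal_le_ofReal` with `ENNReal.ofReal (1/2) = 1/2`.
1st, 2nd: `|…| ≤ η ≤ η₀/2`.  3rd: `d.m p z = exp (2 k p) * n (cyl p z) > 0` (`AuxData.m` unfolds by `rfl`; the functions under `deriv`, `iteratedDeriv` are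
definitionally those of `DriftStripG.strip`), `(|m'| + |m''|)/m/η₀ ≤ η/η₀ ≤ 1/2`.  4th: `n(z₁)/n(z₂)/100 ≤ 20/100`. -/
theorem chx_H_le {d : AuxData} {η R : ℝ} (hη : η ≤ eta0 / 2) (hds : DriftStripG η 20 d.n d.k R)
    (hpos : ∀ x, 0 < d.n x) {j : ℕ} (hj : R ≤ j) : d.H j ≤ 1 / 2 := by
  have heta : 0 < eta0 := by unfold eta0; positivity
  have key : ∀ a : ℝ, a ≤ 1 / 2 → ENNReal.ofReal a ≤ 1 / 2 := by
    intro a ha
    calc ENNReal.ofReal a ≤ ENNReal.ofReal (1 / 2) := ENNReal.ofReal_le_ofReal ha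
      _ = 1 / 2 := by rw [ENNReal.ofReal_div_of_pos two_pos]; simp
  unfold AuxData.H
  refine sup_le (sup_le (sup_le ?_ ?_) ?_) ?_
  · refine iSup₂_le fun x hx => key _ ?_
    have := hds.radial x (hj.trans hx)
    rw [div_le_iff₀ heta]
    linarith
  · refine iSup₂_le fun q hq => key _ ?_
    have := hds.horizontal q.1 q.2 (hj.trans hq.1) hq.2.1 hq.2.2
    rw [div_le_iff₀ heta]
    linarith
  · refine iSup₂_le fun q hq => key _ ?_
    have h1 : |deriv (fun p => d.m p q.2) q.1| + |iteratedDeriv 2 (fun p => d.m p q.2) q.1|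
        ≤ η * d.m q.1 q.2 := hds.strip q.1 q.2 (hj.trans hq.1) hq.2.1 hq.2.2
    have hm : 0 < d.m q.1 q.2 := mul_pos (Real.exp_pos _) (hpos _)
    rw [div_le_iff₀ heta, div_le_iff₀ hm]
    have h2 : η * d.m q.1 q.2 ≤ eta0 / 2 * d.m q.1 q.2 := mul_le_mul_of_nonneg_right hη hm.le
    linarith
  · refine iSup₂_le fun q hq => key _ ?_
    have h1 := hds.ratio q.1 q.2.1 q.2.2 (hj.trans hq.1) hq.2.1 hq.2.2.1 hq.2.2.2
    have hn := hpos (cyl q.1 q.2.2)
    rw [div_le_iff₀ (by norm_num), div_le_iff₀ hn]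
    linarith

end H

/-! ## LEAF CHX-NUM -/

section NUM

variable {b e : Space → ℝ} {εb εe : ℝ}

/-- `γ - k ≤ 400/D` makes the unavoidable part of the drift smaller than `η₀/4`. -/
theorem chx_rate_small {γ k : ℝ} (h1 : k ≤ γ) (h2 : γ - k ≤ 400 / bigD) :
    100 * (|γ - k| + |γ - k| ^ 2) ≤ eta0 / 4 := by
  have hu0 : 0 ≤ γ - k := sub_nonneg.2 h1
  rw [abs_of_nonneg hu0]
  have hu : γ - k ≤ (10 ^ 100 : ℝ)⁻¹ := by
    refine h2.trans ?_
    unfold bigD
    rw [div_le_iff₀ (by positivity)]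
    norm_num
  have hu1 : γ - k ≤ 1 := hu.trans (by norm_num)
  have hsq : (γ - k) ^ 2 ≤ γ - k := by nlinarith
  have h3 : 100 * ((γ - k) + (γ - k) ^ 2) ≤ 200 * (10 ^ 100 : ℝ)⁻¹ := by linarith
  refine h3.trans ?_
  unfold eta0
  norm_num

/-- positivity on a compact set for small couplings (`refDensity ≥ 2 b² > 0` is continuous, hence bounded below on the ball). -/
theorem chx_pos_small (h : TwoCentre b e εb εe) {n : ℝ → Space → ℝ} {R : ℝ}
    (hn : TendstoUniformlyOn n (refDensity b e) (𝓝[>] 0) (Metric.closedBall 0 R)) :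
    ∃ τ > 0, ∀ t ∈ Set.Ioo 0 τ, ∀ x ∈ Metric.closedBall (0 : Space) R, 0 < n t x := by
  have hcont : Continuous (refDensity b e) := by
    have hb := h.data.orbital_b.1
    have he := h.data.orbital_e.1
    unfold refDensity
    fun_prop
  have hpos : ∀ x, 0 < refDensity b e x := fun x => by
    have := h.data.pos_b x
    unfold refDensity
    positivity
  obtain ⟨m, hm, hmle⟩ : ∃ m > 0, ∀ x ∈ Metric.closedBall (0 : Space) R, m ≤ refDensity b e x := by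
    rcases (Metric.closedBall (0 : Space) R).eq_empty_or_nonempty with he | hne
    · exact ⟨1, one_pos, fun x hx => by rw [he] at hx; exact absurd hx (Set.notMem_empty x)⟩
    · obtain ⟨x₀, -, hx₀⟩ := (isCompact_closedBall (0 : Space) R).exists_isMinOn hne hcont.continuousOn
      exact ⟨_, hpos x₀, fun x hx => hx₀ hx⟩
  have hev := Metric.tendstoUniformlyOn_iff.1 hn m hm
  obtain ⟨τ, hτ, hsub⟩ := mem_nhdsGT_iff_exists_Ioo_subset.1 hev
  refine ⟨τ, hτ, fun t ht x hx => ?_⟩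
  have h1 : dist (refDensity b e x) (n t x) < m := hsub ht x hx
  rw [Real.dist_eq] at h1
  have h2 := (abs_lt.1 h1).2
  linarith [hmle x hx]

theorem SmallCoupling.chx_mono {τ τ' C : ℝ} {E₂ E₃ : ℝ → ℝ} {φ : ℝ → L2 2} {Ψ : ℝ → L2 3}
    (hs : SmallCoupling b e εb εe τ C E₂ E₃ φ Ψ) (h0 : 0 < τ') (hle : τ' ≤ τ) :
    SmallCoupling b e εb εe τ' C E₂ E₃ φ Ψ := by
  have hm : ∀ t ∈ Set.Icc 0 τ', t ∈ Set.Icc 0 τ := fun t ht => ⟨ht.1, ht.2.trans hle⟩
  exact
    { τ_pos := h0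
      C_nonneg := hs.C_nonneg
      ion_ground := fun t ht => hs.ion_ground t (hm t ht)
      ion_axisymmetric := fun t ht => hs.ion_axisymmetric t (hm t ht)
      ion_even := fun t ht => hs.ion_even t (hm t ht)
      ion_singlet := fun t ht => hs.ion_singlet t (hm t ht)
      ground := fun t ht => hs.ground t (hm t ht)
      absolute := fun t ht => hs.absolute t (hm t ht)
      axisymmetric := fun t ht => hs.axisymmetric t (hm t ht)
      odd := fun t ht => hs.odd t (hm t ht)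
      ion_gap := fun t ht => hs.ion_gap t (hm t ht)
      gap := fun t ht => hs.gap t (hm t ht)
      E₂_ge := fun t ht => hs.E₂_ge t (hm t ht)
      E₂_le := fun t ht => hs.E₂_le t (hm t ht)
      E₂_half := fun t ht => hs.E₂_half t (hm t ht)
      E₃_ge := fun t ht => hs.E₃_ge t (hm t ht)
      E₃_le := fun t ht => hs.E₃_le t (hm t ht)
      E₃_half := fun t ht => hs.E₃_half t (hm t ht)
      φ_zero := hs.φ_zero
      Ψ_zero := hs.Ψ_zero
      φ_close := fun t ht => hs.φ_close t (hm t ht)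
      Ψ_close := fun t ht => hs.Ψ_close t (hm t ht)
      φ_overlap := fun t ht => hs.φ_overlap t (hm t ht)
      Ψ_overlap := fun t ht => hs.Ψ_overlap t (hm t ht)
      energy_test := fun t ht => hs.energy_test t (hm t ht)
      k_lower := fun t ht => hs.k_lower t (hm t ht)
      k_upper := fun t ht => hs.k_upper t (hm t ht)
      rate_sep := fun t ht => hs.rate_sep t (hm t ht) }

theorem FastOrbital.chx_mono {γ R R' cb : ℝ} {Cb : ℕ → ℝ} (h : FastOrbital b γ R Cb cb) (hR : R ≤ R') :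
    FastOrbital b γ R' Cb cb := by
  have hm : ∀ x ∈ Ext R', x ∈ Ext R := fun x hx => lt_of_le_of_lt hR hx
  exact
    { smooth := h.smooth.mono hm
      eq := fun x hx => h.eq x (hm x hx)
      even := h.even
      c_pos := h.c_pos
      lower := fun x hx => h.lower x (hm x hx)
      words := fun w x hx => h.words w x (hm x hx)
      upper := fun x hx => h.upper x (hm x hx)
      radial₁ := fun x hx => h.radial₁ x (hm x hx)
      radial₂ := fun x hx => h.radial₂ x (hm x hx) }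

/-- `‖Φ‖ ≤ √(h1sq Φ)`. -/
theorem chx_norm_le_of_h1sq {m : ℕ} {Φ : L2 m} {A : ℝ} (hA : 0 ≤ A) (h : h1sq Φ ≤ A ^ 2) : ‖Φ‖ ≤ A := by
  have h1 : ‖Φ‖ ^ 2 ≤ A ^ 2 := by
    have := kin_nonneg Φ
    unfold h1sq at h
    linarith
  exact (pow_le_pow_iff_left₀ (norm_nonneg _) hA two_ne_zero).1 h1

end NUM

/-! ## LEAF CHX-SZ -/

section SZ

variable {𝒦 : Type} [NormedAddCommGroup 𝒦] [InnerProductSpace ℂ 𝒦] [CompleteSpace 𝒦]

/-- continuity of the radial profile in the parameters at a fixed radius. -/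
theorem chx_radialA_close {k₀ R ε : ℝ} (hk₀ : 0 < k₀) (hR : 0 < R) (hε : 0 < ε) (K : ℝ) :
    ∃ τ > 0, ∀ lam k : ℝ, 0 ≤ lam → lam ≤ τ → |k - k₀| ≤ K * lam →
      |radialA k ((2 - 2 * lam) / k - 1) R - radialA k₀ (2 / k₀ - 1) R| ≤ ε := by
  have hc : ContinuousAt (fun p : ℝ × ℝ => Real.exp (-(p.2 * R)) * R ^ ((2 - 2 * p.1) / p.2 - 1)) (0, k₀) := by
    refine ContinuousAt.mul (by fun_prop) ?_
    refine ContinuousAt.rpow continuousAt_const ?_ (Or.inl hR.ne')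
    refine ContinuousAt.sub (ContinuousAt.div (by fun_prop) (by fun_prop) hk₀.ne') continuousAt_const
  obtain ⟨δ, hδ, hδ'⟩ := Metric.continuousAt_iff.1 hc ε hε
  refine ⟨min (δ / 2) (δ / (2 * (|K| + 1))), lt_min (by positivity) (by positivity), fun lam k h0 h1 h2 => ?_⟩
  have hK : 0 < |K| + 1 := by positivity
  have a1 : lam ≤ δ / 2 := h1.trans (min_le_left _ _)
  have a2 : lam ≤ δ / (2 * (|K| + 1)) := h1.trans (min_le_right _ _)
  have a3 : |k - k₀| < δ := by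
    have b1 : K * lam ≤ |K| * lam := mul_le_mul_of_nonneg_right (le_abs_self K) h0
    have b2 : (|K| + 1) * lam ≤ δ / 2 := by
      rw [le_div_iff₀ (by positivity)] at a2
      linarith
    nlinarith
  have hd : dist ((lam, k) : ℝ × ℝ) (0, k₀) < δ := by
    rw [Prod.dist_eq, max_lt_iff, Real.dist_eq, Real.dist_eq, sub_zero, abs_of_nonneg h0]
    exact ⟨by linarith, a3⟩
  have := hδ' hd
  rw [Real.dist_eq] at this
  simp only [mul_zero, sub_zero] at this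
  exact this.le

theorem chx_tz_smul {ρ : ℝ} (hρ : 0 < ρ) (x : Space) : tz (ρ • x) = tz x := by
  unfold tz
  rw [norm_smul, Real.norm_of_nonneg hρ.le]
  simp only [PiLp.smul_apply, smul_eq_mul]
  rw [mul_div_mul_left _ _ hρ.ne']

/-- **the simple angular zero (3.18) for small couplings.**
Let `(R₀, C)` be given by `channel_odd κ b γ`, and homogeneity of `a₀` by `channel_amplitude κ`.  Fix `R > max R₀ κ.R₁` (and `> 0`) with `C / R ≤ c₁/4`; put
`A₀ = radialA k₀ (2/k₀-1) R > 0`.  For a system `S` let `g = S.f - e`: smooth on `Ext κ.R₁` (`PLink`), odd (`S.f_odd`, `hodd`), and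
`‖dfield (inr i) g y‖ = ‖dword [inr i] g y‖ ≤ κ.C 1 * λ * e^{-τ R} ≤ |κ.C 1| λ` on the sphere `|y| = R`.  `odd_bound` (`CHTE.lean`): `‖g x‖ ≤ 3 |κ.C 1| λ |t|`.  Hence for `|x| = R`
`‖S.f x‖ ≥ (c₁ A₀ - 3 |κ.C 1| λ) |t|`, `‖S.h x‖ = ‖S.f x‖ / A_λ(R)`, `‖S.a₀ x‖ ≥ ‖S.h x‖ - C |t| / R`.
By `chx_radialA_close`, `0 < A_λ(R) ≤ (9/8) A₀` for `λ ≤ τ`; decrease `τ` so that `3 |κ.C 1| τ ≤ (5/32) c₁ A₀`.
Then `‖S.h x‖ ≥ (27/32) c₁ A₀ |t| / A_λ(R) ≥ (3/4) c₁ |t|`, `‖S.a₀ x‖ ≥ (3/4 - 1/4) c₁ |t|` on the sphere, and everywhere on `Ext 0` by homogeneity (`tz (ρ • x) = tz x` for `ρ > 0`). -/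
theorem chx_simpleZero_small (κ : ChannelConsts) (b : Space → ℝ) (γ : ℝ) {e : Space → ℝ} {k₀ c₁ : ℝ} (K : ℝ)
    (hk₀ : 0 < k₀) (hc₁ : 0 < c₁) (hodd : ∀ x, e (reflZ x) = -e x)
    (he : ∀ x ∈ Ext κ.R₁, c₁ * radialA k₀ (2 / k₀ - 1) ‖x‖ * |tz x| ≤ |e x|) :
    ∃ τ > 0, ∀ S : ChannelSys 𝒦 κ b γ, S.lam ≤ τ → |S.k - k₀| ≤ K * S.lam → PLink S e →
      S.SimpleZero (c₁ / 2) := by
  obtain ⟨R₀, C, hR₀, hco⟩ := channel_odd (𝒦 := 𝒦) κ b γ
  obtain ⟨R₀', C', -, hamp⟩ := channel_amplitude (𝒦 := 𝒦) κ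
  have hD : (0 : ℝ) < bigD := by unfold bigD; positivity
  have hκR : 0 ≤ κ.R₁ := by linarith [κ.R₁_ge]
  -- the radius
  obtain ⟨R, hR⟩ : ∃ R, R = max (R₀ + 1) (4 * |C| / c₁ + 1) := ⟨_, rfl⟩
  have hRR₀ : R₀ < R := by
    have := le_max_left (R₀ + 1) (4 * |C| / c₁ + 1)
    rw [← hR] at this; linarith
  have hRpos : 0 < R := by linarith
  have hCR : |C| / R ≤ c₁ / 4 := by
    have h1 : 4 * |C| / c₁ ≤ R := by
      have := le_max_right (R₀ + 1) (4 * |C| / c₁ + 1)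
      rw [← hR] at this; linarith
    rw [div_le_iff₀ hc₁] at h1
    rw [div_le_iff₀ hRpos]
    linarith
  obtain ⟨A₀, hA₀def⟩ : ∃ A₀, A₀ = radialA k₀ (2 / k₀ - 1) R := ⟨_, rfl⟩
  have hA₀ : 0 < A₀ := hA₀def ▸ radialA_pos _ _ hRpos
  obtain ⟨τ₁, hτ₁, hclose⟩ := chx_radialA_close hk₀ hRpos (ε := A₀ / 8) (by positivity) K
  have hC1 : 0 < 3 * (|κ.C 1| + 1) := by positivity
  refine ⟨min τ₁ (5 / 32 * c₁ * A₀ / (3 * (|κ.C 1| + 1))), lt_min hτ₁ (by positivity), fun S hlam hk hP => ?_⟩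
  have hlam0 := S.lam_nonneg
  have hlam1 : S.lam ≤ τ₁ := hlam.trans (min_le_left _ _)
  have hlam2 : 3 * (|κ.C 1| * S.lam) ≤ 5 / 32 * c₁ * A₀ := by
    have h1 : S.lam ≤ 5 / 32 * c₁ * A₀ / (3 * (|κ.C 1| + 1)) := hlam.trans (min_le_right _ _)
    rw [le_div_iff₀ hC1] at h1
    nlinarith
  -- the profile at the radius `R`
  have hAt := hclose S.lam S.k hlam0 hlam1 hk
  rw [← hA₀def] at hAt
  obtain ⟨At, hAtdef⟩ : ∃ At, At = radialA S.k ((2 - 2 * S.lam) / S.k - 1) R := ⟨_, rfl⟩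
  rw [← hAtdef] at hAt
  have hAt1 : At ≤ 9 / 8 * A₀ := by linarith [(abs_le.1 hAt).2]
  have hAt0 : 0 < At := by linarith [(abs_le.1 hAt).1]
  -- the sphere
  have hsphere : ∀ x : Space, ‖x‖ = R → c₁ / 2 * |tz x| ≤ ‖S.a₀ x‖ := by
    intro x hx
    have hx0 : x ∈ Ext R₀ := by show R₀ < ‖x‖; rw [hx]; exact hRR₀
    have hx1 : x ∈ Ext κ.R₁ := lt_of_le_of_lt hR₀ hx0
    have hgodd : ∀ y ∈ Ext κ.R₁, S.f (reflZ y) - (e (reflZ y) : ℂ) = -(S.f y - (e y : ℂ)) := by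
      intro y hy
      have := S.f_odd y hy
      unfold ChannelCore.f
      rw [this, hodd]
      push_cast
      ring
    have hg := odd_bound hκR (hP.1.of_le (by norm_cast)) hgodd hx1 (M := |κ.C 1| * S.lam) (by
      intro y hy i
      have hy1 : y ∈ Ext κ.R₁ := by show κ.R₁ < ‖y‖; rw [hy]; exact hx1
      have h1 := hP.2 [Sum.inr i] y hy1
      have h2 : Real.exp (-(κ.τ * ‖y‖)) ≤ 1 :=
        Real.exp_le_one_iff.2 (by have := mul_nonneg κ.τ_pos.le (norm_nonneg y); linarith)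
      have h3 : S.lam * Real.exp (-(κ.τ * ‖y‖)) ≤ S.lam := by nlinarith [Real.exp_pos (-(κ.τ * ‖y‖))]
      have h4 : 0 ≤ S.lam * Real.exp (-(κ.τ * ‖y‖)) := mul_nonneg hlam0 (Real.exp_pos _).le
      calc ‖dfield (Sum.inr i) (fun x => S.f x - (e x : ℂ)) y‖
          ≤ κ.C 1 * (S.lam * Real.exp (-(κ.τ * ‖y‖))) := h1
        _ ≤ |κ.C 1| * (S.lam * Real.exp (-(κ.τ * ‖y‖))) := mul_le_mul_of_nonneg_right (le_abs_self _) h4
        _ ≤ |κ.C 1| * S.lam := mul_le_mul_of_nonneg_left h3 (abs_nonneg _))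
    have he1 := he x hx1
    rw [hx, ← hA₀def] at he1
    have he2 : |e x| ≤ ‖S.f x‖ + ‖S.f x - (e x : ℂ)‖ := by
      have : ((e x : ℝ) : ℂ) = S.f x - (S.f x - (e x : ℂ)) := by ring
      calc |e x| = ‖((e x : ℝ) : ℂ)‖ := by rw [Complex.norm_real, Real.norm_eq_abs]
        _ = ‖S.f x - (S.f x - (e x : ℂ))‖ := by rw [← this]
        _ ≤ _ := norm_sub_le _ _
    have ht := abs_nonneg (tz x)
    have hf : 27 / 32 * c₁ * A₀ * |tz x| ≤ ‖S.f x‖ := by
      have : 3 * (|κ.C 1| * S.lam) * |tz x| ≤ 5 / 32 * c₁ * A₀ * |tz x| := mul_le_mul_of_nonneg_right hlam2 ht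
      linarith
    have hA : S.A x = At := by
      unfold ChannelCore.A ChannelCore.β
      rw [hx, hAtdef]
    have hh : ‖S.h x‖ = ‖S.f x‖ / At := by
      unfold ChannelCore.h
      rw [hA, norm_div, Complex.norm_real, Real.norm_of_nonneg hAt0.le]
    have hh' : 3 / 4 * c₁ * |tz x| ≤ ‖S.h x‖ := by
      rw [hh, le_div_iff₀ hAt0]
      have : 3 / 4 * c₁ * |tz x| * At ≤ 3 / 4 * c₁ * |tz x| * (9 / 8 * A₀) :=
        mul_le_mul_of_nonneg_left hAt1 (by positivity)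
      linarith
    have h2 := (hco S x hx0).2.1
    rw [hx] at h2
    have h3 : C * |tz x| / R ≤ c₁ / 4 * |tz x| := by
      calc C * |tz x| / R ≤ |C| * |tz x| / R :=
            div_le_div_of_nonneg_right (mul_le_mul_of_nonneg_right (le_abs_self _) ht) hRpos.le
        _ = |C| / R * |tz x| := by ring
        _ ≤ _ := mul_le_mul_of_nonneg_right hCR ht
    have h4 : ‖S.h x‖ ≤ ‖S.a₀ x‖ + ‖S.h x - S.a₀ x‖ := by
      calc ‖S.h x‖ = ‖S.a₀ x + (S.h x - S.a₀ x)‖ := by congr 1; ring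
        _ ≤ _ := norm_add_le _ _
    linarith
  -- homogeneity
  intro x hx
  have hx' : 0 < ‖x‖ := hx
  have hρ : 0 < R / ‖x‖ := by positivity
  have h1 := hsphere ((R / ‖x‖) • x) (by
    rw [norm_smul, Real.norm_of_nonneg hρ.le]; field_simp)
  rw [chx_tz_smul hρ, (hamp S.toChannelCore).2.1 x hx _ hρ] at h1
  exact h1

end SZ

end Claimed.Open.R278
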