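import Claimed.Open.R278.CHXSpin
import Claimed.Open.R278.CHTools

/-!
# Result 278, package CHX: the `W`-fields, the density link and the amplitude link

Architect: helper122.  SORRY-FREE (all three leaves proved).  Paper-free: everything is a consequence of statements of `AGWop.lean`, `AGMain.lean` (structure `AG.ChanOut`) and `CHTD2.lean`.

## LEAF CHX-S (section S): the symbol fields of `ChannelSys`
`AG.Wop_bound`, `AG.Wop_mono`, `AG.Wop_dipole` give `iteratedFDeriv` bounds `C_k (1+|x|)^{-1-k}`, `C_k |x|^{-2-k} ‖v₁‖`, `C_k |x|^{-3-k} ‖v₂‖`, i.e. `IsSym R m C σ` (`CHTD2.lean`) for `m = 1, 2, 3` on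
`R = 2 * bigD ≥ 3`; `IsSym.wordBdd` converts them to `WordBdd`; `‖x‖ ^ (-(m:ℝ)) = (‖x‖ ^ m)⁻¹` (`Real.rpow_neg`, `Real.rpow_natCast`).  The constants of `IsSym.wordBdd` are chosen for the sequence
`C_k * CI`, which is why `CI` is a parameter.  (`∀ k, ∃ C` in `Wop_bound`: `choose`.)

## LEAF CHX-DENS (section DENS): `n - ‖F‖² = err` on the whole exterior region
`out.err_eq` holds a.e.; `n` is continuous, `F`, `err` are continuous on the open set `AG.extΩ = Ext AG.extR`: `AG.eqOn_of_ae_eq` (`AGEmbed.lean`).  The functions `y ↦ n y - ‖F y‖²` and `err` agree on an open set, so their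
derivatives agree there (`Filter.EventuallyEq.fderiv_eq`, twice).  `norm_iteratedFDeriv_zero`, `norm_iteratedFDeriv_one`, `norm_iteratedFDeriv_fderiv`.

## LEAF CHX-AMP (section AMP): `| ‖amp x‖ - |⟪φK, F x⟫| | ≤ C δ e^{-σ r}`
For a.e. `x`: `Ft x := [y ↦ √3 Ψ(x,y)] ∈ 𝒦` (`AG.ae_memLp_slice`), `removalAmplitude φ Ψ x σ = ⟪tensK σ φ, Ft x⟫` (`L2.inner_def`, `tensK_coeFn`, `spinEmb_apply`; the sum over `SpinConfig 3` reduces to `s = Fin.cons σ s'`).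
The component `σ = 1` vanishes: a singlet is supported on `s' = (0,1), (1,0)` (`IsSinglet` with `s' ∘ swap = s'`), where `spinZ (Fin.cons 1 s') = -1/2 ≠ 1/2`, and `Ψ` is in the sector `1/2`.
So `‖amp x‖ = |⟪φK, Ft x⟫|`, `| |⟪φK, Ft x⟫| - |⟪φK, F x⟫| | ≤ ‖Ft x - F x‖ ≤ C 0 δ e^{-σ r}` (`out.true_close`).  Both sides are continuous on `AG.extΩ`: an inequality between continuous functions
which holds a.e. on an open set holds everywhere there (the set where it fails is open and null, hence empty: `MeasureTheory.Measure.IsOpenPosMeasure`).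
-/

open MeasureTheory Filter
open scoped ContDiff InnerProductSpace ComplexConjugate ENNReal Topology Laplacian

noncomputable section

namespace Claimed.Open.R278

open AG (Fib)

/-! ## LEAF CHX-S -/

section S

theorem chx_two_bigD_ge : (3 : ℝ) ≤ 2 * bigD := by
  have : (4 : ℝ) ≤ bigD := by
    unfold bigD
    calc (4 : ℝ) ≤ 10 ^ 1 := by norm_num
      _ ≤ 10 ^ 200 := pow_le_pow_right₀ (by norm_num) (by norm_num)
  linarith

/-- from `IsSym` with a natural order to `WordBdd` with nonnegative constants. -/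
theorem chx_wordBdd_of_isSym {V : Type*} [NormedAddCommGroup V] [NormedSpace ℝ V] (m : ℕ) (C : ℕ → ℝ) :
    ∃ C' : ℕ → ℝ, (∀ n, 0 ≤ C' n) ∧ ∀ σ : Space → V, IsSym (2 * bigD) m C σ →
      WordBdd (2 * bigD) C' (fun x => (‖x‖ ^ m)⁻¹) σ := by
  obtain ⟨C', hC'⟩ := IsSym.wordBdd (V := V) (m : ℝ) C
  refine ⟨fun n => |C' n|, fun n => abs_nonneg _, fun σ hσ => ?_⟩
  refine (hC' (2 * bigD) (by linarith [chx_two_bigD_ge]) σ hσ).mono le_rfl fun n x hx => ?_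
  rw [Real.rpow_neg (norm_nonneg x), Real.rpow_natCast]
  exact mul_le_mul_of_nonneg_right (le_abs_self _) (by positivity)

/-- (3.9) in word form. -/
theorem chx_W_bdd : ∃ C : ℕ → ℝ, (∀ n, 0 ≤ C n) ∧
    WordBdd (2 * bigD) C (fun x => ‖x‖⁻¹) (AG.Wop (E := SpinSpace 3)) := by
  obtain ⟨hsm, hb⟩ := AG.Wop_bound
  choose C hC0 hC using hb
  obtain ⟨C', hC'0, hC'⟩ := chx_wordBdd_of_isSym (V := Fib →L[ℂ] Fib) 1 C
  refine ⟨C', hC'0, ?_⟩
  have := hC' (AG.Wop (E := SpinSpace 3)) ⟨hsm.contDiffOn, fun n x hx => ?_⟩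
  · simpa using this
  · have hx' : 2 * bigD < ‖x‖ := hx
    have hx0 : 0 < ‖x‖ := by linarith [chx_two_bigD_ge]
    refine (hC n x).trans (mul_le_mul_of_nonneg_left ?_ (hC0 n))
    have e1 : (-1 - (n : ℝ)) = -(((1 : ℕ) : ℝ) + n) := by push_cast; ring
    rw [e1]
    exact Real.rpow_le_rpow_of_nonpos hx0 (by linarith) (by
      have : (0 : ℝ) ≤ n := Nat.cast_nonneg n
      push_cast; linarith)

/-- monopole: `W v - (2/r) v ∈ Sym(-2)` for `ϱ v ∈ L²`. -/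
theorem chx_Wmono_bdd (CI : ℝ) : ∃ C : ℕ → ℝ, (∀ n, 0 ≤ C n) ∧ ∀ v v₁ : Fib,
    (∀ᵐ y, v₁ y = AG.rho y • v y) → ‖v₁‖ ≤ CI →
    WordBdd (2 * bigD) C (fun x => (‖x‖ ^ 2)⁻¹) (fun x => AG.Wop x v - (2 / ‖x‖) • v) := by
  obtain ⟨C, hC0, hC⟩ := AG.Wop_mono (E := SpinSpace 3)
  obtain ⟨C', hC'0, hC'⟩ := chx_wordBdd_of_isSym (V := Fib) 2 (fun n => C n * CI)
  refine ⟨C', hC'0, fun v v₁ h1 h2 => hC' _ ?_⟩
  obtain ⟨hsm, hb⟩ := hC v v₁ h1
  have hsub : Ext (2 * bigD) ⊆ {x : Space | 3 < ‖x‖} := fun x hx =>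
    lt_of_le_of_lt chx_two_bigD_ge hx
  refine ⟨hsm.mono hsub, fun n x hx => ?_⟩
  have e1 : (-2 - (n : ℝ)) = -(((2 : ℕ) : ℝ) + n) := by push_cast; ring
  have h3 := hb n x (hsub hx)
  rw [e1] at h3
  have hp : 0 ≤ ‖x‖ ^ (-(((2 : ℕ) : ℝ) + n)) := Real.rpow_nonneg (norm_nonneg x) _
  calc _ ≤ C n * ‖x‖ ^ (-(((2 : ℕ) : ℝ) + n)) * ‖v₁‖ := h3
    _ ≤ C n * ‖x‖ ^ (-(((2 : ℕ) : ℝ) + n)) * CI :=
        mul_le_mul_of_nonneg_left h2 (mul_nonneg (hC0 n) hp)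
    _ = C n * CI * ‖x‖ ^ (-(((2 : ℕ) : ℝ) + n)) := by ring

/-- dipole: `W v - (2/r) v - r⁻³ ∑ x_i Y_i v ∈ Sym(-3)` for `ϱ² v ∈ L²`. -/
theorem chx_Wdipole_bdd (CI : ℝ) : ∃ C : ℕ → ℝ, (∀ n, 0 ≤ C n) ∧ ∀ (v v₂ : Fib) (Y : Fin 3 → Fib),
    (∀ᵐ y, v₂ y = (AG.rho y ^ 2) • v y) → (∀ i, ∀ᵐ y : Config 2, Y i y = (y 0 i + y 1 i) • v y) → ‖v₂‖ ≤ CI →
    WordBdd (2 * bigD) C (fun x => (‖x‖ ^ 3)⁻¹)
      (fun x => AG.Wop x v - (2 / ‖x‖) • v - (‖x‖ ^ 3)⁻¹ • ∑ i, x i • Y i) := by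
  obtain ⟨C, hC0, hC⟩ := AG.Wop_dipole (E := SpinSpace 3)
  obtain ⟨C', hC'0, hC'⟩ := chx_wordBdd_of_isSym (V := Fib) 3 (fun n => C n * CI)
  refine ⟨C', hC'0, fun v v₂ Y h1 hY h2 => hC' _ ?_⟩
  obtain ⟨hsm, hb⟩ := hC v v₂ Y h1 hY
  have hsub : Ext (2 * bigD) ⊆ {x : Space | 3 < ‖x‖} := fun x hx =>
    lt_of_le_of_lt chx_two_bigD_ge hx
  refine ⟨hsm.mono hsub, fun n x hx => ?_⟩
  have e1 : (-3 - (n : ℝ)) = -(((3 : ℕ) : ℝ) + n) := by push_cast; ring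
  have h3 := hb n x (hsub hx)
  rw [e1] at h3
  have hp : 0 ≤ ‖x‖ ^ (-(((3 : ℕ) : ℝ) + n)) := Real.rpow_nonneg (norm_nonneg x) _
  calc _ ≤ C n * ‖x‖ ^ (-(((3 : ℕ) : ℝ) + n)) * ‖v₂‖ := h3
    _ ≤ C n * ‖x‖ ^ (-(((3 : ℕ) : ℝ) + n)) * CI :=
        mul_le_mul_of_nonneg_left h2 (mul_nonneg (hC0 n) hp)
    _ = C n * CI * ‖x‖ ^ (-(((3 : ℕ) : ℝ) + n)) := by ring

end S

section out

variable {τ δ t En : ℝ} {C : ℕ → ℝ} {Ψ Ψ0 : L2 3} {F F0 R : Space → Fib}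
  {Gy : Fin 2 × Fin 3 → Space → Fib} {err : Space → ℝ}

/-! ## LEAF CHX-DENS -/

section DENS

theorem chx_density_eq
    (out : AG.ChanOut τ C δ t En (Ψ : Config 3 → SpinSpace 3) (Ψ0 : Config 3 → SpinSpace 3) F F0 R Gy err)
    {n : Space → ℝ} (hn : Continuous n) (hne : n =ᵐ[volume] density Ψ) :
    ∀ x ∈ Ext AG.extR, n x - ‖F x‖ ^ 2 = err x := by
  have hF : ContinuousOn F (Ext AG.extR) := out.F_smooth.continuousOn
  refine AG.eqOn_of_ae_eq (isOpen_Ext _) (f := fun x => n x - ‖F x‖ ^ 2) (g := err)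
    (hn.continuousOn.sub (hF.norm.pow 2)) out.err_smooth.continuousOn ?_
  filter_upwards [out.density_eq, hne] with x h1 h2 hx
  rw [h2, h1 hx]
  ring

/-- (3.12). -/
theorem chx_density_bounds
    (out : AG.ChanOut τ C δ t En (Ψ : Config 3 → SpinSpace 3) (Ψ0 : Config 3 → SpinSpace 3) F F0 R Gy err)
    {n : Space → ℝ} (hn : Continuous n) (hne : n =ᵐ[volume] density Ψ) :
    ∀ x ∈ Ext AG.extR,
      |n x - ‖F x‖ ^ 2| ≤ C 0 * δ * Real.exp (-(2 * AG.sig τ * ‖x‖)) ∧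
      ‖fderiv ℝ (fun y => n y - ‖F y‖ ^ 2) x‖ ≤ C 1 * δ * Real.exp (-(2 * AG.sig τ * ‖x‖)) ∧
      ‖fderiv ℝ (fderiv ℝ (fun y => n y - ‖F y‖ ^ 2)) x‖ ≤ C 2 * δ * Real.exp (-(2 * AG.sig τ * ‖x‖)) := by
  intro x hx
  have heq := chx_density_eq out hn hne
  have hopen := isOpen_Ext AG.extR
  have hev : ∀ y ∈ Ext AG.extR, (fun y => n y - ‖F y‖ ^ 2) =ᶠ[𝓝 y] err := fun y hy =>
    Filter.eventuallyEq_of_mem (hopen.mem_nhds hy) heq
  have hfd : ∀ y ∈ Ext AG.extR, fderiv ℝ (fun y => n y - ‖F y‖ ^ 2) y = fderiv ℝ err y := fun y hy =>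
    (hev y hy).fderiv_eq
  have hev2 : fderiv ℝ (fun y => n y - ‖F y‖ ^ 2) =ᶠ[𝓝 x] fderiv ℝ err :=
    Filter.eventuallyEq_of_mem (hopen.mem_nhds hx) hfd
  refine ⟨?_, ?_, ?_⟩
  · have := out.err_bound 0 x hx
    rwa [norm_iteratedFDeriv_zero, Real.norm_eq_abs, ← heq x hx] at this
  · have := out.err_bound 1 x hx
    rwa [← norm_iteratedFDeriv_fderiv, norm_iteratedFDeriv_zero, ← hfd x hx] at this
  · have := out.err_bound 2 x hx
    rwa [← norm_iteratedFDeriv_fderiv, ← norm_iteratedFDeriv_fderiv, norm_iteratedFDeriv_zero,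
      ← hev2.fderiv_eq] at this

end DENS

/-! ## LEAF CHX-AMP -/

section AMP

theorem chx_memLp_sqrt3 (Ψ : L2 3) :
    MemLp (fun X => (√3 : ℝ) • (Ψ : Config 3 → SpinSpace 3) X) 2 volume :=
  (Lp.memLp Ψ).const_smul (√3 : ℝ)

/-- the removal amplitude as a pairing with the true fibre, a.e. -/
theorem chx_removalAmplitude_eq (φ : L2 2) (Ψ : L2 3) :
    ∀ᵐ x : Space, ∀ σ : Fin 2, removalAmplitude φ Ψ x σ
      = ⟪tensK σ φ, AG.slice (fun X => (√3 : ℝ) • (Ψ : Config 3 → SpinSpace 3) X) x⟫_ℂ := by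
  filter_upwards [AG.ae_memLp_slice (chx_memLp_sqrt3 Ψ)] with x hx σ
  rw [AG.inner_slice hx]
  show (√3 : ℂ) * ∫ y : Config 2, ∑ s : SpinConfig 2,
      conj (φ y s) * Ψ (Fin.cons x y : Config 3) (Fin.cons σ s : SpinConfig 3) = _
  rw [← integral_const_mul]
  refine integral_congr_ae ?_
  filter_upwards [tensK_coeFn σ φ] with y hy
  rw [hy, inner_spinEmb, PiLp.inner_apply, Finset.mul_sum]
  refine Finset.sum_congr rfl fun s _ => ?_
  rw [spinCmp_apply]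
  show _ = ⟪φ y s, (√3 : ℝ) • (Ψ (AG.cons3 x y) (Fin.cons σ s : SpinConfig 3))⟫_ℂ
  rw [RCLike.inner_apply, Complex.real_smul]
  show _ = _ * conj (φ y s)
  unfold AG.cons3
  ring

/-- a singlet paired with distinguished spin down is orthogonal to the sector `S_z = 1/2`. -/
theorem chx_inner_tensK_one_eq_zero {φ : L2 2} (hφ : IsSinglet φ) {v : Fib} (hv : FibSector v) :
    ⟪tensK 1 φ, v⟫_ℂ = 0 := by
  rw [L2.inner_def, ← integral_zero (Config 2) ℂ]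
  refine integral_congr_ae ?_
  filter_upwards [tensK_coeFn 1 φ, hφ, hv] with y h1 h2 h3
  rw [h1, inner_spinEmb, PiLp.inner_apply]
  refine Finset.sum_eq_zero fun s _ => ?_
  rw [spinCmp_apply]
  by_cases hs : s 0 = s 1
  · -- `s ∘ swap = s`, so `φ y s = 0`
    have e1 : s ∘ Equiv.swap 0 1 = s := by
      funext i
      fin_cases i
      · show s (Equiv.swap 0 1 0) = s 0
        rw [Equiv.swap_apply_left, hs]
      · show s (Equiv.swap 0 1 1) = s 1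
        rw [Equiv.swap_apply_right, hs]
    have e2 := h2 s
    rw [e1] at e2
    have e3 : φ y s = 0 := by
      have : (2 : ℂ) * φ y s = 0 := by linear_combination e2
      simpa using this
    rw [e3, inner_zero_left]
  · have e1 : spinZ (Fin.cons 1 s : SpinConfig 3) ≠ 1 / 2 := by
      unfold spinZ
      rw [Fin.sum_univ_three]
      have c0 : (Fin.cons 1 s : SpinConfig 3) 0 = 1 := rfl
      have c1 : (Fin.cons 1 s : SpinConfig 3) 1 = s 0 := rfl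
      have c2 : (Fin.cons 1 s : SpinConfig 3) 2 = s 1 := rfl
      rw [c0, c1, c2]
      rcases Fin.exists_fin_two.mp ⟨s 0, rfl⟩ with a | a <;>
        rcases Fin.exists_fin_two.mp ⟨s 1, rfl⟩ with b' | b' <;> rw [a, b'] at hs ⊢ <;>
        first | exact absurd rfl hs | norm_num
    rw [h3 _ e1, inner_zero_right]

theorem chx_fib_norm_sub_sq (u v : Fib) : ‖u - v‖ ^ 2 = ∫ y, ‖u y - v y‖ ^ 2 := by
  have h3 : ((‖u - v‖ ^ 2 : ℝ) : ℂ) = ((∫ y, ‖u y - v y‖ ^ 2 : ℝ) : ℂ) := by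
    have e := inner_self_eq_norm_sq_to_K (𝕜 := ℂ) (u - v)
    rw [MeasureTheory.L2.inner_def] at e
    rw [Complex.ofReal_pow]
    refine e.symm.trans ?_
    rw [← integral_complex_ofReal]
    refine integral_congr_ae ?_
    filter_upwards [Lp.coeFn_sub u v] with y hy
    rw [hy, Pi.sub_apply, inner_self_eq_norm_sq_to_K]
    push_cast
    rfl
  exact_mod_cast h3

theorem chx_amp_bound
    (out : AG.ChanOut τ C δ t En (Ψ : Config 3 → SpinSpace 3) (Ψ0 : Config 3 → SpinSpace 3) F F0 R Gy err)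
    {φ : L2 2} (hφ1 : ‖φ‖ = 1) (hφ : IsSinglet φ) (hsec : InSpinSector (1 / 2) Ψ)
    {amp : Space → EuclideanSpace ℂ (Fin 2)} (ha : Continuous amp)
    (hae : amp =ᵐ[volume] removalAmplitude φ Ψ) :
    ∀ x ∈ Ext AG.extR,
      |‖amp x‖ - ‖⟪tensK 0 φ, F x⟫_ℂ‖| ≤ C 0 * δ * Real.exp (-(AG.sig τ * ‖x‖)) := by
  have hF : ContinuousOn F (Ext AG.extR) := out.F_smooth.continuousOn
  set Φ : Config 3 → SpinSpace 3 := fun X => (√3 : ℝ) • (Ψ : Config 3 → SpinSpace 3) X with hΦ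
  -- the a.e. inequality
  have hmain : ∀ᵐ x : Space, x ∈ Ext AG.extR →
      |‖amp x‖ - ‖⟪tensK 0 φ, F x⟫_ℂ‖| ≤ C 0 * δ * Real.exp (-(AG.sig τ * ‖x‖)) := by
    filter_upwards [hae, chx_removalAmplitude_eq φ Ψ, AG.ae_memLp_slice (chx_memLp_sqrt3 Ψ),
      AG.ae_ae_cons3 hsec, out.true_close] with x h1 h2 h3 h4 h5 hx
    have hco := AG.slice_coeFn (Φ := Φ) (x := x) h3
    have hsecF : FibSector (AG.slice Φ x) := by
      filter_upwards [hco, h4] with y e1 e2 s hs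
      rw [e1]
      show (√3 : ℝ) • (Ψ (AG.cons3 x y) s) = 0
      rw [e2 s hs, smul_zero]
    have hn : ‖amp x‖ = ‖⟪tensK 0 φ, AG.slice Φ x⟫_ℂ‖ := by
      rw [h1, EuclideanSpace.norm_eq, Fin.sum_univ_two, h2 0, h2 1,
        chx_inner_tensK_one_eq_zero hφ hsecF, norm_zero]
      simp
      rfl
    have hC : 0 ≤ C 0 * δ * Real.exp (-(AG.sig τ * ‖x‖)) := by
      have := (norm_nonneg _).trans (out.diff_bound 0 x hx)
      have h0 : 0 ≤ C 0 * δ := nonneg_of_mul_nonneg_left this (Real.exp_pos _)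
      exact mul_nonneg h0 (Real.exp_pos _).le
    have hd : ‖AG.slice Φ x - F x‖ ≤ C 0 * δ * Real.exp (-(AG.sig τ * ‖x‖)) := by
      refine abs_le_of_sq_le_sq' ?_ hC |>.2
      rw [chx_fib_norm_sub_sq]
      refine le_trans (le_of_eq ?_) (h5 hx)
      refine integral_congr_ae ?_
      filter_upwards [hco] with y e1
      rw [e1]
    rw [hn]
    calc |‖⟪tensK 0 φ, AG.slice Φ x⟫_ℂ‖ - ‖⟪tensK 0 φ, F x⟫_ℂ‖|
        ≤ ‖⟪tensK 0 φ, AG.slice Φ x⟫_ℂ - ⟪tensK 0 φ, F x⟫_ℂ‖ := abs_norm_sub_norm_le _ _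
      _ = ‖⟪tensK 0 φ, AG.slice Φ x - F x⟫_ℂ‖ := by rw [inner_sub_right]
      _ ≤ ‖tensK 0 φ‖ * ‖AG.slice Φ x - F x‖ := norm_inner_le_norm _ _
      _ = ‖AG.slice Φ x - F x‖ := by rw [norm_tensK, hφ1, one_mul]
      _ ≤ _ := hd
  -- continuity
  set g : Space → ℝ := fun x =>
    |‖amp x‖ - ‖⟪tensK 0 φ, F x⟫_ℂ‖| - C 0 * δ * Real.exp (-(AG.sig τ * ‖x‖)) with hg
  have hgc : ContinuousOn g (Ext AG.extR) := by
    refine ContinuousOn.sub ?_ ?_
    · exact (ha.norm.continuousOn.sub (continuousOn_const.inner hF).norm).abs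
    · exact Continuous.continuousOn (by fun_prop)
  have hz := AG.eqOn_of_ae_eq (isOpen_Ext _) (f := fun x => max (g x) 0) (g := fun _ => (0 : ℝ))
    (hgc.sup continuousOn_const) continuousOn_const (by
      filter_upwards [hmain] with x hx hxE
      exact max_eq_right (sub_nonpos.2 (hx hxE)))
  intro x hx
  have h1 : max (g x) 0 = 0 := hz hx
  have h2 : g x ≤ 0 := h1 ▸ le_max_left _ _
  exact sub_nonpos.1 h2

end AMP

end out

end Claimed.Open.R278
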