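import Claimed.Open.R278.CHXWord
import Claimed.Open.R278.CHXOut

/-!
# Result 278, package CHX: construction of the channel system (Lemma 3.2 + ionic toolkit ⟹ `ChannelSys`)

Architect: helper122.  This file contains NO `sorry`: it assembles `chx_build` from
* `AG.channel_cutoff` and the lemmas on `AG.ChanOut` (`AGMain.lean`),
* the structure `IonKit` (`CHXDefs.lean`; contract with ION),
* `CHXWord.lean` (`chx_wordBdd_exp`, `chx_diff_abstract`), `CHXSpin.lean` (spin algebra, symmetries, Slater expansion), `CHXOut.lean` (`W`-fields, density link, amplitude link).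

Parameters of Lemma 3.2: weight exponent `0.98`, margin `0.0098`, `Emax = 2`; `σ = 1.02 < 0.98 √(10/9)`, a priori decay `τ = 0.9 < 0.98`.
-/

open MeasureTheory Filter
open scoped ContDiff InnerProductSpace ComplexConjugate ENNReal Topology Laplacian

noncomputable section

namespace Claimed.Open.R278

open AG (Fib)

variable {b e : Space → ℝ} {εb εe : ℝ}

/-! ## Numerics -/

theorem chx_bigD_ge : (4 : ℝ) ≤ bigD := by
  unfold bigD
  calc (4 : ℝ) ≤ 10 ^ 1 := by norm_num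
    _ ≤ 10 ^ 200 := pow_le_pow_right₀ (by norm_num) (by norm_num)

theorem chx_extR_le : AG.extR ≤ 2 * bigD := by
  unfold AG.extR
  linarith [chx_bigD_ge]

/-- `1.02 < 0.98 √(10/9)`. -/
theorem chx_sig_gt : (1.02 : ℝ) < AG.sig 0.98 := by
  unfold AG.sig
  have h1 : (1.05 : ℝ) < √(10 / 9) := by
    rw [Real.lt_sqrt (by norm_num)]
    norm_num
  nlinarith

theorem chx_ext_subset_compl_nuclei {R : ℝ} (hR : bigD ≤ R) : Ext R ⊆ nucleiᶜ := by
  intro x hx hmem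
  have hx' : R < ‖x‖ := hx
  have hD : (0 : ℝ) ≤ bigD := by linarith [chx_bigD_ge]
  have hez : ‖bigD • ez‖ = bigD := by
    rw [norm_smul, Real.norm_of_nonneg hD]
    simp [ez]
  have hnorm : ‖x‖ = bigD := by
    rcases hmem with rfl | hmem
    · exact hez
    · rw [Set.mem_singleton_iff.1 hmem, norm_neg, hez]
  linarith

theorem TwoCentre.chx_εb_gt' (h : TwoCentre b e εb εe) : -0.51005 < εb := by
  have h1 := h.gamma_lt
  have h2 : -(2 * εb) < 1.01 ^ 2 := by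
    by_contra hh
    have := Real.le_sqrt' (by norm_num : (0 : ℝ) < 1.01) |>.2 (not_lt.1 hh)
    linarith
  norm_num at h2
  linarith

theorem TwoCentre.chx_εe_lt (h : TwoCentre b e εb εe) : εe < -0.49005 := by
  have h1 := h.k0_gt
  have h2 : (0.99 : ℝ) ^ 2 < -(2 * εe) := (Real.lt_sqrt (by norm_num)).1 h1
  norm_num at h2
  linarith

theorem chx_energy_eq' {m : ℕ} {W : Config m → ℝ} {E : ℝ} {Φ : L2 m} (h : Φ ∈ Eigenspace W E) (h1 : ‖Φ‖ = 1) :
    energy W Φ = E := by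
  have hΦΦ : ⟪Φ, Φ⟫_ℂ = 1 := by rw [inner_self_eq_norm_sq_to_K, h1]; simp
  unfold energy
  rw [h.2 Φ h.1, hΦΦ]
  simp

/-- the ground energy increases with the coupling. -/
theorem PreRegular.E₃_ge (h : TwoCentre b e εb εe) {t : ℝ} (ht : 0 ≤ t) {d : AuxData} (hd : PreRegular εb t d) :
    2 * εb + εe ≤ d.E₃ := by
  have hΨ := hd.ground.2.2.1
  have h1 := hd.ground.1
  have hmem : d.Ψ ∈ H1A 3 := (mem_H1A_iff_formDomain t).2 hΨ.1
  have e1 := h.bottom3 hmem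
  have e2 := energy_scaled_mono ht hmem.2
  rw [chx_energy_eq' hΨ h1] at e2
  rw [h1] at e1
  linarith

theorem PreRegular.k_sq {t : ℝ} {d : AuxData} (hd : PreRegular εb t d) : d.k ^ 2 / 2 = d.E₂ - d.E₃ := by
  have h1 := hd.k_lower
  have hX : 0 ≤ 2 * (d.E₂ - d.E₃) := by
    by_contra hh
    unfold AuxData.k at h1
    rw [Real.sqrt_eq_zero_of_nonpos (not_le.1 hh).le] at h1
    norm_num at h1
  unfold AuxData.k
  rw [Real.sq_sqrt hX]
  ring

/-- the hypotheses of Lemma 3.2. -/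
theorem chx_agData (h : TwoCentre b e εb εe) {K μ t : ℝ} (hK : 1 ≤ K) {d : AuxData}
    (hp : PreRegular εb t d) (hcl : CloseData b e εb εe K μ t d) :
    AG.AGData εb 0.98 0.0098 2 (K * t) t d.E₃ (2 * εb + εe) d.Ψ (psiZero b e) := by
  have hE := hp.E₃_ge h hcl.t_nonneg
  have hE' := hp.energy_test
  have hεb := h.chx_εb_gt'
  have hεe := h.chx_εe_lt
  have hlt := h.data.lt
  have hεb0 := h.εb_neg
  exact
    { t_nonneg := hcl.t_nonneg
      t_le_one := hcl.t_le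
      abs_En := by rw [abs_le]; constructor <;> linarith
      abs_En0 := by rw [abs_le]; constructor <;> linarith
      margin := by norm_num; linarith
      margin0 := by norm_num; linarith
      mem := hp.ground.2.2.1
      mem0 := h.psiZero_eig
      norm_le := hp.ground.1.le
      norm0_le := h.norm_psiZero.le
      t_le := by nlinarith [hcl.t_nonneg]
      En_le := hcl.E₃_close
      diff_le := hcl.Ψ_close
      δ_le := by linarith [hcl.Kt_le] }

/-- enlarging the constants and the radius. -/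
theorem WordBdd.chx_weaken {V : Type*} [NormedAddCommGroup V] [NormedSpace ℝ V] {R R' : ℝ} {C C' : ℕ → ℝ}
    {g : Space → ℝ} {σ : Space → V} (h : WordBdd R C g σ) (hR : R ≤ R') (hC : ∀ n, C n ≤ C' n)
    (hg : ∀ x ∈ Ext R', 0 ≤ g x) : WordBdd R' C' g σ :=
  h.mono hR fun n x hx => mul_le_mul_of_nonneg_right (hC n) (hg x hx)

/-- the constants of the channel systems. -/
def chxConsts (c μ Rmin : ℝ) (C : ℕ → ℝ) (hc : 0 < c) (hμ : 0 < μ) : ChannelConsts :=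
  { R₁ := max (2 * bigD) Rmin
    c := c
    σ := 1.02
    τ := 0.9
    μ := μ
    C := C
    R₁_ge := le_max_left _ _
    c_pos := hc
    τ_pos := by norm_num
    μ_pos := hμ }

/-- **The channel system of Lemma 3.2**, constants before the data. -/
theorem chx_build (h : TwoCentre b e εb εe) {c CI K μ : ℝ} (hc : 0 < c) (hK : 1 ≤ K) (hμ : 0 < μ)
    (hμ' : μ ≤ 0.01) (Rmin : ℝ) :
    ∃ κ : ChannelConsts, Rmin ≤ κ.R₁ ∧ ∀ (t : ℝ) (d : AuxData), PreRegular εb t d →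
      CloseData b e εb εe K μ t d → IonKit b e εb εe c CI t d.E₂ d.φ →
      ∃ S : ChannelSys Fib κ b (√(-(2 * εb))), ChanLink S t d ∧ PLink S e := by
  obtain ⟨CA, hCA0, hAG⟩ := AG.channel_cutoff h.data.lowest 0.98 0.0098 2 (by norm_num) (by norm_num)
  obtain ⟨CF, hCF0, hF⟩ := chx_wordBdd_exp (V := Fib) (a := 0.98) (a' := 0.9) (by norm_num) CA
  obtain ⟨CR, hCR0, hR⟩ := chx_wordBdd_exp (V := Fib) chx_sig_gt CA
  obtain ⟨CW, hCW0, hW⟩ := chx_W_bdd
  obtain ⟨CM, hCM0, hM⟩ := chx_Wmono_bdd CI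
  obtain ⟨CP, hCP0, hP⟩ := chx_Wdipole_bdd CI
  obtain ⟨Ct, hCt⟩ : ∃ Ct : ℕ → ℝ, Ct = fun n => CF n + K * CR n + CW n + CM n + CP n + K * (4 * CF n)
      + (CI + 2 * K) + 5 * (CA 0 + CA 1 + CA 2) := ⟨_, rfl⟩
  have hK0 : 0 ≤ K := by linarith
  refine ⟨chxConsts c μ Rmin Ct hc hμ, le_max_right _ _, fun t d hp hcl kit => ?_⟩
  obtain ⟨R₁, hR₁⟩ : ∃ R₁, R₁ = max (2 * bigD) Rmin := ⟨_, rfl⟩
  have hR₁D : 2 * bigD ≤ R₁ := hR₁ ▸ le_max_left _ _
  have hR₁e : AG.extR ≤ R₁ := chx_extR_le.trans hR₁D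
  have hsub : ∀ x ∈ Ext R₁, x ∈ Ext AG.extR := fun x hx => lt_of_le_of_lt hR₁e hx
  obtain ⟨F, F0, R, Gy, err, out⟩ := hAG (K * t) t d.E₃ (2 * εb + εe) d.Ψ (psiZero b e) (chx_agData h hK hp hcl)
  have ht0 := hcl.t_nonneg
  have hδ0 : 0 ≤ K * t := mul_nonneg hK0 ht0
  have hCI := kit.CI_pos
  -- every individual constant is dominated by `Ct`
  have hsum : 0 ≤ CA 0 + CA 1 + CA 2 := by linarith [hCA0 0, hCA0 1, hCA0 2]
  have hle : ∀ n, CF n ≤ Ct n ∧ K * CR n ≤ Ct n ∧ CW n ≤ Ct n ∧ CM n ≤ Ct n ∧ CP n ≤ Ct n ∧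
      K * (4 * CF n) ≤ Ct n ∧ CI + 2 * K ≤ Ct n ∧ 5 * (CA 0 + CA 1 + CA 2) ≤ Ct n := by
    intro n
    have h1 := hCF0 n
    have h2 := mul_nonneg hK0 (hCR0 n)
    have h3 := hCW0 n
    have h4 := hCM0 n
    have h5 := hCP0 n
    have h6 : 0 ≤ K * (4 * CF n) := by positivity
    rw [hCt]
    refine ⟨?_, ?_, ?_, ?_, ?_, ?_, ?_, ?_⟩ <;> linarith
  have hexp : ∀ (a : ℝ) (x : Space), 0 ≤ Real.exp (-(a * ‖x‖)) := fun a x => (Real.exp_pos _).le
  -- the a priori bounds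
  have hFb : WordBdd R₁ Ct (fun x => Real.exp (-(0.9 * ‖x‖))) F := by
    have := hF AG.extR 1 F zero_le_one out.F_smooth
      (fun n x hx => by rw [mul_one]; exact out.F_bound n x hx)
    exact this.mono hR₁e fun n x hx => by
      rw [one_mul]; exact mul_le_mul_of_nonneg_right (hle n).1 (hexp _ _)
  have hF0b : WordBdd AG.extR CF (fun x => Real.exp (-(0.9 * ‖x‖))) F0 := by
    have := hF AG.extR 1 F0 zero_le_one out.F0_smooth
      (fun n x hx => by rw [mul_one]; exact out.F0_bound n x hx)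
    exact this.mono le_rfl fun n x hx => by rw [one_mul]
  have hDb : WordBdd AG.extR CF (fun x => K * t * Real.exp (-(0.9 * ‖x‖))) (fun x => F x - F0 x) :=
    hF AG.extR (K * t) _ hδ0 (out.F_smooth.sub out.F0_smooth) out.diff_bound
  have hRb : WordBdd R₁ Ct (fun x => t * Real.exp (-(1.02 * ‖x‖))) R := by
    have := hR AG.extR (K * t) R hδ0 out.R_smooth out.R_bound
    exact this.mono hR₁e fun n x hx => by
      have h1 : 0 ≤ t * Real.exp (-(1.02 * ‖x‖)) := mul_nonneg ht0 (hexp _ _)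
      calc CR n * (K * t * Real.exp (-(1.02 * ‖x‖))) = K * CR n * (t * Real.exp (-(1.02 * ‖x‖))) := by ring
        _ ≤ _ := mul_le_mul_of_nonneg_right (hle n).2.1 h1
  -- the vectors
  have hφ1 : ‖tensK 0 d.φ‖ = 1 := by rw [norm_tensK, hp.ion_ground.1]
  have hφ01 : ‖tensK 0 (phiZero b)‖ = 1 := by rw [norm_tensK, h.norm_phiZero]
  have hφG : ⟪tensK 0 d.φ, gK b e⟫_ℂ = 0 := by
    rw [kit.G_eq, ← kit.Rr_symm, kit.Rr_φ, inner_zero_left]
  have hφcl : ‖tensK 0 d.φ - tensK 0 (phiZero b)‖ ≤ K * t := by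
    rw [← tensK_sub, norm_tensK]; exact hcl.φ_close
  obtain ⟨hdiff, hplink⟩ := chx_diff_abstract (𝒦 := Fib) (R := AG.extR) (δ := K * t) (C₁ := CF) (C₂ := CF)
    (g := fun x => Real.exp (-(0.9 * ‖x‖))) (fun x _ => hexp _ x) hCF0 hCF0 hφ1 hφ01 hφG h.inner_phiZero_gK hφcl
    (F := F) (F0 := F0) (b := b) (e := e) (h.chx_F0_eq out.F0_version out.F0_smooth.continuousOn) hF0b hDb
  have hdiff' : WordBdd R₁ Ct (fun x => t * Real.exp (-(0.9 * ‖x‖)))
      (fun x => F x - ⟪tensK 0 d.φ, F x⟫_ℂ • tensK 0 d.φ - b x • gK b e) :=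
    hdiff.mono hR₁e fun n x hx => by
      have h1 : 0 ≤ t * Real.exp (-(0.9 * ‖x‖)) := mul_nonneg ht0 (hexp _ _)
      calc (2 * CF n + 2 * CF n) * (K * t * Real.exp (-(0.9 * ‖x‖)))
          = K * (4 * CF n) * (t * Real.exp (-(0.9 * ‖x‖))) := by ring
        _ ≤ _ := mul_le_mul_of_nonneg_right (hle n).2.2.2.2.2.1 h1
  have hplink' : WordBdd R₁ Ct (fun x => t * Real.exp (-(0.9 * ‖x‖)))
      (fun x => ⟪tensK 0 d.φ, F x⟫_ℂ - (e x : ℂ)) :=
    hplink.mono hR₁e fun n x hx => by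
      have h1 : 0 ≤ t * Real.exp (-(0.9 * ‖x‖)) := mul_nonneg ht0 (hexp _ _)
      have h2 : K * (2 * CF n) ≤ K * (4 * CF n) :=
        mul_le_mul_of_nonneg_left (by linarith [hCF0 n]) hK0
      calc (CF n + CF n) * (K * t * Real.exp (-(0.9 * ‖x‖)))
          = K * (2 * CF n) * (t * Real.exp (-(0.9 * ‖x‖))) := by ring
        _ ≤ _ := mul_le_mul_of_nonneg_right (h2.trans (hle n).2.2.2.2.2.1) h1
  -- the interaction
  have hWb : WordBdd R₁ Ct (fun x => ‖x‖⁻¹) (AG.Wop (E := SpinSpace 3)) :=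
    hW.chx_weaken hR₁D (fun n => (hle n).2.2.1) (fun x _ => by positivity)
  have hMw : ∀ v v₁ : Fib, (∀ᵐ y, v₁ y = AG.rho y • v y) → ‖v₁‖ ≤ CI →
      WordBdd R₁ Ct (fun x => (‖x‖ ^ 2)⁻¹) (fun x => AG.Wop x v - (2 / ‖x‖) • v) := fun v v₁ h1 h2 =>
    (hM v v₁ h1 h2).chx_weaken hR₁D (fun n => (hle n).2.2.2.1) (fun x _ => by positivity)
  have hdip : WordBdd R₁ Ct (fun x => (‖x‖ ^ 3)⁻¹)
      (fun x => AG.Wop x (tensK 0 d.φ) - (2 / ‖x‖) • tensK 0 d.φ - (‖x‖ ^ 3)⁻¹ • ∑ i, x i • kit.Y i) :=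
    (hP _ kit.φ₂ kit.Y kit.φ₂_eq kit.Y_eq kit.φ₂_le).chx_weaken hR₁D (fun n => (hle n).2.2.2.2.1)
      (fun x _ => by positivity)
  -- the equations
  have hsecΨ : InSpinSector (1 / 2) d.Ψ := hp.ground.2.1
  have hsec0 : InSpinSector (1 / 2) (psiZero b e) := h.psiZero_mem.2
  have hanti : IsAntisymmetric d.Ψ := hp.ground.2.2.1.1.1
  have hanti0 : IsAntisymmetric (psiZero b e) := h.psiZero_mem.1.1
  have hbr : ∀ x ∈ Ext R₁, ⟪tensK 0 d.φ, chanG t d.k AG.Wop F x + R x⟫_ℂ = 0 ∧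
      F x - ⟪tensK 0 d.φ, F x⟫_ℂ • tensK 0 d.φ = kit.Rr (chanG t d.k AG.Wop F x + R x) := fun x hx =>
    kit.bridge (F x) _ (fun j => Gy j x) (out.h1 x (hsub x hx)) (out.eq_chanG (hsub x hx) hp.k_sq)
      (out.sector hsecΨ hsec0 x (hsub x hx)) (out.pair_antisymmetric hanti hanti0 x (hsub x hx))
  -- symmetries
  have hodd : ∀ x ∈ Ext R₁, ⟪tensK 0 d.φ, F (reflZ x)⟫_ℂ = -⟪tensK 0 d.φ, F x⟫_ℂ := fun x hx => by
    rw [chx_inner_tensK_reflZ hp.ion_even (out.reflection hp.odd h.psiZero_odd x (hsub x hx))]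
    ring
  have haxi : ∀ a, ∀ x ∈ Ext R₁, ⟪tensK 0 d.φ, F (rotZ a x)⟫_ℂ = ⟪tensK 0 d.φ, F x⟫_ℂ := fun a x hx =>
    chx_inner_tensK_rotZ hp.ion_axisymmetric a
      (out.axisymmetric hp.axisymmetric h.psiZero_axisymmetric a x (hsub x hx))
  -- the fast vector
  have hγsq : √(-(2 * εb)) ^ 2 = -(2 * εb) := Real.sq_sqrt (by linarith [h.εb_neg])
  have hGs : ‖((√(-(2 * εb)) ^ 2 - d.k ^ 2) / 2) • gK b e - kit.Gs‖ ≤ Ct 0 * t := by
    have hk := hp.k_sq
    have e1 : (√(-(2 * εb)) ^ 2 - d.k ^ 2) / 2 = (εb + εe - d.E₂) + (d.E₃ - (2 * εb + εe)) := by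
      rw [hγsq]; linarith
    have hG : ‖gK b e‖ ≤ 2 := by nlinarith [h.norm_gK_sq, norm_nonneg (gK b e)]
    rw [e1, add_smul]
    calc ‖(εb + εe - d.E₂) • gK b e + (d.E₃ - (2 * εb + εe)) • gK b e - kit.Gs‖
        = ‖((εb + εe - d.E₂) • gK b e - kit.Gs) + (d.E₃ - (2 * εb + εe)) • gK b e‖ := by
          congr 1; abel
      _ ≤ ‖(εb + εe - d.E₂) • gK b e - kit.Gs‖ + ‖(d.E₃ - (2 * εb + εe)) • gK b e‖ := norm_add_le _ _
      _ ≤ CI * t + K * t * 2 := by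
          refine add_le_add kit.Gs_close ?_
          rw [norm_smul, Real.norm_eq_abs]
          exact mul_le_mul hcl.E₃_close hG (norm_nonneg _) hδ0
      _ = (CI + 2 * K) * t := by ring
      _ ≤ Ct 0 * t := mul_le_mul_of_nonneg_right (hle 0).2.2.2.2.2.2.1 ht0
  have hCIle : CI ≤ Ct 0 := by linarith [(hle 0).2.2.2.2.2.2.1]
  have hPdv : PdK (kit.Rr (kit.Rr (kit.Y 2))) = 0 := by
    rw [kit.Rr_Pd, kit.Rr_Pd, PdK_eq_zero_of_ae (kit.Y_eq 2), map_zero, map_zero]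
  -- the density and the amplitude
  have hnsm : ContDiffOn ℝ 2 d.n (Ext R₁) :=
    ((AG.density_smooth ht0 hcl.t_le hp.ground.2.2.1 hp.n_continuous.continuousOn hp.n_eq).of_le
      (by norm_cast)).mono (chx_ext_subset_compl_nuclei (by linarith [chx_bigD_ge]))
  have hdens := chx_density_bounds out hp.n_continuous hp.n_eq
  have hamp := chx_amp_bound out hp.ion_ground.1 hp.ion_singlet hsecΨ hp.amp_continuous hp.amp_eq
  have hAδ : ∀ i, CA i ≤ CA 0 + CA 1 + CA 2 → CA i * (K * t) ≤ Ct 0 := fun i hi => by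
    have h1 : CA i * (K * t) ≤ CA i * 5 := mul_le_mul_of_nonneg_left hcl.Kt_le (hCA0 i)
    linarith [(hle 0).2.2.2.2.2.2.2]
  have hA0 := hAδ 0 (by linarith [hCA0 1, hCA0 2])
  have hA1 := hAδ 1 (by linarith [hCA0 0, hCA0 2])
  have hA2 := hAδ 2 (by linarith [hCA0 0, hCA0 1])
  have hexp2 : ∀ x : Space, Real.exp (-(2 * AG.sig 0.98 * ‖x‖)) ≤ Real.exp (-(2 * 1.02 * ‖x‖)) := fun x => by
    apply Real.exp_le_exp.2
    have := mul_le_mul_of_nonneg_right chx_sig_gt.le (norm_nonneg x)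
    linarith
  have hexp1 : ∀ x : Space, Real.exp (-(AG.sig 0.98 * ‖x‖)) ≤ Real.exp (-(1.02 * ‖x‖)) := fun x => by
    apply Real.exp_le_exp.2
    have := mul_le_mul_of_nonneg_right chx_sig_gt.le (norm_nonneg x)
    linarith
  have hCt0 : 0 ≤ Ct 0 := hCI.le.trans hCIle
  have hbound : ∀ {A B E E' : ℝ}, A ≤ B * E → B ≤ Ct 0 → 0 ≤ E → E ≤ E' → A ≤ Ct 0 * E' :=
    fun {A B E E'} h1 h2 h3 h4 => h1.trans (mul_le_mul h2 h4 h3 hCt0)
  subst hR₁
  have hγ := h.gamma_lt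
  have hklo := hp.k_lower
  have hkhi := hp.k_upper
  refine ⟨
    { lam := t
      k := d.k
      φ := tensK 0 d.φ
      Rr := kit.Rr
      W := AG.Wop
      F := F
      Res := R
      lam_nonneg := ht0
      lam_le := hcl.t_le
      k_lo := by linarith
      k_hi := by linarith
      sigma_gt := by
        show d.k + μ ≤ 1.02
        linarith [hcl.sep]
      φ_norm := hφ1
      Rr_symm := kit.Rr_symm
      Rr_φ := kit.Rr_φ
      Rr_gap := kit.Rr_gap
      W_symm := fun x _ v w => AG.Wop_symm x v w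
      W_nonneg := fun x _ v => AG.Wop_nonneg x v
      W_bdd := hWb
      Wφ_bdd := hMw _ kit.φ₁ kit.φ₁_eq kit.φ₁_le
      F_bdd := hFb
      Res_bdd := hRb
      eqP := fun x hx => (hbr x hx).1
      eqQ := fun x hx => (hbr x hx).2
      k_sep := hcl.sep
      sigma_gt' := by
        show √(-(2 * εb)) + μ ≤ 1.02
        linarith
      f_odd := hodd
      f_axi := haxi
      G := gK b e
      Gs := kit.Gs
      G_eq := kit.G_eq
      G_norm := h.norm_gK_sq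
      Gs_close := hGs
      diff_bdd := hdiff'
      Y := kit.Y
      Y_perp := kit.Y_perp
      dipole := hdip
      W_v₁ := (hMw _ kit.w₁ kit.w₁_eq kit.w₁_le).norm_le
      W_v₂ := (hMw _ kit.w₂ kit.w₂_eq kit.w₂_le).norm_le
      v₂_lower := (inv_anti₀ hCI hCIle).trans kit.v₂_lower
      Y_upper := kit.Y_upper.trans hCIle
      Pd := PdK
      Pd_proj := PdK_PdK
      Pd_symm := PdK_symm
      Pd_φ := PdK_tensK_zero _
      Pd_v₂ := hPdv
      Pd_G := h.norm_PdK_gK }, ⟨rfl, rfl, ⟨hnsm, ?_, ?_, ?_⟩, ?_⟩, hplink'⟩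
  · intro x hx
    exact hbound (hdens x (hsub x hx)).1 hA0 (Real.exp_pos _).le (hexp2 x)
  · intro x hx
    exact hbound (hdens x (hsub x hx)).2.1 hA1 (Real.exp_pos _).le (hexp2 x)
  · intro x hx
    exact hbound (hdens x (hsub x hx)).2.2 hA2 (Real.exp_pos _).le (hexp2 x)
  · intro x hx
    exact hbound (hamp x (hsub x hx)) hA0 (Real.exp_pos _).le (hexp1 x)

end Claimed.Open.R278
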