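import Claimed.Open.R278.IONDip
import Claimed.Open.R278.AGBridge

/-!
# Result 278, package BP-ION (ionic toolkit), file 6: from the form-sense fibre equation of layer AG (= L3) to the `P`- and `Q`-equations of `ChannelCore`

Architect: helper24.  No paper needed.  Helper lemmas: prefix `ionb_`.

INPUT (what `AG.fiber_equation`, `AG.fiber_swap`, `AG.fiber_constraint` deliver for every `x` in the exterior region): `u = F x : Fib`, an `H¹` pair `(u, Gu)` on `Config 2` with values in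
`SpinSpace 3`, weak solution (tested against ALL `H¹` pairs) of `(-½Δ_y + scaledPotential 2 t - En) u = g`, pair antisymmetry `FibAnti u`, sector `FibSector u` (`CHXDefs.lean`).
OUTPUT: `⟪φ, g'⟫ = 0` and `u - ⟪φ,u⟫φ = Rr g'`, `φ = ionPhi`, `Rr = ionRr`.

PROOF of `ion_bridge`.  For `σ : Fin 2` put `u_σ = fibProj σ u`, `g_σ = fibProj σ g`.  `u_σ ∈ H1A 2` (B1, B2).  For `Ξ ∈ H1A 2` test the equation with the `H¹` pair
`(fibEmb σ Ξ, fibEmb σ (weakGrad Ξ j))` (B3); by the pointwise adjointness `inner_spinEmb` it reads `sesqForm V Ξ u_σ - E₂⟪Ξ,u_σ⟫ = ⟪Ξ,g_σ⟫`.  `IsRedRes.bridge`: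
`⟪φ,g_σ⟫ = 0`, `u_σ - ⟪φ,u_σ⟫φ = R g_σ`.  `⟪ionPhi φ, u⟫ = ⟪φ,u_0⟫` (`inner_fibEmb`); `⟪φ,u_1⟫ = 0`: `u_1(y)(s) ≠ 0` forces `spinZ (cons 1 s) = 1/2`, i.e. `s = (0,0)`, where the singlet `φ` vanishes.
Conclude with `fib_ext`, `fibProj_liftOp`, `fibProj_fibEmb`, `fibProj_fibEmb_of_ne`.
-/

open MeasureTheory Filter
open scoped ContDiff InnerProductSpace ComplexConjugate ENNReal Topology Laplacian

noncomputable section

namespace Claimed.Open.R278

open AG (Fib cons3)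

variable {t c E₂ : ℝ} {φ : L2 2}

/-! ## LEAF ION-B1: symmetries of the components -/

section B1

theorem ionb_perm_two (π : Equiv.Perm (Fin 2)) : π = 1 ∨ π = Equiv.swap 0 1 := by
  revert π; decide

theorem ionb_cons_swap (σ : Fin 2) (s : SpinConfig 2) :
    (Fin.cons σ (s ∘ Equiv.swap 0 1) : SpinConfig 3) = (Fin.cons σ s : SpinConfig 3) ∘ Equiv.swap 1 2 := by
  funext i
  fin_cases i <;> rfl

theorem FibAnti.isAntisymmetric {u : Fib} (h : FibAnti u) (σ : Fin 2) : IsAntisymmetric (fibProj σ u) := by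
  intro π
  rcases ionb_perm_two π with rfl | rfl
  · exact Eventually.of_forall fun x s => by simp
  · have h1 := coeFn_fibProj σ u
    have h2 : ∀ᵐ y : Config 2, (fibProj σ u : Config 2 → SpinSpace 2) (y ∘ Equiv.swap 0 1)
        = spinCmp σ (u (y ∘ Equiv.swap 0 1)) :=
      (measurePreserving_comp_perm (Equiv.swap (0 : Fin 2) 1)).quasiMeasurePreserving.ae h1
    filter_upwards [h, h1, h2] with y hy e1 e2 s
    rw [e1, e2, spinCmp_apply, spinCmp_apply, ionb_cons_swap, hy]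
    simp

theorem ionb_spin_aux (a b : Fin 2) (h : a ≠ b) :
    ((if (1 : Fin 2) = 0 then (1 / 2 : ℚ) else -(1 / 2)) + (if a = 0 then 1 / 2 else -(1 / 2))
      + (if b = 0 then 1 / 2 else -(1 / 2))) ≠ 1 / 2 := by
  fin_cases a <;> fin_cases b <;> simp at h ⊢ <;> norm_num

theorem ionb_spin_cases (s : SpinConfig 2) : spinZ (Fin.cons 1 s : SpinConfig 3) ≠ 1 / 2 ∨ s ∘ Equiv.swap 0 1 = s := by
  by_cases h : s 0 = s 1
  · right
    funext i
    fin_cases i
    · simp [h]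
    · simp [h]
  · left
    have := ionb_spin_aux (s 0) (s 1) h
    unfold spinZ
    rw [Fin.sum_univ_three]
    exact this

/-- the singlet is orthogonal to the spin-down component of a vector of the sector `S_z = 1/2`. -/
theorem FibSector.inner_eq_zero {u : Fib} (h : FibSector u) {φ : L2 2} (hφ : IsSinglet φ) :
    ⟪φ, fibProj 1 u⟫_ℂ = 0 := by
  rw [MeasureTheory.L2.inner_def]
  refine integral_eq_zero_of_ae ?_
  filter_upwards [h, hφ, coeFn_fibProj 1 u] with y hy hs e1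
  rw [e1, PiLp.inner_apply]
  refine Finset.sum_eq_zero fun s _ => ?_
  rcases ionb_spin_cases s with h1 | h1
  · rw [spinCmp_apply, hy _ h1]; simp
  · have h2 := hs s
    rw [h1] at h2
    have h3 : φ y s = 0 := by
      have : (2 : ℂ) * φ y s = 0 := by linear_combination h2
      simpa using this
    rw [h3]; simp

end B1

/-! ## LEAF ION-B2: `H¹` pairs and components -/

section B2

/-- post-composition of an `H¹` pair with a complex continuous linear map. -/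
theorem ionb_h1_clm {E E' : Type*} [NormedAddCommGroup E] [InnerProductSpace ℂ E] [CompleteSpace E]
    [NormedAddCommGroup E'] [InnerProductSpace ℂ E'] [CompleteSpace E'] {m : ℕ}
    {f : Config m → E} {G : Fin m × Fin 3 → Config m → E}
    (h : AG.H1 (volume : Measure (Config m)) dir f G) (T : E →L[ℂ] E') :
    AG.H1 (volume : Measure (Config m)) dir (fun y => T (f y)) (fun j y => T (G j y)) :=
  ⟨T.comp_memLp' h.mem, fun j => ⟨T.comp_memLp' h.mem, T.comp_memLp' (h.wd j).memg,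
    ((h.wd j).wd.clm (T.restrictScalars ℝ)).weak⟩⟩

/-- (`WD2.clm`-type lemma of `FSWeak.lean` with `spinCmp σ`, `memH1_toLp`, `weakGrad_toLp`.) -/
theorem memH1_fibProj {u : Fib} {Gu : Fin 2 × Fin 3 → Config 2 → SpinSpace 3}
    (h : AG.H1 (volume : Measure (Config 2)) dir (u : Config 2 → SpinSpace 3) Gu) (σ : Fin 2) :
    MemH1 (fibProj σ u) ∧ ∀ j, (weakGrad (fibProj σ u) j : Config 2 → SpinSpace 2)
      =ᵐ[volume] fun y => spinCmp σ (Gu j y) := by
  have hH := ionb_h1_clm h (spinCmp σ)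
  obtain ⟨h1, h2⟩ := AG.h1_toLp hH
  have e : hH.mem.toLp (fun y => spinCmp σ (u y)) = fibProj σ u := by
    refine Lp.ext ?_
    filter_upwards [hH.mem.coeFn_toLp, coeFn_fibProj σ u] with y a1 a2
    rw [a1, a2]
  rw [e] at h1 h2
  refine ⟨h1, fun j => ?_⟩
  rw [h2 j]
  exact (hH.wd j).memg.coeFn_toLp

theorem h1_fibEmb {Ξ : L2 2} (h : MemH1 Ξ) (σ : Fin 2) :
    AG.H1 (volume : Measure (Config 2)) dir (fibEmb σ Ξ : Config 2 → SpinSpace 3)
      (fun j => (fibEmb σ (weakGrad Ξ j) : Config 2 → SpinSpace 3)) :=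
  (ionb_h1_clm (AG.h1_of_memH1 h) (spinEmb σ)).congr_ae (coeFn_fibEmb σ Ξ).symm
    (fun j => (coeFn_fibEmb σ (weakGrad Ξ j)).symm)

end B2

/-! ## LEAF ION-B3: the equation of the components -/

section B3

theorem component_equation {V : Config 2 → ℝ} {En : ℝ} {u g : Fib} {Gu : Fin 2 × Fin 3 → Config 2 → SpinSpace 3}
    (hH : AG.H1 (volume : Measure (Config 2)) dir (u : Config 2 → SpinSpace 3) Gu)
    (hsol : AG.IsWeakSol (volume : Measure (Config 2)) dir V En (u : Config 2 → SpinSpace 3) Gu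
      (g : Config 2 → SpinSpace 3))
    (hV : ∀ Ξ Φ : L2 2, MemH1 Ξ → MemH1 Φ → Integrable (fun y => (V y : ℂ) * ⟪Ξ y, Φ y⟫_ℂ))
    (σ : Fin 2) {Ξ : L2 2} (hΞ : MemH1 Ξ) :
    sesqForm V Ξ (fibProj σ u) - (En : ℂ) * ⟪Ξ, fibProj σ u⟫_ℂ = ⟪Ξ, fibProj σ g⟫_ℂ := by
  obtain ⟨hm, hgr⟩ := memH1_fibProj hH σ
  have E0 := hsol _ _ (h1_fibEmb hΞ σ) (fun x hx => absurd (Set.mem_univ x) hx)
  have a1 : ∀ j, ∫ y, ⟪(fibEmb σ (weakGrad Ξ j) : Config 2 → SpinSpace 3) y, Gu j y⟫_ℂ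
      = ⟪weakGrad Ξ j, weakGrad (fibProj σ u) j⟫_ℂ := by
    intro j
    rw [L2.inner_eq]
    refine integral_congr_ae ?_
    filter_upwards [coeFn_fibEmb σ (weakGrad Ξ j), hgr j] with y b1 b2
    rw [b1, b2, inner_spinEmb]
  have a2 : ∫ y, ((V y - En : ℝ) : ℂ) * ⟪(fibEmb σ Ξ : Config 2 → SpinSpace 3) y, u y⟫_ℂ
      = (∫ y, (V y : ℂ) * ⟪Ξ y, fibProj σ u y⟫_ℂ) - (En : ℂ) * ⟪Ξ, fibProj σ u⟫_ℂ := by
    rw [L2.inner_eq, ← integral_const_mul, ← integral_sub (hV _ _ hΞ hm) ((L2.integrable_inner _ _).const_mul _)]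
    refine integral_congr_ae ?_
    filter_upwards [coeFn_fibEmb σ Ξ, coeFn_fibProj σ u] with y b1 b2
    rw [b1, b2, inner_spinEmb]
    push_cast
    ring
  have a3 : ∫ y, ⟪(fibEmb σ Ξ : Config 2 → SpinSpace 3) y, g y⟫_ℂ = ⟪Ξ, fibProj σ g⟫_ℂ := by
    rw [L2.inner_eq]
    refine integral_congr_ae ?_
    filter_upwards [coeFn_fibEmb σ Ξ, coeFn_fibProj σ g] with y b1 b2
    rw [b1, b2, inner_spinEmb]
  simp only [a1] at E0
  rw [a2, a3] at E0
  unfold sesqForm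
  rw [← E0]
  ring

end B3

/-! ## The bridge (glue) -/

theorem ion_bridge (hd : IonData t c E₂ φ) {u g : Fib} {Gu : Fin 2 × Fin 3 → Config 2 → SpinSpace 3}
    (hH : AG.H1 (volume : Measure (Config 2)) dir (u : Config 2 → SpinSpace 3) Gu)
    (hsol : AG.IsWeakSol (volume : Measure (Config 2)) dir (scaledPotential 2 t) E₂
      (u : Config 2 → SpinSpace 3) Gu (g : Config 2 → SpinSpace 3))
    (ha : FibAnti u) (hs : FibSector u) :
    ⟪ionPhi φ, g⟫_ℂ = 0 ∧ u - ⟪ionPhi φ, u⟫_ℂ • ionPhi φ = ionRr t E₂ φ g := by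
  have hb : ∀ σ : Fin 2, ⟪φ, fibProj σ g⟫_ℂ = 0 ∧
      fibProj σ u - ⟪φ, fibProj σ u⟫_ℂ • φ = ionR t E₂ φ (fibProj σ g) := fun σ =>
    hd.isRedRes.bridge (ion_hermForm t) hd.gapData ⟨ha.isAntisymmetric σ, (memH1_fibProj hH σ).1⟩
      fun Ξ hΞ => component_equation hH hsol
        (fun Ξ Φ h h' => integrable_scaledPotential_inner t h h') σ hΞ.2
  refine ⟨by rw [ionPhi, inner_fibEmb]; exact (hb 0).1, fib_ext fun σ => ?_⟩
  rw [ionRr, fibProj_liftOp, ← (hb σ).2, map_sub, map_smul, ionPhi, inner_fibEmb]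
  fin_cases σ
  · show fibProj 0 u - _ • fibProj 0 (fibEmb 0 φ) = fibProj 0 u - ⟪φ, fibProj 0 u⟫_ℂ • φ
    rw [fibProj_fibEmb]
  · show fibProj 1 u - _ • fibProj 1 (fibEmb 0 φ) = fibProj 1 u - ⟪φ, fibProj 1 u⟫_ℂ • φ
    rw [fibProj_fibEmb_of_ne (by decide), hs.inner_eq_zero hd.singlet, smul_zero, zero_smul]

end Claimed.Open.R278
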