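import Claimed.Open.R278.IONFast
import Claimed.Open.R278.IONBridge

/-!
# Result 278, package BP-ION (ionic toolkit): TOP FILE = the two contracts `chx_ion_uniform`, `chx_ion_fixed` of `CHXContracts.lean`

Architect: helper24.  NO `sorry` IN THIS FILE.  `ion_uniform`, `ion_fixed` are VERBATIM the contracts of helper122 (structure `IonKit` of `CHXDefs.lean`).

Files of the package (item (d) of the package text, the operator `W`, is `AGWop.lean` of helper9):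
* `IONAbs`    abstract reduced resolvent of a closed form with a gap, bridge, abstract Agmon estimate, lower bound for `R²v`     (Mathlib + `MBAbs` only)
* `IONSpin`   `Fib = ℂ² ⊗ L2 2`: `fibProj`, `fibEmb`, `liftOp`, `PdK`
* `IONLoc`    `IonData`, `ionR`, IMS identity in Agmon's form, exponential localisation of `φ` and of `ionR v` from the gap only
* `IONDip`    dipole vectors, parity, the test vector `ionT·φ`, lower bound for `R² Y_zφ`, moments
* `IONFast`   `gK b e = Rr G♯`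
* `IONBridge` form-sense fibre equation `⇒` `P`- and `Q`-equation
-/

open MeasureTheory Filter
open scoped ContDiff InnerProductSpace ComplexConjugate ENNReal Topology

noncomputable section

namespace Claimed.Open.R278

open AG (Fib)

variable {b e : Space → ℝ} {εb εe : ℝ}

/-- **ION, general version**: the constant depends only on `(b, e, c, s, M₀, ℓ)`. -/
theorem ion_kit (h : TwoCentre b e εb εe) {c s M₀ ℓ : ℝ} (hc : 0 < c) (hs : 0 < s) (hsc : s ^ 2 ≤ c)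
    (hM₀ : 0 ≤ M₀) (hℓ : 0 < ℓ) :
    ∃ CI : ℝ, ∀ (t E₂ : ℝ) (φ : L2 2), IonData t c E₂ φ →
      ExpBdd s M₀ (φ : Config 2 → SpinSpace 2) → ℓ ≤ ‖mulL2 ionT φ‖ →
      Nonempty (IonKit b e εb εe c CI t E₂ φ) := by
  obtain ⟨Cm, hCm0, hmom⟩ := exists_moments hc hs hsc hM₀
  have hq : 0 < (Cm + 1) ^ 3 / ℓ ^ 8 := by positivity
  have hrep : 0 ≤ ‖ionRepG b e‖ := norm_nonneg _
  refine ⟨Cm + 1 + ‖ionRepG b e‖ + (Cm + 1) ^ 3 / ℓ ^ 8, fun t E₂ φ hd hexp hlow => ?_⟩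
  set CI := Cm + 1 + ‖ionRepG b e‖ + (Cm + 1) ^ 3 / ℓ ^ 8 with hCI
  have hCmCI : Cm ≤ CI := by rw [hCI]; linarith
  obtain ⟨hm1, hm2⟩ := hmom t E₂ φ hd hexp
  set v := mulL2 (dipC 2) φ with hv
  set R := ionR t E₂ φ with hR
  have hφ1 := hm1 φ (by simp) 1 (by simp)
  have hφ2 := hm1 φ (by simp) 2 (by simp)
  have hw1 := hm1 (R v) (by simp) 1 (by simp)
  have hw2 := hm1 (R (R v)) (by simp) 1 (by simp)
  have hRY : ionRr t E₂ φ (ionY φ 2) = fibEmb 0 (R v) := ionRr_ionY 2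
  have hRRY : ionRr t E₂ φ (ionRr t E₂ φ (ionY φ 2)) = fibEmb 0 (R (R v)) := ionRr_ionRr_ionY 2
  refine ⟨{
    CI_pos := by rw [hCI]; positivity
    Rr := ionRr t E₂ φ
    Rr_symm := ionRr_symm hd
    Rr_φ := ionRr_phi hd
    Rr_gap := ionRr_gap hd
    Rr_Pd := PdK_ionRr
    bridge := fun u g Gy hH hsol hsec hanti => ion_bridge hd hH hsol hanti hsec
    φ₁ := fibEmb 0 (mulL2 (fun y => AG.rho y ^ 1) φ)
    φ₂ := fibEmb 0 (mulL2 (fun y => AG.rho y ^ 2) φ)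
    φ₁_eq := by
      filter_upwards [coeFn_fibEmb_mulL2 hφ1.1 0] with y hy
      rw [hy, pow_one]; rfl
    φ₂_eq := by
      filter_upwards [coeFn_fibEmb_mulL2 hφ2.1 0] with y hy
      rw [hy]; rfl
    φ₁_le := by rw [norm_fibEmb]; exact hφ1.2.trans hCmCI
    φ₂_le := by rw [norm_fibEmb]; exact hφ2.2.trans hCmCI
    Y := ionY φ
    Y_eq := fun i => by
      filter_upwards [coeFn_fibEmb_mulL2 (hm2 i).1 0] with y hy
      rw [ionY, hy]; rfl
    Y_perp := by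
      show ⟪fibEmb 0 φ, fibEmb 0 (mulL2 (dipC 2) φ)⟫_ℂ = 0
      rw [inner_fibEmb_fibEmb]
      exact hd.inner_dip (hm2 2).1
    Y_upper := by rw [ionY, norm_fibEmb]; exact (hm2 2).2.trans hCmCI
    w₁ := fibEmb 0 (mulL2 (fun y => AG.rho y ^ 1) (R v))
    w₂ := fibEmb 0 (mulL2 (fun y => AG.rho y ^ 1) (R (R v)))
    w₁_eq := by
      filter_upwards [coeFn_fibEmb_mulL2 hw1.1 0] with y hy
      rw [hy, pow_one, hRY]
    w₂_eq := by
      filter_upwards [coeFn_fibEmb_mulL2 hw2.1 0] with y hy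
      rw [hy, pow_one, hRRY]
    w₁_le := by rw [norm_fibEmb]; exact hw1.2.trans hCmCI
    w₂_le := by rw [norm_fibEmb]; exact hw2.2.trans hCmCI
    v₂_lower := by
      rw [hRRY, norm_fibEmb]
      have h1 := hd.lower (hm2 2).1
      have h2 : ℓ ^ 8 ≤ ‖mulL2 ionT φ‖ ^ 8 := pow_le_pow_left₀ hℓ.le hlow 8
      have h3 : ‖v‖ ^ 3 ≤ (Cm + 1) ^ 3 := pow_le_pow_left₀ (norm_nonneg _) ((hm2 2).2.trans (by linarith)) 3
      have h4 : ℓ ^ 8 ≤ (Cm + 1) ^ 3 * ‖R (R v)‖ :=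
        (h2.trans h1).trans (mul_le_mul_of_nonneg_right h3 (norm_nonneg _))
      have h5 : ((Cm + 1) ^ 3 / ℓ ^ 8)⁻¹ ≤ ‖R (R v)‖ := by
        rw [inv_div, div_le_iff₀ (by positivity)]
        linarith
      refine le_trans ?_ h5
      exact inv_anti₀ hq (by rw [hCI]; linarith)
    Gs := ionGs b e εb εe t E₂
    G_eq := gK_eq_ionRr h hd
    Gs_close := (ionGs_close b e εb εe hd.t_nonneg E₂).trans
      (mul_le_mul_of_nonneg_right (by rw [hCI]; linarith) hd.t_nonneg) }⟩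

/-- **ION-2** = `chx_ion_fixed`. -/
theorem ion_fixed (h : TwoCentre b e εb εe) {t : ℝ} (ht : t ∈ Set.Ioc (0 : ℝ) 1) {E₂ : ℝ} {φ : L2 2}
    (hg : IsSimpleIsolatedGround (scaledPotential 2 t) Set.univ E₂ φ) (_hax : IsAxisymmetric φ)
    (hev : HasReflectionParity 1 φ) (hsi : IsSinglet φ) :
    ∃ c CI : ℝ, 0 < c ∧ Nonempty (IonKit b e εb εe c CI t E₂ φ) := by
  obtain ⟨c, hd⟩ := exists_ionData ht.1.le ht.2 hg hsi hev
  have hc := hd.c_pos
  obtain ⟨R, hR⟩ := exists_tail_le φ (ε := 1 / 8) (by norm_num)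
  have hs : 0 < √c := Real.sqrt_pos.2 hc
  have hsc : √c ^ 2 ≤ c := (Real.sq_sqrt hc.le).le
  have hφ0 : φ ≠ 0 := fun h0 => by
    have := hd.norm
    rw [h0, norm_zero] at this
    exact zero_ne_one this
  obtain ⟨CI, hCI⟩ := ion_kit h hc hs hsc (M₀ := 3 * Real.exp (√c * R)) (by positivity)
    (norm_mulL2_ionT_pos hφ0)
  exact ⟨c, CI, hc, hCI t E₂ φ hd (hd.expBdd_phi hs.le hsc hR) le_rfl⟩

/-- **ION-1** = `chx_ion_uniform`. -/
theorem ion_uniform (h : TwoCentre b e εb εe) {τ C : ℝ} {E₂ E₃ : ℝ → ℝ} {φ : ℝ → L2 2}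
    {Ψ : ℝ → L2 3} (hs : SmallCoupling b e εb εe τ C E₂ E₃ φ Ψ) :
    ∃ τ' c CI : ℝ, 0 < τ' ∧ τ' ≤ τ ∧ 0 < c ∧
      ∀ t ∈ Set.Icc 0 τ', Nonempty (IonKit b e εb εe c CI t (E₂ t) (φ t)) := by
  have hc : 0 < (εe - εb) / 2 := by have := h.data.lt; linarith
  set c := (εe - εb) / 2 with hcdef
  have hφ0 : phiZero b ≠ 0 := fun h0 => by
    have := h.norm_phiZero
    rw [h0, norm_zero] at this
    exact zero_ne_one this
  have hℓ0 := norm_mulL2_ionT_pos hφ0
  set ℓ0 := ‖mulL2 ionT (phiZero b)‖ with hℓ0def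
  obtain ⟨R, hR⟩ := exists_tail_le (phiZero b) (ε := 1 / 32) (by norm_num)
  have hsq : 0 < √c := Real.sqrt_pos.2 hc
  have hsc : √c ^ 2 ≤ c := (Real.sq_sqrt hc.le).le
  obtain ⟨CI, hCI⟩ := ion_kit h hc hsq hsc (M₀ := 3 * Real.exp (√c * R)) (by positivity)
    (half_pos hℓ0)
  -- the smallness of `τ'`
  have hC1 : 0 < C + 1 := by have := hs.C_nonneg; linarith
  set δ := min (1 / 8) (ℓ0 / 2) with hδ
  have hδ0 : 0 < δ := lt_min (by norm_num) (half_pos hℓ0)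
  refine ⟨min (min τ 1) (δ / (C + 1)), c, CI, lt_min (lt_min hs.τ_pos one_pos) (by positivity),
    (min_le_left _ _).trans (min_le_left _ _), hc, fun t ht => ?_⟩
  have ht0 : 0 ≤ t := ht.1
  have htτ : t ≤ τ := ht.2.trans ((min_le_left _ _).trans (min_le_left _ _))
  have ht1 : t ≤ 1 := ht.2.trans ((min_le_left _ _).trans (min_le_right _ _))
  have htδ : C * t ≤ δ := by
    have h1 : t ≤ δ / (C + 1) := ht.2.trans (min_le_right _ _)
    have h2 : t * (C + 1) ≤ δ := (le_div_iff₀ hC1).1 h1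
    nlinarith
  have hmem : t ∈ Set.Icc 0 τ := ⟨ht0, htτ⟩
  have hCt0 : 0 ≤ C * t := mul_nonneg hs.C_nonneg ht0
  have hclose : ‖φ t - phiZero b‖ ≤ C * t := by
    have h1 := hs.φ_close t hmem
    have h2 : ‖φ t - phiZero b‖ ^ 2 ≤ (C * t) ^ 2 := by
      have h3 := kin_nonneg (φ t - phiZero b)
      unfold h1sq at h1
      linarith
    exact (abs_le_of_sq_le_sq' h2 hCt0).2
  obtain ⟨hn, -, heig, -⟩ := hs.ion_ground t hmem
  have hd : IonData t c (E₂ t) (φ t) :=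
    { t_nonneg := ht0
      t_le := ht1
      c_pos := hc
      norm := hn
      eig := heig
      gap := fun Ξ hΞ ho => by
        have h1 := hs.ion_gap t hmem Ξ hΞ ho
        have h2 := hs.E₂_half t hmem
        have h3 : (E₂ t + c) * ‖Ξ‖ ^ 2 ≤ (2 * εb + (εe - εb)) * ‖Ξ‖ ^ 2 :=
          mul_le_mul_of_nonneg_right (by rw [hcdef]; linarith) (sq_nonneg _)
        exact h3.trans h1
      singlet := hs.ion_singlet t hmem
      even := hs.ion_even t hmem }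
  have htail : ∫ y in {y : Config 2 | R < AG.rho y}, ‖φ t y‖ ^ 2 ≤ 1 / 8 := by
    have h1 := tail_le_of_close (φ t) (phiZero b) {y : Config 2 | R < AG.rho y}
    have h2 : ‖φ t - phiZero b‖ ^ 2 ≤ (1 / 8) ^ 2 :=
      pow_le_pow_left₀ (norm_nonneg _) (hclose.trans (htδ.trans (min_le_left _ _))) 2
    linarith
  have hlow : ℓ0 / 2 ≤ ‖mulL2 ionT (φ t)‖ := by
    have h1 := norm_mulL2_ionT_sub_le (φ t) (phiZero b)
    have h2 : ‖φ t - phiZero b‖ ≤ ℓ0 / 2 := hclose.trans (htδ.trans (min_le_right _ _))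
    linarith
  exact hCI t (E₂ t) (φ t) hd (hd.expBdd_phi hsq.le hsc htail) hlow

end Claimed.Open.R278
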