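import Claimed.Open.R278.CHXDefs

/-!
# Result 278, package BP-ION (ionic toolkit), file 2: the fibre space as two copies of `L2 2`

Architect and prover: helper24.  SORRY-FREE.  No paper needed.  Helper lemmas: prefix `ions_`.

`AG.Fib = L²(Config 2; SpinSpace 3)` is the fibre space `𝒦` of the channel layer (no symmetry restriction).  The distinguished electron is electron `0` of
`Config 3`, its spin is the entry `0` of a `SpinConfig 3`: `s = Fin.cons σ s'`.  `spinEmb σ`, `spinProj σ`, `tensK σ φ`, `PdK` are defined in `CHXDefs.lean` (helper122).  Here: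
* `spinCmp σ : SpinSpace 3 →L[ℂ] SpinSpace 2`, `(spinCmp σ v) s' = v (Fin.cons σ s')`: the adjoint of `spinEmb σ`;
* `fibProj σ : Fib →L[ℂ] L2 2`, `fibEmb σ : L2 2 →L[ℂ] Fib` (`ContinuousLinearMap.compLpL`); `fibEmb σ u = tensK σ u` by `rfl`;
* `liftOp T = ∑_σ fibEmb σ ∘ T ∘ fibProj σ = 1_{ℂ²} ⊗ T`;  `PdK = fibEmb 1 ∘ fibProj 1`.
-/

open MeasureTheory Filter
open scoped ContDiff InnerProductSpace ComplexConjugate ENNReal Topology

noncomputable section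

namespace Claimed.Open.R278

open AG (Fib)

/-! ## Definitions -/

/-- the component with distinguished spin `σ`. -/
def spinCmp (σ : Fin 2) : SpinSpace 3 →L[ℂ] SpinSpace 2 :=
  LinearMap.toContinuousLinearMap
    { toFun := fun v => WithLp.toLp 2 fun s : SpinConfig 2 => v (Fin.cons σ s : SpinConfig 3)
      map_add' := fun _ _ => rfl
      map_smul' := fun _ _ => rfl }

/-- the component with distinguished spin `σ` of a fibre vector. -/
def fibProj (σ : Fin 2) : Fib →L[ℂ] L2 2 := (spinCmp σ).compLpL 2 volume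

/-- `σ ⊗ u`, as a continuous linear map. -/
def fibEmb (σ : Fin 2) : L2 2 →L[ℂ] Fib := (spinEmb σ).compLpL 2 volume

/-- `1_{ℂ²} ⊗ T`. -/
def liftOp (T : L2 2 →L[ℂ] L2 2) : Fib →L[ℂ] Fib := ∑ σ : Fin 2, fibEmb σ ∘L T ∘L fibProj σ

theorem fibEmb_eq_tensK (σ : Fin 2) (u : L2 2) : fibEmb σ u = tensK σ u := rfl

/-! ## LEAF ION-S1: the pointwise maps -/

section S1

@[simp] theorem spinCmp_apply (σ : Fin 2) (v : SpinSpace 3) (s : SpinConfig 2) :
    spinCmp σ v s = v (Fin.cons σ s : SpinConfig 3) := rfl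

theorem spinCmp_spinEmb (σ : Fin 2) (u : SpinSpace 2) : spinCmp σ (spinEmb σ u) = u := by
  ext s
  rw [spinCmp_apply, spinEmb_apply, Fin.cons_zero, if_pos rfl, Fin.tail_cons]

theorem spinCmp_spinEmb_of_ne {σ σ' : Fin 2} (h : σ ≠ σ') (u : SpinSpace 2) : spinCmp σ (spinEmb σ' u) = 0 := by
  ext s
  rw [spinCmp_apply, spinEmb_apply, Fin.cons_zero, if_neg h]
  rfl

theorem spinEmb_spinCmp (σ : Fin 2) (v : SpinSpace 3) : spinEmb σ (spinCmp σ v) = spinProj σ v := by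
  ext s
  rw [spinEmb_apply, spinProj_apply, spinCmp_apply]
  split_ifs with h
  · rw [← h, Fin.cons_self_tail]
  · rfl

theorem sum_spinEmb_spinCmp (v : SpinSpace 3) : ∑ σ : Fin 2, spinEmb σ (spinCmp σ v) = v := by
  ext s
  simp only [spinEmb_spinCmp, Fin.sum_univ_two, PiLp.add_apply, spinProj_apply]
  rcases Fin.exists_fin_two.mp ⟨s 0, rfl⟩ with h | h <;> simp [h]

/-- a sum over `SpinConfig 3` splits off the distinguished spin. -/
theorem ions_sum_cons {A : Type*} [AddCommMonoid A] (F : SpinConfig 3 → A) :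
    ∑ s, F s = ∑ σ : Fin 2, ∑ s' : SpinConfig 2, F (Fin.cons σ s' : SpinConfig 3) := by
  rw [← Fintype.sum_prod_type']
  exact ((Fin.consEquiv fun _ : Fin 3 => Fin 2).sum_comp F).symm

/-- adjointness. -/
theorem inner_spinEmb (σ : Fin 2) (u : SpinSpace 2) (v : SpinSpace 3) :
    ⟪spinEmb σ u, v⟫_ℂ = ⟪u, spinCmp σ v⟫_ℂ := by
  rw [PiLp.inner_apply, PiLp.inner_apply, ions_sum_cons, Finset.sum_eq_single σ]
  · refine Finset.sum_congr rfl fun s _ => ?_
    rw [spinEmb_apply, Fin.cons_zero, if_pos rfl, Fin.tail_cons, spinCmp_apply]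
  · intro σ' _ h
    refine Finset.sum_eq_zero fun s _ => ?_
    rw [spinEmb_apply, Fin.cons_zero, if_neg h, inner_zero_left]
  · intro h
    exact absurd (Finset.mem_univ σ) h

theorem norm_spinEmb (σ : Fin 2) (u : SpinSpace 2) : ‖spinEmb σ u‖ = ‖u‖ := by
  have h : ‖spinEmb σ u‖ ^ 2 = ‖u‖ ^ 2 := by
    rw [← @inner_self_eq_norm_sq ℂ, ← @inner_self_eq_norm_sq ℂ, inner_spinEmb, spinCmp_spinEmb]
  exact (sq_eq_sq₀ (norm_nonneg _) (norm_nonneg _)).mp h

theorem norm_sq_eq_sum_spinCmp (v : SpinSpace 3) : ‖v‖ ^ 2 = ∑ σ : Fin 2, ‖spinCmp σ v‖ ^ 2 := by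
  rw [EuclideanSpace.norm_sq_eq, ions_sum_cons]
  refine Finset.sum_congr rfl fun σ _ => ?_
  rw [EuclideanSpace.norm_sq_eq]
  rfl

end S1

/-! ## LEAF ION-S2: the maps on `Lp` -/

section S2

theorem coeFn_fibProj (σ : Fin 2) (f : Fib) :
    (fibProj σ f : Config 2 → SpinSpace 2) =ᵐ[volume] fun y => spinCmp σ (f y) :=
  ContinuousLinearMap.coeFn_compLpL _ _

theorem coeFn_fibEmb (σ : Fin 2) (u : L2 2) :
    (fibEmb σ u : Config 2 → SpinSpace 3) =ᵐ[volume] fun y => spinEmb σ (u y) :=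
  ContinuousLinearMap.coeFn_compLpL _ _

theorem fibProj_fibEmb (σ : Fin 2) (u : L2 2) : fibProj σ (fibEmb σ u) = u := by
  refine Lp.ext ?_
  filter_upwards [coeFn_fibProj σ (fibEmb σ u), coeFn_fibEmb σ u] with y h1 h2
  rw [h1, h2, spinCmp_spinEmb]

theorem fibProj_fibEmb_of_ne {σ σ' : Fin 2} (h : σ ≠ σ') (u : L2 2) : fibProj σ (fibEmb σ' u) = 0 := by
  refine Lp.ext ?_
  filter_upwards [coeFn_fibProj σ (fibEmb σ' u), coeFn_fibEmb σ' u,
    Lp.coeFn_zero (SpinSpace 2) 2 (volume : Measure (Config 2))] with y h1 h2 h3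
  rw [h1, h2, spinCmp_spinEmb_of_ne h, h3]
  rfl

theorem sum_fibEmb_fibProj (f : Fib) : ∑ σ : Fin 2, fibEmb σ (fibProj σ f) = f := by
  refine Lp.ext ?_
  rw [Fin.sum_univ_two]
  filter_upwards [Lp.coeFn_add (fibEmb 0 (fibProj 0 f)) (fibEmb 1 (fibProj 1 f)), coeFn_fibEmb 0 (fibProj 0 f),
    coeFn_fibEmb 1 (fibProj 1 f), coeFn_fibProj 0 f, coeFn_fibProj 1 f] with y h0 h1 h2 h3 h4
  rw [h0, Pi.add_apply, h1, h2, h3, h4]
  have := sum_spinEmb_spinCmp (f y)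
  rwa [Fin.sum_univ_two] at this

theorem inner_fibEmb (σ : Fin 2) (u : L2 2) (f : Fib) : ⟪fibEmb σ u, f⟫_ℂ = ⟪u, fibProj σ f⟫_ℂ := by
  rw [MeasureTheory.L2.inner_def, MeasureTheory.L2.inner_def]
  refine integral_congr_ae ?_
  filter_upwards [coeFn_fibEmb σ u, coeFn_fibProj σ f] with y h1 h2
  rw [h1, h2, inner_spinEmb]

theorem inner_fibEmb_fibEmb (σ : Fin 2) (u v : L2 2) : ⟪fibEmb σ u, fibEmb σ v⟫_ℂ = ⟪u, v⟫_ℂ := by
  rw [inner_fibEmb, fibProj_fibEmb]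

theorem inner_fibEmb_fibEmb_of_ne {σ σ' : Fin 2} (h : σ ≠ σ') (u v : L2 2) :
    ⟪fibEmb σ u, fibEmb σ' v⟫_ℂ = 0 := by
  rw [inner_fibEmb, fibProj_fibEmb_of_ne h, inner_zero_right]

theorem norm_fibEmb (σ : Fin 2) (u : L2 2) : ‖fibEmb σ u‖ = ‖u‖ := by
  have h : ‖fibEmb σ u‖ ^ 2 = ‖u‖ ^ 2 := by
    rw [← @inner_self_eq_norm_sq ℂ, ← @inner_self_eq_norm_sq ℂ, inner_fibEmb_fibEmb]
  exact (sq_eq_sq₀ (norm_nonneg _) (norm_nonneg _)).mp h

theorem inner_eq_sum_fibProj (f g : Fib) : ⟪f, g⟫_ℂ = ∑ σ : Fin 2, ⟪fibProj σ f, fibProj σ g⟫_ℂ := by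
  conv_lhs => rw [← sum_fibEmb_fibProj f]
  rw [sum_inner]
  exact Finset.sum_congr rfl fun σ _ => inner_fibEmb σ _ g

theorem norm_sq_eq_sum_fibProj (f : Fib) : ‖f‖ ^ 2 = ∑ σ : Fin 2, ‖fibProj σ f‖ ^ 2 := by
  rw [← @inner_self_eq_norm_sq ℂ, inner_eq_sum_fibProj, map_sum]
  exact Finset.sum_congr rfl fun σ _ => inner_self_eq_norm_sq _

/-- two fibre vectors with the same components are equal. -/
theorem fib_ext {f g : Fib} (h : ∀ σ, fibProj σ f = fibProj σ g) : f = g := by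
  rw [← sum_fibEmb_fibProj f, ← sum_fibEmb_fibProj g]
  simp only [h]

theorem PdK_eq (f : Fib) : PdK f = fibEmb 1 (fibProj 1 f) := by
  refine Lp.ext ?_
  filter_upwards [ContinuousLinearMap.coeFn_compLpL (μ := (volume : Measure (Config 2))) (p := 2) (spinProj 1) f,
    coeFn_fibEmb 1 (fibProj 1 f), coeFn_fibProj 1 f] with y h1 h2 h3
  rw [h2, h3, spinEmb_spinCmp]
  exact h1

/-- multiplication by a real function commutes with `σ ⊗ ·` (`mulL2` of `FSBridge.lean`, unbounded factor allowed). -/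
theorem coeFn_fibEmb_mulL2 {χ : Config 2 → ℝ} {u : L2 2}
    (h : MemLp (fun y => χ y • (u y : SpinSpace 2)) 2 volume) (σ : Fin 2) :
    ∀ᵐ y : Config 2, (fibEmb σ (mulL2 χ u) y : SpinSpace 3) = χ y • (fibEmb σ u y : SpinSpace 3) := by
  have h0 : (mulL2 χ u : Config 2 → SpinSpace 2) =ᵐ[volume] fun y => χ y • (u y : SpinSpace 2) := by
    unfold mulL2
    rw [dif_pos h]
    exact MemLp.coeFn_toLp _
  filter_upwards [coeFn_fibEmb σ (mulL2 χ u), coeFn_fibEmb σ u, h0] with y h1 h2 h3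
  rw [h1, h2, h3]
  exact (spinEmb σ).map_smul_of_tower (χ y) (u y)

end S2

/-! ## LEAF ION-S3: lifted operators and the spin projection -/

section S3

variable (T : L2 2 →L[ℂ] L2 2)

theorem liftOp_apply (f : Fib) : liftOp T f = ∑ σ : Fin 2, fibEmb σ (T (fibProj σ f)) := by
  simp [liftOp]

theorem fibProj_liftOp (σ : Fin 2) (f : Fib) : fibProj σ (liftOp T f) = T (fibProj σ f) := by
  rw [liftOp_apply, map_sum, Finset.sum_eq_single σ]
  · exact fibProj_fibEmb σ _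
  · intro σ' _ h
    exact fibProj_fibEmb_of_ne (Ne.symm h) _
  · intro h
    exact absurd (Finset.mem_univ σ) h

theorem liftOp_fibEmb (σ : Fin 2) (u : L2 2) : liftOp T (fibEmb σ u) = fibEmb σ (T u) := by
  rw [liftOp_apply, Finset.sum_eq_single σ]
  · rw [fibProj_fibEmb]
  · intro σ' _ h
    rw [fibProj_fibEmb_of_ne h, map_zero, map_zero]
  · intro h
    exact absurd (Finset.mem_univ σ) h

theorem liftOp_symm (h : ∀ u v, ⟪T u, v⟫_ℂ = ⟪u, T v⟫_ℂ) (f g : Fib) :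
    ⟪liftOp T f, g⟫_ℂ = ⟪f, liftOp T g⟫_ℂ := by
  rw [inner_eq_sum_fibProj, inner_eq_sum_fibProj]
  refine Finset.sum_congr rfl fun σ _ => ?_
  rw [fibProj_liftOp, fibProj_liftOp, h]

theorem liftOp_gap {c : ℝ} (h : ∀ u, c * ‖T u‖ ^ 2 ≤ (⟪T u, u⟫_ℂ).re) (f : Fib) :
    c * ‖liftOp T f‖ ^ 2 ≤ (⟪liftOp T f, f⟫_ℂ).re := by
  rw [inner_eq_sum_fibProj, norm_sq_eq_sum_fibProj, Finset.mul_sum, Complex.re_sum]
  refine Finset.sum_le_sum fun σ _ => ?_
  rw [fibProj_liftOp]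
  exact h _

theorem PdK_liftOp (f : Fib) : PdK (liftOp T f) = liftOp T (PdK f) := by
  rw [PdK_eq, PdK_eq, fibProj_liftOp, liftOp_fibEmb]

end S3

end Claimed.Open.R278
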