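import Claimed.Open.R278.CHXDefs
import Claimed.Open.R278.IONSpin

/-!
# Result 278, package CHX: spin algebra on the fibre space, symmetries, the Slater expansion (3.6)

Architect: helper122.  Paper-free (only (3.6), which is explained below).  `Fib = Lp (SpinSpace 3) 2 (volume : Measure (Config 2))`.

## LEAF CHX-SPIN (section SPIN): DONE (citations of helper24's sorry-free `IONSpin.lean`; the pointwise `inner_spinEmb`, `norm_spinEmb` are HIS now)
`tensK σ φ = (spinEmb σ).compLp φ`, `PdK = (spinProj 1).compLpL 2 volume`: `ContinuousLinearMap.coeFn_compLp`, `ContinuousLinearMap.coeFn_compLpL`, `Lp.ext`,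
`L2.inner_def`, `Lp.norm_def`/`L2.norm_sq_eq` (`DensityLemmas.lean`, `ChargeLemmas.lean`).  Pointwise facts on `SpinSpace 3 = EuclideanSpace ℂ (Fin 3 → Fin 2)`: `spinEmb_apply`, `spinProj_apply`,
`EuclideanSpace.norm_eq`, `PiLp.inner_apply`; sums over `SpinConfig 3` are reindexed by `Fin.consEquiv`/`Fin.cons` (`s = Fin.cons (s 0) (Fin.tail s)`).
The three facts on `gK`: `norm_sdet`, `inner_sdet`, `inner_tens`, `IsOrbital.norm_toOrb`, `TwoCentre.inner_eq_zero` (`MBSlater.lean`, `MBBasis.lean`).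

## LEAF CHX-SYM (section SYM): DONE
`⟪u, v⟫ = ∫ ⟪u y, v y⟫ dy` (`L2.inner_def`), change of variables with `measurePreserving_config_reflZ`, `measurePreserving_config_rotZ` (`ChargeLemmas.lean`).

## LEAF CHX-SLATER (section SLATER)
`Ψ₀(X)(s) = 6^{-1/2} det M`, `M j i = u_j(X i, s i)`, `u = (b↑, b↓, e↑)`: indeed `tensFun (f ∘ π) (σ ∘ π) X s = ∏ i, f (π i) (X i) [s i = σ (π i)]` and `Matrix.det_apply`.
Laplace expansion along the column of electron `0` (`Matrix.det_succ_column_zero`, `Fin.sum_univ_three`):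
`√3 Ψ₀(x,y) = b(x) [↑ ⊗ Φ_{b↓,e↑}(y) - ↓ ⊗ Φ_{b↑,e↑}(y)] + e(x) ↑ ⊗ Φ_{b↑,b↓}(y)`, `Φ_{v,w} = 2^{-1/2} det = sdet`.
A.e. bookkeeping: `coeFn_tens_toOrb`, `Lp.coeFn_smul`, `Lp.coeFn_sum`… on `Config 3` and on `Config 2`; `AG.ae_ae_cons3`; a null set of `y` is null in `(x,y)`.
Then the right side `F1 x` is continuous in `x` (`b`, `e` continuous: `IsOrbital`), it is a version of the slice map, and `AG.IsVersion.unique` (with `AG.isOpen_extΩ`) identifies it with `F0`.
-/

open MeasureTheory Filter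
open scoped ContDiff InnerProductSpace ComplexConjugate ENNReal Topology Laplacian

noncomputable section

namespace Claimed.Open.R278

open AG (Fib)

variable {b e : Space → ℝ} {εb εe : ℝ}

/-! ## LEAF CHX-SPIN -/

section SPIN

theorem tensK_coeFn (σ : Fin 2) (φ : L2 2) :
    (tensK σ φ : Config 2 → SpinSpace 3) =ᵐ[volume] fun y => spinEmb σ (φ y) :=
  coeFn_fibEmb σ φ

theorem PdK_coeFn (v : Fib) : (PdK v : Config 2 → SpinSpace 3) =ᵐ[volume] fun y => spinProj 1 (v y) :=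
  ContinuousLinearMap.coeFn_compLpL _ _

theorem inner_tensK (σ σ' : Fin 2) (φ φ' : L2 2) :
    ⟪tensK σ φ, tensK σ' φ'⟫_ℂ = if σ = σ' then ⟪φ, φ'⟫_ℂ else 0 := by
  split_ifs with h
  · subst h
    exact inner_fibEmb_fibEmb σ φ φ'
  · exact inner_fibEmb_fibEmb_of_ne h φ φ'

theorem norm_tensK (σ : Fin 2) (φ : L2 2) : ‖tensK σ φ‖ = ‖φ‖ := norm_fibEmb σ φ

theorem tensK_sub (σ : Fin 2) (φ φ' : L2 2) : tensK σ (φ - φ') = tensK σ φ - tensK σ φ' :=
  map_sub (fibEmb σ) φ φ'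

theorem PdK_PdK (v : Fib) : PdK (PdK v) = PdK v := by
  rw [PdK_eq (PdK v), PdK_eq v, fibProj_fibEmb]

theorem PdK_symm (v w : Fib) : ⟪PdK v, w⟫_ℂ = ⟪v, PdK w⟫_ℂ := by
  rw [PdK_eq, PdK_eq, inner_fibEmb, ← inner_conj_symm v, inner_fibEmb, inner_conj_symm]

theorem PdK_tensK_zero (φ : L2 2) : PdK (tensK 0 φ) = 0 := by
  rw [PdK_eq, ← fibEmb_eq_tensK, fibProj_fibEmb_of_ne (by decide), map_zero]

theorem PdK_tensK_one (φ : L2 2) : PdK (tensK 1 φ) = tensK 1 φ := by
  rw [PdK_eq, ← fibEmb_eq_tensK, fibProj_fibEmb]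

/-- multiples of `↑ ⊗ φ` by a function of `y` have no distinguished-spin-down component. -/
theorem PdK_eq_zero_of_ae {φ : L2 2} {Y : Fib} {a : Config 2 → ℝ} (h : ∀ᵐ y, Y y = a y • tensK 0 φ y) :
    PdK Y = 0 := by
  refine Lp.ext ?_
  filter_upwards [PdK_coeFn Y, h, tensK_coeFn 0 φ,
    Lp.coeFn_zero (SpinSpace 3) 2 (volume : Measure (Config 2))] with y h1 h2 h3 h4
  rw [h1, h2, h3, h4]
  ext s
  rw [spinProj_apply]
  split_ifs with hs
  · show a y • (spinEmb 0 (φ y)) s = 0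
    rw [spinEmb_apply, if_neg (by rw [hs]; decide), smul_zero]
  · rfl

theorem chx_norm_sdet_be (h : TwoCentre b e εb εe) (σ : SpinConfig 2) :
    ‖sdet ![toOrb b, toOrb e] σ‖ = 1 := by
  refine norm_sdet ?_ ?_
  · intro i
    fin_cases i
    · exact h.data.orbital_b.norm_toOrb
    · exact h.data.orbital_e.norm_toOrb
  · intro i j hij _
    fin_cases i <;> fin_cases j
    · exact absurd rfl hij
    · exact h.inner_eq_zero
    · show ⟪toOrb e, toOrb b⟫_ℝ = 0
      rw [real_inner_comm]; exact h.inner_eq_zero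
    · exact absurd rfl hij

theorem TwoCentre.norm_gK_sq (h : TwoCentre b e εb εe) : ‖gK b e‖ ^ 2 = 2 := by
  unfold gK
  rw [@norm_sub_sq ℂ, inner_tensK, if_neg (by decide), norm_tensK, norm_tensK, chx_norm_sdet_be h,
    chx_norm_sdet_be h]
  simp
  norm_num

theorem TwoCentre.norm_PdK_gK (h : TwoCentre b e εb εe) : ‖PdK (gK b e)‖ = 1 := by
  unfold gK
  rw [map_sub, PdK_tensK_zero, PdK_tensK_one, zero_sub, norm_neg, norm_tensK, chx_norm_sdet_be h]

theorem TwoCentre.inner_phiZero_gK (h : TwoCentre b e εb εe) : ⟪tensK 0 (phiZero b), gK b e⟫_ℂ = 0 := by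
  unfold gK
  rw [inner_sub_right, inner_tensK, inner_tensK, if_pos rfl, if_neg (by decide), sub_zero]
  unfold phiZero
  rw [inner_sdet (isAntisymmetric_sdet _ _)]
  unfold sdet
  rw [inner_smul_right, inner_sum, Finset.sum_eq_zero, mul_zero, mul_zero]
  intro π _
  rw [inner_smul_right, inner_tens]
  split_ifs with hs
  · rw [Finset.prod_eq_zero (Finset.mem_univ (π.symm 1))]
    · simp
    · simp only [Function.comp, Equiv.apply_symm_apply]
      have : (![toOrb b, toOrb b] : Fin 2 → Orb) (π.symm 1) = toOrb b := by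
        rcases Fin.exists_fin_two.mp ⟨π.symm 1, rfl⟩ with h' | h' <;> rw [h'] <;> rfl
      rw [this]
      exact h.inner_eq_zero
  · rw [mul_zero]

end SPIN

/-! ## LEAF CHX-SYM -/

section SYM

theorem chx_inner_comp {T : Config 2 → Config 2} (hT : MeasurePreserving T volume volume) (u v : Fib) :
    ⟪u, v⟫_ℂ = ∫ y, ⟪u (T y), v (T y)⟫_ℂ := by
  rw [L2.inner_def]
  have hm : AEStronglyMeasurable (fun y => ⟪u y, v y⟫_ℂ) (Measure.map T (volume : Measure (Config 2))) := by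
    rw [hT.map_eq]
    exact (Lp.aestronglyMeasurable u).inner (Lp.aestronglyMeasurable v)
  rw [← integral_map hT.measurable.aemeasurable hm, hT.map_eq]

theorem chx_inner_tensK_reflZ {φ : L2 2} (hφ : HasReflectionParity 1 φ) {v v' : Fib} {ε : ℂ}
    (hv : ∀ᵐ y : Config 2, v' (fun i => reflZ (y i)) = ε • v y) :
    ⟪tensK 0 φ, v'⟫_ℂ = ε * ⟪tensK 0 φ, v⟫_ℂ := by
  rw [chx_inner_comp measurePreserving_config_reflZ, L2.inner_def, ← integral_const_mul]
  refine integral_congr_ae ?_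
  filter_upwards [hv, hφ, tensK_coeFn 0 φ,
    (measurePreserving_config_reflZ (m := 2)).quasiMeasurePreserving.ae (tensK_coeFn 0 φ)] with y h1 h2 h3 h4
  rw [h1, h4, h2, h3, one_smul, inner_smul_right]

theorem chx_inner_tensK_rotZ {φ : L2 2} (hφ : IsAxisymmetric φ) (a : ℝ) {v v' : Fib}
    (hv : ∀ᵐ y : Config 2, v' (fun i => rotZ a (y i)) = v y) :
    ⟪tensK 0 φ, v'⟫_ℂ = ⟪tensK 0 φ, v⟫_ℂ := by
  rw [chx_inner_comp (measurePreserving_config_rotZ a), L2.inner_def]
  refine integral_congr_ae ?_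
  filter_upwards [hv, hφ a, tensK_coeFn 0 φ,
    (measurePreserving_config_rotZ (m := 2) a).quasiMeasurePreserving.ae (tensK_coeFn 0 φ)] with y h1 h2 h3 h4
  rw [h1, h4, h2, h3]

end SYM

/-! ## LEAF CHX-SLATER -/

section SLATER

open AG

theorem chx_ae_tail3 {p : Config 2 → Prop} (h : ∀ᵐ y, p y) : ∀ᵐ X : Config 3, p (tail3 X) := by
  have q : Measure.QuasiMeasurePreserving (fun X : Config 3 => (consEquiv.symm X).2) volume volume :=
    Measure.quasiMeasurePreserving_snd.comp (measurePreserving_consEquiv.symm consEquiv).quasiMeasurePreserving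
  have e : ∀ X : Config 3, (consEquiv.symm X).2 = tail3 X := by
    intro X
    have : consEquiv.symm X = (X 0, tail3 X) := by
      rw [MeasurableEquiv.symm_apply_eq, consEquiv_apply]
      funext i
      refine Fin.cases rfl (fun j => rfl) i
    rw [this]
  have := q.ae h
  simpa only [e] using this

/-- the matrix of a Slater determinant. -/
def chxM {m : ℕ} (g : Fin m → Space → ℝ) (σ : SpinConfig m) (x : Config m) (s : SpinConfig m) :
    Matrix (Fin m) (Fin m) ℂ := Matrix.of fun j i => if s i = σ j then ((g j (x i) : ℝ) : ℂ) else 0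

theorem chx_sum_tensFun {m : ℕ} (g : Fin m → Space → ℝ) (σ : SpinConfig m) (x : Config m) (s : SpinConfig m) :
    (∑ π : Equiv.Perm (Fin m), ((Equiv.Perm.sign π : ℤ) : ℂ) • tensFun (fun i => g (π i)) (σ ∘ π) x) s
      = (chxM g σ x s).det := by
  rw [Matrix.det_apply]
  simp only [WithLp.ofLp_sum, WithLp.ofLp_smul, Finset.sum_apply, Pi.smul_apply, mbb_tensFun_apply]
  refine Finset.sum_congr rfl fun π _ => ?_
  have e : (∏ i, chxM g σ x s (π i) i) = if s = σ ∘ π then ((∏ i, g (π i) (x i) : ℝ) : ℂ) else 0 := by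
    simp only [chxM, Matrix.of_apply]
    rw [Finset.prod_ite_zero]
    have : (∀ i ∈ Finset.univ, s i = σ (π i)) ↔ s = σ ∘ π := by
      simp [funext_iff]
    simp only [this]
    push_cast
    rfl
  rw [e]
  simp [Units.smul_def]

theorem chx_coeFn_sdet {m : ℕ} (f : Fin m → Orb) (σ : SpinConfig m) :
    ∀ᵐ x : Config m, ∀ s, sdet f σ x s = (((√(m.factorial : ℝ))⁻¹ : ℝ) : ℂ) *
      (chxM (fun i => (f i : Space → ℝ)) σ x s).det := by
  filter_upwards [mbs_coeFn_sdet f σ] with x hx s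
  rw [hx, ← chx_sum_tensFun]
  rfl


theorem chxM_congr {m : ℕ} {g g' : Fin m → Space → ℝ} (σ : SpinConfig m) {x : Config m} (s : SpinConfig m)
    (h : ∀ j i, g j (x i) = g' j (x i)) : chxM g σ x s = chxM g' σ x s := by
  ext j i
  simp only [chxM, Matrix.of_apply, h j i]

theorem chx_det_expand (b e : Space → ℝ) (X : Config 3) (s : SpinConfig 3) :
    (chxM ![b, b, e] ![0, 1, 0] X s).det
      = (e (X 0) : ℂ) * (if s 0 = 0 then (chxM ![b, b] ![0, 1] (tail3 X) (Fin.tail s)).det else 0)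
        + (b (X 0) : ℂ) * ((if s 0 = 0 then (chxM ![b, e] ![1, 0] (tail3 X) (Fin.tail s)).det else 0)
          - (if s 0 = 1 then (chxM ![b, e] ![0, 0] (tail3 X) (Fin.tail s)).det else 0)) := by
  rw [Matrix.det_fin_three, Matrix.det_fin_two, Matrix.det_fin_two, Matrix.det_fin_two]
  simp only [chxM, Matrix.of_apply, tail3, Fin.tail]
  have e1 : (Fin.succ (0 : Fin 2)) = (1 : Fin 3) := rfl
  have e2 : (Fin.succ (1 : Fin 2)) = (2 : Fin 3) := rfl
  simp only [e1, e2, Matrix.cons_val_zero, Matrix.cons_val_one, Matrix.cons_val]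
  generalize s 0 = τ0
  generalize s 1 = τ1
  generalize s 2 = τ2
  fin_cases τ0 <;> fin_cases τ1 <;> fin_cases τ2 <;> simp <;> ring


theorem chx_sqrt_fact : (√3 : ℝ) * (√((3 : ℕ).factorial : ℝ))⁻¹ = (√((2 : ℕ).factorial : ℝ))⁻¹ := by
  have h6 : (((3 : ℕ).factorial : ℕ) : ℝ) = 3 * 2 := by norm_num [Nat.factorial]
  have h2 : (((2 : ℕ).factorial : ℕ) : ℝ) = 2 := by norm_num [Nat.factorial]
  rw [h6, h2, Real.sqrt_mul (by norm_num)]
  have : √3 ≠ 0 := by positivity
  field_simp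

/-- the pointwise Laplace expansion, a.e. on `Config 3`. -/
theorem TwoCentre.chx_psiZero_expand (h : TwoCentre b e εb εe) :
    ∀ᵐ X : Config 3, (√3 : ℝ) • (psiZero b e : Config 3 → SpinSpace 3) X
      = (e (X 0) : ℂ) • (tensK 0 (phiZero b) : Config 2 → SpinSpace 3) (AG.tail3 X)
        + (b (X 0) : ℂ) • (gK b e : Config 2 → SpinSpace 3) (AG.tail3 X) := by
  have hb := coeFn_toOrb h.data.orbital_b.memLp
  have he := coeFn_toOrb h.data.orbital_e.memLp
  have hb3 : ∀ᵐ X : Config 3, ∀ i, (toOrb b : Space → ℝ) (X i) = b (X i) := ae_all_iff.2 fun i => mbb_ae_eval i hb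
  have he3 : ∀ᵐ X : Config 3, ∀ i, (toOrb e : Space → ℝ) (X i) = e (X i) := ae_all_iff.2 fun i => mbb_ae_eval i he
  have d3 := chx_coeFn_sdet (m := 3) ![toOrb b, toOrb b, toOrb e] ![0, 1, 0]
  have d2a := chx_ae_tail3 (chx_coeFn_sdet (m := 2) ![toOrb b, toOrb b] ![0, 1])
  have d2b := chx_ae_tail3 (chx_coeFn_sdet (m := 2) ![toOrb b, toOrb e] ![1, 0])
  have d2c := chx_ae_tail3 (chx_coeFn_sdet (m := 2) ![toOrb b, toOrb e] ![0, 0])
  have t1 := chx_ae_tail3 (tensK_coeFn 0 (phiZero b))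
  have t2 := chx_ae_tail3 (tensK_coeFn 0 (sdet ![toOrb b, toOrb e] ![1, 0]))
  have t3 := chx_ae_tail3 (tensK_coeFn 1 (sdet ![toOrb b, toOrb e] ![0, 0]))
  have g1 := chx_ae_tail3 (Lp.coeFn_sub (tensK 0 (sdet ![toOrb b, toOrb e] ![1, 0]))
    (tensK 1 (sdet ![toOrb b, toOrb e] ![0, 0])))
  filter_upwards [hb3, he3, d3, d2a, d2b, d2c, t1, t2, t3, g1] with X hb3 he3 d3 d2a d2b d2c t1 t2 t3 g1
  have m3 : ∀ s : SpinConfig 3, chxM (m := 3) (fun i => ((![toOrb b, toOrb b, toOrb e] : Fin 3 → Orb) i : Space → ℝ)) ![0, 1, 0] X s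
      = chxM ![b, b, e] ![0, 1, 0] X s := by
    intro s
    refine chxM_congr _ _ fun j i => ?_
    fin_cases j <;> simp [hb3, he3]
  have hbt : ∀ i, (toOrb b : Space → ℝ) (tail3 X i) = b (tail3 X i) := fun i => hb3 i.succ
  have het : ∀ i, (toOrb e : Space → ℝ) (tail3 X i) = e (tail3 X i) := fun i => he3 i.succ
  have m2a : ∀ s : SpinConfig 2, chxM (m := 2) (fun i => ((![toOrb b, toOrb b] : Fin 2 → Orb) i : Space → ℝ)) ![0, 1] (tail3 X) s
      = chxM ![b, b] ![0, 1] (tail3 X) s := by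
    intro s
    refine chxM_congr _ _ fun j i => ?_
    fin_cases j <;> simp [hbt]
  have m2b : ∀ (σ : SpinConfig 2) (s : SpinConfig 2), chxM (m := 2) (fun i => ((![toOrb b, toOrb e] : Fin 2 → Orb) i : Space → ℝ)) σ (tail3 X) s
      = chxM ![b, e] σ (tail3 X) s := by
    intro σ s
    refine chxM_congr _ _ fun j i => ?_
    fin_cases j <;> simp [hbt, het]
  ext s
  unfold gK psiZero
  rw [g1, t1]
  simp only [Pi.sub_apply, t2, t3]
  simp only [PiLp.add_apply, PiLp.smul_apply, PiLp.sub_apply, spinEmb_apply, smul_eq_mul, Complex.real_smul]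
  unfold phiZero
  rw [d3 s, d2a, d2b, d2c, m3, m2a, m2b, m2b, chx_det_expand, ← mul_assoc, ← Complex.ofReal_mul, chx_sqrt_fact]
  split_ifs <;> ring


/-- **(3.6)**: `F₀(x) = e(x) φ₀ + b(x) G`. -/
theorem TwoCentre.chx_F0_eq (h : TwoCentre b e εb εe) {F0 : Space → Fib}
    (hv : AG.IsVersion AG.extΩ (fun X => (√3 : ℝ) • (psiZero b e : Config 3 → SpinSpace 3) X) F0)
    (hc : ContinuousOn F0 AG.extΩ) :
    ∀ x ∈ AG.extΩ, F0 x = (e x : ℂ) • tensK 0 (phiZero b) + (b x : ℂ) • gK b e := by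
  have hm : MemLp (fun X => (√3 : ℝ) • (psiZero b e : Config 3 → SpinSpace 3) X) 2 volume :=
    (L2.memLp (psiZero b e)).const_smul (√3 : ℝ)
  have h1 : AG.IsVersion AG.extΩ (fun X => (√3 : ℝ) • (psiZero b e : Config 3 → SpinSpace 3) X)
      (fun x => (e x : ℂ) • tensK 0 (phiZero b) + (b x : ℂ) • gK b e) := by
    filter_upwards [AG.ae_ae_cons3 h.chx_psiZero_expand, AG.ae_slice_coeFn hm] with x hx hs _
    refine Lp.ext ?_
    filter_upwards [hx, hs, Lp.coeFn_add ((e x : ℂ) • tensK 0 (phiZero b)) ((b x : ℂ) • gK b e),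
      Lp.coeFn_smul (e x : ℂ) (tensK 0 (phiZero b)), Lp.coeFn_smul (b x : ℂ) (gK b e)] with y hy hs a1 a2 a3
    simp only [AG.cons3_zero, AG.tail3_cons3] at hy
    rw [hs, a1, Pi.add_apply, a2, a3, Pi.smul_apply, Pi.smul_apply, hy]
  have c1 : ContinuousOn (fun x => (e x : ℂ) • tensK 0 (phiZero b) + (b x : ℂ) • gK b e) AG.extΩ := by
    have hbc : Continuous b := h.data.orbital_b.1
    have hec : Continuous e := h.data.orbital_e.1
    exact (((Complex.continuous_ofReal.comp hec).smul continuous_const).add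
      ((Complex.continuous_ofReal.comp hbc).smul continuous_const)).continuousOn
  exact fun x hx => AG.IsVersion.unique AG.isOpen_extΩ hv h1 hc c1 hx

end SLATER

end Claimed.Open.R278
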