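import Claimed.Open.R278.MBZero

/-!
# Result 278, layer L2a (BP-MB1): SMALL REPULSIVE COUPLING (Prop 2.3), assembly

Architect: helper51.  TOP THEOREM: `exists_smallCoupling`.  This file contains no analysis and NO `sorry`: it combines `MBAbs` (abstract perturbation),
`MBForm` (closed forms), `MBSym` (symmetries), `MBZero` (zero coupling).

What consumers get (structure `SmallCoupling`): on one interval `[0, τ]` the ionic and the three-electron branch `E₂ t, φ t, E₃ t, Ψ t` with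
* items (i) and (7.2) of Definition 7.1 (`IsRegular`) which do not involve the density,
* gaps which do NOT depend on `t` (`ion_gap`, `gap`, together with `E₂_half`, `E₃_half`: the gap above the ground level is at least `(ε_e - ε_b)/2`),
* `E_m(0) ≤ E_m(t) ≤ E_m(0) + C t`, hence `|k_t - k_0| ≤ 2 C t` (`SmallCoupling.k_close`), and `γ - k_t ≥ (γ - k_0)/2` (2.13),
* `φ 0 = phiZero b`, `Ψ 0 = psiZero b e`, closeness `O(t)` in `H¹` (the `H²` closeness is MB2), positive overlaps.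
-/

open MeasureTheory Filter
open scoped ContDiff InnerProductSpace ComplexConjugate ENNReal Topology

noncomputable section

namespace Claimed.Open.R278

/-- the constant of `Branch.close`. -/
def closeConst (m : ℕ) (E₀ c v : ℝ) : ℝ :=
  4 * (8 * (E₀ + (16 * m + 1) + 1) * (E₀ + c + (16 * m + 1)) ^ 2 * (4 * ((m : ℝ) ^ 3 + 1)) * v / c ^ 2)

/-- the perturbed ground state of `H_{m,t}` in the closed reducing subspace `S`. -/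
structure Branch (m : ℕ) (S : Submodule ℂ (L2 m)) (Φ₀ : L2 m) (E₀ c : ℝ) (t E : ℝ) (Φ : L2 m) : Prop where
  mem : Φ ∈ H1A m ⊓ S
  norm : ‖Φ‖ = 1
  eig : ∀ Ξ ∈ H1A m ⊓ S, sesqForm (scaledPotential m t) Ξ Φ = (E : ℂ) * ⟪Ξ, Φ⟫_ℂ
  lower : ∀ Ξ ∈ H1A m ⊓ S, E * ‖Ξ‖ ^ 2 ≤ energy (scaledPotential m t) Ξ
  gap : ∀ Ξ ∈ H1A m ⊓ S, ⟪Φ, Ξ⟫_ℂ = 0 → (E₀ + c) * ‖Ξ‖ ^ 2 ≤ energy (scaledPotential m t) Ξ
  E_ge : E₀ ≤ E
  E_le : E ≤ E₀ + t * (repForm Φ₀ Φ₀).re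
  E_half : E ≤ E₀ + c / 2
  overlap : ∃ α : ℝ, 0 < α ∧ ⟪Φ₀, Φ⟫_ℂ = (α : ℂ)
  close : h1sq (Φ - Φ₀) ≤ closeConst m E₀ c (repForm Φ₀ Φ₀).re * t ^ 2

theorem energy_scaled {m : ℕ} (t : ℝ) {Ξ : L2 m} (hΞ : MemH1 Ξ) :
    energy (scaledPotential m t) Ξ = energy (scaledPotential m 0) Ξ + t * (repForm Ξ Ξ).re := by
  unfold energy
  rw [sesqForm_scaled t hΞ hΞ, Complex.add_re, Complex.re_ofReal_mul]

theorem energy_scaled_mono {m : ℕ} {t : ℝ} (ht : 0 ≤ t) {Ξ : L2 m} (hΞ : MemH1 Ξ) :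
    energy (scaledPotential m 0) Ξ ≤ energy (scaledPotential m t) Ξ := by
  rw [energy_scaled t hΞ]
  have := mul_nonneg ht (repForm_nonneg Ξ)
  linarith

/-- **the branch exists** as long as `t v[Φ₀] ≤ c/2`. -/
theorem exists_branch {m : ℕ} (S : Submodule ℂ (L2 m)) (hS : IsClosed (S : Set (L2 m))) {Φ₀ : L2 m}
    (h0 : Φ₀ ∈ H1A m ⊓ S) (h1 : ‖Φ₀‖ = 1) {E₀ c : ℝ} (hc : 0 < c)
    (heig₀ : ∀ Ξ ∈ H1A m ⊓ S, sesqForm (scaledPotential m 0) Ξ Φ₀ = (E₀ : ℂ) * ⟪Ξ, Φ₀⟫_ℂ)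
    (hlow₀ : ∀ Ξ ∈ H1A m ⊓ S, E₀ * ‖Ξ‖ ^ 2 ≤ energy (scaledPotential m 0) Ξ)
    (hgap₀ : ∀ Ξ ∈ H1A m ⊓ S, ⟪Φ₀, Ξ⟫_ℂ = 0 → (E₀ + c) * ‖Ξ‖ ^ 2 ≤ energy (scaledPotential m 0) Ξ)
    {t : ℝ} (ht : 0 ≤ t) (htc : t * (repForm Φ₀ Φ₀).re ≤ c / 2) :
    ∃ (E : ℝ) (Φ : L2 m), Branch m S Φ₀ E₀ c t E Φ := by
  have hH1 : ∀ {Ξ : L2 m}, Ξ ∈ H1A m ⊓ S → MemH1 Ξ := fun h => h.1.2
  have hΦ₀Φ₀ : ⟪Φ₀, Φ₀⟫_ℂ = 1 := by rw [inner_self_eq_norm_sq_to_K, h1]; simp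
  have hE₀ : energy (scaledPotential m 0) Φ₀ = E₀ := by
    unfold energy; rw [heig₀ Φ₀ h0, hΦ₀Φ₀]; simp
  have hmono : ∀ {Ξ : L2 m}, Ξ ∈ H1A m ⊓ S →
      energy (scaledPotential m 0) Ξ ≤ energy (scaledPotential m t) Ξ := fun hΞ => energy_scaled_mono ht (hH1 hΞ)
  obtain ⟨E, Φ, hΦ, hΦ1, hEA, heig, hlow, hgap, α, hα, hαΦ⟩ :=
    (closedForm_scaled ht S hS).exists_ground h0 h1 (A := E₀ + t * (repForm Φ₀ Φ₀).re) (B := E₀ + c)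
      (by linarith) (by
        have := energy_scaled t (hH1 h0)
        rw [hE₀] at this
        exact this.le)
      (fun η hη ho => (hgap₀ η hη ho).trans (hmono hη))
  have hΦΦ : ⟪Φ, Φ⟫_ℂ = 1 := by rw [inner_self_eq_norm_sq_to_K, hΦ1]; simp
  have hEΦ : energy (scaledPotential m t) Φ = E := by
    unfold energy; rw [heig Φ hΦ, hΦΦ]; simp
  have hclose := ground_close (V := H1A m ⊓ S) (q₀ := sesqForm (scaledPotential m 0)) (v := repForm)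
    (K := 16 * m + 1) (Cv := 4 * ((m : ℝ) ^ 3 + 1)) (hermForm_scaled 0 S) (hermForm_rep S)
    (fun x hx => by
      have := le_formNorm (t := 0) le_rfl (hH1 hx)
      have h2 : 0 ≤ kin x := kin_nonneg x
      unfold energy at this
      linarith)
    (fun x _ => repForm_nonneg x)
    (fun x hx => by
      have h1 := le_formNorm (t := 0) le_rfl (hH1 hx)
      have h2 := repForm_le (hH1 hx)
      have h3 : (0 : ℝ) ≤ (m : ℝ) ^ 3 + 1 := by positivity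
      unfold energy at h1
      unfold h1sq at h2
      have h4 : ‖x‖ ^ 2 + kin x ≤ 4 * ((sesqForm (scaledPotential m 0) x x).re + (16 * m + 1) * ‖x‖ ^ 2) := by
        have : 0 ≤ ‖x‖ ^ 2 := by positivity
        linarith
      calc (repForm x x).re ≤ ((m : ℝ) ^ 3 + 1) * (‖x‖ ^ 2 + kin x) := h2
        _ ≤ ((m : ℝ) ^ 3 + 1) * (4 * ((sesqForm (scaledPotential m 0) x x).re + (16 * m + 1) * ‖x‖ ^ 2)) :=
            mul_le_mul_of_nonneg_left h4 h3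
        _ = _ := by ring)
    h0 h1 hc heig₀ hgap₀ ht htc hΦ hΦ1 hEA
    (fun Ξ hΞ => by rw [← sesqForm_scaled t (hH1 hΞ) (hH1 hΦ)]; exact heig Ξ hΞ) hα hαΦ
  refine ⟨E, Φ, hΦ, hΦ1, heig, hlow, hgap, ?_, hEA, by linarith, ⟨α, hα, hαΦ⟩, ?_⟩
  · have := (hlow₀ Φ hΦ).trans (hmono hΦ)
    rw [hΦ1, hEΦ] at this
    linarith
  · have hd : Φ - Φ₀ ∈ H1A m ⊓ S := Submodule.sub_mem _ hΦ h0
    have h2 := le_formNorm (t := 0) le_rfl (hH1 hd)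
    unfold energy at h2
    unfold h1sq closeConst
    have h3 : 0 ≤ ‖Φ - Φ₀‖ ^ 2 := by positivity
    linarith

namespace Branch

variable {m : ℕ} {S : Submodule ℂ (L2 m)} {Φ₀ : L2 m} {E₀ c t E : ℝ} {Φ : L2 m}

theorem energy_eq (h : Branch m S Φ₀ E₀ c t E Φ) : energy (scaledPotential m t) Φ = E := by
  have hΦΦ : ⟪Φ, Φ⟫_ℂ = 1 := by rw [inner_self_eq_norm_sq_to_K, h.norm]; simp
  unfold energy; rw [h.eig Φ h.mem, hΦΦ]; simp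

/-- at zero coupling the branch starts at the reference vector. -/
theorem eq_of_zero (h : Branch m S Φ₀ E₀ c 0 E Φ) : Φ = Φ₀ := by
  have h1 := h.close
  have h2 := kin_nonneg (Φ - Φ₀)
  unfold h1sq at h1
  have h3 : ‖Φ - Φ₀‖ ^ 2 ≤ 0 := by
    have : closeConst m E₀ c (repForm Φ₀ Φ₀).re * (0 : ℝ) ^ 2 = 0 := by ring
    linarith
  have h4 : ‖Φ - Φ₀‖ = 0 := pow_eq_zero_iff two_ne_zero |>.mp (le_antisymm h3 (sq_nonneg _))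
  exact sub_eq_zero.mp (norm_eq_zero.mp h4)

/-- a symmetry acts on the branch as on the reference vector. -/
theorem symm (h : Branch m S Φ₀ E₀ c t E Φ) (hc : 0 < c) (h1 : ‖Φ₀‖ = 1) (U : L2 m →ₗᵢ[ℂ] L2 m)
    (hUV : ∀ x ∈ H1A m ⊓ S, U x ∈ H1A m ⊓ S)
    (hUq : ∀ x ∈ H1A m ⊓ S, energy (scaledPotential m t) (U x) = energy (scaledPotential m t) x)
    {c₀ : ℂ} (hU0 : U Φ₀ = c₀ • Φ₀) : U Φ = c₀ • Φ := by
  obtain ⟨α, hα, hαΦ⟩ := h.overlap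
  exact ground_symm (hermForm_scaled t S) (E := E) (B := E₀ + c) (by linarith [h.E_half]) h.mem h.norm h.eig
    h.gap h1 hα hαΦ U hUV hUq hU0

theorem axisymmetric (h : Branch m S Φ₀ E₀ c t E Φ) (hc : 0 < c) (h1 : ‖Φ₀‖ = 1)
    (hS : ∀ (R : Space ≃ₗᵢ[ℝ] Space), ∀ x ∈ S, spaceOp R x ∈ S) (h0 : IsAxisymmetric Φ₀) : IsAxisymmetric Φ := by
  rw [isAxisymmetric_iff] at h0 ⊢
  intro a
  have := h.symm hc h1 (spaceOp (rotEquiv a))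
    (fun x hx => ⟨⟨spaceOp_antisymmetric _ hx.1.1, spaceOp_memH1 _ hx.1.2⟩, hS _ x hx.2⟩)
    (fun x hx => energy_spaceOp _ (fun y => scaledPotential_rotZ t a y) hx.1.2) (c₀ := 1)
    (by rw [h0 a, one_smul])
  rwa [one_smul] at this

theorem parity (h : Branch m S Φ₀ E₀ c t E Φ) (hc : 0 < c) (h1 : ‖Φ₀‖ = 1)
    (hS : ∀ (R : Space ≃ₗᵢ[ℝ] Space), ∀ x ∈ S, spaceOp R x ∈ S) {ε : ℂ} (h0 : HasReflectionParity ε Φ₀) :
    HasReflectionParity ε Φ := by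
  rw [hasReflectionParity_iff] at h0 ⊢
  exact h.symm hc h1 (spaceOp reflEquiv)
    (fun x hx => ⟨⟨spaceOp_antisymmetric _ hx.1.1, spaceOp_memH1 _ hx.1.2⟩, hS _ x hx.2⟩)
    (fun x hx => energy_spaceOp _ (fun y => scaledPotential_reflZ t y) hx.1.2) h0

end Branch

/-- **Proposition 2.3** (all assertions except the `H²` closeness). -/
structure SmallCoupling (b e : Space → ℝ) (εb εe τ C : ℝ) (E₂ E₃ : ℝ → ℝ) (φ : ℝ → L2 2) (Ψ : ℝ → L2 3) :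
    Prop where
  τ_pos : 0 < τ
  C_nonneg : 0 ≤ C
  ion_ground : ∀ t ∈ Set.Icc 0 τ, IsSimpleIsolatedGround (scaledPotential 2 t) Set.univ (E₂ t) (φ t)
  ion_axisymmetric : ∀ t ∈ Set.Icc 0 τ, IsAxisymmetric (φ t)
  ion_even : ∀ t ∈ Set.Icc 0 τ, HasReflectionParity 1 (φ t)
  ion_singlet : ∀ t ∈ Set.Icc 0 τ, IsSinglet (φ t)
  ground : ∀ t ∈ Set.Icc 0 τ,
    IsSimpleIsolatedGround (scaledPotential 3 t) {Ξ | InSpinSector (1 / 2) Ξ} (E₃ t) (Ψ t)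
  absolute : ∀ t ∈ Set.Icc 0 τ, IsSpectrumBottom (scaledPotential 3 t) (E₃ t)
  axisymmetric : ∀ t ∈ Set.Icc 0 τ, IsAxisymmetric (Ψ t)
  odd : ∀ t ∈ Set.Icc 0 τ, HasReflectionParity (-1) (Ψ t)
  /-- the ionic gap, uniform in `t`. -/
  ion_gap : ∀ t ∈ Set.Icc 0 τ, ∀ Ξ ∈ FormDomain (scaledPotential 2 t), ⟪φ t, Ξ⟫_ℂ = 0 →
    (2 * εb + (εe - εb)) * ‖Ξ‖ ^ 2 ≤ energy (scaledPotential 2 t) Ξ
  /-- the three-electron gap in `S_z = 1/2`, uniform in `t`. -/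
  gap : ∀ t ∈ Set.Icc 0 τ, ∀ Ξ ∈ FormDomain (scaledPotential 3 t), InSpinSector (1 / 2) Ξ → ⟪Ψ t, Ξ⟫_ℂ = 0 →
    (2 * εb + εe + (εe - εb)) * ‖Ξ‖ ^ 2 ≤ energy (scaledPotential 3 t) Ξ
  E₂_ge : ∀ t ∈ Set.Icc 0 τ, 2 * εb ≤ E₂ t
  E₂_le : ∀ t ∈ Set.Icc 0 τ, E₂ t ≤ 2 * εb + C * t
  E₂_half : ∀ t ∈ Set.Icc 0 τ, E₂ t ≤ 2 * εb + (εe - εb) / 2
  E₃_ge : ∀ t ∈ Set.Icc 0 τ, 2 * εb + εe ≤ E₃ t
  E₃_le : ∀ t ∈ Set.Icc 0 τ, E₃ t ≤ 2 * εb + εe + C * t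
  E₃_half : ∀ t ∈ Set.Icc 0 τ, E₃ t ≤ 2 * εb + εe + (εe - εb) / 2
  φ_zero : φ 0 = phiZero b
  Ψ_zero : Ψ 0 = psiZero b e
  φ_close : ∀ t ∈ Set.Icc 0 τ, h1sq (φ t - phiZero b) ≤ (C * t) ^ 2
  Ψ_close : ∀ t ∈ Set.Icc 0 τ, h1sq (Ψ t - psiZero b e) ≤ (C * t) ^ 2
  φ_overlap : ∀ t ∈ Set.Icc 0 τ, ∃ α : ℝ, 0 < α ∧ ⟪phiZero b, φ t⟫_ℂ = (α : ℂ)
  Ψ_overlap : ∀ t ∈ Set.Icc 0 τ, ∃ α : ℝ, 0 < α ∧ ⟪psiZero b e, Ψ t⟫_ℂ = (α : ℂ)
  /-- (7.2) -/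
  energy_test : ∀ t ∈ Set.Icc 0 τ, 0.49 < 2 * εb - E₃ t
  k_lower : ∀ t ∈ Set.Icc 0 τ, 0.99 < √(2 * (E₂ t - E₃ t))
  k_upper : ∀ t ∈ Set.Icc 0 τ, √(2 * (E₂ t - E₃ t)) < √(-(2 * εb))
  /-- (2.13) -/
  rate_sep : ∀ t ∈ Set.Icc 0 τ,
    (√(-(2 * εb)) - √(-(2 * εe))) / 2 ≤ √(-(2 * εb)) - √(2 * (E₂ t - E₃ t))

theorem mbm_le_sq (A r : ℝ) (hr : 0 ≤ r) : A ≤ (√A + r) ^ 2 := by
  rcases le_total A 0 with h | h
  · exact h.trans (sq_nonneg _)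
  · have h1 := Real.sq_sqrt h
    have h2 := Real.sqrt_nonneg A
    nlinarith

variable {b e : Space → ℝ} {εb εe : ℝ}

/-- the lower bound of the three-electron form in all sectors. -/
theorem mbm_absolute (h : TwoCentre b e εb εe) {t E : ℝ} {Φ : L2 3} (ht : 0 ≤ t)
    (hB : Branch 3 (sectorSub 3 (1 / 2)) (psiZero b e) (2 * εb + εe) (εe - εb) t E Φ)
    (hE : E ≤ 2 * εb + εe + 0.2) {Ξ : L2 3} (hΞ : Ξ ∈ H1A 3) :
    E * ‖Ξ‖ ^ 2 ≤ energy (scaledPotential 3 t) Ξ := by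
  rw [norm_sq_eq_sum_sector Ξ, energy_eq_sum_sector (measurable_scaledPotential t).aestronglyMeasurable hΞ.2
    (integrable_scaledPotential t hΞ.2), Finset.mul_sum]
  refine Finset.sum_le_sum fun μ hμ => ?_
  have hP := sectorProj_mem μ hΞ
  have hhigh : InSpinSector (3 / 2) (sectorProj μ Ξ) ∨ InSpinSector (-(3 / 2)) (sectorProj μ Ξ) →
      E * ‖sectorProj μ Ξ‖ ^ 2 ≤ energy (scaledPotential 3 t) (sectorProj μ Ξ) := by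
    intro hs
    have h1 := h.high3 hP.1 hs
    have h2 := energy_scaled_mono ht hP.1.2
    have h3 : E * ‖sectorProj μ Ξ‖ ^ 2 ≤ (2 * εb + εe + 0.2) * ‖sectorProj μ Ξ‖ ^ 2 :=
      mul_le_mul_of_nonneg_right hE (sq_nonneg _)
    linarith
  rw [spinVals_three] at hμ
  simp only [Finset.mem_insert, Finset.mem_singleton] at hμ
  rcases hμ with rfl | rfl | rfl | rfl
  · exact hhigh (Or.inl hP.2)
  · exact hB.lower _ hP
  · have hF : spinIso (flipE 3) (sectorProj (-(1 / 2)) Ξ) ∈ H1A 3 ⊓ sectorSub 3 (1 / 2) :=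
      ⟨⟨spinIso_antisymmetric (flipE_comp) hP.1.1, spinIso_memH1 _ hP.1.2⟩,
        spinIso_sector (μ := -(1 / 2)) (fun s hs => by rw [spinZ_flipE, hs, neg_neg]) hP.2⟩
    have := hB.lower _ hF
    rwa [energy_spinIso _ _ hP.1.2, LinearIsometry.norm_map] at this
  · exact hhigh (Or.inr hP.2)

/-- **Proposition 2.3.** -/
theorem exists_smallCoupling (h : TwoCentre b e εb εe) :
    ∃ (τ C : ℝ) (E₂ E₃ : ℝ → ℝ) (φ : ℝ → L2 2) (Ψ : ℝ → L2 3), SmallCoupling b e εb εe τ C E₂ E₃ φ Ψ := by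
  have hd : 0 < εe - εb := sub_pos.2 h.data.lt
  have hεe := h.εe_neg
  have hεb := h.εb_neg
  have hlt := h.data.lt
  obtain ⟨v₂, hv₂⟩ : ∃ v, v = (repForm (phiZero b) (phiZero b)).re := ⟨_, rfl⟩
  obtain ⟨v₃, hv₃⟩ : ∃ v, v = (repForm (psiZero b e) (psiZero b e)).re := ⟨_, rfl⟩
  have hv₂0 : 0 ≤ v₂ := hv₂ ▸ repForm_nonneg _
  have hv₃0 : 0 ≤ v₃ := hv₃ ▸ repForm_nonneg _
  obtain ⟨γ, hγ⟩ : ∃ γ, γ = √(-(2 * εb)) := ⟨_, rfl⟩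
  obtain ⟨k₀, hk₀⟩ : ∃ k, k = √(-(2 * εe)) := ⟨_, rfl⟩
  have hk₀γ : k₀ < γ := by
    rw [hk₀, hγ]
    exact Real.sqrt_lt_sqrt (by linarith) (by linarith)
  have hk₀99 : 0.99 < k₀ := hk₀ ▸ h.k0_gt
  have hk₀sq : k₀ ^ 2 = -(2 * εe) := by rw [hk₀]; exact Real.sq_sqrt (by linarith)
  have hk₀' : 0.9801 < -(2 * εe) := by
    rw [← hk₀sq]
    nlinarith
  -- the margin
  obtain ⟨δ, hδ0, hδ1, hδ2, hδ3, hδ4⟩ : ∃ δ : ℝ, 0 < δ ∧ δ ≤ (εe - εb) / 2 ∧ δ ≤ 0.1 ∧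
      δ ≤ (-(2 * εe) - 0.9801) / 4 ∧ δ ≤ (γ - k₀) / 4 := by
    refine ⟨min (min ((εe - εb) / 2) 0.1) (min ((-(2 * εe) - 0.9801) / 4) ((γ - k₀) / 4)), ?_,
      (min_le_left _ _).trans (min_le_left _ _), (min_le_left _ _).trans (min_le_right _ _),
      (min_le_right _ _).trans (min_le_left _ _), (min_le_right _ _).trans (min_le_right _ _)⟩
    refine lt_min (lt_min (by linarith) (by norm_num)) (lt_min (by linarith) (by linarith))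
  have hv : 0 < v₂ + v₃ + 1 := by linarith
  obtain ⟨τ, hτdef⟩ : ∃ τ, τ = δ / (v₂ + v₃ + 1) := ⟨_, rfl⟩
  have hτ : 0 < τ := hτdef ▸ div_pos hδ0 hv
  have hτv : τ * (v₂ + v₃ + 1) = δ := by rw [hτdef]; field_simp
  have ht2 : ∀ t ∈ Set.Icc 0 τ, t * v₂ ≤ δ := fun t ht => by
    have h1 : t * v₂ ≤ τ * v₂ := mul_le_mul_of_nonneg_right ht.2 hv₂0
    nlinarith
  have ht3 : ∀ t ∈ Set.Icc 0 τ, t * v₃ ≤ δ := fun t ht => by
    have h1 : t * v₃ ≤ τ * v₃ := mul_le_mul_of_nonneg_right ht.2 hv₃0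
    nlinarith
  -- the branches
  have hb2 : ∀ t, ∃ (E : ℝ) (Φ : L2 2), t ∈ Set.Icc 0 τ →
      Branch 2 ⊤ (phiZero b) (2 * εb) (εe - εb) t E Φ := by
    intro t
    by_cases ht : t ∈ Set.Icc 0 τ
    · obtain ⟨E, Φ, hB⟩ := exists_branch (m := 2) ⊤ (by rw [Submodule.top_coe]; exact isClosed_univ)
        ⟨h.phiZero_mem, trivial⟩ h.norm_phiZero hd
        (fun Ξ hΞ => h.phiZero_eig.2 Ξ ((mem_H1A_iff_formDomain 0).1 hΞ.1))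
        (fun Ξ hΞ => h.bottom2 hΞ.1) (fun Ξ hΞ ho => h.gap2 hΞ.1 ho) ht.1
        (by rw [← hv₂]; linarith [ht2 t ht])
      exact ⟨E, Φ, fun _ => hB⟩
    · exact ⟨0, 0, fun h' => absurd h' ht⟩
  have hb3 : ∀ t, ∃ (E : ℝ) (Φ : L2 3), t ∈ Set.Icc 0 τ →
      Branch 3 (sectorSub 3 (1 / 2)) (psiZero b e) (2 * εb + εe) (εe - εb) t E Φ := by
    intro t
    by_cases ht : t ∈ Set.Icc 0 τ
    · obtain ⟨E, Φ, hB⟩ := exists_branch (m := 3) (sectorSub 3 (1 / 2)) (isClosed_sector (1 / 2))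
        h.psiZero_mem h.norm_psiZero hd
        (fun Ξ hΞ => h.psiZero_eig.2 Ξ ((mem_H1A_iff_formDomain 0).1 hΞ.1))
        (fun Ξ hΞ => h.bottom3 hΞ.1) (fun Ξ hΞ ho => h.gap3 hΞ ho) ht.1
        (by rw [← hv₃]; linarith [ht3 t ht])
      exact ⟨E, Φ, fun _ => hB⟩
    · exact ⟨0, 0, fun h' => absurd h' ht⟩
  choose E₂ φ hφ using hb2
  choose E₃ Ψ hΨ using hb3
  have h0τ : (0 : ℝ) ∈ Set.Icc 0 τ := ⟨le_rfl, hτ.le⟩
  obtain ⟨A₂, hA₂⟩ : ∃ A, A = closeConst 2 (2 * εb) (εe - εb) v₂ := ⟨_, rfl⟩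
  obtain ⟨A₃, hA₃⟩ : ∃ A, A = closeConst 3 (2 * εb + εe) (εe - εb) v₃ := ⟨_, rfl⟩
  have hsA₂ := Real.sqrt_nonneg A₂
  have hsA₃ := Real.sqrt_nonneg A₃
  -- energies
  have hE₂ge : ∀ t ∈ Set.Icc 0 τ, 2 * εb ≤ E₂ t := fun t ht => (hφ t ht).E_ge
  have hE₃ge : ∀ t ∈ Set.Icc 0 τ, 2 * εb + εe ≤ E₃ t := fun t ht => (hΨ t ht).E_ge
  have hE₂le : ∀ t ∈ Set.Icc 0 τ, E₂ t ≤ 2 * εb + t * v₂ := fun t ht => hv₂ ▸ (hφ t ht).E_le
  have hE₃le : ∀ t ∈ Set.Icc 0 τ, E₃ t ≤ 2 * εb + εe + t * v₃ := fun t ht => hv₃ ▸ (hΨ t ht).E_le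
  have hXlow : ∀ t ∈ Set.Icc 0 τ, 0.9801 < 2 * (E₂ t - E₃ t) := fun t ht => by
    linarith [hE₂ge t ht, hE₃le t ht, ht3 t ht]
  have hXup : ∀ t ∈ Set.Icc 0 τ, 2 * (E₂ t - E₃ t) ≤ -(2 * εe) + 2 * δ := fun t ht => by
    linarith [hE₂le t ht, hE₃ge t ht, ht2 t ht]
  have hStop : ∀ (R : Space ≃ₗᵢ[ℝ] Space), ∀ x ∈ (⊤ : Submodule ℂ (L2 2)), spaceOp R x ∈ (⊤ : Submodule ℂ (L2 2)) :=
    fun _ _ _ => trivial
  have hSsec : ∀ (R : Space ≃ₗᵢ[ℝ] Space), ∀ x ∈ sectorSub 3 (1 / 2), spaceOp R x ∈ sectorSub 3 (1 / 2) :=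
    fun R _ hx => spaceOp_sector R hx
  refine ⟨τ, v₂ + v₃ + √A₂ + √A₃, E₂, E₃, φ, Ψ,
    { τ_pos := hτ
      C_nonneg := by positivity
      ion_ground := fun t ht => ?_
      ion_axisymmetric := fun t ht => (hφ t ht).axisymmetric hd h.norm_phiZero hStop h.phiZero_axisymmetric
      ion_even := fun t ht => (hφ t ht).parity hd h.norm_phiZero hStop h.phiZero_even
      ion_singlet := fun t ht => ?_
      ground := fun t ht => ?_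
      absolute := fun t ht => ?_
      axisymmetric := fun t ht => (hΨ t ht).axisymmetric hd h.norm_psiZero hSsec h.psiZero_axisymmetric
      odd := fun t ht => (hΨ t ht).parity hd h.norm_psiZero hSsec h.psiZero_odd
      ion_gap := fun t ht Ξ hΞ ho => (hφ t ht).gap Ξ ⟨(mem_H1A_iff_formDomain t).2 hΞ, trivial⟩ ho
      gap := fun t ht Ξ hΞ hs ho => (hΨ t ht).gap Ξ ⟨(mem_H1A_iff_formDomain t).2 hΞ, hs⟩ ho
      E₂_ge := hE₂ge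
      E₂_le := fun t ht => ?_
      E₂_half := fun t ht => (hφ t ht).E_half
      E₃_ge := hE₃ge
      E₃_le := fun t ht => ?_
      E₃_half := fun t ht => (hΨ t ht).E_half
      φ_zero := (hφ 0 h0τ).eq_of_zero
      Ψ_zero := (hΨ 0 h0τ).eq_of_zero
      φ_close := fun t ht => ?_
      Ψ_close := fun t ht => ?_
      φ_overlap := fun t ht => (hφ t ht).overlap
      Ψ_overlap := fun t ht => (hΨ t ht).overlap
      energy_test := fun t ht => by linarith [hE₃le t ht, ht3 t ht]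
      k_lower := fun t ht => ?_
      k_upper := fun t ht => ?_
      rate_sep := fun t ht => ?_ }⟩
  · -- ion_ground
    have hB := hφ t ht
    refine ⟨hB.norm, Set.mem_univ _, ⟨(mem_H1A_iff_formDomain t).1 hB.mem.1,
      fun Ξ hΞ => hB.eig Ξ ⟨(mem_H1A_iff_formDomain t).2 hΞ, trivial⟩⟩, (εe - εb) / 2, by positivity,
      fun Ξ hΞ _ ho => ?_⟩
    have h1 := hB.gap Ξ ⟨(mem_H1A_iff_formDomain t).2 hΞ, trivial⟩ ho
    have h2 : (E₂ t + (εe - εb) / 2) * ‖Ξ‖ ^ 2 ≤ (2 * εb + (εe - εb)) * ‖Ξ‖ ^ 2 :=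
      mul_le_mul_of_nonneg_right (by linarith [hB.E_half]) (sq_nonneg _)
    linarith
  · -- ion_singlet
    rw [isSinglet_iff]
    exact (hφ t ht).symm hd h.norm_phiZero (spinIso swapE)
      (fun x hx => ⟨⟨spinIso_antisymmetric swapE_comp hx.1.1, spinIso_memH1 _ hx.1.2⟩, trivial⟩)
      (fun x hx => energy_spinIso _ _ hx.1.2) ((isSinglet_iff _).1 (phiZero_singlet b))
  · -- ground
    have hB := hΨ t ht
    refine ⟨hB.norm, hB.mem.2, ⟨(mem_H1A_iff_formDomain t).1 hB.mem.1, fun Ξ hΞ => ?_⟩, (εe - εb) / 2,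
      by positivity, fun Ξ hΞ hs ho => ?_⟩
    · have hΞ' := (mem_H1A_iff_formDomain t).2 hΞ
      rw [← sesqForm_sectorProj (scaledPotential 3 t) hΞ'.2 hB.mem.1.2 hB.mem.2,
        hB.eig _ (sectorProj_mem _ hΞ'), inner_sectorProj Ξ hB.mem.2]
    · have h1 := hB.gap Ξ ⟨(mem_H1A_iff_formDomain t).2 hΞ, hs⟩ ho
      have h2 : (E₃ t + (εe - εb) / 2) * ‖Ξ‖ ^ 2 ≤ (2 * εb + εe + (εe - εb)) * ‖Ξ‖ ^ 2 :=
        mul_le_mul_of_nonneg_right (by linarith [hB.E_half]) (sq_nonneg _)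
      linarith
  · -- absolute
    have hB := hΨ t ht
    apply IsLeast.isGLB
    refine ⟨⟨Ψ t, ⟨(mem_H1A_iff_formDomain t).1 hB.mem.1, hB.norm⟩, hB.energy_eq⟩, ?_⟩
    rintro _ ⟨Ξ, ⟨hΞ, hΞ1⟩, rfl⟩
    have := mbm_absolute h ht.1 hB (by linarith [hE₃le t ht, ht3 t ht]) ((mem_H1A_iff_formDomain t).2 hΞ)
    rwa [hΞ1, one_pow, mul_one] at this
  · -- E₂_le
    have h1 := hE₂le t ht
    have h2 : 0 ≤ (v₃ + √A₂ + √A₃) * t := mul_nonneg (by positivity) ht.1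
    nlinarith
  · -- E₃_le
    have h1 := hE₃le t ht
    have h2 : 0 ≤ (v₂ + √A₂ + √A₃) * t := mul_nonneg (by positivity) ht.1
    nlinarith
  · -- φ_close
    have h1 := (hφ t ht).close
    rw [← hv₂, ← hA₂] at h1
    have h2 := mbm_le_sq A₂ (v₂ + v₃ + √A₃) (by positivity)
    have h3 : A₂ * t ^ 2 ≤ (√A₂ + (v₂ + v₃ + √A₃)) ^ 2 * t ^ 2 := mul_le_mul_of_nonneg_right h2 (sq_nonneg _)
    calc _ ≤ A₂ * t ^ 2 := h1
      _ ≤ _ := h3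
      _ = _ := by ring
  · -- Ψ_close
    have h1 := (hΨ t ht).close
    rw [← hv₃, ← hA₃] at h1
    have h2 := mbm_le_sq A₃ (v₂ + v₃ + √A₂) (by positivity)
    have h3 : A₃ * t ^ 2 ≤ (√A₃ + (v₂ + v₃ + √A₂)) ^ 2 * t ^ 2 := mul_le_mul_of_nonneg_right h2 (sq_nonneg _)
    calc _ ≤ A₃ * t ^ 2 := h1
      _ ≤ _ := h3
      _ = _ := by ring
  · -- k_lower
    rw [Real.lt_sqrt (by norm_num)]
    have := hXlow t ht
    norm_num at this ⊢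
    linarith
  · -- k_upper
    refine Real.sqrt_lt_sqrt (by linarith [hXlow t ht]) ?_
    linarith [hXup t ht]
  · -- rate_sep
    rw [← hγ, ← hk₀]
    have h1 : √(2 * (E₂ t - E₃ t)) ≤ (γ + k₀) / 2 := by
      rw [Real.sqrt_le_left (by linarith)]
      have := hXup t ht
      nlinarith
    linarith

/-- `|k_t - k_0| ≤ 2 C t`. -/
theorem SmallCoupling.k_close {τ C : ℝ} {E₂ E₃ : ℝ → ℝ} {φ : ℝ → L2 2} {Ψ : ℝ → L2 3}
    (hs : SmallCoupling b e εb εe τ C E₂ E₃ φ Ψ) (h : TwoCentre b e εb εe) {t : ℝ} (ht : t ∈ Set.Icc 0 τ) :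
    |√(2 * (E₂ t - E₃ t)) - √(-(2 * εe))| ≤ 2 * C * t := by
  have h1 := hs.k_lower t ht
  have h2 := h.k0_gt
  have hεe := h.εe_neg
  have hX : 0 ≤ 2 * (E₂ t - E₃ t) := by
    by_contra hh
    rw [Real.sqrt_eq_zero_of_nonpos (not_le.1 hh).le] at h1
    norm_num at h1
  have e1 := Real.sq_sqrt hX
  have e2 : √(-(2 * εe)) ^ 2 = -(2 * εe) := Real.sq_sqrt (by linarith)
  have hCt : 0 ≤ C * t := mul_nonneg hs.C_nonneg ht.1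
  have h3 : |√(2 * (E₂ t - E₃ t)) ^ 2 - √(-(2 * εe)) ^ 2| ≤ 2 * (C * t) := by
    rw [e1, e2, abs_le]
    constructor <;> linarith [hs.E₂_ge t ht, hs.E₂_le t ht, hs.E₃_ge t ht, hs.E₃_le t ht]
  have h4 : √(2 * (E₂ t - E₃ t)) ^ 2 - √(-(2 * εe)) ^ 2 =
      (√(2 * (E₂ t - E₃ t)) - √(-(2 * εe))) * (√(2 * (E₂ t - E₃ t)) + √(-(2 * εe))) := by ring
  rw [h4, abs_mul, abs_of_nonneg (a := √(2 * (E₂ t - E₃ t)) + √(-(2 * εe))) (by linarith)] at h3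
  have h5 := abs_nonneg (√(2 * (E₂ t - E₃ t)) - √(-(2 * εe)))
  nlinarith

end Claimed.Open.R278
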