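import Claimed.Open.R278.TKCalc

/-!
# Result 278, layer L2b (BP-MB2, prefix MR), file 4: the scalar part of Lemma 2.4

Architect: helper217.  NO `sorry` in this file (it uses the kit leaves `tk_weakGrad_eq_gradient_on`, `tk_weakGrad_comp_loc` of `TKCalc.lean` and the scalar calculus FS-B4 of `FSBridge.lean`).

`DensWeak n G K g`: `n` continuous, positive, `C²` off the nuclei, integrable, with weak gradient `G ∈ L⁶`, weak Hessian rows `K a ∈ L²_loc`, trace in `L¹`, and `|G| ≤ 2√3 √n g`, `g ∈ L²`.
`DensWeak.densityBasic`: all fields of `DensityBasic n`.  The classical derivatives (which exist off the two nuclei) are identified a.e. with the weak ones (`mrc_second`);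
`√n` and `1/(2√n)` are treated by the local chain rule, `∇√n = G/(2√n)` by the product rule; no classical second order chain rule is needed.
-/

open MeasureTheory Filter Topology Set
open scoped ContDiff InnerProductSpace ENNReal Laplacian

noncomputable section
namespace Claimed.Open.R278

theorem mrc_finite_nuclei : (nuclei : Set Space).Finite := by
  unfold nuclei; exact (Set.finite_singleton _).insert _

theorem mrc_isOpen : IsOpen (nucleiᶜ : Set Space) := mrc_finite_nuclei.isClosed.isOpen_compl

theorem mrc_ae_mem : ∀ᵐ x : Space, x ∈ (nucleiᶜ : Set Space) :=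
  compl_mem_ae_iff.2 (mrc_finite_nuclei.measure_zero volume)

theorem mrc_gradient_apply (f : Space → ℝ) (x : Space) (a : Fin 3) :
    gradient f x a = fderiv ℝ f x (EuclideanSpace.single a 1) := by
  have h1 : ⟪gradient f x, EuclideanSpace.single a (1 : ℝ)⟫_ℝ = fderiv ℝ f x (EuclideanSpace.single a 1) :=
    inner_gradient_left
  rw [← h1, EuclideanSpace.inner_single_right]
  simp

/-- the Laplacian as the trace of the matrix of the second partial derivatives. -/
theorem mrc_laplacian_eq {f : Space → ℝ} {x : Space} (hf : ContDiffAt ℝ 2 f x) :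
    Δ f x = ∑ a, gradient (fun y => gradient f y a) x a := by
  rw [InnerProductSpace.laplacian_eq_iteratedFDeriv_orthonormalBasis f (EuclideanSpace.basisFun (Fin 3) ℝ)]
  refine Finset.sum_congr rfl fun a _ => ?_
  rw [mrc_gradient_apply, iteratedFDeriv_two_apply]
  have h1 : DifferentiableAt ℝ (fderiv ℝ f) x := (hf.fderiv_right (m := 1) (by norm_num)).differentiableAt (by norm_num)
  have h2 : (fun y => gradient f y a) = fun y => fderiv ℝ f y (EuclideanSpace.single a 1) := by
    funext y; exact mrc_gradient_apply f y a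
  rw [h2, fderiv_clm_apply h1 (differentiableAt_const _)]
  simp

theorem mrc_l2Loc_of_six {E : Type*} [NormedAddCommGroup E] {f : Space → E} (hf : MemLp f 6 volume) :
    L2Loc volume f := by
  intro K hK
  have : IsFiniteMeasure ((volume : Measure Space).restrict K) :=
    ⟨by rw [Measure.restrict_apply_univ]; exact hK.measure_lt_top⟩
  exact (hf.restrict K).mono_exponent (by norm_num)

theorem mrc_l2Loc_of_three {E : Type*} [NormedAddCommGroup E] {f : Space → E} (hf : MemLp f 3 volume) :
    L2Loc volume f := by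
  intro K hK
  have : IsFiniteMeasure ((volume : Measure Space).restrict K) :=
    ⟨by rw [Measure.restrict_apply_univ]; exact hK.measure_lt_top⟩
  exact (hf.restrict K).mono_exponent (by norm_num)

theorem mrc_l2Loc_smul {E : Type*} [NormedAddCommGroup E] [NormedSpace ℝ E] {a : Space → ℝ} (ha : Continuous a)
    {f : Space → E} (hf : L2Loc volume f) : L2Loc volume (fun x => a x • f x) := by
  intro K hK
  obtain ⟨C, hC⟩ := hK.exists_bound_of_continuousOn ha.continuousOn
  refine MemLp.of_le_mul (c := C) (hf K hK) (ha.aestronglyMeasurable.smul (hf K hK).1) ?_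
  filter_upwards [ae_restrict_mem hK.measurableSet] with x hx
  rw [norm_smul]; exact mul_le_mul_of_nonneg_right (hC x hx) (norm_nonneg _)

theorem mrc_l2Loc_add {E : Type*} [NormedAddCommGroup E] {f g : Space → E} (hf : L2Loc volume f)
    (hg : L2Loc volume g) : L2Loc volume (fun x => f x + g x) := fun K hK => (hf K hK).add (hg K hK)

theorem mrc_l2Loc_coord {f : Space → Space} (hf : L2Loc volume f) (a : Fin 3) : L2Loc volume (fun x => f x a) :=
  fun K hK => (EuclideanSpace.proj (𝕜 := ℝ) a).comp_memLp' (hf K hK)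

theorem mrc_memLp_coord {f : Space → Space} {p : ℝ≥0∞} (hf : MemLp f p volume) (a : Fin 3) :
    MemLp (fun x => f x a) p volume :=
  (EuclideanSpace.proj (𝕜 := ℝ) a).comp_memLp' hf

theorem mrc_l2Loc_coord_smul {G : Space → Space} (hG : MemLp G 6 volume) (a : Fin 3) :
    L2Loc volume (fun x => G x a • G x) := by
  have : ENNReal.HolderTriple 6 6 3 := ⟨by
    rw [← two_mul, show (6 : ℝ≥0∞) = 2 * 3 by norm_num, ENNReal.mul_inv (by simp) (by simp), ← mul_assoc,
      ENNReal.mul_inv_cancel (by simp) (by simp), one_mul]⟩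
  exact mrc_l2Loc_of_three (hG.smul (mrc_memLp_coord hG a))

/-- first and second order identification of weak and classical derivatives off the nuclei. -/
theorem mrc_second {f : Space → ℝ} {F : Space → Space} {S : Fin 3 → Space → Space}
    (hsm : ContDiffOn ℝ 2 f nucleiᶜ) (hF : IsWeakGrad f F) (hS : ∀ a, IsWeakGrad (fun x => F x a) (S a)) :
    gradient f =ᵐ[volume] F ∧ Δ f =ᵐ[volume] fun x => ∑ a, S a x a := by
  have h1 := tk_weakGrad_eq_gradient_on hF mrc_isOpen (hsm.of_le (by norm_num))
  have hgr : gradient f =ᵐ[volume] F := by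
    filter_upwards [h1, mrc_ae_mem] with x hx hm using (hx hm).symm
  refine ⟨hgr, ?_⟩
  have h2 : ∀ a, ∀ᵐ x, x ∈ (nucleiᶜ : Set Space) → S a x = gradient (fun y => gradient f y a) x := by
    intro a
    have hw : IsWeakGrad (fun x => gradient f x a) (S a) :=
      (hS a).congr_ae (by filter_upwards [hgr] with x hx using by rw [hx]) EventuallyEq.rfl
    refine tk_weakGrad_eq_gradient_on hw mrc_isOpen ?_
    have e : (fun y => gradient f y a) = fun y => fderiv ℝ f y (EuclideanSpace.single a 1) := by
      funext y; exact mrc_gradient_apply f y a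
    rw [e]
    exact (hsm.fderiv_of_isOpen mrc_isOpen (m := 1) (by norm_num)).clm_apply contDiffOn_const
  filter_upwards [mrc_ae_mem, ae_all_iff.2 h2] with x hx h
  rw [mrc_laplacian_eq (hsm.contDiffAt (mrc_isOpen.mem_nhds hx))]
  exact Finset.sum_congr rfl fun a _ => by rw [h a hx]


/-- the weak data of a density (all produced by `MRFib.lean`). -/
structure DensWeak (n : Space → ℝ) (G : Space → Space) (K : Fin 3 → Space → Space) (g : Space → ℝ) : Prop where
  continuous : Continuous n
  pos : ∀ x, 0 < n x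
  smooth : ContDiffOn ℝ 2 n nucleiᶜ
  integrable : Integrable n
  grad : IsWeakGrad n G
  grad_L6 : MemLp G 6 volume
  hess : ∀ a, IsWeakGrad (fun x => G x a) (K a)
  hess_L2 : ∀ a, L2Loc volume (K a)
  lap_L1 : Integrable (fun x => ∑ a, K a x a)
  grad_le : ∀ x, ‖G x‖ ≤ 2 * √3 * √(n x) * g x
  g_L2 : MemLp g 2 volume

/-- `s ↦ 1/(2√s)`. -/
def mrcW (s : ℝ) : ℝ := 1 / (2 * √s)

theorem mrc_contDiffOn_W : ContDiffOn ℝ 2 mrcW (Ioi 0) := by
  unfold mrcW
  refine contDiffOn_const.div (contDiffOn_const.mul (contDiffOn_id.sqrt fun x hx => (ne_of_gt hx))) ?_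
  intro x hx
  have : 0 < √x := Real.sqrt_pos.2 hx
  positivity

namespace DensWeak

variable {n : Space → ℝ} {G : Space → Space} {K : Fin 3 → Space → Space} {g : Space → ℝ}

/-- the weak gradient of `√n`. -/
def sG (n : Space → ℝ) (G : Space → Space) (x : Space) : Space := mrcW (n x) • G x

/-- the rows of the weak Hessian of `√n`. -/
def sK (n : Space → ℝ) (G : Space → Space) (K : Fin 3 → Space → Space) (a : Fin 3) (x : Space) : Space :=
  G x a • (deriv mrcW (n x) • G x) + mrcW (n x) • K a x

theorem continuous_W (D : DensWeak n G K g) : Continuous fun x => mrcW (n x) :=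
  mrc_contDiffOn_W.continuousOn.comp_continuous D.continuous D.pos

theorem continuous_dW (D : DensWeak n G K g) : Continuous fun x => deriv mrcW (n x) :=
  (mrc_contDiffOn_W.continuousOn_deriv_of_isOpen isOpen_Ioi (by norm_num)).comp_continuous D.continuous D.pos

theorem sqrt_smooth (D : DensWeak n G K g) : ContDiffOn ℝ 2 (fun x => √(n x)) nucleiᶜ :=
  D.smooth.sqrt fun x _ => (D.pos x).ne'

theorem isWeakGrad_sqrt (D : DensWeak n G K g) : IsWeakGrad (fun x => √(n x)) (sG n G) := by
  have h := tk_weakGrad_comp_loc D.grad D.continuous isOpen_Ioi D.pos (Θ := Real.sqrt)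
    (contDiffOn_id.sqrt fun x hx => (ne_of_gt hx))
  have e : (fun x => deriv Real.sqrt (n x) • G x) = sG n G := by
    funext x
    rw [(Real.hasDerivAt_sqrt (D.pos x).ne').deriv]; rfl
  rwa [e] at h

theorem isWeakGrad_W (D : DensWeak n G K g) :
    IsWeakGrad (fun x => mrcW (n x)) (fun x => deriv mrcW (n x) • G x) :=
  tk_weakGrad_comp_loc D.grad D.continuous isOpen_Ioi D.pos (mrc_contDiffOn_W.of_le (by norm_num))

theorem isWeakGrad_sG (D : DensWeak n G K g) (a : Fin 3) : IsWeakGrad (fun x => sG n G x a) (sK n G K a) := by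
  have h := D.isWeakGrad_W.mul (D.hess a) (fs_l2Loc_of_continuous D.continuous_W)
    (mrc_l2Loc_smul D.continuous_dW (mrc_l2Loc_of_six D.grad_L6)) (mrc_l2Loc_coord (mrc_l2Loc_of_six D.grad_L6) a)
    (D.hess_L2 a)
  exact h

theorem l2Loc_sG (D : DensWeak n G K g) : L2Loc volume (sG n G) :=
  mrc_l2Loc_smul D.continuous_W (mrc_l2Loc_of_six D.grad_L6)

theorem l2Loc_sK (D : DensWeak n G K g) (a : Fin 3) : L2Loc volume (sK n G K a) := by
  refine mrc_l2Loc_add ?_ (mrc_l2Loc_smul D.continuous_W (D.hess_L2 a))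
  have e : (fun x => G x a • (deriv mrcW (n x) • G x)) = fun x => deriv mrcW (n x) • (G x a • G x) := by
    funext x; rw [smul_comm]
  rw [e]
  exact mrc_l2Loc_smul D.continuous_dW (mrc_l2Loc_coord_smul D.grad_L6 a)

theorem second (D : DensWeak n G K g) : gradient n =ᵐ[volume] G ∧ Δ n =ᵐ[volume] fun x => ∑ a, K a x a :=
  mrc_second D.smooth D.grad D.hess

theorem sqrt_second (D : DensWeak n G K g) :
    gradient (fun x => √(n x)) =ᵐ[volume] sG n G ∧ Δ (fun x => √(n x)) =ᵐ[volume] fun x => ∑ a, sK n G K a x a :=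
  mrc_second D.sqrt_smooth D.isWeakGrad_sqrt D.isWeakGrad_sG

theorem memLp_sqrt (D : DensWeak n G K g) : MemLp (fun x => √(n x)) 2 volume := by
  rw [memLp_two_iff_integrable_sq (D.continuous.sqrt.aestronglyMeasurable)]
  refine D.integrable.congr (Eventually.of_forall fun x => ?_)
  exact (Real.sq_sqrt (D.pos x).le).symm

theorem memLp_sG (D : DensWeak n G K g) : MemLp (sG n G) 2 volume := by
  refine MemLp.of_le_mul (c := √3) D.g_L2 (D.continuous_W.aestronglyMeasurable.smul D.grad_L6.1) ?_
  refine Eventually.of_forall fun x => ?_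
  have hs : 0 < √(n x) := Real.sqrt_pos.2 (D.pos x)
  have h1 := D.grad_le x
  unfold sG mrcW
  rw [norm_smul, Real.norm_of_nonneg (by positivity)]
  calc 1 / (2 * √(n x)) * ‖G x‖ ≤ 1 / (2 * √(n x)) * (2 * √3 * √(n x) * g x) := by gcongr
    _ = √3 * g x := by field_simp
    _ ≤ √3 * ‖g x‖ := by gcongr; exact Real.le_norm_self _


theorem memLp_ball_of_l2Loc {f f' : Space → ℝ} (hf : L2Loc volume f) (h : f' =ᵐ[volume] f) (R : ℝ) :
    MemLp f' 2 (volume.restrict (Metric.ball 0 R)) :=
  ((hf _ (isCompact_closedBall 0 R)).mono_measure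
    (Measure.restrict_mono Metric.ball_subset_closedBall le_rfl)).ae_eq (EventuallyEq.symm (ae_restrict_of_ae h))

theorem l2Loc_trace_sK (D : DensWeak n G K g) : L2Loc volume (fun x => ∑ a, sK n G K a x a) := fun C hC =>
  memLp_finsetSum _ fun a _ => mrc_l2Loc_coord (D.l2Loc_sK a) a C hC

theorem sqrt_lap_weak (D : DensWeak n G K g) (φ : Space → ℝ) (hφ : ContDiff ℝ 1 φ) (hc : HasCompactSupport φ) :
    (∫ x, ⟪gradient (fun y => √(n y)) x, gradient φ x⟫_ℝ) = -(∫ x, Δ (fun y => √(n y)) x * φ x) := by
  obtain ⟨h1, h2⟩ := D.sqrt_second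
  have hH : IsH1 φ (gradient φ) := isH1_of_contDiff hφ hc
  have key : ∀ a : Fin 3, ∫ x, sG n G x a * gradient φ x a = - ∫ x, sK n G K a x a * φ x := by
    intro a
    have := (D.isWeakGrad_sG a).integral_mul_H1c (mrc_l2Loc_coord D.l2Loc_sG a) (D.l2Loc_sK a) hH hc
      (EuclideanSpace.single a 1)
    simpa [EuclideanSpace.inner_single_right, mrc_gradient_apply] using this
  have hcg : Continuous (gradient φ) := by
    have : gradient φ = fun x => (InnerProductSpace.toDual ℝ Space).symm (fderiv ℝ φ x) := rfl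
    rw [this]
    exact (InnerProductSpace.toDual ℝ Space).symm.continuous.comp (hφ.continuous_fderiv (by norm_num))
  have hsg : HasCompactSupport (gradient φ) := by
    have : gradient φ = fun x => (InnerProductSpace.toDual ℝ Space).symm (fderiv ℝ φ x) := rfl
    rw [this]
    exact (hc.fderiv (𝕜 := ℝ)).comp_left (map_zero _)
  have i1 : ∀ a : Fin 3, Integrable (fun x => sG n G x a * gradient φ x a) := by
    intro a
    have := (mrc_l2Loc_coord D.l2Loc_sG a).locallyIntegrable.integrable_smul_left_of_hasCompactSupport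
      (g := fun x => gradient φ x a) ((EuclideanSpace.proj (𝕜 := ℝ) a).continuous.comp hcg)
      (hsg.comp_left (g := fun v : Space => v a) rfl)
    refine this.congr (Eventually.of_forall fun x => ?_)
    simp [mul_comm]
  have i2 : ∀ a : Fin 3, Integrable (fun x => sK n G K a x a * φ x) := by
    intro a
    have := (mrc_l2Loc_coord (D.l2Loc_sK a) a).locallyIntegrable.integrable_smul_left_of_hasCompactSupport
      (g := φ) hφ.continuous hc
    refine this.congr (Eventually.of_forall fun x => ?_)
    simp [mul_comm]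
  calc (∫ x, ⟪gradient (fun y => √(n y)) x, gradient φ x⟫_ℝ)
      = ∫ x, ∑ a, sG n G x a * gradient φ x a := by
        refine integral_congr_ae ?_
        filter_upwards [h1] with x hx
        rw [hx, PiLp.inner_apply]
        exact Finset.sum_congr rfl fun a _ => by simp [mul_comm]
    _ = ∑ a, ∫ x, sG n G x a * gradient φ x a := integral_finsetSum _ fun a _ => i1 a
    _ = ∑ a, - ∫ x, sK n G K a x a * φ x := Finset.sum_congr rfl fun a _ => key a
    _ = - ∫ x, ∑ a, sK n G K a x a * φ x := by
        rw [integral_finsetSum _ fun a _ => i2 a, Finset.sum_neg_distrib]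
    _ = -(∫ x, Δ (fun y => √(n y)) x * φ x) := by
        congr 1
        refine integral_congr_ae ?_
        filter_upwards [h2] with x hx
        rw [hx, Finset.sum_mul]

/-- **Lemma 2.4, scalar part.** -/
theorem densityBasic (D : DensWeak n G K g) (hev : ∀ x, n (reflZ x) = n x) (hax : ∀ a x, n (rotZ a x) = n x)
    (hint : (∫ x, n x) = 3) : DensityBasic n where
  continuous := D.continuous
  pos := D.pos
  even := hev
  axisymmetric := hax
  integrable := D.integrable
  integral_eq := hint
  smooth := D.smooth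
  weakGrad := D.grad.congr_ae EventuallyEq.rfl D.second.1.symm
  grad_L6 := fun _ => (D.grad_L6.ae_eq D.second.1.symm).restrict _
  sqrt_h1 := ⟨D.memLp_sqrt, D.memLp_sG.ae_eq D.sqrt_second.1.symm,
    D.isWeakGrad_sqrt.congr_ae EventuallyEq.rfl D.sqrt_second.1.symm⟩
  sqrt_lap_L2 := fun R => memLp_ball_of_l2Loc D.l2Loc_trace_sK D.sqrt_second.2 R
  sqrt_lap_weak := D.sqrt_lap_weak
  lap_L1 := D.lap_L1.congr D.second.2.symm

end DensWeak

end Claimed.Open.R278
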