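import Claimed.Open.R278.MRFib
import Claimed.Open.R278.MRScalar
import Claimed.Open.R278.MBMain
import Claimed.Open.R278.CHXSpin

/-!
# Result 278, layer L2b (BP-MB2, prefix MR), file 5: TOP THEOREMS of the package

Architect: helper217.  The three contracts of `CHXContracts.lean` (helper122), verbatim:
* `mr_versions`      : continuous versions of the density and of the removal amplitude of an eigenfunction;
* `mr_densityBasic`  : Lemma 2.4;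
* `mr_convergence`   : `n_0 = 2b²+e²`, `n_t → n_0` locally uniformly and in `L¹`, uniform `L⁶` bound of the gradients.
(The other two top theorems of the package: `mr_scaling_transfer` in `MRScale.lean`, `mr_unique` in `MRUnique.lean`.)

Further exports: `camp φ Ψ` (THE continuous removal amplitude, `camp φ Ψ x σ = √3 ⟪tensK σ φ, fibRep Ψ x⟫`), `SmallCoupling.h2_close` (`H²` closeness, last assertion of Prop 2.3).

THIS FILE HAS NO `sorry` OF ITS OWN.  `camp_ae_eq` uses `tensK_coeFn`, `density_psiZero` uses `TwoCentre.chx_psiZero_expand`, `TwoCentre.norm_gK_sq`, `TwoCentre.inner_phiZero_gK`, `norm_tensK` of `CHXSpin.lean` (helper122).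
-/

open MeasureTheory Filter Topology Set
open scoped ContDiff InnerProductSpace ComplexConjugate ENNReal Laplacian

noncomputable section

namespace Claimed.Open.R278

/-! ## AMP -/

section AMP

/-- THE continuous version of the direct removal amplitude. -/
def camp (φ : L2 2) (Ψ : L2 3) (x : Space) : EuclideanSpace ℂ (Fin 2) :=
  WithLp.toLp 2 fun σ => (√3 : ℂ) * ⟪tensK σ φ, fibRep Ψ x⟫_ℂ

theorem continuous_camp (φ : L2 2) {Ψ : L2 3} (h : MemH2 Ψ) : Continuous (camp φ Ψ) := by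
  refine (PiLp.continuous_toLp 2 _).comp (continuous_pi fun σ => ?_)
  exact continuous_const.mul (continuous_const.inner (fibRep_spec h).1)

theorem mrt_inner_spinEmb (σ : Fin 2) (v : SpinSpace 2) (w : SpinSpace 3) :
    ⟪spinEmb σ v, w⟫_ℂ = ∑ s : SpinConfig 2, conj (v s) * w (Fin.cons σ s : SpinConfig 3) := by
  rw [PiLp.inner_apply, ← (Fin.consEquiv (fun _ : Fin 3 => Fin 2)).sum_comp, Fintype.sum_prod_type,
    Finset.sum_eq_single σ]
  · refine Finset.sum_congr rfl fun s _ => ?_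
    simp [spinEmb_apply, Fin.consEquiv, mul_comm]
  · intro τ _ hτ
    refine Finset.sum_eq_zero fun s _ => ?_
    simp [spinEmb_apply, Fin.consEquiv, hτ]
  · simp

theorem camp_ae_eq (φ : L2 2) {Ψ : L2 3} (h : MemH2 Ψ) : camp φ Ψ =ᵐ[volume] removalAmplitude φ Ψ := by
  filter_upwards [(fibRep_spec h).2.1, AG.ae_memLp_slice (L2.memLp Ψ)] with x h1 h2
  unfold camp removalAmplitude
  congr 1
  funext σ
  congr 1
  rw [h1, AG.inner_slice h2]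
  refine integral_congr_ae ?_
  filter_upwards [tensK_coeFn σ φ] with y hy
  rw [hy]
  exact mrt_inner_spinEmb σ (φ y) _

end AMP

/-! ## Contracts 1 and 2 -/

theorem memH2_of_mem_eigenspace {m : ℕ} {t E : ℝ} (h0 : 0 ≤ t) (h1 : t ≤ 1) {Ψ : L2 m}
    (hΨ : Ψ ∈ Eigenspace (scaledPotential m t) E) : MemH2 Ψ :=
  (halfLap_of_mem_eigenspace h0 h1 hΨ).memH2.1

/-- **MR-1.** -/
theorem mr_versions {t E : ℝ} (h0 : 0 ≤ t) (h1 : t ≤ 1) {Ψ : L2 3}
    (hΨ : Ψ ∈ Eigenspace (scaledPotential 3 t) E) (φ : L2 2) :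
    (∃ n : Space → ℝ, Continuous n ∧ n =ᵐ[volume] density Ψ) ∧
    ∃ amp : Space → EuclideanSpace ℂ (Fin 2), Continuous amp ∧ amp =ᵐ[volume] removalAmplitude φ Ψ :=
  have h := memH2_of_mem_eigenspace h0 h1 hΨ
  ⟨⟨cdens Ψ, continuous_cdens h, cdens_ae_eq h⟩, ⟨camp φ Ψ, continuous_camp φ h, camp_ae_eq φ h⟩⟩

/-- the weak data of the density of an `H²` state. -/
theorem densWeak_cdens {Ψ : L2 3} (h : MemH2 Ψ) (hpos : ∀ x, 0 < cdens Ψ x)
    (hsm : ContDiffOn ℝ 2 (cdens Ψ) nucleiᶜ) :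
    DensWeak (cdens Ψ) (cdensGrad Ψ) (cdensHess Ψ) (fibGradNorm Ψ) where
  continuous := continuous_cdens h
  pos := hpos
  smooth := hsm
  integrable := (integrable_density Ψ).congr (cdens_ae_eq h).symm
  grad := isWeakGrad_cdens h
  grad_L6 := (memLp_six_cdensGrad h (B := ∑ a, ∑ b, ‖dX b (dX a Ψ)‖) fun a b =>
    (Finset.single_le_sum (f := fun b => ‖dX b (dX a Ψ)‖) (fun _ _ => norm_nonneg _) (Finset.mem_univ b)).trans
      (Finset.single_le_sum (f := fun a => ∑ b, ‖dX b (dX a Ψ)‖)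
        (fun _ _ => Finset.sum_nonneg fun _ _ => norm_nonneg _) (Finset.mem_univ a))).1
  hess := isWeakGrad_cdensGrad h
  hess_L2 := l2Loc_cdensHess h
  lap_L1 := integrable_trace_cdensHess h
  grad_le := norm_cdensGrad_le Ψ
  g_L2 := (memLp_fibGradNorm h.1).1

/-- **MR-2** (Lemma 2.4). -/
theorem mr_densityBasic {t E : ℝ} (h0 : 0 ≤ t) (h1 : t ≤ 1) {Ψ : L2 3}
    (hΨ : Ψ ∈ Eigenspace (scaledPotential 3 t) E) (hn1 : ‖Ψ‖ = 1) (hax : IsAxisymmetric Ψ)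
    (hodd : HasReflectionParity (-1) Ψ) {n : Space → ℝ} (hc : Continuous n)
    (hne : n =ᵐ[volume] density Ψ) (hpos : ∀ x, 0 < n x) (hsm : ContDiffOn ℝ 2 n nucleiᶜ) :
    DensityBasic n := by
  have h := memH2_of_mem_eigenspace h0 h1 hΨ
  obtain rfl : n = cdens Ψ := eq_cdens h hc hne
  refine (densWeak_cdens h hpos hsm).densityBasic ?_ ?_ ?_
  · intro x
    refine cdens_comp_isometry h reflEquiv ?_ x
    filter_upwards [hodd] with X hX
    simp only [reflEquiv_apply]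
    rw [hX, norm_smul]; simp
  · intro a x
    refine cdens_comp_isometry h (rotEquiv a) ?_ x
    filter_upwards [hax a] with X hX
    simp only [rotEquiv_apply]
    rw [hX]
  · rw [integral_congr_ae hne, integral_density, hn1]; norm_num

/-! ## `H²` closeness -/

section CLOSE

theorem mrt_memH1_sub {m : ℕ} {Ψ Φ : L2 m} (h : MemH1 Ψ) (h' : MemH1 Φ) : MemH1 (Ψ - Φ) := by
  have := h.add (h'.smul (-1))
  simpa [sub_eq_add_neg] using this

theorem mrt_le_of_h1sq {m : ℕ} {Φ : L2 m} {δ : ℝ} (hδ : 0 ≤ δ) (h : h1sq Φ ≤ δ ^ 2) : ‖Φ‖ ≤ δ ∧ √(kin Φ) ≤ δ := by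
  unfold h1sq at h
  have hk := kin_nonneg Φ
  constructor
  · exact abs_le_of_sq_le_sq' (by nlinarith [sq_nonneg ‖Φ‖]) hδ |>.2
  · rw [show δ = √(δ ^ 2) from (Real.sqrt_sq hδ).symm]
    exact Real.sqrt_le_sqrt (by nlinarith [sq_nonneg ‖Φ‖])

/-- the right-hand sides `E Ψ - V_t Ψ` of two nearby eigenvalue problems. -/
theorem norm_rhs_sub_le {t E E0 δ : ℝ} (h0 : 0 ≤ t) (h1 : t ≤ 1) {Ψ Ψ0 : L2 3} (hΨ : MemH1 Ψ) (hΨ0 : MemH1 Ψ0)
    (hδ : 0 ≤ δ) (hE : |E - E0| ≤ δ) (hcl : h1sq (Ψ - Ψ0) ≤ δ ^ 2) :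
    ‖((E : ℂ) • Ψ - potMul t Ψ) - ((E0 : ℂ) • Ψ0 - potMul 0 Ψ0)‖
      ≤ (|E| + ‖Ψ0‖ + 32) * δ + t * (64 * √(kin Ψ0)) := by
  obtain ⟨c1, c2⟩ := mrt_le_of_h1sq hδ hcl
  have hd := mrt_memH1_sub hΨ hΨ0
  have e : ((E : ℂ) • Ψ - potMul t Ψ) - ((E0 : ℂ) • Ψ0 - potMul 0 Ψ0)
      = (E : ℂ) • (Ψ - Ψ0) + ((E - E0 : ℝ) : ℂ) • Ψ0 - potMul t (Ψ - Ψ0) - (potMul t Ψ0 - potMul 0 Ψ0) := by
    rw [potMul_sub t hΨ hΨ0]
    push_cast
    module
  have n1 : ‖(E : ℂ) • (Ψ - Ψ0)‖ ≤ |E| * δ := by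
    rw [norm_smul, Complex.norm_real, Real.norm_eq_abs]; gcongr
  have n2 : ‖((E - E0 : ℝ) : ℂ) • Ψ0‖ ≤ δ * ‖Ψ0‖ := by
    rw [norm_smul, Complex.norm_real, Real.norm_eq_abs]; gcongr
  have n3 : ‖potMul t (Ψ - Ψ0)‖ ≤ 32 * δ := by
    have := norm_potMul_le (t := t) (by rw [abs_of_nonneg h0]; exact h1) hd
    calc _ ≤ 2 * (((3 : ℕ) : ℝ) + 1) ^ 2 * √(kin (Ψ - Ψ0)) := this
      _ = 32 * √(kin (Ψ - Ψ0)) := by norm_num
      _ ≤ 32 * δ := by gcongr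
  have n4 : ‖potMul t Ψ0 - potMul 0 Ψ0‖ ≤ t * (64 * √(kin Ψ0)) := by
    have := norm_potMul_sub_le h0 hΨ0
    calc _ ≤ t * (4 * (((3 : ℕ) : ℝ) + 1) ^ 2 * √(kin Ψ0)) := this
      _ = t * (64 * √(kin Ψ0)) := by norm_num
  rw [e]
  calc _ ≤ ‖(E : ℂ) • (Ψ - Ψ0)‖ + ‖((E - E0 : ℝ) : ℂ) • Ψ0‖ + ‖potMul t (Ψ - Ψ0)‖ + ‖potMul t Ψ0 - potMul 0 Ψ0‖ :=
        (norm_sub_le _ _).trans (add_le_add_left ((norm_sub_le _ _).trans (add_le_add_left (norm_add_le _ _) _)) _)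
    _ ≤ |E| * δ + δ * ‖Ψ0‖ + 32 * δ + t * (64 * √(kin Ψ0)) := by gcongr
    _ = _ := by ring

variable {b e : Space → ℝ} {εb εe τ C : ℝ} {E₂ E₃ : ℝ → ℝ} {φ : ℝ → L2 2} {Ψ : ℝ → L2 3}

theorem SmallCoupling.zero_mem (hs : SmallCoupling b e εb εe τ C E₂ E₃ φ Ψ) : (0 : ℝ) ∈ Icc 0 τ :=
  ⟨le_rfl, hs.τ_pos.le⟩

theorem SmallCoupling.mem_eigenspace (hs : SmallCoupling b e εb εe τ C E₂ E₃ φ Ψ) {t : ℝ} (ht : t ∈ Icc 0 τ) :
    Ψ t ∈ Eigenspace (scaledPotential 3 t) (E₃ t) := (hs.ground t ht).2.2.1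

/-- the constant of `SmallCoupling.h2_close`. -/
def h2CloseConst (εb εe C : ℝ) (Ψ0 : L2 3) : ℝ :=
  2 * ((|2 * εb + εe| + C + 1 + 32) * C + 64 * √(kin Ψ0)) + C + h2Bound 3 (|2 * εb + εe| + C)

/-- **Proposition 2.3, last assertion: `‖Ψ_t - Ψ_0‖_{H²} = O(t)`**, and the uniform `H²` bound. -/
theorem SmallCoupling.h2_close (hs : SmallCoupling b e εb εe τ C E₂ E₃ φ Ψ) (hτ : τ ≤ 1) {t : ℝ}
    (ht : t ∈ Icc 0 τ) :
    MemH2 (Ψ t) ∧ ‖Ψ t - Ψ 0‖ ≤ h2CloseConst εb εe C (Ψ 0) * t ∧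
      (∀ i j, ‖weakGrad (weakGrad (Ψ t - Ψ 0) j) i‖ ≤ h2CloseConst εb εe C (Ψ 0) * t) ∧
      ∀ i j, ‖weakGrad (weakGrad (Ψ t) j) i‖ ≤ h2CloseConst εb εe C (Ψ 0) := by
  have h0 : 0 ≤ t := ht.1
  have h1 : t ≤ 1 := ht.2.trans hτ
  have hC := hs.C_nonneg
  have HLt := halfLap_of_mem_eigenspace h0 h1 (hs.mem_eigenspace ht)
  have HL0 := halfLap_of_mem_eigenspace le_rfl zero_le_one (hs.mem_eigenspace hs.zero_mem)
  have hE0 : E₃ 0 = 2 * εb + εe :=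
    le_antisymm (by simpa using hs.E₃_le 0 hs.zero_mem) (hs.E₃_ge 0 hs.zero_mem)
  have hEd : |E₃ t - E₃ 0| ≤ C * t := by
    rw [hE0, abs_le]
    constructor
    · have := hs.E₃_ge t ht
      have : 0 ≤ C * t := mul_nonneg hC h0
      linarith [hs.E₃_ge t ht]
    · linarith [hs.E₃_le t ht]
  have hCt : C * t ≤ C := by nlinarith
  have hEa : |E₃ t| ≤ |2 * εb + εe| + C := by
    have : |E₃ t| ≤ |E₃ 0| + |E₃ t - E₃ 0| := by
      have := abs_add_le (E₃ 0) (E₃ t - E₃ 0)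
      simpa using this
    rw [hE0] at this hEd
    linarith
  have hcl : h1sq (Ψ t - Ψ 0) ≤ (C * t) ^ 2 := by rw [hs.Ψ_zero]; exact hs.Ψ_close t ht
  have hn0 : ‖Ψ 0‖ = 1 := (hs.ground 0 hs.zero_mem).1
  have hk : 0 ≤ √(kin (Ψ 0)) := Real.sqrt_nonneg _
  have hB : 0 ≤ h2Bound 3 (|2 * εb + εe| + C) := by unfold h2Bound; positivity
  set A : ℝ := (|2 * εb + εe| + C + 1 + 32) * C + 64 * √(kin (Ψ 0)) with hA
  have hA0 : 0 ≤ A := by positivity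
  have hM : h2CloseConst εb εe C (Ψ 0) = 2 * A + C + h2Bound 3 (|2 * εb + εe| + C) := rfl
  have hR := norm_rhs_sub_le h0 h1 HLt.1 HL0.1 (mul_nonneg hC h0) hEd hcl
  have hR' : ‖((E₃ t : ℂ) • Ψ t - potMul t (Ψ t)) - ((E₃ 0 : ℂ) • Ψ 0 - potMul 0 (Ψ 0))‖ ≤ A * t := by
    refine hR.trans ?_
    rw [hn0, hA]
    have : (|E₃ t| + 1 + 32) * (C * t) ≤ (|2 * εb + εe| + C + 1 + 32) * (C * t) := by
      have : 0 ≤ C * t := mul_nonneg hC h0
      gcongr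
    nlinarith
  refine ⟨HLt.memH2.1, ?_, ?_, ?_⟩
  · refine (mrt_le_of_h1sq (mul_nonneg hC h0) hcl).1.trans ?_
    rw [hM]; nlinarith
  · intro i j
    refine ((HLt.sub HL0).memH2.2 i j).trans ?_
    rw [hM]; nlinarith
  · intro i j
    refine ((mr_memH2 h0 h1 (hs.mem_eigenspace ht) (hs.ground t ht).1).2 i j).trans ?_
    refine (h2Bound_mono (E' := |2 * εb + εe| + C) ?_).trans ?_
    · rw [abs_of_nonneg (a := |2 * εb + εe| + C) (by positivity)]; exact hEa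
    · rw [hM]; linarith

end CLOSE

/-! ## Contract 3 -/

section CONV

variable {b e : Space → ℝ} {εb εe : ℝ}

/-- the density of the Slater determinant `b↑ ∧ b↓ ∧ e↑`. -/
theorem mrt_norm_sq_fib (v : AG.Fib) : ‖v‖ ^ 2 = ∫ y, ‖v y‖ ^ 2 := by
  have h : ⟪v, v⟫_ℂ = ∫ x, ⟪v x, v x⟫_ℂ := L2.inner_def v v
  have h2 : (⟪v, v⟫_ℂ).re = ‖v‖ ^ 2 := by
    rw [inner_self_eq_norm_sq_to_K]; norm_cast
  rw [← h2, h]
  have : (fun x => ⟪v x, v x⟫_ℂ) = fun x => ((‖v x‖ ^ 2 : ℝ) : ℂ) := by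
    funext x; rw [inner_self_eq_norm_sq_to_K]; norm_cast
  rw [this, integral_complex_ofReal]; simp

theorem density_psiZero (h : TwoCentre b e εb εe) : density (psiZero b e) =ᵐ[volume] refDensity b e := by
  filter_upwards [AG.ae_ae_cons3 h.chx_psiZero_expand] with x hx
  set v : AG.Fib := (e x : ℂ) • tensK 0 (phiZero b) + (b x : ℂ) • gK b e with hv
  have h2 : ∫ y, ‖v y‖ ^ 2 = ∫ y : Config 2, 3 * ‖psiZero b e (Fin.cons x y : Config 3)‖ ^ 2 := by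
    refine integral_congr_ae ?_
    filter_upwards [hx, Lp.coeFn_add ((e x : ℂ) • tensK 0 (phiZero b)) ((b x : ℂ) • gK b e),
      Lp.coeFn_smul (e x : ℂ) (tensK 0 (phiZero b)), Lp.coeFn_smul (b x : ℂ) (gK b e)] with y hy a1 a2 a3
    simp only [AG.cons3_zero, AG.tail3_cons3] at hy
    rw [hv, a1, Pi.add_apply, a2, a3, Pi.smul_apply, Pi.smul_apply, ← hy, norm_smul, mul_pow, Real.norm_eq_abs,
      sq_abs, Real.sq_sqrt (by norm_num)]
    rfl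
  have h3 : ‖v‖ ^ 2 = e x ^ 2 + 2 * b x ^ 2 := by
    rw [hv, @norm_add_sq ℂ, inner_smul_left, inner_smul_right, h.inner_phiZero_gK, norm_smul, norm_smul, mul_pow,
      mul_pow, h.norm_gK_sq, norm_tensK, h.norm_phiZero, Complex.norm_real, Complex.norm_real, Real.norm_eq_abs,
      Real.norm_eq_abs, sq_abs, sq_abs]
    simp
    ring
  unfold density refDensity
  rw [← integral_const_mul, ← h2, ← mrt_norm_sq_fib, h3]
  ring

theorem mrt_continuous_refDensity (h : TwoCentre b e εb εe) : Continuous (refDensity b e) := by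
  unfold refDensity
  exact (continuous_const.mul (h.data.orbital_b.1.pow 2)).add (h.data.orbital_e.1.pow 2)

theorem norm_lapX_le {Φ : L2 3} {B : ℝ} (h : ∀ i j, ‖weakGrad (weakGrad Φ j) i‖ ≤ B) : ‖lapX Φ‖ ≤ 3 * B := by
  unfold lapX
  calc ‖∑ a, dX a (dX a Φ)‖ ≤ ∑ a : Fin 3, ‖dX a (dX a Φ)‖ := norm_sum_le _ _
    _ ≤ ∑ _a : Fin 3, B := Finset.sum_le_sum fun a _ => h (0, a) (0, a)
    _ = 3 * B := by simp

/-- **MR-3** (Lemma 2.4, uniform part). -/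
theorem mr_convergence (h : TwoCentre b e εb εe) {τ C : ℝ} {E₂ E₃ : ℝ → ℝ} {φ : ℝ → L2 2}
    {Ψ : ℝ → L2 3} (hs : SmallCoupling b e εb εe τ C E₂ E₃ φ Ψ) (hτ : τ ≤ 1) {n : ℝ → Space → ℝ}
    (hc : ∀ t ∈ Set.Icc 0 τ, Continuous (n t)) (hne : ∀ t ∈ Set.Icc 0 τ, n t =ᵐ[volume] density (Ψ t))
    (hsm : ∀ t ∈ Set.Icc 0 τ, ContDiffOn ℝ 2 (n t) nucleiᶜ) :
    n 0 = refDensity b e ∧
    (∀ R : ℝ, TendstoUniformlyOn n (refDensity b e) (𝓝[>] 0) (Metric.closedBall 0 R)) ∧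
    Tendsto (fun t => ∫ x, |n t x - refDensity b e x|) (𝓝[>] 0) (𝓝 0) ∧
    ∀ R : ℝ, ∃ C' : ℝ≥0∞, C' < ⊤ ∧ ∀ t ∈ Set.Icc 0 τ,
      eLpNorm (gradient (n t)) 6 (volume.restrict (Metric.ball 0 R)) ≤ C' := by
  set M := h2CloseConst εb εe C (Ψ 0) with hM
  have hz := hs.zero_mem
  have hH2 : ∀ t ∈ Icc 0 τ, MemH2 (Ψ t) := fun t ht => (hs.h2_close hτ ht).1
  have hn : ∀ t ∈ Icc 0 τ, n t = cdens (Ψ t) := fun t ht => eq_cdens (hH2 t ht) (hc t ht) (hne t ht)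
  have hn0 : n 0 = refDensity b e :=
    mru_eq_of_ae_eq (hc 0 hz) (mrt_continuous_refDensity h)
      ((hne 0 hz).trans (by rw [hs.Ψ_zero]; exact density_psiZero h))
  have hM0 : 0 ≤ M := (norm_nonneg _).trans ((hs.h2_close hτ hz).2.2.2 (0, 0) (0, 0))
  have hnorm : ∀ t ∈ Icc 0 τ, ‖Ψ t‖ = 1 := fun t ht => (hs.ground t ht).1
  have hh := h2C_nonneg
  set c : ℝ := 3 * h2C ^ 2 * (2 + 6 * M) * (4 * M) with hcdef
  have hc0 : 0 ≤ c := by positivity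
  have hsup : ∀ t ∈ Icc 0 τ, ∀ x, |n t x - refDensity b e x| ≤ c * t := by
    intro t ht x
    obtain ⟨_, k1, k2, k3⟩ := hs.h2_close hτ ht
    have k4 := (hs.h2_close hτ hz).2.2.2
    rw [← hn0, hn t ht, hn 0 hz]
    refine (abs_cdens_sub_le (hH2 t ht) (hH2 0 hz) x).trans ?_
    have l1 := norm_lapX_le k3
    have l2 := norm_lapX_le k4
    have l3 := norm_lapX_le k2
    rw [hnorm t ht, hnorm 0 hz]
    have ht0 : 0 ≤ t := ht.1
    calc 3 * h2C ^ 2 * (1 + ‖lapX (Ψ t)‖ + 1 + ‖lapX (Ψ 0)‖) * (‖Ψ t - Ψ 0‖ + ‖lapX (Ψ t - Ψ 0)‖)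
        ≤ 3 * h2C ^ 2 * (1 + 3 * M + 1 + 3 * M) * (M * t + 3 * (M * t)) := by gcongr
      _ = c * t := by rw [hcdef]; ring
  have hL1 : ∀ t ∈ Icc 0 τ, ∫ x, |n t x - refDensity b e x| ≤ 6 * M * t := by
    intro t ht
    obtain ⟨_, k1, _, _⟩ := hs.h2_close hτ ht
    rw [← hn0, hn t ht, hn 0 hz]
    refine (integral_abs_cdens_sub_le (hH2 t ht) (hH2 0 hz)).trans ?_
    rw [hnorm t ht, hnorm 0 hz]
    nlinarith
  refine ⟨hn0, ?_, ?_, ?_⟩
  · intro R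
    rw [Metric.tendstoUniformlyOn_iff]
    intro ε hε
    have hpos : 0 < min τ (ε / (c + 1)) := lt_min hs.τ_pos (by positivity)
    filter_upwards [Ioo_mem_nhdsGT hpos] with t ht x _
    have ht' : t ∈ Icc 0 τ := ⟨ht.1.le, (ht.2.trans_le (min_le_left _ _)).le⟩
    rw [Real.dist_eq, abs_sub_comm]
    refine (hsup t ht' x).trans_lt ?_
    have h2 : t < ε / (c + 1) := ht.2.trans_le (min_le_right _ _)
    rw [lt_div_iff₀ (by positivity)] at h2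
    nlinarith [ht.1]
  · refine squeeze_zero' (Eventually.of_forall fun t => integral_nonneg fun x => abs_nonneg _)
      (g := fun t => 6 * M * t) ?_ ?_
    · filter_upwards [Ioo_mem_nhdsGT hs.τ_pos] with t ht
      exact hL1 t ⟨ht.1.le, ht.2.le⟩
    · have : Tendsto (fun t : ℝ => 6 * M * t) (𝓝 0) (𝓝 (6 * M * 0)) := (continuous_const.mul continuous_id).tendsto 0
      rw [mul_zero] at this
      exact this.mono_left nhdsWithin_le_nhds
  · intro R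
    refine ⟨ENNReal.ofReal (54 * h2C * sobolevC * (1 + 3 * M) * M), ENNReal.ofReal_lt_top, fun t ht => ?_⟩
    have k3 := (hs.h2_close hτ ht).2.2.2
    have hg : gradient (n t) =ᵐ[volume] cdensGrad (Ψ t) := by
      have hw : IsWeakGrad (n t) (cdensGrad (Ψ t)) := by rw [hn t ht]; exact isWeakGrad_cdens (hH2 t ht)
      filter_upwards [tk_weakGrad_eq_gradient_on hw mrc_isOpen ((hsm t ht).of_le (by norm_num)), mrc_ae_mem]
        with x hx hm using (hx hm).symm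
    calc eLpNorm (gradient (n t)) 6 (volume.restrict (Metric.ball 0 R))
        ≤ eLpNorm (gradient (n t)) 6 volume := eLpNorm_mono_measure _ Measure.restrict_le_self
      _ = eLpNorm (cdensGrad (Ψ t)) 6 volume := eLpNorm_congr_ae hg
      _ ≤ ENNReal.ofReal (54 * h2C * sobolevC * (‖Ψ t‖ + 3 * M) * M) :=
          (memLp_six_cdensGrad (hH2 t ht) fun a b => k3 (0, b) (0, a)).2
      _ = _ := by rw [hnorm t ht]

end CONV

end Claimed.Open.R278
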