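import Claimed.Open.R278.TXEq

/-!
# Result 278, package TX, file 6: the exact formula for `∂_z (n₀ ∂_z δ_*)`

`x = cyl p z = (p, 0, z)`, `p > 0` (so `x ∉ nuclei`), `∂ⱼ = dfield (inl j)`, `n₀ = refDensity b e = 2b² + e²`, `δ_* = refDelta b e = π/2 - arctan (e/(√2 b))`.
Leaves `TX-K1`, `TX-K2`, `TX-K3`: ALL PROVED (this file is sorry-free, modulo `TXEq.lean`).
-/

open MeasureTheory Filter
open scoped ContDiff InnerProductSpace ComplexConjugate ENNReal Topology Laplacian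

noncomputable section

namespace Claimed.Open.R278

/-! ## LEAF TX-K1: `√2 b e ≤ n₀ δ_*`

`s ≤ (1+s²)(π/2 - arctan s)` for `s ≥ 0`: `g(s) = π/2 - arctan s - s/(1+s²)` has `g' = -2/(1+s²)² < 0` and `g → 0` at `+∞`
(`Real.tendsto_arctan_atTop`), so `g ≥ 0` (`antitone_of_deriv_nonpos` + `ge_of_tendsto`).  Alternatively `π/2 - arctan s = arctan s⁻¹` (`Real.arctan_inv_of_pos`) and
`x/(1+x²) ≤ arctan x` for `x ≥ 0` (monotonicity of `arctan x - x/(1+x²)`, derivative `2x²/(1+x²)²`).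
Second statement: `s = E/(√2 B)`, `√2 B E = 2B² s`, `2B² + E² = 2B² (1+s²)`. -/

section K1

theorem tx_div_le_arctan {x : ℝ} (hx : 0 ≤ x) : x / (1 + x ^ 2) ≤ Real.arctan x := by
  have hd : ∀ y : ℝ, HasDerivAt (fun y => Real.arctan y - y / (1 + y ^ 2))
      (1 / (1 + y ^ 2) - (1 * (1 + y ^ 2) - y * (2 * y)) / (1 + y ^ 2) ^ 2) y := by
    intro y
    have h1 : (1 + y ^ 2) ≠ 0 := by positivity
    have h2 : HasDerivAt (fun y : ℝ => 1 + y ^ 2) (2 * y) y := by
      simpa using ((hasDerivAt_id y).pow 2).const_add 1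
    exact (Real.hasDerivAt_arctan y).sub ((hasDerivAt_id y).div h2 h1)
  have hmono : Monotone (fun y => Real.arctan y - y / (1 + y ^ 2)) := by
    apply monotone_of_deriv_nonneg (fun y => (hd y).differentiableAt)
    intro y
    rw [(hd y).deriv]
    have h1 : (0 : ℝ) < 1 + y ^ 2 := by positivity
    have : 1 / (1 + y ^ 2) - (1 * (1 + y ^ 2) - y * (2 * y)) / (1 + y ^ 2) ^ 2
        = 2 * y ^ 2 / (1 + y ^ 2) ^ 2 := by
      field_simp
      ring
    rw [this]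
    positivity
  have := hmono hx
  simp only [Real.arctan_zero, zero_div, sub_zero] at this
  linarith

theorem tx_arctan_ineq {s : ℝ} (hs : 0 ≤ s) : s ≤ (1 + s ^ 2) * (Real.pi / 2 - Real.arctan s) := by
  rcases hs.eq_or_lt with rfl | hs
  · simp; positivity
  · rw [← Real.arctan_inv_of_pos hs]
    have h1 := tx_div_le_arctan (x := s⁻¹) (by positivity)
    have h2 : s⁻¹ / (1 + s⁻¹ ^ 2) = s / (1 + s ^ 2) := by
      field_simp
      ring
    rw [h2, div_le_iff₀ (by positivity)] at h1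
    linarith

theorem tx_be_le {B E : ℝ} (hB : 0 < B) (hE : 0 ≤ E) :
    √2 * (B * E) ≤ (2 * B ^ 2 + E ^ 2) * (Real.pi / 2 - Real.arctan (E / (√2 * B))) := by
  have h2 : (0 : ℝ) < √2 := by positivity
  have hsq : √2 ^ 2 = 2 := Real.sq_sqrt (by norm_num)
  set s := E / (√2 * B) with hs
  have hs0 : 0 ≤ s := by positivity
  have h1 := tx_arctan_ineq hs0
  have e1 : √2 * (B * E) = 2 * B ^ 2 * s := by
    rw [hs]
    field_simp
    nlinarith [hsq]
  have e2 : 2 * B ^ 2 + E ^ 2 = 2 * B ^ 2 * (1 + s ^ 2) := by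
    rw [hs, div_pow, mul_pow, hsq]
    field_simp
  rw [e1, e2]
  have h3 : 2 * B ^ 2 * s ≤ 2 * B ^ 2 * ((1 + s ^ 2) * (Real.pi / 2 - Real.arctan s)) :=
    mul_le_mul_of_nonneg_left h1 (by positivity)
  linarith

end K1

/-! ## LEAF TX-K2: derivatives along vertical lines, axisymmetry, `∂₂²`

* `tx_hasDerivAt_cyl_z`: chain rule, `s ↦ cyl p s` is affine with derivative `e₂ = vfield (inl 2) _` (copy of `hasDerivAt_comp_cyl`, `CHTA2`).
* `tx_axisym_d11`: `Ω₂ f := dfield (inr 2) f = -x₁ ∂₀f + x₀ ∂₁f` vanishes identically on `nucleiᶜ` (derivative at `a = 0` of `a ↦ f (rotZ a x) = f x`; `d/da rotZ a x |₀ = vfield (inr 2) x`).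
  Differentiate in the direction `e₁`:  `0 = ∂₁(Ω₂f) = -∂₀f - x₁ ∂₁∂₀f + x₀ ∂₁∂₁f`; at `x = (p,0,z)`: `p ∂₁∂₁f = ∂₀f`.
* `TXSol.d22`: `Δ f = ∂₀∂₀f + ∂₁∂₁f + ∂₂∂₂f` (`laplacian_eq_sum_dfield`, `Fin.sum_univ_three`) and `h.eq`. -/

section K2

theorem tx_hasDerivAt_cyl_z {H : Space → ℝ} {p z : ℝ} (hH : DifferentiableAt ℝ H (cyl p z)) :
    HasDerivAt (fun s => H (cyl p s)) (dfield (Sum.inl 2) H (cyl p z)) z := by
  have h1 : HasDerivAt (fun s : ℝ => cyl p s) (EuclideanSpace.single 2 (1 : ℝ) : Space) z := by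
    have e : (fun s : ℝ => cyl p s)
        = fun s : ℝ => cyl p 0 + s • (EuclideanSpace.single 2 (1 : ℝ) : Space) := by
      funext s
      apply space_ext <;> simp
    rw [e]
    simpa using ((hasDerivAt_id z).smul_const (EuclideanSpace.single 2 (1 : ℝ) : Space)).const_add
      (cyl p 0)
  exact hH.hasFDerivAt.comp_hasDerivAt z h1

/-- `dfield a f` is smooth off the nuclei. -/
theorem tx_contDiffOn_dfield {f : Space → ℝ} (hf : ContDiffOn ℝ ∞ f nucleiᶜ) (a : Fin 3 ⊕ Fin 3) :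
    ContDiffOn ℝ ∞ (dfield a f) nucleiᶜ := by
  have h1 : ContDiffOn ℝ ∞ (fderiv ℝ f) nucleiᶜ :=
    hf.fderiv_of_isOpen tx_isOpen_nuclei_compl (by simp)
  exact h1.clm_apply (contDiff_vfield a).contDiffOn

theorem tx_contDiffAt {f : Space → ℝ} (hf : ContDiffOn ℝ ∞ f nucleiᶜ) {x : Space} (hx : x ∉ nuclei) :
    ContDiffAt ℝ ∞ f x := (hf x hx).contDiffAt (tx_isOpen_nuclei_compl.mem_nhds hx)

theorem tx_differentiableAt {f : Space → ℝ} (hf : ContDiffOn ℝ ∞ f nucleiᶜ) {x : Space}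
    (hx : x ∉ nuclei) : DifferentiableAt ℝ f x := (tx_contDiffAt hf hx).differentiableAt (by simp)

/-- the rotation field about the axis kills axisymmetric functions. -/
theorem tx_axisym_rot {f : Space → ℝ} (hf : ContDiffOn ℝ ∞ f nucleiᶜ)
    (haxi : ∀ a x, f (rotZ a x) = f x) {x : Space} (hx : x ∉ nuclei) :
    dfield (Sum.inr 2) f x = 0 := by
  have h1 : HasDerivAt (fun a : ℝ => rotZ a x) (vfield (Sum.inr 2) x) 0 := by
    have e : (fun a : ℝ => rotZ a x) = fun a : ℝ => Real.cos a • (!₂[x 0, x 1, 0] : Space)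
        + Real.sin a • (!₂[-x 1, x 0, 0] : Space) + (!₂[0, 0, x 2] : Space) := by
      funext a
      apply space_ext <;> simp [rotZ] <;> ring
    rw [e]
    have h := (((Real.hasDerivAt_cos 0).smul_const (!₂[x 0, x 1, 0] : Space)).add
      ((Real.hasDerivAt_sin 0).smul_const (!₂[-x 1, x 0, 0] : Space))).add_const
        (!₂[0, 0, x 2] : Space)
    have e2 : -Real.sin 0 • (!₂[x 0, x 1, 0] : Space) + Real.cos 0 • (!₂[-x 1, x 0, 0] : Space)
        = vfield (Sum.inr 2) x := by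
      apply space_ext <;> simp [vfield]
    rw [e2] at h
    exact h
  have h2 : HasDerivAt (fun a : ℝ => f (rotZ a x)) (dfield (Sum.inr 2) f x) 0 := by
    have h3 : DifferentiableAt ℝ f (rotZ 0 x) := by rw [rotZ_zero]; exact tx_differentiableAt hf hx
    have := h3.hasFDerivAt.comp_hasDerivAt (0 : ℝ) h1
    rwa [rotZ_zero] at this
  have h4 : (fun a : ℝ => f (rotZ a x)) = fun _ => f x := funext fun a => haxi a x
  rw [h4] at h2
  exact (h2.unique (hasDerivAt_const _ _))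


theorem tx_axisym_d11 {f : Space → ℝ} (hf : ContDiffOn ℝ ∞ f nucleiᶜ)
    (haxi : ∀ a x, f (rotZ a x) = f x) {p : ℝ} (hp : 0 < p) (z : ℝ) :
    dfield (Sum.inl 1) (dfield (Sum.inl 1) f) (cyl p z) = dfield (Sum.inl 0) f (cyl p z) / p := by
  have hx : cyl p z ∉ nuclei := tx_cyl_not_mem_nuclei hp z
  -- `Ω₂ f = -x₁ ∂₀ f + x₀ ∂₁ f`
  have e1 : ∀ y : Space, dfield (Sum.inr 2) f y
      = -(y 1) * dfield (Sum.inl 0) f y + y 0 * dfield (Sum.inl 1) f y := by
    intro y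
    have : vfield (Sum.inr 2) y = (-(y 1)) • vfield (Sum.inl 0) y + (y 0) • vfield (Sum.inl 1) y := by
      apply space_ext <;> simp [vfield]
    unfold dfield
    rw [this, map_add, map_smul, map_smul]
    simp
  have e2 : (fun y : Space => -(y 1) * dfield (Sum.inl 0) f y + y 0 * dfield (Sum.inl 1) f y)
      =ᶠ[𝓝 (cyl p z)] fun _ => (0 : ℝ) := by
    filter_upwards [tx_isOpen_nuclei_compl.mem_nhds hx] with y hy
    rw [← e1 y]
    exact tx_axisym_rot hf haxi hy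
  have e3 := e2.fderiv_eq (𝕜 := ℝ)
  have d0 : DifferentiableAt ℝ (dfield (Sum.inl 0) f) (cyl p z) :=
    tx_differentiableAt (tx_contDiffOn_dfield hf _) hx
  have d1 : DifferentiableAt ℝ (dfield (Sum.inl 1) f) (cyl p z) :=
    tx_differentiableAt (tx_contDiffOn_dfield hf _) hx
  have c0 : HasFDerivAt (fun y : Space => y 0) (EuclideanSpace.proj 0 : Space →L[ℝ] ℝ) (cyl p z) :=
    (EuclideanSpace.proj 0 : Space →L[ℝ] ℝ).hasFDerivAt
  have c1 : HasFDerivAt (fun y : Space => y 1) (EuclideanSpace.proj 1 : Space →L[ℝ] ℝ) (cyl p z) :=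
    (EuclideanSpace.proj 1 : Space →L[ℝ] ℝ).hasFDerivAt
  have h := ((c1.neg.mul d0.hasFDerivAt).add (c0.mul d1.hasFDerivAt)).fderiv
  have h' : fderiv ℝ (fun y : Space => -(y 1) * dfield (Sum.inl 0) f y
      + y 0 * dfield (Sum.inl 1) f y) (cyl p z) = _ := h
  rw [e3] at h'
  have h2 := congrArg (fun L : Space →L[ℝ] ℝ => L (EuclideanSpace.single 1 (1 : ℝ))) h'
  have k1 : fderiv ℝ (dfield (Sum.inl 1) f) (cyl p z) (EuclideanSpace.single 1 (1 : ℝ))
      = dfield (Sum.inl 1) (dfield (Sum.inl 1) f) (cyl p z) := rfl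
  have q0 : (cyl p z) 0 = p := by simp [cyl]
  have q1 : (cyl p z) 1 = 0 := by simp [cyl]
  have p0 : (EuclideanSpace.proj 0 : Space →L[ℝ] ℝ) (EuclideanSpace.single 1 (1 : ℝ)) = 0 := by simp
  have p1 : (EuclideanSpace.proj 1 : Space →L[ℝ] ℝ) (EuclideanSpace.single 1 (1 : ℝ)) = 1 := by simp
  simp only [fderiv_fun_const, Pi.zero_apply, zero_apply, add_apply,
    smul_apply, neg_apply, smul_eq_mul, Pi.neg_apply, k1, q0, q1, p0, p1] at h2
  rw [eq_div_iff hp.ne']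
  linarith

theorem TXSol.d22 {f : Space → ℝ} {k : ℝ} (h : TXSol f k) (haxi : ∀ a x, f (rotZ a x) = f x)
    {p : ℝ} (hp : 0 < p) (z : ℝ) :
    dfield (Sum.inl 2) (dfield (Sum.inl 2) f) (cyl p z)
      = 2 * (uD (cyl p z) + k ^ 2 / 2) * f (cyl p z)
        - dfield (Sum.inl 0) (dfield (Sum.inl 0) f) (cyl p z) - dfield (Sum.inl 0) f (cyl p z) / p := by
  have hx : cyl p z ∉ nuclei := tx_cyl_not_mem_nuclei hp z
  have h1 := h.eq _ hx
  have h2 := laplacian_eq_sum_dfield ((tx_contDiffAt h.smooth hx).of_le (by norm_cast))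
  rw [Fin.sum_univ_three, tx_axisym_d11 h.smooth haxi hp z] at h2
  linarith

end K2

/-! ## LEAF TX-K3: the flux `n₀ ∂_z δ_*` and its derivative

`B s = b (cyl p s)`, `E s = e (cyl p s)`, `B' = ∂₂b`, `E' = ∂₂e` (`tx_hasDerivAt_cyl_z`).  `u = E/(√2 B)`, `u' = (E'B - EB')/(√2 B²)`, `1 + u² = (2B²+E²)/(2B²)`,
`(π/2 - arctan u)' = -u'/(1+u²) = -√2 (E'B - EB')/(2B²+E²)` (`HasDerivAt.arctan`), so `n₀ δ' = √2 (E B' - B E')` FOR EVERY `s` (`tx_flux_eq`).
Hence the function `s ↦ n₀ δ'` equals `s ↦ √2 (E B' - B E')` (`funext`), whose derivative is `√2 (E B'' - B E'')` (the terms `E'B'` cancel), `B'' = ∂₂∂₂b` (`tx_hasDerivAt_cyl_z` for `∂₂b`,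
which is differentiable by `tx_contDiffOn_dfield`). -/

section K3

theorem tx_flux_eq {b e : Space → ℝ} (hb : ContDiffOn ℝ ∞ b nucleiᶜ) (he : ContDiffOn ℝ ∞ e nucleiᶜ)
    (hpos : ∀ x, 0 < b x) {p : ℝ} (hp : 0 < p) (s : ℝ) :
    refDensity b e (cyl p s) * deriv (fun s' => refDelta b e (cyl p s')) s
      = √2 * (e (cyl p s) * dfield (Sum.inl 2) b (cyl p s)
          - b (cyl p s) * dfield (Sum.inl 2) e (cyl p s)) := by
  have hx : cyl p s ∉ nuclei := tx_cyl_not_mem_nuclei hp s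
  have hB := tx_hasDerivAt_cyl_z (tx_differentiableAt hb hx)
  have hE := tx_hasDerivAt_cyl_z (tx_differentiableAt he hx)
  have h2 : (0 : ℝ) < √2 := by positivity
  have hsq : √2 ^ 2 = 2 := Real.sq_sqrt (by norm_num)
  have hB0 : 0 < b (cyl p s) := hpos _
  have hne : √2 * b (cyl p s) ≠ 0 := by positivity
  have hu := (hE.div (hB.const_mul √2) hne).arctan
  have hd : HasDerivAt (fun s' => refDelta b e (cyl p s')) _ s := hu.const_sub (Real.pi / 2)
  rw [hd.deriv]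
  unfold refDensity
  set B := b (cyl p s)
  set E := e (cyl p s)
  set B' := dfield (Sum.inl 2) b (cyl p s)
  set E' := dfield (Sum.inl 2) e (cyl p s)
  have hn : 0 < 2 * B ^ 2 + E ^ 2 := by positivity
  have e1 : 1 + (E / (√2 * B)) ^ 2 = (2 * B ^ 2 + E ^ 2) / (2 * B ^ 2) := by
    rw [div_pow, mul_pow, hsq]
    field_simp
  have e2 : ((fun s => e (cyl p s)) / fun y => √2 * b (cyl p y)) s = E / (√2 * B) := rfl
  rw [e2, e1, mul_pow, hsq]
  field_simp
  nlinarith [hsq]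

theorem tx_flux_deriv {b e : Space → ℝ} (hb : ContDiffOn ℝ ∞ b nucleiᶜ)
    (he : ContDiffOn ℝ ∞ e nucleiᶜ) (hpos : ∀ x, 0 < b x) {p : ℝ} (hp : 0 < p) (z : ℝ) :
    deriv (fun s => refDensity b e (cyl p s) * deriv (fun s' => refDelta b e (cyl p s')) s) z
      = √2 * (e (cyl p z) * dfield (Sum.inl 2) (dfield (Sum.inl 2) b) (cyl p z)
          - b (cyl p z) * dfield (Sum.inl 2) (dfield (Sum.inl 2) e) (cyl p z)) := by
  have hx : cyl p z ∉ nuclei := tx_cyl_not_mem_nuclei hp z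
  have e0 : (fun s => refDensity b e (cyl p s) * deriv (fun s' => refDelta b e (cyl p s')) s)
      = fun s => √2 * (e (cyl p s) * dfield (Sum.inl 2) b (cyl p s)
          - b (cyl p s) * dfield (Sum.inl 2) e (cyl p s)) :=
    funext fun s => tx_flux_eq hb he hpos hp s
  rw [e0]
  have hB := tx_hasDerivAt_cyl_z (tx_differentiableAt hb hx)
  have hE := tx_hasDerivAt_cyl_z (tx_differentiableAt he hx)
  have hB' := tx_hasDerivAt_cyl_z (tx_differentiableAt (tx_contDiffOn_dfield hb (Sum.inl 2)) hx)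
  have hE' := tx_hasDerivAt_cyl_z (tx_differentiableAt (tx_contDiffOn_dfield he (Sum.inl 2)) hx)
  have h := ((hE.mul hB').sub (hB.mul hE')).const_mul √2
  have h' : deriv (fun s => √2 * (e (cyl p s) * dfield (Sum.inl 2) b (cyl p s)
          - b (cyl p s) * dfield (Sum.inl 2) e (cyl p s))) z = _ := h.deriv
  rw [h']
  ring

end K3

/-! ## The exact formula (glue) -/

/-- `∂_z(n₀ ∂_z δ_*) = √2 [ (γ² - k₀²) b e + (b ∂₀²e - e ∂₀²b) + (b ∂₀e - e ∂₀b)/p ]`. -/
theorem tx_numerator {b e : Space → ℝ} {γ k₀ : ℝ} (hb : TXSol b γ) (he : TXSol e k₀)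
    (hab : ∀ a x, b (rotZ a x) = b x) (hae : ∀ a x, e (rotZ a x) = e x) (hpos : ∀ x, 0 < b x)
    {p : ℝ} (hp : 0 < p) (z : ℝ) :
    deriv (fun s => refDensity b e (cyl p s) * deriv (fun s' => refDelta b e (cyl p s')) s) z
      = √2 * ((γ ^ 2 - k₀ ^ 2) * (b (cyl p z) * e (cyl p z))
          + (b (cyl p z) * dfield (Sum.inl 0) (dfield (Sum.inl 0) e) (cyl p z)
              - e (cyl p z) * dfield (Sum.inl 0) (dfield (Sum.inl 0) b) (cyl p z))
          + (b (cyl p z) * dfield (Sum.inl 0) e (cyl p z)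
              - e (cyl p z) * dfield (Sum.inl 0) b (cyl p z)) / p) := by
  rw [tx_flux_deriv hb.smooth he.smooth hpos hp z, hb.d22 hab hp z, he.d22 hae hp z]
  ring

end Claimed.Open.R278
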