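import Claimed.Open.R278.TXStrip
import Claimed.Open.R278.TXCalc

/-!
# Result 278, package TX, file 7: the exports

* `tx_sol_b`, `tx_sol_e`      : `b`, `e` are exterior solutions (`TXSol`) with rates `γ = txRate εb`, `k₀ = txRate εe`;
* `tx_apriori`                : a priori decay of all words of `b`, `e`;
* `tx_fastOrbital`            : the structure `FastOrbital` of `CHDefs.lean`;
* `tx_slow_lower`             : `c t A_{k₀} ≤ e` on `z ≥ 0` (the zero coupling case of (3.18));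
* `tx_refStrip_small`         : verbatim `refStrip_small` of `Top.lean`.

One leaf: `TX-F` (`tx_radial_bounds`).  Everything else in this file is proved.
-/

open MeasureTheory Filter
open scoped ContDiff InnerProductSpace ComplexConjugate ENNReal Topology Laplacian

noncomputable section

namespace Claimed.Open.R278

variable {b e : Space → ℝ} {εb εe : ℝ}

/-! ## `b`, `e` are exterior solutions -/

theorem tx_rates (h : TwoCentre b e εb εe) :
    0.99 < txRate εe ∧ txRate εe < txRate εb ∧ txRate εb < 1.01 := by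
  refine ⟨h.k0_gt, ?_, h.gamma_lt⟩
  unfold txRate
  apply Real.sqrt_lt_sqrt
  · have := h.εe_neg; linarith
  · have := h.data.lt; linarith

theorem tx_sol_b (h : TwoCentre b e εb εe) : TXSol b (txRate εb) := by
  obtain ⟨h1, h2, h3⟩ := tx_rates h
  exact txSol_of_orbital h.data.orbital_b h.smooth_b (by linarith) (by linarith)

theorem tx_sol_e (h : TwoCentre b e εb εe) : TXSol e (txRate εe) := by
  obtain ⟨h1, h2, h3⟩ := tx_rates h
  exact txSol_of_orbital h.data.orbital_e h.smooth_e (by linarith) (by linarith)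

/-- a priori decay of all words. -/
theorem tx_apriori (h : TwoCentre b e εb εe) : ∃ C : ℕ → ℝ,
    WordBdd (2 * bigD) C (fun x => Real.exp (-(1 / 4 * ‖x‖))) b ∧
    WordBdd (2 * bigD) C (fun x => Real.exp (-(1 / 4 * ‖x‖))) e := by
  obtain ⟨C₁, h₁⟩ := (tx_sol_b h).apriori
  obtain ⟨C₂, h₂⟩ := (tx_sol_e h).apriori
  exact ⟨fun n => max (C₁ n) (C₂ n),
    h₁.mono le_rfl fun n x _ => mul_le_mul_of_nonneg_right (le_max_left _ _) (Real.exp_pos _).le,
    h₂.mono le_rfl fun n x _ => mul_le_mul_of_nonneg_right (le_max_right _ _) (Real.exp_pos _).le⟩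

/-- **the zero-coupling simple angular zero**: `c t A_{k₀}(r) ≤ e` on the upper half space. -/
theorem tx_slow_lower (h : TwoCentre b e εb εe) : ∃ R c : ℝ, 2 * bigD ≤ R ∧ 0 < c ∧
    ∀ x ∈ Ext R, 0 ≤ x 2 →
      c * (tz x * radialA (txRate εe) (2 / txRate εe - 1) ‖x‖) ≤ e x :=
  (tx_sol_e h).lower_odd h.data.odd_e h.data.axisymmetric_e h.data.pos_e

/-! ## LEAF TX-F: radial relative derivatives

`A = txA k`, `h = txH f k`, `β = 2/k - 1`, `|β| ≤ 2`, `r ≥ 2D ≥ 1`, `A ≤ f/c`, `C₀ = C 0` (`hE.rot_dr []`, `hE.rot_dr2 []`).  By `tx_dr_f`, `tx_dr_dr_f` (`TXStrip.lean`):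
`∂_r f + k f = (β/r) f + A ∂_r h`,  `|A ∂_r h| ≤ C₀ A/r² ≤ (C₀/c) f/r`;
`∂_r²f + 2k ∂_r f + k² f = ((β² - β)/r²) f + (2β/r) A ∂_r h + A ∂_r²h`, every term `≤ const · f/r`. -/

section F

theorem tx_radial_bounds {f : Space → ℝ} {k R : ℝ} {C : ℕ → ℝ} (h1 : 0.9 < k) (_h2 : k < 1.1)
    (hE : TXExp f k R C) {c : ℝ} (hc : 0 < c) (hlow : ∀ x ∈ Ext R, c * txA k x ≤ f x) :
    ∃ K : ℝ, 0 ≤ K ∧ ∀ x ∈ Ext R,
      |dr f x + k * f x| ≤ K * f x / ‖x‖ ∧
      |dr (dr f) x + 2 * k * dr f x + k ^ 2 * f x| ≤ K * f x / ‖x‖ := by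
  have hD := tx_one_le_bigD
  have hR1 : 1 ≤ R := by have := hE.R_ge; linarith
  have hR : 0 ≤ R := by linarith
  have hf := hE.words.1
  refine ⟨6 + 5 * |C 0| / c, by positivity, fun x hx => ?_⟩
  have hx0 : x ≠ 0 := ne_zero_of_mem_Ext hR hx
  have hxr : R < ‖x‖ := hx
  set r := ‖x‖ with hr
  have hr0 : 0 < r := by linarith
  set v := r⁻¹ with hv
  set β := 2 / k - 1 with hβdef
  have hv0 : 0 ≤ v := by positivity
  have hv1 : v ≤ 1 := inv_le_one_of_one_le₀ (by linarith)
  have hvv : v ^ 2 ≤ v := by nlinarith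
  have hβ : |β| ≤ 2 := by
    have hk0 : 0 < k := by linarith
    have b1 : 0 ≤ 2 / k := by positivity
    have b2 : 2 / k ≤ 3 := by rw [div_le_iff₀ hk0]; linarith
    rw [abs_le]; constructor <;> linarith
  have hA : 0 < txA k x := txA_pos k hx0
  have hlowx := hlow x hx
  have hF : 0 ≤ f x := (by positivity : 0 ≤ c * txA k x).trans hlowx
  have hoA : txA k x ≤ f x / c := by rw [le_div_iff₀' hc]; exact hlowx
  have einv : (r ^ 2)⁻¹ = v ^ 2 := by rw [hv, inv_pow]
  have d1 : |dr (txH f k) x| ≤ |C 0| * v := by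
    have := hE.rot_dr [] isRotWord_nil x hx
    rw [← hr, einv] at this
    exact this.trans (mul_le_mul (le_abs_self _) hvv (by positivity) (abs_nonneg _))
  have d2 : |dr (dr (txH f k)) x| ≤ |C 0| * v := by
    have := hE.rot_dr2 [] isRotWord_nil x hx
    rw [← hr, einv] at this
    exact this.trans (mul_le_mul (le_abs_self _) hvv (by positivity) (abs_nonneg _))
  have eβ : β / r = β * v := by rw [hv, div_eq_mul_inv]
  have eβ2 : β / r ^ 2 = β * v ^ 2 := by rw [← einv, div_eq_mul_inv]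
  have q1 := tx_dr_f hR k hf x hx
  have q2 := tx_dr_dr_f hR k hf x hx
  rw [← hr, eβ] at q1
  rw [← hr, eβ, eβ2] at q2
  set F := f x with hFdef
  set A := txA k x with hAdef
  set a1 := dr (txH f k) x with ha1
  set a2 := dr (dr (txH f k)) x with ha2
  set C0 := |C 0| with hC0
  have hC00 : 0 ≤ C0 := abs_nonneg _
  have aA : |A| ≤ A := by rw [abs_of_pos hA]
  have aF : |F| ≤ F := by rw [abs_of_nonneg hF]
  have av : |v| ≤ v := by rw [abs_of_nonneg hv0]
  have av1 : |v| ≤ 1 := by rwa [abs_of_nonneg hv0]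
  have fin : ∀ E n m : ℝ, E ≤ v * (n * F + m * C0 * A) → n ≤ 6 → 0 ≤ m → m ≤ 5 →
      E ≤ (6 + 5 * C0 / c) * F / r := by
    intro E n m hE' hn hm0 hm5
    have s1 : n * F + m * C0 * A ≤ 6 * F + 5 * C0 * (F / c) := by
      have b1 : n * F ≤ 6 * F := mul_le_mul_of_nonneg_right hn hF
      have b2 : m * C0 * A ≤ 5 * C0 * (F / c) :=
        mul_le_mul (mul_le_mul_of_nonneg_right hm5 hC00) hoA hA.le (by positivity)
      linarith
    calc E ≤ v * (n * F + m * C0 * A) := hE'
      _ ≤ v * (6 * F + 5 * C0 * (F / c)) := mul_le_mul_of_nonneg_left s1 hv0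
      _ = _ := by rw [hv]; field_simp
  constructor
  · rw [q1]
    have e : (-k + β * v) * F + A * a1 + k * F = β * v * F + A * a1 := by ring
    rw [e]
    apply fin _ 2 1 _ (by norm_num) (by norm_num) (by norm_num)
    have t1 : |β * v * F| ≤ 2 * v * F := tx_abs_mul_le (tx_abs_mul_le hβ av) aF
    have t2 : |A * a1| ≤ A * (C0 * v) := tx_abs_mul_le aA d1
    calc _ ≤ |β * v * F| + |A * a1| := abs_add_le _ _
      _ ≤ 2 * v * F + A * (C0 * v) := add_le_add t1 t2
      _ = _ := by ring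
  · rw [q1, q2]
    have e : ((-k + β * v) ^ 2 - β * v ^ 2) * F + 2 * (-k + β * v) * (A * a1) + A * a2
        + 2 * k * ((-k + β * v) * F + A * a1) + k ^ 2 * F
        = (β * β * v - β * v) * v * F + 2 * β * v * A * a1 + A * a2 := by ring
    rw [e]
    apply fin _ 6 5 _ (by norm_num) (by norm_num) (by norm_num)
    have t0 : |β * β * v - β * v| ≤ 2 * 2 * 1 + 2 * 1 :=
      (abs_sub _ _).trans (add_le_add (tx_abs_mul_le (tx_abs_mul_le hβ hβ) av1) (tx_abs_mul_le hβ av1))
    have t1 : |(β * β * v - β * v) * v * F| ≤ (2 * 2 * 1 + 2 * 1) * v * F :=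
      tx_abs_mul_le (tx_abs_mul_le t0 av) aF
    have t2 : |2 * β * v * A * a1| ≤ 2 * 2 * 1 * A * (C0 * v) :=
      tx_abs_mul_le (tx_abs_mul_le (tx_abs_mul_le (tx_abs_mul_le (by norm_num) hβ) av1) aA) d1
    have t3 : |A * a2| ≤ A * (C0 * v) := tx_abs_mul_le aA d2
    calc _ ≤ |(β * β * v - β * v) * v * F + 2 * β * v * A * a1| + |A * a2| := abs_add_le _ _
      _ ≤ |(β * β * v - β * v) * v * F| + |2 * β * v * A * a1| + |A * a2| := by
          gcongr; exact abs_add_le _ _
      _ ≤ (2 * 2 * 1 + 2 * 1) * v * F + 2 * 2 * 1 * A * (C0 * v) + A * (C0 * v) := by gcongr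
      _ = _ := by ring

end F

/-! ## `FastOrbital` (glue) -/

theorem tx_fastOrbital (h : TwoCentre b e εb εe) : ∃ (Rb : ℝ) (C : ℕ → ℝ) (c : ℝ), 2 * bigD ≤ Rb ∧
    ∀ R₁ : ℝ, Rb ≤ R₁ → FastOrbital b (txRate εb) R₁ C c := by
  have hs := tx_sol_b h
  obtain ⟨R₁, C, hE⟩ := hs.exp
  obtain ⟨R₂, c, hR₂, hc, hlow⟩ := hs.lower h.data.pos_b
  have hE' := hE.mono (le_max_left R₁ R₂)
  have hlow' : ∀ x ∈ Ext (max R₁ R₂), c * txA (txRate εb) x ≤ b x := fun x hx =>
    hlow x (Ext_mono (le_max_right R₁ R₂) hx)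
  obtain ⟨K, hK, hrad⟩ := tx_radial_bounds hs.k_lo hs.k_hi hE' hc hlow'
  have hD := tx_bigD_pos
  have hRb : 2 * bigD ≤ max R₁ R₂ := hR₂.trans (le_max_right _ _)
  refine ⟨max R₁ R₂, fun n => |C n| / c + |C n| + K, c, hRb, fun R hR => ?_⟩
  have hsub : Ext R ⊆ Ext (max R₁ R₂) := Ext_mono hR
  have hbpos : ∀ x, 0 ≤ b x := fun x => (h.data.pos_b x).le
  have hApos : ∀ x ∈ Ext R, 0 < txA (txRate εb) x := fun x hx =>
    radialA_pos _ _ (lt_of_le_of_lt (by linarith) (hsub hx))
  have hcoef : ∀ n, K ≤ |C n| / c + |C n| + K := fun n => by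
    have : 0 ≤ |C n| / c := by positivity
    have := abs_nonneg (C n)
    linarith
  refine ⟨hs.smooth.mono (tx_Ext_subset (by linarith)), fun x hx => ?_, h.data.even_b, hc,
    fun x hx => hlow' x (hsub hx), fun w x hx => ?_, fun x hx => ?_, fun x hx => ?_, fun x hx => ?_⟩
  · have := hs.eq x (tx_Ext_subset (R := R) (by linarith) hx)
    rw [this]; ring
  · have h1 : |dword w b x| ≤ C w.length * txA (txRate εb) x := hE'.words.2 w x (hsub hx)
    have h2 : txA (txRate εb) x ≤ b x / c := by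
      rw [le_div_iff₀ hc, mul_comm]; exact hlow' x (hsub hx)
    calc |dword w b x| ≤ |C w.length| * txA (txRate εb) x :=
          h1.trans (mul_le_mul_of_nonneg_right (le_abs_self _) (hApos x hx).le)
      _ ≤ |C w.length| * (b x / c) := mul_le_mul_of_nonneg_left h2 (abs_nonneg _)
      _ = |C w.length| / c * b x := by ring
      _ ≤ (|C w.length| / c + |C w.length| + K) * b x :=
          mul_le_mul_of_nonneg_right (by have := abs_nonneg (C w.length); linarith) (hbpos x)
  · have h1 : |dword [] b x| ≤ C 0 * txA (txRate εb) x := hE'.words.2 [] x (hsub hx)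
    rw [dword_nil] at h1
    calc b x ≤ |b x| := le_abs_self _
      _ ≤ C 0 * txA (txRate εb) x := h1
      _ ≤ (|C 0| / c + |C 0| + K) * txA (txRate εb) x :=
          mul_le_mul_of_nonneg_right (by
            have : 0 ≤ |C 0| / c := by positivity
            have := le_abs_self (C 0)
            linarith) (hApos x hx).le
  · refine (hrad x (hsub hx)).1.trans ?_
    have hx0 : 0 < ‖x‖ := lt_of_le_of_lt (by linarith) (hsub hx)
    exact div_le_div_of_nonneg_right (mul_le_mul_of_nonneg_right (hcoef 1) (hbpos x)) hx0.le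
  · refine (hrad x (hsub hx)).2.trans ?_
    have hx0 : 0 < ‖x‖ := lt_of_le_of_lt (by linarith) (hsub hx)
    exact div_le_div_of_nonneg_right (mul_le_mul_of_nonneg_right (hcoef 2) (hbpos x)) hx0.le

/-! ## The reference quotient in the strip (glue) -/

/-- `e ≥ 0` on `z ≥ 0`. -/
theorem tx_e_nonneg (h : TwoCentre b e εb εe) {x : Space} (hx : 0 ≤ x 2) : 0 ≤ e x := by
  rcases hx.lt_or_eq with hx | hx
  · exact (h.data.pos_e x hx).le
  · have e1 : reflZ x = x := by
      apply space_ext <;> simp [reflZ, ← hx]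
    have := h.data.odd_e x
    rw [e1] at this
    linarith

/-- the quotient is `O(1/p)` from above, uniformly in the strip. -/
theorem tx_quotient_le (h : TwoCentre b e εb εe) : ∃ K P : ℝ, 0 ≤ K ∧ 1 ≤ P ∧
    ∀ p z : ℝ, P ≤ p → 0 ≤ z → z ≤ stripL → refStripQuotient b e p z ≤ K / p := by
  have hsb := tx_sol_b h
  have hse := tx_sol_e h
  obtain ⟨r1, r2, r3⟩ := tx_rates h
  obtain ⟨Cb, Pb, hb⟩ := hsb.strip_pos h.data.pos_b
  obtain ⟨Ce, Pe, he⟩ := hse.strip_odd h.data.odd_e h.data.axisymmetric_e h.data.pos_e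
  refine ⟨2 * (|Cb| + |Ce|) + 1, max (max Pb Pe) 1, by positivity, le_max_right _ _,
    fun p z hp hz hzL => ?_⟩
  have hp1 : 1 ≤ p := (le_max_right _ _).trans hp
  have hp0 : 0 < p := by linarith
  have hpb : Pb ≤ p := ((le_max_left _ _).trans (le_max_left _ _)).trans hp
  have hpe : Pe ≤ p := ((le_max_right _ _).trans (le_max_left _ _)).trans hp
  obtain ⟨b1, b2⟩ := hb p z hpb hz hzL
  obtain ⟨e1, e2⟩ := he p z hpe hz hzL
  set x := cyl p z with hx
  have hB : 0 < b x := h.data.pos_b x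
  have hE : 0 ≤ e x := tx_e_nonneg h (by simpa [hx, cyl] using hz)
  set γ := txRate εb
  set k₀ := txRate εe
  set bp := dfield (Sum.inl 0) b x
  set bpp := dfield (Sum.inl 0) (dfield (Sum.inl 0) b) x
  set ep := dfield (Sum.inl 0) e x
  set epp := dfield (Sum.inl 0) (dfield (Sum.inl 0) e) x
  -- enlarge the constants
  have cb : Cb / p * b x ≤ |Cb| / p * b x :=
    mul_le_mul_of_nonneg_right (div_le_div_of_nonneg_right (le_abs_self _) hp0.le) hB.le
  have ce : Ce / p * e x ≤ |Ce| / p * e x :=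
    mul_le_mul_of_nonneg_right (div_le_div_of_nonneg_right (le_abs_self _) hp0.le) hE
  have b1' := abs_le.1 (b1.trans cb)
  have b2' := abs_le.1 (b2.trans cb)
  have e1' := abs_le.1 (e1.trans ce)
  have e2' := abs_le.1 (e2.trans ce)
  have hBE : 0 ≤ b x * e x := mul_nonneg hB.le hE
  -- the two brackets
  have t1 : b x * epp - e x * bpp ≤ (k₀ ^ 2 - γ ^ 2) * (b x * e x)
      + (|Cb| + |Ce|) / p * (b x * e x) := by
    have u1 : b x * (epp - k₀ ^ 2 * e x) ≤ b x * (|Ce| / p * e x) :=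
      mul_le_mul_of_nonneg_left e2'.2 hB.le
    have u2 : e x * (-(|Cb| / p * b x)) ≤ e x * (bpp - γ ^ 2 * b x) :=
      mul_le_mul_of_nonneg_left b2'.1 hE
    have : (|Cb| + |Ce|) / p * (b x * e x) = b x * (|Ce| / p * e x) + e x * (|Cb| / p * b x) := by
      ring
    nlinarith [u1, u2]
  have t2 : b x * ep - e x * bp ≤ ((|Cb| + |Ce|) + 1) * (b x * e x) := by
    have u1 : b x * (ep + k₀ * e x) ≤ b x * (|Ce| / p * e x) :=
      mul_le_mul_of_nonneg_left e1'.2 hB.le
    have u2 : e x * (-(|Cb| / p * b x)) ≤ e x * (bp + γ * b x) :=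
      mul_le_mul_of_nonneg_left b1'.1 hE
    have u3 : |Ce| / p ≤ |Ce| := div_le_self (abs_nonneg _) hp1
    have u4 : |Cb| / p ≤ |Cb| := div_le_self (abs_nonneg _) hp1
    have u5 : |Ce| / p * (b x * e x) ≤ |Ce| * (b x * e x) := mul_le_mul_of_nonneg_right u3 hBE
    have u6 : |Cb| / p * (b x * e x) ≤ |Cb| * (b x * e x) := mul_le_mul_of_nonneg_right u4 hBE
    have u7 : (γ - k₀) * (b x * e x) ≤ 1 * (b x * e x) :=
      mul_le_mul_of_nonneg_right (by linarith) hBE
    nlinarith [u1, u2, u5, u6, u7]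
  have t2' : (b x * ep - e x * bp) / p ≤ ((|Cb| + |Ce|) + 1) / p * (b x * e x) := by
    rw [div_mul_eq_mul_div]
    exact div_le_div_of_nonneg_right t2 hp0.le
  have hnum : deriv (fun s => refDensity b e (cyl p s)
      * deriv (fun s' => refDelta b e (cyl p s')) s) z
      ≤ (2 * (|Cb| + |Ce|) + 1) / p * (√2 * (b x * e x)) := by
    rw [tx_numerator hsb hse h.data.axisymmetric_b h.data.axisymmetric_e h.data.pos_b hp0 z]
    have : (γ ^ 2 - k₀ ^ 2) * (b x * e x) + (b x * epp - e x * bpp) + (b x * ep - e x * bp) / p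
        ≤ (2 * (|Cb| + |Ce|) + 1) / p * (b x * e x) := by
      have e3 : (2 * (|Cb| + |Ce|) + 1) / p * (b x * e x)
          = (|Cb| + |Ce|) / p * (b x * e x) + ((|Cb| + |Ce|) + 1) / p * (b x * e x) := by ring
      linarith
    calc √2 * ((γ ^ 2 - k₀ ^ 2) * (b x * e x) + (b x * epp - e x * bpp)
          + (b x * ep - e x * bp) / p)
        ≤ √2 * ((2 * (|Cb| + |Ce|) + 1) / p * (b x * e x)) :=
          mul_le_mul_of_nonneg_left this (Real.sqrt_nonneg _)
      _ = _ := by ring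
  have hden : √2 * (b x * e x) ≤ refDensity b e x * refDelta b e x := by
    unfold refDensity refDelta refTheta
    exact tx_be_le hB hE
  have hdpos : 0 < refDensity b e x * refDelta b e x := by
    apply mul_pos
    · unfold refDensity; positivity
    · unfold refDelta refTheta
      have := Real.arctan_lt_pi_div_two (e x / (√2 * b x))
      linarith
  unfold refStripQuotient
  rw [div_le_iff₀ hdpos]
  exact hnum.trans (mul_le_mul_of_nonneg_left hden (by positivity))

/-- **Second half of Lemma 7.2** (verbatim `refStrip_small` of `Top.lean`). -/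
theorem tx_refStrip_small (h : TwoCentre b e εb εe) :
    ∃ j₁ : ℕ, ∀ j : ℕ, j₁ ≤ j →
      (⨆ z ∈ Set.Icc 0 stripL, (refStripQuotient b e j z : EReal)) < ((stripMu ^ 2 : ℝ) : EReal) := by
  obtain ⟨K, P, hK, hP, hq⟩ := tx_quotient_le h
  obtain ⟨j₁, hj₁⟩ := exists_nat_ge (max P (200 * K + 1))
  refine ⟨j₁, fun j hj => ?_⟩
  have hjr : max P (200 * K + 1) ≤ (j : ℝ) := hj₁.trans (by exact_mod_cast hj)
  have hjP : P ≤ (j : ℝ) := (le_max_left _ _).trans hjr
  have hjK : 200 * K + 1 ≤ (j : ℝ) := (le_max_right _ _).trans hjr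
  have hj0 : (0 : ℝ) < j := by linarith
  have hb : K / (j : ℝ) ≤ 1 / 200 := by
    rw [div_le_div_iff₀ hj0 (by norm_num)]
    linarith
  have hsup : (⨆ z ∈ Set.Icc 0 stripL, (refStripQuotient b e j z : EReal))
      ≤ ((1 / 200 : ℝ) : EReal) := by
    refine iSup₂_le fun z hz => ?_
    exact_mod_cast (hq j z hjP hz.1 hz.2).trans hb
  refine lt_of_le_of_lt hsup ?_
  have : (1 / 200 : ℝ) < stripMu ^ 2 := by unfold stripMu; norm_num
  exact_mod_cast this

end Claimed.Open.R278
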