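import Claimed.Open.R278.CHXDefs
import Claimed.Open.R278.MRTop
import Claimed.Open.R278.TXTop
import Claimed.Open.R278.IONTop

/-!
# Result 278, package CHX: contracts with the neighbouring packages

Architect: helper122.  NO `sorry` LEFT: all seven contracts are now citations of `MRTop.lean`, `TXTop.lean`, `IONTop.lean`.  Every theorem of this file is the EXACT statement which the assembly (`CHXTop.lean`, `CHXBuild.lean`) consumes from a neighbouring
package.  It is closed by a CITATION of the neighbour's theorem (plus, if necessary, a few lines of adaptation) as soon as that theorem is on main: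

| contract               | package (sub-captain)  | content                                                                              |
|------------------------|------------------------|--------------------------------------------------------------------------------------|
| `chx_mr_versions`      | MR  (helper217)        | continuous versions of the density and of the removal amplitude (`H²` regularity)      |
| `chx_mr_densityBasic`  | MR  (helper217)        | Lemma 2.4: all fields of `DensityBasic`, given positivity and smoothness off the nuclei |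
| `chx_mr_convergence`   | MR  (helper217)        | `n_0 = 2b²+e²`, `n_t → n_0` locally uniformly and in `L¹`, uniform `L⁶_loc` gradient bounds |
| `chx_tx_fast`          | TX  (helper277)        | `FastOrbital b γ R Cb cb` for some exterior radius                                      |
| `chx_tx_lower`         | TX  (helper277)        | `|e| ≥ c₁ A₀(r) |z|/r` far out (subsolution + Hopf), i.e. `inf a₀⁰/ω_z > 0`             |
| `chx_ion_uniform`      | ION (helper24)         | `IonKit` with constants independent of `t ∈ [0, τ']`                                    |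
| `chx_ion_fixed`        | ION (helper24)         | `IonKit` at a fixed coupling `t ∈ (0, 1]`                                               |

The sub-captains may prove the statements in their own files under their own names; tell helper122, who then replaces the `sorry` here.
-/

open MeasureTheory Filter
open scoped ContDiff InnerProductSpace ComplexConjugate ENNReal Topology Laplacian

noncomputable section

namespace Claimed.Open.R278

variable {b e : Space → ℝ} {εb εe : ℝ}

/-! ## MR -/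

/-- **MR-1.**  `Ψ ∈ H²(ℝ⁹)`, hence `x ↦ Ψ(x,·) ∈ H²(ℝ³; L²(ℝ⁶)) ⊆ C_b(ℝ³; L²(ℝ⁶))`: the density `‖√3 Ψ(x,·)‖²` and the pairing with a fixed `φ ∈ L²(ℝ⁶)` have
continuous versions. -/
theorem chx_mr_versions {t E : ℝ} (h0 : 0 ≤ t) (h1 : t ≤ 1) {Ψ : L2 3}
    (hΨ : Ψ ∈ Eigenspace (scaledPotential 3 t) E) (φ : L2 2) :
    (∃ n : Space → ℝ, Continuous n ∧ n =ᵐ[volume] density Ψ) ∧
    ∃ amp : Space → EuclideanSpace ℂ (Fin 2), Continuous amp ∧ amp =ᵐ[volume] removalAmplitude φ Ψ :=
  mr_versions h0 h1 hΨ φ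

/-- **MR-2** (Lemma 2.4). -/
theorem chx_mr_densityBasic {t E : ℝ} (h0 : 0 ≤ t) (h1 : t ≤ 1) {Ψ : L2 3}
    (hΨ : Ψ ∈ Eigenspace (scaledPotential 3 t) E) (hn1 : ‖Ψ‖ = 1) (hax : IsAxisymmetric Ψ)
    (hodd : HasReflectionParity (-1) Ψ) {n : Space → ℝ} (hc : Continuous n)
    (hne : n =ᵐ[volume] density Ψ) (hpos : ∀ x, 0 < n x) (hsm : ContDiffOn ℝ 2 n nucleiᶜ) :
    DensityBasic n :=
  mr_densityBasic h0 h1 hΨ hn1 hax hodd hc hne hpos hsm

/-- **MR-3** (Lemma 2.4, uniform part; `H²` closeness `‖Ψ_t - Ψ_0‖_{H²} = O(t)`). -/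
theorem chx_mr_convergence (h : TwoCentre b e εb εe) {τ C : ℝ} {E₂ E₃ : ℝ → ℝ} {φ : ℝ → L2 2}
    {Ψ : ℝ → L2 3} (hs : SmallCoupling b e εb εe τ C E₂ E₃ φ Ψ) (hτ : τ ≤ 1) {n : ℝ → Space → ℝ}
    (hc : ∀ t ∈ Set.Icc 0 τ, Continuous (n t)) (hne : ∀ t ∈ Set.Icc 0 τ, n t =ᵐ[volume] density (Ψ t))
    (hsm : ∀ t ∈ Set.Icc 0 τ, ContDiffOn ℝ 2 (n t) nucleiᶜ) :
    n 0 = refDensity b e ∧
    (∀ R : ℝ, TendstoUniformlyOn n (refDensity b e) (𝓝[>] 0) (Metric.closedBall 0 R)) ∧
    Tendsto (fun t => ∫ x, |n t x - refDensity b e x|) (𝓝[>] 0) (𝓝 0) ∧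
    ∀ R : ℝ, ∃ C' : ℝ≥0∞, C' < ⊤ ∧ ∀ t ∈ Set.Icc 0 τ,
      eLpNorm (gradient (n t)) 6 (volume.restrict (Metric.ball 0 R)) ≤ C' :=
  mr_convergence h hs hτ hc hne hsm

/-! ## TX -/

/-- **TX-1** (3.17). -/
theorem chx_tx_fast (h : TwoCentre b e εb εe) :
    ∃ (R : ℝ) (Cb : ℕ → ℝ) (cb : ℝ), FastOrbital b (√(-(2 * εb))) R Cb cb := by
  obtain ⟨Rb, C, c, _, hF⟩ := tx_fastOrbital h
  exact ⟨Rb, C, c, hF Rb le_rfl⟩

/-- **TX-2** (end of the proof of Lemma 3.4): the subsolution `c A₀(r) ω_z (1 + M/r)` on the upper half space, Hopf's lemma on the inner hemisphere. -/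
theorem chx_tx_lower (h : TwoCentre b e εb εe) :
    ∃ R c₁ : ℝ, 0 < c₁ ∧ ∀ x ∈ Ext R,
      c₁ * radialA (√(-(2 * εe))) (2 / √(-(2 * εe)) - 1) ‖x‖ * |tz x| ≤ |e x| := by
  obtain ⟨R, c, _, hc, hlow⟩ := tx_slow_lower h
  refine ⟨R, c, hc, fun x hx => ?_⟩
  rcases le_total 0 (x 2) with hx2 | hx2
  · have h1 := hlow x hx hx2
    have h2 : |tz x| = tz x := abs_of_nonneg (div_nonneg hx2 (norm_nonneg _))
    rw [h2]
    refine le_trans (le_of_eq ?_) (h1.trans (le_abs_self _))
    unfold txRate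
    ring
  · have h1 := hlow (reflZ x) (reflZ_mem_Ext hx) (by rw [reflZ_apply_two]; linarith)
    have h3 : tz (reflZ x) = -tz x := by
      unfold tz
      rw [reflZ_apply_two, norm_reflZ, neg_div]
    have h2 : |tz x| = -tz x := abs_of_nonpos (div_nonpos_of_nonpos_of_nonneg hx2 (norm_nonneg _))
    rw [h.data.odd_e, h3, norm_reflZ] at h1
    rw [h2]
    refine le_trans (le_of_eq ?_) (h1.trans (neg_le_abs _))
    unfold txRate
    ring

/-! ## ION -/

/-- **ION-1.** -/
theorem chx_ion_uniform (h : TwoCentre b e εb εe) {τ C : ℝ} {E₂ E₃ : ℝ → ℝ} {φ : ℝ → L2 2}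
    {Ψ : ℝ → L2 3} (hs : SmallCoupling b e εb εe τ C E₂ E₃ φ Ψ) :
    ∃ τ' c CI : ℝ, 0 < τ' ∧ τ' ≤ τ ∧ 0 < c ∧
      ∀ t ∈ Set.Icc 0 τ', Nonempty (IonKit b e εb εe c CI t (E₂ t) (φ t)) :=
  ion_uniform h hs

/-- **ION-2.** -/
theorem chx_ion_fixed (h : TwoCentre b e εb εe) {t : ℝ} (ht : t ∈ Set.Ioc (0 : ℝ) 1) {E₂ : ℝ} {φ : L2 2}
    (hg : IsSimpleIsolatedGround (scaledPotential 2 t) Set.univ E₂ φ) (hax : IsAxisymmetric φ)
    (hev : HasReflectionParity 1 φ) (hsi : IsSinglet φ) :
    ∃ c CI : ℝ, 0 < c ∧ Nonempty (IonKit b e εb εe c CI t E₂ φ) :=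
  ion_fixed h ht hg hax hev hsi

end Claimed.Open.R278
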