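import Claimed.Open.R278.CHTop
import Claimed.Open.R278.CHTools

/-!
# Result 278, layer L5 (prefix DS): from the channel expansion to the density.  DEFINITIONS ONLY

The top theorems of the layer (`ds_three_scale`, `ds_radial`, `ds_horizontal`, `ds_strip`,
`ds_strip_vector`, `ds_drift`, `ds_planeTail`, `ds_planeTranslate`, `ds_bulkTranslate`,
`ds_amplitude_iff`) are stated and proved in `DSTop.lean`; CONSUMERS IMPORT `DSTop.lean`, the files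
`DS1*.lean`, `DS2*.lean` of the layer import this file.  Sub-captain: helper88.

Proof of Proposition 3.1 / 3.8 (02-channels.tex l.726-1000) on top of `CHTop.lean`.

## The decomposition (`x ∈ Ext R`, `r = |x|`, `z = x 2`, `t = z/r`, `A = A(r)`, `λ = S.lam`)

  `F = f φ + b G + Z₀ + Rem`,   `f = A h`,   `Z₀ = λ A r⁻⁴ T_eq`,   `Rem = H - Z₀`,  `H = QF - bG`.

* `h = a₀ + O(|t|/r)`, `a₀ = a' t + O(t²)`, `c₀ |t| ≤ |a₀|`, `∂_r h, ∂_r² h = O(|t| r⁻²)`, `Ω_w h = O(1)`;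
* `Rem, ∂_r Rem, ∂_r² Rem = O(λ A (|t|/r + r^{-17/4}))`:
  for `|z| ≥ 1` because all words of `H` are `O(λ A r⁻²)` and `r⁻² ≤ |z| r⁻² = |t|/r`;
  for `|z| ≤ 1` because `Rem = Hodd + E + (Z - Z₀)`, `Hodd` and its radial derivatives are odd
  (`O(λ A |t| r⁻²)` by the oddness lemma), `D^a E = O(λ A r^{-17/4})`, `Z - Z₀ = -λ a' A r⁻² t² v₁`;
* ONLY RADIAL derivatives of the four pieces are ever computed.  Horizontal derivatives of `F` are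
  reduced to radial ones at the level of `F` by `dfield_zero_cyl`, `dfield_zero_zero_cyl` (T6b, T6c):
  every non radial term carries a factor `z/r²` and a word of `F`, which is `O(A)`; so it is
  `O(A |t| / r)`.
* three scales: `scale = A |t| + b + λ A r⁻⁴`; `‖f φ + b G + Z₀‖ ≥ ¼ (|f| + b + ‖Z₀‖)` (spin
  non-cancellation through `Pd`).
-/

open MeasureTheory
open scoped ContDiff InnerProductSpace ComplexConjugate ENNReal Topology Laplacian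

noncomputable section

namespace Claimed.Open.R278

variable {𝒦 : Type} [NormedAddCommGroup 𝒦] [InnerProductSpace ℂ 𝒦] [CompleteSpace 𝒦]

/-- The simple angular zero (3.18): `c₀ |t| ≤ |a₀|`. -/
def ChannelSys.SimpleZero {κ : ChannelConsts} {b : Space → ℝ} {γ : ℝ} (S : ChannelSys 𝒦 κ b γ)
    (c₀ : ℝ) : Prop := ∀ x ∈ Ext 0, c₀ * |tz x| ≤ ‖S.a₀ x‖

/-- The three scales `A |t| + b + λ A r⁻⁴`. -/
def ChannelSys.scale {κ : ChannelConsts} {b : Space → ℝ} {γ : ℝ} (S : ChannelSys 𝒦 κ b γ)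
    (x : Space) : ℝ := S.A x * |tz x| + b x + S.lam * S.A x * (‖x‖ ^ 4)⁻¹

/-- The plane term `Z₀ = λ A r⁻⁴ T_eq`. -/
def ChannelSys.Z₀ {κ : ChannelConsts} {b : Space → ℝ} {γ : ℝ} (S : ChannelSys 𝒦 κ b γ)
    (x : Space) : 𝒦 := (S.lam * S.A x * (‖x‖ ^ 4)⁻¹) • S.Teq

/-- The comparison vector `M = f φ + b G + Z₀`. -/
def ChannelSys.Mv {κ : ChannelConsts} {b : Space → ℝ} {γ : ℝ} (S : ChannelSys 𝒦 κ b γ)
    (x : Space) : 𝒦 := S.f x • S.φ + b x • S.G + S.Z₀ x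

/-- The remainder `Rem = F - M = H - Z₀`. -/
def ChannelSys.Rem {κ : ChannelConsts} {b : Space → ℝ} {γ : ℝ} (S : ChannelSys 𝒦 κ b γ)
    (x : Space) : 𝒦 := S.F x - S.Mv x

/-- The size of the remainder, `λ A (|t|/r + r^{-17/4})`. -/
def ChannelSys.remScale {κ : ChannelConsts} {b : Space → ℝ} {γ : ℝ} (S : ChannelSys 𝒦 κ b γ)
    (x : Space) : ℝ := S.lam * S.A x * (|tz x| / ‖x‖ + ‖x‖ ^ (-(17 / 4) : ℝ))

/-- All the bounds of `CHTop.lean` on ONE exterior region with ONE family of constants: this is what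
the leaves of layer DS assume about a system.  `ds_good` produces `R, C, K` depending only on
`κ, b, γ`. -/
structure ChannelSys.Good {κ : ChannelConsts} {b : Space → ℝ} {γ : ℝ} (S : ChannelSys 𝒦 κ b γ)
    (R : ℝ) (C : ℕ → ℝ) (K : ℝ) : Prop where
  F_bdd : WordBdd R C S.A S.F
  QF_bdd : WordBdd R C (fun x => S.A x * (‖x‖ ^ 2)⁻¹) (fun x => S.Q (S.F x))
  a₀_smooth : ContDiffOn ℝ ∞ S.a₀ (Ext 0)
  a₀_hom : ∀ x ∈ Ext 0, ∀ ρ : ℝ, 0 < ρ → S.a₀ (ρ • x) = S.a₀ x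
  a₀_rot : ∀ w, IsRotWord w → ∀ x ∈ Ext 0, ‖dword w S.a₀ x‖ ≤ C w.length
  h_rot : ∀ w, IsRotWord w → ∀ x ∈ Ext R,
    ‖dword w S.h x‖ ≤ C w.length ∧
    ‖dword w S.h x - dword w S.a₀ x‖ ≤ C w.length * ‖x‖⁻¹ ∧
    ‖dr (dword w S.h) x‖ ≤ C w.length * (‖x‖ ^ 2)⁻¹ ∧
    ‖dr (dr (dword w S.h)) x‖ ≤ C w.length * (‖x‖ ^ 2)⁻¹
  odd : ∀ x ∈ Ext R,
    ‖S.h x‖ ≤ K * |tz x| ∧
    ‖S.h x - S.a₀ x‖ ≤ K * |tz x| / ‖x‖ ∧
    ‖S.a₀ x - S.slope * tz x‖ ≤ K * tz x ^ 2 ∧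
    ‖dr S.h x‖ ≤ K * |tz x| / ‖x‖ ^ 2 ∧
    ‖dr (dr S.h) x‖ ≤ K * |tz x| / ‖x‖ ^ 2
  H_bdd : WordBdd R C (fun x => S.lam * S.A x * (‖x‖ ^ 2)⁻¹) S.H
  Hodd_bdd : WordBdd R C (fun x => S.lam * S.A x * (‖x‖ ^ 2)⁻¹) S.Hodd
  Z_bdd : WordBdd R C (fun x => S.lam * S.A x * (‖x‖ ^ 2)⁻¹) S.Z
  E_bdd : WordBdd R C (fun x => S.lam * S.A x * (‖x‖ ^ 2)⁻¹) S.E
  slope_le : ‖S.slope‖ ≤ K
  v₁_le : ‖S.v₁‖ ≤ K
  v₂_le : ‖S.v₂‖ ≤ K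
  E₀ : ∀ x ∈ Ext R, ‖S.E x‖ ≤ K * S.lam * S.A x * (‖x‖ ^ 5)⁻¹ * (1 + x 2 ^ 4)
  E₁ : ∀ x ∈ Ext R,
    ‖fderiv ℝ S.E x‖ ≤ K * S.lam * S.A x * ‖x‖ ^ (-(17 / 4) : ℝ) * (1 + |x 2|) ^ 4
  E₂ : ∀ x ∈ Ext R,
    ‖fderiv ℝ (fderiv ℝ S.E) x‖ ≤ K * S.lam * S.A x * ‖x‖ ^ (-(17 / 4) : ℝ) * (1 + |x 2|) ^ 4

/-! ## Density level -/

/-- (3.12): the link between the true density and the cut-off fiber function. -/
structure DensityLink {κ : ChannelConsts} {b : Space → ℝ} {γ : ℝ} (S : ChannelSys 𝒦 κ b γ)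
    (n : Space → ℝ) : Prop where
  smooth : ContDiffOn ℝ 2 n (Ext κ.R₁)
  err₀ : ∀ x ∈ Ext κ.R₁, |n x - ‖S.F x‖ ^ 2| ≤ κ.C 0 * Real.exp (-(2 * κ.σ * ‖x‖))
  err₁ : ∀ x ∈ Ext κ.R₁, ‖fderiv ℝ (fun y => n y - ‖S.F y‖ ^ 2) x‖
    ≤ κ.C 0 * Real.exp (-(2 * κ.σ * ‖x‖))
  err₂ : ∀ x ∈ Ext κ.R₁, ‖fderiv ℝ (fderiv ℝ (fun y => n y - ‖S.F y‖ ^ 2)) x‖
    ≤ κ.C 0 * Real.exp (-(2 * κ.σ * ‖x‖))

/-- `DriftStrip` of `Top.lean` with general constants. -/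
structure DriftStripG (η Cr : ℝ) (n : Space → ℝ) (k : ℝ) (M : ℝ) : Prop where
  radial : ∀ x : Space, M ≤ ‖x‖ →
    |fderiv ℝ (fun y => Real.log (n y)) x (‖x‖⁻¹ • x) + 2 * k| ≤ η
  horizontal : ∀ p z : ℝ, M ≤ ‖cyl p z‖ → 0 ≤ z → z ≤ p / 2 →
    |deriv (fun p' => Real.log (n (cyl p' z))) p + 2 * k * p / ‖cyl p z‖| ≤ η
  strip : ∀ p z : ℝ, M ≤ p → 0 ≤ z → z ≤ stripL →
    |deriv (fun p' => Real.exp (2 * k * p') * n (cyl p' z)) p|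
      + |iteratedDeriv 2 (fun p' => Real.exp (2 * k * p') * n (cyl p' z)) p|
      ≤ η * (Real.exp (2 * k * p) * n (cyl p z))
  ratio : ∀ p z₁ z₂ : ℝ, M ≤ p → 0 ≤ z₁ → z₁ ≤ z₂ → z₂ ≤ stripL →
    n (cyl p z₁) ≤ Cr * n (cyl p z₂)

end Claimed.Open.R278
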