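import Claimed.Open.R278.AGMain
import Claimed.Open.R278.MBMain
import Claimed.Open.R278.DSDefs

/-!
# Result 278, package CHX (assembly of `uniform_channels`, `fixed_channels`): definitions

Architect: helper122.  Definitions and structures only (plus a few `rfl`-level lemmas); NO `sorry`.

## What the package does
`CHXTop.lean` proves `chx_uniform_channels` and `chx_fixed_channels` (verbatim the statements of `Top.lean`) from
* MB1  (`MBMain.lean`: `exists_smallCoupling`, structure `SmallCoupling`),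
* MR   (contracts `chx_mr_*` of `CHXContracts.lean`: continuous versions, `DensityBasic`, convergence `n_t → n_0`),
* AG   (`AGMain.lean`: `channel_cutoff`, `ChanOut`, `density_smooth`),
* ION  (structure `IonKit` below; contracts `chx_ion_uniform`, `chx_ion_fixed`),
* TX   (contracts `chx_tx_fast`, `chx_tx_lower`),
* CH/DS (`CHTop.lean`, `DSDefs.lean`).

## The objects
* `PreRegular εb t d`  : `IsRegular εb t d` minus `n_pos`, `amplitude_test`, `n_smooth` (these three are CONCLUSIONS in the uniform part).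
* `spinEmb σ`, `tensK σ φ`: the vector `σ ⊗ φ ∈ 𝒦 = AG.Fib` (distinguished spin `σ`, ionic state `φ : L2 2`); `φK = tensK 0 φ`.
* `PdK`                : projection on distinguished spin down.
* `gK b e`             : the retained fast vector `G = ↑ ⊗ Φ_{b↓,e↑} - ↓ ⊗ Φ_{b↑,e↑}` of (3.6); it does not depend on the coupling.
* `IonKit`             : everything which the assembly consumes from the ionic toolkit at ONE coupling, with the two constants `c` (gap), `CI` (all other bounds).
* `CloseData`          : closeness of the data at coupling `t` to the zero coupling data, in the form `≤ K t` (uniform part: `K` fixed, `t` small;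
                          fixed coupling: `K = (distance)/t`).
* `ChanLink`, `PLink`  : the relations between a channel system `S` and the data `d`.
-/

open MeasureTheory Filter
open scoped ContDiff InnerProductSpace ComplexConjugate ENNReal Topology Laplacian

noncomputable section

namespace Claimed.Open.R278

open AG (Fib)

/-! ## Regular data without the three conclusions -/

/-- `IsRegular` minus `n_pos`, `amplitude_test`, `n_smooth`. -/
structure PreRegular (εb t : ℝ) (d : AuxData) : Prop where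
  ion_ground : IsSimpleIsolatedGround (scaledPotential 2 t) Set.univ d.E₂ d.φ
  ion_axisymmetric : IsAxisymmetric d.φ
  ion_even : HasReflectionParity 1 d.φ
  ion_singlet : IsSinglet d.φ
  ground : IsSimpleIsolatedGround (scaledPotential 3 t) {Ξ | InSpinSector (1 / 2) Ξ} d.E₃ d.Ψ
  absolute : IsSpectrumBottom (scaledPotential 3 t) d.E₃
  axisymmetric : IsAxisymmetric d.Ψ
  odd : HasReflectionParity (-1) d.Ψ
  n_continuous : Continuous d.n
  n_eq : d.n =ᵐ[volume] density d.Ψ
  energy_test : 0.49 < 2 * εb - d.E₃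
  k_lower : 0.99 < d.k
  k_upper : d.k < √(-(2 * εb))
  amp_continuous : Continuous d.amp
  amp_eq : d.amp =ᵐ[volume] removalAmplitude d.φ d.Ψ

theorem IsRegular.pre {εb t : ℝ} {d : AuxData} (h : IsRegular εb t d) : PreRegular εb t d :=
  { ion_ground := h.ion_ground
    ion_axisymmetric := h.ion_axisymmetric
    ion_even := h.ion_even
    ion_singlet := h.ion_singlet
    ground := h.ground
    absolute := h.absolute
    axisymmetric := h.axisymmetric
    odd := h.odd
    n_continuous := h.n_continuous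
    n_eq := h.n_eq
    energy_test := h.energy_test
    k_lower := h.k_lower
    k_upper := h.k_upper
    amp_continuous := h.amp_continuous
    amp_eq := h.amp_eq }

theorem PreRegular.regular {εb t : ℝ} {d : AuxData} (h : PreRegular εb t d) (hpos : ∀ x, 0 < d.n x)
    (hamp : 0 < ⨅ u ∈ {u : Space | ‖u‖ = 1 ∧ 0 < u 2},
      Filter.liminf (fun r : ℝ => ENNReal.ofReal (‖d.amp (r • u)‖ / (u 2 * d.A t r))) Filter.atTop)
    (hsm : ContDiffOn ℝ 2 d.n {x | 10 * bigD < ‖x‖}) : IsRegular εb t d :=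
  { ion_ground := h.ion_ground
    ion_axisymmetric := h.ion_axisymmetric
    ion_even := h.ion_even
    ion_singlet := h.ion_singlet
    ground := h.ground
    absolute := h.absolute
    axisymmetric := h.axisymmetric
    odd := h.odd
    n_continuous := h.n_continuous
    n_eq := h.n_eq
    n_pos := hpos
    energy_test := h.energy_test
    k_lower := h.k_lower
    k_upper := h.k_upper
    amp_continuous := h.amp_continuous
    amp_eq := h.amp_eq
    amplitude_test := hamp
    n_smooth := hsm }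

/-! ## Spin algebra on the fibre space -/

/-- `v ↦ σ ⊗ v`: `(σ ⊗ v)(σ', s) = δ_{σσ'} v(s)`. -/
def spinEmb (σ : Fin 2) : SpinSpace 2 →L[ℂ] SpinSpace 3 :=
  LinearMap.toContinuousLinearMap
    { toFun := fun v => WithLp.toLp 2 fun s : SpinConfig 3 => if s 0 = σ then v (Fin.tail s) else 0
      map_add' := fun v w => by
        ext s
        by_cases h : s 0 = σ <;> simp [h]
      map_smul' := fun c v => by
        ext s
        by_cases h : s 0 = σ <;> simp [h] }

/-- the projection of the spin space on distinguished spin `σ`. -/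
def spinProj (σ : Fin 2) : SpinSpace 3 →L[ℂ] SpinSpace 3 :=
  LinearMap.toContinuousLinearMap
    { toFun := fun v => WithLp.toLp 2 fun s : SpinConfig 3 => if s 0 = σ then v s else 0
      map_add' := fun v w => by
        ext s
        by_cases h : s 0 = σ <;> simp [h]
      map_smul' := fun c v => by
        ext s
        by_cases h : s 0 = σ <;> simp [h] }

theorem spinEmb_apply (σ : Fin 2) (v : SpinSpace 2) (s : SpinConfig 3) :
    spinEmb σ v s = if s 0 = σ then v (Fin.tail s) else 0 := rfl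

theorem spinProj_apply (σ : Fin 2) (v : SpinSpace 3) (s : SpinConfig 3) :
    spinProj σ v s = if s 0 = σ then v s else 0 := rfl

/-- `σ ⊗ φ ∈ 𝒦`. -/
def tensK (σ : Fin 2) (φ : L2 2) : Fib := (spinEmb σ).compLp φ

/-- the projection of `𝒦` on distinguished spin down. -/
def PdK : Fib →L[ℂ] Fib := (spinProj 1).compLpL 2 volume

/-- the retained fast vector (3.6): `G = ↑ ⊗ Φ_{b↓,e↑} - ↓ ⊗ Φ_{b↑,e↑}`. -/
def gK (b e : Space → ℝ) : Fib :=
  tensK 0 (sdet ![toOrb b, toOrb e] ![1, 0]) - tensK 1 (sdet ![toOrb b, toOrb e] ![0, 0])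

/-! ## The ionic toolkit at one coupling (contract with package ION) -/

/-- a vector of `𝒦` lies in the sector `S_z = 1/2` (a.e. form, as in `AG.ChanOut.sector`). -/
def FibSector (v : Fib) : Prop := ∀ᵐ y : Config 2, ∀ s : SpinConfig 3, spinZ s ≠ 1 / 2 → v y s = 0

/-- a vector of `𝒦` is antisymmetric in the ionic pair (a.e. form, as in `AG.ChanOut.pair_antisymmetric`). -/
def FibAnti (v : Fib) : Prop :=
  ∀ᵐ y : Config 2, ∀ s : SpinConfig 3, v (y ∘ Equiv.swap 0 1) (s ∘ Equiv.swap 1 2) = -v y s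

/-- **Contract with ION.**  `c` = gap of the reduced resolvent, `CI` = bound for all moments. -/
structure IonKit (b e : Space → ℝ) (εb εe c CI t E₂ : ℝ) (φ : L2 2) where
  CI_pos : 0 < CI
  /-- the reduced resolvent `B_Q⁻¹ Q` (extended by `0` to the orthogonal complement of the pair-antisymmetric `S_z = 1/2` vectors) -/
  Rr : Fib →L[ℂ] Fib
  Rr_symm : ∀ v w, ⟪Rr v, w⟫_ℂ = ⟪v, Rr w⟫_ℂ
  Rr_φ : Rr (tensK 0 φ) = 0
  Rr_gap : ∀ v, c * ‖Rr v‖ ^ 2 ≤ (⟪Rr v, v⟫_ℂ).re
  /-- the ionic operator acts trivially on the distinguished spin -/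
  Rr_Pd : ∀ v, PdK (Rr v) = Rr (PdK v)
  /-- bridge to the form sense equation of `AG.ChanOut.eq`: "`B v = g`" implies the `P`- and the `Q`-equation -/
  bridge : ∀ (v g : Fib) (Gy : Fin 2 × Fin 3 → Fib),
    AG.H1 (volume : Measure (Config 2)) dir (v : Config 2 → SpinSpace 3) (fun j => (Gy j : Config 2 → SpinSpace 3)) →
    AG.IsWeakSol (volume : Measure (Config 2)) dir (scaledPotential 2 t) E₂ (v : Config 2 → SpinSpace 3)
      (fun j => (Gy j : Config 2 → SpinSpace 3)) (g : Config 2 → SpinSpace 3) →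
    FibSector v → FibAnti v →
    ⟪tensK 0 φ, g⟫_ℂ = 0 ∧ v - ⟪tensK 0 φ, v⟫_ℂ • tensK 0 φ = Rr g
  /-- `ϱ φK`, `ϱ² φK` -/
  φ₁ : Fib
  φ₂ : Fib
  φ₁_eq : ∀ᵐ y, φ₁ y = AG.rho y • tensK 0 φ y
  φ₂_eq : ∀ᵐ y, φ₂ y = (AG.rho y ^ 2) • tensK 0 φ y
  φ₁_le : ‖φ₁‖ ≤ CI
  φ₂_le : ‖φ₂‖ ≤ CI
  /-- the dipole vectors `Y_i φK` -/
  Y : Fin 3 → Fib
  Y_eq : ∀ i, ∀ᵐ y : Config 2, Y i y = (y 0 i + y 1 i) • tensK 0 φ y
  Y_perp : ⟪tensK 0 φ, Y 2⟫_ℂ = 0
  Y_upper : ‖Y 2‖ ≤ CI
  /-- `ϱ v₁`, `ϱ v₂` for `v₁ = Rr Y_z φK`, `v₂ = Rr v₁` -/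
  w₁ : Fib
  w₂ : Fib
  w₁_eq : ∀ᵐ y, w₁ y = AG.rho y • Rr (Y 2) y
  w₂_eq : ∀ᵐ y, w₂ y = AG.rho y • Rr (Rr (Y 2)) y
  w₁_le : ‖w₁‖ ≤ CI
  w₂_le : ‖w₂‖ ≤ CI
  v₂_lower : CI⁻¹ ≤ ‖Rr (Rr (Y 2))‖
  /-- `G♯ = B G = (ε_b + ε_e - E₂) G + t |y₁ - y₂|⁻¹ G` -/
  Gs : Fib
  G_eq : gK b e = Rr Gs
  Gs_close : ‖(εb + εe - E₂) • gK b e - Gs‖ ≤ CI * t

/-! ## Closeness to zero coupling -/

/-- closeness of the data at coupling `t` to the zero coupling data, and the rate separation. -/
structure CloseData (b e : Space → ℝ) (εb εe K μ t : ℝ) (d : AuxData) : Prop where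
  t_nonneg : 0 ≤ t
  t_le : t ≤ 1
  E₃_close : |d.E₃ - (2 * εb + εe)| ≤ K * t
  Ψ_close : ‖d.Ψ - psiZero b e‖ ≤ K * t
  φ_close : ‖d.φ - phiZero b‖ ≤ K * t
  Kt_le : K * t ≤ 5
  sep : d.k + μ ≤ √(-(2 * εb))

/-! ## Links between a channel system and the data -/

section links
variable {𝒦 : Type} [NormedAddCommGroup 𝒦] [InnerProductSpace ℂ 𝒦] [CompleteSpace 𝒦]
  {κ : ChannelConsts} {b : Space → ℝ} {γ : ℝ}

/-- the system `S` belongs to the data `d` at coupling `t`. -/
structure ChanLink (S : ChannelSys 𝒦 κ b γ) (t : ℝ) (d : AuxData) : Prop where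
  lam_eq : S.lam = t
  k_eq : S.k = d.k
  density : DensityLink S d.n
  amp : ∀ x ∈ Ext κ.R₁, |‖d.amp x‖ - ‖S.f x‖| ≤ κ.C 0 * Real.exp (-(κ.σ * ‖x‖))

/-- the projected amplitude is `O(λ)`-close to the odd orbital `e`, with all words. -/
def PLink (S : ChannelSys 𝒦 κ b γ) (e : Space → ℝ) : Prop :=
  WordBdd κ.R₁ κ.C (fun x => S.lam * Real.exp (-(κ.τ * ‖x‖))) (fun x => S.f x - (e x : ℂ))

end links

end Claimed.Open.R278
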