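import Claimed.Open.R278.CHXContracts
import Claimed.Open.R278.CHXAbs
import Claimed.Open.R278.CHXBuild
import Claimed.Open.R278.DSTop

/-!
# Result 278, package CHX: `uniform_channels` and `fixed_channels`

Architect: helper122.  This file contains NO `sorry`: it is the glue which proves the two top theorems of `Top.lean`
(verbatim, under the names `chx_uniform_channels`, `chx_fixed_channels`) from
`CHXContracts.lean` (neighbours), `CHXAbs.lean` (paper-free lemmas), `CHXBuild.lean` (`chx_build`), `MBMain.lean`, `AGMain.lean`, `DSDefs.lean`.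
-/

open MeasureTheory Filter
open scoped ContDiff InnerProductSpace ComplexConjugate ENNReal Topology Laplacian

noncomputable section

namespace Claimed.Open.R278

open AG (Fib)

variable {b e : Space → ℝ} {εb εe : ℝ}

/-! ## Small lemmas -/

theorem TwoCentre.chx_gamma_pos (h : TwoCentre b e εb εe) : 0 < √(-(2 * εb)) :=
  Real.sqrt_pos.2 (by linarith [h.εb_neg])

theorem TwoCentre.chx_k0_lt_gamma (h : TwoCentre b e εb εe) : √(-(2 * εe)) < √(-(2 * εb)) :=
  Real.sqrt_lt_sqrt (by linarith [h.εe_neg]) (by linarith [h.data.lt])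

theorem TwoCentre.chx_refDensity_pos (h : TwoCentre b e εb εe) (x : Space) : 0 < refDensity b e x := by
  have := h.data.pos_b x
  unfold refDensity
  positivity

/-- closeness data at a fixed coupling: `K = 5 / t`. -/
theorem chx_closeData_fixed (h : TwoCentre b e εb εe) {t : ℝ} (ht : t ∈ Set.Ioc (0 : ℝ) 1) {d : AuxData}
    (hd : PreRegular εb t d) :
    ∃ K μ : ℝ, 1 ≤ K ∧ 0 < μ ∧ μ ≤ 0.01 ∧ CloseData b e εb εe K μ t d := by
  have ht0 := ht.1
  have hKt : 5 / t * t = 5 := by field_simp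
  have hE := hd.E₃_ge h ht0.le
  have hE' := hd.energy_test
  have hεb := h.chx_εb_gt'
  have hεe := h.data.lt
  have hsep : 0 < √(-(2 * εb)) - d.k := sub_pos.2 hd.k_upper
  refine ⟨5 / t, min 0.01 (√(-(2 * εb)) - d.k), ?_, lt_min (by norm_num) hsep, min_le_left _ _, ?_⟩
  · rw [le_div_iff₀ ht0]
    linarith [ht.2]
  · refine ⟨ht0.le, ht.2, ?_, ?_, ?_, hKt.le, ?_⟩
    · rw [hKt, abs_le]
      constructor <;> linarith
    · rw [hKt]
      calc ‖d.Ψ - psiZero b e‖ ≤ ‖d.Ψ‖ + ‖psiZero b e‖ := norm_sub_le _ _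
        _ = 2 := by rw [hd.ground.1, h.norm_psiZero]; norm_num
        _ ≤ 5 := by norm_num
    · rw [hKt]
      calc ‖d.φ - phiZero b‖ ≤ ‖d.φ‖ + ‖phiZero b‖ := norm_sub_le _ _
        _ = 2 := by rw [hd.ion_ground.1, h.norm_phiZero]; norm_num
        _ ≤ 5 := by norm_num
    · have := min_le_right (0.01 : ℝ) (√(-(2 * εb)) - d.k)
      linarith

section link
variable {κ : ChannelConsts} {γ : ℝ} {S : ChannelSys Fib κ b γ} {t : ℝ} {d : AuxData}

theorem ChanLink.β_eq (hL : ChanLink S t d) : S.β = d.β t := by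
  unfold ChannelCore.β AuxData.β
  rw [hL.lam_eq, hL.k_eq]

theorem ChanLink.A_eq (hL : ChanLink S t d) (r : ℝ) : d.A t r = radialA S.k S.β r := by
  unfold AuxData.A radialA ChannelCore.β
  rw [hL.lam_eq, hL.k_eq]

/-- the amplitude test (7.3) for the data is the simple angular zero of the system. -/
theorem ChanLink.amplitude_iff (hL : ChanLink S t d) :
    (0 < ⨅ u ∈ {u : Space | ‖u‖ = 1 ∧ 0 < u 2},
      Filter.liminf (fun r : ℝ => ENNReal.ofReal (‖d.amp (r • u)‖ / (u 2 * d.A t r))) Filter.atTop)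
      ↔ ∃ c₀ > 0, S.SimpleZero c₀ := by
  have := ds_amplitude_iff κ b γ S d.amp hL.amp
  simpa only [hL.A_eq] using this

end link

/-! ## Fixed coupling -/

/-- **Top theorem of L2-L5, fixed coupling** (Prop 3.8, Lemma 2.4). -/
theorem chx_fixed_channels {b e : Space → ℝ} {εb εe : ℝ} (h : TwoCentre b e εb εe)
    {t : ℝ} (ht : t ∈ Set.Ioc (0 : ℝ) 1) {d : AuxData} (hd : IsRegular εb t d) :
    DensityBasic d.n ∧ PlaneTail d.n d.k (d.β t) ∧ PlaneTranslate d.n d.k (d.β t) ∧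
      BulkTranslate d.n d.k := by
  have hp := hd.pre
  have hΨ : d.Ψ ∈ Eigenspace (scaledPotential 3 t) d.E₃ := hd.ground.2.2.1
  have hsm : ContDiffOn ℝ ∞ d.n nucleiᶜ :=
    AG.density_smooth ht.1.le ht.2 hΨ hd.n_continuous.continuousOn hd.n_eq
  have hDB : DensityBasic d.n :=
    chx_mr_densityBasic ht.1.le ht.2 hΨ hd.ground.1 hd.axisymmetric hd.odd hd.n_continuous hd.n_eq hd.n_pos
      (hsm.of_le (by norm_cast))
  obtain ⟨c, CI, hc, ⟨kit⟩⟩ :=
    chx_ion_fixed h ht hd.ion_ground hd.ion_axisymmetric hd.ion_even hd.ion_singlet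
  obtain ⟨K, μ, hK, hμ, hμ', hclose⟩ := chx_closeData_fixed h ht hp
  obtain ⟨Rb, Cb, cb, hb⟩ := chx_tx_fast h
  obtain ⟨κ, hκ, hbuild⟩ := chx_build h (CI := CI) hc hK hμ hμ' Rb
  obtain ⟨S, hL, -⟩ := hbuild t d hp hclose kit
  have hb' := hb.chx_mono hκ
  obtain ⟨c₀, hc₀, hSZ⟩ := hL.amplitude_iff.1 hd.amplitude_test
  refine ⟨hDB, ?_, ?_, ?_⟩
  · have := ds_planeTail κ b _ Cb cb c₀ hb' hc₀ S d.n hSZ hL.density (by rw [hL.lam_eq]; exact ht.1)
    rwa [hL.k_eq, hL.β_eq] at this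
  · have := ds_planeTranslate κ b _ Cb cb c₀ hb' hc₀ S d.n hSZ hL.density hDB.even hDB.axisymmetric
    rwa [hL.k_eq, hL.β_eq] at this
  · have := ds_bulkTranslate κ b _ Cb cb c₀ hb' hc₀ S d.n hSZ hL.density hDB.even hDB.axisymmetric
    rwa [hL.k_eq] at this

/-! ## Small couplings -/

/-- `PreRegular` for the branch of `SmallCoupling`, given continuous versions. -/
theorem SmallCoupling.preRegular {τ C : ℝ} {E₂ E₃ : ℝ → ℝ} {φ : ℝ → L2 2} {Ψ : ℝ → L2 3}
    (hs : SmallCoupling b e εb εe τ C E₂ E₃ φ Ψ) {t : ℝ} (ht : t ∈ Set.Icc 0 τ) {n : Space → ℝ}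
    {amp : Space → EuclideanSpace ℂ (Fin 2)} (hn : Continuous n) (hne : n =ᵐ[volume] density (Ψ t))
    (ha : Continuous amp) (hae : amp =ᵐ[volume] removalAmplitude (φ t) (Ψ t)) :
    PreRegular εb t ⟨E₂ t, E₃ t, φ t, Ψ t, n, amp⟩ :=
  { ion_ground := hs.ion_ground t ht
    ion_axisymmetric := hs.ion_axisymmetric t ht
    ion_even := hs.ion_even t ht
    ion_singlet := hs.ion_singlet t ht
    ground := hs.ground t ht
    absolute := hs.absolute t ht
    axisymmetric := hs.axisymmetric t ht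
    odd := hs.odd t ht
    n_continuous := hn
    n_eq := hne
    energy_test := hs.energy_test t ht
    k_lower := hs.k_lower t ht
    k_upper := hs.k_upper t ht
    amp_continuous := ha
    amp_eq := hae }

/-- closeness data for the branch of `SmallCoupling`. -/
theorem SmallCoupling.closeData {τ C : ℝ} {E₂ E₃ : ℝ → ℝ} {φ : ℝ → L2 2}
    {Ψ : ℝ → L2 3} (hs : SmallCoupling b e εb εe τ C E₂ E₃ φ Ψ) {t : ℝ} (ht : t ∈ Set.Icc 0 τ) (ht1 : t ≤ 1)
    (htC : (C + 1) * t ≤ 5) (n : Space → ℝ) (amp : Space → EuclideanSpace ℂ (Fin 2)) :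
    CloseData b e εb εe (C + 1) (min 0.01 ((√(-(2 * εb)) - √(-(2 * εe))) / 2)) t
      ⟨E₂ t, E₃ t, φ t, Ψ t, n, amp⟩ := by
  have hCt : C * t ≤ (C + 1) * t := by nlinarith [ht.1]
  have hCt0 : 0 ≤ C * t := mul_nonneg hs.C_nonneg ht.1
  refine ⟨ht.1, ht1, ?_, ?_, ?_, htC, ?_⟩
  · show |E₃ t - (2 * εb + εe)| ≤ (C + 1) * t
    rw [abs_le]
    constructor <;> linarith [hs.E₃_ge t ht, hs.E₃_le t ht]
  · exact (chx_norm_le_of_h1sq hCt0 (hs.Ψ_close t ht)).trans hCt
  · exact (chx_norm_le_of_h1sq hCt0 (hs.φ_close t ht)).trans hCt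
  · show √(2 * (E₂ t - E₃ t)) + _ ≤ _
    have h1 := hs.rate_sep t ht
    have h2 := min_le_right (0.01 : ℝ) ((√(-(2 * εb)) - √(-(2 * εe))) / 2)
    linarith

/-- **Top theorem of L2-L5, uniform part** (Props 2.3, 3.1, Lemmas 2.4, 3.2-3.5 and the first half
of the proof of Lemma 7.2).  One family of regular data on a small coupling interval, with one
common exterior radius, converging to the zero-coupling data. -/
theorem chx_uniform_channels {b e : Space → ℝ} {εb εe : ℝ} (h : TwoCentre b e εb εe) :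
    ∃ τ > 0, ∃ j₀ : ℕ, ∃ dat : ℝ → AuxData,
      (∀ t ∈ Set.Icc 0 τ, IsRegular εb t (dat t) ∧ DensityBasic (dat t).n ∧
        ∀ j : ℕ, j₀ ≤ j → (dat t).H j ≤ 1 / 2) ∧
      (dat 0).n = refDensity b e ∧
      (∀ R : ℝ, TendstoUniformlyOn (fun t => (dat t).n) (refDensity b e) (𝓝[>] 0)
        (Metric.closedBall 0 R)) ∧
      Filter.Tendsto (fun t => ∫ x, |(dat t).n x - refDensity b e x|) (𝓝[>] 0) (𝓝 0) ∧
      (∀ R : ℝ, ∃ C : ℝ≥0∞, C < ⊤ ∧ ∀ t ∈ Set.Icc 0 τ,
        eLpNorm (gradient (dat t).n) 6 (volume.restrict (Metric.ball 0 R)) ≤ C) := by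
  obtain ⟨τ₀, C, E₂, E₃, φ, Ψ, hs₀⟩ := exists_smallCoupling h
  obtain ⟨τ₁, c, CI, hτ₁, hτ₁', hc, hkit⟩ := chx_ion_uniform h hs₀
  have hC0 := hs₀.C_nonneg
  have hC1 : 0 < C + 1 := by linarith
  have hD : 0 < bigD := by unfold bigD; positivity
  -- the first interval
  obtain ⟨τa, hτa⟩ : ∃ τa, τa = min τ₁ (min 1 (min (1 / (C + 1)) (100 / (bigD * (C + 1))))) := ⟨_, rfl⟩
  have hτa0 : 0 < τa := by
    rw [hτa]
    refine lt_min hτ₁ (lt_min one_pos (lt_min (by positivity) (by positivity)))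
  have hτa1 : τa ≤ τ₁ := hτa ▸ min_le_left _ _
  have hτa2 : τa ≤ 1 := hτa ▸ (min_le_right _ _).trans (min_le_left _ _)
  have hτa3 : τa ≤ 1 / (C + 1) :=
    hτa ▸ (min_le_right _ _).trans ((min_le_right _ _).trans (min_le_left _ _))
  have hτa4 : τa ≤ 100 / (bigD * (C + 1)) :=
    hτa ▸ (min_le_right _ _).trans ((min_le_right _ _).trans (min_le_right _ _))
  have hs : SmallCoupling b e εb εe τa C E₂ E₃ φ Ψ := hs₀.chx_mono hτa0 (hτa1.trans hτ₁')
  have hΨ : ∀ t ∈ Set.Icc 0 τa, Ψ t ∈ Eigenspace (scaledPotential 3 t) (E₃ t) :=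
    fun t ht => (hs.ground t ht).2.2.1
  -- continuous versions
  have hver : ∀ t, ∃ (n : Space → ℝ) (amp : Space → EuclideanSpace ℂ (Fin 2)), t ∈ Set.Icc 0 τa →
      Continuous n ∧ n =ᵐ[volume] density (Ψ t) ∧ Continuous amp ∧
        amp =ᵐ[volume] removalAmplitude (φ t) (Ψ t) := by
    intro t
    by_cases ht : t ∈ Set.Icc 0 τa
    · obtain ⟨⟨n, hn, hne⟩, amp, ha, hae⟩ := chx_mr_versions ht.1 (ht.2.trans hτa2) (hΨ t ht) (φ t)
      exact ⟨n, amp, fun _ => ⟨hn, hne, ha, hae⟩⟩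
    · exact ⟨0, 0, fun h' => absurd h' ht⟩
  choose n amp hna using hver
  have hsm : ∀ t ∈ Set.Icc 0 τa, ContDiffOn ℝ ∞ (n t) nucleiᶜ := fun t ht =>
    AG.density_smooth ht.1 (ht.2.trans hτa2) (hΨ t ht) (hna t ht).1.continuousOn (hna t ht).2.1
  have hsm2 : ∀ t ∈ Set.Icc 0 τa, ContDiffOn ℝ 2 (n t) nucleiᶜ := fun t ht =>
    (hsm t ht).of_le (by norm_cast)
  obtain ⟨hn0, hunif, hL1, hL6⟩ := chx_mr_convergence h hs hτa2 (fun t ht => (hna t ht).1)
    (fun t ht => (hna t ht).2.1) hsm2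
  -- the data
  obtain ⟨dat, hdat⟩ : ∃ dat : ℝ → AuxData, dat = fun t => ⟨E₂ t, E₃ t, φ t, Ψ t, n t, amp t⟩ := ⟨_, rfl⟩
  have hpre : ∀ t ∈ Set.Icc 0 τa, PreRegular εb t (dat t) := fun t ht => by
    rw [hdat]
    exact hs.preRegular ht (hna t ht).1 (hna t ht).2.1 (hna t ht).2.2.1 (hna t ht).2.2.2
  obtain ⟨μ, hμdef⟩ : ∃ μ, μ = min 0.01 ((√(-(2 * εb)) - √(-(2 * εe))) / 2) := ⟨_, rfl⟩
  have hμ : 0 < μ := by
    rw [hμdef]
    exact lt_min (by norm_num) (by linarith [h.chx_k0_lt_gamma])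
  have hμ' : μ ≤ 0.01 := hμdef ▸ min_le_left _ _
  have hclose : ∀ t ∈ Set.Icc 0 τa, CloseData b e εb εe (C + 1) μ t (dat t) := fun t ht => by
    rw [hdat, hμdef]
    refine hs.closeData ht (ht.2.trans hτa2) ?_ _ _
    have : (C + 1) * t ≤ (C + 1) * (1 / (C + 1)) := mul_le_mul_of_nonneg_left (ht.2.trans hτa3) hC1.le
    rw [mul_one_div_cancel hC1.ne'] at this
    linarith
  -- the constants of the channel systems
  obtain ⟨Rb, Cb, cb, hb⟩ := chx_tx_fast h
  obtain ⟨Re, c₁, hc₁, he⟩ := chx_tx_lower h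
  obtain ⟨κ, hκ, hbuild⟩ := chx_build h (CI := CI) hc (by linarith : (1 : ℝ) ≤ C + 1) hμ hμ' (max Rb Re)
  have hb' := hb.chx_mono ((le_max_left _ _).trans hκ)
  have he' : ∀ x ∈ Ext κ.R₁,
      c₁ * radialA (√(-(2 * εe))) (2 / √(-(2 * εe)) - 1) ‖x‖ * |tz x| ≤ |e x| :=
    fun x hx => he x (lt_of_le_of_lt ((le_max_right _ _).trans hκ) hx)
  have hk₀ : 0 < √(-(2 * εe)) := by linarith [h.k0_gt]
  obtain ⟨τc, hτc, hSZ⟩ := chx_simpleZero_small (𝒦 := Fib) κ b (√(-(2 * εb))) (2 * C) hk₀ hc₁ h.data.odd_e he'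
  obtain ⟨R₀, ρ, hR₀, hρ, hdrift⟩ := ds_drift (𝒦 := Fib) κ b (√(-(2 * εb))) Cb cb (c₁ / 2) hb' (half_pos hc₁)
  -- the radius
  have heta : 0 < eta0 := by unfold eta0; positivity
  obtain ⟨R₂, hR₂⟩ : ∃ R₂, ∀ R ≥ R₂, ρ R ≤ eta0 / 4 :=
    eventually_atTop.1 (hρ.eventually (eventually_le_nhds (by positivity)))
  -- positivity on the compact part
  obtain ⟨τe, hτe, hpos⟩ := chx_pos_small h (hunif R₀)
  -- the final interval
  obtain ⟨τ, hτ⟩ : ∃ τ, τ = min τa (min τc (τe / 2)) := ⟨_, rfl⟩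
  have hτ0 : 0 < τ := hτ ▸ lt_min hτa0 (lt_min hτc (by positivity))
  have hτ1 : τ ≤ τa := hτ ▸ min_le_left _ _
  have hτ2 : τ ≤ τc := hτ ▸ (min_le_right _ _).trans (min_le_left _ _)
  have hτ3 : τ < τe := by
    have : τ ≤ τe / 2 := hτ ▸ (min_le_right _ _).trans (min_le_right _ _)
    linarith
  have hdn : ∀ t, (dat t).n = n t := fun t => by rw [hdat]
  refine ⟨τ, hτ0, ⌈max R₂ (R₀ + 1)⌉₊, dat, ?_, by rw [hdn, hn0], ?_, ?_, ?_⟩
  · intro t ht
    have hta : t ∈ Set.Icc 0 τa := ⟨ht.1, ht.2.trans hτ1⟩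
    have hp := hpre t hta
    obtain ⟨kit⟩ := hkit t ⟨ht.1, hta.2.trans hτa1⟩
    have kit' : IonKit b e εb εe c CI t (dat t).E₂ (dat t).φ := by rw [hdat]; exact kit
    obtain ⟨S, hL, hP⟩ := hbuild t (dat t) hp (hclose t hta) kit'
    have hdk : (dat t).k = √(2 * (E₂ t - E₃ t)) := by rw [hdat]; rfl
    have hkc : |S.k - √(-(2 * εe))| ≤ 2 * C * S.lam := by
      rw [hL.k_eq, hL.lam_eq, hdk]
      exact hs.k_close h hta
    have hZ : S.SimpleZero (c₁ / 2) := hSZ S (by rw [hL.lam_eq]; exact ht.2.trans hτ2) hkc hP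
    obtain ⟨hext, hDS⟩ := hdrift S (dat t).n hZ hL.density
    -- positivity
    have hnpos : ∀ x, 0 < (dat t).n x := by
      intro x
      by_cases hx : R₀ < ‖x‖
      · exact hext x hx
      · rw [hdn]
        rcases ht.1.eq_or_lt with rfl | ht0
        · rw [hn0]; exact h.chx_refDensity_pos x
        · exact hpos t ⟨ht0, lt_of_le_of_lt ht.2 hτ3⟩ x (by simpa using not_lt.1 hx)
    have hreg : IsRegular εb t (dat t) := by
      refine hp.regular hnpos (hL.amplitude_iff.2 ⟨c₁ / 2, half_pos hc₁, hZ⟩) ?_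
      rw [hdn]
      refine (hsm2 t hta).mono fun x hx => ?_
      have hx' : 10 * bigD < ‖x‖ := hx
      intro hmem
      have hnorm : ‖x‖ = bigD := by
        have hez : ‖bigD • ez‖ = bigD := by
          rw [norm_smul, Real.norm_of_nonneg hD.le]
          simp [ez]
        rcases hmem with rfl | hmem
        · exact hez
        · rw [Set.mem_singleton_iff.1 hmem, norm_neg, hez]
      rw [hnorm] at hx'
      linarith
    refine ⟨hreg, ?_, ?_⟩
    · rw [hdn]
      have := hnpos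
      simp only [hdn] at this
      exact chx_mr_densityBasic ht.1 (hta.2.trans hτa2) (hΨ t hta) (hs.ground t hta).1 (hs.axisymmetric t hta)
        (hs.odd t hta) (hna t hta).1 (hna t hta).2.1 this (hsm2 t hta)
    · intro j hj
      have hj' : max R₂ (R₀ + 1) ≤ (j : ℝ) := (Nat.le_ceil _).trans (by exact_mod_cast hj)
      have hj1 : R₂ ≤ (j : ℝ) := (le_max_left _ _).trans hj'
      have hj2 : R₀ < (j : ℝ) := by linarith [(le_max_right R₂ (R₀ + 1)).trans hj']
      have hds := hDS j hj2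
      rw [hL.k_eq] at hds
      refine chx_H_le ?_ hds hnpos le_rfl
      have hku : (dat t).k ≤ √(-(2 * εb)) := hp.k_upper.le
      have hkc' : |(dat t).k - √(-(2 * εe))| ≤ 2 * C * t := by
        rw [hdk]; exact hs.k_close h hta
      have h2Ct : 2 * C * t ≤ 200 / bigD := by
        have h1 : t ≤ 100 / (bigD * (C + 1)) := hta.2.trans hτa4
        have h2 : 2 * C * t ≤ 2 * C * (100 / (bigD * (C + 1))) :=
          mul_le_mul_of_nonneg_left h1 (by positivity)
        have h3 : 2 * C * (100 / (bigD * (C + 1))) = 200 / bigD * (C / (C + 1)) := by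
          field_simp
          ring
        have h4 : C / (C + 1) ≤ 1 := by rw [div_le_one hC1]; linarith
        have h5 : 200 / bigD * (C / (C + 1)) ≤ 200 / bigD * 1 :=
          mul_le_mul_of_nonneg_left h4 (by positivity)
        linarith
      have hrate : √(-(2 * εb)) - (dat t).k ≤ 400 / bigD := by
        have h1 := h.rate_lt
        have h2 := (abs_le.1 hkc').1
        have h3 : (400 : ℝ) / bigD = 200 / bigD + 200 / bigD := by ring
        linarith
      have := chx_rate_small hku hrate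
      linarith [hR₂ j hj1]
  · intro R
    simpa only [hdn] using hunif R
  · simpa only [hdn] using hL1
  · intro R
    obtain ⟨C', hC', hle⟩ := hL6 R
    exact ⟨C', hC', fun t ht => by rw [hdn]; exact hle t ⟨ht.1, ht.2.trans hτ1⟩⟩

end Claimed.Open.R278
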