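import Claimed.Open.R278.CHXDefs

/-!
# Result 278, package CHX: from Cartesian derivative bounds to word bounds; the abstract difference lemma

Architect: helper122.  Paper-free.  Conventions of `CHDefs.lean`: `vfield`, `dfield`, `dword`, `WordBdd`, `Ext R = {R < |x|}` (open: `isOpen_Ext`).

## LEAF CHX-W (section W)
The six fields `X_a` are affine: `X_a(x) = const` (translations) or a linear map of norm `≤ 1` (rotations, `norm_vfield_rot_le`).  Hence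
`‖X_a x‖ ≤ 1 + |x|`, `‖D X_a x‖ ≤ 1`, `D^i X_a = 0` for `i ≥ 2`.  `dfield a τ = fun x => (fderiv ℝ τ x) (X_a x)` is a bilinear expression:
`ContinuousLinearMap.norm_iteratedFDerivWithin_le_of_bilinear` on the open set `Ext R` (`iteratedFDerivWithin_of_isOpen`, `isOpen_Ext.uniqueDiffOn`) gives
`‖D^n (dfield a τ)(x)‖ ≤ (1+|x|) ‖D^{n+1} τ(x)‖ + n ‖D^n τ(x)‖` (`norm_iteratedFDeriv_fderiv`).  Induction on the word (`dword (a :: w) σ = dfield a (dword w σ)`, all `n` simultaneously).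
`chx_wordBdd_exp`: `(1+r)^l e^{-(a-a') r}` is bounded on `r ≥ 0` (e.g. `(1+r)^l ≤ l! e^{s(1+r)} / s^l`, `Real.pow_div_factorial_le_exp` or `Real.add_pow_le_pow_mul_pow_of_add_eq_one`… any bound will do).

## LEAF CHX-DIFF (section DIFF)
Pure Hilbert space algebra + `WordBdd.clmC`, `WordBdd.add`, `WordBdd.congr`, `WordBdd.mono` (`CHTD1.lean`).  With `Q v = v - ⟪φ,v⟫ φ` (a continuous linear map of norm `≤ 2`), `D = F - F0`:
 `F - ⟪φ,F⟫ φ - b G = Q D + ⟪φ₀, F0⟫ • Q (φ₀ - φ)`      (`Q G = G`, `Q φ = 0`, `⟪φ₀, F0⟫ = e`),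
 `⟪φ,F⟫ - e = ⟪φ, D⟫ + ⟪φ - φ₀, F0⟫`.
-/

open MeasureTheory Filter
open scoped ContDiff InnerProductSpace ComplexConjugate ENNReal Topology Laplacian

noncomputable section

namespace Claimed.Open.R278

/-! ## LEAF CHX-W -/

section W
variable {V : Type*} [NormedAddCommGroup V] [NormedSpace ℝ V]

/-- the fields are affine. -/
theorem chx_vfield_affine (a : Fin 3 ⊕ Fin 3) : ∃ (v₀ : Space) (L : Space →L[ℝ] Space), ‖v₀‖ ≤ 1 ∧ ‖L‖ ≤ 1 ∧
    ∀ x, vfield a x = v₀ + L x := by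
  rcases a with j | i
  · refine ⟨EuclideanSpace.single j 1, 0, by simp, by simp, fun x => by simp [vfield]⟩
  · let L₀ : Space →ₗ[ℝ] Space :=
      { toFun := vfield (Sum.inr i)
        map_add' := fun x y => by
          fin_cases i <;> ext k <;> fin_cases k <;> simp [vfield] <;> ring
        map_smul' := fun c x => by
          fin_cases i <;> ext k <;> fin_cases k <;> simp [vfield] }
    refine ⟨0, L₀.mkContinuous 1 (fun x => by rw [one_mul]; exact norm_vfield_rot_le i x), by simp,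
      LinearMap.mkContinuous_norm_le _ zero_le_one _, fun x => by simp [L₀]⟩

/-- derivatives of the fields. -/
theorem chx_norm_iteratedFDeriv_vfield (a : Fin 3 ⊕ Fin 3) (x : Space) :
    ‖iteratedFDeriv ℝ 0 (vfield a) x‖ ≤ 1 + ‖x‖ ∧ ‖iteratedFDeriv ℝ 1 (vfield a) x‖ ≤ 1 ∧
      ∀ k, 2 ≤ k → ‖iteratedFDeriv ℝ k (vfield a) x‖ = 0 := by
  obtain ⟨v₀, L, hv₀, hL, hv⟩ := chx_vfield_affine a
  have hfd : fderiv ℝ (vfield a) = fun _ => L := by
    funext y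
    have : vfield a = fun x => v₀ + L x := funext hv
    rw [this]
    exact ((hasFDerivAt_const v₀ y).add L.hasFDerivAt).fderiv.trans (by simp)
  refine ⟨?_, ?_, fun k hk => ?_⟩
  · rw [norm_iteratedFDeriv_zero, hv]
    calc ‖v₀ + L x‖ ≤ ‖v₀‖ + ‖L x‖ := norm_add_le _ _
      _ ≤ 1 + 1 * ‖x‖ := add_le_add hv₀ (L.le_of_opNorm_le hL x)
      _ = 1 + ‖x‖ := by rw [one_mul]
  · rw [← norm_iteratedFDeriv_fderiv, norm_iteratedFDeriv_zero, hfd]
    exact hL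
  · obtain ⟨m, rfl⟩ : ∃ m, k = m + 1 + 1 := ⟨k - 2, by omega⟩
    rw [← norm_iteratedFDeriv_fderiv, hfd, iteratedFDeriv_const_of_ne (Nat.succ_ne_zero m)]
    simp

/-- one field. -/
theorem chx_norm_iteratedFDeriv_dfield_le {R : ℝ} {τ : Space → V} (hτ : ContDiffOn ℝ ∞ τ (Ext R))
    (a : Fin 3 ⊕ Fin 3) (n : ℕ) {x : Space} (hx : x ∈ Ext R) :
    ‖iteratedFDeriv ℝ n (dfield a τ) x‖
      ≤ (1 + ‖x‖) * ‖iteratedFDeriv ℝ (n + 1) τ x‖ + n * ‖iteratedFDeriv ℝ n τ x‖ := by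
  have hopen := isOpen_Ext R
  have hf : ContDiffOn ℝ ∞ (fderiv ℝ τ) (Ext R) := hτ.fderiv_of_isOpen hopen (by simp)
  have hg : ContDiffOn ℝ ∞ (vfield a) (Ext R) := (contDiff_vfield a).contDiffOn
  have key := norm_iteratedFDerivWithin_clm_apply (n := n) hf hg hopen.uniqueDiffOn hx
    (by exact_mod_cast le_top)
  simp only [iteratedFDerivWithin_of_isOpen _ hopen hx, norm_iteratedFDeriv_fderiv] at key
  obtain ⟨h0, h1, h2⟩ := chx_norm_iteratedFDeriv_vfield a x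
  refine (show ‖iteratedFDeriv ℝ n (dfield a τ) x‖ ≤ _ from key).trans ?_
  rcases n with _ | m
  · simp only [zero_add, Finset.sum_range_one, Nat.choose_self, Nat.cast_one, one_mul,
      Nat.cast_zero, zero_mul, add_zero]
    rw [mul_comm]
    exact mul_le_mul_of_nonneg_right h0 (norm_nonneg _)
  · rw [Finset.sum_range_succ, Finset.sum_range_succ, Finset.sum_eq_zero]
    · have s1 : m + 1 - m = 1 := by omega
      have s2 : m + 1 - (m + 1) = 0 := by omega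
      rw [s1, s2]
      simp only [Nat.choose_self, Nat.cast_one, one_mul, zero_add, Nat.choose_succ_self_right]
      have e1 : ((m + 1 : ℕ) : ℝ) * ‖iteratedFDeriv ℝ (m + 1) τ x‖ * ‖iteratedFDeriv ℝ 1 (vfield a) x‖
          ≤ ((m + 1 : ℕ) : ℝ) * ‖iteratedFDeriv ℝ (m + 1) τ x‖ * 1 :=
        mul_le_mul_of_nonneg_left h1 (by positivity)
      have e2 : ‖iteratedFDeriv ℝ (m + 1 + 1) τ x‖ * ‖iteratedFDeriv ℝ 0 (vfield a) x‖
          ≤ ‖iteratedFDeriv ℝ (m + 1 + 1) τ x‖ * (1 + ‖x‖) :=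
        mul_le_mul_of_nonneg_left h0 (norm_nonneg _)
      linarith
    · intro i hi
      rw [h2 (m + 1 - i) (by have := Finset.mem_range.1 hi; omega), mul_zero]

/-- the constants of `chx_norm_iteratedFDeriv_dword_le`. -/
def chxWordC : ℕ → ℕ → ℝ
  | 0, _ => 1
  | l + 1, n => chxWordC l (n + 1) + n * chxWordC l n

theorem chxWordC_nonneg : ∀ l n, 0 ≤ chxWordC l n
  | 0, _ => zero_le_one
  | l + 1, n => by
      rw [chxWordC]
      have h1 := chxWordC_nonneg l (n + 1)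
      have h2 := chxWordC_nonneg l n
      positivity

/-- all words, all orders. -/
theorem chx_norm_iteratedFDeriv_dword_le : ∃ c : ℕ → ℕ → ℝ, (∀ l n, 0 ≤ c l n) ∧
    ∀ (R : ℝ) (σ : Space → V), ContDiffOn ℝ ∞ σ (Ext R) → ∀ (w : List (Fin 3 ⊕ Fin 3)) (n : ℕ),
    ∀ x ∈ Ext R, ‖iteratedFDeriv ℝ n (dword w σ) x‖ ≤ c w.length n * (1 + ‖x‖) ^ w.length *
      ∑ j ∈ Finset.range (w.length + n + 1), ‖iteratedFDeriv ℝ j σ x‖ := by
  refine ⟨chxWordC, chxWordC_nonneg, fun R σ hσ w => ?_⟩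
  induction w with
  | nil =>
    intro n x hx
    simp only [List.length_nil, chxWordC, pow_zero, mul_one, one_mul, zero_add]
    exact Finset.single_le_sum (f := fun j => ‖iteratedFDeriv ℝ j σ x‖) (fun j _ => norm_nonneg _)
      (Finset.mem_range.2 (Nat.lt_succ_self n))
  | cons a w ih =>
    intro n x hx
    have h1 := chx_norm_iteratedFDeriv_dfield_le (contDiffOn_dword hσ w) a n hx
    have h2 := ih (n + 1) x hx
    have h3 := ih n x hx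
    obtain ⟨l, hl⟩ : ∃ l, l = w.length := ⟨_, rfl⟩
    rw [← hl] at h2 h3
    have hr : (1 : ℝ) ≤ 1 + ‖x‖ := by linarith [norm_nonneg x]
    have hr0 : (0 : ℝ) ≤ 1 + ‖x‖ := by linarith
    obtain ⟨S, hS⟩ : ∃ S, S = ∑ j ∈ Finset.range (l + 1 + n + 1), ‖iteratedFDeriv ℝ j σ x‖ := ⟨_, rfl⟩
    have hS0 : 0 ≤ S := hS ▸ Finset.sum_nonneg fun j _ => norm_nonneg _
    have hS2 : ∑ j ∈ Finset.range (l + (n + 1) + 1), ‖iteratedFDeriv ℝ j σ x‖ = S := by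
      rw [hS]; congr 2; omega
    have hS3 : ∑ j ∈ Finset.range (l + n + 1), ‖iteratedFDeriv ℝ j σ x‖ ≤ S := by
      rw [hS]
      exact Finset.sum_le_sum_of_subset_of_nonneg (Finset.range_mono (by omega)) fun j _ _ => norm_nonneg _
    rw [hS2] at h2
    have c1 := chxWordC_nonneg l (n + 1)
    have c2 := chxWordC_nonneg l n
    have hp : (1 + ‖x‖) ^ l ≤ (1 + ‖x‖) ^ (l + 1) := pow_le_pow_right₀ hr (Nat.le_succ l)
    have hp0 : 0 ≤ (1 + ‖x‖) ^ l := pow_nonneg hr0 l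
    have h3' : ‖iteratedFDeriv ℝ n (dword w σ) x‖ ≤ chxWordC l n * (1 + ‖x‖) ^ (l + 1) * S :=
      h3.trans (mul_le_mul (mul_le_mul_of_nonneg_left hp c2) hS3
        (Finset.sum_nonneg fun j _ => norm_nonneg _) (by positivity))
    rw [dword_cons, List.length_cons, ← hl, ← hS, chxWordC]
    calc ‖iteratedFDeriv ℝ n (dfield a (dword w σ)) x‖
        ≤ (1 + ‖x‖) * ‖iteratedFDeriv ℝ (n + 1) (dword w σ) x‖ + n * ‖iteratedFDeriv ℝ n (dword w σ) x‖ := h1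
      _ ≤ (1 + ‖x‖) * (chxWordC l (n + 1) * (1 + ‖x‖) ^ l * S)
            + n * (chxWordC l n * (1 + ‖x‖) ^ (l + 1) * S) :=
          add_le_add (mul_le_mul_of_nonneg_left h2 hr0) (mul_le_mul_of_nonneg_left h3' (Nat.cast_nonneg n))
      _ = (chxWordC l (n + 1) + n * chxWordC l n) * (1 + ‖x‖) ^ (l + 1) * S := by ring

/-- `(1+r)^l e^{-s r}` is bounded. -/
theorem chx_pow_mul_exp_le {s : ℝ} (hs : 0 < s) (l : ℕ) {r : ℝ} (hr : 0 ≤ r) :
    (1 + r) ^ l * Real.exp (-(s * r)) ≤ l.factorial * Real.exp s / s ^ l := by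
  have h1 := Real.pow_div_factorial_le_exp (s * (1 + r)) (by positivity) l
  rw [div_le_iff₀ (by positivity), mul_pow] at h1
  rw [le_div_iff₀ (by positivity)]
  have h2 : Real.exp (s * (1 + r)) * Real.exp (-(s * r)) = Real.exp s := by
    rw [← Real.exp_add]; congr 1; ring
  calc (1 + r) ^ l * Real.exp (-(s * r)) * s ^ l = s ^ l * (1 + r) ^ l * Real.exp (-(s * r)) := by ring
    _ ≤ Real.exp (s * (1 + r)) * l.factorial * Real.exp (-(s * r)) :=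
        mul_le_mul_of_nonneg_right h1 (Real.exp_pos _).le
    _ = l.factorial * (Real.exp (s * (1 + r)) * Real.exp (-(s * r))) := by ring
    _ = l.factorial * Real.exp s := by rw [h2]

/-- exponentially decaying Cartesian derivatives give word bounds with a slightly smaller exponent. -/
theorem chx_wordBdd_exp {a a' : ℝ} (h : a' < a) (C : ℕ → ℝ) : ∃ C' : ℕ → ℝ, (∀ n, 0 ≤ C' n) ∧
    ∀ (R M : ℝ) (σ : Space → V), 0 ≤ M → ContDiffOn ℝ ∞ σ (Ext R) →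
      (∀ n, ∀ x ∈ Ext R, ‖iteratedFDeriv ℝ n σ x‖ ≤ C n * M * Real.exp (-(a * ‖x‖))) →
      WordBdd R C' (fun x => M * Real.exp (-(a' * ‖x‖))) σ := by
  obtain ⟨c, hc0, hc⟩ := chx_norm_iteratedFDeriv_dword_le (V := V)
  have hs : 0 < a - a' := sub_pos.2 h
  refine ⟨fun l => c l 0 * (∑ j ∈ Finset.range (l + 0 + 1), |C j|) *
    (l.factorial * Real.exp (a - a') / (a - a') ^ l), fun l => ?_, fun R M σ hM hσ hb => ⟨hσ, fun w x hx => ?_⟩⟩
  · have := hc0 l 0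
    have h2 : 0 ≤ ∑ j ∈ Finset.range (l + 0 + 1), |C j| := Finset.sum_nonneg fun j _ => abs_nonneg _
    positivity
  · have h1 := hc R σ hσ w 0 x hx
    rw [norm_iteratedFDeriv_zero] at h1
    obtain ⟨l, hl⟩ : ∃ l, l = w.length := ⟨_, rfl⟩
    rw [← hl] at h1 ⊢
    have hE : 0 ≤ Real.exp (-(a * ‖x‖)) := (Real.exp_pos _).le
    have h2 : ∑ j ∈ Finset.range (l + 0 + 1), ‖iteratedFDeriv ℝ j σ x‖
        ≤ (∑ j ∈ Finset.range (l + 0 + 1), |C j|) * (M * Real.exp (-(a * ‖x‖))) := by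
      rw [Finset.sum_mul]
      refine Finset.sum_le_sum fun j _ => (hb j x hx).trans ?_
      rw [mul_assoc]
      exact mul_le_mul_of_nonneg_right (le_abs_self _) (mul_nonneg hM hE)
    have h3 := chx_pow_mul_exp_le hs l (norm_nonneg x)
    have h4 : Real.exp (-(a * ‖x‖)) = Real.exp (-(a' * ‖x‖)) * Real.exp (-((a - a') * ‖x‖)) := by
      rw [← Real.exp_add]; congr 1; ring
    have hS : 0 ≤ ∑ j ∈ Finset.range (l + 0 + 1), |C j| := Finset.sum_nonneg fun j _ => abs_nonneg _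
    have hr0 : (0 : ℝ) ≤ 1 + ‖x‖ := by linarith [norm_nonneg x]
    have hcl := hc0 l 0
    calc ‖dword w σ x‖ ≤ c l 0 * (1 + ‖x‖) ^ l * ∑ j ∈ Finset.range (l + 0 + 1), ‖iteratedFDeriv ℝ j σ x‖ := h1
      _ ≤ c l 0 * (1 + ‖x‖) ^ l * ((∑ j ∈ Finset.range (l + 0 + 1), |C j|) * (M * Real.exp (-(a * ‖x‖)))) :=
          mul_le_mul_of_nonneg_left h2 (by positivity)
      _ = c l 0 * (∑ j ∈ Finset.range (l + 0 + 1), |C j|) * ((1 + ‖x‖) ^ l * Real.exp (-((a - a') * ‖x‖)))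
            * (M * Real.exp (-(a' * ‖x‖))) := by rw [h4]; ring
      _ ≤ c l 0 * (∑ j ∈ Finset.range (l + 0 + 1), |C j|) * (l.factorial * Real.exp (a - a') / (a - a') ^ l)
            * (M * Real.exp (-(a' * ‖x‖))) :=
          mul_le_mul_of_nonneg_right (mul_le_mul_of_nonneg_left h3 (by positivity))
            (mul_nonneg hM (Real.exp_pos _).le)

end W

/-! ## LEAF CHX-DIFF -/

section DIFF
variable {𝒦 : Type} [NormedAddCommGroup 𝒦] [InnerProductSpace ℂ 𝒦] [CompleteSpace 𝒦]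

omit [CompleteSpace 𝒦] in
/-- **the a priori closeness `QF - bG = O(δ)`, `⟪φ,F⟫ - e = O(δ)`** from `F - F0 = O(δ)`, `φ - φ₀ = O(δ)`, `F0 = e φ₀ + b G`. -/
theorem chx_diff_abstract {R δ : ℝ} {C₁ C₂ : ℕ → ℝ} {g : Space → ℝ} (hg : ∀ x ∈ Ext R, 0 ≤ g x)
    (hC₁ : ∀ n, 0 ≤ C₁ n) (hC₂ : ∀ n, 0 ≤ C₂ n) {φ φ₀ G : 𝒦} (hφ : ‖φ‖ = 1) (hφ₀ : ‖φ₀‖ = 1)
    (hφG : ⟪φ, G⟫_ℂ = 0) (hφ₀G : ⟪φ₀, G⟫_ℂ = 0) (hclose : ‖φ - φ₀‖ ≤ δ)
    {F F0 : Space → 𝒦} {b e : Space → ℝ}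
    (hF0 : ∀ x ∈ Ext R, F0 x = (e x : ℂ) • φ₀ + (b x : ℂ) • G)
    (h1 : WordBdd R C₁ g F0) (h2 : WordBdd R C₂ (fun x => δ * g x) (fun x => F x - F0 x)) :
    WordBdd R (fun n => 2 * C₁ n + 2 * C₂ n) (fun x => δ * g x)
      (fun x => F x - ⟪φ, F x⟫_ℂ • φ - b x • G) ∧
    WordBdd R (fun n => C₁ n + C₂ n) (fun x => δ * g x) (fun x => ⟪φ, F x⟫_ℂ - (e x : ℂ)) := by
  have hδ : 0 ≤ δ := (norm_nonneg _).trans hclose
  have hδg : ∀ x ∈ Ext R, 0 ≤ δ * g x := fun x hx => mul_nonneg hδ (hg x hx)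
  have hφφ : ⟪φ, φ⟫_ℂ = 1 := by rw [inner_self_eq_norm_sq_to_K, hφ]; simp
  have hφ₀φ₀ : ⟪φ₀, φ₀⟫_ℂ = 1 := by rw [inner_self_eq_norm_sq_to_K, hφ₀]; simp
  -- the operators
  obtain ⟨Q, hQ⟩ : ∃ Q : 𝒦 →L[ℂ] 𝒦, Q = ContinuousLinearMap.id ℂ 𝒦 - (innerSL ℂ φ).smulRight φ := ⟨_, rfl⟩
  have hQa : ∀ v, Q v = v - ⟪φ, v⟫_ℂ • φ := fun v => by rw [hQ]; simp
  have hQn : ‖Q‖ ≤ 2 := by
    refine ContinuousLinearMap.opNorm_le_bound _ (by norm_num) fun v => ?_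
    rw [hQa]
    calc ‖v - ⟪φ, v⟫_ℂ • φ‖ ≤ ‖v‖ + ‖⟪φ, v⟫_ℂ • φ‖ := norm_sub_le _ _
      _ ≤ ‖v‖ + ‖v‖ := by
          gcongr
          rw [norm_smul, hφ, mul_one]
          calc ‖⟪φ, v⟫_ℂ‖ ≤ ‖φ‖ * ‖v‖ := norm_inner_le_norm _ _
            _ = ‖v‖ := by rw [hφ, one_mul]
      _ = 2 * ‖v‖ := by ring
  have hQd : ‖Q (φ₀ - φ)‖ ≤ 2 * δ := by
    calc ‖Q (φ₀ - φ)‖ ≤ ‖Q‖ * ‖φ₀ - φ‖ := Q.le_opNorm _
      _ ≤ 2 * δ := mul_le_mul hQn (by rw [norm_sub_rev]; exact hclose) (norm_nonneg _) (by norm_num)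
  obtain ⟨L₂, hL₂⟩ : ∃ L₂ : 𝒦 →L[ℂ] 𝒦, L₂ = (innerSL ℂ φ₀).smulRight (Q (φ₀ - φ)) := ⟨_, rfl⟩
  have hL₂a : ∀ v, L₂ v = ⟪φ₀, v⟫_ℂ • Q (φ₀ - φ) := fun v => by rw [hL₂]; simp
  have hL₂n : ‖L₂‖ ≤ 2 * δ := by
    refine ContinuousLinearMap.opNorm_le_bound _ (by positivity) fun v => ?_
    rw [hL₂a, norm_smul]
    calc ‖⟪φ₀, v⟫_ℂ‖ * ‖Q (φ₀ - φ)‖ ≤ (‖φ₀‖ * ‖v‖) * (2 * δ) :=
          mul_le_mul (norm_inner_le_norm _ _) hQd (norm_nonneg _) (by positivity)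
      _ = 2 * δ * ‖v‖ := by rw [hφ₀]; ring
  have hPn : ‖innerSL ℂ φ‖ ≤ 1 := by rw [innerSL_apply_norm, hφ]
  have hL₃n : ‖innerSL ℂ (φ - φ₀)‖ ≤ δ := by rw [innerSL_apply_norm]; exact hclose
  have he : ∀ x ∈ Ext R, ⟪φ₀, F0 x⟫_ℂ = (e x : ℂ) := fun x hx => by
    rw [hF0 x hx, inner_add_right, inner_smul_right, inner_smul_right, hφ₀φ₀, hφ₀G]
    simp
  constructor
  · have a1 : WordBdd R (fun n => 2 * C₂ n) (fun x => δ * g x) (fun x => Q (F x - F0 x)) :=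
      (h2.clmC Q).mono le_rfl fun n x hx =>
        mul_le_mul_of_nonneg_right (mul_le_mul_of_nonneg_right hQn (hC₂ n)) (hδg x hx)
    have a2 : WordBdd R (fun n => 2 * C₁ n) (fun x => δ * g x) (fun x => L₂ (F0 x)) :=
      (h1.clmC L₂).mono le_rfl fun n x hx => by
        have : ‖L₂‖ * C₁ n * g x ≤ 2 * δ * C₁ n * g x :=
          mul_le_mul_of_nonneg_right (mul_le_mul_of_nonneg_right hL₂n (hC₁ n)) (hg x hx)
        calc ‖L₂‖ * C₁ n * g x ≤ 2 * δ * C₁ n * g x := this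
          _ = 2 * C₁ n * (δ * g x) := by ring
    refine (a2.add a1).congr fun x hx => ?_
    have e1 := he x hx
    rw [hL₂a, e1, hQa, hQa]
    have e2 : F x = (F x - F0 x) + F0 x := by abel
    have e3 : ⟪φ, F0 x⟫_ℂ = (e x : ℂ) * ⟪φ, φ₀⟫_ℂ := by
      rw [hF0 x hx, inner_add_right, inner_smul_right, inner_smul_right, hφG]
      simp
    have e4 : ⟪φ, F x⟫_ℂ = ⟪φ, F x - F0 x⟫_ℂ + (e x : ℂ) * ⟪φ, φ₀⟫_ℂ := by
      rw [inner_sub_right, e3]; ring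
    have e5 : b x • G = (b x : ℂ) • G := (Complex.coe_smul _ _).symm
    rw [e4, e5, inner_sub_right, inner_sub_right, hφφ, e3]
    have e6 : F x - F0 x = F x - ((e x : ℂ) • φ₀ + (b x : ℂ) • G) := by rw [hF0 x hx]
    rw [e6]
    simp only [smul_sub, sub_smul, add_smul, mul_smul, one_smul]
    abel
  · have a1 : WordBdd R (fun n => C₂ n) (fun x => δ * g x) (fun x => innerSL ℂ φ (F x - F0 x)) :=
      (h2.clmC (innerSL ℂ φ)).mono le_rfl fun n x hx => by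
        have : ‖innerSL ℂ φ‖ * C₂ n ≤ 1 * C₂ n := mul_le_mul_of_nonneg_right hPn (hC₂ n)
        rw [one_mul] at this
        exact mul_le_mul_of_nonneg_right this (hδg x hx)
    have a2 : WordBdd R (fun n => C₁ n) (fun x => δ * g x) (fun x => innerSL ℂ (φ - φ₀) (F0 x)) :=
      (h1.clmC (innerSL ℂ (φ - φ₀))).mono le_rfl fun n x hx => by
        have : ‖innerSL ℂ (φ - φ₀)‖ * C₁ n * g x ≤ δ * C₁ n * g x :=
          mul_le_mul_of_nonneg_right (mul_le_mul_of_nonneg_right hL₃n (hC₁ n)) (hg x hx)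
        calc _ ≤ δ * C₁ n * g x := this
          _ = C₁ n * (δ * g x) := by ring
    refine (a2.add a1).congr fun x hx => ?_
    rw [innerSL_apply_apply, innerSL_apply_apply, inner_sub_left, inner_sub_right, he x hx]
    ring

end DIFF

end Claimed.Open.R278
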