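import Claimed.Open.R278.FormLemmas

/-!
# Checks of the definitions of Part II of `Statement.lean` (the exact charge)
-/

open MeasureTheory
open scoped ContDiff InnerProductSpace ComplexConjugate ENNReal Topology

noncomputable section

namespace Claimed.Open.R278

variable {m : ℕ}

/-! ### rotations and the reflection -/

@[simp] theorem rotZ_apply_zero (a : ℝ) (r : Space) :
    rotZ a r 0 = Real.cos a * r 0 - Real.sin a * r 1 := rfl
@[simp] theorem rotZ_apply_one (a : ℝ) (r : Space) :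
    rotZ a r 1 = Real.sin a * r 0 + Real.cos a * r 1 := rfl
@[simp] theorem rotZ_apply_two (a : ℝ) (r : Space) : rotZ a r 2 = r 2 := rfl
@[simp] theorem reflZ_apply_zero (r : Space) : reflZ r 0 = r 0 := rfl
@[simp] theorem reflZ_apply_one (r : Space) : reflZ r 1 = r 1 := rfl
@[simp] theorem reflZ_apply_two (r : Space) : reflZ r 2 = -r 2 := rfl
@[simp] theorem cyl_apply_zero (p z : ℝ) : cyl p z 0 = p := rfl
@[simp] theorem cyl_apply_one (p z : ℝ) : cyl p z 1 = 0 := rfl
@[simp] theorem cyl_apply_two (p z : ℝ) : cyl p z 2 = z := rfl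

theorem space_ext {r r' : Space} (h0 : r 0 = r' 0) (h1 : r 1 = r' 1) (h2 : r 2 = r' 2) : r = r' := by
  ext i; fin_cases i <;> assumption

theorem norm_sq_space (r : Space) : ‖r‖ ^ 2 = r 0 ^ 2 + r 1 ^ 2 + r 2 ^ 2 := by
  rw [EuclideanSpace.norm_sq_eq, Fin.sum_univ_three]; simp

theorem rotZ_zero (r : Space) : rotZ 0 r = r := by apply space_ext <;> simp

theorem rotZ_rotZ (a a' : ℝ) (r : Space) : rotZ a (rotZ a' r) = rotZ (a + a') r := by
  apply space_ext <;> simp [Real.cos_add, Real.sin_add] <;> ring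

theorem reflZ_reflZ (r : Space) : reflZ (reflZ r) = r := by apply space_ext <;> simp

theorem norm_rotZ (a : ℝ) (r : Space) : ‖rotZ a r‖ = ‖r‖ := by
  have h : ‖rotZ a r‖ ^ 2 = ‖r‖ ^ 2 := by
    rw [norm_sq_space, norm_sq_space]
    simp only [rotZ_apply_zero, rotZ_apply_one, rotZ_apply_two]
    nlinarith [Real.sin_sq_add_cos_sq a]
  exact (sq_eq_sq₀ (norm_nonneg _) (norm_nonneg _)).mp h

theorem norm_reflZ (r : Space) : ‖reflZ r‖ = ‖r‖ := by
  have h : ‖reflZ r‖ ^ 2 = ‖r‖ ^ 2 := by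
    rw [norm_sq_space, norm_sq_space]; simp
  exact (sq_eq_sq₀ (norm_nonneg _) (norm_nonneg _)).mp h

theorem rotZ_ez (a : ℝ) : rotZ a ez = ez := by apply space_ext <;> simp [ez]

theorem reflZ_ez : reflZ ez = -ez := by apply space_ext <;> simp [ez]

theorem norm_cyl (p z : ℝ) : ‖cyl p z‖ = √(p ^ 2 + z ^ 2) := by
  rw [← Real.sqrt_sq (norm_nonneg _), norm_sq_space]; simp

/-- Every point is a rotation of the point `cyl p z` with the same cylindrical coordinates. -/
theorem exists_rotZ_cyl (r : Space) : ∃ a, r = rotZ a (cyl (√(r 0 ^ 2 + r 1 ^ 2)) (r 2)) := by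
  set p := √(r 0 ^ 2 + r 1 ^ 2) with hp
  have hp2 : p ^ 2 = r 0 ^ 2 + r 1 ^ 2 := Real.sq_sqrt (by positivity)
  by_cases h0 : p = 0
  · refine ⟨0, ?_⟩
    have h1 : r 0 = 0 := by nlinarith [sq_nonneg (r 0), sq_nonneg (r 1)]
    have h2 : r 1 = 0 := by nlinarith [sq_nonneg (r 0), sq_nonneg (r 1)]
    apply space_ext <;> simp [h0, h1, h2]
  · have hz : (⟨r 0, r 1⟩ : ℂ) ≠ 0 := by
      intro h
      have h1 : r 0 = 0 := congrArg Complex.re h
      have h2 : r 1 = 0 := congrArg Complex.im h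
      apply h0
      rw [hp, h1, h2]; simp
    have hn : ‖(⟨r 0, r 1⟩ : ℂ)‖ = p := by
      rw [Complex.norm_eq_sqrt_sq_add_sq]
    refine ⟨Complex.arg ⟨r 0, r 1⟩, ?_⟩
    apply space_ext
    · simp only [rotZ_apply_zero, cyl_apply_zero, cyl_apply_one, mul_zero, sub_zero]
      rw [Complex.cos_arg hz, hn]; field_simp
    · simp only [rotZ_apply_one, cyl_apply_zero, cyl_apply_one, mul_zero, add_zero]
      rw [Complex.sin_arg, hn]; field_simp
    · simp

/-- The rotation as a linear isometry. -/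
def rotZIsometry (a : ℝ) : Space →ₗᵢ[ℝ] Space where
  toFun := rotZ a
  map_add' r r' := by apply space_ext <;> simp <;> ring
  map_smul' c r := by apply space_ext <;> simp <;> ring
  norm_map' := norm_rotZ a

/-- The reflection as a linear isometry. -/
def reflZIsometry : Space →ₗᵢ[ℝ] Space where
  toFun := reflZ
  map_add' r r' := by apply space_ext <;> simp <;> ring
  map_smul' c r := by apply space_ext <;> simp
  norm_map' := norm_reflZ

theorem measurePreserving_rotZ (a : ℝ) : MeasurePreserving (rotZ a) volume volume :=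
  ((rotZIsometry a).toLinearIsometryEquiv rfl).measurePreserving

theorem measurePreserving_reflZ : MeasurePreserving reflZ volume volume :=
  (reflZIsometry.toLinearIsometryEquiv rfl).measurePreserving

/-- Simultaneous rotation preserves Lebesgue measure on configuration space, so `IsAxisymmetric`
does not depend on the representative of the `L²` class. -/
theorem measurePreserving_config_rotZ (a : ℝ) :
    MeasurePreserving (fun (x : Config m) i => rotZ a (x i)) volume volume :=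
  volume_preserving_pi fun _ => measurePreserving_rotZ a

theorem measurePreserving_config_reflZ :
    MeasurePreserving (fun (x : Config m) i => reflZ (x i)) volume volume :=
  volume_preserving_pi fun _ => measurePreserving_reflZ

/-- The scaled potentials are invariant under the symmetries used in Definition 7.1. -/
theorem nuclearPotential_rotZ (Z R a : ℝ) (r : Space) :
    nuclearPotential Z R (rotZ a r) = nuclearPotential Z R r := by
  have h1 : rotZ a r - R • ez = rotZ a (r - R • ez) := by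
    have := (rotZIsometry a).map_sub r (R • ez)
    have h2 : rotZIsometry a (R • ez) = R • ez := by
      rw [(rotZIsometry a).map_smul]; exact congrArg _ (rotZ_ez a)
    rw [h2] at this; exact this.symm
  have h3 : rotZ a r + R • ez = rotZ a (r + R • ez) := by
    have := (rotZIsometry a).map_add r (R • ez)
    have h2 : rotZIsometry a (R • ez) = R • ez := by
      rw [(rotZIsometry a).map_smul]; exact congrArg _ (rotZ_ez a)
    rw [h2] at this; exact this.symm
  unfold nuclearPotential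
  rw [h1, h3, norm_rotZ, norm_rotZ]

theorem nuclearPotential_reflZ (Z R : ℝ) (r : Space) :
    nuclearPotential Z R (reflZ r) = nuclearPotential Z R r := by
  have h1 : reflZ r - R • ez = reflZ (r + R • ez) := by
    apply space_ext <;> simp [ez] <;> ring
  have h3 : reflZ r + R • ez = reflZ (r - R • ez) := by
    apply space_ext <;> simp [ez] <;> ring
  unfold nuclearPotential
  rw [h1, h3, norm_reflZ, norm_reflZ]; ring

theorem scaledPotential_rotZ (t a : ℝ) (x : Config m) :
    scaledPotential m t (fun i => rotZ a (x i)) = scaledPotential m t x := by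
  unfold scaledPotential oneBodyPotential repulsion
  simp only [nuclearPotential_rotZ]
  have : ∀ i j, ‖rotZ a (x i) - rotZ a (x j)‖ = ‖x i - x j‖ := fun i j => by
    rw [← norm_rotZ a (x i - x j)]
    exact congrArg _ ((rotZIsometry a).map_sub (x i) (x j)).symm
  simp only [this]

theorem scaledPotential_reflZ (t : ℝ) (x : Config m) :
    scaledPotential m t (fun i => reflZ (x i)) = scaledPotential m t x := by
  unfold scaledPotential oneBodyPotential repulsion
  simp only [nuclearPotential_reflZ]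
  have : ∀ i j, ‖reflZ (x i) - reflZ (x j)‖ = ‖x i - x j‖ := fun i j => by
    rw [← norm_reflZ (x i - x j)]
    exact congrArg _ (reflZIsometry.map_sub (x i) (x j)).symm
  simp only [this]

/-! ### spin sectors and singlets -/

theorem InSpinSector.add {μ : ℚ} {Ψ Φ : L2 m} (h : InSpinSector μ Ψ) (h' : InSpinSector μ Φ) :
    InSpinSector μ (Ψ + Φ) := by
  filter_upwards [h, h', Lp.coeFn_add Ψ Φ] with x hx hx' e s hs
  rw [e, Pi.add_apply, PiLp.add_apply, hx s hs, hx' s hs, add_zero]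

theorem InSpinSector.smul {μ : ℚ} {Ψ : L2 m} (c : ℂ) (h : InSpinSector μ Ψ) :
    InSpinSector μ (c • Ψ) := by
  filter_upwards [h, Lp.coeFn_smul c Ψ] with x hx e s hs
  rw [e, Pi.smul_apply, PiLp.smul_apply, hx s hs, smul_zero]

/-- A singlet has `S_z = 0`. -/
theorem IsSinglet.inSpinSector {φ : L2 2} (h : IsSinglet φ) : InSpinSector 0 φ := by
  filter_upwards [h] with y hy s hs
  have hss : s ∘ Equiv.swap 0 1 = s := by
    have h01 : s 0 = s 1 := by
      by_contra hne
      apply hs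
      have h2 : ∀ a b : Fin 2, a ≠ b →
          ((if a = 0 then (1 / 2 : ℚ) else -(1 / 2)) + if b = 0 then (1 / 2 : ℚ) else -(1 / 2)) = 0 := by
        decide +kernel
      rw [spinZ, Fin.sum_univ_two]
      exact h2 _ _ hne
    funext i
    fin_cases i
    · simp [h01]
    · simp [h01]
  have := hy s
  rw [hss] at this
  have h2 : (2 : ℂ) * φ y s = 0 := by linear_combination this
  simpa using h2

/-- For an antisymmetric two-electron state, "spin singlet" means "symmetric in space". -/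
theorem isSinglet_iff_symmetric {φ : L2 2} (ha : IsAntisymmetric φ) :
    IsSinglet φ ↔ ∀ᵐ y : Config 2, φ (y ∘ Equiv.swap 0 1) = φ y := by
  have hπ := ha (Equiv.swap 0 1)
  have hsw : ∀ s : SpinConfig 2, (s ∘ Equiv.swap 0 1) ∘ Equiv.swap 0 1 = s := by
    intro s; funext i; simp
  constructor
  · intro h
    filter_upwards [hπ, h] with y hy hs
    ext s
    have h1 := hy (s ∘ Equiv.swap 0 1)
    rw [hsw, hs s] at h1
    simpa using h1
  · intro h
    filter_upwards [hπ, h] with y hy hs s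
    have h1 := hy s
    rw [hs] at h1
    simpa using h1

/-! ### isolated simple ground levels -/

section Ground

variable {W : Config m → ℝ} {S : Set (L2 m)} {E : ℝ} {Φ : L2 m}

/-- Splitting of the energy along an eigenvector. -/
theorem energy_eq_of_eigenvector (hW : AEStronglyMeasurable W volume) (hΦ : Φ ∈ Eigenspace W E)
    (h1 : ‖Φ‖ = 1) {Ξ : L2 m} (hΞ : Ξ ∈ FormDomain W) :
    energy W Ξ = E * ‖⟪Φ, Ξ⟫_ℂ‖ ^ 2 + energy W (Ξ - ⟪Φ, Ξ⟫_ℂ • Φ) ∧
    ‖Ξ‖ ^ 2 = ‖⟪Φ, Ξ⟫_ℂ‖ ^ 2 + ‖Ξ - ⟪Φ, Ξ⟫_ℂ • Φ‖ ^ 2 ∧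
    ⟪Φ, Ξ - ⟪Φ, Ξ⟫_ℂ • Φ⟫_ℂ = 0 ∧ Ξ - ⟪Φ, Ξ⟫_ℂ • Φ ∈ FormDomain W := by
  set c := ⟪Φ, Ξ⟫_ℂ with hc
  set Ξ' := Ξ - c • Φ with hΞ'
  have hcΦ : c • Φ ∈ FormDomain W := smul_mem_formDomain c hΦ.1
  have hd : Ξ' ∈ FormDomain W := by
    have : Ξ' = Ξ + (-1 : ℂ) • (c • Φ) := by rw [hΞ']; simp [sub_eq_add_neg]
    rw [this]
    exact add_mem_formDomain hW hΞ (smul_mem_formDomain _ hcΦ)
  have hΦΦ : ⟪Φ, Φ⟫_ℂ = 1 := by rw [inner_self_eq_norm_sq_to_K, h1]; simp
  have ho : ⟪Φ, Ξ'⟫_ℂ = 0 := by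
    rw [hΞ', inner_sub_right, inner_smul_right, hΦΦ, ← hc]; simp
  have ho' : ⟪Ξ', Φ⟫_ℂ = 0 := by rw [← inner_conj_symm, ho]; simp
  have hsum : Ξ = c • Φ + Ξ' := by rw [hΞ']; abel
  refine ⟨?_, ?_, ho, hd⟩
  · have e1 : sesqForm W Ξ' Φ = 0 := by rw [hΦ.2 Ξ' hd, ho']; simp
    have e2 : sesqForm W Φ Ξ' = 0 := by rw [sesqForm_conj_symm Ξ' Φ, e1]; simp
    have e3 : sesqForm W Φ Φ = E := by rw [hΦ.2 Φ hΦ.1, hΦΦ]; simp
    have : sesqForm W Ξ Ξ = (E : ℂ) * (conj c * c) + sesqForm W Ξ' Ξ' := by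
      conv_lhs => rw [hsum]
      rw [sesqForm_add_right hW (add_mem_formDomain hW hcΦ hd) hcΦ hd,
        sesqForm_add_left hW hcΦ hd hcΦ, sesqForm_add_left hW hcΦ hd hd,
        sesqForm_smul_right c hΦ.1, sesqForm_smul_right c hΦ.1, sesqForm_smul_left c hΦ.1,
        sesqForm_smul_left c hΦ.1, e1, e2, e3]
      ring
    unfold energy
    rw [this, mul_comm (conj c), Complex.mul_conj, Complex.normSq_eq_norm_sq, Complex.add_re]
    congr 1
    norm_cast
  · conv_lhs => rw [hsum]
    rw [@norm_add_sq ℂ, inner_smul_left, ho, norm_smul, h1]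
    simp

/-- An isolated simple ground level is a lower bound of the form on its subspace. -/
theorem IsSimpleIsolatedGround.le_energy (hW : AEStronglyMeasurable W volume)
    (h : IsSimpleIsolatedGround W S E Φ) (hS : ∀ Ξ ∈ S, ∀ c : ℂ, Ξ - c • Φ ∈ S)
    {Ξ : L2 m} (hΞ : Ξ ∈ FormDomain W) (hΞS : Ξ ∈ S) : E * ‖Ξ‖ ^ 2 ≤ energy W Ξ := by
  obtain ⟨h1, -, hΦ, c, hc, hgap⟩ := h
  obtain ⟨e1, e2, e3, e4⟩ := energy_eq_of_eigenvector hW hΦ h1 hΞ
  have := hgap _ e4 (hS Ξ hΞS _) e3
  rw [e1, e2]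
  nlinarith [sq_nonneg ‖Ξ - ⟪Φ, Ξ⟫_ℂ • Φ‖]

/-- An isolated simple ground level is simple: all eigenvectors are multiples of `Φ`. -/
theorem IsSimpleIsolatedGround.eq_smul (hW : AEStronglyMeasurable W volume)
    (h : IsSimpleIsolatedGround W S E Φ) (hS : ∀ Ξ ∈ S, ∀ c : ℂ, Ξ - c • Φ ∈ S)
    {Ξ : L2 m} (hΞ : Ξ ∈ Eigenspace W E) (hΞS : Ξ ∈ S) : Ξ = ⟪Φ, Ξ⟫_ℂ • Φ := by
  obtain ⟨h1, -, hΦ, c, hc, hgap⟩ := h
  obtain ⟨e1, e2, e3, e4⟩ := energy_eq_of_eigenvector hW hΦ h1 hΞ.1
  have h2 := hgap _ e4 (hS Ξ hΞS _) e3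
  have h3 : energy W Ξ = E * ‖Ξ‖ ^ 2 := by
    unfold energy
    rw [hΞ.2 Ξ hΞ.1, inner_self_eq_norm_sq_to_K, Complex.re_ofReal_mul]
    norm_cast
  have h4 : c * ‖Ξ - ⟪Φ, Ξ⟫_ℂ • Φ‖ ^ 2 ≤ 0 := by
    rw [e2] at h3; nlinarith
  have h5 : ‖Ξ - ⟪Φ, Ξ⟫_ℂ • Φ‖ ^ 2 ≤ 0 := by
    by_contra hh
    have := mul_pos hc (not_le.mp hh)
    linarith
  have h6 : ‖Ξ - ⟪Φ, Ξ⟫_ℂ • Φ‖ = 0 :=
    pow_eq_zero_iff (two_ne_zero) |>.mp (le_antisymm h5 (sq_nonneg _))
  exact sub_eq_zero.mp (norm_eq_zero.mp h6)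

/-- In the whole space `ℌ_m`, the vector of an isolated simple ground level is a ground state in the
sense of Part I. -/
theorem IsSimpleIsolatedGround.isGroundState (hW : AEStronglyMeasurable W volume)
    (h : IsSimpleIsolatedGround W Set.univ E Φ) : IsSpectrumBottom W E ∧ IsGroundState W Φ := by
  have hb : IsSpectrumBottom W E := by
    apply IsLeast.isGLB
    refine ⟨⟨Φ, ⟨h.2.2.1.1, h.1⟩, ?_⟩, ?_⟩
    · unfold energy
      rw [h.2.2.1.2 Φ h.2.2.1.1, inner_self_eq_norm_sq_to_K, h.1]; simp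
    · rintro _ ⟨Ξ, ⟨hΞ, hΞ1⟩, rfl⟩
      have := h.le_energy hW (fun _ _ _ => Set.mem_univ _) hΞ (Set.mem_univ _)
      rwa [hΞ1, one_pow, mul_one] at this
  exact ⟨hb, h.1, E, hb, h.2.2.1⟩

/-- The spin sectors satisfy the closure hypothesis of the previous lemmas. -/
theorem sector_closed {μ : ℚ} (hΦ : InSpinSector μ Φ) :
    ∀ Ξ ∈ {Ξ : L2 m | InSpinSector μ Ξ}, ∀ c : ℂ, Ξ - c • Φ ∈ {Ξ : L2 m | InSpinSector μ Ξ} := by
  intro Ξ hΞ c
  have : Ξ - c • Φ = Ξ + (-c) • Φ := by rw [neg_smul, sub_eq_add_neg]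
  rw [this]
  exact InSpinSector.add hΞ (hΦ.smul _)

end Ground

/-! ### scalar weak gradients -/

theorem continuous_gradient {f : Space → ℝ} (hf : ContDiff ℝ 1 f) : Continuous (gradient f) := by
  have : gradient f = fun x => (InnerProductSpace.toDual ℝ Space).symm (fderiv ℝ f x) := rfl
  rw [this]
  exact (LinearIsometryEquiv.continuous _).comp (hf.continuous_fderiv (by simp))

/-- The classical gradient of a `C¹` function is its weak gradient, so that the pair
`(θ, gradient θ)` in `IsFoldedMinimizer` is consistent with `IsAdmissibleAngle`. -/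
theorem isWeakGrad_gradient {f : Space → ℝ} (hf : ContDiff ℝ 1 f) : IsWeakGrad f (gradient f) := by
  refine ⟨hf.continuous.locallyIntegrable, (continuous_gradient hf).locallyIntegrable, ?_⟩
  intro φ hφ hφc v
  have hfd : Differentiable ℝ f := hf.differentiable (by simp)
  have hφd : Differentiable ℝ φ := hφ.differentiable (by simp)
  have c1 : Continuous fun x => fderiv ℝ f x v :=
    (hf.continuous_fderiv (by simp)).clm_apply continuous_const
  have c2 : Continuous fun x => fderiv ℝ φ x v :=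
    (hφ.continuous_fderiv (by simp)).clm_apply continuous_const
  have h1 : Integrable (fun x => fderiv ℝ f x v * φ x) :=
    (c1.mul hφ.continuous).integrable_of_hasCompactSupport hφc.mul_left
  have h2 : Integrable (fun x => f x * fderiv ℝ φ x v) :=
    (hf.continuous.mul c2).integrable_of_hasCompactSupport (hφc.fderiv_apply (𝕜 := ℝ) v).mul_left
  have h3 : Integrable (fun x => f x * φ x) :=
    (hf.continuous.mul hφ.continuous).integrable_of_hasCompactSupport hφc.mul_left
  have key := integral_mul_fderiv_eq_neg_fderiv_mul_of_integrable (μ := (volume : Measure Space))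
    (v := v) h1 h2 h3 (fun x _ => hfd x) (fun x _ => hφd x)
  rw [key]
  simp only [inner_gradient_left]

/-- The weak gradient is unique up to null sets. -/
theorem IsWeakGrad.ae_eq {f : Space → ℝ} {G G' : Space → Space} (h : IsWeakGrad f G)
    (h' : IsWeakGrad f G') : G =ᵐ[volume] G' := by
  apply ae_eq_of_integral_contDiff_smul_eq h.2.1 h'.2.1
  intro φ hφ hφc
  have i1 : Integrable (fun x => φ x • G x) :=
    h.2.1.integrable_smul_left_of_hasCompactSupport hφ.continuous hφc
  have i2 : Integrable (fun x => φ x • G' x) :=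
    h'.2.1.integrable_smul_left_of_hasCompactSupport hφ.continuous hφc
  refine ext_inner_left ℝ fun v => ?_
  have e : ∀ {H : Space → Space}, Integrable (fun x => φ x • H x) →
      ⟪v, ∫ x, φ x • H x⟫_ℝ = ∫ x, ⟪H x, v⟫_ℝ * φ x := by
    intro H hH
    rw [← integral_inner hH]
    refine integral_congr_ae (Filter.Eventually.of_forall fun x => ?_)
    simp only [inner_smul_right, real_inner_comm]
    ring
  rw [e i1, e i2]
  have h1 := h.2.2 φ hφ hφc v
  have h2 := h'.2.2 φ hφ hφc v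
  rw [h1] at h2
  exact neg_injective h2

/-! ### strip solutions -/

/-- Example: for a constant weight the strip solution is `sinh (μ (L - z)) / sinh (μ L)`. -/
theorem isStripSolution_const (c : ℝ) :
    IsStripSolution (fun _ => c)
      (fun z => Real.sinh (stripMu * (stripL - z)) / Real.sinh (stripMu * stripL))
      (fun z => -(stripMu * Real.cosh (stripMu * (stripL - z))) / Real.sinh (stripMu * stripL)) := by
  have hs : Real.sinh (stripMu * stripL) ≠ 0 := by
    rw [Ne, Real.sinh_eq_zero]; norm_num [stripMu, stripL]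
  refine ⟨by simp [hs], by simp, fun z _ => ⟨?_, ?_⟩⟩
  · apply HasDerivAt.hasDerivWithinAt
    have h1 : HasDerivAt (fun z => stripMu * (stripL - z)) (stripMu * (0 - 1)) z :=
      ((hasDerivAt_const z stripL).sub (hasDerivAt_id z)).const_mul stripMu
    have h2 := (h1.sinh).div_const (Real.sinh (stripMu * stripL))
    exact h2.congr_deriv (by ring)
  · apply HasDerivAt.hasDerivWithinAt
    have h1 : HasDerivAt (fun z => stripMu * (stripL - z)) (stripMu * (0 - 1)) z :=
      ((hasDerivAt_const z stripL).sub (hasDerivAt_id z)).const_mul stripMu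
    have h2 := ((((h1.cosh).const_mul stripMu).neg).div_const
      (Real.sinh (stripMu * stripL))).const_mul c
    exact h2.congr_deriv (by ring)

/-- The strip solution is unique for a positive weight, so `U_t(M,·)`, its derivative and the
margin `α` are well defined. -/
theorem IsStripSolution.unique {ν U₁ U₁' U₂ U₂' : ℝ → ℝ} (hν : ∀ z ∈ Set.Icc 0 stripL, 0 < ν z)
    (h₁ : IsStripSolution ν U₁ U₁') (h₂ : IsStripSolution ν U₂ U₂') :
    ∀ z ∈ Set.Icc 0 stripL, U₁ z = U₂ z ∧ U₁' z = U₂' z := by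
  have hL : (0 : ℝ) < stripL := by norm_num [stripL]
  have hμ : (0 : ℝ) < stripMu ^ 2 := by norm_num [stripMu]
  set V := fun z => U₁ z - U₂ z with hV
  set P := fun z => ν z * U₁' z - ν z * U₂' z with hP
  have dV : ∀ z ∈ Set.Icc 0 stripL,
      HasDerivWithinAt V (U₁' z - U₂' z) (Set.Icc 0 stripL) z := fun z hz =>
    (h₁.2.2 z hz).1.sub (h₂.2.2 z hz).1
  have dP : ∀ z ∈ Set.Icc 0 stripL,
      HasDerivWithinAt P (ν z * (stripMu ^ 2 * U₁ z) - ν z * (stripMu ^ 2 * U₂ z))
        (Set.Icc 0 stripL) z := fun z hz =>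
    (h₁.2.2 z hz).2.sub (h₂.2.2 z hz).2
  set f := fun z => P z * V z with hf
  have df : ∀ z ∈ Set.Icc 0 stripL,
      HasDerivWithinAt f (ν z * (stripMu ^ 2 * V z ^ 2 + (U₁' z - U₂' z) ^ 2))
        (Set.Icc 0 stripL) z := fun z hz => by
    have := (dP z hz).mul (dV z hz)
    exact this.congr_deriv (by simp only [hV, hP]; ring)
  have hmono : MonotoneOn f (Set.Icc 0 stripL) := by
    apply monotoneOn_of_deriv_nonneg (convex_Icc _ _)
    · exact fun z hz => (df z hz).continuousWithinAt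
    · intro z hz
      rw [interior_Icc] at hz
      exact ((df z (Set.Ioo_subset_Icc_self hz)).hasDerivAt
        (Icc_mem_nhds hz.1 hz.2)).differentiableAt.differentiableWithinAt
    · intro z hz
      rw [interior_Icc] at hz
      rw [((df z (Set.Ioo_subset_Icc_self hz)).hasDerivAt (Icc_mem_nhds hz.1 hz.2)).deriv]
      have := hν z (Set.Ioo_subset_Icc_self hz)
      positivity
  have f0 : f 0 = 0 := by simp [hf, hV, h₁.1, h₂.1]
  have fL : f stripL = 0 := by simp [hf, hV, h₁.2.1, h₂.2.1]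
  have fz : ∀ z ∈ Set.Icc 0 stripL, f z = 0 := fun z hz => by
    have a := hmono (Set.left_mem_Icc.mpr hL.le) hz hz.1
    have b := hmono hz (Set.right_mem_Icc.mpr hL.le) hz.2
    rw [f0] at a; rw [fL] at b
    exact le_antisymm b a
  have hint : ∀ z ∈ Set.Ioo 0 stripL, V z = 0 ∧ U₁' z - U₂' z = 0 := fun z hz => by
    have h1 := (df z (Set.Ioo_subset_Icc_self hz)).hasDerivAt (Icc_mem_nhds hz.1 hz.2)
    have h2 : HasDerivAt f 0 z := by
      apply (hasDerivAt_const z (0 : ℝ)).congr_of_eventuallyEq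
      filter_upwards [Icc_mem_nhds hz.1 hz.2] with y hy
      exact fz y hy
    have h3 := h1.unique h2
    have hνz := hν z (Set.Ioo_subset_Icc_self hz)
    have h4 : stripMu ^ 2 * V z ^ 2 + (U₁' z - U₂' z) ^ 2 = 0 := by
      rcases mul_eq_zero.mp h3 with h | h
      · exact absurd h hνz.ne'
      · exact h
    have h5 : V z ^ 2 = 0 := by nlinarith [sq_nonneg (V z), sq_nonneg (U₁' z - U₂' z)]
    have h6 : (U₁' z - U₂' z) ^ 2 = 0 := by nlinarith [sq_nonneg (V z), sq_nonneg (U₁' z - U₂' z)]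
    exact ⟨pow_eq_zero_iff (two_ne_zero) |>.mp h5, pow_eq_zero_iff (two_ne_zero) |>.mp h6⟩
  have hPc : ContinuousOn P (Set.Icc 0 stripL) := fun z hz => (dP z hz).continuousWithinAt
  have hP0 : ∀ z ∈ Set.Icc 0 stripL, P z = 0 := by
    have hcl : Set.Icc 0 stripL ⊆ closure (Set.Ioo 0 stripL) := by rw [closure_Ioo hL.ne]
    have : Set.EqOn P 0 (Set.Icc 0 stripL) := by
      apply Set.EqOn.of_subset_closure (s := Set.Ioo 0 stripL) ?_ hPc continuousOn_const
        Set.Ioo_subset_Icc_self hcl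
      intro z hz
      have := (hint z hz).2
      show ν z * U₁' z - ν z * U₂' z = 0
      rw [← mul_sub, this, mul_zero]
    exact fun z hz => this hz
  have hVc : ContinuousOn V (Set.Icc 0 stripL) := fun z hz => (dV z hz).continuousWithinAt
  have hV0 : ∀ z ∈ Set.Icc 0 stripL, V z = 0 := by
    have hcl : Set.Icc 0 stripL ⊆ closure (Set.Ioo 0 stripL) := by rw [closure_Ioo hL.ne]
    have : Set.EqOn V 0 (Set.Icc 0 stripL) := by
      apply Set.EqOn.of_subset_closure (s := Set.Ioo 0 stripL) ?_ hVc continuousOn_const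
        Set.Ioo_subset_Icc_self hcl
      intro z hz
      exact (hint z hz).1
    exact fun z hz => this hz
  intro z hz
  refine ⟨sub_eq_zero.mp (hV0 z hz), ?_⟩
  have h1 := hP0 z hz
  simp only [hP] at h1
  rw [← mul_sub] at h1
  rcases mul_eq_zero.mp h1 with h | h
  · exact absurd h (hν z hz).ne'
  · exact sub_eq_zero.mp h

/-! ### the charge -/

/-- For a nonregular coupling, `H_t(j) = +∞`, as in the paper. -/
theorem auxH_eq_top {εb t : ℝ} (h : ¬ ∃ d, IsRegular εb t d) (j : ℕ) : auxH εb t j = ⊤ := by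
  unfold auxH
  simp only [iInf_eq_top]
  intro d hd
  exact absurd ⟨d, hd⟩ h

/-- The exact charge is at least `2`. -/
theorem IsExplicitCharge.two_le {Z : ℕ} (h : IsExplicitCharge Z) : 2 ≤ Z := by
  obtain ⟨b, e, εb, εe, M, U₀, U₀', α, C, -, -, -, -, -, rfl⟩ := h
  omega

/-- The reciprocal of the exact charge lies outside the bad set (the argument at the end of the
proof of Lemma 7.4). -/
theorem not_mem_badSet_of_isLUB {B : Set ℝ} {C : ℝ}
    (hC : IsLUB ((fun t => B.indicator (fun t => 1 / t) t) '' Set.Ioc 0 1) C) :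
    (1 / ((2 + ⌈C⌉₊ : ℕ) : ℝ)) ∉ B := by
  intro hB
  set Z : ℕ := 2 + ⌈C⌉₊ with hZ
  have hZ2 : (2 : ℝ) ≤ Z := by rw [hZ]; push_cast; linarith [Nat.cast_nonneg (α := ℝ) ⌈C⌉₊]
  have hmem : (1 / (Z : ℝ)) ∈ Set.Ioc (0 : ℝ) 1 := by
    constructor
    · positivity
    · rw [div_le_one (by linarith)]; linarith
  have h1 : (Z : ℝ) ≤ C := by
    apply hC.1
    refine ⟨1 / (Z : ℝ), hmem, ?_⟩
    show B.indicator (fun t => 1 / t) (1 / (Z : ℝ)) = Z
    rw [Set.indicator_of_mem hB]; simp
  have h2 : C ≤ ⌈C⌉₊ := Nat.le_ceil C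
  rw [hZ] at h1; push_cast at h1
  linarith

end Claimed.Open.R278
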