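import Claimed.Open.R278.TCMain
import Claimed.Open.R278.ChargeLemmas

/-!
# Result 278, sanity: the charge (7.10) is unique

`IsExplicitCharge Z` is relational: it says that there are `b, e, ε_b, ε_e, M, U₀, α, C` with the
defining properties of Section 7 and that `Z = 2 + ⌈C⌉`.  This file checks that the relation pins
`Z` down, so that "the integer `Z` specified by (7.10)" is unambiguous:

* `IsTwoCentreData.eq_of_twoCentre`: the data of Proposition 2.2 are unique (both levels are simple: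
  the gap above `ε_b` is the clause `second`, the gap above `ε_e` is `TwoCentre.third`, which is
  proved for `D = 10^200` in the layer `TC*`; the signs are fixed by positivity);
* `BadSet` only depends on the values of `U₀'` on `[0, L]`, where the strip solution is unique;
* `IsExplicitCharge.unique`.
-/

open MeasureTheory Filter Topology Set
open scoped ContDiff InnerProductSpace ENNReal

noncomputable section

namespace Claimed.Open.R278

/-- Two normalized continuous eigenfunctions at the same energy `E`, positive at a common point,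
coincide as soon as the form is `≥ B > E` on the component of the first orthogonal to the second. -/
theorem cu_eq_of_gap {E B : ℝ} (hEB : E < B) {f f₀ : Space → ℝ} {F F₀ : Space → Space}
    (hf : IsWeakEig 1 bigD E f F) (hf₀ : IsWeakEig 1 bigD E f₀ F₀)
    (cf : Continuous f) (cf₀ : Continuous f₀) (nf : ∫ x, f x ^ 2 = 1) (nf₀ : ∫ x, f₀ x ^ 2 = 1)
    (hgap : ∀ c : ℝ, (∫ x, (f x - c * f₀ x) * f₀ x) = 0 →
      B * (∫ x, (f x - c * f₀ x) ^ 2) ≤ nucForm 1 bigD (fun x => f x - c * f₀ x)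
        (fun x => f x - c * f₀ x) (fun x => F x - c • F₀ x) (fun x => F x - c • F₀ x))
    {x₀ : Space} (h1 : 0 < f x₀) (h2 : 0 < f₀ x₀) : f = f₀ := by
  obtain ⟨c, hc⟩ : ∃ c : ℝ, c = ∫ x, f x * f₀ x := ⟨_, rfl⟩
  have i1 := tc_integrable_mul hf.1.1 hf₀.1.1
  have i2 := tc_integrable_mul hf₀.1.1 hf₀.1.1
  have horth : (∫ x, (f x - c * f₀ x) * f₀ x) = 0 := by
    have e : (fun x => (f x - c * f₀ x) * f₀ x) = fun x => f x * f₀ x - c * (f₀ x * f₀ x) := by
      funext x; ring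
    rw [e, integral_sub i1 (i2.const_mul c), integral_const_mul, ← hc]
    have : ∫ x, f₀ x * f₀ x = 1 := by simpa only [sq] using nf₀
    rw [this]; ring
  have hg : IsWeakEig 1 bigD E (fun x => f x - c * f₀ x) (fun x => F x - c • F₀ x) :=
    hf.sub (hf₀.const_mul c)
  have h3 := hgap c horth
  rw [hg.form_self] at h3
  have h4 : 0 ≤ ∫ x, (f x - c * f₀ x) ^ 2 := integral_nonneg fun x => sq_nonneg _
  have h5 : ∫ x, (f x - c * f₀ x) ^ 2 = 0 := by nlinarith
  have h6 : ∀ x, f x - c * f₀ x = 0 :=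
    tc_eq_zero_of_continuous (f := fun x => f x - c * f₀ x) (cf.sub (cf₀.const_mul c))
      (tc_ae_zero_of_integral_sq hg.1.1 h5)
  have h7 : ∀ x, f x = c * f₀ x := fun x => by linarith [h6 x]
  have h8 : c ^ 2 = 1 := by
    have e : (fun x => f x ^ 2) = fun x => c ^ 2 * f₀ x ^ 2 := by
      funext x; rw [h7 x]; ring
    rw [e, integral_const_mul, nf₀, mul_one] at nf
    exact nf
  have h9 : 0 < c := by
    rw [h7 x₀] at h1
    exact (pos_iff_pos_of_mul_pos h1).2 h2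
  have h10 : c = 1 := by nlinarith
  funext x
  rw [h7 x, h10, one_mul]

/-- **The data of Proposition 2.2 are unique.** -/
theorem IsTwoCentreData.eq_of_twoCentre {b e b₀ e₀ : Space → ℝ} {εb εe εb₀ εe₀ : ℝ}
    (h : IsTwoCentreData b e εb εe) (h₀ : TwoCentre b₀ e₀ εb₀ εe₀) :
    b = b₀ ∧ e = e₀ ∧ εb = εb₀ ∧ εe = εe₀ := by
  obtain ⟨cb, nb, Fb, hFb, qb⟩ := h.orbital_b
  obtain ⟨ce, ne, Fe, hFe, qe⟩ := h.orbital_e
  obtain ⟨cb₀, nb₀, Fb₀, hFb₀, qb₀⟩ := h₀.data.orbital_b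
  obtain ⟨ce₀, ne₀, Fe₀, hFe₀, qe₀⟩ := h₀.data.orbital_e
  have sqi : ∀ f : Space → ℝ, (∫ x, f x * f x) = ∫ x, f x ^ 2 := fun f => by simp only [sq]
  -- the lowest level
  have hεb : εb = εb₀ := by
    have h1 := h.lowest b₀ Fb₀ hFb₀
    rw [qb₀ b₀ Fb₀ hFb₀, sqi, nb₀] at h1
    have h2 := h₀.data.lowest b Fb hFb
    rw [qb b Fb hFb, sqi, nb] at h2
    linarith
  subst hεb
  have wb : IsWeakEig 1 bigD εb b Fb := ⟨hFb, qb⟩
  have wb₀ : IsWeakEig 1 bigD εb b₀ Fb₀ := ⟨hFb₀, qb₀⟩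
  have hb : b = b₀ :=
    cu_eq_of_gap h₀.data.lt wb wb₀ cb cb₀ nb nb₀
      (fun c hc => h₀.data.second _ _ (hFb.sub (hFb₀.const_mul c)) hc)
      (h.pos_b 0) (h₀.data.pos_b 0)
  subst hb
  -- the second level
  have oe : OddZ e := Eventually.of_forall h.odd_e
  have oe₀ : OddZ e₀ := Eventually.of_forall h₀.data.odd_e
  have evb : ∀ᵐ x, b (reflZ x) = b x := Eventually.of_forall h.even_b
  have hεe : εe = εe₀ := by
    have h1 := h.second e₀ Fe₀ hFe₀ (oe₀.integral_mul_eq_zero evb)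
    rw [qe₀ e₀ Fe₀ hFe₀, sqi, ne₀] at h1
    have h2 := h₀.data.second e Fe hFe (oe.integral_mul_eq_zero evb)
    rw [qe e Fe hFe, sqi, ne] at h2
    linarith
  subst hεe
  have we : IsWeakEig 1 bigD εe e Fe := ⟨hFe, qe⟩
  have we₀ : IsWeakEig 1 bigD εe e₀ Fe₀ := ⟨hFe₀, qe₀⟩
  have hz : (0 : ℝ) < ez 2 := by simp [ez]
  have he : e = e₀ :=
    cu_eq_of_gap (B := εe + 0.2) (by norm_num) we we₀ ce ce₀ ne ne₀
      (fun c hc => h₀.third _ _ (hFe.sub (hFe₀.const_mul c))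
        (OddZ.integral_mul_eq_zero (f := fun x => e x - c * e₀ x)
          (Eventually.of_forall fun x => by
            show e (reflZ x) - c * e₀ (reflZ x) = -(e x - c * e₀ x)
            rw [h.odd_e, h₀.data.odd_e]; ring) evb) hc)
      (h.pos_e ez hz) (h₀.data.pos_e ez hz)
  exact ⟨rfl, he, rfl, rfl⟩

theorem IsTwoCentreData.unique {b e b' e' : Space → ℝ} {εb εe εb' εe' : ℝ}
    (h : IsTwoCentreData b e εb εe) (h' : IsTwoCentreData b' e' εb' εe') :
    b = b' ∧ e = e' ∧ εb = εb' ∧ εe = εe' := by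
  obtain ⟨b₀, e₀, εb₀, εe₀, h₀⟩ := tc_exists_twoCentre
  obtain ⟨rfl, rfl, rfl, rfl⟩ := h.eq_of_twoCentre h₀
  obtain ⟨rfl, rfl, rfl, rfl⟩ := h'.eq_of_twoCentre h₀
  exact ⟨rfl, rfl, rfl, rfl⟩

/-- The tests (7.9) only see the values of `U₀'` on `[0, L]`. -/
theorem passesAngleTests_congr {b e : Space → ℝ} {M : ℕ} {α : ℝ} {U₀' V₀' : ℝ → ℝ}
    (h : ∀ z ∈ Set.Icc 0 stripL, U₀' z = V₀' z) (n θ : Space → ℝ) (d : ℝ) (U' : ℝ → ℝ) :
    PassesAngleTests b e M α U₀' n θ d U' ↔ PassesAngleTests b e M α V₀' n θ d U' := by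
  have key : (⨆ x ∈ {x : Space | √(x 0 ^ 2 + x 1 ^ 2) = M ∧ 0 ≤ x 2 ∧ x 2 ≤ stripL},
      ENNReal.ofReal (|fderiv ℝ (fun y => θ y - refTheta b e y) x ez| + |U' (x 2) - U₀' (x 2)|))
      = ⨆ x ∈ {x : Space | √(x 0 ^ 2 + x 1 ^ 2) = M ∧ 0 ≤ x 2 ∧ x 2 ≤ stripL},
      ENNReal.ofReal (|fderiv ℝ (fun y => θ y - refTheta b e y) x ez| + |U' (x 2) - V₀' (x 2)|) :=
    iSup_congr fun x => iSup_congr fun hx => by rw [h (x 2) ⟨hx.2.1, hx.2.2⟩]
  unfold PassesAngleTests
  rw [key]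

theorem badSet_congr {b e : Space → ℝ} {εb : ℝ} {M : ℕ} {α : ℝ} {U₀' V₀' : ℝ → ℝ}
    (h : ∀ z ∈ Set.Icc 0 stripL, U₀' z = V₀' z) :
    BadSet b e εb M α U₀' = BadSet b e εb M α V₀' := by
  ext t
  simp only [BadSet, Set.mem_ofPred_eq, passesAngleTests_congr h]

/-- **The charge specified by (7.10) is unique.** -/
theorem IsExplicitCharge.unique {Z Z' : ℕ} (h : IsExplicitCharge Z) (h' : IsExplicitCharge Z') :
    Z = Z' := by
  obtain ⟨b₀, e₀, εb₀, εe₀, h₀⟩ := tc_exists_twoCentre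
  obtain ⟨b, e, εb, εe, M, U, U1, α, C, hd, hM, hU, hα, hC, rfl⟩ := h
  obtain ⟨b', e', εb', εe', M', V, V1, α', C', hd', hM', hV, hα', hC', rfl⟩ := h'
  obtain ⟨rfl, rfl, rfl, rfl⟩ := hd.eq_of_twoCentre h₀
  obtain ⟨rfl, rfl, rfl, rfl⟩ := hd'.eq_of_twoCentre h₀
  obtain rfl : M = M' := hM.unique hM'
  have hpos : ∀ z ∈ Set.Icc 0 stripL, 0 < refDensity b' e' (cyl M z) := fun z _ => by
    have := hd.pos_b (cyl M z)
    unfold refDensity
    positivity
  have hUV := hU.unique hpos hV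
  obtain rfl : α = α' := by
    refine hα.unique ?_
    have e1 : (fun z => (2 / Real.pi * refDelta b' e' (cyl M z) - U z) / z) '' Set.Ioc 0 stripL
        = (fun z => (2 / Real.pi * refDelta b' e' (cyl M z) - V z) / z) '' Set.Ioc 0 stripL :=
      Set.image_congr fun z hz => by rw [(hUV z ⟨hz.1.le, hz.2⟩).1]
    unfold IsMargin at hα'
    rw [e1]
    exact hα'
  rw [badSet_congr fun z hz => (hUV z hz).2] at hC
  rw [hC.unique hC']

end Claimed.Open.R278
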