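import Claimed.Open.R278.Transfer

/-!
# The spectral gap on `H¹`, and the lower bound for fermions

The inequality of `Transfer.lean` is extended from `C¹_c` to `H¹(ℝ⁹; ℂ⁸)` by density, and the
projection on the product ground state is shown to vanish on antisymmetric states (three electrons
cannot share one spatial orbital).
-/

open MeasureTheory Filter Topology Set
open scoped ContDiff InnerProductSpace ENNReal

noncomputable section

set_option linter.unusedSectionVars false

namespace Claimed.Open.R278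

/-! ### The potential -/

/-- The separable Pöschl–Teller potential `v(r) = -3 (sech² r₁ + sech² r₂ + sech² r₃)`. -/
def ptPotential (r : Space) : ℝ := -3 * ∑ a, sech (r a) ^ 2

/-- The corresponding three-electron potential. -/
abbrev ptW : Config 3 → ℝ := oneBodyPotential ptPotential

theorem ptW_eq (x : Config 3) : ptW x = ∑ j : Fin 3 × Fin 3, -3 * sech (x j.1 j.2) ^ 2 := by
  simp only [oneBodyPotential, ptPotential, Finset.mul_sum]
  rw [Fintype.sum_prod_type]

theorem continuous_ptPotential : Continuous ptPotential := by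
  unfold ptPotential
  refine continuous_const.mul (continuous_finsetSum _ fun a _ => ?_)
  exact (continuous_sech.comp (EuclideanSpace.proj a).continuous).pow 2

theorem continuous_ptW : Continuous ptW :=
  continuous_finsetSum _ fun i _ => continuous_ptPotential.comp (continuous_apply i)

theorem sech_sq_mem (x : ℝ) : 0 ≤ sech x ^ 2 ∧ sech x ^ 2 ≤ 1 :=
  ⟨sq_nonneg _, pow_le_one₀ (sech_pos x).le (sech_le_one x)⟩

theorem abs_ptPotential_le (r : Space) : |ptPotential r| ≤ 9 := by
  have h := fun a => sech_sq_mem (r a)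
  simp only [ptPotential, Fin.sum_univ_three]
  rw [abs_le]
  constructor <;> nlinarith [h 0, h 1, h 2]

theorem abs_ptW_le (x : Config 3) : |ptW x| ≤ 27 := by
  have h := fun i => abs_le.1 (abs_ptPotential_le (x i))
  simp only [oneBodyPotential, Fin.sum_univ_three]
  rw [abs_le]
  constructor <;> linarith [(h 0).1, (h 0).2, (h 1).1, (h 1).2, (h 2).1, (h 2).2]

/-- The potential is bounded, hence in `L^{3/2} + L^∞`. -/
theorem ptPotential_mem_potentialClass : ptPotential ∈ PotentialClass :=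
  ⟨0, ptPotential, MemLp.zero, memLp_top_of_bound continuous_ptPotential.aestronglyMeasurable 9
    (ae_of_all _ abs_ptPotential_le), (zero_add _).symm⟩

/-! ### Norms and energies as integrals -/

theorem norm_sq_toLp {f : Config 3 → SpinSpace 3} (hf : MemLp f 2 volume) :
    ‖hf.toLp f‖ ^ 2 = ∫ x, ‖f x‖ ^ 2 := by
  rw [norm_sq_eq_integral]
  refine integral_congr_ae ?_
  filter_upwards [hf.coeFn_toLp] with x hx
  rw [hx]

theorem norm_toLp_sub_sq {f : Config 3 → SpinSpace 3} (hf : MemLp f 2 volume) (Ψ : L2 3) :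
    ‖hf.toLp f - Ψ‖ ^ 2 = ∫ x, ‖f x - Ψ x‖ ^ 2 := by
  rw [norm_sq_eq_integral]
  refine integral_congr_ae ?_
  filter_upwards [hf.coeFn_toLp, Lp.coeFn_sub (hf.toLp f) Ψ] with x hx hs
  rw [hs, Pi.sub_apply, hx]

theorem energy_eq {m : ℕ} (W : Config m → ℝ) (Ψ : L2 m) :
    energy W Ψ = (1 / 2) * ∑ j, ‖weakGrad Ψ j‖ ^ 2 + ∫ x, W x * ‖Ψ x‖ ^ 2 := by
  have h1 : ∀ j, ⟪weakGrad Ψ j, weakGrad Ψ j⟫_ℂ = ((‖weakGrad Ψ j‖ ^ 2 : ℝ) : ℂ) := fun j => by
    rw [inner_self_eq_norm_sq_to_K]; norm_cast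
  have h2 : (fun x => (W x : ℂ) * ⟪Ψ x, Ψ x⟫_ℂ) = fun x => ((W x * ‖Ψ x‖ ^ 2 : ℝ) : ℂ) := by
    funext x; rw [inner_self_eq_norm_sq_to_K]; push_cast; rfl
  unfold energy sesqForm
  simp only [h1]
  rw [h2, integral_complex_ofReal, ← Complex.ofReal_sum]
  have h3 : ((1 / 2 : ℂ)) = ((1 / 2 : ℝ) : ℂ) := by push_cast; rfl
  rw [h3, ← Complex.ofReal_mul, ← Complex.ofReal_add, Complex.ofReal_re]

/-! ### Integrability on configuration space -/

theorem integrable_comp_flatL {M : Type*} [NormedAddCommGroup M] {h : (Fin 9 → ℝ) → M}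
    (hh : Integrable h) : Integrable fun x : Config 3 => h (flatL x) :=
  (measurePreserving_flatL.integrable_comp_emb flatL.toHomeomorph.measurableEmbedding).2 hh

theorem integrable_prodSech_pow {n : ℕ} (k : ℕ) :
    Integrable fun y : Fin n → ℝ => prodSech y ^ (k + 1) := by
  have h1 : Integrable fun x => sech x ^ (k + 1) := by
    simpa using integrable_sech_pow_mul k (f := fun _ => 1) continuous_const (C := 1) (by simp)
  have h2 := Integrable.fintype_prod (ι := Fin n) (f := fun _ x => sech x ^ (k + 1))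
    (μ := fun _ => (volume : Measure ℝ)) fun _ => h1
  rw [← volume_pi] at h2
  refine h2.congr (ae_of_all _ fun y => ?_)
  simp only [prodSech, Finset.prod_pow]

theorem continuous_gsFun : Continuous gsFun :=
  (continuous_prodSech.comp flatL.continuous).pow 2

theorem memLp_gsFun : MemLp gsFun 2 volume := by
  rw [memLp_two_iff_integrable_sq continuous_gsFun.aestronglyMeasurable]
  have := integrable_comp_flatL (integrable_prodSech_pow (n := 9) 3)
  refine this.congr (ae_of_all _ fun x => ?_)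
  simp only [gsFun]
  ring

/-! ### Continuous functionals on `L²` -/

theorem memLp_ptW : MemLp ptW ⊤ (volume : Measure (Config 3)) :=
  memLp_top_of_bound continuous_ptW.aestronglyMeasurable 27 (ae_of_all _ abs_ptW_le)

/-- `ptW` as an element of `L^∞`. -/
def ptWLp : Lp ℝ ⊤ (volume : Measure (Config 3)) := memLp_ptW.toLp ptW

/-- Multiplication by `ptW` on `L²`. -/
def ptMul : L2 3 →L[ℝ] L2 3 :=
  (ContinuousLinearMap.lsmul ℝ ℝ : ℝ →L[ℝ] SpinSpace 3 →L[ℝ] SpinSpace 3).holderL volume ⊤ 2 2 ptWLp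

/-- The potential energy. -/
def ptPot (Ψ : L2 3) : ℝ := (reB (E := SpinSpace 3)).lpPairing volume 2 2 (ptMul Ψ) Ψ

theorem continuous_ptPot : Continuous ptPot :=
  (((reB (E := SpinSpace 3)).lpPairing volume 2 2).continuous.comp ptMul.continuous).clm_apply
    continuous_id

theorem ptPot_eq (Ψ : L2 3) : ptPot Ψ = ∫ x, ptW x * ‖Ψ x‖ ^ 2 := by
  rw [ptPot, ContinuousLinearMap.lpPairing_eq_integral]
  refine integral_congr_ae ?_
  have h1 := (ContinuousLinearMap.lsmul ℝ ℝ : ℝ →L[ℝ] SpinSpace 3 →L[ℝ] SpinSpace 3).coeFn_holder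
    (r := 2) ptWLp Ψ
  have h2 := memLp_ptW.coeFn_toLp
  filter_upwards [h1, h2] with x h1 h2
  have h3 : (ptMul Ψ) x = ptW x • Ψ x := by
    rw [← h2]; exact h1
  rw [h3, map_smul, _root_.smul_apply, reB_self, smul_eq_mul]

/-- The overlap with the product ground state, `Ψ ↦ ∫ G(x) Ψ(x) dx ∈ ℂ⁸`. -/
def gsOverlap : L2 3 →L[ℝ] SpinSpace 3 :=
  (ContinuousLinearMap.lsmul ℝ ℝ : ℝ →L[ℝ] SpinSpace 3 →L[ℝ] SpinSpace 3).lpPairing volume 2 2
    (memLp_gsFun.toLp gsFun)

theorem gsOverlap_eq (Ψ : L2 3) : gsOverlap Ψ = ∫ x, gsFun x • Ψ x := by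
  rw [gsOverlap, ContinuousLinearMap.lpPairing_eq_integral]
  refine integral_congr_ae ?_
  filter_upwards [memLp_gsFun.coeFn_toLp] with x hx
  rw [hx]; rfl

/-- The functional whose nonnegativity is the spectral gap inequality. -/
def gapFun (p : L2 3 × (Fin 3 × Fin 3 → L2 3)) : ℝ :=
  (1 / 2) * ∑ j, ‖p.2 j‖ ^ 2 + ptPot p.1 + 18 * ‖p.1‖ ^ 2 -
    (3 / 2) * (‖p.1‖ ^ 2 - (kappa ^ 9)⁻¹ * ‖gsOverlap p.1‖ ^ 2)

theorem continuous_gapFun : Continuous gapFun := by
  unfold gapFun
  have h1 : Continuous fun p : L2 3 × (Fin 3 × Fin 3 → L2 3) => ‖p.1‖ ^ 2 :=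
    continuous_fst.norm.pow 2
  have h2 : Continuous fun p : L2 3 × (Fin 3 × Fin 3 → L2 3) => ∑ j, ‖p.2 j‖ ^ 2 :=
    continuous_finsetSum _ fun j _ => ((continuous_apply j).comp continuous_snd).norm.pow 2
  have h3 : Continuous fun p : L2 3 × (Fin 3 × Fin 3 → L2 3) => ptPot p.1 :=
    continuous_ptPot.comp continuous_fst
  have h4 : Continuous fun p : L2 3 × (Fin 3 × Fin 3 → L2 3) => ‖gsOverlap p.1‖ ^ 2 :=
    (gsOverlap.continuous.comp continuous_fst).norm.pow 2
  exact (((continuous_const.mul h2).add h3).add (continuous_const.mul h1)).sub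
    (continuous_const.mul (h1.sub (continuous_const.mul h4)))

theorem gapFun_nonneg_of_contDiff {F : Config 3 → SpinSpace 3} (hF : ContDiff ℝ 1 F)
    (hc : HasCompactSupport F) :
    0 ≤ gapFun ((memLp_of_contDiff hF hc).toLp F,
      fun j => (memLp_fderiv_of_contDiff hF hc (dir j)).toLp _) := by
  have h := config_lower_bound hF hc
  have cF := hF.continuous
  have iN : Integrable fun x => ‖F x‖ ^ 2 := (cF.norm.pow 2).integrable_of_hasCompactSupport
    (hasCompactSupport_of_zero hc fun y h0 => by simp [h0])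
  have e1 : ∀ j : Fin 3 × Fin 3, ∫ x, (2 - 3 * sech (x j.1 j.2) ^ 2) * ‖F x‖ ^ 2 =
      2 * (∫ x, ‖F x‖ ^ 2) + ∫ x, (-3 * sech (x j.1 j.2) ^ 2) * ‖F x‖ ^ 2 := by
    intro j
    have c1 : Continuous fun x : Config 3 => sech (x j.1 j.2) :=
      continuous_sech.comp ((EuclideanSpace.proj j.2).continuous.comp (continuous_apply j.1))
    have i1 : Integrable fun x => (-3 * sech (x j.1 j.2) ^ 2) * ‖F x‖ ^ 2 :=
      ((continuous_const.mul (c1.pow 2)).mul (cF.norm.pow 2)).integrable_of_hasCompactSupport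
        (hasCompactSupport_of_zero hc fun y h0 => by simp [h0])
    rw [← integral_const_mul, ← integral_add (iN.const_mul 2) i1]
    congr 1; funext x; ring
  have e2 : ∫ x, ptW x * ‖F x‖ ^ 2 =
      ∑ j : Fin 3 × Fin 3, ∫ x, (-3 * sech (x j.1 j.2) ^ 2) * ‖F x‖ ^ 2 := by
    rw [← integral_finsetSum]
    · congr 1; funext x; rw [ptW_eq, Finset.sum_mul]
    · intro j _
      have c1 : Continuous fun x : Config 3 => sech (x j.1 j.2) :=
        continuous_sech.comp ((EuclideanSpace.proj j.2).continuous.comp (continuous_apply j.1))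
      exact ((continuous_const.mul (c1.pow 2)).mul (cF.norm.pow 2)).integrable_of_hasCompactSupport
        (hasCompactSupport_of_zero hc fun y h0 => by simp [h0])
  simp only [e1, Finset.sum_add_distrib, ← Finset.mul_sum] at h
  rw [← e2] at h
  unfold gapFun
  simp only [norm_sq_toLp, ptPot_eq, gsOverlap_eq]
  have a1 : ∫ x, ptW x * ‖((memLp_of_contDiff hF hc).toLp F) x‖ ^ 2 = ∫ x, ptW x * ‖F x‖ ^ 2 := by
    refine integral_congr_ae ?_
    filter_upwards [(memLp_of_contDiff hF hc).coeFn_toLp] with x hx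
    rw [hx]
  have a2 : ∫ x, gsFun x • ((memLp_of_contDiff hF hc).toLp F) x = ∫ x, gsFun x • F x := by
    refine integral_congr_ae ?_
    filter_upwards [(memLp_of_contDiff hF hc).coeFn_toLp] with x hx
    rw [hx]
  rw [a1, a2]
  simp only [Finset.sum_const, Finset.card_univ, Fintype.card_prod, Fintype.card_fin,
    nsmul_eq_mul] at h
  push_cast at h
  linarith

/-- The spectral gap inequality on `H¹`. -/
theorem gapFun_nonneg {Ψ : L2 3} (h : MemH1 Ψ) : 0 ≤ gapFun (Ψ, weakGrad Ψ) := by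
  have hcl : IsClosed {p | 0 ≤ gapFun p} := isClosed_le continuous_const continuous_gapFun
  have hmem : (Ψ, weakGrad Ψ) ∈ closure {p | 0 ≤ gapFun p} := by
    rw [Metric.mem_closure_iff]
    intro ε hε
    obtain ⟨F, hF, hc, h0, h1⟩ := exists_contDiff_hasCompactSupport_approx
      (μ := (volume : Measure (Config 3))) (v := dir) (f := Ψ) (g := fun j => weakGrad Ψ j)
      (Lp.memLp Ψ) (fun j => Lp.memLp _) (fun j φ hφ hφc => h.isWeakGradient j φ hφ hφc)
      (η := (ε / 2) ^ 2) (by positivity)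
    refine ⟨_, gapFun_nonneg_of_contDiff hF hc, ?_⟩
    have aux : ∀ {a : ℝ}, 0 ≤ a → a ^ 2 ≤ (ε / 2) ^ 2 → a < ε := fun {a} ha h => by
      have := abs_le_of_sq_le_sq h (by positivity)
      linarith [le_abs_self a]
    rw [Prod.dist_eq, max_lt_iff]
    constructor
    · rw [dist_comm, dist_eq_norm]
      refine aux (norm_nonneg _) ?_
      rw [norm_toLp_sub_sq]; exact h0
    · rw [dist_pi_lt_iff hε]
      intro j
      rw [dist_comm, dist_eq_norm]
      refine aux (norm_nonneg _) ?_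
      rw [norm_toLp_sub_sq]; exact h1 j
  rw [hcl.closure_eq] at hmem
  exact hmem

/-! ### Antisymmetric states are orthogonal to the product ground state -/

theorem gsFun_eq (x : Config 3) : gsFun x = (∏ i, ∏ a, sech (x i a)) ^ 2 := by
  rw [gsFun, prodSech, ← Equiv.prod_comp idx, Fintype.prod_prod_type]
  simp only [flatL_apply_idx]

theorem gsFun_comp_perm (π : Equiv.Perm (Fin 3)) (x : Config 3) : gsFun (x ∘ π) = gsFun x := by
  rw [gsFun_eq, gsFun_eq]
  congr 1
  exact Equiv.prod_comp π fun i => ∏ a, sech (x i a)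

theorem exists_swap_fixing (s : SpinConfig 3) : ∃ i i' : Fin 3, i ≠ i' ∧ s ∘ Equiv.swap i i' = s := by
  obtain ⟨i, i', hne, he⟩ := Fintype.exists_ne_map_eq_of_card_lt s (by simp)
  refine ⟨i, i', hne, ?_⟩
  funext k
  simp only [Function.comp_apply]
  rcases eq_or_ne k i with rfl | h1
  · rw [Equiv.swap_apply_left, he]
  · rcases eq_or_ne k i' with rfl | h2
    · rw [Equiv.swap_apply_right, he]
    · rw [Equiv.swap_apply_of_ne_of_ne h1 h2]

theorem integrable_gsFun_smul (Ψ : L2 3) : Integrable fun x => gsFun x • Ψ x :=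
  memLp_one_iff_integrable.1
    ((ContinuousLinearMap.lsmul ℝ ℝ : ℝ →L[ℝ] SpinSpace 3 →L[ℝ] SpinSpace 3).memLp_of_bilin 1
      memLp_gsFun (Lp.memLp Ψ))

/-- Three electrons with two spin states cannot all sit in the same spatial orbital. -/
theorem gsOverlap_eq_zero {Ψ : L2 3} (h : IsAntisymmetric Ψ) : gsOverlap Ψ = 0 := by
  rw [gsOverlap_eq]
  ext s
  obtain ⟨i, i', hne, hs⟩ := exists_swap_fixing s
  set τ := Equiv.swap i i' with hτ
  have hi := integrable_gsFun_smul Ψ
  have e1 : (∫ x, gsFun x • Ψ x) s = ∫ x, gsFun x • Ψ x s := by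
    have := (EuclideanSpace.proj (𝕜 := ℂ) s :
      SpinSpace 3 →L[ℂ] ℂ).integral_comp_comm hi
    simpa using this.symm
  have e2 : ∫ x, gsFun x • Ψ x s = ∫ x, gsFun (x ∘ τ) • Ψ (x ∘ τ) s :=
    ((measurePreserving_comp_perm τ).integral_comp (measurableEmbedding_comp_perm τ)
      fun x => gsFun x • Ψ x s).symm
  have e3 : ∫ x, gsFun (x ∘ τ) • Ψ (x ∘ τ) s = ∫ x, -(gsFun x • Ψ x s) := by
    refine integral_congr_ae ?_
    filter_upwards [h τ] with x hx
    have := hx s
    rw [hs, hτ, Equiv.Perm.sign_swap hne] at this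
    rw [gsFun_comp_perm, hτ, this]
    simp
  rw [e1]
  have e4 : ∫ x, gsFun x • Ψ x s = -∫ x, gsFun x • Ψ x s := by
    conv_lhs => rw [e2, e3, integral_neg]
  simpa using self_eq_neg.1 e4

/-- **Lower bound for three fermions**: `H_s(v) ≥ 9·(-2) + 3/2 = -33/2`. -/
theorem le_energy_ptW {Ψ : L2 3} (h : Ψ ∈ FormDomain ptW) : -(33 / 2) * ‖Ψ‖ ^ 2 ≤ energy ptW Ψ := by
  have h1 := gapFun_nonneg h.2.1
  unfold gapFun at h1
  simp only [gsOverlap_eq_zero h.1, ptPot_eq] at h1
  rw [energy_eq]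
  simp only [norm_zero] at h1
  nlinarith

end Claimed.Open.R278
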