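import Claimed.Open.R278.DS1Parts

/-!
# Result 278, layer DS, file DS1Glue: three scales and radial relative derivatives (glue)

Sub-captain helper88.  Everything here is proved from the leaves of `DS1Tools.lean`, `DS1Parts.lean`.
-/

open MeasureTheory Filter
open scoped ContDiff InnerProductSpace ComplexConjugate ENNReal Topology Laplacian

noncomputable section

namespace Claimed.Open.R278

variable {𝒦 : Type} [NormedAddCommGroup 𝒦] [InnerProductSpace ℂ 𝒦] [CompleteSpace 𝒦]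
variable {κ : ChannelConsts} {b : Space → ℝ} {γ : ℝ}

theorem ChannelSys.F_eq (S : ChannelSys 𝒦 κ b γ) (x : Space) :
    S.F x = S.f x • S.φ + b x • S.G + S.Z₀ x + S.Rem x := by
  simp only [ChannelSys.Rem, ChannelSys.Mv]; abel

/-- the radial derivatives of the four pieces add up. -/
theorem ds1_dr_F {R : ℝ} {C : ℕ → ℝ} {K : ℝ} {Cb : ℕ → ℝ} {cb : ℝ} (hR : 1 ≤ R) (hRκ : κ.R₁ ≤ R)
    (hb : FastOrbital b γ κ.R₁ Cb cb) (S : ChannelSys 𝒦 κ b γ) (hS : S.Good R C K) :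
    ∀ x ∈ Ext R,
      dr S.F x = dr S.f x • S.φ + dr b x • S.G + dr S.Z₀ x + dr S.Rem x ∧
      dr (dr S.F) x = dr (dr S.f) x • S.φ + dr (dr b) x • S.G + dr (dr S.Z₀) x
        + dr (dr S.Rem) x := by
  have hR0 : (0 : ℝ) ≤ R := by linarith
  have hopen := isOpen_Ext R
  have hf := (ds1_f_smooth hR S hS).1
  have hbs : ContDiffOn ℝ ∞ b (Ext R) := hb.smooth.mono (Ext_mono hRκ)
  have hZ : ContDiffOn ℝ ∞ S.Z₀ (Ext R) := (ds1_Z₀_smooth S).mono (Ext_mono hR0)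
  have hRem := ds1_rem_smooth hR S hS
  have key : ∀ (u : Space → ℂ) (β : Space → ℝ) (Z Rm : Space → 𝒦), ContDiffOn ℝ ∞ u (Ext R) →
      ContDiffOn ℝ ∞ β (Ext R) → ContDiffOn ℝ ∞ Z (Ext R) → ContDiffOn ℝ ∞ Rm (Ext R) →
      ∀ x ∈ Ext R, dr (fun y => u y • S.φ + β y • S.G + Z y + Rm y) x
        = dr u x • S.φ + dr β x • S.G + dr Z x + dr Rm x := by
    intro u β Z Rm hu hβ hZ hRm x hx
    have du : DifferentiableAt ℝ u x := (hu.contDiffAt (hopen.mem_nhds hx)).differentiableAt (by simp)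
    have dβ : DifferentiableAt ℝ β x := (hβ.contDiffAt (hopen.mem_nhds hx)).differentiableAt (by simp)
    have dZ : DifferentiableAt ℝ Z x := (hZ.contDiffAt (hopen.mem_nhds hx)).differentiableAt (by simp)
    have dRm : DifferentiableAt ℝ Rm x :=
      (hRm.contDiffAt (hopen.mem_nhds hx)).differentiableAt (by simp)
    have d1 : DifferentiableAt ℝ (fun y => u y • S.φ) x := du.smul_const _
    have d2 : DifferentiableAt ℝ (fun y => β y • S.G) x := dβ.smul_const _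
    have d12 : DifferentiableAt ℝ (fun y => u y • S.φ + β y • S.G) x := d1.add d2
    have d123 : DifferentiableAt ℝ (fun y => u y • S.φ + β y • S.G + Z y) x := d12.add dZ
    rw [dst_dr_add d123 dRm, dst_dr_add d12 dZ, dst_dr_add d1 d2,
      dst_dr_smulC_vec du, dst_dr_smul_vec dβ]
  have h1 : ∀ x ∈ Ext R, dr S.F x = dr S.f x • S.φ + dr b x • S.G + dr S.Z₀ x + dr S.Rem x := by
    intro x hx
    rw [← key S.f b S.Z₀ S.Rem hf hbs hZ hRem x hx]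
    exact dst_dr_congr (fun y _ => S.F_eq y) x hx
  intro x hx
  refine ⟨h1 x hx, ?_⟩
  rw [dst_dr_congr h1 x hx]
  exact key _ _ _ _ (contDiffOn_dr hR0 hf) (contDiffOn_dr hR0 hbs) (contDiffOn_dr hR0 hZ)
    (contDiffOn_dr hR0 hRem) x hx

/-- `a r^{-1/4}` is eventually small. -/
theorem ds1_rho_small (a : ℝ) {ε : ℝ} (hε : 0 < ε) :
    ∃ R₂ : ℝ, 1 ≤ R₂ ∧ ∀ r : ℝ, R₂ ≤ r → a * r ^ (-(1 / 4) : ℝ) ≤ ε := by
  have h1 : Tendsto (fun r : ℝ => a * r ^ (-(1 / 4) : ℝ)) atTop (𝓝 (a * 0)) :=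
    (tendsto_rpow_neg_atTop (by norm_num : (0 : ℝ) < 1 / 4)).const_mul a
  rw [mul_zero] at h1
  obtain ⟨R₂, hR₂⟩ := eventually_atTop.1 (h1.eventually (gt_mem_nhds hε))
  exact ⟨max R₂ 1, le_max_right _ _, fun r hr => (hR₂ r ((le_max_left _ _).trans hr)).le⟩

/-- the three terms of the scale. -/
theorem ChannelSys.scale_terms {Cb : ℕ → ℝ} {cb : ℝ} (hb : FastOrbital b γ κ.R₁ Cb cb)
    (S : ChannelSys 𝒦 κ b γ) {x : Space} (hx : x ∈ Ext κ.R₁) :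
    0 ≤ S.A x * |tz x| ∧ 0 ≤ b x ∧ 0 ≤ S.lam * S.A x * (‖x‖ ^ 4)⁻¹ ∧
      S.A x * |tz x| ≤ S.scale x ∧ b x ≤ S.scale x ∧ S.lam * S.A x * (‖x‖ ^ 4)⁻¹ ≤ S.scale x := by
  have h1 : 0 ≤ S.A x * |tz x| := mul_nonneg (S.A_nonneg x) (abs_nonneg _)
  have h2 : 0 ≤ b x := (hb.pos (by linarith [ds1_one_le_R₁ κ]) hx).le
  have h3 : 0 ≤ S.lam * S.A x * (‖x‖ ^ 4)⁻¹ :=
    mul_nonneg (mul_nonneg S.lam_nonneg (S.A_nonneg x)) (by positivity)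
  refine ⟨h1, h2, h3, ?_, ?_, ?_⟩ <;> unfold ChannelSys.scale <;> linarith

/-- **three scales**, for good systems. -/
theorem ds1_core (κ : ChannelConsts) (b : Space → ℝ) (γ : ℝ) (Cb : ℕ → ℝ) (cb : ℝ)
    (hb : FastOrbital b γ κ.R₁ Cb cb) (R : ℝ) (C : ℕ → ℝ) (K : ℝ) (hRκ : κ.R₁ ≤ R)
    (hC : ∀ n, 0 ≤ C n) (hK : 0 ≤ K) {c₀ : ℝ} (hc₀ : 0 < c₀) :
    ∃ R' c C' : ℝ, R ≤ R' ∧ 0 < c ∧ 0 ≤ C' ∧ ∀ S : ChannelSys 𝒦 κ b γ, S.Good R C K →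
      S.SimpleZero c₀ → ∀ x ∈ Ext R',
      c * S.scale x ≤ ‖S.F x‖ ∧ ‖S.F x‖ ≤ C' * S.scale x ∧ b x ≤ 2 * ‖S.F x‖ := by
  by_cases hne : Nonempty (ChannelSys 𝒦 κ b γ)
  swap
  · exact ⟨R, 1, 0, le_rfl, one_pos, le_rfl, fun S => (hne ⟨S⟩).elim⟩
  obtain ⟨S₀⟩ := hne
  have hC0 : 0 < κ.C 0 := S₀.C0_pos
  have hR : 1 ≤ R := (ds1_one_le_R₁ κ).trans hRκ
  obtain ⟨Cf, hCf0, hf⟩ := ds1_f (𝒦 := 𝒦) κ b γ R C K hR hK
  obtain ⟨Rl, hRl, hfl⟩ := ds1_f_lower (𝒦 := 𝒦) κ b γ R C K hR hK hc₀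
  obtain ⟨CZ, hCZ0, hZ⟩ := ds1_Z₀ (𝒦 := 𝒦) κ b γ R C K hR hK
  obtain ⟨CR, hCR0, hRem⟩ := ds1_rem (𝒦 := 𝒦) κ b γ R C K hR hC hK
  obtain ⟨c₁, hc₁⟩ : ∃ c₁, c₁ = (1 / 4) * min (min (c₀ / 2) 1) (c₀ / κ.C 0) := ⟨_, rfl⟩
  have hc₁pos : 0 < c₁ := by
    rw [hc₁]; have : 0 < c₀ / κ.C 0 := div_pos hc₀ hC0
    have : 0 < min (min (c₀ / 2) 1) (c₀ / κ.C 0) := by
      refine lt_min (lt_min (by linarith) one_pos) this
    linarith
  have hc₁a : 4 * c₁ ≤ c₀ / 2 := by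
    rw [hc₁]; have := min_le_left (min (c₀ / 2) 1) (c₀ / κ.C 0)
    have := min_le_left (c₀ / 2) 1; linarith
  have hc₁b : 4 * c₁ ≤ 1 := by
    rw [hc₁]; have := min_le_left (min (c₀ / 2) 1) (c₀ / κ.C 0)
    have := min_le_right (c₀ / 2) 1; linarith
  have hc₁c : 4 * c₁ ≤ c₀ / κ.C 0 := by
    rw [hc₁]; have := min_le_right (min (c₀ / 2) 1) (c₀ / κ.C 0); linarith
  obtain ⟨R₂, hR₂1, hR₂⟩ := ds1_rho_small CR (half_pos hc₁pos)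
  refine ⟨max Rl R₂, c₁ / 2, Cf + 2 + CZ + c₁, hRl.trans (le_max_left _ _), half_pos hc₁pos,
    by positivity, ?_⟩
  intro S hS h₀ x hx
  have hxl : x ∈ Ext Rl := Ext_mono (le_max_left _ _) hx
  have hxR : x ∈ Ext R := Ext_mono hRl hxl
  have hxκ : x ∈ Ext κ.R₁ := Ext_mono hRκ hxR
  have hr2 : R₂ ≤ ‖x‖ := (le_max_right Rl R₂).trans (le_of_lt hx)
  obtain ⟨t1, t2, t3, s1, s2, s3⟩ := S.scale_terms hb hxκ
  have hsc : 0 ≤ S.scale x := S.scale_nonneg hb hxκ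
  obtain ⟨hlow, hlowb⟩ := S.three_lower (S.f x) t2 t3
  have hMv : S.Mv x = S.f x • S.φ + b x • S.G + (S.lam * S.A x * (‖x‖ ^ 4)⁻¹) • S.Teq := rfl
  rw [← hMv] at hlow hlowb
  have hTeq : c₀ / κ.C 0 ≤ ‖S.Teq‖ := by
    rw [S.norm_Teq, div_eq_mul_inv]
    exact mul_le_mul (S.slope_lower hS h₀) S.v₂_lower (inv_nonneg.2 hC0.le) (norm_nonneg _)
  have hflow := hfl S hS h₀ x hxl
  have hMlow : c₁ * S.scale x ≤ ‖S.Mv x‖ := by
    have e1 : 4 * c₁ * (S.A x * |tz x|) ≤ ‖S.f x‖ :=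
      (mul_le_mul_of_nonneg_right hc₁a t1).trans hflow
    have e2 : 4 * c₁ * b x ≤ b x := by nlinarith
    have e3 : 4 * c₁ * (S.lam * S.A x * (‖x‖ ^ 4)⁻¹) ≤ S.lam * S.A x * (‖x‖ ^ 4)⁻¹ * ‖S.Teq‖ := by
      have := mul_le_mul_of_nonneg_left (hc₁c.trans hTeq) t3
      linarith
    have : 4 * c₁ * S.scale x ≤ ‖S.f x‖ + b x + S.lam * S.A x * (‖x‖ ^ 4)⁻¹ * ‖S.Teq‖ := by
      unfold ChannelSys.scale; linarith
    linarith
  have hRm : ‖S.Rem x‖ ≤ c₁ / 2 * S.scale x := by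
    have h1 := (hRem S hS x hxR).1
    have h2 := S.remScale_le hb hxκ
    have h3 := hR₂ ‖x‖ hr2
    calc ‖S.Rem x‖ ≤ CR * S.remScale x := h1
      _ ≤ CR * (‖x‖ ^ (-(1 / 4) : ℝ) * S.scale x) := mul_le_mul_of_nonneg_left h2 hCR0
      _ = (CR * ‖x‖ ^ (-(1 / 4) : ℝ)) * S.scale x := by ring
      _ ≤ c₁ / 2 * S.scale x := mul_le_mul_of_nonneg_right h3 hsc
  have hFM : S.F x = S.Mv x + S.Rem x := by simp [ChannelSys.Rem]
  have hF1 : ‖S.Mv x‖ - ‖S.Rem x‖ ≤ ‖S.F x‖ := by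
    rw [hFM]; have := norm_sub_norm_le (S.Mv x) (-S.Rem x); simpa using this
  have hF2 : ‖S.F x‖ ≤ ‖S.Mv x‖ + ‖S.Rem x‖ := by rw [hFM]; exact norm_add_le _ _
  refine ⟨by linarith, ?_, by linarith⟩
  have hG : ‖b x • S.G‖ ≤ 2 * b x := by
    rw [norm_smul, Real.norm_of_nonneg t2, S.norm_G]
    have : √2 ≤ 2 := by
      rw [show (2 : ℝ) = √4 by rw [show (4 : ℝ) = 2 ^ 2 by norm_num]; simp]
      exact Real.sqrt_le_sqrt (by norm_num)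
    nlinarith
  have hfu : ‖S.f x • S.φ‖ ≤ Cf * (S.A x * |tz x|) := by
    rw [norm_smul, S.φ_norm, mul_one]; exact (hf S hS x hxR).1
  have hZu := (hZ S hS x hxR).1
  have hMu : ‖S.Mv x‖ ≤ Cf * (S.A x * |tz x|) + 2 * b x + CZ * (S.lam * S.A x * (‖x‖ ^ 4)⁻¹) := by
    unfold ChannelSys.Mv
    exact (norm_add_le _ _).trans (add_le_add ((norm_add_le _ _).trans (add_le_add hfu hG)) hZu)
  have a1 := mul_le_mul_of_nonneg_left s1 hCf0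
  have a3 := mul_le_mul_of_nonneg_left s3 hCZ0
  nlinarith

end Claimed.Open.R278
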