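import Claimed.Open.R278.DS1Rad

/-!
# Result 278, layer DS, file DS1Hor: horizontal relative derivatives (3.43) (glue)

Sub-captain helper88.  `∂₀ = (p/r) ∂_r + (z/r²) Ω₁` at `cyl p z` and its second order version reduce
everything to `ds1_radial`: every other term is `(coefficient ≤ m z/r²) × (word of F = O(A))`.
-/

open MeasureTheory Filter
open scoped ContDiff InnerProductSpace ComplexConjugate ENNReal Topology Laplacian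

noncomputable section

namespace Claimed.Open.R278

variable {𝒦 : Type} [NormedAddCommGroup 𝒦] [InnerProductSpace ℂ 𝒦] [CompleteSpace 𝒦]
variable {κ : ChannelConsts} {b : Space → ℝ} {γ : ℝ}

set_option linter.unusedSectionVars false

/-- words of `F` and their radial derivatives. -/
theorem ds1_F_words {R : ℝ} {C : ℕ → ℝ} {K : ℝ} (S : ChannelSys 𝒦 κ b γ)
    (hS : S.Good R C K) : ∀ x ∈ Ext R,
      ‖S.F x‖ ≤ C 0 * S.A x ∧ ‖dr S.F x‖ ≤ 3 * C 1 * S.A x ∧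
      ‖dfield (Sum.inr 1) S.F x‖ ≤ C 1 * S.A x ∧
      ‖dr (dfield (Sum.inr 1) S.F) x‖ ≤ 3 * C 2 * S.A x ∧
      ‖dfield (Sum.inr 1) (dfield (Sum.inr 1) S.F) x‖ ≤ C 2 * S.A x := by
  intro x hx
  have hw := hS.F_bdd.2
  refine ⟨hw [] x hx, ?_, hw [Sum.inr 1] x hx, ?_, hw [Sum.inr 1, Sum.inr 1] x hx⟩
  · refine (dst_norm_dr_le_sum _ _).trans ?_
    have : ∀ j : Fin 3, ‖dfield (Sum.inl j) S.F x‖ ≤ C 1 * S.A x := fun j => hw [Sum.inl j] x hx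
    calc ∑ j : Fin 3, ‖dfield (Sum.inl j) S.F x‖ ≤ ∑ _j : Fin 3, C 1 * S.A x :=
          Finset.sum_le_sum fun j _ => this j
      _ = 3 * C 1 * S.A x := by simp; ring
  · refine (dst_norm_dr_le_sum _ _).trans ?_
    have : ∀ j : Fin 3, ‖dfield (Sum.inl j) (dfield (Sum.inr 1) S.F) x‖ ≤ C 2 * S.A x :=
      fun j => hw [Sum.inl j, Sum.inr 1] x hx
    calc ∑ j : Fin 3, ‖dfield (Sum.inl j) (dfield (Sum.inr 1) S.F) x‖ ≤ ∑ _j : Fin 3, C 2 * S.A x :=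
          Finset.sum_le_sum fun j _ => this j
      _ = 3 * C 2 * S.A x := by simp; ring

theorem ds1_alg₃ (F dF W G : 𝒦) (q a k γ β : ℝ) :
    (q • dF + a • W) + (k * q) • F - ((k - γ) * q * β) • G
      = q • (dF + k • F - ((k - γ) * β) • G) + a • W := by
  module

theorem ds1_alg₄ (F D G : 𝒦) (q k γ β : ℝ) :
    D + k • F - ((k - γ) * β) • G
      = (D + (k * q) • F - ((k - γ) * q * β) • G) + (k * (1 - q)) • F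
        - ((k - γ) * (1 - q) * β) • G := by
  module

theorem ds1_alg₅ (F dF ddF W dW WW G : 𝒦) (q a c₁ c₂ c₃ k γ β : ℝ) :
    (c₁ • dF + q ^ 2 • ddF + c₂ • dW - c₃ • W + a ^ 2 • WW) + (2 * k) • (q • dF + a • W) + k ^ 2 • F
        - ((k - γ) ^ 2 * β) • G
      = q ^ 2 • (ddF + (2 * k) • dF + k ^ 2 • F - ((k - γ) ^ 2 * β) • G)
        + (2 * k * q * (1 - q)) • dF + (k ^ 2 * (1 - q ^ 2)) • F
        - ((k - γ) ^ 2 * (1 - q ^ 2) * β) • G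
        + c₁ • dF + c₂ • dW - c₃ • W + a ^ 2 • WW + (2 * k * a) • W := by
  module

/-- a coefficient `≤ m |z|/r²` times a vector `≤ M A` is `≤ m M r^{-1/4} scale`. -/
theorem ds1_coeff_bound {Cb : ℕ → ℝ} {cb : ℝ} (hb : FastOrbital b γ κ.R₁ Cb cb)
    (S : ChannelSys 𝒦 κ b γ) {x : Space} (hx : x ∈ Ext κ.R₁) {c m M : ℝ} {v : 𝒦} (hm : 0 ≤ m)
    (hc : |c| ≤ m * (|x 2| / ‖x‖ ^ 2)) (hv : ‖v‖ ≤ M * S.A x) :
    ‖c • v‖ ≤ m * M * (‖x‖ ^ (-(1 / 4) : ℝ) * S.scale x) := by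
  have hr1 : 1 ≤ ‖x‖ := (ds1_one_le_R₁ κ).trans (le_of_lt hx)
  have hr0 : 0 < ‖x‖ := by linarith
  obtain ⟨ρ0, ρ1, ρ2⟩ := ds1_rho_facts hr1
  obtain ⟨t1, t2, t3, s1, s2, s3⟩ := S.scale_terms hb hx
  have hA : 0 ≤ S.A x := S.A_nonneg x
  have hM : 0 ≤ M * S.A x := (norm_nonneg _).trans hv
  rw [norm_smul, Real.norm_eq_abs]
  have e : |x 2| / ‖x‖ ^ 2 * S.A x = ‖x‖⁻¹ * (S.A x * |tz x|) := by
    unfold tz; rw [abs_div, abs_of_pos hr0]; field_simp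
  calc |c| * ‖v‖ ≤ (m * (|x 2| / ‖x‖ ^ 2)) * (M * S.A x) :=
        mul_le_mul hc hv (norm_nonneg _) (by positivity)
    _ = m * (M * (‖x‖⁻¹ * (S.A x * |tz x|))) := by rw [← e]; ring
    _ = m * ((M * S.A x) * (‖x‖⁻¹ * |tz x|)) := by ring
    _ ≤ m * ((M * S.A x) * (‖x‖ ^ (-(1 / 4) : ℝ) * |tz x|)) := by
        gcongr
    _ = m * M * (‖x‖ ^ (-(1 / 4) : ℝ) * (S.A x * |tz x|)) := by ring
    _ ≤ m * M * (‖x‖ ^ (-(1 / 4) : ℝ) * S.scale x) := by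
        have hApos : 0 < S.A x := S.A_pos (norm_pos_iff.1 hr0)
        have hMn : 0 ≤ M := nonneg_of_mul_nonneg_left hM hApos
        gcongr

/-- **horizontal relative derivative** at `cyl p z`, good systems. -/
theorem ds1_horizontal (κ : ChannelConsts) (b : Space → ℝ) (γ : ℝ) (Cb : ℕ → ℝ) (cb : ℝ)
    (hb : FastOrbital b γ κ.R₁ Cb cb) (R : ℝ) (C : ℕ → ℝ) (K : ℝ) (hRκ : κ.R₁ ≤ R)
    (hC : ∀ n, 0 ≤ C n) (hK : 0 ≤ K) :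
    ∃ C' : ℝ, 0 ≤ C' ∧ ∀ S : ChannelSys 𝒦 κ b γ, S.Good R C K → ∀ p z : ℝ, cyl p z ∈ Ext R →
      ‖dfield (Sum.inl 0) S.F (cyl p z) + (S.k * (p / ‖cyl p z‖)) • S.F (cyl p z)
          - ((S.k - γ) * (p / ‖cyl p z‖) * b (cyl p z)) • S.G‖
        ≤ C' * (‖cyl p z‖ ^ (-(1 / 4) : ℝ) * S.scale (cyl p z)) := by
  obtain ⟨C₁, hC₁0, h₁⟩ := ds1_radial (𝒦 := 𝒦) κ b γ Cb cb hb R C K hRκ hC hK
  refine ⟨C₁ + C 1, add_nonneg hC₁0 (hC 1), ?_⟩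
  intro S hS p z hx
  have hxκ : cyl p z ∈ Ext κ.R₁ := Ext_mono hRκ hx
  have hr1 : 1 ≤ ‖cyl p z‖ := (ds1_one_le_R₁ κ).trans (le_of_lt hxκ)
  have hr0 : 0 < ‖cyl p z‖ := by linarith
  have hne : cyl p z ≠ 0 := norm_pos_iff.1 hr0
  obtain ⟨ρ0, -, -⟩ := ds1_rho_facts hr1
  have hsc : 0 ≤ S.scale (cyl p z) := S.scale_nonneg hb hxκ
  rw [dfield_zero_cyl hne, ds1_alg₃]
  have hq : |p / ‖cyl p z‖| ≤ 1 := by
    rw [abs_div, abs_of_pos hr0, div_le_one hr0, norm_cyl]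
    exact Real.abs_le_sqrt (by nlinarith [sq_nonneg z])
  have h2 := (h₁ S hS _ hx).1
  have h3 : ‖(z / ‖cyl p z‖ ^ 2) • dfield (Sum.inr 1) S.F (cyl p z)‖
      ≤ 1 * C 1 * (‖cyl p z‖ ^ (-(1 / 4) : ℝ) * S.scale (cyl p z)) := by
    refine ds1_coeff_bound hb S hxκ zero_le_one ?_ (ds1_F_words S hS _ hx).2.2.1
    rw [one_mul, abs_div, abs_of_nonneg (by positivity : (0:ℝ) ≤ ‖cyl p z‖ ^ 2)]; rfl
  refine (norm_add_le _ _).trans ?_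
  rw [norm_smul, Real.norm_eq_abs]
  have h4 : |p / ‖cyl p z‖| * ‖dr S.F (cyl p z) + S.k • S.F (cyl p z)
      - ((S.k - γ) * b (cyl p z)) • S.G‖ ≤ 1 * (C₁ * (‖cyl p z‖ ^ (-(1 / 4) : ℝ) * S.scale (cyl p z))) :=
    mul_le_mul hq h2 (norm_nonneg _) zero_le_one
  linarith

/-- a coefficient `≤ m/r` times `b G`. -/
theorem ds1_coeff_bound_b {Cb : ℕ → ℝ} {cb : ℝ} (hb : FastOrbital b γ κ.R₁ Cb cb)
    (S : ChannelSys 𝒦 κ b γ) {x : Space} (hx : x ∈ Ext κ.R₁) {c m : ℝ} (hm : 0 ≤ m)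
    (hc : |c| ≤ m * ‖x‖⁻¹) :
    ‖(c * b x) • S.G‖ ≤ 2 * m * (‖x‖ ^ (-(1 / 4) : ℝ) * S.scale x) := by
  have hr1 : 1 ≤ ‖x‖ := (ds1_one_le_R₁ κ).trans (le_of_lt hx)
  obtain ⟨ρ0, ρ1, ρ2⟩ := ds1_rho_facts hr1
  obtain ⟨t1, t2, t3, s1, s2, s3⟩ := S.scale_terms hb hx
  rw [norm_smul, Real.norm_eq_abs, abs_mul, abs_of_nonneg t2, S.norm_G]
  have h1 : |c| ≤ m * ‖x‖ ^ (-(1 / 4) : ℝ) := hc.trans (mul_le_mul_of_nonneg_left ρ2 hm)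
  have hsc : 0 ≤ S.scale x := S.scale_nonneg hb hx
  calc |c| * b x * √2 ≤ (m * ‖x‖ ^ (-(1 / 4) : ℝ)) * S.scale x * 2 :=
        mul_le_mul (mul_le_mul h1 s2 t2 (mul_nonneg hm ρ0)) ds1_sqrt_two_le (Real.sqrt_nonneg _)
          (mul_nonneg (mul_nonneg hm ρ0) hsc)
    _ = 2 * m * (‖x‖ ^ (-(1 / 4) : ℝ) * S.scale x) := by ring

/-- the coefficients of T6b, T6c in the strip. -/
theorem ds1_strip_coeffs {p z r k : ℝ} (hr1 : 1 ≤ r) (hp0 : 0 ≤ p) (hpr : p ≤ r) (hz : 0 ≤ z)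
    (hz10 : z ≤ 10) (hrsq : r ^ 2 = p ^ 2 + z ^ 2) (hk0 : 0 ≤ k) (hk2 : k ≤ 2) :
    |k * (1 - p / r)| ≤ 20 * (z / r ^ 2) ∧ |1 - p / r| ≤ 100 * r⁻¹ ∧
    |2 * k * (p / r) * (1 - p / r)| ≤ 40 * (z / r ^ 2) ∧
    |k ^ 2 * (1 - (p / r) ^ 2)| ≤ 40 * (z / r ^ 2) ∧ |1 - (p / r) ^ 2| ≤ 100 * r⁻¹ ∧
    |z ^ 2 / r ^ 3| ≤ 10 * (z / r ^ 2) ∧ |2 * p * z / r ^ 3| ≤ 2 * (z / r ^ 2) ∧
    |2 * p * z / r ^ 4| ≤ 2 * (z / r ^ 2) ∧ |(z / r ^ 2) ^ 2| ≤ 10 * (z / r ^ 2) ∧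
    |2 * k * (z / r ^ 2)| ≤ 4 * (z / r ^ 2) ∧ (p / r) ^ 2 ≤ 1 := by
  have hr0 : 0 < r := by linarith
  obtain ⟨q, hq⟩ : ∃ q, q = p / r := ⟨_, rfl⟩
  obtain ⟨a, ha⟩ : ∃ a, a = z / r ^ 2 := ⟨_, rfl⟩
  have hq0 : 0 ≤ q := by rw [hq]; positivity
  have hq1 : q ≤ 1 := by rw [hq]; exact div_le_one_of_le₀ hpr hr0.le
  have ha0 : 0 ≤ a := by rw [ha]; positivity
  have hrinv : r⁻¹ ≤ 1 := inv_le_one_of_one_le₀ hr1
  have hrinv0 : 0 ≤ r⁻¹ := inv_nonneg.2 hr0.le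
  have hqq : 1 - q ^ 2 = z * a := by rw [hq, ha]; field_simp; linarith
  have hza : z * a ≤ 10 * a := mul_le_mul_of_nonneg_right hz10 ha0
  have hza0 : 0 ≤ z * a := mul_nonneg hz ha0
  have h1q0 : 0 ≤ 1 - q := by linarith
  have h1q : 1 - q ≤ z * a := by
    rw [← hqq]
    have : (1 - q) * q ≥ 0 := mul_nonneg h1q0 hq0
    linarith [this]
  have hzr : z * r⁻¹ ≤ 10 := by
    calc z * r⁻¹ ≤ 10 * 1 := mul_le_mul hz10 hrinv hrinv0 (by norm_num)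
      _ = 10 := by norm_num
  have har : a ≤ 10 * r⁻¹ := by
    have : a = z * r⁻¹ * r⁻¹ := by rw [ha]; field_simp
    rw [this]
    exact mul_le_mul_of_nonneg_right hzr hrinv0
  have ha10 : a ≤ 10 := by linarith
  have e3 : z ^ 2 / r ^ 3 = z * a * r⁻¹ := by rw [ha]; field_simp
  have e4 : 2 * p * z / r ^ 3 = 2 * a * q := by rw [ha, hq]; field_simp
  have e5 : 2 * p * z / r ^ 4 = 2 * a * (q * r⁻¹) := by rw [ha, hq]; field_simp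
  rw [e3, e4, e5, ← hq, ← ha, hqq]
  have hqr0 : 0 ≤ q * r⁻¹ := mul_nonneg hq0 hrinv0
  have hqr : q * r⁻¹ ≤ 1 := by
    calc q * r⁻¹ ≤ 1 * 1 := mul_le_mul hq1 hrinv hrinv0 zero_le_one
      _ = 1 := one_mul _
  have hkq : 2 * k * q ≤ 4 := by
    calc 2 * k * q ≤ (2 * 2) * 1 := mul_le_mul (by linarith) hq1 hq0 (by norm_num)
      _ = 4 := by norm_num
  have hkk : k ^ 2 ≤ 4 := by
    calc k ^ 2 = k * k := sq k
      _ ≤ 2 * 2 := mul_le_mul hk2 hk2 hk0 (by norm_num)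
      _ = 4 := by norm_num
  refine ⟨?_, ?_, ?_, ?_, ?_, ?_, ?_, ?_, ?_, ?_, ?_⟩
  · rw [abs_of_nonneg (mul_nonneg hk0 h1q0)]
    calc k * (1 - q) ≤ 2 * (10 * a) := mul_le_mul hk2 (h1q.trans hza) h1q0 (by norm_num)
      _ = 20 * a := by ring
  · rw [abs_of_nonneg h1q0]; linarith
  · rw [abs_of_nonneg (mul_nonneg (mul_nonneg (by linarith) hq0) h1q0)]
    calc 2 * k * q * (1 - q) ≤ 4 * (10 * a) := mul_le_mul hkq (h1q.trans hza) h1q0 (by norm_num)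
      _ = 40 * a := by ring
  · rw [abs_of_nonneg (mul_nonneg (sq_nonneg _) hza0)]
    calc k ^ 2 * (z * a) ≤ 4 * (10 * a) := mul_le_mul hkk hza hza0 (by norm_num)
      _ = 40 * a := by ring
  · rw [abs_of_nonneg hza0]; linarith
  · rw [abs_of_nonneg (mul_nonneg hza0 hrinv0)]
    calc z * a * r⁻¹ ≤ (10 * a) * 1 := mul_le_mul hza hrinv hrinv0 (by linarith)
      _ = 10 * a := by ring
  · rw [abs_of_nonneg (mul_nonneg (by linarith) hq0)]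
    calc 2 * a * q ≤ 2 * a * 1 := mul_le_mul_of_nonneg_left hq1 (by linarith)
      _ = 2 * a := by ring
  · rw [abs_of_nonneg (mul_nonneg (by linarith) hqr0)]
    calc 2 * a * (q * r⁻¹) ≤ 2 * a * 1 := mul_le_mul_of_nonneg_left hqr (by linarith)
      _ = 2 * a := by ring
  · rw [abs_of_nonneg (sq_nonneg _)]
    calc a ^ 2 = a * a := sq a
      _ ≤ 10 * a := mul_le_mul_of_nonneg_right ha10 ha0
  · rw [abs_of_nonneg (mul_nonneg (by linarith) ha0)]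
    exact mul_le_mul_of_nonneg_right (by linarith) ha0
  · calc q ^ 2 = q * q := sq q
      _ ≤ 1 * 1 := mul_le_mul hq1 hq1 hq0 zero_le_one
      _ = 1 := one_mul _

/-- norm of the nine terms of `ds1_alg₅`. -/
theorem ds1_nine (v₀ v₁ v₂ v₃ v₄ v₅ v₆ v₇ v₈ : 𝒦) {a₀ a₁ a₂ a₃ a₄ a₅ a₆ a₇ a₈ : ℝ} (h₀ : ‖v₀‖ ≤ a₀)
    (h₁ : ‖v₁‖ ≤ a₁) (h₂ : ‖v₂‖ ≤ a₂) (h₃ : ‖v₃‖ ≤ a₃) (h₄ : ‖v₄‖ ≤ a₄) (h₅ : ‖v₅‖ ≤ a₅)
    (h₆ : ‖v₆‖ ≤ a₆) (h₇ : ‖v₇‖ ≤ a₇) (h₈ : ‖v₈‖ ≤ a₈) :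
    ‖v₀ + v₁ + v₂ - v₃ + v₄ + v₅ - v₆ + v₇ + v₈‖ ≤ a₀ + a₁ + a₂ + a₃ + a₄ + a₅ + a₆ + a₇ + a₈ := by
  have n8 := norm_add_le (v₀ + v₁ + v₂ - v₃ + v₄ + v₅ - v₆ + v₇) v₈
  have n7 := norm_add_le (v₀ + v₁ + v₂ - v₃ + v₄ + v₅ - v₆) v₇
  have n6 := norm_sub_le (v₀ + v₁ + v₂ - v₃ + v₄ + v₅) v₆
  have n5 := norm_add_le (v₀ + v₁ + v₂ - v₃ + v₄) v₅
  have n4 := norm_add_le (v₀ + v₁ + v₂ - v₃) v₄
  have n3 := norm_sub_le (v₀ + v₁ + v₂) v₃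
  have n2 := norm_add_le (v₀ + v₁) v₂
  have n1 := norm_add_le v₀ v₁
  linarith

set_option maxHeartbeats 1000000 in
/-- **(3.43)** in the strip, good systems. -/
theorem ds1_strip (κ : ChannelConsts) (b : Space → ℝ) (γ : ℝ) (Cb : ℕ → ℝ) (cb : ℝ)
    (hb : FastOrbital b γ κ.R₁ Cb cb) (R : ℝ) (C : ℕ → ℝ) (K : ℝ) (hRκ : κ.R₁ ≤ R)
    (hC : ∀ n, 0 ≤ C n) (hK : 0 ≤ K) :
    ∃ C' : ℝ, 0 ≤ C' ∧ ∀ S : ChannelSys 𝒦 κ b γ, S.Good R C K → ∀ p z : ℝ, R < p → 0 ≤ z →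
      z ≤ stripL →
      ‖dfield (Sum.inl 0) S.F (cyl p z) + S.k • S.F (cyl p z)
          - ((S.k - γ) * b (cyl p z)) • S.G‖
        ≤ C' * (‖cyl p z‖ ^ (-(1 / 4) : ℝ) * S.scale (cyl p z)) ∧
      ‖dfield (Sum.inl 0) (dfield (Sum.inl 0) S.F) (cyl p z)
          + (2 * S.k) • dfield (Sum.inl 0) S.F (cyl p z) + S.k ^ 2 • S.F (cyl p z)
          - ((S.k - γ) ^ 2 * b (cyl p z)) • S.G‖
        ≤ C' * (‖cyl p z‖ ^ (-(1 / 4) : ℝ) * S.scale (cyl p z)) := by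
  obtain ⟨C₁, hC₁0, h₁⟩ := ds1_radial (𝒦 := 𝒦) κ b γ Cb cb hb R C K hRκ hC hK
  obtain ⟨C₂, hC₂0, h₂⟩ := ds1_horizontal (𝒦 := 𝒦) κ b γ Cb cb hb R C K hRκ hC hK
  obtain ⟨Γ, hΓ⟩ : ∃ Γ, Γ = |γ| + 2 := ⟨_, rfl⟩
  have hΓ0 : 0 ≤ Γ := by rw [hΓ]; positivity
  have hR : 1 ≤ R := (ds1_one_le_R₁ κ).trans hRκ
  have hR0 : (0 : ℝ) ≤ R := by linarith
  have hC0 := hC 0
  have hC1 := hC 1
  have hC2 := hC 2
  refine ⟨C₁ + C₂ + 40 * C 0 + 200 * C 1 + 20 * C 2 + 200 * Γ + 200 * Γ ^ 2, by positivity, ?_⟩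
  intro S hS p z hp hz hz'
  have hp1 : 1 ≤ p := hR.trans hp.le
  obtain ⟨g1, -, -, -, -⟩ := dst_strip_geom hp1 hz hz'
  have hx : cyl p z ∈ Ext R := lt_of_lt_of_le hp g1
  have hxκ : cyl p z ∈ Ext κ.R₁ := Ext_mono hRκ hx
  obtain ⟨r, hr⟩ : ∃ r, r = ‖cyl p z‖ := ⟨_, rfl⟩
  have hr1 : 1 ≤ r := by rw [hr]; linarith
  have hne : cyl p z ≠ 0 := norm_pos_iff.1 (by rw [← hr]; linarith)
  have hrsq : r ^ 2 = p ^ 2 + z ^ 2 := by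
    rw [hr, norm_cyl, Real.sq_sqrt (by positivity)]
  obtain ⟨w0, w1, w2, w3, w4⟩ := ds1_F_words S hS _ hx
  have hk0 : 0 ≤ S.k := by linarith [S.k_lo]
  have hk2 : S.k ≤ 2 := by linarith [S.k_hi]
  have hkγ : |S.k - γ| ≤ Γ := by
    rw [hΓ]; calc |S.k - γ| ≤ |S.k| + |γ| := abs_sub _ _
      _ ≤ |γ| + 2 := by rw [abs_of_nonneg hk0]; linarith
  obtain ⟨X, hX⟩ : ∃ X, X = ‖cyl p z‖ ^ (-(1 / 4) : ℝ) * S.scale (cyl p z) := ⟨_, rfl⟩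
  have hX0 : 0 ≤ X := by
    rw [hX]; exact mul_nonneg (ds1_rho_facts (by rw [← hr]; exact hr1)).1 (S.scale_nonneg hb hxκ)
  have tool : ∀ (c m M : ℝ) (v : 𝒦), 0 ≤ m → |c| ≤ m * (z / r ^ 2) → ‖v‖ ≤ M * S.A (cyl p z) →
      ‖c • v‖ ≤ m * M * X := by
    intro c m M v hm hc hv
    rw [hX]
    refine ds1_coeff_bound hb S hxκ hm ?_ hv
    rw [← hr]; rw [show (cyl p z) 2 = z from rfl, abs_of_nonneg hz]; exact hc
  have toolb : ∀ (c m : ℝ), 0 ≤ m → |c| ≤ m * r⁻¹ → ‖(c * b (cyl p z)) • S.G‖ ≤ 2 * m * X := by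
    intro c m hm hc
    rw [hX]; exact ds1_coeff_bound_b hb S hxκ hm (by rw [← hr]; exact hc)
  have hh₂ := h₂ S hS p z hx
  have hh₁ := (h₁ S hS _ hx).2
  rw [← hX] at hh₁ hh₂ ⊢
  rw [dfield_zero_zero_cyl hR0 hS.F_bdd.1 hx]
  rw [← hr] at g1 hh₂ ⊢
  obtain ⟨k1, k2, k3, k4, k5, k6, k7, k8, k9, k10, k11⟩ :=
    ds1_strip_coeffs hr1 (by linarith) g1 hz hz' hrsq hk0 hk2
  have e : (C₁ + C₂ + 40 * C 0 + 200 * C 1 + 20 * C 2 + 200 * Γ + 200 * Γ ^ 2) * X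
      = C₁ * X + C₂ * X + 40 * (C 0 * X) + 200 * (C 1 * X) + 20 * (C 2 * X) + 200 * (Γ * X)
        + 200 * (Γ ^ 2 * X) := by ring
  have p0 : 0 ≤ C₁ * X := by positivity
  have p0' : 0 ≤ C₂ * X := by positivity
  have p1 : 0 ≤ C 0 * X := by positivity
  have p2 : 0 ≤ C 1 * X := by positivity
  have p3 : 0 ≤ C 2 * X := by positivity
  have p4 : 0 ≤ Γ ^ 2 * X := by positivity
  have p5 : 0 ≤ Γ * X := by positivity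
  rw [e]
  constructor
  · rw [ds1_alg₄ (q := p / r)]
    have b1 := tool _ 20 _ _ (by norm_num) k1 w0
    have b2 : ‖((S.k - γ) * (1 - p / r) * b (cyl p z)) • S.G‖ ≤ 2 * (100 * Γ) * X := by
      refine toolb _ _ (by positivity) ?_
      rw [abs_mul]
      calc |S.k - γ| * |1 - p / r| ≤ Γ * (100 * r⁻¹) :=
            mul_le_mul hkγ k2 (abs_nonneg _) hΓ0
        _ = 100 * Γ * r⁻¹ := by ring
    have n1 := norm_sub_le (dfield (Sum.inl 0) S.F (cyl p z) + (S.k * (p / r)) • S.F (cyl p z)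
      - ((S.k - γ) * (p / r) * b (cyl p z)) • S.G + (S.k * (1 - p / r)) • S.F (cyl p z))
      (((S.k - γ) * (1 - p / r) * b (cyl p z)) • S.G)
    have n2 := norm_add_le (dfield (Sum.inl 0) S.F (cyl p z) + (S.k * (p / r)) • S.F (cyl p z)
      - ((S.k - γ) * (p / r) * b (cyl p z)) • S.G) ((S.k * (1 - p / r)) • S.F (cyl p z))
    linarith
  · rw [dfield_zero_cyl hne, ← hr, ds1_alg₅]
    have c0 : ‖(p / r) ^ 2 • (dr (dr S.F) (cyl p z) + (2 * S.k) • dr S.F (cyl p z)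
        + S.k ^ 2 • S.F (cyl p z) - ((S.k - γ) ^ 2 * b (cyl p z)) • S.G)‖ ≤ C₁ * X := by
      rw [norm_smul, Real.norm_of_nonneg (by positivity : (0:ℝ) ≤ (p / r) ^ 2)]
      calc (p / r) ^ 2 * _ ≤ 1 * (C₁ * X) := mul_le_mul k11 hh₁ (norm_nonneg _) zero_le_one
        _ = C₁ * X := one_mul _
    have c3 : ‖((S.k - γ) ^ 2 * (1 - (p / r) ^ 2) * b (cyl p z)) • S.G‖
        ≤ 2 * (100 * Γ ^ 2) * X := by
      refine toolb _ _ (by positivity) ?_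
      rw [abs_mul, abs_of_nonneg (sq_nonneg _)]
      have : (S.k - γ) ^ 2 ≤ Γ ^ 2 := by rw [← sq_abs]; gcongr
      calc (S.k - γ) ^ 2 * |1 - (p / r) ^ 2| ≤ Γ ^ 2 * (100 * r⁻¹) :=
            mul_le_mul this k5 (abs_nonneg _) (by positivity)
        _ = 100 * Γ ^ 2 * r⁻¹ := by ring
    have := ds1_nine _ _ _ _ _ _ _ _ _ c0 (tool _ 40 _ _ (by norm_num) k3 w1)
      (tool _ 40 _ _ (by norm_num) k4 w0) c3 (tool _ 10 _ _ (by norm_num) k6 w1)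
      (tool _ 2 _ _ (by norm_num) k7 w3) (tool _ 2 _ _ (by norm_num) k8 w2)
      (tool _ 10 _ _ (by norm_num) k9 w4) (tool _ 4 _ _ (by norm_num) k10 w2)
    refine this.trans ?_
    linarith

end Claimed.Open.R278
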