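import Claimed.Open.R278.DS1Tools

/-!
# Result 278, layer DS, file DS1Parts: the four pieces of `F = f φ + b G + Z₀ + Rem`

Sub-captain helper88.  PAPER-FREE.  SORRY-FREE (all five leaves proved).  One leaf per section:
`DS1-GOOD`, `DS1-ALG`, `DS1-F`, `DS1-Z`, `DS1-REM`.  Notation: `r = |x|`, `z = x 2`, `t = tz x = z/r`,
`A = S.A x = radialA S.k S.β r`, `λ = S.lam`.  All constants are uniform over the systems `S` which are
`Good R C K` (definition in `DSDefs.lean`).  Cite freely `CHTools.lean`, `CHTop.lean`, `DS1Tools.lean`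
(also while sorried).  Auxiliary lemmas: prefix `ds1_`.  Change a statement only after telling helper88.
-/

open MeasureTheory Filter
open scoped ContDiff InnerProductSpace ComplexConjugate ENNReal Topology Laplacian

noncomputable section

namespace Claimed.Open.R278

variable {𝒦 : Type} [NormedAddCommGroup 𝒦] [InnerProductSpace ℂ 𝒦] [CompleteSpace 𝒦]
variable {κ : ChannelConsts} {b : Space → ℝ} {γ : ℝ}

/-! ## GOOD (leaf DS1-GOOD): one radius, one family of constants -/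

theorem ds_good (κ : ChannelConsts) (b : Space → ℝ) (γ : ℝ) (Cb : ℕ → ℝ) (cb : ℝ)
    (hb : FastOrbital b γ κ.R₁ Cb cb) :
    ∃ (R : ℝ) (C : ℕ → ℝ) (K : ℝ), κ.R₁ ≤ R ∧ (∀ n, 0 ≤ C n) ∧ 0 ≤ K ∧
      ∀ S : ChannelSys 𝒦 κ b γ, S.Good R C K := by
  obtain ⟨R1, C1, hR1, h1⟩ := channel_leading (𝒦 := 𝒦) κ
  obtain ⟨R2, C2, hR2, h2⟩ := channel_amplitude (𝒦 := 𝒦) κ
  obtain ⟨R3, C3, hR3, h3⟩ := channel_H (𝒦 := 𝒦) κ b γ Cb cb hb
  obtain ⟨R4, C4, hR4, h4⟩ := ch2_Hodd_Hev_bdd (𝒦 := 𝒦) κ b γ Cb cb hb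
  obtain ⟨C5, h5⟩ := ch2_Z_bdd (𝒦 := 𝒦) κ b γ
  obtain ⟨R6, C6, hR6, h6⟩ := ch2_E_bdd (𝒦 := 𝒦) κ b γ Cb cb hb
  obtain ⟨R7, K7, hR7, h7⟩ := channel_odd (𝒦 := 𝒦) κ b γ
  obtain ⟨R8, K8, hR8, h8⟩ := channel_E (𝒦 := 𝒦) κ b γ Cb cb hb
  obtain ⟨R9, K9, hR9, h9⟩ := channel_E_deriv (𝒦 := 𝒦) κ b γ Cb cb hb
  obtain ⟨K10, h10⟩ := ch2_slope_bound (𝒦 := 𝒦) κ b γ
  obtain ⟨K11, h11⟩ := ch2_v_bounds (𝒦 := 𝒦) κ b γ
  obtain ⟨R, hR⟩ : ∃ R, R = |R1| + |R2| + |R3| + |R4| + |R6| + |R7| + |R8| + |R9| := ⟨_, rfl⟩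
  obtain ⟨C, hC⟩ : ∃ C : ℕ → ℝ, C = fun n => |C1 n| + |C2 n| + |C3 n| + |C4 n| + |C5 n| + |C6 n| :=
    ⟨_, rfl⟩
  obtain ⟨K, hK⟩ : ∃ K, K = |K7| + |K8| + |K9| + |K10| + |K11| := ⟨_, rfl⟩
  have a1 := abs_nonneg R1; have a2 := abs_nonneg R2; have a3 := abs_nonneg R3
  have a4 := abs_nonneg R4; have a6 := abs_nonneg R6; have a7 := abs_nonneg R7
  have a8 := abs_nonneg R8; have a9 := abs_nonneg R9
  have r1 : R1 ≤ R := by have := le_abs_self R1; linarith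
  have r2 : R2 ≤ R := by have := le_abs_self R2; linarith
  have r3 : R3 ≤ R := by have := le_abs_self R3; linarith
  have r4 : R4 ≤ R := by have := le_abs_self R4; linarith
  have r6 : R6 ≤ R := by have := le_abs_self R6; linarith
  have r7 : R7 ≤ R := by have := le_abs_self R7; linarith
  have r8 : R8 ≤ R := by have := le_abs_self R8; linarith
  have r9 : R9 ≤ R := by have := le_abs_self R9; linarith
  have hCall : ∀ n, C1 n ≤ C n ∧ C2 n ≤ C n ∧ C3 n ≤ C n ∧ C4 n ≤ C n ∧ C5 n ≤ C n ∧ C6 n ≤ C n ∧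
      0 ≤ C n := by
    intro n
    have b1 := abs_nonneg (C1 n); have b2 := abs_nonneg (C2 n); have b3 := abs_nonneg (C3 n)
    have b4 := abs_nonneg (C4 n); have b5 := abs_nonneg (C5 n); have b6 := abs_nonneg (C6 n)
    have d1 := le_abs_self (C1 n); have d2 := le_abs_self (C2 n); have d3 := le_abs_self (C3 n)
    have d4 := le_abs_self (C4 n); have d5 := le_abs_self (C5 n); have d6 := le_abs_self (C6 n)
    rw [hC]
    refine ⟨?_, ?_, ?_, ?_, ?_, ?_, ?_⟩ <;> simp only <;> linarith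
  have k7' := abs_nonneg K7; have k8' := abs_nonneg K8; have k9' := abs_nonneg K9
  have k10' := abs_nonneg K10; have k11' := abs_nonneg K11
  have k7 : K7 ≤ K := by have := le_abs_self K7; linarith
  have k8 : K8 ≤ K := by have := le_abs_self K8; linarith
  have k9 : K9 ≤ K := by have := le_abs_self K9; linarith
  have k10 : K10 ≤ K := by have := le_abs_self K10; linarith
  have k11 : K11 ≤ K := by have := le_abs_self K11; linarith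
  refine ⟨R, C, K, hR1.trans r1, fun n => (hCall n).2.2.2.2.2.2, by linarith, fun S => ?_⟩
  have hA : ∀ x, 0 ≤ S.A x := fun x =>
    mul_nonneg (Real.exp_pos _).le (Real.rpow_nonneg (norm_nonneg _) _)
  have hl := S.lam_nonneg
  have hg2 : ∀ x : Space, 0 ≤ S.lam * S.A x * (‖x‖ ^ 2)⁻¹ := fun x => by
    have := hA x; positivity
  obtain ⟨q1, q2, q3, q4⟩ := h2 S.toChannelCore
  exact
  { F_bdd := (h1 S.toChannelCore).1.mono r1 fun n x _ =>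
      mul_le_mul_of_nonneg_right (hCall n).1 (hA x)
    QF_bdd := (h1 S.toChannelCore).2.mono r1 fun n x _ =>
      mul_le_mul_of_nonneg_right (hCall n).1 (by have := hA x; positivity)
    a₀_smooth := q1
    a₀_hom := q2
    a₀_rot := fun w hw x hx => (q3 w hw x hx).trans (hCall _).2.1
    h_rot := fun w hw x hx => by
      obtain ⟨e1, e2, e3, e4⟩ := q4 w hw x (Ext_mono r2 hx)
      have hc := (hCall w.length).2.1
      exact ⟨e1.trans hc, e2.trans (mul_le_mul_of_nonneg_right hc (by positivity)),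
        e3.trans (mul_le_mul_of_nonneg_right hc (by positivity)),
        e4.trans (mul_le_mul_of_nonneg_right hc (by positivity))⟩
    odd := fun x hx => by
      obtain ⟨e1, e2, e3, e4, e5⟩ := h7 S x (Ext_mono r7 hx)
      refine ⟨e1.trans ?_, e2.trans ?_, e3.trans ?_, e4.trans ?_, e5.trans ?_⟩ <;> gcongr
    H_bdd := (h3 S).mono r3 fun n x _ => mul_le_mul_of_nonneg_right (hCall n).2.2.1 (hg2 x)
    Hodd_bdd := (h4 S).1.mono r4 fun n x _ =>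
      mul_le_mul_of_nonneg_right (hCall n).2.2.2.1 (hg2 x)
    Z_bdd := (h5 S).mono (hR1.trans r1) fun n x _ =>
      mul_le_mul_of_nonneg_right (hCall n).2.2.2.2.1 (hg2 x)
    E_bdd := (h6 S).mono r6 fun n x _ =>
      mul_le_mul_of_nonneg_right (hCall n).2.2.2.2.2.1 (hg2 x)
    slope_le := (h10 S).trans k10
    v₁_le := (h11 S).1.trans k11
    v₂_le := (h11 S).2.1.trans k11
    E₀ := fun x hx => (h8 S x (Ext_mono r8 hx)).trans (by have := hA x; gcongr)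
    E₁ := fun x hx => (h9 S x (Ext_mono r9 hx)).1.trans (by have := hA x; gcongr)
    E₂ := fun x hx => (h9 S x (Ext_mono r9 hx)).2.trans (by have := hA x; gcongr) }

/-! ## ALG (leaf DS1-ALG): Hilbert space algebra and elementary facts, no analysis -/

theorem ds1_one_le_R₁ (κ : ChannelConsts) : 1 ≤ κ.R₁ := by
  have h := κ.R₁_ge
  have : (1 : ℝ) ≤ bigD := by unfold bigD; exact one_le_pow₀ (by norm_num)
  linarith

namespace ChannelSys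
variable (S : ChannelSys 𝒦 κ b γ)

/-- `β = (2-2λ)/k - 1`, `0 ≤ λ ≤ 1`, `0.9 < k < 1.1`. -/
theorem beta_bounds : -1 ≤ S.β ∧ S.β ≤ 2 := by
  have h1 := S.lam_nonneg
  have h2 := S.lam_le
  have h3 := S.k_lo
  have hk : 0 < S.k := by linarith
  unfold ChannelCore.β
  constructor
  · have : 0 ≤ (2 - 2 * S.lam) / S.k := div_nonneg (by linarith) hk.le
    linarith
  · have : (2 - 2 * S.lam) / S.k ≤ 3 := by
      rw [div_le_iff₀ hk]; linarith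
    linarith

theorem A_pos {x : Space} (hx : x ≠ 0) : 0 < S.A x := radialA_pos _ _ (norm_pos_iff.2 hx)

theorem A_nonneg (x : Space) : 0 ≤ S.A x :=
  mul_nonneg (Real.exp_pos _).le (Real.rpow_nonneg (norm_nonneg _) _)

theorem A_reflZ (x : Space) : S.A (reflZ x) = S.A x := by
  simp only [ChannelCore.A, norm_reflZ]

theorem f_eq {x : Space} (hx : x ≠ 0) : S.f x = S.A x • S.h x := by
  have hA : (S.A x : ℂ) ≠ 0 := by exact_mod_cast (S.A_pos hx).ne'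
  rw [ChannelCore.h, Complex.real_smul, mul_div_cancel₀ _ hA]

theorem inner_φ_Rr (v : 𝒦) : ⟪S.φ, S.Rr v⟫_ℂ = 0 := by
  rw [← S.Rr_symm, S.Rr_φ, inner_zero_left]

/-- `G = Rr G♯`, `Rr` symmetric, `Rr φ = 0`. -/
theorem inner_φ_G : ⟪S.φ, S.G⟫_ℂ = 0 := by
  rw [S.G_eq]; exact S.inner_φ_Rr _

theorem inner_φ_Teq : ⟪S.φ, S.Teq⟫_ℂ = 0 := by
  rw [Teq, inner_neg_right, inner_smul_right, v₂, S.inner_φ_Rr, mul_zero, neg_zero]

-- `norm_G : ‖S.G‖ = √2` is in `CH2B.lean`.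

theorem norm_Teq : ‖S.Teq‖ = ‖S.slope‖ * ‖S.v₂‖ := by
  rw [Teq, norm_neg, norm_smul]

theorem C0_pos (_S : ChannelSys 𝒦 κ b γ) : 0 < κ.C 0 := by
  by_contra hneg
  rw [not_lt] at hneg
  have hR := ds1_one_le_R₁ κ
  obtain ⟨x, hx⟩ : ∃ x : Space, x = (κ.R₁ + 1) • (EuclideanSpace.single 0 (1 : ℝ) : Space) :=
    ⟨_, rfl⟩
  have hn : ‖x‖ = κ.R₁ + 1 := by
    rw [hx, norm_smul, PiLp.norm_single, norm_one, mul_one,
      Real.norm_of_nonneg (by linarith)]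
  have hxE : x ∈ Ext κ.R₁ := by show κ.R₁ < ‖x‖; rw [hn]; linarith
  have hr : 0 < ‖x‖ := by rw [hn]; linarith
  have h1 := _S.W_bdd.2 [] x hxE
  have h2 := _S.Wφ_bdd.2 [] x hxE
  simp only [dword_nil, List.length_nil] at h1 h2
  have h3 : ‖_S.W x _S.φ‖ ≤ ‖_S.W x‖ := by
    have := (_S.W x).le_opNorm _S.φ
    rwa [_S.φ_norm, mul_one] at this
  have h4 : ‖(2 / ‖x‖) • _S.φ‖ = 2 / ‖x‖ := by
    rw [norm_smul, _S.φ_norm, mul_one, Real.norm_of_nonneg (by positivity)]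
  have h5 : ‖(2 / ‖x‖) • _S.φ‖ ≤ ‖_S.W x _S.φ‖ + ‖_S.W x _S.φ - (2 / ‖x‖) • _S.φ‖ := by
    have := norm_sub_le (_S.W x _S.φ) (_S.W x _S.φ - (2 / ‖x‖) • _S.φ)
    simpa using this
  have h6 : κ.C 0 * ‖x‖⁻¹ ≤ 0 := mul_nonpos_of_nonpos_of_nonneg hneg (by positivity)
  have h7 : κ.C 0 * (‖x‖ ^ 2)⁻¹ ≤ 0 := mul_nonpos_of_nonpos_of_nonneg hneg (by positivity)
  have h8 : 0 < 2 / ‖x‖ := by positivity
  linarith

theorem norm_sq_add_perp (z : ℂ) {w : 𝒦} (hw : ⟪S.φ, w⟫_ℂ = 0) :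
    ‖z • S.φ + w‖ ^ 2 = ‖z‖ ^ 2 + ‖w‖ ^ 2 := by
  rw [@norm_add_sq ℂ, inner_smul_left, hw, mul_zero, norm_smul, S.φ_norm]
  simp

theorem norm_Pd_le (u : 𝒦) : ‖S.Pd u‖ ≤ ‖u‖ := by
  have h1 : ‖S.Pd u‖ ^ 2 ≤ ‖u‖ * ‖S.Pd u‖ := by
    have e : ((‖S.Pd u‖ ^ 2 : ℝ) : ℂ) = ⟪u, S.Pd u⟫_ℂ := by
      rw [← S.Pd_proj u, ← S.Pd_symm, S.Pd_proj, inner_self_eq_norm_sq_to_K]; norm_cast
    have h2 := norm_inner_le_norm (𝕜 := ℂ) u (S.Pd u)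
    rw [← e, Complex.norm_real, Real.norm_of_nonneg (by positivity)] at h2
    exact h2
  by_cases h0 : ‖S.Pd u‖ = 0
  · rw [h0]; exact norm_nonneg _
  · have hpos : 0 < ‖S.Pd u‖ := lt_of_le_of_ne (norm_nonneg _) (Ne.symm h0)
    nlinarith

theorem Pd_Teq : S.Pd S.Teq = 0 := by
  rw [Teq, map_neg, map_smul, v₂, S.Pd_v₂, smul_zero, neg_zero]

theorem inner_φ_mid (β s : ℝ) : ⟪S.φ, β • S.G + s • S.Teq⟫_ℂ = 0 := by
  rw [inner_add_right, ← Complex.coe_smul, ← Complex.coe_smul, inner_smul_right, inner_smul_right,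
    S.inner_φ_G, S.inner_φ_Teq]
  simp

theorem three_lower (z : ℂ) {β s : ℝ} (hβ : 0 ≤ β) (hs : 0 ≤ s) :
    (1 / 4) * (‖z‖ + β + s * ‖S.Teq‖) ≤ ‖z • S.φ + β • S.G + s • S.Teq‖ ∧
      β ≤ ‖z • S.φ + β • S.G + s • S.Teq‖ := by
  obtain ⟨w, hw⟩ : ∃ w, w = β • S.G + s • S.Teq := ⟨_, rfl⟩
  have hperp : ⟪S.φ, w⟫_ℂ = 0 := hw ▸ S.inner_φ_mid β s
  have hu : z • S.φ + β • S.G + s • S.Teq = z • S.φ + w := by rw [hw, add_assoc]
  rw [hu]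
  have hsq := S.norm_sq_add_perp z hperp
  have hPw : ‖S.Pd w‖ = β := by
    rw [hw, map_add, ← Complex.coe_smul, ← Complex.coe_smul, map_smul, map_smul, S.Pd_Teq,
      smul_zero, add_zero, norm_smul, S.Pd_G, mul_one, Complex.norm_real, Real.norm_of_nonneg hβ]
  have hβw : β ≤ ‖w‖ := hPw ▸ S.norm_Pd_le w
  have ht : s * ‖S.Teq‖ ≤ ‖w‖ + 3 / 2 * β := by
    have e : s • S.Teq = w - β • S.G := by rw [hw]; abel
    have h1 : ‖s • S.Teq‖ ≤ ‖w‖ + ‖β • S.G‖ := e ▸ norm_sub_le _ _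
    rw [norm_smul, norm_smul, Real.norm_of_nonneg hs, Real.norm_of_nonneg hβ, S.norm_G] at h1
    have h2 : √2 ≤ 3 / 2 := by
      rw [Real.sqrt_le_left (by norm_num)]; norm_num
    nlinarith
  have hU := norm_nonneg (z • S.φ + w)
  have hW := norm_nonneg w
  have ha := norm_nonneg z
  constructor
  · have h1 : ‖z‖ + 7 / 2 * ‖w‖ ≤ 4 * ‖z • S.φ + w‖ := by
      apply le_of_sq_le_sq _ (by positivity)
      have e : (4 * ‖z • S.φ + w‖) ^ 2 = 16 * (‖z‖ ^ 2 + ‖w‖ ^ 2) := by rw [mul_pow, hsq]; norm_num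
      rw [e]
      nlinarith [sq_nonneg (7 * ‖z‖ - 2 * ‖w‖), sq_nonneg ‖z‖, sq_nonneg ‖w‖,
        sq_nonneg (2 * ‖z‖ - ‖w‖)]
    linarith
  · have : ‖w‖ ≤ ‖z • S.φ + w‖ := by
      apply le_of_sq_le_sq _ hU
      rw [hsq]; nlinarith [sq_nonneg ‖z‖]
    linarith

/-- monotonicity in the first coefficient: `‖z φ + w‖² = |z|² + ‖w‖²` for `w ⊥ φ`. -/
theorem three_mono {z z' : ℂ} (hz : ‖z‖ ≤ ‖z'‖) (β s : ℝ) :
    ‖z • S.φ + β • S.G + s • S.Teq‖ ≤ ‖z' • S.φ + β • S.G + s • S.Teq‖ := by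
  apply le_of_sq_le_sq _ (norm_nonneg _)
  rw [add_assoc, add_assoc, S.norm_sq_add_perp z (S.inner_φ_mid β s),
    S.norm_sq_add_perp z' (S.inner_φ_mid β s)]
  have := pow_le_pow_left₀ (norm_nonneg z) hz 2
  linarith

theorem Rem_eq (x : Space) : S.Rem x = S.H x - S.Z₀ x := by
  simp only [Rem, Mv, H, ChannelCore.Q, ChannelCore.f]
  abel

theorem Hodd_add_Hev (x : Space) : S.Hodd x + S.Hev x = S.H x := by
  simp only [Hodd, Hev]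
  module

theorem Rem_eq' (x : Space) : S.Rem x = S.Hodd x + S.E x + (S.Z x - S.Z₀ x) := by
  rw [S.Rem_eq, ← S.Hodd_add_Hev, E]
  abel

theorem Z_sub_Z₀ (x : Space) :
    S.Z x - S.Z₀ x = (S.lam * S.A x * (‖x‖ ^ 4)⁻¹ * x 2 ^ 2) • (-(S.slope • S.v₁)) := by
  simp only [Z, Z₀, Teq]
  generalize S.lam * S.A x * (‖x‖ ^ 4)⁻¹ = c
  rw [neg_smul, Complex.coe_smul, smul_add, smul_add, smul_comm S.slope (x 2 ^ 2) S.v₁, mul_smul]
  simp only [smul_neg]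
  abel

theorem Hodd_odd (x : Space) : S.Hodd (reflZ x) = -S.Hodd x := by
  simp only [Hodd, reflZ_reflZ]
  module

/-- `⟪φ, H x⟫ = 0`. -/
theorem inner_φ_H (x : Space) : ⟪S.φ, S.H x⟫_ℂ = 0 := by
  simp only [H, ChannelCore.Q]
  rw [inner_sub_right, inner_sub_right, inner_smul_right, ← Complex.coe_smul, inner_smul_right,
    S.inner_φ_G, inner_self_eq_norm_sq_to_K, S.φ_norm]
  simp

end ChannelSys

theorem FastOrbital.pos {Cb : ℕ → ℝ} {cb R₁ : ℝ} (hR₁ : 0 ≤ R₁) (hb : FastOrbital b γ R₁ Cb cb)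
    {x : Space} (hx : x ∈ Ext R₁) : 0 < b x :=
  lt_of_lt_of_le (mul_pos hb.c_pos (radialA_pos _ _ (norm_pos_of_mem_Ext hR₁ hx))) (hb.lower x hx)

namespace ChannelSys
variable (S : ChannelSys 𝒦 κ b γ)

theorem scale_nonneg {Cb : ℕ → ℝ} {cb : ℝ} (hb : FastOrbital b γ κ.R₁ Cb cb) {x : Space}
    (hx : x ∈ Ext κ.R₁) : 0 ≤ S.scale x := by
  have h1 := (hb.pos (by linarith [ds1_one_le_R₁ κ]) hx).le
  have h2 := S.A_nonneg x
  have h3 := S.lam_nonneg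
  unfold scale
  positivity

/-- `remScale ≤ r^{-1/4} scale` for `r ≥ 1` (`λ ≤ 1`, `b ≥ 0`). -/
theorem remScale_le {Cb : ℕ → ℝ} {cb : ℝ} (hb : FastOrbital b γ κ.R₁ Cb cb) {x : Space}
    (hx : x ∈ Ext κ.R₁) : S.remScale x ≤ ‖x‖ ^ (-(1 / 4) : ℝ) * S.scale x := by
  have hR := ds1_one_le_R₁ κ
  have hr1 : 1 ≤ ‖x‖ := hR.trans (le_of_lt hx)
  have hr0 : 0 < ‖x‖ := by linarith
  have h1 := (hb.pos (by linarith) hx).le
  have h2 := S.A_nonneg x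
  have h3 := S.lam_nonneg
  have h4 := S.lam_le
  unfold remScale scale
  obtain ⟨q, hq⟩ : ∃ q, q = ‖x‖ ^ (-(1 / 4) : ℝ) := ⟨_, rfl⟩
  have hq0 : 0 < q := hq ▸ Real.rpow_pos_of_pos hr0 _
  have e1 : ‖x‖ ^ (-(17 / 4) : ℝ) = q * (‖x‖ ^ 4)⁻¹ := by
    rw [hq, ← Real.rpow_natCast, ← Real.rpow_neg hr0.le, ← Real.rpow_add hr0]; norm_num
  have e2 : ‖x‖⁻¹ ≤ q := by
    rw [hq, ← Real.rpow_neg_one]
    exact Real.rpow_le_rpow_of_exponent_le hr1 (by norm_num)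
  rw [← hq, e1]
  have e3 : S.lam * S.A x * (|tz x| / ‖x‖) ≤ q * (S.A x * |tz x|) := by
    have : 0 ≤ S.A x * |tz x| := by positivity
    calc S.lam * S.A x * (|tz x| / ‖x‖) = S.lam * ‖x‖⁻¹ * (S.A x * |tz x|) := by
          rw [div_eq_mul_inv]; ring
      _ ≤ 1 * q * (S.A x * |tz x|) := by gcongr
      _ = _ := by ring
  have e4 : 0 ≤ q * b x := by positivity
  calc S.lam * S.A x * (|tz x| / ‖x‖ + q * (‖x‖ ^ 4)⁻¹)
      = S.lam * S.A x * (|tz x| / ‖x‖) + q * (S.lam * S.A x * (‖x‖ ^ 4)⁻¹) := by ring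
    _ ≤ q * (S.A x * |tz x|) + q * b x + q * (S.lam * S.A x * (‖x‖ ^ 4)⁻¹) := by linarith
    _ = _ := by ring

/-- the simple zero bounds the slope from below: `c₀ |t| ≤ |a₀| ≤ |a'| |t| + K t²` at `x = cyl p 1`,
`p → ∞` (`t = 1/√(p²+1) → 0⁺`). -/
theorem slope_lower {R : ℝ} {C : ℕ → ℝ} {K c₀ : ℝ} (hS : S.Good R C K) (h₀ : S.SimpleZero c₀) :
    c₀ ≤ ‖S.slope‖ := by
  refine le_of_forall_pos_le_add fun ε hε => ?_
  obtain ⟨p, hp⟩ : ∃ p, p = max (max (|R| + 1) 1) (|K| / ε) := ⟨_, rfl⟩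
  have hp1 : 1 ≤ p := hp ▸ (le_max_right _ _).trans (le_max_left _ _)
  have hpR : R < p := by
    have : |R| + 1 ≤ p := hp ▸ (le_max_left _ _).trans (le_max_left _ _)
    linarith [le_abs_self R]
  have hpK : |K| / ε ≤ p := hp ▸ le_max_right _ _
  have hp0 : 0 < p := by linarith
  obtain ⟨r, hr⟩ : ∃ r, r = ‖cyl p 1‖ := ⟨_, rfl⟩
  have hr2 : r ^ 2 = p ^ 2 + 1 := by
    rw [hr, norm_cyl, Real.sq_sqrt (by positivity)]; norm_num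
  have hr0 : 0 ≤ r := hr ▸ norm_nonneg _
  have hpr : p ≤ r := by nlinarith
  have hrpos : 0 < r := by linarith
  have hx : cyl p 1 ∈ Ext R := by show R < ‖cyl p 1‖; rw [← hr]; linarith
  have hx0 : cyl p 1 ∈ Ext 0 := by show 0 < ‖cyl p 1‖; rw [← hr]; exact hrpos
  have ht : tz (cyl p 1) = 1 / r := by rw [dst_tz_cyl, hr]
  have h1 := h₀ _ hx0
  have h2 := (hS.odd _ hx).2.2.1
  rw [ht] at h1 h2
  have htpos : 0 < 1 / r := by positivity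
  rw [abs_of_pos htpos] at h1
  have h3 : ‖S.a₀ (cyl p 1)‖ ≤ ‖S.slope‖ * (1 / r) + K * (1 / r) ^ 2 := by
    have := norm_le_norm_add_norm_sub' (S.a₀ (cyl p 1)) (S.slope * ((1 / r : ℝ) : ℂ))
    rw [norm_mul, Complex.norm_real, Real.norm_of_nonneg htpos.le] at this
    linarith
  have h4 : c₀ * (1 / r) ≤ (‖S.slope‖ + K * (1 / r)) * (1 / r) := by nlinarith
  have h5 : c₀ ≤ ‖S.slope‖ + K * (1 / r) := le_of_mul_le_mul_right h4 htpos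
  have h6 : K * (1 / r) ≤ ε := by
    have : |K| ≤ ε * r := by
      rw [div_le_iff₀ hε] at hpK
      nlinarith
    calc K * (1 / r) ≤ |K| * (1 / r) := mul_le_mul_of_nonneg_right (le_abs_self _) htpos.le
      _ ≤ ε * r * (1 / r) := mul_le_mul_of_nonneg_right this htpos.le
      _ = ε := by field_simp
  linarith

end ChannelSys


/-! ## F (leaf DS1-F): the scalar channel `f = A h` -/

theorem ds1_f_smooth {R : ℝ} {C : ℕ → ℝ} {K : ℝ} (hR : 1 ≤ R) (S : ChannelSys 𝒦 κ b γ)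
    (hS : S.Good R C K) : ContDiffOn ℝ ∞ S.f (Ext R) ∧ ContDiffOn ℝ ∞ S.h (Ext R) := by
  have hf : ContDiffOn ℝ ∞ S.f (Ext R) := by
    rw [S.toChannelCore.f_eq]
    exact ((innerSL ℂ S.φ).restrictScalars ℝ).contDiff.comp_contDiffOn hS.F_bdd.1
  refine ⟨hf, ?_⟩
  rw [S.h_eq]
  have hinv : ContDiffOn ℝ ∞ (fun r => (radialA S.k S.β r)⁻¹) (Set.Ioi R) :=
    ((contDiffOn_radialA S.k S.β).inv (fun _ hr => (radialA_pos _ _ hr).ne')).mono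
      (Set.Ioi_subset_Ioi (by linarith))
  exact (contDiffOn_radial (by linarith) hinv).smul hf

theorem ds1_div_sq_le {X r : ℝ} (hX : 0 ≤ X) (hr : 1 ≤ r) : X / r ^ 2 ≤ X / r := by
  apply div_le_div_of_nonneg_left hX (by linarith)
  nlinarith

theorem ds1_f (κ : ChannelConsts) (b : Space → ℝ) (γ : ℝ) (R : ℝ) (C : ℕ → ℝ) (K : ℝ) (hR : 1 ≤ R)
    (hK : 0 ≤ K) :
    ∃ C₁ : ℝ, 0 ≤ C₁ ∧ ∀ S : ChannelSys 𝒦 κ b γ, S.Good R C K → ∀ x ∈ Ext R,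
      ‖S.f x‖ ≤ C₁ * (S.A x * |tz x|) ∧
      ‖dr S.f x + S.k • S.f x‖ ≤ C₁ * (S.A x * |tz x|) / ‖x‖ ∧
      ‖dr (dr S.f) x + (2 * S.k) • dr S.f x + S.k ^ 2 • S.f x‖ ≤ C₁ * (S.A x * |tz x|) / ‖x‖ := by
  refine ⟨11 * K, by positivity, fun S hS x hx => ?_⟩
  have hR0 : 0 ≤ R := by linarith
  have hx0 := ne_zero_of_mem_Ext hR0 hx
  have hr1 : 1 ≤ ‖x‖ := hR.trans (le_of_lt hx)
  have hr0 : 0 < ‖x‖ := by linarith
  obtain ⟨o1, -, -, o4, o5⟩ := hS.odd x hx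
  obtain ⟨hβ1, hβ2⟩ := S.beta_bounds
  have hfe : ∀ y ∈ Ext R, S.f y = radialA S.k S.β ‖y‖ • S.h y :=
    fun y hy => S.f_eq (ne_zero_of_mem_Ext hR0 hy)
  obtain ⟨t1, t2⟩ := dst_twist hR0 S.k S.β (ds1_f_smooth hR S hS).2 x hx
  rw [← dr_congr (dr_congr hfe) x hx, ← dr_congr hfe x hx, ← hfe x hx] at t2
  rw [← dr_congr hfe x hx, ← hfe x hx] at t1
  rw [t1, t2, hfe x hx]
  have hA : 0 ≤ S.A x := S.A_nonneg x
  change ‖S.A x • S.h x‖ ≤ _ ∧ ‖S.A x • _‖ ≤ _ ∧ ‖S.A x • _‖ ≤ _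
  simp only [norm_smul (S.A x), Real.norm_of_nonneg hA]
  obtain ⟨T, hT⟩ : ∃ T, T = |tz x| := ⟨_, rfl⟩
  have hT0 : 0 ≤ T := hT ▸ abs_nonneg _
  rw [← hT] at o1 o4 o5 ⊢
  have hKT : 0 ≤ K * T := by positivity
  have o4' : ‖dr S.h x‖ ≤ K * T / ‖x‖ := o4.trans (ds1_div_sq_le hKT hr1)
  have o5' : ‖dr (dr S.h) x‖ ≤ K * T / ‖x‖ := o5.trans (ds1_div_sq_le hKT hr1)
  have hq : 0 ≤ K * T / ‖x‖ := by positivity
  have hinv : 1 / ‖x‖ ≤ 1 := by rw [div_le_one hr0]; exact hr1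
  refine ⟨?_, ?_, ?_⟩
  · calc S.A x * ‖S.h x‖ ≤ S.A x * (K * T) := mul_le_mul_of_nonneg_left o1 hA
      _ ≤ 11 * K * (S.A x * T) := by nlinarith [mul_nonneg hA hKT]
  · have e1 : ‖(S.β / ‖x‖) • S.h x‖ ≤ 2 * (K * T / ‖x‖) := by
      rw [norm_smul, Real.norm_eq_abs, abs_div, abs_of_pos hr0]
      have : |S.β| ≤ 2 := abs_le.2 ⟨by linarith, hβ2⟩
      calc |S.β| / ‖x‖ * ‖S.h x‖ ≤ 2 / ‖x‖ * (K * T) := by gcongr
        _ = _ := by ring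
    calc S.A x * ‖(S.β / ‖x‖) • S.h x + dr S.h x‖
        ≤ S.A x * (2 * (K * T / ‖x‖) + K * T / ‖x‖) :=
          mul_le_mul_of_nonneg_left ((norm_add_le _ _).trans (add_le_add e1 o4')) hA
      _ = 3 * (S.A x * (K * T / ‖x‖)) := by ring
      _ ≤ 11 * (S.A x * (K * T / ‖x‖)) := by nlinarith [mul_nonneg hA hq]
      _ = _ := by ring
  · have e1 : ‖(2 * S.β / ‖x‖) • dr S.h x‖ ≤ 4 * (K * T / ‖x‖) := by
      rw [norm_smul, Real.norm_eq_abs, abs_div, abs_of_pos hr0, abs_mul, abs_two]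
      have : |S.β| ≤ 2 := abs_le.2 ⟨by linarith, hβ2⟩
      calc 2 * |S.β| / ‖x‖ * ‖dr S.h x‖ ≤ 2 * 2 / ‖x‖ * (K * T / ‖x‖) := by gcongr
        _ = 4 * (K * T / ‖x‖) * (1 / ‖x‖) := by ring
        _ ≤ 4 * (K * T / ‖x‖) * 1 := by gcongr
        _ = _ := by ring
    have e2 : ‖((S.β ^ 2 - S.β) / ‖x‖ ^ 2) • S.h x‖ ≤ 6 * (K * T / ‖x‖) := by
      rw [norm_smul, Real.norm_eq_abs, abs_div, abs_of_pos (by positivity : 0 < ‖x‖ ^ 2)]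
      have : |S.β ^ 2 - S.β| ≤ 6 := abs_le.2 ⟨by nlinarith, by nlinarith⟩
      calc |S.β ^ 2 - S.β| / ‖x‖ ^ 2 * ‖S.h x‖ ≤ 6 / ‖x‖ ^ 2 * (K * T) := by gcongr
        _ = 6 * (K * T / ‖x‖ ^ 2) := by ring
        _ ≤ _ := by have := ds1_div_sq_le hKT hr1; linarith
    calc S.A x * ‖dr (dr S.h) x + (2 * S.β / ‖x‖) • dr S.h x + ((S.β ^ 2 - S.β) / ‖x‖ ^ 2) • S.h x‖
        ≤ S.A x * (K * T / ‖x‖ + 4 * (K * T / ‖x‖) + 6 * (K * T / ‖x‖)) :=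
          mul_le_mul_of_nonneg_left ((norm_add₃_le).trans (add_le_add (add_le_add o5' e1) e2)) hA
      _ = _ := by ring

/-- `|h| ≥ |a₀| - K |t|/r ≥ (c₀ - K/r) |t|`; `R' = max R (2K/c₀)`. -/
theorem ds1_f_lower (κ : ChannelConsts) (b : Space → ℝ) (γ : ℝ) (R : ℝ) (C : ℕ → ℝ) (K : ℝ)
    (hR : 1 ≤ R) (hK : 0 ≤ K) {c₀ : ℝ} (hc₀ : 0 < c₀) :
    ∃ R' : ℝ, R ≤ R' ∧ ∀ S : ChannelSys 𝒦 κ b γ, S.Good R C K → S.SimpleZero c₀ → ∀ x ∈ Ext R',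
      c₀ / 2 * (S.A x * |tz x|) ≤ ‖S.f x‖ := by
  refine ⟨max R (2 * K / c₀), le_max_left _ _, fun S hS h₀ x hx => ?_⟩
  have hxR : x ∈ Ext R := Ext_mono (le_max_left _ _) hx
  have hR0 : 0 ≤ R := by linarith
  have hx0 := ne_zero_of_mem_Ext hR0 hxR
  have hr0 : 0 < ‖x‖ := norm_pos_iff.2 hx0
  have hrK : 2 * K / c₀ < ‖x‖ := lt_of_le_of_lt (le_max_right _ _) hx
  have hA : 0 ≤ S.A x := S.A_nonneg x
  have o2 := (hS.odd x hxR).2.1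
  have z := h₀ x (show (0 : ℝ) < ‖x‖ from hr0)
  have hT0 := abs_nonneg (tz x)
  have h1 : K * |tz x| / ‖x‖ ≤ c₀ / 2 * |tz x| := by
    rw [div_lt_iff₀ hc₀] at hrK
    rw [div_le_iff₀ hr0]
    nlinarith
  have h2 : ‖S.a₀ x‖ ≤ ‖S.h x‖ + ‖S.h x - S.a₀ x‖ := by
    have := norm_sub_le (S.h x) (S.h x - S.a₀ x); simpa using this
  have h3 : c₀ / 2 * |tz x| ≤ ‖S.h x‖ := by linarith
  rw [S.f_eq hx0, norm_smul, Real.norm_of_nonneg hA]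
  calc c₀ / 2 * (S.A x * |tz x|) = S.A x * (c₀ / 2 * |tz x|) := by ring
    _ ≤ _ := mul_le_mul_of_nonneg_left h3 hA


/-! ## Z (leaf DS1-Z): the explicit pieces `Z₀ = λ A r⁻⁴ T_eq` and `Z - Z₀ = -λ a' A r⁻² t² v₁` -/

/-- a radial profile times a function which is constant along rays. -/
theorem ds1_twist_const {V : Type*} [NormedAddCommGroup V] [NormedSpace ℝ V] {R : ℝ} (hR : 1 ≤ R)
    {k a : ℝ} (hk : 0 ≤ k) (hk2 : k ≤ 2) (ha : |a| ≤ 5) {u P : Space → V}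
    (hu : ContDiffOn ℝ ∞ u (Ext R)) (hdu : ∀ x ∈ Ext R, dr u x = 0)
    (hP : ∀ x ∈ Ext R, P x = radialA k a ‖x‖ • u x) :
    ∀ x ∈ Ext R, ‖dr P x‖ ≤ 62 * ‖P x‖ ∧ ‖dr (dr P) x‖ ≤ 62 * ‖P x‖ ∧
      ‖dr P x + k • P x‖ ≤ 62 * ‖P x‖ / ‖x‖ ∧
      ‖dr (dr P) x + (2 * k) • dr P x + k ^ 2 • P x‖ ≤ 62 * ‖P x‖ / ‖x‖ := by
  intro x hx
  have hR0 : 0 ≤ R := by linarith
  have hr1 : 1 ≤ ‖x‖ := hR.trans (le_of_lt hx)
  have hr0 : 0 < ‖x‖ := by linarith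
  obtain ⟨t1, t2⟩ := dst_twist hR0 k a hu x hx
  have hddu : dr (dr u) x = 0 := by
    rw [dr_congr (H' := fun _ => (0 : V)) hdu x hx]; simp [dr]
  rw [← dr_congr (dr_congr hP) x hx, ← dr_congr hP x hx, ← hP x hx, hddu, hdu x hx] at t2
  rw [← dr_congr hP x hx, ← hP x hx, hdu x hx] at t1
  have t1' : dr P x + k • P x = (a / ‖x‖) • P x := by
    rw [t1, hP x hx, add_zero, smul_comm]
  have t2' : dr (dr P) x + (2 * k) • dr P x + k ^ 2 • P x = ((a ^ 2 - a) / ‖x‖ ^ 2) • P x := by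
    rw [t2, hP x hx, smul_zero, zero_add, zero_add, smul_comm]
  obtain ⟨p, hp⟩ : ∃ p, p = ‖P x‖ := ⟨_, rfl⟩
  have hp0 : 0 ≤ p := hp ▸ norm_nonneg _
  have ha' := abs_le.1 ha
  have n1 : ‖dr P x + k • P x‖ ≤ 5 * p / ‖x‖ := by
    rw [t1', norm_smul, Real.norm_eq_abs, abs_div, abs_of_pos hr0, ← hp]
    calc |a| / ‖x‖ * p ≤ 5 / ‖x‖ * p := by gcongr
      _ = _ := by ring
  have n2 : ‖dr (dr P) x + (2 * k) • dr P x + k ^ 2 • P x‖ ≤ 30 * p / ‖x‖ := by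
    rw [t2', norm_smul, Real.norm_eq_abs, abs_div, abs_of_pos (by positivity : 0 < ‖x‖ ^ 2), ← hp]
    have : |a ^ 2 - a| ≤ 30 := abs_le.2 ⟨by nlinarith, by nlinarith⟩
    calc |a ^ 2 - a| / ‖x‖ ^ 2 * p ≤ 30 / ‖x‖ ^ 2 * p := by gcongr
      _ = 30 * p / ‖x‖ ^ 2 := by ring
      _ ≤ _ := ds1_div_sq_le (by positivity) hr1
  have hdiv : ∀ c : ℝ, 0 ≤ c → c * p / ‖x‖ ≤ c * p := fun c hc =>
    div_le_self (by positivity) hr1
  have n3 : ‖dr P x‖ ≤ 7 * p := by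
    have e : dr P x = (dr P x + k • P x) - k • P x := by abel
    have h1 : ‖k • P x‖ ≤ 2 * p := by
      rw [norm_smul, Real.norm_of_nonneg hk, ← hp]; gcongr
    rw [e]
    calc _ ≤ _ + _ := norm_sub_le _ _
      _ ≤ 5 * p + 2 * p := add_le_add (n1.trans (hdiv 5 (by norm_num))) h1
      _ = _ := by ring
  have n4 : ‖dr (dr P) x‖ ≤ 62 * p := by
    have e : dr (dr P) x = (dr (dr P) x + (2 * k) • dr P x + k ^ 2 • P x) - (2 * k) • dr P x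
        - k ^ 2 • P x := by abel
    have h1 : ‖(2 * k) • dr P x‖ ≤ 4 * (7 * p) := by
      rw [norm_smul, Real.norm_of_nonneg (by positivity)]
      exact mul_le_mul (by linarith) n3 (norm_nonneg _) (by norm_num)
    have h2 : ‖k ^ 2 • P x‖ ≤ 4 * p := by
      rw [norm_smul, Real.norm_of_nonneg (by positivity), ← hp]
      have : k ^ 2 ≤ 4 := by nlinarith
      gcongr
    rw [e]
    calc _ ≤ ‖dr (dr P) x + (2 * k) • dr P x + k ^ 2 • P x - (2 * k) • dr P x‖ + _ :=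
          norm_sub_le _ _
      _ ≤ ‖dr (dr P) x + (2 * k) • dr P x + k ^ 2 • P x‖ + ‖(2 * k) • dr P x‖ + ‖k ^ 2 • P x‖ :=
          add_le_add_left (norm_sub_le _ _) _
      _ ≤ 30 * p + 4 * (7 * p) + 4 * p :=
          add_le_add (add_le_add (n2.trans (hdiv 30 (by norm_num))) h1) h2
      _ = _ := by ring
  rw [← hp]
  refine ⟨n3.trans (by linarith), n4, n1.trans ?_, n2.trans ?_⟩ <;> gcongr <;> norm_num

theorem ds1_Z₀_smooth (S : ChannelSys 𝒦 κ b γ) : ContDiffOn ℝ ∞ S.Z₀ (Ext 0) := by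
  have h : ContDiffOn ℝ ∞ (fun x : Space => S.lam * S.A x * (‖x‖ ^ 4)⁻¹) (Ext 0) :=
    (contDiffOn_const.mul S.contDiffOn_A).mul
      (((contDiffOn_norm_Ext le_rfl).pow 4).inv fun x hx =>
        (pow_pos (norm_pos_of_mem_Ext le_rfl hx) 4).ne')
  exact h.smul contDiffOn_const

theorem ds1_Z₀ (κ : ChannelConsts) (b : Space → ℝ) (γ : ℝ) (R : ℝ) (C : ℕ → ℝ) (K : ℝ) (hR : 1 ≤ R)
    (hK : 0 ≤ K) :
    ∃ C₁ : ℝ, 0 ≤ C₁ ∧ ∀ S : ChannelSys 𝒦 κ b γ, S.Good R C K → ∀ x ∈ Ext R,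
      ‖S.Z₀ x‖ ≤ C₁ * (S.lam * S.A x * (‖x‖ ^ 4)⁻¹) ∧
      ‖dr S.Z₀ x‖ ≤ C₁ * (S.lam * S.A x * (‖x‖ ^ 4)⁻¹) ∧
      ‖dr (dr S.Z₀) x‖ ≤ C₁ * (S.lam * S.A x * (‖x‖ ^ 4)⁻¹) ∧
      ‖dr S.Z₀ x + S.k • S.Z₀ x‖ ≤ C₁ * (S.lam * S.A x * (‖x‖ ^ 4)⁻¹) / ‖x‖ ∧
      ‖dr (dr S.Z₀) x + (2 * S.k) • dr S.Z₀ x + S.k ^ 2 • S.Z₀ x‖
        ≤ C₁ * (S.lam * S.A x * (‖x‖ ^ 4)⁻¹) / ‖x‖ := by
  refine ⟨62 * K ^ 2, by positivity, fun S hS x hx => ?_⟩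
  have hR0 : 0 ≤ R := by linarith
  have hr0 : 0 < ‖x‖ := norm_pos_of_mem_Ext hR0 hx
  obtain ⟨hβ1, hβ2⟩ := S.beta_bounds
  have hP : ∀ y ∈ Ext R, S.Z₀ y = radialA S.k (S.β - (4 : ℕ)) ‖y‖ • (S.lam • S.Teq) := by
    intro y hy
    rw [← dst_radialA_div_pow _ _ _ (norm_pos_of_mem_Ext hR0 hy), smul_smul]
    unfold ChannelSys.Z₀ ChannelCore.A
    congr 1; ring
  obtain ⟨g1, g2, g3, g4⟩ := ds1_twist_const hR (by linarith [S.k_lo]) (by linarith [S.k_hi])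
    (a := S.β - (4 : ℕ)) (abs_le.2 ⟨by push_cast; linarith, by push_cast; linarith⟩)
    (u := fun _ => S.lam • S.Teq) contDiffOn_const (fun y _ => by simp [dr]) hP x hx
  obtain ⟨s, hs⟩ : ∃ s, s = S.lam * S.A x * (‖x‖ ^ 4)⁻¹ := ⟨_, rfl⟩
  have hs0 : 0 ≤ s := by
    rw [hs]; have := S.A_nonneg x; have := S.lam_nonneg; positivity
  have hT : ‖S.Teq‖ ≤ K ^ 2 := by
    rw [S.norm_Teq, sq]
    exact mul_le_mul hS.slope_le hS.v₂_le (norm_nonneg _) hK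
  have hZ : ‖S.Z₀ x‖ ≤ K ^ 2 * s := by
    unfold ChannelSys.Z₀
    rw [← hs, norm_smul, Real.norm_of_nonneg hs0, mul_comm]
    exact mul_le_mul_of_nonneg_right hT hs0
  rw [← hs]
  have h62 : 62 * ‖S.Z₀ x‖ ≤ 62 * K ^ 2 * s := by linarith
  have hKs : 0 ≤ K ^ 2 * s := by positivity
  refine ⟨by linarith, g1.trans h62, g2.trans h62, g3.trans ?_, g4.trans ?_⟩ <;> gcongr

theorem ds1_Zdiff (κ : ChannelConsts) (b : Space → ℝ) (γ : ℝ) (R : ℝ) (C : ℕ → ℝ) (K : ℝ)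
    (hR : 1 ≤ R) (hK : 0 ≤ K) :
    ∃ C₁ : ℝ, 0 ≤ C₁ ∧ ∀ S : ChannelSys 𝒦 κ b γ, S.Good R C K → ∀ x ∈ Ext R,
      ‖S.Z x - S.Z₀ x‖ ≤ C₁ * (S.lam * S.A x * (|tz x| / ‖x‖)) ∧
      ‖dr (fun y => S.Z y - S.Z₀ y) x‖ ≤ C₁ * (S.lam * S.A x * (|tz x| / ‖x‖)) ∧
      ‖dr (dr (fun y => S.Z y - S.Z₀ y)) x‖ ≤ C₁ * (S.lam * S.A x * (|tz x| / ‖x‖)) := by
  refine ⟨62 * K ^ 2, by positivity, fun S hS x hx => ?_⟩
  have hR0 : 0 ≤ R := by linarith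
  have hr0 : 0 < ‖x‖ := norm_pos_of_mem_Ext hR0 hx
  have hr1 : 1 ≤ ‖x‖ := hR.trans (le_of_lt hx)
  obtain ⟨hβ1, hβ2⟩ := S.beta_bounds
  obtain ⟨w, hw⟩ : ∃ w, w = -(S.slope • S.v₁) := ⟨_, rfl⟩
  have hP : ∀ y ∈ Ext R, (fun y => S.Z y - S.Z₀ y) y
      = radialA S.k (S.β - (2 : ℕ)) ‖y‖ • ((tz y • tz y) • (S.lam • w)) := by
    intro y hy
    have hy0 := norm_pos_of_mem_Ext hR0 hy
    simp only
    rw [S.Z_sub_Z₀, ← hw, ← dst_radialA_div_pow _ _ _ hy0, smul_smul, smul_smul]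
    unfold ChannelCore.A tz
    congr 1
    simp only [smul_eq_mul]
    field_simp
  have htz : ContDiffOn ℝ ∞ tz (Ext R) := dst_contDiffOn_tz.mono (Ext_mono hR0)
  have hdu : ∀ y ∈ Ext R, dr (fun y => (tz y • tz y) • (S.lam • w)) y = 0 := by
    intro y hy
    have hd := differentiableAt_of_mem_Ext htz hy
    have hd2 : DifferentiableAt ℝ (fun y => tz y • tz y) y := hd.smul hd
    rw [dst_dr_smul_vec hd2, dst_dr_smul hd hd, dst_dr_tz (ne_zero_of_mem_Ext hR0 hy)]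
    simp
  obtain ⟨g1, g2, -, -⟩ := ds1_twist_const hR (by linarith [S.k_lo]) (by linarith [S.k_hi])
    (a := S.β - (2 : ℕ)) (abs_le.2 ⟨by push_cast; linarith, by push_cast; linarith⟩)
    (u := fun y => (tz y • tz y) • (S.lam • w)) ((htz.smul htz).smul contDiffOn_const) hdu hP x hx
  obtain ⟨s, hs⟩ : ∃ s, s = S.lam * S.A x * (|tz x| / ‖x‖) := ⟨_, rfl⟩
  have hA := S.A_nonneg x
  have hl := S.lam_nonneg
  have hs0 : 0 ≤ s := by rw [hs]; positivity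
  have hwn : ‖w‖ ≤ K ^ 2 := by
    rw [hw, norm_neg, norm_smul, sq]
    exact mul_le_mul hS.slope_le hS.v₁_le (norm_nonneg _) hK
  have hD : ‖S.Z x - S.Z₀ x‖ ≤ K ^ 2 * s := by
    rw [S.Z_sub_Z₀, ← hw, norm_smul, Real.norm_of_nonneg (by positivity), mul_comm]
    refine mul_le_mul hwn ?_ (by positivity) (by positivity)
    rw [hs, mul_assoc (S.lam * S.A x)]
    refine mul_le_mul_of_nonneg_left ?_ (by positivity)
    have ht1 := dst_abs_tz_le_one x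
    have e : (‖x‖ ^ 4)⁻¹ * x 2 ^ 2 = |tz x| * |tz x| * (1 / ‖x‖) * (1 / ‖x‖) := by
      rw [abs_mul_abs_self]; unfold tz; field_simp
    have hinv : 1 / ‖x‖ ≤ 1 := by rw [div_le_one hr0]; exact hr1
    rw [e]
    calc |tz x| * |tz x| * (1 / ‖x‖) * (1 / ‖x‖) ≤ |tz x| * 1 * (1 / ‖x‖) * 1 := by gcongr
      _ = _ := by ring
  rw [← hs]
  have h62 : 62 * ‖S.Z x - S.Z₀ x‖ ≤ 62 * K ^ 2 * s := by linarith
  have hKs : 0 ≤ K ^ 2 * s := by positivity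
  exact ⟨by linarith, g1.trans h62, g2.trans h62⟩


/-! ## REM (leaf DS1-REM): the remainder -/

theorem ds1_dr_sub₂ {V : Type*} [NormedAddCommGroup V] [NormedSpace ℝ V] {R : ℝ} (hR : 0 ≤ R)
    {H H' : Space → V} (hH : ContDiffOn ℝ ∞ H (Ext R)) (hH' : ContDiffOn ℝ ∞ H' (Ext R)) :
    ∀ x ∈ Ext R, dr (fun y => H y - H' y) x = dr H x - dr H' x ∧
      dr (dr (fun y => H y - H' y)) x = dr (dr H) x - dr (dr H') x := by
  have h1 : ∀ x ∈ Ext R, dr (fun y => H y - H' y) x = dr H x - dr H' x := fun x hx =>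
    dst_dr_sub (differentiableAt_of_mem_Ext hH hx) (differentiableAt_of_mem_Ext hH' hx)
  intro x hx
  refine ⟨h1 x hx, ?_⟩
  rw [dr_congr h1 x hx]
  exact dst_dr_sub (differentiableAt_of_mem_Ext (contDiffOn_dr hR hH) hx)
    (differentiableAt_of_mem_Ext (contDiffOn_dr hR hH') hx)

theorem ds1_dr_add₂ {V : Type*} [NormedAddCommGroup V] [NormedSpace ℝ V] {R : ℝ} (hR : 0 ≤ R)
    {H H' : Space → V} (hH : ContDiffOn ℝ ∞ H (Ext R)) (hH' : ContDiffOn ℝ ∞ H' (Ext R)) :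
    ∀ x ∈ Ext R, dr (fun y => H y + H' y) x = dr H x + dr H' x ∧
      dr (dr (fun y => H y + H' y)) x = dr (dr H) x + dr (dr H') x := by
  have h1 : ∀ x ∈ Ext R, dr (fun y => H y + H' y) x = dr H x + dr H' x := fun x hx =>
    dst_dr_add (differentiableAt_of_mem_Ext hH hx) (differentiableAt_of_mem_Ext hH' hx)
  intro x hx
  refine ⟨h1 x hx, ?_⟩
  rw [dr_congr h1 x hx]
  exact dst_dr_add (differentiableAt_of_mem_Ext (contDiffOn_dr hR hH) hx)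
    (differentiableAt_of_mem_Ext (contDiffOn_dr hR hH') hx)

/-- radial derivatives from word bounds. -/
theorem ds1_radial_of_words {V : Type*} [NormedAddCommGroup V] [NormedSpace ℝ V] {R : ℝ}
    (hR : 0 ≤ R) {C : ℕ → ℝ} {g : Space → ℝ} {H : Space → V} (hH : WordBdd R C g H) :
    ∀ x ∈ Ext R, ‖H x‖ ≤ C 0 * g x ∧ ‖dr H x‖ ≤ 3 * (C 1 * g x) ∧
      ‖dr (dr H) x‖ ≤ 9 * (C 2 * g x) := by
  intro x hx
  refine ⟨hH.2 [] x hx, ?_, ?_⟩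
  · refine (dst_norm_dr_le_sum _ _).trans ?_
    calc _ ≤ ∑ _j : Fin 3, C 1 * g x := Finset.sum_le_sum fun j _ => hH.2 [Sum.inl j] x hx
      _ = _ := by simp
  · refine (dst_norm_dr_dr_le_sum (ne_zero_of_mem_Ext hR hx)
      (contDiffAt_two_of_mem_Ext hH.1 hx)).trans ?_
    calc _ ≤ ∑ _i : Fin 3, ∑ _j : Fin 3, C 2 * g x :=
          Finset.sum_le_sum fun i _ => Finset.sum_le_sum fun j _ =>
            hH.2 [Sum.inl i, Sum.inl j] x hx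
      _ = _ := by simp; ring

theorem ds1_rem_smooth {R : ℝ} {C : ℕ → ℝ} {K : ℝ} (hR : 1 ≤ R) (S : ChannelSys 𝒦 κ b γ)
    (hS : S.Good R C K) : ContDiffOn ℝ ∞ S.Rem (Ext R) := by
  have e : S.Rem = fun y => S.H y - S.Z₀ y := funext S.Rem_eq
  rw [e]
  exact hS.H_bdd.1.sub ((ds1_Z₀_smooth S).mono (Ext_mono (by linarith)))

set_option maxHeartbeats 1000000 in
theorem ds1_rem (κ : ChannelConsts) (b : Space → ℝ) (γ : ℝ) (R : ℝ) (C : ℕ → ℝ) (K : ℝ)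
    (hR : 1 ≤ R) (hC : ∀ n, 0 ≤ C n) (hK : 0 ≤ K) :
    ∃ C₁ : ℝ, 0 ≤ C₁ ∧ ∀ S : ChannelSys 𝒦 κ b γ, S.Good R C K → ∀ x ∈ Ext R,
      ‖S.Rem x‖ ≤ C₁ * S.remScale x ∧ ‖dr S.Rem x‖ ≤ C₁ * S.remScale x ∧
      ‖dr (dr S.Rem) x‖ ≤ C₁ * S.remScale x := by
  obtain ⟨CZ, hCZ, hZ⟩ := ds1_Z₀ (𝒦 := 𝒦) κ b γ R C K hR hK
  obtain ⟨CD, hCD, hD⟩ := ds1_Zdiff (𝒦 := 𝒦) κ b γ R C K hR hK
  have c0 := hC 0; have c1 := hC 1; have c2 := hC 2; have c3 := hC 3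
  obtain ⟨C', hC'⟩ : ∃ C', C' = C 0 + C 1 + C 2 + C 3 := ⟨_, rfl⟩
  have hC'0 : 0 ≤ C' := by rw [hC']; positivity
  refine ⟨27 * C' + CZ + 16 * K + CD, by positivity, fun S hS x hx => ?_⟩
  have hR0 : 0 ≤ R := by linarith
  have hr1 : 1 ≤ ‖x‖ := hR.trans (le_of_lt hx)
  have hr0 : 0 < ‖x‖ := by linarith
  have hx0 := ne_zero_of_mem_Ext hR0 hx
  have hA := S.A_nonneg x
  have hl := S.lam_nonneg
  have hZ₀s := (ds1_Z₀_smooth S).mono (Ext_mono hR0)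
  obtain ⟨s₁, hs₁⟩ : ∃ s₁, s₁ = S.lam * S.A x * (|tz x| / ‖x‖) := ⟨_, rfl⟩
  obtain ⟨s₂, hs₂⟩ : ∃ s₂, s₂ = S.lam * S.A x * ‖x‖ ^ (-(17 / 4) : ℝ) := ⟨_, rfl⟩
  have hs₁0 : 0 ≤ s₁ := by rw [hs₁]; positivity
  have hs₂0 : 0 ≤ s₂ := by rw [hs₂]; positivity
  have hsc : S.remScale x = s₁ + s₂ := by rw [hs₁, hs₂]; unfold ChannelSys.remScale; ring
  rw [hsc]
  obtain ⟨g, hg⟩ : ∃ g, g = S.lam * S.A x * (‖x‖ ^ 2)⁻¹ := ⟨_, rfl⟩
  have hg0 : 0 ≤ g := by rw [hg]; positivity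
  have hlA : 0 ≤ S.lam * S.A x := by positivity
  rcases le_total 1 |x 2| with hz | hz
  · -- far from the plane
    have hgs : g ≤ s₁ := by
      rw [hg, hs₁]
      refine mul_le_mul_of_nonneg_left ?_ hlA
      have : |tz x| / ‖x‖ = |x 2| * (‖x‖ ^ 2)⁻¹ := by
        unfold tz; rw [abs_div, abs_of_pos hr0]; field_simp
      rw [this]
      exact le_mul_of_one_le_left (by positivity) hz
    have hg4 : S.lam * S.A x * (‖x‖ ^ 4)⁻¹ ≤ s₁ := by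
      refine le_trans ?_ hgs
      rw [hg]
      refine mul_le_mul_of_nonneg_left ?_ hlA
      exact inv_anti₀ (by positivity) (pow_le_pow_right₀ hr1 (by norm_num))
    obtain ⟨w0, w1, w2⟩ := ds1_radial_of_words hR0 hS.H_bdd x hx
    rw [← hg] at w0 w1 w2
    obtain ⟨z0, z1, z2, -, -⟩ := hZ S hS x hx
    obtain ⟨d1, d2⟩ := ds1_dr_sub₂ hR0 hS.H_bdd.1 hZ₀s x hx
    have e : S.Rem = fun y => S.H y - S.Z₀ y := funext S.Rem_eq
    rw [e, d1, d2]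
    have zz : CZ * (S.lam * S.A x * (‖x‖ ^ 4)⁻¹) ≤ CZ * s₁ := mul_le_mul_of_nonneg_left hg4 hCZ
    have q0 : C 0 * g ≤ C' * s₁ := mul_le_mul (by rw [hC']; linarith) hgs hg0 hC'0
    have q1 : C 1 * g ≤ C' * s₁ := mul_le_mul (by rw [hC']; linarith) hgs hg0 hC'0
    have q2 : C 2 * g ≤ C' * s₁ := mul_le_mul (by rw [hC']; linarith) hgs hg0 hC'0
    have p1 : 0 ≤ C' * s₁ := by positivity
    have p2 : 0 ≤ (27 * C' + CZ + 16 * K + CD) * s₂ := by positivity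
    have p3 : 0 ≤ (16 * K + CD) * s₁ := by positivity
    refine ⟨(norm_sub_le _ _).trans ?_, (norm_sub_le _ _).trans ?_, (norm_sub_le _ _).trans ?_⟩ <;>
      linarith
  · -- near the plane
    have hM : ∀ w : List (Fin 3 ⊕ Fin 3), w.length ≤ 3 → ∀ y ∈ Ext R, ‖dword w S.Hodd y‖
        ≤ (fun ρ => C' * (S.lam * radialA S.k S.β ρ * (ρ ^ 2)⁻¹)) ‖y‖ := by
      intro w hw y hy
      refine (hS.Hodd_bdd.2 w y hy).trans ?_
      refine mul_le_mul_of_nonneg_right ?_ (by have := S.A_nonneg y; positivity)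
      have hlen : w.length = 0 ∨ w.length = 1 ∨ w.length = 2 ∨ w.length = 3 := by omega
      rcases hlen with h | h | h | h <;> rw [h, hC'] <;> linarith
    obtain ⟨o0, o1, o2⟩ := dst_odd_radial hR0 hS.Hodd_bdd.1 (fun y _ => S.Hodd_odd y)
      (M := fun ρ => C' * (S.lam * radialA S.k S.β ρ * (ρ ^ 2)⁻¹)) hM x hx
    have hMs : 27 * (C' * (S.lam * radialA S.k S.β ‖x‖ * (‖x‖ ^ 2)⁻¹)) * |tz x| ≤ 27 * C' * s₁ := by
      have : S.lam * radialA S.k S.β ‖x‖ * (‖x‖ ^ 2)⁻¹ * |tz x| ≤ s₁ := by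
        rw [hs₁, mul_assoc (S.lam * radialA S.k S.β ‖x‖)]
        refine mul_le_mul_of_nonneg_left ?_ hlA
        rw [div_eq_mul_inv, mul_comm]
        refine mul_le_mul_of_nonneg_left ?_ (abs_nonneg _)
        exact inv_anti₀ hr0 (by nlinarith)
      calc _ = 27 * C' * (S.lam * radialA S.k S.β ‖x‖ * (‖x‖ ^ 2)⁻¹ * |tz x|) := by ring
        _ ≤ _ := mul_le_mul_of_nonneg_left this (by positivity)
    have hz2 : x 2 ^ 4 ≤ 1 := by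
      have : |x 2| ^ 4 ≤ 1 := pow_le_one₀ (abs_nonneg _) hz
      have e : x 2 ^ 4 = |x 2| ^ 4 := by rw [← abs_pow, abs_of_nonneg (by positivity)]
      rw [e]; exact this
    have hz4 : (1 + |x 2|) ^ 4 ≤ 16 := by
      calc (1 + |x 2|) ^ 4 ≤ (1 + 1) ^ 4 := by gcongr
        _ = 16 := by norm_num
    have e0 : ‖S.E x‖ ≤ 16 * K * s₂ := by
      refine (hS.E₀ x hx).trans ?_
      have h5 : (‖x‖ ^ 5)⁻¹ ≤ ‖x‖ ^ (-(17 / 4) : ℝ) := by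
        rw [← Real.rpow_natCast, ← Real.rpow_neg hr0.le]
        exact Real.rpow_le_rpow_of_exponent_le hr1 (by norm_num)
      calc K * S.lam * S.A x * (‖x‖ ^ 5)⁻¹ * (1 + x 2 ^ 4)
          ≤ K * S.lam * S.A x * ‖x‖ ^ (-(17 / 4) : ℝ) * (1 + 1) := by gcongr
        _ = 2 * K * s₂ := by rw [hs₂]; ring
        _ ≤ _ := by nlinarith [mul_nonneg hK hs₂0]
    have e1 : ‖dr S.E x‖ ≤ 16 * K * s₂ := by
      refine (dst_norm_dr_le _ hx0).trans ((hS.E₁ x hx).trans ?_)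
      calc K * S.lam * S.A x * ‖x‖ ^ (-(17 / 4) : ℝ) * (1 + |x 2|) ^ 4
          ≤ K * S.lam * S.A x * ‖x‖ ^ (-(17 / 4) : ℝ) * 16 := by gcongr
        _ = _ := by rw [hs₂]; ring
    have e2 : ‖dr (dr S.E) x‖ ≤ 16 * K * s₂ := by
      refine (dst_norm_dr_dr_le hx0 (contDiffAt_two_of_mem_Ext hS.E_bdd.1 hx)).trans
        ((hS.E₂ x hx).trans ?_)
      calc K * S.lam * S.A x * ‖x‖ ^ (-(17 / 4) : ℝ) * (1 + |x 2|) ^ 4
          ≤ K * S.lam * S.A x * ‖x‖ ^ (-(17 / 4) : ℝ) * 16 := by gcongr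
        _ = _ := by rw [hs₂]; ring
    obtain ⟨D0, D1, D2⟩ := hD S hS x hx
    rw [← hs₁] at D0 D1 D2
    have hDs : ContDiffOn ℝ ∞ (fun y => S.Z y - S.Z₀ y) (Ext R) := hS.Z_bdd.1.sub hZ₀s
    have hHE : ContDiffOn ℝ ∞ (fun y => S.Hodd y + S.E y) (Ext R) :=
      hS.Hodd_bdd.1.add hS.E_bdd.1
    obtain ⟨a1, a2⟩ := ds1_dr_add₂ hR0 hS.Hodd_bdd.1 hS.E_bdd.1 x hx
    obtain ⟨b1, b2⟩ := ds1_dr_add₂ hR0 hHE hDs x hx
    have e : S.Rem = fun y => (S.Hodd y + S.E y) + (S.Z y - S.Z₀ y) := funext S.Rem_eq'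
    rw [e, b1, b2, a1, a2]
    have p1 : 0 ≤ (CZ + 16 * K) * s₁ := by positivity
    have p2 : 0 ≤ (27 * C' + CZ + CD) * s₂ := by positivity
    refine ⟨(norm_add₃_le).trans ?_, (norm_add₃_le).trans ?_, (norm_add₃_le).trans ?_⟩ <;>
      linarith

end Claimed.Open.R278
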