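import Claimed.Open.R278.DS1Glue

/-!
# Result 278, layer DS, file DS1Rad: radial relative derivatives (3.42) (glue)

Sub-captain helper88.  Proved from the leaves of `DS1Tools.lean`, `DS1Parts.lean`.
-/

open MeasureTheory Filter
open scoped ContDiff InnerProductSpace ComplexConjugate ENNReal Topology Laplacian

noncomputable section

namespace Claimed.Open.R278

variable {𝒦 : Type} [NormedAddCommGroup 𝒦] [InnerProductSpace ℂ 𝒦] [CompleteSpace 𝒦]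
variable {κ : ChannelConsts} {b : Space → ℝ} {γ : ℝ}

set_option linter.unusedSectionVars false

/-- `1/r ≤ r^{-1/4} ≤ 1` for `r ≥ 1`. -/
theorem ds1_rho_facts {r : ℝ} (hr : 1 ≤ r) :
    0 ≤ r ^ (-(1 / 4) : ℝ) ∧ r ^ (-(1 / 4) : ℝ) ≤ 1 ∧ r⁻¹ ≤ r ^ (-(1 / 4) : ℝ) := by
  refine ⟨Real.rpow_nonneg (by linarith) _, Real.rpow_le_one_of_one_le_of_nonpos hr (by norm_num), ?_⟩
  rw [← Real.rpow_neg_one]
  exact Real.rpow_le_rpow_of_exponent_le hr (by norm_num)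

theorem ds1_sqrt_two_le : √2 ≤ (2 : ℝ) := by
  rw [show (2 : ℝ) = √4 by rw [show (4 : ℝ) = 2 ^ 2 by norm_num]; simp]
  exact Real.sqrt_le_sqrt (by norm_num)

/-- algebra of the first order decomposition. -/
theorem ds1_alg₁ (φ G Z Rm dZ dRm : 𝒦) (f df : ℂ) (β dβ k γ : ℝ) :
    (df • φ + dβ • G + dZ + dRm) + k • (f • φ + β • G + Z + Rm) - ((k - γ) * β) • G
      = (df + k • f) • φ + (dβ + γ * β) • G + (dZ + k • Z) + (dRm + k • Rm) := by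
  simp only [add_smul, smul_add, sub_smul, mul_smul, smul_assoc]
  abel

/-- algebra of the second order decomposition. -/
theorem ds1_alg₂ (φ G Z Rm dZ dRm ddZ ddRm : 𝒦) (f df ddf : ℂ) (β dβ ddβ k γ : ℝ) :
    (ddf • φ + ddβ • G + ddZ + ddRm) + (2 * k) • (df • φ + dβ • G + dZ + dRm)
        + k ^ 2 • (f • φ + β • G + Z + Rm) - ((k - γ) ^ 2 * β) • G
      = (ddf + (2 * k) • df + k ^ 2 • f) • φ
        + ((ddβ + 2 * γ * dβ + γ ^ 2 * β) + 2 * (k - γ) * (dβ + γ * β)) • G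
        + (ddZ + (2 * k) • dZ + k ^ 2 • Z) + (ddRm + (2 * k) • dRm + k ^ 2 • Rm) := by
  have e : ((ddβ + 2 * γ * dβ + γ ^ 2 * β) + 2 * (k - γ) * (dβ + γ * β)) • G
      = ddβ • G + (2 * k) • (dβ • G) + k ^ 2 • (β • G) - ((k - γ) ^ 2 * β) • G := by
    simp only [smul_smul, ← add_smul, ← sub_smul]; congr 1; ring
  rw [e]
  simp only [add_smul, smul_add, smul_assoc]
  abel

set_option maxHeartbeats 1000000 in
/-- **(3.42)** for good systems, with the rate `r^{-1/4}`. -/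
theorem ds1_radial (κ : ChannelConsts) (b : Space → ℝ) (γ : ℝ) (Cb : ℕ → ℝ) (cb : ℝ)
    (hb : FastOrbital b γ κ.R₁ Cb cb) (R : ℝ) (C : ℕ → ℝ) (K : ℝ) (hRκ : κ.R₁ ≤ R)
    (hC : ∀ n, 0 ≤ C n) (hK : 0 ≤ K) :
    ∃ C' : ℝ, 0 ≤ C' ∧ ∀ S : ChannelSys 𝒦 κ b γ, S.Good R C K → ∀ x ∈ Ext R,
      ‖dr S.F x + S.k • S.F x - ((S.k - γ) * b x) • S.G‖
        ≤ C' * (‖x‖ ^ (-(1 / 4) : ℝ) * S.scale x) ∧
      ‖dr (dr S.F) x + (2 * S.k) • dr S.F x + S.k ^ 2 • S.F x - ((S.k - γ) ^ 2 * b x) • S.G‖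
        ≤ C' * (‖x‖ ^ (-(1 / 4) : ℝ) * S.scale x) := by
  have hR : 1 ≤ R := (ds1_one_le_R₁ κ).trans hRκ
  obtain ⟨Cf, hCf0, hf⟩ := ds1_f (𝒦 := 𝒦) κ b γ R C K hR hK
  obtain ⟨CZ, hCZ0, hZ⟩ := ds1_Z₀ (𝒦 := 𝒦) κ b γ R C K hR hK
  obtain ⟨CR, hCR0, hRem⟩ := ds1_rem (𝒦 := 𝒦) κ b γ R C K hR hC hK
  obtain ⟨Γ, hΓ⟩ : ∃ Γ, Γ = |γ| + 2 := ⟨_, rfl⟩
  have hΓ0 : 0 ≤ Γ := by rw [hΓ]; positivity
  refine ⟨Cf + 2 * (|Cb 2| + 2 * Γ * |Cb 1| + |Cb 1|) + CZ + 9 * CR, by positivity, ?_⟩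
  intro S hS x hx
  have hxκ : x ∈ Ext κ.R₁ := Ext_mono hRκ hx
  have hr1 : 1 ≤ ‖x‖ := hR.trans (le_of_lt hx)
  have hr0 : 0 < ‖x‖ := by linarith
  obtain ⟨ρ0, ρ1, ρ2⟩ := ds1_rho_facts hr1
  obtain ⟨ρ, hρ⟩ : ∃ ρ, ρ = ‖x‖ ^ (-(1 / 4) : ℝ) := ⟨_, rfl⟩
  rw [← hρ] at ρ0 ρ1 ρ2 ⊢
  obtain ⟨t1, t2, t3, s1, s2, s3⟩ := S.scale_terms hb hxκ
  have hsc : 0 ≤ S.scale x := S.scale_nonneg hb hxκ
  obtain ⟨sc, hscdef⟩ : ∃ sc, sc = S.scale x := ⟨_, rfl⟩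
  rw [← hscdef] at s1 s2 s3 hsc ⊢
  have hk0 : 0 ≤ S.k := by linarith [S.k_lo]
  have hk2 : S.k ≤ 2 := by linarith [S.k_hi]
  have hkγ : |S.k - γ| ≤ Γ := by
    rw [hΓ]; calc |S.k - γ| ≤ |S.k| + |γ| := abs_sub _ _
      _ ≤ |γ| + 2 := by rw [abs_of_nonneg hk0]; linarith
  obtain ⟨hd1, hd2⟩ := ds1_dr_F hR hRκ hb S hS x hx
  obtain ⟨hf0, hf1, hf2⟩ := hf S hS x hx
  obtain ⟨hZ0, hZ1, hZ2, hZ3, hZ4⟩ := hZ S hS x hx
  obtain ⟨hR0, hR1, hR2⟩ := hRem S hS x hx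
  have hrs : S.remScale x ≤ ρ * sc := by rw [hρ, hscdef]; exact S.remScale_le hb hxκ
  have hρsc : 0 ≤ ρ * sc := mul_nonneg ρ0 hsc
  -- division by r
  have hdiv : ∀ a : ℝ, 0 ≤ a → a ≤ sc → a / ‖x‖ ≤ ρ * sc := by
    intro a ha ha'
    rw [div_eq_mul_inv, mul_comm]
    exact mul_le_mul ρ2 ha' ha ρ0
  have hb1 : |dr b x + γ * b x| ≤ |Cb 1| * (ρ * sc) := by
    refine (hb.radial₁ x hxκ).trans ?_
    rw [mul_div_assoc]
    exact (mul_le_mul_of_nonneg_right (le_abs_self _) (div_nonneg t2 hr0.le)).trans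
      (mul_le_mul_of_nonneg_left (hdiv _ t2 s2) (abs_nonneg _))
  have hb2 : |dr (dr b) x + 2 * γ * dr b x + γ ^ 2 * b x| ≤ |Cb 2| * (ρ * sc) := by
    refine (hb.radial₂ x hxκ).trans ?_
    rw [mul_div_assoc]
    exact (mul_le_mul_of_nonneg_right (le_abs_self _) (div_nonneg t2 hr0.le)).trans
      (mul_le_mul_of_nonneg_left (hdiv _ t2 s2) (abs_nonneg _))
  have hGn : ‖S.G‖ ≤ 2 := by rw [S.norm_G]; exact ds1_sqrt_two_le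
  have hf1' : ‖dr S.f x + S.k • S.f x‖ ≤ Cf * (ρ * sc) := by
    refine hf1.trans ?_; rw [mul_div_assoc]
    exact mul_le_mul_of_nonneg_left (hdiv _ t1 s1) hCf0
  have hf2' : ‖dr (dr S.f) x + (2 * S.k) • dr S.f x + S.k ^ 2 • S.f x‖ ≤ Cf * (ρ * sc) := by
    refine hf2.trans ?_; rw [mul_div_assoc]
    exact mul_le_mul_of_nonneg_left (hdiv _ t1 s1) hCf0
  have hZ3' : ‖dr S.Z₀ x + S.k • S.Z₀ x‖ ≤ CZ * (ρ * sc) := by
    refine hZ3.trans ?_; rw [mul_div_assoc]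
    exact mul_le_mul_of_nonneg_left (hdiv _ t3 s3) hCZ0
  have hZ4' : ‖dr (dr S.Z₀) x + (2 * S.k) • dr S.Z₀ x + S.k ^ 2 • S.Z₀ x‖ ≤ CZ * (ρ * sc) := by
    refine hZ4.trans ?_; rw [mul_div_assoc]
    exact mul_le_mul_of_nonneg_left (hdiv _ t3 s3) hCZ0
  have hRb : CR * S.remScale x ≤ CR * (ρ * sc) := mul_le_mul_of_nonneg_left hrs hCR0
  have hRm1 : ‖dr S.Rem x + S.k • S.Rem x‖ ≤ 3 * CR * (ρ * sc) := by
    refine (norm_add_le _ _).trans ?_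
    rw [norm_smul, Real.norm_of_nonneg hk0]
    have : S.k * ‖S.Rem x‖ ≤ 2 * (CR * (ρ * sc)) :=
      mul_le_mul hk2 (hR0.trans hRb) (norm_nonneg _) (by norm_num)
    linarith [hR1.trans hRb]
  have hRm2 : ‖dr (dr S.Rem) x + (2 * S.k) • dr S.Rem x + S.k ^ 2 • S.Rem x‖
      ≤ 9 * CR * (ρ * sc) := by
    have h0 := norm_add_le (dr (dr S.Rem) x + (2 * S.k) • dr S.Rem x) (S.k ^ 2 • S.Rem x)
    have h1 := norm_add_le (dr (dr S.Rem) x) ((2 * S.k) • dr S.Rem x)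
    have e1 : ‖(2 * S.k) • dr S.Rem x‖ = 2 * S.k * ‖dr S.Rem x‖ := by
      rw [norm_smul, Real.norm_of_nonneg (by positivity : (0:ℝ) ≤ 2 * S.k)]
    have e2 : ‖S.k ^ 2 • S.Rem x‖ = S.k ^ 2 * ‖S.Rem x‖ := by
      rw [norm_smul, Real.norm_of_nonneg (by positivity : (0:ℝ) ≤ S.k ^ 2)]
    have a1 : 2 * S.k * ‖dr S.Rem x‖ ≤ 4 * (CR * (ρ * sc)) :=
      mul_le_mul (by linarith) (hR1.trans hRb) (norm_nonneg _) (by norm_num)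
    have a2 : S.k ^ 2 * ‖S.Rem x‖ ≤ 4 * (CR * (ρ * sc)) :=
      mul_le_mul (by nlinarith) (hR0.trans hRb) (norm_nonneg _) (by norm_num)
    linarith [hR2.trans hRb]
  have hφ : ∀ c : ℂ, ‖c • S.φ‖ = ‖c‖ := fun c => by rw [norm_smul, S.φ_norm, mul_one]
  have hGs : ∀ c : ℝ, ‖c • S.G‖ ≤ 2 * |c| := fun c => by
    rw [norm_smul, Real.norm_eq_abs]; nlinarith [abs_nonneg c]
  have hCb1 := abs_nonneg (Cb 1)
  have hCb2 := abs_nonneg (Cb 2)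
  constructor
  · rw [hd1]
    conv_lhs => rw [S.F_eq x]
    rw [ds1_alg₁]
    have n1 := norm_add_le ((dr S.f x + S.k • S.f x) • S.φ + (dr b x + γ * b x) • S.G
      + (dr S.Z₀ x + S.k • S.Z₀ x)) (dr S.Rem x + S.k • S.Rem x)
    have n2 := norm_add_le ((dr S.f x + S.k • S.f x) • S.φ + (dr b x + γ * b x) • S.G)
      (dr S.Z₀ x + S.k • S.Z₀ x)
    have n3 := norm_add_le ((dr S.f x + S.k • S.f x) • S.φ) ((dr b x + γ * b x) • S.G)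
    rw [hφ] at n3
    have n4 := hGs (dr b x + γ * b x)
    have p1 : 0 ≤ |Cb 2| * (ρ * sc) := by positivity
    have p3 : 0 ≤ Γ * (|Cb 1| * (ρ * sc)) := by positivity
    have p2 : 0 ≤ CR * (ρ * sc) := by positivity
    have e : (Cf + 2 * (|Cb 2| + 2 * Γ * |Cb 1| + |Cb 1|) + CZ + 9 * CR) * (ρ * sc)
        = Cf * (ρ * sc) + 2 * (|Cb 2| * (ρ * sc)) + 4 * (Γ * (|Cb 1| * (ρ * sc)))
          + 2 * (|Cb 1| * (ρ * sc)) + CZ * (ρ * sc) + 9 * (CR * (ρ * sc)) := by ring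
    rw [e]
    linarith
  · rw [hd2, hd1]
    conv_lhs => rw [S.F_eq x]
    rw [ds1_alg₂]
    have n1 := norm_add_le ((dr (dr S.f) x + (2 * S.k) • dr S.f x + S.k ^ 2 • S.f x) • S.φ
      + ((dr (dr b) x + 2 * γ * dr b x + γ ^ 2 * b x) + 2 * (S.k - γ) * (dr b x + γ * b x)) • S.G
      + (dr (dr S.Z₀) x + (2 * S.k) • dr S.Z₀ x + S.k ^ 2 • S.Z₀ x))
      (dr (dr S.Rem) x + (2 * S.k) • dr S.Rem x + S.k ^ 2 • S.Rem x)
    have n2 := norm_add_le ((dr (dr S.f) x + (2 * S.k) • dr S.f x + S.k ^ 2 • S.f x) • S.φ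
      + ((dr (dr b) x + 2 * γ * dr b x + γ ^ 2 * b x) + 2 * (S.k - γ) * (dr b x + γ * b x)) • S.G)
      (dr (dr S.Z₀) x + (2 * S.k) • dr S.Z₀ x + S.k ^ 2 • S.Z₀ x)
    have n3 := norm_add_le ((dr (dr S.f) x + (2 * S.k) • dr S.f x + S.k ^ 2 • S.f x) • S.φ)
      (((dr (dr b) x + 2 * γ * dr b x + γ ^ 2 * b x) + 2 * (S.k - γ) * (dr b x + γ * b x)) • S.G)
    rw [hφ] at n3
    have n4 := hGs ((dr (dr b) x + 2 * γ * dr b x + γ ^ 2 * b x)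
      + 2 * (S.k - γ) * (dr b x + γ * b x))
    have n5 : |(dr (dr b) x + 2 * γ * dr b x + γ ^ 2 * b x) + 2 * (S.k - γ) * (dr b x + γ * b x)|
        ≤ |Cb 2| * (ρ * sc) + 2 * Γ * (|Cb 1| * (ρ * sc)) := by
      refine (abs_add_le _ _).trans (add_le_add hb2 ?_)
      rw [abs_mul, abs_mul, abs_of_nonneg (by norm_num : (0:ℝ) ≤ 2)]
      exact mul_le_mul (by linarith) hb1 (abs_nonneg _) (by positivity)
    have p1 : 0 ≤ |Cb 1| * (ρ * sc) := by positivity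
    have e : (Cf + 2 * (|Cb 2| + 2 * Γ * |Cb 1| + |Cb 1|) + CZ + 9 * CR) * (ρ * sc)
        = Cf * (ρ * sc) + 2 * (|Cb 2| * (ρ * sc)) + 4 * (Γ * (|Cb 1| * (ρ * sc)))
          + 2 * (|Cb 1| * (ρ * sc)) + CZ * (ρ * sc) + 9 * (CR * (ρ * sc)) := by ring
    rw [e]
    linarith

end Claimed.Open.R278
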