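import Claimed.Open.R278.DSDefs

/-!
# Result 278, layer DS, file DS1Tools: paper-free calculus tools (no channel system)

Sub-captain helper88.  SORRY-FREE (all three leaves proved).  Three leaves, one per section: `DS1-TA` (radial derivative `dr`), `DS1-TB`
(reflection parity of words), `DS1-TC` (radial profiles, the twisting lemma, strip geometry).
NO PAPER READING.  Conventions of `CHDefs.lean`: `Space = ℝ³`, `Ext R = {R < |x|}` (open),
`dfield a H x = DH(x)[X_a(x)]`, `dr H x = DH(x)[x/|x|]`, `tz x = x 2 / |x|`,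
`radialA k a r = e^{-kr} r^a`.  The lemmas of `CHTools.lean` (CHTA1, CHTA2, CHTB, CHTE, ...) may be cited
even while they are still sorried.  You may add auxiliary lemmas (prefix `dst_`); change a statement
only after telling helper88.
-/

open MeasureTheory Filter
open scoped ContDiff InnerProductSpace ComplexConjugate ENNReal Topology Laplacian

noncomputable section

namespace Claimed.Open.R278

/-! ## TA. The radial derivative (leaf DS1-TA) -/

section TA
variable {V V' : Type*} [NormedAddCommGroup V] [NormedSpace ℝ V]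
  [NormedAddCommGroup V'] [NormedSpace ℝ V']

theorem dst_ne_zero {R : ℝ} (hR : 0 ≤ R) {x : Space} (hx : x ∈ Ext R) : x ≠ 0 :=
  ne_zero_of_mem_Ext hR hx

theorem dst_norm_pos {R : ℝ} (hR : 0 ≤ R) {x : Space} (hx : x ∈ Ext R) : 0 < ‖x‖ :=
  norm_pos_of_mem_Ext hR hx

theorem dst_dr_add {H H' : Space → V} {x : Space} (hH : DifferentiableAt ℝ H x)
    (hH' : DifferentiableAt ℝ H' x) : dr (fun y => H y + H' y) x = dr H x + dr H' x := by
  simp only [dr]
  rw [fderiv_fun_add hH hH']; rfl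

theorem dst_dr_sub {H H' : Space → V} {x : Space} (hH : DifferentiableAt ℝ H x)
    (hH' : DifferentiableAt ℝ H' x) : dr (fun y => H y - H' y) x = dr H x - dr H' x := by
  simp only [dr]
  rw [fderiv_fun_sub hH hH']; rfl

theorem dst_dr_clm {H : Space → V} {x : Space} (hH : DifferentiableAt ℝ H x) (L : V →L[ℝ] V') :
    dr (fun y => L (H y)) x = L (dr H x) := by
  simp only [dr]
  have : fderiv ℝ (fun y => L (H y)) x = L.comp (fderiv ℝ H x) :=
    (L.hasFDerivAt.comp x hH.hasFDerivAt).fderiv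
  rw [this]; rfl

theorem dst_dr_smul {σ : Space → ℝ} {H : Space → V} {x : Space} (hσ : DifferentiableAt ℝ σ x)
    (hH : DifferentiableAt ℝ H x) :
    dr (fun y => σ y • H y) x = dr σ x • H x + σ x • dr H x := by
  simp only [dr]
  rw [fderiv_fun_smul hσ hH]
  generalize ‖x‖⁻¹ • x = u
  simp [add_comm]

theorem dst_dr_smul_vec {σ : Space → ℝ} {x : Space} (hσ : DifferentiableAt ℝ σ x) (v : V) :
    dr (fun y => σ y • v) x = dr σ x • v := by
  rw [dst_dr_smul hσ (differentiableAt_const v)]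
  simp [dr]

theorem dst_dr_smulC_vec {𝒦 : Type*} [NormedAddCommGroup 𝒦] [NormedSpace ℂ 𝒦] {σ : Space → ℂ}
    {x : Space} (hσ : DifferentiableAt ℝ σ x) (v : 𝒦) :
    dr (fun y => σ y • v) x = dr σ x • v := by
  simp only [dr]
  rw [(hσ.hasFDerivAt.smul_const v).fderiv]; rfl

/-- `dr` only depends on the germ. -/
theorem dst_dr_congr {R : ℝ} {H H' : Space → V} (h : ∀ x ∈ Ext R, H x = H' x) :
    ∀ x ∈ Ext R, dr H x = dr H' x := dr_congr h

theorem dst_dr_radial {ρ : ℝ → ℝ} {x : Space} (hx : x ≠ 0) (hρ : DifferentiableAt ℝ ρ ‖x‖) :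
    dr (fun y => ρ ‖y‖) x = deriv ρ ‖x‖ := by
  have h := hρ.hasDerivAt.comp_hasFDerivAt x (hasFDerivAt_norm_space hx)
  simp only [dr]
  have e : (fun y : Space => ρ ‖y‖) = ρ ∘ fun y : Space => ‖y‖ := rfl
  rw [e, h.fderiv]
  have hn : ‖x‖ ≠ 0 := norm_ne_zero_iff.2 hx
  simp only [_root_.smul_apply, innerSL_apply_apply, inner_smul_right, real_inner_self_eq_norm_sq,
    smul_eq_mul]
  field_simp

theorem dst_norm_urad {x : Space} (hx : x ≠ 0) : ‖‖x‖⁻¹ • x‖ = 1 := by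
  rw [norm_smul, norm_inv, norm_norm, inv_mul_cancel₀ (norm_ne_zero_iff.2 hx)]

theorem dst_norm_dr_le (H : Space → V) {x : Space} (hx : x ≠ 0) : ‖dr H x‖ ≤ ‖fderiv ℝ H x‖ := by
  have := (fderiv ℝ H x).le_opNorm (‖x‖⁻¹ • x)
  rwa [dst_norm_urad hx, mul_one] at this

theorem dst_dr_dr_eq {H : Space → V} {x : Space} (hx : x ≠ 0) (hH : ContDiffAt ℝ 2 H x) :
    dr (dr H) x = fderiv ℝ (fderiv ℝ H) x (‖x‖⁻¹ • x) (‖x‖⁻¹ • x) := dr_dr_eq hx hH

theorem dst_norm_dr_dr_le {H : Space → V} {x : Space} (hx : x ≠ 0) (hH : ContDiffAt ℝ 2 H x) :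
    ‖dr (dr H) x‖ ≤ ‖fderiv ℝ (fderiv ℝ H) x‖ := by
  rw [dst_dr_dr_eq hx hH]
  have h1 := (fderiv ℝ (fderiv ℝ H) x (‖x‖⁻¹ • x)).le_opNorm (‖x‖⁻¹ • x)
  have h2 := (fderiv ℝ (fderiv ℝ H) x).le_opNorm (‖x‖⁻¹ • x)
  rw [dst_norm_urad hx, mul_one] at h1 h2
  exact h1.trans h2

theorem dst_abs_coord_le (x : Space) (i : Fin 3) : |x i| ≤ ‖x‖ := by
  have := PiLp.norm_apply_le x i
  simpa using this

theorem dst_abs_coord_div_le (x : Space) (i : Fin 3) : |x i / ‖x‖| ≤ 1 := by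
  rw [abs_div, abs_norm]
  exact div_le_one_of_le₀ (dst_abs_coord_le x i) (norm_nonneg _)

/-- from `dr_eq_sum` and `|x j| ≤ |x|`. -/
theorem dst_norm_dr_le_sum (H : Space → V) (x : Space) :
    ‖dr H x‖ ≤ ∑ j : Fin 3, ‖dfield (Sum.inl j) H x‖ := by
  rw [dr_eq_sum]
  refine (norm_sum_le _ _).trans (Finset.sum_le_sum fun j _ => ?_)
  rw [norm_smul, Real.norm_eq_abs]
  exact mul_le_of_le_one_left (norm_nonneg _) (dst_abs_coord_div_le x j)

/-- `dr (dr H) x = ∑ᵢⱼ (xᵢ xⱼ / r²) ∂ᵢ∂ⱼ H`. -/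
theorem dst_norm_dr_dr_le_sum {H : Space → V} {x : Space} (hx : x ≠ 0) (hH : ContDiffAt ℝ 2 H x) :
    ‖dr (dr H) x‖ ≤ ∑ i : Fin 3, ∑ j : Fin 3, ‖dfield (Sum.inl i) (dfield (Sum.inl j) H) x‖ := by
  rw [dst_dr_dr_eq hx hH]
  have h : ‖x‖⁻¹ • x = ∑ j : Fin 3, (x j / ‖x‖) • (EuclideanSpace.single j (1 : ℝ) : Space) := by
    have := congrArg (fun y => ‖x‖⁻¹ • y) (space_eq_sum_single x)
    simp only [Finset.smul_sum, smul_smul] at this
    rw [this]
    refine Finset.sum_congr rfl fun j _ => ?_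
    rw [div_eq_inv_mul]
  rw [h, map_sum, Finset.sum_comm]
  refine (norm_sum_le _ _).trans (Finset.sum_le_sum fun j _ => ?_)
  rw [map_sum, _root_.sum_apply]
  refine (norm_sum_le _ _).trans (Finset.sum_le_sum fun i _ => ?_)
  rw [dfield_trans_trans_eq hH]
  simp only [map_smul, _root_.smul_apply, norm_smul, Real.norm_eq_abs]
  have h1 := dst_abs_coord_div_le x i
  have h2 := dst_abs_coord_div_le x j
  calc _ ≤ 1 * (1 * ‖fderiv ℝ (fderiv ℝ H) x (EuclideanSpace.single i 1)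
        (EuclideanSpace.single j 1)‖) := by gcongr
    _ = _ := by ring

/-- operator norm of the derivative from the three partial derivatives. -/
theorem dst_norm_fderiv_le_sum (H : Space → V) (x : Space) :
    ‖fderiv ℝ H x‖ ≤ ∑ j : Fin 3, ‖dfield (Sum.inl j) H x‖ := by
  refine ContinuousLinearMap.opNorm_le_bound _ (Finset.sum_nonneg fun _ _ => norm_nonneg _)
    fun v => ?_
  conv_lhs => rw [space_eq_sum_single v, map_sum]
  rw [Finset.sum_mul]
  refine (norm_sum_le _ _).trans (Finset.sum_le_sum fun j _ => ?_)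
  rw [map_smul, norm_smul, Real.norm_eq_abs, mul_comm]
  exact mul_le_mul_of_nonneg_left (dst_abs_coord_le v j) (norm_nonneg _)

theorem dst_norm_dfield_le (H : Space → V) (x : Space) (j : Fin 3) :
    ‖dfield (Sum.inl j) H x‖ ≤ ‖fderiv ℝ H x‖ := by
  have := (fderiv ℝ H x).le_opNorm (vfield (Sum.inl j) x)
  rwa [norm_vfield_trans, mul_one] at this

end TA

/-! ## TB. Parity and `t = z/r` (leaf DS1-TB) -/

section TB
variable {V : Type*} [NormedAddCommGroup V] [NormedSpace ℝ V]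

theorem dst_tz_reflZ (x : Space) : tz (reflZ x) = -tz x := by
  simp only [tz, norm_reflZ, reflZ_apply_two, neg_div]

theorem dst_abs_tz_le_one (x : Space) : |tz x| ≤ 1 := abs_tz_le_one x

theorem dst_tz_cyl (p z : ℝ) : tz (cyl p z) = z / ‖cyl p z‖ := rfl

theorem dst_contDiffOn_tz : ContDiffOn ℝ ∞ tz (Ext 0) :=
  (contDiff_coord 2).contDiffOn.div (contDiffOn_norm_Ext le_rfl)
    fun _ hx => (norm_pos_of_mem_Ext le_rfl hx).ne'

/-- `t` is homogeneous of degree `0`. -/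
theorem dst_dr_tz {x : Space} (hx : x ≠ 0) : dr tz x = 0 := by
  have hn : ‖x‖ ≠ 0 := norm_ne_zero_iff.2 hx
  have e : tz = fun y : Space => (fun r : ℝ => r⁻¹) ‖y‖ • y 2 := by
    funext y; simp only [tz, smul_eq_mul, div_eq_inv_mul]
  have h2 : DifferentiableAt ℝ (fun y : Space => y 2) x :=
    (contDiff_coord 2).differentiable (by simp) x
  have h3 : DifferentiableAt ℝ (fun r : ℝ => r⁻¹) ‖x‖ := differentiableAt_inv hn
  have h4 : dr (fun y : Space => y 2) x = ‖x‖⁻¹ * x 2 := by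
    simp only [dr]
    have : fderiv ℝ (fun y : Space => y 2) x = (EuclideanSpace.proj (2 : Fin 3) : Space →L[ℝ] ℝ) :=
      (EuclideanSpace.proj (2 : Fin 3) : Space →L[ℝ] ℝ).hasFDerivAt.fderiv
    rw [this]; simp
  have h5 : DifferentiableAt ℝ (fun y : Space => (fun r : ℝ => r⁻¹) ‖y‖) x :=
    h3.comp x (differentiableAt_norm_space hx)
  rw [e, dst_dr_smul h5 h2, dst_dr_radial hx h3, h4]
  simp only [deriv_inv, smul_eq_mul]
  field_simp
  ring

/-- if `H` is odd on `Ext R`, so is `dr H` (`dr_comp_reflZ`, `dst_dr_congr`). -/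
theorem dst_dr_odd {R : ℝ} {H : Space → V} (hH : ContDiffOn ℝ ∞ H (Ext R))
    (hodd : ∀ x ∈ Ext R, H (reflZ x) = -H x) : ∀ x ∈ Ext R, dr H (reflZ x) = -dr H x := by
  intro x hx
  rw [← dr_comp_reflZ' H x, dr_congr (H' := fun y => -H y) hodd x hx]
  simp only [dr]
  rw [fderiv_fun_neg]; rfl

theorem dst_odd_radial {R : ℝ} (hR : 0 ≤ R) {H : Space → V} (hH : ContDiffOn ℝ ∞ H (Ext R))
    (hodd : ∀ x ∈ Ext R, H (reflZ x) = -H x) {M : ℝ → ℝ}
    (hM : ∀ w : List (Fin 3 ⊕ Fin 3), w.length ≤ 3 → ∀ x ∈ Ext R, ‖dword w H x‖ ≤ M ‖x‖) :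
    ∀ x ∈ Ext R, ‖H x‖ ≤ 27 * M ‖x‖ * |tz x| ∧ ‖dr H x‖ ≤ 27 * M ‖x‖ * |tz x| ∧
      ‖dr (dr H) x‖ ≤ 27 * M ‖x‖ * |tz x| := by
  intro x hx
  have hM0 : 0 ≤ M ‖x‖ := (norm_nonneg _).trans (hM [] (by simp) x hx)
  have ht0 : 0 ≤ M ‖x‖ * |tz x| := mul_nonneg hM0 (abs_nonneg _)
  have hmem : ∀ y : Space, ‖y‖ = ‖x‖ → y ∈ Ext R := fun y hy => by
    show R < ‖y‖; rw [hy]; exact hx
  have one_le : (1 : WithTop ℕ∞) ≤ ((⊤ : ℕ∞) : WithTop ℕ∞) := WithTop.coe_le_coe.2 le_top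
  have hdr := contDiffOn_dr hR hH
  have hdrdr := contDiffOn_dr hR hdr
  have hodd1 := dst_dr_odd hH hodd
  have hodd2 := dst_dr_odd hdr hodd1
  refine ⟨?_, ?_, ?_⟩
  · have := odd_bound hR (hH.of_le one_le) hodd hx (M := M ‖x‖) fun y hy i => by
      have := hM [Sum.inr i] (by simp) y (hmem y hy)
      rwa [hy] at this
    nlinarith
  · have := odd_bound hR (hdr.of_le one_le) hodd1 hx (M := 3 * M ‖x‖) fun y hy i => by
      rw [dfield_rot_dr hR hH i y (hmem y hy)]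
      refine (dst_norm_dr_le_sum _ _).trans ?_
      have : ∀ j : Fin 3, ‖dfield (Sum.inl j) (dfield (Sum.inr i) H) y‖ ≤ M ‖x‖ := fun j => by
        have := hM [Sum.inl j, Sum.inr i] (by simp) y (hmem y hy)
        rwa [hy] at this
      calc _ ≤ ∑ _j : Fin 3, M ‖x‖ := Finset.sum_le_sum fun j _ => this j
        _ = _ := by simp
    nlinarith
  · have := odd_bound hR (hdrdr.of_le one_le) hodd2 hx (M := 9 * M ‖x‖) fun y hy i => by
      have hy' := hmem y hy
      rw [dfield_rot_dr hR hdr i y hy', dr_congr (dfield_rot_dr hR hH i) y hy']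
      refine (dst_norm_dr_dr_le_sum (ne_zero_of_mem_Ext hR hy')
        (contDiffAt_two_of_mem_Ext (contDiffOn_dfield hH _) hy')).trans ?_
      have : ∀ a b : Fin 3,
          ‖dfield (Sum.inl a) (dfield (Sum.inl b) (dfield (Sum.inr i) H)) y‖ ≤ M ‖x‖ :=
        fun a b => by
          have := hM [Sum.inl a, Sum.inl b, Sum.inr i] (by simp) y hy'
          rwa [hy] at this
      calc _ ≤ ∑ _a : Fin 3, ∑ _b : Fin 3, M ‖x‖ :=
            Finset.sum_le_sum fun a _ => Finset.sum_le_sum fun b _ => this a b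
        _ = _ := by simp; ring
    nlinarith

end TB

/-! ## TC. Radial profiles (leaf DS1-TC) -/

section TC
variable {V : Type*} [NormedAddCommGroup V] [NormedSpace ℝ V]

theorem dst_radialA_div_pow (k a : ℝ) (m : ℕ) {r : ℝ} (hr : 0 < r) :
    radialA k a r * (r ^ m)⁻¹ = radialA k (a - m) r := by
  simp only [radialA]
  rw [Real.rpow_sub_natCast hr.ne', div_eq_mul_inv, mul_assoc]

theorem dst_contDiffOn_radialA_norm (k a : ℝ) :
    ContDiffOn ℝ ∞ (fun y : Space => radialA k a ‖y‖) (Ext 0) :=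
  contDiffOn_radial le_rfl (contDiffOn_radialA k a)

theorem dst_twist {R : ℝ} (hR : 0 ≤ R) (k a : ℝ) {u : Space → V} (hu : ContDiffOn ℝ ∞ u (Ext R)) :
    ∀ x ∈ Ext R,
      dr (fun y => radialA k a ‖y‖ • u y) x + k • (radialA k a ‖x‖ • u x)
        = radialA k a ‖x‖ • ((a / ‖x‖) • u x + dr u x) ∧
      dr (dr (fun y => radialA k a ‖y‖ • u y)) x + (2 * k) • dr (fun y => radialA k a ‖y‖ • u y) x
          + k ^ 2 • (radialA k a ‖x‖ • u x)
        = radialA k a ‖x‖ • (dr (dr u) x + (2 * a / ‖x‖) • dr u x + ((a ^ 2 - a) / ‖x‖ ^ 2) • u x) := by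
  have hρ : ∀ r : ℝ, 0 < r → DifferentiableAt ℝ (radialA k a) r :=
    fun r hr => (hasDerivAt_radialA k a hr).differentiableAt
  have hρn : ∀ y ∈ Ext R, DifferentiableAt ℝ (fun y : Space => radialA k a ‖y‖) y := fun y hy =>
    (hρ _ (norm_pos_of_mem_Ext hR hy)).comp y
      (differentiableAt_norm_space (ne_zero_of_mem_Ext hR hy))
  have first : ∀ y ∈ Ext R, dr (fun y => radialA k a ‖y‖ • u y) y
      = deriv (radialA k a) ‖y‖ • u y + radialA k a ‖y‖ • dr u y := fun y hy => by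
    rw [dst_dr_smul (hρn y hy) (differentiableAt_of_mem_Ext hu hy),
      dst_dr_radial (ne_zero_of_mem_Ext hR hy) (hρ _ (norm_pos_of_mem_Ext hR hy))]
  intro x hx
  have hr := norm_pos_of_mem_Ext hR hx
  have hx0 := ne_zero_of_mem_Ext hR hx
  have hd1 : DifferentiableAt ℝ (deriv (radialA k a)) ‖x‖ :=
    differentiableAt_deriv_of_contDiffAt
      (((contDiffOn_radialA k a).contDiffAt (Ioi_mem_nhds hr)).of_le (WithTop.coe_le_coe.2 le_top))
  have hd1n : DifferentiableAt ℝ (fun y : Space => deriv (radialA k a) ‖y‖) x :=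
    hd1.comp x (differentiableAt_norm_space hx0)
  have hdu := differentiableAt_of_mem_Ext hu hx
  have hddu := differentiableAt_of_mem_Ext (contDiffOn_dr hR hu) hx
  have second : dr (dr (fun y => radialA k a ‖y‖ • u y)) x
      = deriv (deriv (radialA k a)) ‖x‖ • u x + deriv (radialA k a) ‖x‖ • dr u x
        + (deriv (radialA k a) ‖x‖ • dr u x + radialA k a ‖x‖ • dr (dr u) x) := by
    have q1 : DifferentiableAt ℝ (fun y : Space => deriv (radialA k a) ‖y‖ • u y) x :=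
      hd1n.smul hdu
    have q2 : DifferentiableAt ℝ (fun y : Space => radialA k a ‖y‖ • dr u y) x :=
      (hρn x hx).smul hddu
    rw [dr_congr first x hx, dst_dr_add q1 q2,
      dst_dr_smul hd1n hdu, dst_dr_smul (hρn x hx) hddu, dst_dr_radial hx0 hd1,
      dst_dr_radial hx0 (hρ _ hr)]
  have h2 : deriv (deriv (radialA k a)) ‖x‖ = ((-k + a / ‖x‖) ^ 2 - a / ‖x‖ ^ 2) * radialA k a ‖x‖ := by
    rw [← iteratedDeriv_two_radialA k a hr, iteratedDeriv_succ, iteratedDeriv_one]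
  rw [second, first x hx, h2, deriv_radialA k a hr]
  constructor
  · module
  · have e : ((-k + a / ‖x‖) ^ 2 - a / ‖x‖ ^ 2) + 2 * k * (-k + a / ‖x‖) + k ^ 2
        = (a ^ 2 - a) / ‖x‖ ^ 2 := by field_simp; ring
    rw [← e]
    module

/-- strip geometry: `r = |cyl p z|`, `0 ≤ z ≤ 10`, `p ≥ 1`. -/
theorem dst_strip_geom {p z : ℝ} (hp : 1 ≤ p) (hz : 0 ≤ z) (hz' : z ≤ stripL) :
    p ≤ ‖cyl p z‖ ∧ ‖cyl p z‖ - p ≤ 50 / p ∧ ‖cyl p z‖ ≤ 11 * p ∧
      0 ≤ 1 - p / ‖cyl p z‖ ∧ 1 - p / ‖cyl p z‖ ≤ z ^ 2 / ‖cyl p z‖ ^ 2 := by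
  have hz10 : z ≤ 10 := hz'
  obtain ⟨r, hr⟩ : ∃ r, r = ‖cyl p z‖ := ⟨_, rfl⟩
  have hr2 : r ^ 2 = p ^ 2 + z ^ 2 := by
    rw [hr, norm_cyl, Real.sq_sqrt (by positivity)]
  have hr0 : 0 ≤ r := hr ▸ norm_nonneg _
  rw [← hr]
  have hpr : p ≤ r := by nlinarith
  have hrpos : 0 < r := by linarith
  have hp0 : 0 < p := by linarith
  refine ⟨hpr, ?_, ?_, ?_, ?_⟩
  · rw [le_div_iff₀ hp0]
    nlinarith
  · nlinarith
  · rw [sub_nonneg, div_le_one hrpos]; exact hpr
  · rw [le_div_iff₀ (by positivity)]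
    have : (1 - p / r) * r ^ 2 = r ^ 2 - p * r := by field_simp
    rw [this]
    nlinarith

theorem dst_abs_exp_sub_one_le (w : ℝ) : |Real.exp w - 1| ≤ |w| * Real.exp |w| := by
  rcases le_total 0 w with h | h
  · rw [abs_of_nonneg h, abs_of_nonneg (by linarith [Real.add_one_le_exp w])]
    have h1 := Real.add_one_le_exp (-w)
    have h2 : Real.exp w * Real.exp (-w) = 1 := by rw [← Real.exp_add]; simp
    nlinarith [Real.exp_pos w]
  · rw [abs_of_nonpos h, abs_of_nonpos (by linarith [Real.exp_le_one_iff.2 h])]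
    have h1 := Real.add_one_le_exp w
    have h2 : 1 ≤ Real.exp (-w) := Real.one_le_exp (by linarith)
    nlinarith

/-- `A(r)/A(p) = e^{-k(r-p)} (r/p)^a = 1 + O(1/p)` in the strip, uniformly for bounded `k, a`. -/
theorem dst_radialA_strip (a₀ : ℝ) : ∃ C : ℝ, 0 ≤ C ∧ ∀ k a p z : ℝ, 0 ≤ k → k ≤ 2 → |a| ≤ a₀ →
    1 ≤ p → 0 ≤ z → z ≤ stripL →
      |radialA k a ‖cyl p z‖ - radialA k a p| ≤ C / p * radialA k a p := by
  refine ⟨50 * (2 + |a₀|) * Real.exp (50 * (2 + |a₀|)), by positivity, ?_⟩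
  intro k a p z hk hk2 ha hp hz hz'
  obtain ⟨g1, g2, -, -, -⟩ := dst_strip_geom hp hz hz'
  obtain ⟨r, hr⟩ : ∃ r, r = ‖cyl p z‖ := ⟨_, rfl⟩
  rw [← hr] at g1 g2 ⊢
  have hp0 : 0 < p := by linarith
  have hr0 : 0 < r := by linarith
  have ha' : |a| ≤ |a₀| := ha.trans (le_abs_self _)
  obtain ⟨w, hw⟩ : ∃ w, w = -(k * (r - p)) + a * Real.log (r / p) := ⟨_, rfl⟩
  have hA : radialA k a r = Real.exp w * radialA k a p := by
    simp only [radialA]
    rw [hw, Real.rpow_def_of_pos hr0, Real.rpow_def_of_pos hp0,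
      Real.log_div hr0.ne' hp0.ne', ← Real.exp_add, ← Real.exp_add, ← Real.exp_add]
    congr 1; ring
  have hlog0 : 0 ≤ Real.log (r / p) := Real.log_nonneg (by rw [le_div_iff₀ hp0]; linarith)
  have hlog : Real.log (r / p) ≤ 50 / p := by
    have h1 := Real.log_le_sub_one_of_pos (div_pos hr0 hp0)
    have h2 : r / p - 1 = (r - p) / p := by field_simp
    have h3 : (r - p) / p ≤ r - p := div_le_self (by linarith) hp
    linarith
  have hwle : |w| ≤ 50 * (2 + |a₀|) / p := by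
    rw [hw]
    have e1 : |-(k * (r - p))| ≤ 2 * (50 / p) := by
      rw [abs_neg, abs_mul, abs_of_nonneg hk, abs_of_nonneg (by linarith)]
      exact mul_le_mul hk2 g2 (by linarith) (by norm_num)
    have e2 : |a * Real.log (r / p)| ≤ |a₀| * (50 / p) := by
      rw [abs_mul, abs_of_nonneg hlog0]
      exact mul_le_mul ha' hlog hlog0 (abs_nonneg _)
    calc _ ≤ _ + _ := abs_add_le _ _
      _ ≤ 2 * (50 / p) + |a₀| * (50 / p) := add_le_add e1 e2
      _ = _ := by ring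
  have hwle' : |w| ≤ 50 * (2 + |a₀|) := hwle.trans (div_le_self (by positivity) hp)
  have hApos := radialA_pos k a hp0
  rw [hA]
  have e : Real.exp w * radialA k a p - radialA k a p = (Real.exp w - 1) * radialA k a p := by ring
  rw [e, abs_mul, abs_of_pos hApos]
  refine mul_le_mul_of_nonneg_right ?_ hApos.le
  calc _ ≤ |w| * Real.exp |w| := dst_abs_exp_sub_one_le w
    _ ≤ 50 * (2 + |a₀|) / p * Real.exp (50 * (2 + |a₀|)) :=
        mul_le_mul hwle (Real.exp_le_exp.2 hwle') (Real.exp_pos _).le (by positivity)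
    _ = _ := by ring

/-- polynomial factors are absorbed by an exponential gap. -/
theorem dst_exp_gap (μ : ℝ) (hμ : 0 < μ) (a : ℝ) :
    Tendsto (fun r : ℝ => Real.exp (-(μ * r)) * r ^ a) atTop (𝓝 0) := by
  have := tendsto_rpow_mul_exp_neg_mul_atTop_nhds_zero a μ hμ
  refine this.congr fun r => ?_
  rw [mul_comm, neg_mul]

end TC

end Claimed.Open.R278
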