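import Claimed.Open.R278.DS1Hor

/-!
# Result 278, layer DS: the top theorems DS1a-DS1d (captain's statements, verbatim)

Sub-captain helper88.  Proved from `ds_good`, `ds1_core`, `ds1_radial`, `ds1_horizontal`, `ds1_strip`.
-/

open MeasureTheory Filter
open scoped ContDiff InnerProductSpace ComplexConjugate ENNReal Topology Laplacian

noncomputable section

namespace Claimed.Open.R278

variable {𝒦 : Type} [NormedAddCommGroup 𝒦] [InnerProductSpace ℂ 𝒦] [CompleteSpace 𝒦]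

theorem ds1_tendsto_eps (a : ℝ) :
    Tendsto (fun r : ℝ => a * r ^ (-(1 / 4) : ℝ)) atTop (𝓝 0) := by
  have h1 : Tendsto (fun r : ℝ => a * r ^ (-(1 / 4) : ℝ)) atTop (𝓝 (a * 0)) :=
    (tendsto_rpow_neg_atTop (by norm_num : (0 : ℝ) < 1 / 4)).const_mul a
  rwa [mul_zero] at h1

theorem ds1_to_eps {c C₁ ρ sc N : ℝ} (hc : 0 < c) (hC₁ : 0 ≤ C₁) (hρ : 0 ≤ ρ) (h : c * sc ≤ N) :
    C₁ * (ρ * sc) ≤ C₁ / c * ρ * N := by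
  have h1 : sc ≤ N / c := by rw [le_div_iff₀ hc]; linarith
  calc C₁ * (ρ * sc) ≤ C₁ * (ρ * (N / c)) := by gcongr
    _ = C₁ / c * ρ * N := by ring

section vector
variable (κ : ChannelConsts) (b : Space → ℝ) (γ : ℝ) (Cb : ℕ → ℝ) (cb : ℝ) (c₀ : ℝ)

/-- **DS1a** (3.41), (3.42'): three-scale bounds and the absolute core ratio. -/
theorem ds_three_scale (hb : FastOrbital b γ κ.R₁ Cb cb) (hc₀ : 0 < c₀) :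
    ∃ R₀ c C : ℝ, κ.R₁ ≤ R₀ ∧ 0 < c ∧ ∀ S : ChannelSys 𝒦 κ b γ, S.SimpleZero c₀ → ∀ x ∈ Ext R₀,
      c * S.scale x ≤ ‖S.F x‖ ∧ ‖S.F x‖ ≤ C * S.scale x ∧ b x ≤ 2 * ‖S.F x‖ := by
  obtain ⟨R, C, K, hRκ, hC, hK, hgood⟩ := ds_good (𝒦 := 𝒦) κ b γ Cb cb hb
  obtain ⟨R', c, C', hRR', hc, -, h⟩ := ds1_core (𝒦 := 𝒦) κ b γ Cb cb hb R C K hRκ hC hK hc₀
  exact ⟨R', c, C', hRκ.trans hRR', hc, fun S h₀ x hx => h S (hgood S) h₀ x hx⟩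

/-- **DS1b** (3.42): radial relative derivatives. -/
theorem ds_radial (hb : FastOrbital b γ κ.R₁ Cb cb) (hc₀ : 0 < c₀) :
    ∃ (R₀ : ℝ) (ε : ℝ → ℝ), κ.R₁ ≤ R₀ ∧ Filter.Tendsto ε Filter.atTop (𝓝 0) ∧
      ∀ S : ChannelSys 𝒦 κ b γ, S.SimpleZero c₀ → ∀ x ∈ Ext R₀,
      ‖dr S.F x + S.k • S.F x - ((S.k - γ) * b x) • S.G‖ ≤ ε ‖x‖ * ‖S.F x‖ := by
  obtain ⟨R, C, K, hRκ, hC, hK, hgood⟩ := ds_good (𝒦 := 𝒦) κ b γ Cb cb hb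
  obtain ⟨R', c, C', hRR', hc, -, h⟩ := ds1_core (𝒦 := 𝒦) κ b γ Cb cb hb R C K hRκ hC hK hc₀
  obtain ⟨C₁, hC₁, h₁⟩ := ds1_radial (𝒦 := 𝒦) κ b γ Cb cb hb R C K hRκ hC hK
  refine ⟨R', fun r => C₁ / c * r ^ (-(1 / 4) : ℝ), hRκ.trans hRR', ds1_tendsto_eps _, ?_⟩
  intro S h₀ x hx
  have hxR : x ∈ Ext R := Ext_mono hRR' hx
  exact ((h₁ S (hgood S) x hxR).1).trans
    (ds1_to_eps hc hC₁ (Real.rpow_nonneg (norm_nonneg _) _) (h S (hgood S) h₀ x hx).1)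

/-- **DS1c**: horizontal relative derivative on `0 ≤ z ≤ p/2`. -/
theorem ds_horizontal (hb : FastOrbital b γ κ.R₁ Cb cb) (hc₀ : 0 < c₀) :
    ∃ (R₀ : ℝ) (ε : ℝ → ℝ), κ.R₁ ≤ R₀ ∧ Filter.Tendsto ε Filter.atTop (𝓝 0) ∧
      ∀ S : ChannelSys 𝒦 κ b γ, S.SimpleZero c₀ → ∀ p z : ℝ, R₀ < ‖cyl p z‖ → 0 ≤ z → z ≤ p / 2 →
      ‖dfield (Sum.inl 0) S.F (cyl p z) + (S.k * p / ‖cyl p z‖) • S.F (cyl p z)
          - ((S.k - γ) * (p / ‖cyl p z‖) * b (cyl p z)) • S.G‖ ≤ ε ‖cyl p z‖ * ‖S.F (cyl p z)‖ := by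
  obtain ⟨R, C, K, hRκ, hC, hK, hgood⟩ := ds_good (𝒦 := 𝒦) κ b γ Cb cb hb
  obtain ⟨R', c, C', hRR', hc, -, h⟩ := ds1_core (𝒦 := 𝒦) κ b γ Cb cb hb R C K hRκ hC hK hc₀
  obtain ⟨C₁, hC₁, h₁⟩ := ds1_horizontal (𝒦 := 𝒦) κ b γ Cb cb hb R C K hRκ hC hK
  refine ⟨R', fun r => C₁ / c * r ^ (-(1 / 4) : ℝ), hRκ.trans hRR', ds1_tendsto_eps _, ?_⟩
  intro S h₀ p z hx _ _
  have hxR : cyl p z ∈ Ext R := Ext_mono hRR' hx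
  rw [mul_div_assoc]
  exact (h₁ S (hgood S) p z hxR).trans
    (ds1_to_eps hc hC₁ (Real.rpow_nonneg (norm_nonneg _) _) (h S (hgood S) h₀ _ hx).1)

/-- **DS1d** (3.43): first and second horizontal relative derivatives in the strip,
`D_p = ∂₁ + k`. -/
theorem ds_strip (hb : FastOrbital b γ κ.R₁ Cb cb) (hc₀ : 0 < c₀) :
    ∃ (R₀ : ℝ) (ε : ℝ → ℝ), κ.R₁ ≤ R₀ ∧ Filter.Tendsto ε Filter.atTop (𝓝 0) ∧
      ∀ S : ChannelSys 𝒦 κ b γ, S.SimpleZero c₀ → ∀ p z : ℝ, R₀ < p → 0 ≤ z → z ≤ stripL →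
      ‖dfield (Sum.inl 0) S.F (cyl p z) + S.k • S.F (cyl p z)
          - ((S.k - γ) * b (cyl p z)) • S.G‖ ≤ ε p * ‖S.F (cyl p z)‖ ∧
      ‖dfield (Sum.inl 0) (dfield (Sum.inl 0) S.F) (cyl p z)
          + (2 * S.k) • dfield (Sum.inl 0) S.F (cyl p z) + S.k ^ 2 • S.F (cyl p z)
          - ((S.k - γ) ^ 2 * b (cyl p z)) • S.G‖ ≤ ε p * ‖S.F (cyl p z)‖ := by
  obtain ⟨R, C, K, hRκ, hC, hK, hgood⟩ := ds_good (𝒦 := 𝒦) κ b γ Cb cb hb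
  obtain ⟨R', c, C', hRR', hc, -, h⟩ := ds1_core (𝒦 := 𝒦) κ b γ Cb cb hb R C K hRκ hC hK hc₀
  obtain ⟨C₁, hC₁, h₁⟩ := ds1_strip (𝒦 := 𝒦) κ b γ Cb cb hb R C K hRκ hC hK
  refine ⟨R', fun r => C₁ / c * r ^ (-(1 / 4) : ℝ), hRκ.trans hRR', ds1_tendsto_eps _, ?_⟩
  intro S h₀ p z hp hz hz'
  have hp1 : 1 ≤ p := ((ds1_one_le_R₁ κ).trans (hRκ.trans hRR')).trans hp.le
  obtain ⟨g1, -, -, -, -⟩ := dst_strip_geom hp1 hz hz'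
  have hx : cyl p z ∈ Ext R' := lt_of_lt_of_le hp g1
  have hρ : ‖cyl p z‖ ^ (-(1 / 4) : ℝ) ≤ p ^ (-(1 / 4) : ℝ) :=
    Real.rpow_le_rpow_of_nonpos (by linarith) g1 (by norm_num)
  have hN : 0 ≤ ‖S.F (cyl p z)‖ := norm_nonneg _
  have key : C₁ * (‖cyl p z‖ ^ (-(1 / 4) : ℝ) * S.scale (cyl p z))
      ≤ C₁ / c * p ^ (-(1 / 4) : ℝ) * ‖S.F (cyl p z)‖ :=
    (ds1_to_eps hc hC₁ (Real.rpow_nonneg (norm_nonneg _) _) (h S (hgood S) h₀ _ hx).1).trans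
      (mul_le_mul_of_nonneg_right (mul_le_mul_of_nonneg_left hρ (by positivity)) hN)
  obtain ⟨a1, a2⟩ := h₁ S (hgood S) p z (lt_of_le_of_lt hRR' hp) hz hz'
  exact ⟨a1.trans key, a2.trans key⟩

end vector

end Claimed.Open.R278
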