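import Claimed.Open.R278.DS1Top

/-!
# Result 278, layer DS, file DS1Vec: the strip comparison vector (3.45)

Sub-captain helper88.  PAPER-FREE.  SORRY-FREE (leaves proved by helper162).  Leaves: `DS1-VF` (`ds1_f_strip`), `DS1-VB` (`ds1_b_strip`), `DS1-VZ`
(`ds1_Z₀_strip`, `ds1_rem_strip`).  The top theorem `ds_strip_vector` is proved from them at the end.
Notation: `x = cyl p z = (p,0,z)`, `0 ≤ z ≤ stripL = 10`, `p > R ≥ 1`, `r = |x| = √(p²+z²) ∈ [p, p + 50/p]`,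
`t = tz x = z/r`, `A(ρ) = radialA S.k S.β ρ`.
-/

open MeasureTheory Filter
open scoped ContDiff InnerProductSpace ComplexConjugate ENNReal Topology Laplacian

noncomputable section

namespace Claimed.Open.R278

variable {𝒦 : Type} [NormedAddCommGroup 𝒦] [InnerProductSpace ℂ 𝒦] [CompleteSpace 𝒦]

/-- **leaf DS1-VF.**  `f = A(r) h`, `h = a' t + e`, `|e| ≤ K t² + K |t|/r` (`Good.odd`: second and third
bound).  So `f - a' A(p) z/p = a' z (A(r)/r - A(p)/p) + A(r) e`.  `A(ρ)/ρ = radialA k (β-1) ρ`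
(`dst_radialA_div_pow` with `m = 1`), `dst_radialA_strip 3` (`|β - 1| ≤ 3`) bounds the first term by
`K (C/p) A(p) z/p`; `A(r) ≤ (1 + C) A(p)` (`dst_radialA_strip`), `t² + |t|/r ≤ 11 z / p²`. -/
theorem ds1_f_strip (κ : ChannelConsts) (b : Space → ℝ) (γ : ℝ) (R : ℝ) (C : ℕ → ℝ) (K : ℝ)
    (hR : 1 ≤ R) (hK : 0 ≤ K) :
    ∃ C₁ : ℝ, 0 ≤ C₁ ∧ ∀ S : ChannelSys 𝒦 κ b γ, S.Good R C K → ∀ p z : ℝ, R < p → 0 ≤ z →
      z ≤ stripL →
      ‖S.f (cyl p z) - S.slope * (radialA S.k S.β p * z / p : ℝ)‖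
        ≤ C₁ / p * (radialA S.k S.β p * z / p) := by
  obtain ⟨C2, hC2, h2⟩ := dst_radialA_strip 2
  obtain ⟨C3, hC3, h3⟩ := dst_radialA_strip 3
  refine ⟨K * C3 + 11 * K * (1 + C2), by positivity, ?_⟩
  intro S hS p z hp hz hz'
  have hp1 : 1 ≤ p := hR.trans hp.le
  have hp0 : 0 < p := by linarith
  have hz10 : z ≤ 10 := hz'
  obtain ⟨g1, -, -, -, -⟩ := dst_strip_geom hp1 hz hz'
  obtain ⟨hβ1, hβ2⟩ := S.beta_bounds
  have hk0 : 0 ≤ S.k := by linarith [S.k_lo]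
  have hk2 : S.k ≤ 2 := by linarith [S.k_hi]
  have hx : cyl p z ∈ Ext R := lt_of_lt_of_le hp g1
  have hx0 : cyl p z ≠ 0 := dst_ne_zero (by linarith) hx
  obtain ⟨-, o2, o3, -, -⟩ := hS.odd _ hx
  have a2 := h2 S.k S.β p z hk0 hk2 (abs_le.2 ⟨by linarith, hβ2⟩) hp1 hz hz'
  have a3 := h3 S.k (S.β - 1) p z hk0 hk2 (abs_le.2 ⟨by linarith, by linarith⟩) hp1 hz hz'
  have hf := S.f_eq hx0
  rw [dst_tz_cyl] at o2 o3
  have hA : S.A (cyl p z) = radialA S.k S.β ‖cyl p z‖ := rfl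
  rw [hA] at hf
  obtain ⟨r, hr⟩ : ∃ r, r = ‖cyl p z‖ := ⟨_, rfl⟩
  rw [← hr] at g1 o2 o3 a2 a3 hf
  have hr0 : 0 < r := by linarith
  have e1 : ∀ ρ : ℝ, 0 < ρ → radialA S.k (S.β - 1) ρ = radialA S.k S.β ρ / ρ := fun ρ hρ => by
    have := dst_radialA_div_pow S.k S.β 1 hρ
    rw [pow_one, Nat.cast_one] at this
    rw [← this, div_eq_mul_inv]
  rw [e1 r hr0, e1 p hp0] at a3
  obtain ⟨Ar, hAr⟩ : ∃ Ar, Ar = radialA S.k S.β r := ⟨_, rfl⟩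
  obtain ⟨Ap, hAp⟩ : ∃ Ap, Ap = radialA S.k S.β p := ⟨_, rfl⟩
  have hAp0 : 0 < Ap := hAp ▸ radialA_pos _ _ hp0
  have hAr0 : 0 < Ar := hAr ▸ radialA_pos _ _ hr0
  rw [← hAr, ← hAp] at a2 a3
  rw [← hAr] at hf
  rw [← hAp]
  have id : S.f (cyl p z) - S.slope * ((Ap * z / p : ℝ) : ℂ)
      = S.slope * ((z * (Ar / r - Ap / p) : ℝ) : ℂ)
        + (Ar : ℂ) * ((S.h (cyl p z) - S.a₀ (cyl p z))
          + (S.a₀ (cyl p z) - S.slope * ((z / r : ℝ) : ℂ))) := by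
    rw [hf, Complex.real_smul]
    push_cast
    field_simp
    ring
  rw [id]
  have n1 : ‖S.slope * ((z * (Ar / r - Ap / p) : ℝ) : ℂ)‖ ≤ K * (z * (C3 / p * (Ap / p))) := by
    rw [norm_mul, Complex.norm_real, Real.norm_eq_abs, abs_mul, abs_of_nonneg hz]
    exact mul_le_mul hS.slope_le (mul_le_mul_of_nonneg_left a3 hz) (by positivity) hK
  have hArle : Ar ≤ (1 + C2) * Ap := by
    have h := (abs_le.1 a2).2
    have : C2 / p * Ap ≤ C2 * Ap :=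
      mul_le_mul_of_nonneg_right (div_le_self hC2 hp1) hAp0.le
    linarith
  have hzr : z / r ≤ z / p := div_le_div_of_nonneg_left hz hp0 g1
  have t1 : K * |z / r| / r ≤ K * (z / p ^ 2) := by
    rw [abs_of_nonneg (by positivity), mul_div_assoc]
    apply mul_le_mul_of_nonneg_left _ hK
    rw [div_div]
    apply div_le_div_of_nonneg_left hz (by positivity)
    nlinarith
  have t2 : K * (z / r) ^ 2 ≤ K * (10 * (z / p ^ 2)) := by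
    apply mul_le_mul_of_nonneg_left _ hK
    have : (z / r) ^ 2 ≤ (z / p) ^ 2 := pow_le_pow_left₀ (by positivity) hzr 2
    refine this.trans ?_
    rw [div_pow, sq z, mul_div_assoc]
    exact mul_le_mul_of_nonneg_right hz10 (by positivity)
  have n2 : ‖(Ar : ℂ) * ((S.h (cyl p z) - S.a₀ (cyl p z))
          + (S.a₀ (cyl p z) - S.slope * ((z / r : ℝ) : ℂ)))‖
      ≤ ((1 + C2) * Ap) * (11 * K * (z / p ^ 2)) := by
    rw [norm_mul, Complex.norm_real, Real.norm_eq_abs, abs_of_pos hAr0]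
    refine mul_le_mul hArle ?_ (norm_nonneg _) (by positivity)
    refine (norm_add_le _ _).trans ?_
    have := o2.trans t1
    have := o3.trans t2
    linarith
  refine (norm_add_le _ _).trans ((add_le_add n1 n2).trans (le_of_eq ?_))
  field_simp

/-- derivatives along the vertical line `s ↦ cyl p s`. -/
theorem ds1_hasDerivAt_cyl_z {V : Type*} [NormedAddCommGroup V] [NormedSpace ℝ V] {H : Space → V}
    {p z : ℝ} (hH : DifferentiableAt ℝ H (cyl p z)) :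
    HasDerivAt (fun s => H (cyl p s)) (dfield (Sum.inl 2) H (cyl p z)) z := by
  have h1 : HasDerivAt (fun s : ℝ => cyl p s) (EuclideanSpace.single 2 (1 : ℝ) : Space) z := by
    have e : (fun s : ℝ => cyl p s)
        = fun s : ℝ => cyl p 0 + s • (EuclideanSpace.single 2 (1 : ℝ) : Space) := by
      funext s
      apply space_ext <;> simp
    rw [e]
    simpa using ((hasDerivAt_id z).smul_const (EuclideanSpace.single 2 (1 : ℝ) : Space)).const_add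
      (cyl p 0)
  exact hH.hasFDerivAt.comp_hasDerivAt z h1

/-- `∂₂ = (z/r) ∂_r - (p/r²) Ω₁` at `x = cyl p z`. -/
theorem ds1_dfield_two_cyl {V : Type*} [NormedAddCommGroup V] [NormedSpace ℝ V] {H : Space → V}
    {p z : ℝ} (hx : cyl p z ≠ 0) :
    dfield (Sum.inl 2) H (cyl p z) = (z / ‖cyl p z‖) • dr H (cyl p z)
      - (p / ‖cyl p z‖ ^ 2) • dfield (Sum.inr 1) H (cyl p z) := by
  have h := fderiv_decomp (H := H) hx (EuclideanSpace.single 2 (1 : ℝ) : Space)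
  have e0 : ⟪cyl p z, (EuclideanSpace.single 2 (1 : ℝ) : Space)⟫_ℝ = z := by
    simp [PiLp.inner_apply]
  have e1 : ⟪vfield (Sum.inr 0) (cyl p z), (EuclideanSpace.single 2 (1 : ℝ) : Space)⟫_ℝ = 0 := by
    simp [PiLp.inner_apply, vfield_inr_zero]
  have e2 : ⟪vfield (Sum.inr 1) (cyl p z), (EuclideanSpace.single 2 (1 : ℝ) : Space)⟫_ℝ = -p := by
    simp [PiLp.inner_apply, vfield_inr_one]
  have e3 : ⟪vfield (Sum.inr 2) (cyl p z), (EuclideanSpace.single 2 (1 : ℝ) : Space)⟫_ℝ = 0 := by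
    simp [PiLp.inner_apply, vfield_inr_two]
  rw [Fin.sum_univ_three, e0, e1, e2, e3] at h
  show fderiv ℝ H (cyl p z) (EuclideanSpace.single 2 (1 : ℝ) : Space) = _
  rw [h]
  simp only [zero_smul, zero_add, add_zero, smul_smul, div_eq_mul_inv]
  rw [sub_eq_add_neg, ← neg_smul]
  congr 2
  ring

/-- **leaf DS1-VB.**  No channel system.  `g(s) = b (cyl p s)`, `0 ≤ s ≤ 10`.  By `fderiv_decomp` with
`v = e₂`: `g'(s) = (s/r) ∂_r b - (p/r²) Ω₁ b`, so `|g'| ≤ (31 |Cb 1| / p) g` (`FastOrbital.words` for words of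
length `1`, `dst_norm_dr_le_sum`).  Hence `|log g(z) - log g(0)| ≤ L := 310 |Cb 1| / p` (mean value
inequality for `log ∘ g`, `g > 0`), and `|g(z)/g(0) - 1| ≤ e^L - 1 ≤ L e^L ≤ (310 |Cb 1| e^{310 |Cb 1|}) / p`. -/
theorem ds1_b_strip {b : Space → ℝ} {γ R₁ : ℝ} {Cb : ℕ → ℝ} {cb : ℝ} (hR₁ : 1 ≤ R₁)
    (hb : FastOrbital b γ R₁ Cb cb) :
    ∃ C₁ : ℝ, 0 ≤ C₁ ∧ ∀ p z : ℝ, R₁ < p → 0 ≤ z → z ≤ stripL →
      |b (cyl p z) - b (cyl p 0)| ≤ C₁ / p * b (cyl p 0) := by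
  set c₁ : ℝ := |Cb 1| with hc₁
  have hc₁0 : 0 ≤ c₁ := abs_nonneg _
  refine ⟨310 * c₁ * Real.exp (310 * c₁), by positivity, ?_⟩
  intro p z hp hz hz'
  have hp1 : 1 ≤ p := hR₁.trans hp.le
  have hp0 : 0 < p := by linarith
  have hz10 : z ≤ 10 := hz'
  have hmem : ∀ s : ℝ, cyl p s ∈ Ext R₁ := fun s => by
    show R₁ < ‖cyl p s‖
    rw [norm_cyl]
    exact lt_of_lt_of_le hp (Real.le_sqrt_of_sq_le (by nlinarith [sq_nonneg s]))
  have hpos : ∀ s : ℝ, 0 < b (cyl p s) := fun s => hb.pos (by linarith) (hmem s)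
  have hd : ∀ s : ℝ, HasDerivAt (fun s => b (cyl p s)) (dfield (Sum.inl 2) b (cyl p s)) s :=
    fun s => ds1_hasDerivAt_cyl_z (differentiableAt_of_mem_Ext hb.smooth (hmem s))
  have hw : ∀ (a : Fin 3 ⊕ Fin 3) (s : ℝ), |dfield a b (cyl p s)| ≤ c₁ * b (cyl p s) := fun a s => by
    have := hb.words [a] _ (hmem s)
    exact this.trans (mul_le_mul_of_nonneg_right (le_abs_self _) (hpos s).le)
  -- the logarithmic derivative
  have hbound : ∀ s ∈ Set.Icc (0 : ℝ) z,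
      |dfield (Sum.inl 2) b (cyl p s)| ≤ 31 * c₁ / p * b (cyl p s) := by
    intro s hs
    have hs0 : 0 ≤ s := hs.1
    have hs10 : s ≤ 10 := hs.2.trans hz10
    obtain ⟨g1, -, -, -, -⟩ := dst_strip_geom hp1 hs0 (show s ≤ stripL from hs10)
    have hx0 : cyl p s ≠ 0 := dst_ne_zero (by linarith) (hmem s)
    rw [ds1_dfield_two_cyl hx0]
    have hdr : |dr b (cyl p s)| ≤ 3 * (c₁ * b (cyl p s)) := by
      have := dst_norm_dr_le_sum b (cyl p s)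
      rw [Fin.sum_univ_three] at this
      simp only [Real.norm_eq_abs] at this
      linarith [hw (Sum.inl 0) s, hw (Sum.inl 1) s, hw (Sum.inl 2) s]
    obtain ⟨r, hr⟩ : ∃ r, r = ‖cyl p s‖ := ⟨_, rfl⟩
    rw [← hr] at g1 ⊢
    have hr0 : 0 < r := by linarith
    have hB := (hpos s).le
    have q1 : s / r ≤ 10 / p := div_le_div₀ (by norm_num) hs10 hp0 g1
    have q2 : p / r ^ 2 ≤ 1 / p := by
      rw [div_le_div_iff₀ (by positivity) hp0]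
      nlinarith
    simp only [smul_eq_mul]
    calc |s / r * dr b (cyl p s) - p / r ^ 2 * dfield (Sum.inr 1) b (cyl p s)|
        ≤ |s / r * dr b (cyl p s)| + |p / r ^ 2 * dfield (Sum.inr 1) b (cyl p s)| := abs_sub _ _
      _ = s / r * |dr b (cyl p s)| + p / r ^ 2 * |dfield (Sum.inr 1) b (cyl p s)| := by
          rw [abs_mul, abs_mul, abs_of_nonneg (by positivity : 0 ≤ s / r),
            abs_of_nonneg (by positivity : 0 ≤ p / r ^ 2)]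
      _ ≤ 10 / p * (3 * (c₁ * b (cyl p s))) + 1 / p * (c₁ * b (cyl p s)) :=
          add_le_add (mul_le_mul q1 hdr (abs_nonneg _) (by positivity))
            (mul_le_mul q2 (hw _ s) (abs_nonneg _) (by positivity))
      _ = 31 * c₁ / p * b (cyl p s) := by ring
  have hlog : ∀ s ∈ Set.Icc (0 : ℝ) z, HasDerivWithinAt (fun s => Real.log (b (cyl p s)))
      (dfield (Sum.inl 2) b (cyl p s) / b (cyl p s)) (Set.Icc 0 z) s :=
    fun s _ => ((hd s).log (hpos s).ne').hasDerivWithinAt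
  have hmv := (convex_Icc (0 : ℝ) z).norm_image_sub_le_of_norm_hasDerivWithin_le
    (f := fun s => Real.log (b (cyl p s))) (C := 31 * c₁ / p) hlog
    (fun s hs => by
      rw [Real.norm_eq_abs, abs_div, abs_of_pos (hpos s), div_le_iff₀ (hpos s)]
      exact hbound s hs)
    (Set.left_mem_Icc.2 hz) (Set.right_mem_Icc.2 hz)
  simp only [Real.norm_eq_abs, sub_zero, abs_of_nonneg hz] at hmv
  obtain ⟨w, hwdef⟩ : ∃ w, w = Real.log (b (cyl p z)) - Real.log (b (cyl p 0)) := ⟨_, rfl⟩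
  rw [← hwdef] at hmv
  have hwle : |w| ≤ 310 * c₁ / p := by
    refine hmv.trans ?_
    calc 31 * c₁ / p * z ≤ 31 * c₁ / p * 10 := mul_le_mul_of_nonneg_left hz10 (by positivity)
      _ = 310 * c₁ / p := by ring
  have hwle' : |w| ≤ 310 * c₁ := hwle.trans (div_le_self (by positivity) hp1)
  have hexp : b (cyl p z) = Real.exp w * b (cyl p 0) := by
    rw [hwdef, Real.exp_sub, Real.exp_log (hpos z), Real.exp_log (hpos 0)]
    field_simp [(hpos 0).ne']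
  have e : b (cyl p z) - b (cyl p 0) = (Real.exp w - 1) * b (cyl p 0) := by rw [hexp]; ring
  rw [e, abs_mul, abs_of_pos (hpos 0)]
  refine mul_le_mul_of_nonneg_right ?_ (hpos 0).le
  calc _ ≤ |w| * Real.exp |w| := dst_abs_exp_sub_one_le w
    _ ≤ 310 * c₁ / p * Real.exp (310 * c₁) :=
        mul_le_mul hwle (Real.exp_le_exp.2 hwle') (Real.exp_pos _).le (by positivity)
    _ = _ := by ring

/-- **leaf DS1-VZ (1).**  `λ A(ρ) ρ⁻⁴ = λ radialA k (β-4) ρ`, `dst_radialA_strip 6`, `‖T_eq‖ ≤ K²`. -/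
theorem ds1_Z₀_strip (κ : ChannelConsts) (b : Space → ℝ) (γ : ℝ) (R : ℝ) (C : ℕ → ℝ) (K : ℝ)
    (hR : 1 ≤ R) (hK : 0 ≤ K) :
    ∃ C₁ : ℝ, 0 ≤ C₁ ∧ ∀ S : ChannelSys 𝒦 κ b γ, S.Good R C K → ∀ p z : ℝ, R < p → 0 ≤ z →
      z ≤ stripL →
      ‖S.Z₀ (cyl p z) - (S.lam * radialA S.k S.β p * (p ^ 4)⁻¹) • S.Teq‖
        ≤ C₁ / p * (S.lam * radialA S.k S.β p * (p ^ 4)⁻¹) := by
  obtain ⟨C6, hC6, h6⟩ := dst_radialA_strip 6
  refine ⟨C6 * (K * K), by positivity, ?_⟩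
  intro S hS p z hp hz hz'
  have hp1 : 1 ≤ p := hR.trans hp.le
  have hp0 : 0 < p := by linarith
  obtain ⟨g1, -, -, -, -⟩ := dst_strip_geom hp1 hz hz'
  obtain ⟨hβ1, hβ2⟩ := S.beta_bounds
  have hk0 : 0 ≤ S.k := by linarith [S.k_lo]
  have hk2 : S.k ≤ 2 := by linarith [S.k_hi]
  have hl := S.lam_nonneg
  have a6 := h6 S.k (S.β - 4) p z hk0 hk2 (abs_le.2 ⟨by linarith, by linarith⟩) hp1 hz hz'
  have hr0 : 0 < ‖cyl p z‖ := by linarith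
  have e1 : ∀ ρ : ℝ, 0 < ρ → radialA S.k (S.β - 4) ρ = radialA S.k S.β ρ * (ρ ^ 4)⁻¹ :=
    fun ρ hρ => by
      have := dst_radialA_div_pow S.k S.β 4 hρ
      rw [this]; norm_num
  rw [e1 _ hr0, e1 p hp0] at a6
  have hT : ‖S.Teq‖ ≤ K * K := by
    rw [S.norm_Teq]
    exact mul_le_mul hS.slope_le hS.v₂_le (norm_nonneg _) hK
  have hA : S.A (cyl p z) = radialA S.k S.β ‖cyl p z‖ := rfl
  have id : S.Z₀ (cyl p z) - (S.lam * radialA S.k S.β p * (p ^ 4)⁻¹) • S.Teq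
      = (S.lam * (radialA S.k S.β ‖cyl p z‖ * (‖cyl p z‖ ^ 4)⁻¹
          - radialA S.k S.β p * (p ^ 4)⁻¹)) • S.Teq := by
    unfold ChannelSys.Z₀
    rw [hA, ← sub_smul]
    congr 1; ring
  rw [id, norm_smul, Real.norm_eq_abs, abs_mul, abs_of_nonneg hl]
  have hB : 0 ≤ radialA S.k S.β p * (p ^ 4)⁻¹ := by
    have := radialA_pos S.k S.β hp0
    positivity
  calc S.lam * |radialA S.k S.β ‖cyl p z‖ * (‖cyl p z‖ ^ 4)⁻¹ - radialA S.k S.β p * (p ^ 4)⁻¹|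
        * ‖S.Teq‖
      ≤ S.lam * (C6 / p * (radialA S.k S.β p * (p ^ 4)⁻¹)) * (K * K) :=
        mul_le_mul (mul_le_mul_of_nonneg_left a6 hl) hT (norm_nonneg _) (by positivity)
    _ = C6 * (K * K) / p * (S.lam * radialA S.k S.β p * (p ^ 4)⁻¹) := by ring

/-- **leaf DS1-VZ (2).**  `ds1_rem`: `‖Rem‖ ≤ C λ A(r) (|t|/r + r^{-17/4})`; `A(r) ≤ (1 + C) A(p)`,
`|t|/r = z/r² ≤ (z/p) p⁻¹ ≤ (z/p) p^{-1/4}`, `r^{-17/4} ≤ p^{-17/4} = p^{-1/4} p⁻⁴`, `λ ≤ 1`. -/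
theorem ds1_rem_strip (κ : ChannelConsts) (b : Space → ℝ) (γ : ℝ) (R : ℝ) (C : ℕ → ℝ) (K : ℝ)
    (hR : 1 ≤ R) (hC : ∀ n, 0 ≤ C n) (hK : 0 ≤ K) :
    ∃ C₁ : ℝ, 0 ≤ C₁ ∧ ∀ S : ChannelSys 𝒦 κ b γ, S.Good R C K → ∀ p z : ℝ, R < p → 0 ≤ z →
      z ≤ stripL →
      ‖S.Rem (cyl p z)‖ ≤ C₁ * p ^ (-(1 / 4) : ℝ)
        * (radialA S.k S.β p * z / p + S.lam * radialA S.k S.β p * (p ^ 4)⁻¹) := by
  obtain ⟨C2, hC2, h2⟩ := dst_radialA_strip 2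
  obtain ⟨Cr, hCr, hrem⟩ := ds1_rem (𝒦 := 𝒦) κ b γ R C K hR hC hK
  refine ⟨Cr * (1 + C2), by positivity, ?_⟩
  intro S hS p z hp hz hz'
  have hp1 : 1 ≤ p := hR.trans hp.le
  have hp0 : 0 < p := by linarith
  obtain ⟨g1, -, -, -, -⟩ := dst_strip_geom hp1 hz hz'
  obtain ⟨hβ1, hβ2⟩ := S.beta_bounds
  have hk0 : 0 ≤ S.k := by linarith [S.k_lo]
  have hk2 : S.k ≤ 2 := by linarith [S.k_hi]
  have hl := S.lam_nonneg
  have hl1 := S.lam_le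
  have hx : cyl p z ∈ Ext R := lt_of_lt_of_le hp g1
  have a2 := h2 S.k S.β p z hk0 hk2 (abs_le.2 ⟨by linarith, hβ2⟩) hp1 hz hz'
  have h := (hrem S hS _ hx).1
  unfold ChannelSys.remScale at h
  have hA : S.A (cyl p z) = radialA S.k S.β ‖cyl p z‖ := rfl
  rw [hA, dst_tz_cyl] at h
  obtain ⟨ρ0, ρ1, ρ2⟩ := ds1_rho_facts hp1
  obtain ⟨r, hr⟩ : ∃ r, r = ‖cyl p z‖ := ⟨_, rfl⟩
  rw [← hr] at g1 a2 h
  have hr0 : 0 < r := by linarith
  obtain ⟨Ar, hAr⟩ : ∃ Ar, Ar = radialA S.k S.β r := ⟨_, rfl⟩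
  obtain ⟨Ap, hAp⟩ : ∃ Ap, Ap = radialA S.k S.β p := ⟨_, rfl⟩
  have hAp0 : 0 < Ap := hAp ▸ radialA_pos _ _ hp0
  have hAr0 : 0 < Ar := hAr ▸ radialA_pos _ _ hr0
  rw [← hAr, ← hAp] at a2
  rw [← hAr] at h
  rw [← hAp]
  have hArle : Ar ≤ (1 + C2) * Ap := by
    have h := (abs_le.1 a2).2
    have : C2 / p * Ap ≤ C2 * Ap :=
      mul_le_mul_of_nonneg_right (div_le_self hC2 hp1) hAp0.le
    linarith
  have e17 : p ^ (-(17 / 4) : ℝ) = p ^ (-(1 / 4) : ℝ) * (p ^ 4)⁻¹ := by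
    rw [← Real.rpow_natCast p 4, ← Real.rpow_neg hp0.le, ← Real.rpow_add hp0]
    norm_num
  have t17 : r ^ (-(17 / 4) : ℝ) ≤ p ^ (-(1 / 4) : ℝ) * (p ^ 4)⁻¹ := by
    rw [← e17]
    exact Real.rpow_le_rpow_of_nonpos hp0 g1 (by norm_num)
  obtain ⟨ρ, hρ⟩ : ∃ ρ, ρ = p ^ (-(1 / 4) : ℝ) := ⟨_, rfl⟩
  rw [← hρ] at ρ0 ρ1 ρ2 t17 ⊢
  have t1 : |z / r| / r ≤ ρ * (z / p) := by
    rw [abs_of_nonneg (by positivity), div_div]
    calc z / (r * r) ≤ z / (p * p) :=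
          div_le_div_of_nonneg_left hz (by positivity) (by nlinarith)
      _ = p⁻¹ * (z / p) := by field_simp
      _ ≤ ρ * (z / p) := mul_le_mul_of_nonneg_right ρ2 (by positivity)
  refine h.trans ?_
  have hp4 : 0 < (p ^ 4)⁻¹ := by positivity
  have hzp : 0 ≤ z / p := by positivity
  calc Cr * (S.lam * Ar * (|z / r| / r + r ^ (-(17 / 4) : ℝ)))
      ≤ Cr * (S.lam * ((1 + C2) * Ap) * (ρ * (z / p) + ρ * (p ^ 4)⁻¹)) := by
        gcongr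
    _ = Cr * (1 + C2) * ρ * (S.lam * (Ap * z / p) + S.lam * Ap * (p ^ 4)⁻¹) := by ring
    _ ≤ Cr * (1 + C2) * ρ * (Ap * z / p + S.lam * Ap * (p ^ 4)⁻¹) := by
        have : S.lam * (Ap * z / p) ≤ 1 * (Ap * z / p) :=
          mul_le_mul_of_nonneg_right hl1 (by positivity)
        gcongr
        linarith

/-- **DS1e** (3.45): the strip comparison vector (no simple zero needed). -/
theorem ds1_strip_vector (κ : ChannelConsts) (b : Space → ℝ) (γ : ℝ) (Cb : ℕ → ℝ) (cb : ℝ)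
    (hb : FastOrbital b γ κ.R₁ Cb cb) (R : ℝ) (C : ℕ → ℝ) (K : ℝ) (hRκ : κ.R₁ ≤ R)
    (hC : ∀ n, 0 ≤ C n) (hK : 0 ≤ K) :
    ∃ C' : ℝ, 0 ≤ C' ∧ ∀ S : ChannelSys 𝒦 κ b γ, S.Good R C K → ∀ p z : ℝ, R < p → 0 ≤ z →
      z ≤ stripL →
      ‖S.F (cyl p z) - ((S.slope * (radialA S.k S.β p * z / p : ℝ)) • S.φ + b (cyl p 0) • S.G
          + (S.lam * radialA S.k S.β p * (p ^ 4)⁻¹) • S.Teq)‖
        ≤ C' * p ^ (-(1 / 4) : ℝ)
          * (radialA S.k S.β p * z / p + b (cyl p 0) + S.lam * radialA S.k S.β p * (p ^ 4)⁻¹) := by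
  have hR : 1 ≤ R := (ds1_one_le_R₁ κ).trans hRκ
  obtain ⟨Cf, hCf, hf⟩ := ds1_f_strip (𝒦 := 𝒦) κ b γ R C K hR hK
  obtain ⟨CB, hCB, hB⟩ := ds1_b_strip (ds1_one_le_R₁ κ) hb
  obtain ⟨CZ, hCZ, hZ⟩ := ds1_Z₀_strip (𝒦 := 𝒦) κ b γ R C K hR hK
  obtain ⟨CR, hCR, hRm⟩ := ds1_rem_strip (𝒦 := 𝒦) κ b γ R C K hR hC hK
  refine ⟨Cf + 2 * CB + CZ + CR, by positivity, ?_⟩
  intro S hS p z hp hz hz'
  have hp1 : 1 ≤ p := hR.trans hp.le
  have hp0 : 0 < p := by linarith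
  obtain ⟨ρ0, ρ1, ρ2⟩ := ds1_rho_facts hp1
  obtain ⟨ρ, hρ⟩ : ∃ ρ, ρ = p ^ (-(1 / 4) : ℝ) := ⟨_, rfl⟩
  rw [← hρ] at ρ0 ρ1 ρ2 ⊢
  have h1 := hf S hS p z hp hz hz'
  have h2 := hB p z (lt_of_le_of_lt hRκ hp) hz hz'
  have h3 := hZ S hS p z hp hz hz'
  have h4 := hRm S hS p z hp hz hz'
  rw [← hρ] at h4
  have hApos : 0 < radialA S.k S.β p := radialA_pos _ _ hp0
  obtain ⟨T1, hT1⟩ : ∃ T1, T1 = radialA S.k S.β p * z / p := ⟨_, rfl⟩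
  obtain ⟨T3, hT3⟩ : ∃ T3, T3 = S.lam * radialA S.k S.β p * (p ^ 4)⁻¹ := ⟨_, rfl⟩
  have hT1n : 0 ≤ T1 := by rw [hT1]; positivity
  have hT3n : 0 ≤ T3 := by rw [hT3]; have := S.lam_nonneg; positivity
  have hb0 : 0 ≤ b (cyl p 0) := by
    refine (hb.pos (by linarith [ds1_one_le_R₁ κ]) ?_).le
    have : ‖cyl p 0‖ = p := by
      rw [norm_cyl]; simp only [ne_eq, OfNat.ofNat_ne_zero, not_false_eq_true, zero_pow, add_zero]
      exact Real.sqrt_sq hp0.le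
    show κ.R₁ < ‖cyl p 0‖
    rw [this]; exact lt_of_le_of_lt hRκ hp
  rw [← hT1] at h1 h4 ⊢
  rw [← hT3] at h3 h4 ⊢
  have hdiv : ∀ c : ℝ, 0 ≤ c → c / p ≤ c * ρ := fun c hc => by
    rw [div_eq_mul_inv]; exact mul_le_mul_of_nonneg_left ρ2 hc
  have e : S.F (cyl p z) - ((S.slope * (T1 : ℝ)) • S.φ + b (cyl p 0) • S.G + T3 • S.Teq)
      = (S.f (cyl p z) - S.slope * (T1 : ℝ)) • S.φ + (b (cyl p z) - b (cyl p 0)) • S.G
        + (S.Z₀ (cyl p z) - T3 • S.Teq) + S.Rem (cyl p z) := by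
    conv_lhs => rw [S.F_eq (cyl p z)]
    simp only [sub_smul]; abel
  rw [e]
  have n1 := norm_add_le ((S.f (cyl p z) - S.slope * (T1 : ℝ)) • S.φ
    + (b (cyl p z) - b (cyl p 0)) • S.G + (S.Z₀ (cyl p z) - T3 • S.Teq)) (S.Rem (cyl p z))
  have n2 := norm_add_le ((S.f (cyl p z) - S.slope * (T1 : ℝ)) • S.φ
    + (b (cyl p z) - b (cyl p 0)) • S.G) (S.Z₀ (cyl p z) - T3 • S.Teq)
  have n3 := norm_add_le ((S.f (cyl p z) - S.slope * (T1 : ℝ)) • S.φ)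
    ((b (cyl p z) - b (cyl p 0)) • S.G)
  have m1 : ‖(S.f (cyl p z) - S.slope * (T1 : ℝ)) • S.φ‖ ≤ Cf * ρ * T1 := by
    rw [norm_smul, S.φ_norm, mul_one]
    exact h1.trans (mul_le_mul_of_nonneg_right (hdiv _ hCf) hT1n)
  have m2 : ‖(b (cyl p z) - b (cyl p 0)) • S.G‖ ≤ 2 * (CB * ρ * b (cyl p 0)) := by
    rw [norm_smul, Real.norm_eq_abs, S.norm_G]
    have a1 : |b (cyl p z) - b (cyl p 0)| ≤ CB * ρ * b (cyl p 0) :=
      h2.trans (mul_le_mul_of_nonneg_right (hdiv _ hCB) hb0)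
    have a2 := ds1_sqrt_two_le
    calc |b (cyl p z) - b (cyl p 0)| * √2 ≤ (CB * ρ * b (cyl p 0)) * 2 :=
          mul_le_mul a1 a2 (Real.sqrt_nonneg _) (by positivity)
      _ = 2 * (CB * ρ * b (cyl p 0)) := by ring
  have m3 : ‖S.Z₀ (cyl p z) - T3 • S.Teq‖ ≤ CZ * ρ * T3 :=
    h3.trans (mul_le_mul_of_nonneg_right (hdiv _ hCZ) hT3n)
  have e2 : (Cf + 2 * CB + CZ + CR) * ρ * (T1 + b (cyl p 0) + T3)
      = Cf * ρ * T1 + 2 * (CB * ρ * b (cyl p 0)) + CZ * ρ * T3 + CR * ρ * (T1 + T3)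
        + (Cf * ρ * (b (cyl p 0) + T3) + 2 * (CB * ρ * (T1 + T3)) + CZ * ρ * (T1 + b (cyl p 0))
          + CR * ρ * b (cyl p 0)) := by ring
  have pos : 0 ≤ Cf * ρ * (b (cyl p 0) + T3) + 2 * (CB * ρ * (T1 + T3))
      + CZ * ρ * (T1 + b (cyl p 0)) + CR * ρ * b (cyl p 0) := by positivity
  rw [e2]; linarith

/-- **DS1e** (3.45): the strip comparison vector. -/
theorem ds_strip_vector (κ : ChannelConsts) (b : Space → ℝ) (γ : ℝ) (Cb : ℕ → ℝ) (cb : ℝ) (c₀ : ℝ)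
    (hb : FastOrbital b γ κ.R₁ Cb cb) (_hc₀ : 0 < c₀) :
    ∃ (R₀ : ℝ) (ε : ℝ → ℝ), κ.R₁ ≤ R₀ ∧ Filter.Tendsto ε Filter.atTop (𝓝 0) ∧
      ∀ S : ChannelSys 𝒦 κ b γ, S.SimpleZero c₀ → ∀ p z : ℝ, R₀ < p → 0 ≤ z → z ≤ stripL →
      ‖S.F (cyl p z) - ((S.slope * (radialA S.k S.β p * z / p : ℝ)) • S.φ + b (cyl p 0) • S.G
          + (S.lam * radialA S.k S.β p * (p ^ 4)⁻¹) • S.Teq)‖
        ≤ ε p * (radialA S.k S.β p * z / p + b (cyl p 0) + S.lam * radialA S.k S.β p * (p ^ 4)⁻¹) := by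
  obtain ⟨R, C, K, hRκ, hC, hK, hgood⟩ := ds_good (𝒦 := 𝒦) κ b γ Cb cb hb
  obtain ⟨C', -, h⟩ := ds1_strip_vector (𝒦 := 𝒦) κ b γ Cb cb hb R C K hRκ hC hK
  exact ⟨R, fun r => C' * r ^ (-(1 / 4) : ℝ), hRκ, ds1_tendsto_eps _,
    fun S _ p z hp hz hz' => h S (hgood S) p z hp hz hz'⟩

end Claimed.Open.R278
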