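import Claimed.Open.R278.DS2Top

/-!
# Result 278, layer DS, file DS2Amp: the amplitude test (7.3) is the simple angular zero

Sub-captain helper88.  PAPER-FREE.  SORRY-FREE (leaves proved by helper162).  Leaves: `DS2-A1` (`ds2_amp_tendsto`, `ds2_amp_liminf`), `DS2-A2`
(`ds2_simpleZero_iff`).  `ds_amplitude_iff` is proved from them at the end.
-/

open MeasureTheory Filter
open scoped ContDiff InnerProductSpace ComplexConjugate ENNReal Topology Laplacian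

noncomputable section

namespace Claimed.Open.R278

variable {𝒦 : Type} [NormedAddCommGroup 𝒦] [InnerProductSpace ℂ 𝒦] [CompleteSpace 𝒦]
variable {κ : ChannelConsts} {b : Space → ℝ} {γ : ℝ}

/-- **leaf DS2-A1 (1).**  For `r > κ.R₁`: `‖f(ru)‖ / A(r) = ‖h(ru)‖ → ‖a₀ u‖` (`ch1_tendsto_a₀` at `x = u`, `‖u‖ = 1`),
and `|‖amp(ru)‖ - ‖f(ru)‖| / A(r) ≤ κ.C 0 e^{-(σ-k) r} r^{-β} → 0` (`S.sigma_gt : k + μ ≤ σ`, `dst_exp_gap`). -/
theorem ds2_amp_tendsto (S : ChannelSys 𝒦 κ b γ) (amp : Space → EuclideanSpace ℂ (Fin 2))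
    (hamp : ∀ x ∈ Ext κ.R₁, |‖amp x‖ - ‖S.f x‖| ≤ κ.C 0 * Real.exp (-(κ.σ * ‖x‖)))
    {u : Space} (hu : ‖u‖ = 1) :
    Tendsto (fun r : ℝ => ‖amp (r • u)‖ / radialA S.k S.β r) atTop (𝓝 ‖S.a₀ u‖) := by
  have hu0 : u ∈ Ext 0 := by
    show (0 : ℝ) < ‖u‖
    rw [hu]; norm_num
  have h1 := (ch1_tendsto_a₀ S.toChannelCore u hu0).norm
  simp only [hu, div_one] at h1
  have hnorm : ∀ r : ℝ, 0 < r → ‖r • u‖ = r := fun r hr => by
    rw [norm_smul, hu, mul_one, Real.norm_of_nonneg hr.le]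
  have h2 : Tendsto (fun r : ℝ => (‖amp (r • u)‖ - ‖S.f (r • u)‖) / radialA S.k S.β r) atTop
      (𝓝 0) := by
    have hg := (dst_exp_gap κ.μ κ.μ_pos (-S.β)).const_mul |κ.C 0|
    rw [mul_zero] at hg
    refine squeeze_zero_norm' ?_ hg
    filter_upwards [eventually_gt_atTop κ.R₁, eventually_gt_atTop 0] with r hr hr0
    have hx : r • u ∈ Ext κ.R₁ := by
      show κ.R₁ < ‖r • u‖
      rw [hnorm r hr0]; exact hr
    have h := hamp _ hx
    rw [hnorm r hr0] at h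
    have hA := radialA_pos S.k S.β hr0
    rw [Real.norm_eq_abs, abs_div, abs_of_pos hA, div_le_iff₀ hA]
    refine h.trans ?_
    have e : |κ.C 0| * (Real.exp (-(κ.μ * r)) * r ^ (-S.β)) * radialA S.k S.β r
        = |κ.C 0| * (Real.exp (-(κ.μ * r)) * Real.exp (-(S.k * r))) := by
      unfold radialA
      rw [Real.rpow_neg hr0.le]
      have : r ^ S.β ≠ 0 := (Real.rpow_pos_of_pos hr0 _).ne'
      field_simp
    rw [e, ← Real.exp_add]
    have h3 : Real.exp (-(κ.σ * r)) ≤ Real.exp (-(κ.μ * r) + -(S.k * r)) := by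
      apply Real.exp_le_exp.2
      have := S.sigma_gt
      nlinarith
    calc κ.C 0 * Real.exp (-(κ.σ * r)) ≤ |κ.C 0| * Real.exp (-(κ.σ * r)) :=
          mul_le_mul_of_nonneg_right (le_abs_self _) (Real.exp_pos _).le
      _ ≤ _ := mul_le_mul_of_nonneg_left h3 (abs_nonneg _)
  have h3 := h1.add h2
  rw [add_zero] at h3
  refine h3.congr' ?_
  filter_upwards [eventually_gt_atTop 0] with r hr0
  have hA := radialA_pos S.k S.β hr0
  have e : ‖S.h (r • u)‖ = ‖S.f (r • u)‖ / radialA S.k S.β r := by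
    have : S.h (r • u) = S.f (r • u) / ((radialA S.k S.β r : ℝ) : ℂ) := by
      show S.f (r • u) / ((radialA S.k S.β ‖r • u‖ : ℝ) : ℂ) = _
      rw [hnorm r hr0]
    rw [this, norm_div, Complex.norm_real, Real.norm_of_nonneg hA.le]
  rw [e]
  field_simp
  ring

/-- **leaf DS2-A1 (2).**  `Tendsto.liminf_eq`, `ENNReal.continuous_ofReal`, division by the constant `u 2`. -/
theorem ds2_amp_liminf (S : ChannelSys 𝒦 κ b γ) (amp : Space → EuclideanSpace ℂ (Fin 2))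
    (hamp : ∀ x ∈ Ext κ.R₁, |‖amp x‖ - ‖S.f x‖| ≤ κ.C 0 * Real.exp (-(κ.σ * ‖x‖)))
    {u : Space} (hu : ‖u‖ = 1) (_hu2 : 0 < u 2) :
    Filter.liminf (fun r : ℝ => ENNReal.ofReal (‖amp (r • u)‖ / (u 2 * radialA S.k S.β r)))
      Filter.atTop = ENNReal.ofReal (‖S.a₀ u‖ / u 2) := by
  have h1 := (ds2_amp_tendsto S amp hamp hu).div_const (u 2)
  have h2 : Tendsto (fun r : ℝ => ENNReal.ofReal (‖amp (r • u)‖ / (u 2 * radialA S.k S.β r))) atTop
      (𝓝 (ENNReal.ofReal (‖S.a₀ u‖ / u 2))) := by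
    refine ((ENNReal.continuous_ofReal.tendsto _).comp h1).congr fun r => ?_
    simp only [Function.comp_apply]
    rw [div_div, mul_comm]
  exact h2.liminf_eq

/-- **leaf DS2-A2.**  `a₀` is homogeneous of degree `0` (`channel_amplitude`) and odd (`ch2_a₀_odd`);
`tz x = (x/|x|) 2`; for `tz x < 0` use `reflZ x`; for `tz x = 0` nothing to prove. -/
theorem ds2_simpleZero_iff (S : ChannelSys 𝒦 κ b γ) (c : ℝ) :
    S.SimpleZero c ↔ ∀ u : Space, ‖u‖ = 1 → 0 < u 2 → c * u 2 ≤ ‖S.a₀ u‖ := by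
  obtain ⟨R₀, C, -, hch⟩ := channel_amplitude (𝒦 := 𝒦) κ
  have hhom := (hch S.toChannelCore).2.1
  constructor
  · intro h u hu hu2
    have hu0 : u ∈ Ext 0 := by
      show (0 : ℝ) < ‖u‖
      rw [hu]; norm_num
    have := h u hu0
    rwa [tz, hu, div_one, abs_of_pos hu2] at this
  · intro h
    have key : ∀ x ∈ Ext 0, 0 < tz x → c * |tz x| ≤ ‖S.a₀ x‖ := by
      intro x hx ht
      have hr : 0 < ‖x‖ := hx
      have h1 := h (‖x‖⁻¹ • x) (dst_norm_urad (dst_ne_zero le_rfl hx)) (by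
        have : (‖x‖⁻¹ • x) 2 = tz x := by
          simp only [tz, PiLp.smul_apply, smul_eq_mul]
          rw [div_eq_inv_mul]
        rw [this]; exact ht)
      have e : (‖x‖⁻¹ • x) 2 = tz x := by
        simp only [tz, PiLp.smul_apply, smul_eq_mul]
        rw [div_eq_inv_mul]
      rw [e, hhom x hx _ (inv_pos.2 hr)] at h1
      rwa [abs_of_pos ht]
    intro x hx
    rcases lt_trichotomy (tz x) 0 with ht | ht | ht
    · have h1 := key (reflZ x) (reflZ_mem_Ext hx) (by rw [dst_tz_reflZ]; linarith)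
      rwa [dst_tz_reflZ, abs_neg, ch2_a₀_odd S x hx, norm_neg] at h1
    · rw [ht, abs_zero, mul_zero]; exact norm_nonneg _
    · exact key x hx ht

/-- **DS2e**: the amplitude test (7.3) is equivalent to the simple angular zero.  `amp` is any
function with `| ‖amp x‖ - |f x| | ≤ C e^{-σ r}`. -/
theorem ds_amplitude_iff (κ : ChannelConsts) (b : Space → ℝ) (γ : ℝ) (S : ChannelSys 𝒦 κ b γ)
    (amp : Space → EuclideanSpace ℂ (Fin 2))
    (hamp : ∀ x ∈ Ext κ.R₁, |‖amp x‖ - ‖S.f x‖| ≤ κ.C 0 * Real.exp (-(κ.σ * ‖x‖))) :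
    (0 < ⨅ u ∈ {u : Space | ‖u‖ = 1 ∧ 0 < u 2},
      Filter.liminf (fun r : ℝ => ENNReal.ofReal (‖amp (r • u)‖ / (u 2 * radialA S.k S.β r)))
        Filter.atTop) ↔ ∃ c₀ > 0, S.SimpleZero c₀ := by
  have hL : ∀ u ∈ {u : Space | ‖u‖ = 1 ∧ 0 < u 2},
      Filter.liminf (fun r : ℝ => ENNReal.ofReal (‖amp (r • u)‖ / (u 2 * radialA S.k S.β r)))
        Filter.atTop = ENNReal.ofReal (‖S.a₀ u‖ / u 2) :=
    fun u hu => ds2_amp_liminf S amp hamp hu.1 hu.2
  rw [iInf_congr fun u => iInf_congr fun hu => hL u hu]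
  constructor
  · intro h
    obtain ⟨c, hc0, hc⟩ := ENNReal.lt_iff_exists_nnreal_btwn.1 h
    have hc0' : (0 : ℝ) < c := by exact_mod_cast hc0
    refine ⟨c, hc0', (ds2_simpleZero_iff S c).2 fun u hu hu2 => ?_⟩
    have h1 : (c : ℝ≥0∞) ≤ ENNReal.ofReal (‖S.a₀ u‖ / u 2) :=
      hc.le.trans (iInf₂_le u (show u ∈ {u : Space | ‖u‖ = 1 ∧ 0 < u 2} from ⟨hu, hu2⟩))
    rw [← ENNReal.ofReal_coe_nnreal, ENNReal.ofReal_le_ofReal_iff (by positivity)] at h1
    rwa [le_div_iff₀ hu2] at h1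
  · rintro ⟨c₀, hc₀, h⟩
    have h1 := (ds2_simpleZero_iff S c₀).1 h
    refine lt_of_lt_of_le (ENNReal.ofReal_pos.2 hc₀) (le_iInf₂ fun u hu => ?_)
    refine ENNReal.ofReal_le_ofReal ?_
    rw [le_div_iff₀ hu.2]
    exact h1 u hu.1 hu.2

end Claimed.Open.R278
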