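import Claimed.Open.R278.DS2Tools

/-!
# Result 278, layer DS, file DS2Drift: drift, strip and exterior positivity of the density (3.44)

Sub-captain helper88.  SORRY-FREE.  ONE leaf: `DS2-SPLIT` (`ds2_split`, proved by helper162).  The rest is glue, proved here.
`N = ‖F‖²`, `n = N + e`, `|e|, |De|, |D²e| ≤ η₀ = κ.C 0 e^{-2σr} ≤ Cη r^{-1/4} N`.
-/

open MeasureTheory Filter
open scoped ContDiff InnerProductSpace ComplexConjugate ENNReal Topology Laplacian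

noncomputable section

namespace Claimed.Open.R278

variable {𝒦 : Type} [NormedAddCommGroup 𝒦] [InnerProductSpace ℂ 𝒦] [CompleteSpace 𝒦]
variable {κ : ChannelConsts} {b : Space → ℝ} {γ : ℝ}

set_option linter.unusedSectionVars false

/-- **leaf DS2-SPLIT.**  `e = n - ‖F‖²` is `C²` on `Ext R` (`DensityLink.smooth`, `ds2_contDiffOn_norm_sq`),
`n = ‖F‖² + e` pointwise, so `dr`, `∂₀`, `∂₀²` split (`dst_dr_add`, `dword_add`-like arguments, or directly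
`fderiv_add`); the `‖F‖²` parts are `ds2_dr_norm_sq`, `dfield_norm_sq`, `ds2_d00_norm_sq`; the `e` parts are
bounded by `err₀, err₁, err₂` through `dst_norm_dr_le`, `dst_norm_dfield_le`, `ds2_norm_d00_le`. -/
theorem ds2_split {R : ℝ} {C : ℕ → ℝ} {K : ℝ} (hRκ : κ.R₁ ≤ R) (S : ChannelSys 𝒦 κ b γ)
    (hS : S.Good R C K) {n : Space → ℝ} (hn : DensityLink S n) : ∀ x ∈ Ext R,
      DifferentiableAt ℝ n x ∧
      |n x - ‖S.F x‖ ^ 2| ≤ κ.C 0 * Real.exp (-(2 * κ.σ * ‖x‖)) ∧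
      |dr n x - 2 * (⟪S.F x, dr S.F x⟫_ℂ).re| ≤ κ.C 0 * Real.exp (-(2 * κ.σ * ‖x‖)) ∧
      |dfield (Sum.inl 0) n x - 2 * (⟪S.F x, dfield (Sum.inl 0) S.F x⟫_ℂ).re|
        ≤ κ.C 0 * Real.exp (-(2 * κ.σ * ‖x‖)) ∧
      |dfield (Sum.inl 0) (dfield (Sum.inl 0) n) x - (2 * ‖dfield (Sum.inl 0) S.F x‖ ^ 2
          + 2 * (⟪S.F x, dfield (Sum.inl 0) (dfield (Sum.inl 0) S.F) x⟫_ℂ).re)|
        ≤ κ.C 0 * Real.exp (-(2 * κ.σ * ‖x‖)) := by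
  intro x hx
  have hxκ : x ∈ Ext κ.R₁ := Ext_mono hRκ hx
  have hR0 : 0 ≤ R := by linarith [ds1_one_le_R₁ κ]
  have hx0 : x ≠ 0 := dst_ne_zero hR0 hx
  have hF := hS.F_bdd.1
  have hN := ds2_contDiffOn_norm_sq hF
  have hnat : ∀ y ∈ Ext R, ContDiffAt ℝ 2 n y := fun y hy =>
    hn.smooth.contDiffAt (Ext_mem_nhds (Ext_mono hRκ hy))
  have hNat : ∀ y ∈ Ext R, ContDiffAt ℝ 2 (fun y => ‖S.F y‖ ^ 2) y := fun y hy =>
    contDiffAt_two_of_mem_Ext hN hy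
  have dn : ∀ y ∈ Ext R, DifferentiableAt ℝ n y := fun y hy =>
    (hnat y hy).differentiableAt (by simp)
  have dN : ∀ y ∈ Ext R, DifferentiableAt ℝ (fun y => ‖S.F y‖ ^ 2) y := fun y hy =>
    (hNat y hy).differentiableAt (by simp)
  have dF : DifferentiableAt ℝ S.F x := differentiableAt_of_mem_Ext hF hx
  have he : ContDiffAt ℝ 2 (fun y => n y - ‖S.F y‖ ^ 2) x := (hnat x hx).sub (hNat x hx)
  refine ⟨dn x hx, hn.err₀ x hxκ, ?_, ?_, ?_⟩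
  · rw [← ds2_dr_norm_sq dF, ← dst_dr_sub (dn x hx) (dN x hx), ← Real.norm_eq_abs]
    exact (dst_norm_dr_le _ hx0).trans (hn.err₁ x hxκ)
  · rw [← dfield_norm_sq dF, ← dfield_sub (dn x hx) (dN x hx), ← Real.norm_eq_abs]
    exact (dst_norm_dfield_le _ x 0).trans (hn.err₁ x hxκ)
  · have d1 : DifferentiableAt ℝ (dfield (Sum.inl 0) n) x :=
      (differentiableAt_fderiv (hnat x hx)).clm_apply (differentiableAt_const _)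
    have d2 : DifferentiableAt ℝ (dfield (Sum.inl 0) (fun y => ‖S.F y‖ ^ 2)) x :=
      (differentiableAt_fderiv (hNat x hx)).clm_apply (differentiableAt_const _)
    have hc : ∀ y ∈ Ext R, dfield (Sum.inl 0) (fun y => n y - ‖S.F y‖ ^ 2) y
        = dfield (Sum.inl 0) n y - dfield (Sum.inl 0) (fun y => ‖S.F y‖ ^ 2) y :=
      fun y hy => dfield_sub (dn y hy) (dN y hy) _
    rw [← ds2_d00_norm_sq hF x hx, ← dfield_sub d1 d2, ← dfield_congr hc _ x hx]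
    exact (ds2_norm_d00_le he).trans (hn.err₂ x hxκ)

/-- the basic facts at every far point. -/
theorem ds2_base (κ : ChannelConsts) (b : Space → ℝ) (γ : ℝ) (Cb : ℕ → ℝ) (cb : ℝ)
    (hb : FastOrbital b γ κ.R₁ Cb cb) (R : ℝ) (C : ℕ → ℝ) (K : ℝ) (hRκ : κ.R₁ ≤ R)
    (hC : ∀ n, 0 ≤ C n) (hK : 0 ≤ K) {c₀ : ℝ} (hc₀ : 0 < c₀) :
    ∃ R' Cη c : ℝ, R ≤ R' ∧ 0 ≤ Cη ∧ 0 < c ∧ ∀ S : ChannelSys 𝒦 κ b γ, S.Good R C K →
      S.SimpleZero c₀ → ∀ n : Space → ℝ, DensityLink S n → ∀ x ∈ Ext R',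
      0 < ‖S.F x‖ ∧ b x ≤ 2 * ‖S.F x‖ ∧ c * S.scale x ≤ ‖S.F x‖ ∧
      κ.C 0 * Real.exp (-(2 * κ.σ * ‖x‖)) ≤ Cη * ‖x‖ ^ (-(1 / 4) : ℝ) * ‖S.F x‖ ^ 2 ∧
      ‖S.F x‖ ^ 2 / 2 ≤ n x ∧ n x ≤ 2 * ‖S.F x‖ ^ 2 := by
  by_cases hne : Nonempty (ChannelSys 𝒦 κ b γ)
  swap
  · exact ⟨R, 0, 1, le_rfl, le_rfl, one_pos, fun S => (hne ⟨S⟩).elim⟩
  obtain ⟨S₀⟩ := hne
  obtain ⟨R₁', c, C', hRR', hc, -, h⟩ := ds1_core (𝒦 := 𝒦) κ b γ Cb cb hb R C K hRκ hC hK hc₀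
  obtain ⟨Ce, hCe, he⟩ := ds2_err_rel (C₀ := κ.C 0) (ds1_one_le_R₁ κ) hb κ.μ_pos S₀.sigma_gt'
  obtain ⟨R₂, hR₂1, hR₂⟩ := ds1_rho_small (4 * Ce) (by norm_num : (0 : ℝ) < 1 / 2)
  refine ⟨max R₁' R₂, 4 * Ce, c, hRR'.trans (le_max_left _ _), by positivity, hc, ?_⟩
  intro S hS h₀ n hn x hx
  have hx1 : x ∈ Ext R₁' := Ext_mono (le_max_left _ _) hx
  have hxR : x ∈ Ext R := Ext_mono hRR' hx1
  have hxκ : x ∈ Ext κ.R₁ := Ext_mono hRκ hxR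
  obtain ⟨a1, a2, a3⟩ := h S hS h₀ x hx1
  have hbpos : 0 < b x := hb.pos (by linarith [ds1_one_le_R₁ κ]) hxκ
  have hF : 0 < ‖S.F x‖ := by linarith
  have hρ0 : 0 ≤ ‖x‖ ^ (-(1 / 4) : ℝ) := Real.rpow_nonneg (norm_nonneg _) _
  have hb2 : b x ^ 2 ≤ 4 * ‖S.F x‖ ^ 2 := by nlinarith
  have hη : κ.C 0 * Real.exp (-(2 * κ.σ * ‖x‖)) ≤ 4 * Ce * ‖x‖ ^ (-(1 / 4) : ℝ) * ‖S.F x‖ ^ 2 := by
    refine (he x hxκ).trans ?_
    calc Ce * ‖x‖ ^ (-(1 / 4) : ℝ) * b x ^ 2 ≤ Ce * ‖x‖ ^ (-(1 / 4) : ℝ) * (4 * ‖S.F x‖ ^ 2) :=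
          mul_le_mul_of_nonneg_left hb2 (by positivity)
      _ = 4 * Ce * ‖x‖ ^ (-(1 / 4) : ℝ) * ‖S.F x‖ ^ 2 := by ring
  have hsmall : 4 * Ce * ‖x‖ ^ (-(1 / 4) : ℝ) ≤ 1 / 2 :=
    hR₂ ‖x‖ ((le_max_right _ _).trans (le_of_lt hx))
  have hη2 : κ.C 0 * Real.exp (-(2 * κ.σ * ‖x‖)) ≤ 1 / 2 * ‖S.F x‖ ^ 2 :=
    hη.trans (mul_le_mul_of_nonneg_right hsmall (by positivity))
  have hsp := (ds2_split hRκ S hS hn x hxR).2.1
  rw [abs_le] at hsp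
  refine ⟨hF, a3, a1, hη, by linarith [hsp.1], by linarith [hsp.2]⟩

/-- division by `n ≥ N/2`. -/
theorem ds2_quot {n N Y a : ℝ} (hN : 0 < N) (hn : N / 2 ≤ n) (hY : |Y| ≤ a * N) :
    |Y / n| ≤ 2 * a := by
  have hn0 : 0 < n := by linarith
  rw [abs_div, abs_of_pos hn0, div_le_iff₀ hn0]
  have ha : 0 ≤ a := by
    by_contra h
    have : a * N < 0 := mul_neg_of_neg_of_pos (not_le.1 h) hN
    linarith [abs_nonneg Y]
  nlinarith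

/-- first order: from `N` to `log n`. -/
theorem ds2_first_order {n N Dn P c δ ε η : ℝ} (hN : 0 < N) (hn : N / 2 ≤ n) (hc : |c| ≤ 2)
    (h0 : |n - N| ≤ η * N) (h1 : |Dn - P| ≤ η * N) (h2 : |P + 2 * c * N| ≤ (6 * δ + 2 * ε) * N) :
    |Dn / n + 2 * c| ≤ 12 * δ + 4 * ε + 10 * η := by
  have hn0 : 0 < n := by linarith
  have e : Dn / n + 2 * c = (Dn + 2 * c * n) / n := by field_simp
  rw [e]
  have hY : |Dn + 2 * c * n| ≤ (6 * δ + 2 * ε + 5 * η) * N := by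
    have e2 : Dn + 2 * c * n = (P + 2 * c * N) + (Dn - P) + 2 * c * (n - N) := by ring
    rw [e2]
    have t1 := abs_add_le ((P + 2 * c * N) + (Dn - P)) (2 * c * (n - N))
    have t2 := abs_add_le (P + 2 * c * N) (Dn - P)
    have t3 : |2 * c * (n - N)| ≤ 4 * (η * N) := by
      rw [abs_mul, abs_mul, abs_of_nonneg (by norm_num : (0:ℝ) ≤ 2)]
      exact mul_le_mul (by linarith) h0 (abs_nonneg _) (by norm_num)
    linarith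
  have := ds2_quot hN hn hY
  linarith

/-- second order: from `N` to `m = e^{2kp} n`. -/
theorem ds2_second_order {n N D1 D2 P1 P2 k δ ε η : ℝ} (hN : 0 < N) (hn : N / 2 ≤ n)
    (hk0 : 0 ≤ k) (hk : k ≤ 2) (h0 : |n - N| ≤ η * N) (h1 : |D1 - P1| ≤ η * N)
    (h2 : |D2 - P2| ≤ η * N) (a1 : |P1 + 2 * k * N| ≤ (6 * δ + 2 * ε) * N)
    (a2 : |P2 + 4 * k * P1 + 4 * k ^ 2 * N| ≤ (2 * (3 * δ + ε) ^ 2 + 6 * δ ^ 2 + 2 * ε) * N) :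
    |D1 + 2 * k * n| + |D2 + 4 * k * D1 + 4 * k ^ 2 * n|
      ≤ (12 * δ + 48 * δ ^ 2 + 24 * δ * ε + 4 * ε ^ 2 + 8 * ε + 60 * η) * n := by
  have hηN : 0 ≤ η * N := (abs_nonneg _).trans h0
  have b1 : |D1 + 2 * k * n| ≤ (6 * δ + 2 * ε) * N + 5 * (η * N) := by
    have e2 : D1 + 2 * k * n = (P1 + 2 * k * N) + (D1 - P1) + 2 * k * (n - N) := by ring
    rw [e2]
    have t1 := abs_add_le ((P1 + 2 * k * N) + (D1 - P1)) (2 * k * (n - N))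
    have t2 := abs_add_le (P1 + 2 * k * N) (D1 - P1)
    have t3 : |2 * k * (n - N)| ≤ 4 * (η * N) := by
      rw [abs_mul, abs_of_nonneg (by positivity : (0:ℝ) ≤ 2 * k)]
      exact mul_le_mul (by linarith) h0 (abs_nonneg _) (by norm_num)
    linarith
  have b2 : |D2 + 4 * k * D1 + 4 * k ^ 2 * n|
      ≤ (2 * (3 * δ + ε) ^ 2 + 6 * δ ^ 2 + 2 * ε) * N + 25 * (η * N) := by
    have e2 : D2 + 4 * k * D1 + 4 * k ^ 2 * n = (P2 + 4 * k * P1 + 4 * k ^ 2 * N) + (D2 - P2)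
        + 4 * k * (D1 - P1) + 4 * k ^ 2 * (n - N) := by ring
    rw [e2]
    have t1 := abs_add_le ((P2 + 4 * k * P1 + 4 * k ^ 2 * N) + (D2 - P2) + 4 * k * (D1 - P1))
      (4 * k ^ 2 * (n - N))
    have t2 := abs_add_le ((P2 + 4 * k * P1 + 4 * k ^ 2 * N) + (D2 - P2)) (4 * k * (D1 - P1))
    have t3 := abs_add_le (P2 + 4 * k * P1 + 4 * k ^ 2 * N) (D2 - P2)
    have t4 : |4 * k * (D1 - P1)| ≤ 8 * (η * N) := by
      rw [abs_mul, abs_of_nonneg (by positivity : (0:ℝ) ≤ 4 * k)]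
      exact mul_le_mul (by linarith) h1 (abs_nonneg _) (by norm_num)
    have t5 : |4 * k ^ 2 * (n - N)| ≤ 16 * (η * N) := by
      rw [abs_mul, abs_of_nonneg (by positivity : (0:ℝ) ≤ 4 * k ^ 2)]
      exact mul_le_mul (by nlinarith) h0 (abs_nonneg _) (by norm_num)
    linarith
  have hsum : |D1 + 2 * k * n| + |D2 + 4 * k * D1 + 4 * k ^ 2 * n|
      ≤ (6 * δ + 24 * δ ^ 2 + 12 * δ * ε + 2 * ε ^ 2 + 4 * ε + 30 * η) * N := by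
    have : (6 * δ + 24 * δ ^ 2 + 12 * δ * ε + 2 * ε ^ 2 + 4 * ε + 30 * η) * N
        = (6 * δ + 2 * ε) * N + 5 * (η * N)
          + ((2 * (3 * δ + ε) ^ 2 + 6 * δ ^ 2 + 2 * ε) * N + 25 * (η * N)) := by ring
    rw [this]; linarith
  have hco : 0 ≤ 6 * δ + 24 * δ ^ 2 + 12 * δ * ε + 2 * ε ^ 2 + 4 * ε + 30 * η := by
    by_contra h
    have : (6 * δ + 24 * δ ^ 2 + 12 * δ * ε + 2 * ε ^ 2 + 4 * ε + 30 * η) * N < 0 :=
      mul_neg_of_neg_of_pos (not_le.1 h) hN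
    linarith [abs_nonneg (D1 + 2 * k * n), abs_nonneg (D2 + 4 * k * D1 + 4 * k ^ 2 * n)]
  calc _ ≤ (6 * δ + 24 * δ ^ 2 + 12 * δ * ε + 2 * ε ^ 2 + 4 * ε + 30 * η) * N := hsum
    _ ≤ (6 * δ + 24 * δ ^ 2 + 12 * δ * ε + 2 * ε ^ 2 + 4 * ε + 30 * η) * (2 * n) :=
        mul_le_mul_of_nonneg_left (by linarith) hco
    _ = _ := by ring

end Claimed.Open.R278
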