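import Claimed.Open.R278.DS2Drift

/-!
# Result 278, layer DS, file DS2Fields: the four fields of `DriftStripG` (glue)

Sub-captain helper88.  No leaf here.
-/

open MeasureTheory Filter
open scoped ContDiff InnerProductSpace ComplexConjugate ENNReal Topology Laplacian

noncomputable section

namespace Claimed.Open.R278

variable {𝒦 : Type} [NormedAddCommGroup 𝒦] [InnerProductSpace ℂ 𝒦] [CompleteSpace 𝒦]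
variable {κ : ChannelConsts} {b : Space → ℝ} {γ : ℝ}

set_option linter.unusedSectionVars false

/-- the conclusion of `ds2_base`. -/
def ChannelSys.Base (S : ChannelSys 𝒦 κ b γ) (n : Space → ℝ) (R' Cη c : ℝ) : Prop :=
  ∀ x ∈ Ext R',
    0 < ‖S.F x‖ ∧ b x ≤ 2 * ‖S.F x‖ ∧ c * S.scale x ≤ ‖S.F x‖ ∧
    κ.C 0 * Real.exp (-(2 * κ.σ * ‖x‖)) ≤ Cη * ‖x‖ ^ (-(1 / 4) : ℝ) * ‖S.F x‖ ^ 2 ∧
    ‖S.F x‖ ^ 2 / 2 ≤ n x ∧ n x ≤ 2 * ‖S.F x‖ ^ 2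

theorem ds2_radial_field (κ : ChannelConsts) (b : Space → ℝ) (γ : ℝ) (Cb : ℕ → ℝ) (cb : ℝ)
    (hb : FastOrbital b γ κ.R₁ Cb cb) (R : ℝ) (C : ℕ → ℝ) (K : ℝ) (hRκ : κ.R₁ ≤ R)
    (hC : ∀ n, 0 ≤ C n) (hK : 0 ≤ K) (R' Cη c : ℝ) (hRR' : R ≤ R') (hCη : 0 ≤ Cη) (hc : 0 < c) :
    ∃ C' : ℝ, 0 ≤ C' ∧ ∀ S : ChannelSys 𝒦 κ b γ, S.Good R C K → ∀ n : Space → ℝ,
      DensityLink S n → S.Base n R' Cη c → ∀ x ∈ Ext R',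
      |fderiv ℝ (fun y => Real.log (n y)) x (‖x‖⁻¹ • x) + 2 * S.k|
        ≤ 12 * |γ - S.k| + C' * ‖x‖ ^ (-(1 / 4) : ℝ) := by
  obtain ⟨C₁, hC₁, h₁⟩ := ds1_radial (𝒦 := 𝒦) κ b γ Cb cb hb R C K hRκ hC hK
  refine ⟨4 * (C₁ / c) + 10 * Cη, by positivity, ?_⟩
  intro S hS n hn hB x hx
  have hxR : x ∈ Ext R := Ext_mono hRR' hx
  have hxκ : x ∈ Ext κ.R₁ := Ext_mono hRκ hxR
  obtain ⟨f1, f2, f3, f4, f5, f6⟩ := hB x hx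
  obtain ⟨s0, s1, s2, -, -⟩ := ds2_split hRκ S hS hn x hxR
  have hρ0 : 0 ≤ ‖x‖ ^ (-(1 / 4) : ℝ) := Real.rpow_nonneg (norm_nonneg _) _
  have hN : 0 < ‖S.F x‖ ^ 2 := by positivity
  have hnpos : 0 < n x := by linarith
  have hbpos : 0 < b x := hb.pos (by linarith [ds1_one_le_R₁ κ]) hxκ
  rw [ds2_dr_log s0 hnpos]
  have hk : |S.k| ≤ 2 := by
    rw [abs_of_nonneg (by linarith [S.k_lo])]; linarith [S.k_hi]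
  have hrad : ‖dr S.F x + S.k • S.F x - ((S.k - γ) * b x) • S.G‖
      ≤ (C₁ / c * ‖x‖ ^ (-(1 / 4) : ℝ)) * ‖S.F x‖ :=
    ((h₁ S hS x hxR).1).trans (ds1_to_eps hc hC₁ hρ0 f3)
  have hd : |(S.k - γ) * b x| ≤ |γ - S.k| * b x := by
    rw [abs_mul, abs_of_pos hbpos, abs_sub_comm]
  have h2 := ds2_ineq₁ S.norm_G f2 (abs_nonneg _) hd hrad
  have := ds2_first_order hN f5 hk (s1.trans f4) (s2.trans f4) h2
  refine this.trans (le_of_eq ?_)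
  ring

theorem ds2_horizontal_field (κ : ChannelConsts) (b : Space → ℝ) (γ : ℝ) (Cb : ℕ → ℝ) (cb : ℝ)
    (hb : FastOrbital b γ κ.R₁ Cb cb) (R : ℝ) (C : ℕ → ℝ) (K : ℝ) (hRκ : κ.R₁ ≤ R)
    (hC : ∀ n, 0 ≤ C n) (hK : 0 ≤ K) (R' Cη c : ℝ) (hRR' : R ≤ R') (hCη : 0 ≤ Cη) (hc : 0 < c) :
    ∃ C' : ℝ, 0 ≤ C' ∧ ∀ S : ChannelSys 𝒦 κ b γ, S.Good R C K → ∀ n : Space → ℝ,
      DensityLink S n → S.Base n R' Cη c → ∀ p z : ℝ, cyl p z ∈ Ext R' →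
      |deriv (fun p' => Real.log (n (cyl p' z))) p + 2 * S.k * p / ‖cyl p z‖|
        ≤ 12 * |γ - S.k| + C' * ‖cyl p z‖ ^ (-(1 / 4) : ℝ) := by
  obtain ⟨C₁, hC₁, h₁⟩ := ds1_horizontal (𝒦 := 𝒦) κ b γ Cb cb hb R C K hRκ hC hK
  refine ⟨4 * (C₁ / c) + 10 * Cη, by positivity, ?_⟩
  intro S hS n hn hB p z hx
  have hxR : cyl p z ∈ Ext R := Ext_mono hRR' hx
  have hxκ : cyl p z ∈ Ext κ.R₁ := Ext_mono hRκ hxR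
  obtain ⟨f1, f2, f3, f4, f5, f6⟩ := hB _ hx
  obtain ⟨s0, s1, -, s3, -⟩ := ds2_split hRκ S hS hn _ hxR
  have hρ0 : 0 ≤ ‖cyl p z‖ ^ (-(1 / 4) : ℝ) := Real.rpow_nonneg (norm_nonneg _) _
  have hN : 0 < ‖S.F (cyl p z)‖ ^ 2 := by positivity
  have hnpos : 0 < n (cyl p z) := by linarith
  have hbpos : 0 < b (cyl p z) := hb.pos (by linarith [ds1_one_le_R₁ κ]) hxκ
  have hr0 : 0 < ‖cyl p z‖ := by
    have : κ.R₁ < ‖cyl p z‖ := hxκ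
    linarith [ds1_one_le_R₁ κ]
  rw [ds2_deriv_log_cyl s0 hnpos]
  have hq : |p / ‖cyl p z‖| ≤ 1 := by
    rw [abs_div, abs_of_pos hr0, div_le_one hr0, norm_cyl]
    exact Real.abs_le_sqrt (by nlinarith [sq_nonneg z])
  have hk0 : 0 ≤ S.k := by linarith [S.k_lo]
  have hk : |S.k * (p / ‖cyl p z‖)| ≤ 2 := by
    rw [abs_mul, abs_of_nonneg hk0]
    calc S.k * |p / ‖cyl p z‖| ≤ 2 * 1 := mul_le_mul (by linarith [S.k_hi]) hq (abs_nonneg _) (by norm_num)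
      _ = 2 := by norm_num
  have hrad : ‖dfield (Sum.inl 0) S.F (cyl p z) + (S.k * (p / ‖cyl p z‖)) • S.F (cyl p z)
      - ((S.k - γ) * (p / ‖cyl p z‖) * b (cyl p z)) • S.G‖
      ≤ (C₁ / c * ‖cyl p z‖ ^ (-(1 / 4) : ℝ)) * ‖S.F (cyl p z)‖ :=
    (h₁ S hS p z hxR).trans (ds1_to_eps hc hC₁ hρ0 f3)
  have hd : |(S.k - γ) * (p / ‖cyl p z‖) * b (cyl p z)| ≤ |γ - S.k| * b (cyl p z) := by
    rw [abs_mul, abs_mul, abs_of_pos hbpos, abs_sub_comm]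
    have : |γ - S.k| * |p / ‖cyl p z‖| ≤ |γ - S.k| * 1 :=
      mul_le_mul_of_nonneg_left hq (abs_nonneg _)
    nlinarith
  have h2 := ds2_ineq₁ S.norm_G f2 (abs_nonneg _) hd hrad
  have := ds2_first_order hN f5 hk (s1.trans f4) (s3.trans f4) h2
  have e : 2 * S.k * p / ‖cyl p z‖ = 2 * (S.k * (p / ‖cyl p z‖)) := by ring
  rw [e]
  refine this.trans (le_of_eq ?_)
  ring

theorem ds2_strip_const {δ Γ Cε Cη ρ ρp : ℝ} (hδ0 : 0 ≤ δ) (hδ : δ ≤ Γ) (hCε : 0 ≤ Cε)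
    (hCη : 0 ≤ Cη) (hρ0 : 0 ≤ ρ) (hρ1 : ρ ≤ 1) (hρp : ρ ≤ ρp) :
    12 * δ + 48 * δ ^ 2 + 24 * δ * (Cε * ρ) + 4 * (Cε * ρ) ^ 2 + 8 * (Cε * ρ) + 60 * (Cη * ρ)
      ≤ 12 * δ + 48 * δ ^ 2 + (24 * Γ * Cε + 4 * Cε ^ 2 + 8 * Cε + 60 * Cη) * ρp := by
  have hΓ : 0 ≤ Γ := hδ0.trans hδ
  have u1 : δ * (Cε * ρ) ≤ Γ * (Cε * ρ) := mul_le_mul_of_nonneg_right hδ (by positivity)
  have u2 : (Cε * ρ) ^ 2 ≤ Cε ^ 2 * ρ := by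
    have h1 : ρ * ρ ≤ 1 * ρ := mul_le_mul_of_nonneg_right hρ1 hρ0
    calc (Cε * ρ) ^ 2 = Cε ^ 2 * (ρ * ρ) := by ring
      _ ≤ Cε ^ 2 * (1 * ρ) := mul_le_mul_of_nonneg_left h1 (by positivity)
      _ = Cε ^ 2 * ρ := by ring
  have u3 : (24 * Γ * Cε + 4 * Cε ^ 2 + 8 * Cε + 60 * Cη) * ρ
      ≤ (24 * Γ * Cε + 4 * Cε ^ 2 + 8 * Cε + 60 * Cη) * ρp :=
    mul_le_mul_of_nonneg_left hρp (by positivity)
  have e : (24 * Γ * Cε + 4 * Cε ^ 2 + 8 * Cε + 60 * Cη) * ρ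
      = 24 * (Γ * (Cε * ρ)) + 4 * (Cε ^ 2 * ρ) + 8 * (Cε * ρ) + 60 * (Cη * ρ) := by ring
  rw [e] at u3
  linarith

set_option maxHeartbeats 800000 in
theorem ds2_strip_field (κ : ChannelConsts) (b : Space → ℝ) (γ : ℝ) (Cb : ℕ → ℝ) (cb : ℝ)
    (hb : FastOrbital b γ κ.R₁ Cb cb) (R : ℝ) (C : ℕ → ℝ) (K : ℝ) (hRκ : κ.R₁ ≤ R)
    (hC : ∀ n, 0 ≤ C n) (hK : 0 ≤ K) (R' Cη c : ℝ) (hRR' : R ≤ R') (hCη : 0 ≤ Cη) (hc : 0 < c) :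
    ∃ C' : ℝ, 0 ≤ C' ∧ ∀ S : ChannelSys 𝒦 κ b γ, S.Good R C K → ∀ n : Space → ℝ,
      DensityLink S n → S.Base n R' Cη c → ∀ p z : ℝ, R' < p → 0 ≤ z → z ≤ stripL →
      |deriv (fun p' => Real.exp (2 * S.k * p') * n (cyl p' z)) p|
        + |iteratedDeriv 2 (fun p' => Real.exp (2 * S.k * p') * n (cyl p' z)) p|
      ≤ (12 * |γ - S.k| + 48 * |γ - S.k| ^ 2 + C' * p ^ (-(1 / 4) : ℝ))
        * (Real.exp (2 * S.k * p) * n (cyl p z)) := by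
  obtain ⟨C₁, hC₁, h₁⟩ := ds1_strip (𝒦 := 𝒦) κ b γ Cb cb hb R C K hRκ hC hK
  obtain ⟨Γ, hΓ⟩ : ∃ Γ, Γ = |γ| + 2 := ⟨_, rfl⟩
  have hΓ0 : 0 ≤ Γ := by rw [hΓ]; positivity
  obtain ⟨Cε, hCε⟩ : ∃ Cε, Cε = C₁ / c := ⟨_, rfl⟩
  have hCε0 : 0 ≤ Cε := by rw [hCε]; positivity
  refine ⟨24 * Γ * Cε + 4 * Cε ^ 2 + 8 * Cε + 60 * Cη, by positivity, ?_⟩
  intro S hS n hn hB p z hp hz hz'
  have hR1 : 1 ≤ R' := ((ds1_one_le_R₁ κ).trans hRκ).trans hRR'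
  have hp1 : 1 ≤ p := hR1.trans hp.le
  obtain ⟨g1, -, -, -, -⟩ := dst_strip_geom hp1 hz hz'
  have hx : cyl p z ∈ Ext R' := lt_of_lt_of_le hp g1
  have hxR : cyl p z ∈ Ext R := Ext_mono hRR' hx
  have hxκ : cyl p z ∈ Ext κ.R₁ := Ext_mono hRκ hxR
  obtain ⟨f1, f2, f3, f4, f5, f6⟩ := hB _ hx
  obtain ⟨s0, s1, -, s3, s4⟩ := ds2_split hRκ S hS hn _ hxR
  obtain ⟨ρ0, ρ1, -⟩ := ds1_rho_facts (hp1.trans g1)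
  have hρp : ‖cyl p z‖ ^ (-(1 / 4) : ℝ) ≤ p ^ (-(1 / 4) : ℝ) :=
    Real.rpow_le_rpow_of_nonpos (by linarith) g1 (by norm_num)
  obtain ⟨ρ, hρ⟩ : ∃ ρ, ρ = ‖cyl p z‖ ^ (-(1 / 4) : ℝ) := ⟨_, rfl⟩
  rw [← hρ] at ρ0 ρ1 hρp f4
  have hN : 0 < ‖S.F (cyl p z)‖ ^ 2 := by positivity
  have hnpos : 0 < n (cyl p z) := by linarith
  have hbpos : 0 < b (cyl p z) := hb.pos (by linarith [ds1_one_le_R₁ κ]) hxκ
  have hk0 : 0 ≤ S.k := by linarith [S.k_lo]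
  have hk2 : S.k ≤ 2 := by linarith [S.k_hi]
  have hδΓ : |γ - S.k| ≤ Γ := by
    rw [hΓ]; calc |γ - S.k| ≤ |γ| + |S.k| := abs_sub _ _
      _ ≤ |γ| + 2 := by rw [abs_of_nonneg hk0]; linarith
  obtain ⟨a1, a2⟩ := h₁ S hS p z (lt_of_le_of_lt hRR' hp) hz hz'
  have key : C₁ * (‖cyl p z‖ ^ (-(1 / 4) : ℝ) * S.scale (cyl p z)) ≤ (Cε * ρ) * ‖S.F (cyl p z)‖ := by
    rw [hCε, hρ]; exact ds1_to_eps hc hC₁ (by rw [← hρ]; exact ρ0) f3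
  have hd₁ : |(S.k - γ) * b (cyl p z)| ≤ |γ - S.k| * b (cyl p z) := by
    rw [abs_mul, abs_of_pos hbpos, abs_sub_comm]
  have hd₂ : |(S.k - γ) ^ 2 * b (cyl p z)| ≤ |γ - S.k| ^ 2 * b (cyl p z) := by
    rw [abs_mul, abs_of_pos hbpos, abs_pow, abs_sub_comm]
  have i1 := ds2_ineq₁ S.norm_G f2 (abs_nonneg _) hd₁ (a1.trans key)
  have i2 := ds2_ineq₂ S.norm_G f2 (abs_nonneg _) (by positivity) hd₁ hd₂ (a1.trans key)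
    (a2.trans key)
  have fin := ds2_second_order hN f5 hk0 hk2 (s1.trans f4) (s3.trans f4) (s4.trans f4) i1 i2
  rw [ds2_deriv_m s0, ds2_deriv2_m hn.smooth hxκ, abs_mul, abs_mul,
    abs_of_pos (Real.exp_pos _), ← mul_add]
  have hE := Real.exp_pos (2 * S.k * p)
  have hco := ds2_strip_const (abs_nonneg (γ - S.k)) hδΓ hCε0 hCη ρ0 ρ1 hρp
  calc Real.exp (2 * S.k * p) * (|dfield (Sum.inl 0) n (cyl p z) + 2 * S.k * n (cyl p z)|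
        + |dfield (Sum.inl 0) (dfield (Sum.inl 0) n) (cyl p z)
          + 4 * S.k * dfield (Sum.inl 0) n (cyl p z) + 4 * S.k ^ 2 * n (cyl p z)|)
      ≤ Real.exp (2 * S.k * p) * ((12 * |γ - S.k| + 48 * |γ - S.k| ^ 2 + 24 * |γ - S.k| * (Cε * ρ)
        + 4 * (Cε * ρ) ^ 2 + 8 * (Cε * ρ) + 60 * (Cη * ρ)) * n (cyl p z)) :=
        mul_le_mul_of_nonneg_left fin hE.le
    _ ≤ Real.exp (2 * S.k * p) * ((12 * |γ - S.k| + 48 * |γ - S.k| ^ 2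
        + (24 * Γ * Cε + 4 * Cε ^ 2 + 8 * Cε + 60 * Cη) * p ^ (-(1 / 4) : ℝ)) * n (cyl p z)) :=
        mul_le_mul_of_nonneg_left (mul_le_mul_of_nonneg_right hco hnpos.le) hE.le
    _ = _ := by ring

end Claimed.Open.R278
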