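import Claimed.Open.R278.DS1Vec

/-!
# Result 278, layer DS, file DS2Tools: paper-free tools for the density level

Sub-captain helper88.  SORRY-FREE (proved by helper162).  Leaves, one per section: `DS2-TN` (derivatives of `‖H‖²`), `DS2-TL` (logarithmic
derivatives, derivatives along `p' ↦ cyl p' z`), `DS2-TI` (Hilbert space inequalities), `DS2-TE` (the cut-off
error is relatively small).  NO PAPER READING.  Cite `CHTools.lean`, `DS1Tools.lean` freely.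
Auxiliary lemmas: prefix `ds2_`.  Change a statement only after telling helper88.
-/

open MeasureTheory Filter
open scoped ContDiff InnerProductSpace ComplexConjugate ENNReal Topology Laplacian

noncomputable section

namespace Claimed.Open.R278

/-! ## TN. Derivatives of `‖H‖²` (leaf DS2-TN)

`‖H y‖² = Re ⟪H y, H y⟫`; `HasFDerivAt.inner` over `ℝ` (or `HasFDerivAt.norm_sq` for the real inner
product structure `InnerProductSpace.rclikeToReal ℂ 𝒦`, whose inner product is `Re ⟪·,·⟫_ℂ`).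
`dfield_norm_sq` (CHTC) is the same statement for the six fields. -/

section TN
variable {𝒦 : Type*} [NormedAddCommGroup 𝒦] [InnerProductSpace ℂ 𝒦]

theorem ds2_fderiv_norm_sq {H : Space → 𝒦} {x : Space} (hH : DifferentiableAt ℝ H x) (v : Space) :
    fderiv ℝ (fun y => ‖H y‖ ^ 2) x v = 2 * (⟪H x, fderiv ℝ H x v⟫_ℂ).re := by
  have h1 := hH.hasFDerivAt.inner ℂ hH.hasFDerivAt
  have h2 := Complex.reCLM.hasFDerivAt.comp x h1
  have e : (fun y => ‖H y‖ ^ 2) = Complex.reCLM ∘ fun y => ⟪H y, H y⟫_ℂ :=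
    funext fun y => norm_sq_eq_re_inner _
  rw [e, h2.fderiv]
  simp only [ContinuousLinearMap.comp_apply, fderivInnerCLM_apply, ContinuousLinearMap.prod_apply,
    Complex.reCLM_apply, Complex.add_re]
  rw [re_inner_comm (fderiv ℝ H x v)]
  ring

theorem ds2_dr_norm_sq {H : Space → 𝒦} {x : Space} (hH : DifferentiableAt ℝ H x) :
    dr (fun y => ‖H y‖ ^ 2) x = 2 * (⟪H x, dr H x⟫_ℂ).re :=
  ds2_fderiv_norm_sq hH _

theorem ds2_contDiffOn_norm_sq {R : ℝ} {H : Space → 𝒦} (hH : ContDiffOn ℝ ∞ H (Ext R)) :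
    ContDiffOn ℝ ∞ (fun y => ‖H y‖ ^ 2) (Ext R) := by
  have e : (fun y => ‖H y‖ ^ 2) = fun y => Complex.reCLM ⟪H y, H y⟫_ℂ :=
    funext fun y => norm_sq_eq_re_inner _
  rw [e]
  exact Complex.reCLM.contDiff.comp_contDiffOn (hH.inner ℂ hH)

/-- `∂₀² ‖H‖² = 2 ‖∂₀H‖² + 2 Re⟪H, ∂₀²H⟫`. -/
theorem ds2_d00_norm_sq {R : ℝ} {H : Space → 𝒦} (hH : ContDiffOn ℝ ∞ H (Ext R)) :
    ∀ x ∈ Ext R, dfield (Sum.inl 0) (dfield (Sum.inl 0) (fun y => ‖H y‖ ^ 2)) x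
      = 2 * ‖dfield (Sum.inl 0) H x‖ ^ 2
        + 2 * (⟪H x, dfield (Sum.inl 0) (dfield (Sum.inl 0) H) x⟫_ℂ).re := by
  intro x hx
  have d1 : DifferentiableAt ℝ H x := differentiableAt_of_mem_Ext hH hx
  have d2 : DifferentiableAt ℝ (dfield (Sum.inl 0) H) x :=
    differentiableAt_of_mem_Ext (contDiffOn_dfield hH _) hx
  have d3 : DifferentiableAt ℝ (fun y => (⟪H y, dfield (Sum.inl 0) H y⟫_ℂ).re) x :=
    Complex.reCLM.differentiableAt.comp x (d1.inner ℂ d2)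
  have hc : ∀ y ∈ Ext R, dfield (Sum.inl 0) (fun y => ‖H y‖ ^ 2) y
      = (2 : ℝ) • (⟪H y, dfield (Sum.inl 0) H y⟫_ℂ).re := fun y hy => by
    rw [dfield_norm_sq (differentiableAt_of_mem_Ext hH hy), smul_eq_mul]
  rw [dfield_congr hc _ x hx, dfield_smul (differentiableAt_const _) d3, dfield_re_inner d1 d2,
    ← norm_sq_eq_re_inner]
  have e2 : dfield (Sum.inl 0) (fun _ : Space => (2 : ℝ)) x = 0 := by simp [dfield]
  rw [e2]
  simp only [smul_eq_mul]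
  ring

end TN

/-! ## TL. Logarithmic derivatives and derivatives along `p' ↦ cyl p' z` (leaf DS2-TL)

`hasDerivAt_comp_cyl` (CHTA2): `p' ↦ H (cyl p' z)` has derivative `∂₀H (cyl p z)`. -/

section TL

theorem ds2_dr_log {n : Space → ℝ} {x : Space} (hn : DifferentiableAt ℝ n x) (hpos : 0 < n x) :
    fderiv ℝ (fun y => Real.log (n y)) x (‖x‖⁻¹ • x) = dr n x / n x := by
  have h := hn.hasFDerivAt.log hpos.ne'
  rw [h.fderiv]
  simp only [dr, _root_.smul_apply, smul_eq_mul]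
  rw [div_eq_inv_mul]

theorem ds2_deriv_log_cyl {n : Space → ℝ} {p z : ℝ} (hn : DifferentiableAt ℝ n (cyl p z))
    (hpos : 0 < n (cyl p z)) :
    deriv (fun p' => Real.log (n (cyl p' z))) p = dfield (Sum.inl 0) n (cyl p z) / n (cyl p z) :=
  ((hasDerivAt_comp_cyl hn).log hpos.ne').deriv

theorem ds2_hasDerivAt_m {n : Space → ℝ} {k p z : ℝ} (hn : DifferentiableAt ℝ n (cyl p z)) :
    HasDerivAt (fun p' => Real.exp (2 * k * p') * n (cyl p' z))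
      (Real.exp (2 * k * p) * (dfield (Sum.inl 0) n (cyl p z) + 2 * k * n (cyl p z))) p := by
  have h1 : HasDerivAt (fun p' : ℝ => Real.exp (2 * k * p')) (Real.exp (2 * k * p) * (2 * k)) p := by
    have := ((hasDerivAt_id p).const_mul (2 * k)).exp
    simpa using this
  exact (h1.mul (hasDerivAt_comp_cyl hn)).congr_deriv (by ring)

theorem ds2_deriv_m {n : Space → ℝ} {k p z : ℝ} (hn : DifferentiableAt ℝ n (cyl p z)) :
    deriv (fun p' => Real.exp (2 * k * p') * n (cyl p' z)) p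
      = Real.exp (2 * k * p) * (dfield (Sum.inl 0) n (cyl p z) + 2 * k * n (cyl p z)) :=
  (ds2_hasDerivAt_m hn).deriv

theorem ds2_continuous_cyl (z : ℝ) : Continuous (fun p' : ℝ => cyl p' z) := by
  have e : (fun p' : ℝ => cyl p' z)
      = fun p' : ℝ => cyl 0 z + p' • (EuclideanSpace.single 0 (1 : ℝ) : Space) := by
    funext p'
    apply space_ext <;> simp
  rw [e]
  fun_prop

/-- apply `ds2_deriv_m` at all `p'` near `p` (`Ext R` is open, `p' ↦ cyl p' z` continuous), then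
differentiate once more; `iteratedDeriv_succ`, `iteratedDeriv_one`. -/
theorem ds2_deriv2_m {R : ℝ} {n : Space → ℝ} {k p z : ℝ} (hn : ContDiffOn ℝ 2 n (Ext R))
    (hx : cyl p z ∈ Ext R) :
    iteratedDeriv 2 (fun p' => Real.exp (2 * k * p') * n (cyl p' z)) p
      = Real.exp (2 * k * p) * (dfield (Sum.inl 0) (dfield (Sum.inl 0) n) (cyl p z)
        + 4 * k * dfield (Sum.inl 0) n (cyl p z) + 4 * k ^ 2 * n (cyl p z)) := by
  have hat : ∀ y ∈ Ext R, ContDiffAt ℝ 2 n y := fun y hy => hn.contDiffAt (Ext_mem_nhds hy)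
  have hev : ∀ᶠ p' in 𝓝 p, cyl p' z ∈ Ext R :=
    (ds2_continuous_cyl z).continuousAt.eventually (Ext_mem_nhds hx)
  have h1 : deriv (fun p' => Real.exp (2 * k * p') * n (cyl p' z)) =ᶠ[𝓝 p]
      fun p' => Real.exp (2 * k * p') *
        ((fun y => dfield (Sum.inl 0) n y + 2 * k * n y) (cyl p' z)) := by
    filter_upwards [hev] with p' hp'
    exact ds2_deriv_m ((hat _ hp').differentiableAt (by simp))
  have dn : DifferentiableAt ℝ n (cyl p z) := (hat _ hx).differentiableAt (by simp)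
  have d1 : DifferentiableAt ℝ (dfield (Sum.inl 0) n) (cyl p z) :=
    (differentiableAt_fderiv (hat _ hx)).clm_apply (differentiableAt_const _)
  have d2 : DifferentiableAt ℝ (fun y => dfield (Sum.inl 0) n y + 2 * k * n y) (cyl p z) :=
    d1.add (dn.const_mul _)
  have d3 : DifferentiableAt ℝ (fun y => 2 * k * n y) (cyl p z) := dn.const_mul _
  have e3 : dfield (Sum.inl 0) (fun y => 2 * k * n y) (cyl p z)
      = 2 * k * dfield (Sum.inl 0) n (cyl p z) := by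
    simp only [dfield]
    rw [fderiv_const_mul dn]
    rfl
  rw [iteratedDeriv_succ, iteratedDeriv_one, h1.deriv_eq, ds2_deriv_m d2, dfield_add d1 d3, e3]
  ring

/-- `∂ᵢ∂ⱼ e (x) = D²e(x)[eᵢ][eⱼ]`. -/
theorem ds2_norm_d00_le {e : Space → ℝ} {x : Space} (he : ContDiffAt ℝ 2 e x) :
    |dfield (Sum.inl 0) (dfield (Sum.inl 0) e) x| ≤ ‖fderiv ℝ (fderiv ℝ e) x‖ := by
  rw [dfield_trans_trans_eq he]
  have hn : ‖(EuclideanSpace.single 0 (1 : ℝ) : Space)‖ = 1 := by simp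
  have h1 := (fderiv ℝ (fderiv ℝ e) x (EuclideanSpace.single 0 1)).le_opNorm
    (EuclideanSpace.single 0 (1 : ℝ) : Space)
  have h2 := (fderiv ℝ (fderiv ℝ e) x).le_opNorm (EuclideanSpace.single 0 (1 : ℝ) : Space)
  rw [hn, mul_one] at h1 h2
  rw [← Real.norm_eq_abs]
  exact h1.trans h2

end TL

/-! ## TI. Hilbert space inequalities (leaf DS2-TI), no analysis -/

section TI
variable {𝒦 : Type*} [NormedAddCommGroup 𝒦] [InnerProductSpace ℂ 𝒦]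

theorem ds2_re_inner_smul (u v : 𝒦) (c : ℝ) : (⟪u, c • v⟫_ℂ).re = c * (⟪u, v⟫_ℂ).re := by
  rw [← Complex.coe_smul, inner_smul_right, Complex.re_ofReal_mul]

theorem ds2_abs_re_inner_le (u v : 𝒦) : |(⟪u, v⟫_ℂ).re| ≤ ‖u‖ * ‖v‖ :=
  (Complex.abs_re_le_norm _).trans (norm_inner_le_norm u v)

theorem ds2_sqrt_two_le : √2 ≤ 3 / 2 := Real.sqrt_le_iff.2 ⟨by norm_num, by norm_num⟩

/-- remove the `G`-component: `‖X‖ ≤ ‖X - d G‖ + |d| √2 ≤ (ε + 3 δ) ‖F‖`. -/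
theorem ds2_norm_le_aux {F X G : 𝒦} {d β ε δ : ℝ} (hG : ‖G‖ = √2) (hβ : β ≤ 2 * ‖F‖) (hδ : 0 ≤ δ)
    (hd : |d| ≤ δ * β) (h : ‖X - d • G‖ ≤ ε * ‖F‖) : ‖X‖ ≤ (ε + 3 * δ) * ‖F‖ := by
  have e : X = (X - d • G) + d • G := by abel
  have h1 : ‖X‖ ≤ ‖X - d • G‖ + ‖d • G‖ := by
    conv_lhs => rw [e]
    exact norm_add_le _ _
  rw [norm_smul, Real.norm_eq_abs, hG] at h1
  have h2 : |d| ≤ δ * (2 * ‖F‖) := hd.trans (mul_le_mul_of_nonneg_left hβ hδ)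
  have h3 : |d| * √2 ≤ δ * (2 * ‖F‖) * (3 / 2) :=
    mul_le_mul h2 ds2_sqrt_two_le (Real.sqrt_nonneg _) (by positivity)
  nlinarith

/-- `2Re⟪F,D⟫ + 2c‖F‖² = 2Re⟪F, D + cF⟫`, `‖D + cF‖ ≤ ε‖F‖ + |d| ‖G‖ ≤ (ε + 3δ)‖F‖` (`√2 ≤ 3/2`). -/
theorem ds2_ineq₁ {F D G : 𝒦} {c d β ε δ : ℝ} (hG : ‖G‖ = √2) (hβ : β ≤ 2 * ‖F‖) (hδ : 0 ≤ δ)
    (hd : |d| ≤ δ * β) (h : ‖D + c • F - d • G‖ ≤ ε * ‖F‖) :
    |2 * (⟪F, D⟫_ℂ).re + 2 * c * ‖F‖ ^ 2| ≤ (6 * δ + 2 * ε) * ‖F‖ ^ 2 := by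
  have h1 := ds2_norm_le_aux hG hβ hδ hd h
  have e : 2 * (⟪F, D⟫_ℂ).re + 2 * c * ‖F‖ ^ 2 = 2 * (⟪F, D + c • F⟫_ℂ).re := by
    rw [inner_add_right, Complex.add_re, ds2_re_inner_smul, ← norm_sq_eq_re_inner]
    ring
  rw [e, abs_mul, abs_of_pos (by norm_num : (0 : ℝ) < 2)]
  have h2 := ds2_abs_re_inner_le F (D + c • F)
  have h3 := mul_le_mul_of_nonneg_left h1 (norm_nonneg F)
  nlinarith

/-- `(2‖D‖² + 2Re⟪F,DD⟫) + 4k (2Re⟪F,D⟫) + 4k²‖F‖² = 2‖D + kF‖² + 2Re⟪F, DD + 2kD + k²F⟫`. -/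
theorem ds2_ineq₂ {F D DD G : 𝒦} {k d₁ d₂ β ε δ : ℝ} (hG : ‖G‖ = √2) (hβ : β ≤ 2 * ‖F‖)
    (hδ : 0 ≤ δ) (_hε : 0 ≤ ε) (hd₁ : |d₁| ≤ δ * β) (hd₂ : |d₂| ≤ δ ^ 2 * β)
    (h₁ : ‖D + k • F - d₁ • G‖ ≤ ε * ‖F‖)
    (h₂ : ‖DD + (2 * k) • D + k ^ 2 • F - d₂ • G‖ ≤ ε * ‖F‖) :
    |(2 * ‖D‖ ^ 2 + 2 * (⟪F, DD⟫_ℂ).re) + 4 * k * (2 * (⟪F, D⟫_ℂ).re) + 4 * k ^ 2 * ‖F‖ ^ 2|
      ≤ (2 * (3 * δ + ε) ^ 2 + 6 * δ ^ 2 + 2 * ε) * ‖F‖ ^ 2 := by
  have a1 := ds2_norm_le_aux hG hβ hδ hd₁ h₁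
  have a2 := ds2_norm_le_aux hG hβ (sq_nonneg δ) hd₂ h₂
  have e : (2 * ‖D‖ ^ 2 + 2 * (⟪F, DD⟫_ℂ).re) + 4 * k * (2 * (⟪F, D⟫_ℂ).re) + 4 * k ^ 2 * ‖F‖ ^ 2
      = 2 * ‖D + k • F‖ ^ 2 + 2 * (⟪F, DD + (2 * k) • D + k ^ 2 • F⟫_ℂ).re := by
    rw [norm_sq_eq_re_inner (D + k • F)]
    simp only [inner_add_right, inner_add_left, Complex.add_re, ds2_re_inner_smul]
    rw [re_inner_comm (k • F) D, re_inner_comm (k • F) F, ds2_re_inner_smul, ds2_re_inner_smul,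
      ← norm_sq_eq_re_inner, ← norm_sq_eq_re_inner, re_inner_comm D F]
    ring
  rw [e]
  have b1 : ‖D + k • F‖ ^ 2 ≤ ((ε + 3 * δ) * ‖F‖) ^ 2 := pow_le_pow_left₀ (norm_nonneg _) a1 2
  have b2 := ds2_abs_re_inner_le F (DD + (2 * k) • D + k ^ 2 • F)
  have b3 := mul_le_mul_of_nonneg_left a2 (norm_nonneg F)
  have b4 : 0 ≤ ‖D + k • F‖ ^ 2 := sq_nonneg _
  have b5 := abs_le.1 (b2.trans b3)
  rw [abs_le]
  constructor <;> nlinarith [b5.1, b5.2]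

end TI

/-! ## TE. The cut-off error (leaf DS2-TE)

`b ≥ cb e^{-γ r} r^a`, `a = 2/γ - 1`, so it suffices that `e^{-2(σ-γ) r} r^{1/4 - 2a}` is bounded on `[1,∞)`:
it is `≤ e^{-2μ r} r^{c}`, which tends to `0` (`dst_exp_gap`) and is `≤ max 1 (R₂^c)` on `[1,R₂]`. -/

section TE

theorem ds2_exp_rpow_bdd {μ : ℝ} (hμ : 0 < μ) (c : ℝ) :
    ∃ B : ℝ, 0 ≤ B ∧ ∀ r : ℝ, 1 ≤ r → Real.exp (-(μ * r)) * r ^ c ≤ B := by
  obtain ⟨n, hn⟩ := exists_nat_ge c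
  refine ⟨n.factorial / μ ^ n, by positivity, ?_⟩
  intro r hr
  have hr0 : 0 < r := by linarith
  have h1 : r ^ c ≤ r ^ n := by
    rw [← Real.rpow_natCast]
    exact Real.rpow_le_rpow_of_exponent_le hr hn
  have h2 := Real.pow_div_factorial_le_exp (μ * r) (by positivity) n
  have h3 : Real.exp (-(μ * r)) * Real.exp (μ * r) = 1 := by rw [← Real.exp_add]; simp
  have hf : (0 : ℝ) < n.factorial := by positivity
  have h4 : r ^ n ≤ n.factorial / μ ^ n * Real.exp (μ * r) := by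
    rw [div_le_iff₀ hf, mul_pow] at h2
    rw [div_mul_eq_mul_div, le_div_iff₀ (by positivity)]
    linarith
  calc Real.exp (-(μ * r)) * r ^ c ≤ Real.exp (-(μ * r)) * (n.factorial / μ ^ n * Real.exp (μ * r)) :=
        mul_le_mul_of_nonneg_left (h1.trans h4) (Real.exp_pos _).le
    _ = n.factorial / μ ^ n * (Real.exp (-(μ * r)) * Real.exp (μ * r)) := by ring
    _ = n.factorial / μ ^ n := by rw [h3, mul_one]

theorem ds2_err_rel {b : Space → ℝ} {γ R₁ μ σ C₀ : ℝ} {Cb : ℕ → ℝ} {cb : ℝ} (hR₁ : 1 ≤ R₁)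
    (hb : FastOrbital b γ R₁ Cb cb) (hμ : 0 < μ) (hσ : γ + μ ≤ σ) :
    ∃ Ce : ℝ, 0 ≤ Ce ∧ ∀ x ∈ Ext R₁,
      C₀ * Real.exp (-(2 * σ * ‖x‖)) ≤ Ce * ‖x‖ ^ (-(1 / 4) : ℝ) * b x ^ 2 := by
  obtain ⟨a, ha⟩ : ∃ a, a = 2 / γ - 1 := ⟨_, rfl⟩
  obtain ⟨B, hB, hBb⟩ := ds2_exp_rpow_bdd (μ := 2 * μ) (by positivity) (1 / 4 - 2 * a)
  have hcb := hb.c_pos
  refine ⟨|C₀| * B / cb ^ 2, by positivity, ?_⟩
  intro x hx
  have hr1 : 1 ≤ ‖x‖ := hR₁.trans (le_of_lt hx)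
  have hlow := hb.lower x hx
  rw [← ha] at hlow
  obtain ⟨r, hr⟩ : ∃ r, r = ‖x‖ := ⟨_, rfl⟩
  rw [← hr] at hr1 hlow ⊢
  have hr0 : 0 < r := by linarith
  have hA := radialA_pos γ a hr0
  have h1 : Real.exp (-(2 * σ * r)) ≤ Real.exp (-(2 * μ * r)) * Real.exp (-(2 * γ * r)) := by
    rw [← Real.exp_add]
    apply Real.exp_le_exp.2
    nlinarith
  have h2 := hBb r hr1
  have h3 : Real.exp (-(2 * μ * r)) ≤ B * (r ^ (-(1 / 4) : ℝ) * r ^ (2 * a)) := by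
    have e : r ^ (1 / 4 - 2 * a) * (r ^ (-(1 / 4) : ℝ) * r ^ (2 * a)) = 1 := by
      rw [← Real.rpow_add hr0, ← Real.rpow_add hr0]
      have : (1 / 4 - 2 * a + (-(1 / 4) + 2 * a) : ℝ) = 0 := by ring
      rw [this, Real.rpow_zero]
    have hq : 0 < r ^ (-(1 / 4) : ℝ) * r ^ (2 * a) := by positivity
    calc Real.exp (-(2 * μ * r))
        = Real.exp (-(2 * μ * r)) * (r ^ (1 / 4 - 2 * a) * (r ^ (-(1 / 4) : ℝ) * r ^ (2 * a))) := by
          rw [e, mul_one]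
      _ = (Real.exp (-(2 * μ * r)) * r ^ (1 / 4 - 2 * a)) * (r ^ (-(1 / 4) : ℝ) * r ^ (2 * a)) := by
          ring
      _ ≤ B * (r ^ (-(1 / 4) : ℝ) * r ^ (2 * a)) := mul_le_mul_of_nonneg_right h2 hq.le
  have h4 : radialA γ a r ^ 2 = Real.exp (-(2 * γ * r)) * r ^ (2 * a) := by
    unfold radialA
    rw [mul_pow, ← Real.exp_nat_mul, ← Real.rpow_natCast (r ^ a) 2, ← Real.rpow_mul hr0.le]
    congr 2
    · push_cast; ring
    · push_cast; ring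
  have h5 : (cb * radialA γ a r) ^ 2 ≤ b x ^ 2 := pow_le_pow_left₀ (by positivity) hlow 2
  have hρ : 0 < r ^ (-(1 / 4) : ℝ) := by positivity
  calc C₀ * Real.exp (-(2 * σ * r)) ≤ |C₀| * Real.exp (-(2 * σ * r)) :=
        mul_le_mul_of_nonneg_right (le_abs_self _) (Real.exp_pos _).le
    _ ≤ |C₀| * ((B * (r ^ (-(1 / 4) : ℝ) * r ^ (2 * a))) * Real.exp (-(2 * γ * r))) :=
        mul_le_mul_of_nonneg_left
          (h1.trans (mul_le_mul_of_nonneg_right h3 (Real.exp_pos _).le)) (abs_nonneg _)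
    _ = |C₀| * B / cb ^ 2 * r ^ (-(1 / 4) : ℝ) * (cb * radialA γ a r) ^ 2 := by
        rw [mul_pow, h4]; field_simp
    _ ≤ |C₀| * B / cb ^ 2 * r ^ (-(1 / 4) : ℝ) * b x ^ 2 :=
        mul_le_mul_of_nonneg_left h5 (by positivity)

end TE

end Claimed.Open.R278
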