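import Claimed.Open.R278.DS2Fields

/-!
# Result 278, layer DS, file DS2Top: vertical ratio, `ds_drift`, `ds_planeTail` (glue)

Sub-captain helper88.  No leaf here.
-/

open MeasureTheory Filter
open scoped ContDiff InnerProductSpace ComplexConjugate ENNReal Topology Laplacian

noncomputable section

namespace Claimed.Open.R278

variable {𝒦 : Type} [NormedAddCommGroup 𝒦] [InnerProductSpace ℂ 𝒦] [CompleteSpace 𝒦]
variable {κ : ChannelConsts} {b : Space → ℝ} {γ : ℝ}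

set_option linter.unusedSectionVars false

/-- the vertical ratio of `‖F‖`. -/
theorem ds2_ratio_F (κ : ChannelConsts) (b : Space → ℝ) (γ : ℝ) (Cb : ℕ → ℝ) (cb : ℝ)
    (hb : FastOrbital b γ κ.R₁ Cb cb) (R : ℝ) (C : ℕ → ℝ) (K : ℝ) (hRκ : κ.R₁ ≤ R)
    (hC : ∀ n, 0 ≤ C n) (hK : 0 ≤ K) {c₀ : ℝ} (hc₀ : 0 < c₀) :
    ∃ R' : ℝ, R ≤ R' ∧ ∀ S : ChannelSys 𝒦 κ b γ, S.Good R C K → S.SimpleZero c₀ →
      ∀ p z₁ z₂ : ℝ, R' < p → 0 ≤ z₁ → z₁ ≤ z₂ → z₂ ≤ stripL →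
      ‖S.F (cyl p z₁)‖ ≤ 2 * ‖S.F (cyl p z₂)‖ := by
  by_cases hne : Nonempty (ChannelSys 𝒦 κ b γ)
  swap
  · exact ⟨R, le_rfl, fun S => (hne ⟨S⟩).elim⟩
  obtain ⟨S₀⟩ := hne
  have hC0 : 0 < κ.C 0 := S₀.C0_pos
  obtain ⟨C', hC', h⟩ := ds1_strip_vector (𝒦 := 𝒦) κ b γ Cb cb hb R C K hRκ hC hK
  obtain ⟨c₁, hc₁⟩ : ∃ c₁, c₁ = (1 / 4) * min (min c₀ 1) (c₀ / κ.C 0) := ⟨_, rfl⟩
  have hc₁pos : 0 < c₁ := by
    rw [hc₁]
    have : 0 < min (min c₀ 1) (c₀ / κ.C 0) := lt_min (lt_min hc₀ one_pos) (div_pos hc₀ hC0)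
    linarith
  have hc₁a : 4 * c₁ ≤ c₀ := by
    rw [hc₁]; have := min_le_left (min c₀ 1) (c₀ / κ.C 0)
    have := min_le_left c₀ 1; linarith
  have hc₁b : 4 * c₁ ≤ 1 := by
    rw [hc₁]; have := min_le_left (min c₀ 1) (c₀ / κ.C 0)
    have := min_le_right c₀ 1; linarith
  have hc₁c : 4 * c₁ ≤ c₀ / κ.C 0 := by
    rw [hc₁]; have := min_le_right (min c₀ 1) (c₀ / κ.C 0); linarith
  obtain ⟨R₂, hR₂1, hR₂⟩ := ds1_rho_small C' (by positivity : 0 < c₁ / 3)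
  refine ⟨max R R₂, le_max_left _ _, ?_⟩
  intro S hS h₀ p z₁ z₂ hp hz₁ hz₁₂ hz₂
  have hpR : R < p := lt_of_le_of_lt (le_max_left _ _) hp
  have hp1 : 1 ≤ p := hR₂1.trans ((le_max_right _ _).trans hp.le)
  have hp0 : 0 < p := by linarith
  have hsmall := hR₂ p ((le_max_right _ _).trans hp.le)
  have hApos : 0 < radialA S.k S.β p := radialA_pos _ _ hp0
  obtain ⟨T3, hT3⟩ : ∃ T3, T3 = S.lam * radialA S.k S.β p * (p ^ 4)⁻¹ := ⟨_, rfl⟩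
  have hT3n : 0 ≤ T3 := by rw [hT3]; have := S.lam_nonneg; positivity
  have hb0 : 0 ≤ b (cyl p 0) := by
    refine (hb.pos (by linarith [ds1_one_le_R₁ κ]) ?_).le
    have : ‖cyl p 0‖ = p := by
      rw [norm_cyl]; simp only [ne_eq, OfNat.ofNat_ne_zero, not_false_eq_true, zero_pow, add_zero]
      exact Real.sqrt_sq hp0.le
    show κ.R₁ < ‖cyl p 0‖
    rw [this]; exact lt_of_le_of_lt hRκ hpR
  have hTeq : c₀ / κ.C 0 ≤ ‖S.Teq‖ := by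
    rw [S.norm_Teq, div_eq_mul_inv]
    exact mul_le_mul (S.slope_lower hS h₀) S.v₂_lower (inv_nonneg.2 hC0.le) (norm_nonneg _)
  -- the comparison vector
  obtain ⟨V, hV⟩ : ∃ V : ℝ → 𝒦, V = fun z => (S.slope * (radialA S.k S.β p * z / p : ℝ)) • S.φ
      + b (cyl p 0) • S.G + T3 • S.Teq := ⟨_, rfl⟩
  have hclose : ∀ z : ℝ, 0 ≤ z → z ≤ stripL → ‖S.F (cyl p z) - V z‖ ≤ 1 / 3 * ‖V z‖ := by
    intro z hz hz'
    have h1 := h S hS p z hpR hz hz'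
    rw [← hT3] at h1
    have hT1n : 0 ≤ radialA S.k S.β p * z / p := by positivity
    have hlow := (S.three_lower (S.slope * (radialA S.k S.β p * z / p : ℝ)) hb0 hT3n).1
    have hns : ‖S.slope * ((radialA S.k S.β p * z / p : ℝ) : ℂ)‖
        = ‖S.slope‖ * (radialA S.k S.β p * z / p) := by
      rw [norm_mul, Complex.norm_real, Real.norm_of_nonneg hT1n]
    rw [hns] at hlow
    have e1 : 4 * c₁ * (radialA S.k S.β p * z / p) ≤ ‖S.slope‖ * (radialA S.k S.β p * z / p) :=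
      mul_le_mul_of_nonneg_right (hc₁a.trans (S.slope_lower hS h₀)) hT1n
    have e2 : 4 * c₁ * b (cyl p 0) ≤ b (cyl p 0) := by nlinarith
    have e3 : 4 * c₁ * T3 ≤ T3 * ‖S.Teq‖ := by
      have := mul_le_mul_of_nonneg_left (hc₁c.trans hTeq) hT3n
      linarith
    have hVlow : c₁ * (radialA S.k S.β p * z / p + b (cyl p 0) + T3) ≤ ‖V z‖ := by
      rw [hV]; linarith
    have hsum : 0 ≤ radialA S.k S.β p * z / p + b (cyl p 0) + T3 := by positivity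
    rw [hV] at hVlow ⊢
    calc _ ≤ C' * p ^ (-(1 / 4) : ℝ) * (radialA S.k S.β p * z / p + b (cyl p 0) + T3) := h1
      _ ≤ c₁ / 3 * (radialA S.k S.β p * z / p + b (cyl p 0) + T3) :=
          mul_le_mul_of_nonneg_right hsmall hsum
      _ = 1 / 3 * (c₁ * (radialA S.k S.β p * z / p + b (cyl p 0) + T3)) := by ring
      _ ≤ _ := mul_le_mul_of_nonneg_left hVlow (by norm_num)
  have hmono : ‖V z₁‖ ≤ ‖V z₂‖ := by
    rw [hV]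
    refine S.three_mono ?_ _ _
    rw [norm_mul, norm_mul, Complex.norm_real, Complex.norm_real]
    refine mul_le_mul_of_nonneg_left ?_ (norm_nonneg _)
    rw [Real.norm_of_nonneg (by positivity), Real.norm_of_nonneg (by have := hz₁.trans hz₁₂; positivity)]
    gcongr
  have c1 := hclose z₁ hz₁ (hz₁₂.trans hz₂)
  have c2 := hclose z₂ (hz₁.trans hz₁₂) hz₂
  have u1 : ‖S.F (cyl p z₁)‖ ≤ ‖V z₁‖ + ‖S.F (cyl p z₁) - V z₁‖ := by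
    have := norm_add_le (V z₁) (S.F (cyl p z₁) - V z₁); simpa using this
  have u2 : ‖V z₂‖ ≤ ‖S.F (cyl p z₂)‖ + ‖S.F (cyl p z₂) - V z₂‖ := by
    have := norm_sub_le (S.F (cyl p z₂)) (S.F (cyl p z₂) - V z₂); simpa using this
  linarith

theorem ds2_norm_cyl_zero {p : ℝ} (hp : 0 ≤ p) : ‖cyl p 0‖ = p := by
  rw [norm_cyl]; simp only [ne_eq, OfNat.ofNat_ne_zero, not_false_eq_true, zero_pow, add_zero]
  exact Real.sqrt_sq hp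

theorem ds2_rho_anti {M r : ℝ} (hM : 1 ≤ M) (hr : M ≤ r) :
    r ^ (-(1 / 4) : ℝ) ≤ M ^ (-(1 / 4) : ℝ) :=
  Real.rpow_le_rpow_of_nonpos (by linarith) hr (by norm_num)

section density
variable (κ : ChannelConsts) (b : Space → ℝ) (γ : ℝ) (Cb : ℕ → ℝ) (cb : ℝ) (c₀ : ℝ)

/-- **DS2a** (3.44) + vertical ratio + exterior positivity, uniformly over all systems with the
same constants. -/
theorem ds_drift (hb : FastOrbital b γ κ.R₁ Cb cb) (hc₀ : 0 < c₀) :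
    ∃ (R₀ : ℝ) (ρ : ℝ → ℝ), κ.R₁ ≤ R₀ ∧ Filter.Tendsto ρ Filter.atTop (𝓝 0) ∧
      ∀ (S : ChannelSys 𝒦 κ b γ) (n : Space → ℝ), S.SimpleZero c₀ → DensityLink S n →
      (∀ x ∈ Ext R₀, 0 < n x) ∧
      ∀ R : ℝ, R₀ < R → DriftStripG (100 * (|γ - S.k| + |γ - S.k| ^ 2) + ρ R) 20 n S.k R := by
  obtain ⟨R, C, K, hRκ, hC, hK, hgood⟩ := ds_good (𝒦 := 𝒦) κ b γ Cb cb hb
  obtain ⟨R₁', Cη, c, hRR', hCη, hc, hbase⟩ :=
    ds2_base (𝒦 := 𝒦) κ b γ Cb cb hb R C K hRκ hC hK hc₀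
  obtain ⟨C₁, hC₁, f₁⟩ :=
    ds2_radial_field (𝒦 := 𝒦) κ b γ Cb cb hb R C K hRκ hC hK R₁' Cη c hRR' hCη hc
  obtain ⟨C₂, hC₂, f₂⟩ :=
    ds2_horizontal_field (𝒦 := 𝒦) κ b γ Cb cb hb R C K hRκ hC hK R₁' Cη c hRR' hCη hc
  obtain ⟨C₃, hC₃, f₃⟩ :=
    ds2_strip_field (𝒦 := 𝒦) κ b γ Cb cb hb R C K hRκ hC hK R₁' Cη c hRR' hCη hc
  obtain ⟨R₂', hRR₂, f₄⟩ := ds2_ratio_F (𝒦 := 𝒦) κ b γ Cb cb hb R C K hRκ hC hK hc₀
  refine ⟨max R₁' R₂', fun r => (C₁ + C₂ + C₃) * r ^ (-(1 / 4) : ℝ),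
    (hRκ.trans hRR').trans (le_max_left _ _), ds1_tendsto_eps _, ?_⟩
  intro S n h₀ hn
  have hS := hgood S
  have hB : S.Base n R₁' Cη c := fun x hx => hbase S hS h₀ n hn x hx
  have hR1 : 1 ≤ R₁' := ((ds1_one_le_R₁ κ).trans hRκ).trans hRR'
  refine ⟨fun x hx => ?_, fun M hM => ?_⟩
  · obtain ⟨g1, -, -, -, g5, -⟩ := hB x (Ext_mono (le_max_left _ _) hx)
    have : 0 < ‖S.F x‖ ^ 2 := by positivity
    linarith
  have hM1 : R₁' < M := lt_of_le_of_lt (le_max_left _ _) hM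
  have hM2 : R₂' < M := lt_of_le_of_lt (le_max_right _ _) hM
  have hM1' : 1 ≤ M := hR1.trans hM1.le
  have hδ : 0 ≤ |γ - S.k| := abs_nonneg _
  have hρM : 0 ≤ M ^ (-(1 / 4) : ℝ) := Real.rpow_nonneg (by linarith) _
  have hδ2 : 0 ≤ |γ - S.k| ^ 2 := by positivity
  have q1 : 0 ≤ C₁ * M ^ (-(1 / 4) : ℝ) := by positivity
  have q2 : 0 ≤ C₂ * M ^ (-(1 / 4) : ℝ) := by positivity
  have q3 : 0 ≤ C₃ * M ^ (-(1 / 4) : ℝ) := by positivity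
  have e : (C₁ + C₂ + C₃) * M ^ (-(1 / 4) : ℝ) = C₁ * M ^ (-(1 / 4) : ℝ) + C₂ * M ^ (-(1 / 4) : ℝ)
      + C₃ * M ^ (-(1 / 4) : ℝ) := by ring
  refine ⟨?_, ?_, ?_, ?_⟩
  · intro x hx
    have h1 := f₁ S hS n hn hB x (lt_of_lt_of_le hM1 hx)
    have h2 := mul_le_mul_of_nonneg_left (ds2_rho_anti hM1' hx) hC₁
    simp only [e]; linarith
  · intro p z hx _ _
    have h1 := f₂ S hS n hn hB p z (lt_of_lt_of_le hM1 hx)
    have h2 := mul_le_mul_of_nonneg_left (ds2_rho_anti hM1' hx) hC₂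
    simp only [e]; linarith
  · intro p z hp hz hz'
    have h1 := f₃ S hS n hn hB p z (lt_of_lt_of_le hM1 hp) hz hz'
    have h2 := mul_le_mul_of_nonneg_left (ds2_rho_anti hM1' hp) hC₃
    obtain ⟨g1, -, -, -, -⟩ := dst_strip_geom (hM1'.trans hp) hz hz'
    obtain ⟨k1, -, -, -, k5, -⟩ := hB (cyl p z) (lt_of_lt_of_le (lt_of_lt_of_le hM1 hp) g1)
    have hnpos : 0 ≤ n (cyl p z) := by
      have : 0 < ‖S.F (cyl p z)‖ ^ 2 := by positivity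
      linarith
    refine h1.trans (mul_le_mul_of_nonneg_right ?_ (mul_nonneg (Real.exp_pos _).le hnpos))
    simp only [e]; linarith
  · intro p z₁ z₂ hp hz₁ hz₁₂ hz₂
    have h1 := f₄ S hS h₀ p z₁ z₂ (lt_of_lt_of_le hM2 hp) hz₁ hz₁₂ hz₂
    obtain ⟨g1, -, -, -, -⟩ := dst_strip_geom (hM1'.trans hp) hz₁ (hz₁₂.trans hz₂)
    obtain ⟨g2, -, -, -, -⟩ := dst_strip_geom (hM1'.trans hp) (hz₁.trans hz₁₂) hz₂
    obtain ⟨-, -, -, -, -, k6⟩ := hB (cyl p z₁) (lt_of_lt_of_le (lt_of_lt_of_le hM1 hp) g1)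
    obtain ⟨-, -, -, -, k5, -⟩ := hB (cyl p z₂) (lt_of_lt_of_le (lt_of_lt_of_le hM1 hp) g2)
    have h2 : ‖S.F (cyl p z₁)‖ ^ 2 ≤ 4 * ‖S.F (cyl p z₂)‖ ^ 2 := by
      have := norm_nonneg (S.F (cyl p z₁))
      nlinarith
    have : 0 ≤ ‖S.F (cyl p z₂)‖ ^ 2 := by positivity
    linarith

/-- **DS2b** (3.4): the plane tail at positive coupling. -/
theorem ds_planeTail (hb : FastOrbital b γ κ.R₁ Cb cb) (hc₀ : 0 < c₀)
    (S : ChannelSys 𝒦 κ b γ) (n : Space → ℝ) (hS : S.SimpleZero c₀) (hn : DensityLink S n)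
    (hlam : 0 < S.lam) : PlaneTail n S.k S.β := by
  obtain ⟨R, C, K, hRκ, hC, hK, hgood⟩ := ds_good (𝒦 := 𝒦) κ b γ Cb cb hb
  obtain ⟨R₁', Cη, c, hRR', hCη, hc, hbase⟩ :=
    ds2_base (𝒦 := 𝒦) κ b γ Cb cb hb R C K hRκ hC hK hc₀
  have hR1 : 1 ≤ R₁' := ((ds1_one_le_R₁ κ).trans hRκ).trans hRR'
  refine ⟨c * S.lam / 2, by positivity, R₁' + 1, fun p hp => ?_⟩
  have hp0 : 0 < p := by linarith
  have hnorm : ‖cyl p 0‖ = p := ds2_norm_cyl_zero hp0.le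
  have hx : cyl p 0 ∈ Ext R₁' := by show R₁' < ‖cyl p 0‖; rw [hnorm]; linarith
  have hxκ : cyl p 0 ∈ Ext κ.R₁ := Ext_mono (hRκ.trans hRR') hx
  obtain ⟨g1, -, g3, -, g5, -⟩ := hbase S (hgood S) hS n hn _ hx
  obtain ⟨-, -, t3, -, -, s3⟩ := S.scale_terms hb hxκ
  have hA : S.A (cyl p 0) = radialA S.k S.β p := by show radialA S.k S.β ‖cyl p 0‖ = _; rw [hnorm]
  rw [hA, hnorm] at s3 t3
  have hpow : p ^ (-4 : ℝ) = (p ^ 4)⁻¹ := by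
    rw [Real.rpow_neg hp0.le]; norm_cast
  rw [hpow]
  have h1 : c * (S.lam * radialA S.k S.β p * (p ^ 4)⁻¹) ≤ ‖S.F (cyl p 0)‖ :=
    (mul_le_mul_of_nonneg_left s3 hc.le).trans g3
  have h2 : ‖S.F (cyl p 0)‖ / 2 ≤ √(n (cyl p 0)) := by
    refine Real.le_sqrt_of_sq_le ?_
    have : 0 ≤ ‖S.F (cyl p 0)‖ ^ 2 := by positivity
    nlinarith
  calc c * S.lam / 2 * radialA S.k S.β p * (p ^ 4)⁻¹
      = c * (S.lam * radialA S.k S.β p * (p ^ 4)⁻¹) / 2 := by ring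
    _ ≤ ‖S.F (cyl p 0)‖ / 2 := by linarith
    _ ≤ _ := h2

end density

end Claimed.Open.R278
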