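import Claimed.Open.R278.DS2Amp

/-!
# Result 278, layer DS, file DS2Trans: translation limits (3.5), (3.6) in `C¹`.  STATEMENTS OF THE LEAVES

Sub-captain helper88.  PAPER-FREE.  The system `S` is FIXED here (constants may depend on `S`).
Notation: `X = y + x`, `r = |X|`, `s = |y|`, `ω = y/s`, `E = trE k y x = e^{-k ω·x}`, `|x| ≤ K`, `A = radialA k β`,
`f = A(r) h`, `ν = X/r`.

`n = |f|² + v`, `v = ‖QF‖² + e` is negligible in `C¹` (`‖F‖² = |f|² + ‖QF‖²`, `QF, D(QF) = O(A r⁻²)`).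
So everything follows from the `C¹` asymptotics of the complex amplitude `f`:
* plane centres (`y 2 = 0`, `s → ∞`), `N = A(s)/s`:  `f(X)/N → a' z E`,  `Df(X)[v]/N → a' (v₂ - k (ω·v) z) E`;
* bulk centres (`|y 2| → ∞`):  `f(X)/f(y) → E`,  `Df(X)[v]/f(y) → -k (ω·v) E`.

Leaves: `DS2-G` (geometry), `DS2-H` (gradient of `h`), `DS2-PSI` (gradient of `ψ = h - a' t` by interpolation),
`DS2-PTA` (`ds2_pt_amp`), `DS2-BTA` (`ds2_bt_amp`), `DS2-V` (negligible part), `DS2-M` (model functions, gradients,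
squaring).  The top theorems are proved from them in `DS2TransTop.lean`.
-/

open MeasureTheory Filter
open scoped ContDiff InnerProductSpace ComplexConjugate ENNReal Topology Laplacian

noncomputable section

namespace Claimed.Open.R278

variable {𝒦 : Type} [NormedAddCommGroup 𝒦] [InnerProductSpace ℂ 𝒦] [CompleteSpace 𝒦]
variable {κ : ChannelConsts} {b : Space → ℝ} {γ : ℝ}

/-- `E = e^{-k ω·x}`, `ω = y/|y|`. -/
def trE (k : ℝ) (y x : Space) : ℝ := Real.exp (-(k * ⟪‖y‖⁻¹ • y, x⟫_ℝ))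

/-! ## G. Geometry of translations (leaf DS2-G), no channel system

`r² = s² + 2 y·x + |x|²`, so `r - s - ω·x = (|x|² - (ω·x)² + (ω·x)(s - r) ...)/(r + s) = O(K²/s)`; `|r - s| ≤ K`;
`ν - ω = (x - (r - s) ω)/r = O(K/s)`;  `A(r)/A(s) = e^{-k(r-s)} (r/s)^a`. -/

theorem ds2_abs_inner_urad_le (y x : Space) : |⟪‖y‖⁻¹ • y, x⟫_ℝ| ≤ ‖x‖ := by
  have h1 := abs_real_inner_le_norm (‖y‖⁻¹ • y) x
  have h2 : ‖‖y‖⁻¹ • y‖ ≤ 1 := by
    by_cases hy : y = 0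
    · simp [hy]
    · exact (dst_norm_urad hy).le
  exact h1.trans (by nlinarith [norm_nonneg x, norm_nonneg (‖y‖⁻¹ • y)])

theorem ds2_geom (K δ : ℝ) (hδ : 0 < δ) : ∃ P : ℝ, 1 ≤ P ∧ ∀ y : Space, P ≤ ‖y‖ → ∀ x : Space,
    ‖x‖ ≤ K →
      ‖y‖ / 2 ≤ ‖y + x‖ ∧ ‖y + x‖ ≤ 2 * ‖y‖ ∧ |‖y + x‖ - ‖y‖ - ⟪‖y‖⁻¹ • y, x⟫_ℝ| ≤ δ ∧
      ‖‖y + x‖⁻¹ • (y + x) - ‖y‖⁻¹ • y‖ ≤ δ ∧ |‖y‖ / ‖y + x‖ - 1| ≤ δ := by
  refine ⟨1 + 2 * |K| + K ^ 2 / δ + 4 * |K| / δ, by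
    have : 0 ≤ 2 * |K| + K ^ 2 / δ + 4 * |K| / δ := by positivity
    linarith, ?_⟩
  intro y hy x hx
  have hK0 : 0 ≤ K := (norm_nonneg x).trans hx
  rw [abs_of_nonneg hK0] at hy
  have p1 : 0 ≤ K ^ 2 / δ := by positivity
  have p2 : 0 ≤ 4 * K / δ := by positivity
  have hq := (ds2_abs_inner_urad_le y x).trans hx
  have hsq := norm_add_sq_real y x
  have hs1 : 1 ≤ ‖y‖ := by linarith
  have hs0 : 0 < ‖y‖ := by linarith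
  have hyx : ⟪y, x⟫_ℝ = ‖y‖ * ⟪‖y‖⁻¹ • y, x⟫_ℝ := by
    rw [real_inner_smul_left, ← mul_assoc, mul_inv_cancel₀ hs0.ne', one_mul]
  rw [hyx] at hsq
  have hrs : |‖y + x‖ - ‖y‖| ≤ K := by
    have := abs_norm_sub_norm_le (y + x) y
    rw [add_sub_cancel_left] at this
    exact this.trans hx
  have id4 : ‖y + x‖⁻¹ • (y + x) - ‖y‖⁻¹ • y = ‖y + x‖⁻¹ • x + (‖y + x‖⁻¹ - ‖y‖⁻¹) • y := by
    rw [smul_add, sub_smul]; abel
  have n4 : ‖‖y + x‖⁻¹ • (y + x) - ‖y‖⁻¹ • y‖ ≤ ‖y + x‖⁻¹ * ‖x‖ + |‖y + x‖⁻¹ - ‖y‖⁻¹| * ‖y‖ := by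
    rw [id4]
    refine (norm_add_le _ _).trans ?_
    rw [norm_smul, norm_smul, norm_inv, norm_norm, Real.norm_eq_abs]
  have hδ1 : K ^ 2 ≤ δ * ‖y‖ := by
    have : K ^ 2 / δ ≤ ‖y‖ := by linarith
    rwa [div_le_iff₀ hδ, mul_comm] at this
  have hδ2 : 4 * K ≤ δ * ‖y‖ := by
    have : 4 * K / δ ≤ ‖y‖ := by linarith
    rw [div_le_iff₀ hδ] at this
    linarith
  have hxn := norm_nonneg x
  obtain ⟨q, hqd⟩ : ∃ q, q = ⟪‖y‖⁻¹ • y, x⟫_ℝ := ⟨_, rfl⟩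
  obtain ⟨r, hr⟩ : ∃ r, r = ‖y + x‖ := ⟨_, rfl⟩
  obtain ⟨s, hs⟩ : ∃ s, s = ‖y‖ := ⟨_, rfl⟩
  obtain ⟨ξ, hξ⟩ : ∃ ξ, ξ = ‖x‖ := ⟨_, rfl⟩
  rw [← hqd] at hq hsq ⊢
  rw [← hr, ← hs, ← hξ] at n4 hsq
  rw [← hr, ← hs] at hrs ⊢
  rw [← hs] at hy hs1 hs0 hδ1 hδ2
  rw [← hξ] at hx hxn
  obtain ⟨r1, r2⟩ := abs_le.1 hrs
  obtain ⟨q1, q2⟩ := abs_le.1 hq
  have hr_lo : s / 2 ≤ r := by linarith
  have hr0 : 0 < r := by linarith
  have h5 : |s / r - 1| ≤ δ := by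
    have e : s / r - 1 = (s - r) / r := by field_simp
    rw [e, abs_div, abs_of_pos hr0, div_le_iff₀ hr0, abs_sub_comm]
    refine hrs.trans ?_
    nlinarith
  refine ⟨hr_lo, by linarith, ?_, ?_, h5⟩
  · have hD : s ≤ r + s + q := by linarith
    have hprod : (r - s - q) * (r + s + q) = ξ ^ 2 - q ^ 2 := by nlinarith
    have hnn : 0 ≤ ξ ^ 2 - q ^ 2 := by
      have : q ^ 2 ≤ ξ ^ 2 := by
        have hq' := ds2_abs_inner_urad_le y x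
        rw [← hqd, ← hξ] at hq'
        exact sq_le_sq' (by linarith [(abs_le.1 hq').1]) (abs_le.1 hq').2
      linarith
    have hle : ξ ^ 2 - q ^ 2 ≤ K ^ 2 := by nlinarith [sq_nonneg q]
    have hD0 : 0 < r + s + q := by linarith
    have h0 : 0 ≤ r - s - q := by
      by_contra hc
      push Not at hc
      have := mul_neg_of_neg_of_pos hc hD0
      linarith
    rw [abs_of_nonneg h0]
    by_contra hc
    push Not at hc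
    have c1 : δ * s < (r - s - q) * s := mul_lt_mul_of_pos_right hc hs0
    have c2 : (r - s - q) * s ≤ (r - s - q) * (r + s + q) := mul_le_mul_of_nonneg_left hD h0
    linarith
  · refine n4.trans ?_
    have e : |r⁻¹ - s⁻¹| * s = |s - r| / r := by
      have : r⁻¹ - s⁻¹ = (s - r) / (r * s) := by field_simp
      rw [this, abs_div, abs_of_pos (mul_pos hr0 hs0)]
      field_simp
    rw [e, abs_sub_comm, ← div_eq_inv_mul, ← add_div, div_le_iff₀ hr0]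
    nlinarith

theorem ds2_radial_ratio (k a K δ : ℝ) (hδ : 0 < δ) : ∃ P : ℝ, 1 ≤ P ∧ ∀ y : Space, P ≤ ‖y‖ →
    ∀ x : Space, ‖x‖ ≤ K → |radialA k a ‖y + x‖ / radialA k a ‖y‖ - trE k y x| ≤ δ := by
  set L : ℝ := |k| + 2 * |a| with hL
  have hL0 : 0 ≤ L := by positivity
  set M : ℝ := Real.exp (|k| * |K|) * ((L + 1) * Real.exp L) with hM
  have hM0 : 0 < M := by positivity
  obtain ⟨P, hP, hgeo⟩ := ds2_geom K (min 1 (δ / M)) (lt_min one_pos (div_pos hδ hM0))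
  refine ⟨P, hP, ?_⟩
  intro y hy x hx
  obtain ⟨g1, g2, g3, -, g5⟩ := hgeo y hy x hx
  have hK0 : 0 ≤ K := (norm_nonneg x).trans hx
  have hs0 : 0 < ‖y‖ := by linarith
  have hq := (ds2_abs_inner_urad_le y x).trans hx
  unfold trE
  obtain ⟨δ', hδ'⟩ : ∃ δ', δ' = min 1 (δ / M) := ⟨_, rfl⟩
  rw [← hδ'] at g3 g5
  have hδ'1 : δ' ≤ 1 := hδ' ▸ min_le_left _ _
  have hδ'2 : δ' ≤ δ / M := hδ' ▸ min_le_right _ _
  have hδ'0 : 0 < δ' := hδ' ▸ lt_min one_pos (div_pos hδ hM0)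
  obtain ⟨q, hqd⟩ : ∃ q, q = ⟪‖y‖⁻¹ • y, x⟫_ℝ := ⟨_, rfl⟩
  obtain ⟨r, hr⟩ : ∃ r, r = ‖y + x‖ := ⟨_, rfl⟩
  obtain ⟨s, hs⟩ : ∃ s, s = ‖y‖ := ⟨_, rfl⟩
  rw [← hqd] at hq g3 ⊢
  rw [← hr, ← hs] at g1 g2 g3 g5 ⊢
  rw [← hs] at hs0
  have hr0 : 0 < r := by linarith
  obtain ⟨w, hw⟩ : ∃ w, w = -(k * (r - s - q)) + a * Real.log (r / s) := ⟨_, rfl⟩
  have hA : radialA k a r / radialA k a s = Real.exp w * Real.exp (-(k * q)) := by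
    rw [div_eq_iff (radialA_pos k a hs0).ne']
    simp only [radialA]
    rw [hw, Real.rpow_def_of_pos hr0, Real.rpow_def_of_pos hs0,
      Real.log_div hr0.ne' hs0.ne', ← Real.exp_add, ← Real.exp_add, ← Real.exp_add, ← Real.exp_add]
    congr 1; ring
  have hlog : |Real.log (r / s)| ≤ 2 * δ' := by
    obtain ⟨c1, c2⟩ := abs_le.1 g5
    rw [abs_le]
    constructor
    · have h1 := Real.log_le_sub_one_of_pos (div_pos hs0 hr0)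
      have h2 : Real.log (s / r) = -Real.log (r / s) := by
        rw [← Real.log_inv, inv_div]
      linarith
    · have h1 := Real.log_le_sub_one_of_pos (div_pos hr0 hs0)
      have h2 : r / s - 1 = (r / s) * (1 - s / r) := by field_simp
      have h3 : r / s ≤ 2 := by rw [div_le_iff₀ hs0]; linarith
      have h4 : 0 < r / s := div_pos hr0 hs0
      have h5 : (r / s) * (1 - s / r) ≤ 2 * δ' := by nlinarith
      linarith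
  have hwle : |w| ≤ L * δ' := by
    rw [hw]
    have e1 : |-(k * (r - s - q))| ≤ |k| * δ' := by
      rw [abs_neg, abs_mul]
      exact mul_le_mul_of_nonneg_left g3 (abs_nonneg _)
    have e2 : |a * Real.log (r / s)| ≤ |a| * (2 * δ') := by
      rw [abs_mul]
      exact mul_le_mul_of_nonneg_left hlog (abs_nonneg _)
    calc _ ≤ _ + _ := abs_add_le _ _
      _ ≤ |k| * δ' + |a| * (2 * δ') := add_le_add e1 e2
      _ = L * δ' := by rw [hL]; ring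
  have hwle' : |w| ≤ L := hwle.trans (by nlinarith)
  have hE : Real.exp (-(k * q)) ≤ Real.exp (|k| * |K|) := by
    apply Real.exp_le_exp.2
    have : |k * q| ≤ |k| * |K| := by
      rw [abs_mul]
      exact mul_le_mul_of_nonneg_left (hq.trans (le_abs_self _)) (abs_nonneg _)
    linarith [(abs_le.1 this).1]
  rw [hA]
  have e : Real.exp w * Real.exp (-(k * q)) - Real.exp (-(k * q))
      = (Real.exp w - 1) * Real.exp (-(k * q)) := by ring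
  rw [e, abs_mul, abs_of_pos (Real.exp_pos _)]
  calc |Real.exp w - 1| * Real.exp (-(k * q))
      ≤ (L * δ' * Real.exp L) * Real.exp (|k| * |K|) := by
        refine mul_le_mul ?_ hE (Real.exp_pos _).le (by positivity)
        exact (dst_abs_exp_sub_one_le w).trans
          (mul_le_mul hwle (Real.exp_le_exp.2 hwle') (Real.exp_pos _).le (by positivity))
    _ ≤ M * δ' := by
        rw [hM]
        have : 0 ≤ δ' * Real.exp L * Real.exp (|k| * |K|) := by positivity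
        nlinarith
    _ ≤ M * (δ / M) := mul_le_mul_of_nonneg_left hδ'2 hM0.le
    _ = δ := by field_simp

theorem ds2_trE_bounds {k K : ℝ} (hk : 0 ≤ k) (y : Space) {x : Space} (hx : ‖x‖ ≤ K) :
    0 < trE k y x ∧ trE k y x ≤ Real.exp (k * K) := by
  refine ⟨Real.exp_pos _, Real.exp_le_exp.2 ?_⟩
  have h := (abs_le.1 ((ds2_abs_inner_urad_le y x).trans hx)).1
  nlinarith

/-! ## H. The gradient of `h` and of `f` (leaf DS2-H)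

`fderiv_decomp` (T6a): `Dh(X)[v] = (X·v/r) ∂_r h + r⁻² ∑ᵢ ⟪eᵢ×X, v⟫ Ωᵢh`; `|∂_r h| ≤ C 0 r⁻²`, `|Ωᵢ h| ≤ C 1`
(`Good.h_rot` with the words `[]`, `[Ωᵢ]`), `|eᵢ×X| ≤ r`. -/

theorem ds2_fderiv_h_le {R : ℝ} {C : ℕ → ℝ} {K : ℝ} (hR : 1 ≤ R) (S : ChannelSys 𝒦 κ b γ)
    (hS : S.Good R C K) : ∀ X ∈ Ext R, ‖fderiv ℝ S.h X‖ ≤ (C 0 + 3 * C 1) / ‖X‖ := by
  intro X hX
  have hr1 : 1 ≤ ‖X‖ := hR.trans (le_of_lt hX)
  have hr0 : 0 < ‖X‖ := by linarith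
  have hX0 : X ≠ 0 := norm_pos_iff.1 hr0
  have hdr : ‖dr S.h X‖ ≤ C 0 * (‖X‖ ^ 2)⁻¹ := (hS.h_rot [] isRotWord_nil X hX).2.2.1
  have hrot : ∀ i : Fin 3, ‖dfield (Sum.inr i) S.h X‖ ≤ C 1 := fun i =>
    (hS.h_rot [Sum.inr i] (isRotWord_nil.cons i) X hX).1
  have hC1 : 0 ≤ C 1 := (norm_nonneg _).trans (hrot 0)
  have hC0 : 0 ≤ C 0 := by
    have h := (norm_nonneg _).trans hdr
    have h2 : 0 < (‖X‖ ^ 2)⁻¹ := by positivity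
    by_contra hc
    push Not at hc
    have := mul_neg_of_neg_of_pos hc h2
    linarith
  refine ContinuousLinearMap.opNorm_le_bound _ (by positivity) fun v => ?_
  rw [fderiv_decomp hX0 v]
  have t1 : ‖(⟪X, v⟫_ℝ / ‖X‖) • dr S.h X‖ ≤ ‖v‖ * (C 0 * (‖X‖ ^ 2)⁻¹) := by
    rw [norm_smul, Real.norm_eq_abs, abs_div, abs_of_pos hr0]
    refine mul_le_mul ?_ hdr (norm_nonneg _) (norm_nonneg _)
    rw [div_le_iff₀ hr0, mul_comm]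
    exact abs_real_inner_le_norm X v
  have t2 : ‖(‖X‖ ^ 2)⁻¹ • ∑ i : Fin 3, ⟪vfield (Sum.inr i) X, v⟫_ℝ • dfield (Sum.inr i) S.h X‖
      ≤ (‖X‖ ^ 2)⁻¹ * (3 * (‖X‖ * ‖v‖ * C 1)) := by
    rw [norm_smul, Real.norm_eq_abs, abs_of_pos (by positivity : 0 < (‖X‖ ^ 2)⁻¹)]
    refine mul_le_mul_of_nonneg_left ?_ (by positivity)
    refine (norm_sum_le _ _).trans ?_
    have : ∀ i : Fin 3, ‖⟪vfield (Sum.inr i) X, v⟫_ℝ • dfield (Sum.inr i) S.h X‖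
        ≤ ‖X‖ * ‖v‖ * C 1 := fun i => by
      rw [norm_smul, Real.norm_eq_abs]
      refine mul_le_mul ?_ (hrot i) (norm_nonneg _) (by positivity)
      exact (abs_real_inner_le_norm _ _).trans
        (mul_le_mul_of_nonneg_right (norm_vfield_rot_le i X) (norm_nonneg _))
    calc _ ≤ ∑ _i : Fin 3, ‖X‖ * ‖v‖ * C 1 := Finset.sum_le_sum fun i _ => this i
      _ = _ := by simp
  refine (norm_add_le _ _).trans ((add_le_add t1 t2).trans ?_)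
  have h3 : (‖X‖ ^ 2)⁻¹ ≤ ‖X‖⁻¹ := by
    apply inv_anti₀ hr0
    nlinarith
  have e : (‖X‖ ^ 2)⁻¹ * (3 * (‖X‖ * ‖v‖ * C 1)) = 3 * C 1 / ‖X‖ * ‖v‖ := by field_simp
  rw [e, add_div, add_mul]
  have : ‖v‖ * (C 0 * (‖X‖ ^ 2)⁻¹) ≤ C 0 / ‖X‖ * ‖v‖ := by
    rw [div_eq_mul_inv]
    have := mul_le_mul_of_nonneg_left h3 (mul_nonneg (norm_nonneg v) hC0)
    nlinarith
  linarith

/-- `Df(X)[v] = A(r) ((-k + β/r) (ν·v) h(X) + Dh(X)[v])`. -/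
theorem ds2_fderiv_f {R : ℝ} {C : ℕ → ℝ} {K : ℝ} (hR : 1 ≤ R) (S : ChannelSys 𝒦 κ b γ)
    (hS : S.Good R C K) : ∀ X ∈ Ext R, ∀ v : Space,
      fderiv ℝ S.f X v = S.A X • (((-S.k + S.β / ‖X‖) * ⟪‖X‖⁻¹ • X, v⟫_ℝ) • S.h X
        + fderiv ℝ S.h X v) := by
  intro X hX v
  have hR0 : 0 ≤ R := by linarith
  have hX0 : X ≠ 0 := dst_ne_zero hR0 hX
  have hr0 : 0 < ‖X‖ := norm_pos_iff.2 hX0
  have hh : DifferentiableAt ℝ S.h X := differentiableAt_of_mem_Ext (ds1_f_smooth hR S hS).2 hX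
  have hA : HasFDerivAt (fun y : Space => radialA S.k S.β ‖y‖)
      (((-S.k + S.β / ‖X‖) * radialA S.k S.β ‖X‖) • (‖X‖⁻¹ • innerSL ℝ X)) X :=
    (hasDerivAt_radialA S.k S.β hr0).comp_hasFDerivAt X (hasFDerivAt_norm_space hX0)
  have hev : S.f =ᶠ[𝓝 X] fun y => radialA S.k S.β ‖y‖ • S.h y := by
    filter_upwards [Ext_mem_nhds hX] with y hy
    exact S.f_eq (dst_ne_zero hR0 hy)
  have e0 : (fun y => radialA S.k S.β ‖y‖ • S.h y) = (fun y : Space => radialA S.k S.β ‖y‖) • S.h :=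
    rfl
  rw [hev.fderiv_eq, e0, (hA.smul hh.hasFDerivAt).fderiv]
  have eA : S.A X = radialA S.k S.β ‖X‖ := rfl
  simp only [_root_.add_apply, _root_.smul_apply, ContinuousLinearMap.smulRight_apply,
    innerSL_apply_apply, smul_eq_mul, eA, real_inner_smul_left]
  module

/-- `Dt(X)[v] = (v₂ - t (ν·v))/r`. -/
theorem ds2_fderiv_tz {X : Space} (hX : X ≠ 0) (v : Space) :
    fderiv ℝ tz X v = (v 2 - tz X * ⟪‖X‖⁻¹ • X, v⟫_ℝ) / ‖X‖ := by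
  have hn : ‖X‖ ≠ 0 := norm_ne_zero_iff.2 hX
  have h1 : HasFDerivAt (fun y : Space => y 2) (EuclideanSpace.proj (2 : Fin 3) : Space →L[ℝ] ℝ) X :=
    (EuclideanSpace.proj (2 : Fin 3) : Space →L[ℝ] ℝ).hasFDerivAt
  have h2 : HasFDerivAt (fun y : Space => ‖y‖⁻¹) ((-(‖X‖ ^ 2)⁻¹) • (‖X‖⁻¹ • innerSL ℝ X)) X :=
    (hasDerivAt_inv hn).comp_hasFDerivAt X (hasFDerivAt_norm_space hX)
  have e : tz = fun y : Space => y 2 * ‖y‖⁻¹ := by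
    funext y; simp only [tz, div_eq_mul_inv]
  have h3 := h1.mul h2
  have e3 : (fun y : Space => y 2 * ‖y‖⁻¹) = (fun y : Space => y 2) * fun y : Space => ‖y‖⁻¹ := rfl
  have e2 : (EuclideanSpace.proj (2 : Fin 3) : Space →L[ℝ] ℝ) v = v 2 := rfl
  have e4 : tz X = X 2 * ‖X‖⁻¹ := by simp only [tz, div_eq_mul_inv]
  rw [e4, e, e3, h3.fderiv]
  simp only [_root_.add_apply, _root_.smul_apply, innerSL_apply_apply, smul_eq_mul, e2,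
    real_inner_smul_left]
  field_simp
  ring

/-- lower bound of `h` far out: `|h| ≥ |a₀| - K|t|/r ≥ (c₀/2) |t|`. -/
theorem ds2_h_lower {R : ℝ} {C : ℕ → ℝ} {K c₀ : ℝ} (hR : 1 ≤ R) (hc₀ : 0 < c₀)
    (S : ChannelSys 𝒦 κ b γ) (hS : S.Good R C K) (h₀ : S.SimpleZero c₀) :
    ∃ R' : ℝ, R ≤ R' ∧ ∀ X ∈ Ext R', c₀ / 2 * |tz X| ≤ ‖S.h X‖ := by
  refine ⟨max R (2 * K / c₀), le_max_left _ _, fun x hx => ?_⟩
  have hxR : x ∈ Ext R := Ext_mono (le_max_left _ _) hx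
  have hR0 : 0 ≤ R := by linarith
  have hx0 := ne_zero_of_mem_Ext hR0 hxR
  have hr0 : 0 < ‖x‖ := norm_pos_iff.2 hx0
  have hrK : 2 * K / c₀ < ‖x‖ := lt_of_le_of_lt (le_max_right _ _) hx
  have o2 := (hS.odd x hxR).2.1
  have z := h₀ x (show (0 : ℝ) < ‖x‖ from hr0)
  have hT0 := abs_nonneg (tz x)
  have h1 : K * |tz x| / ‖x‖ ≤ c₀ / 2 * |tz x| := by
    rw [div_lt_iff₀ hc₀] at hrK
    rw [div_le_iff₀ hr0]
    nlinarith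
  have h2 : ‖S.a₀ x‖ ≤ ‖S.h x‖ + ‖S.h x - S.a₀ x‖ := by
    have := norm_sub_le (S.h x) (S.h x - S.a₀ x); simpa using this
  linarith

/-! ## PSI. The gradient of `ψ = h - a' t` near the plane, by interpolation (leaf DS2-PSI)

Same scheme as `channel_E_deriv` (CH2F).  `|ψ| ≤ K (t² + |t|/r)` (`Good.odd`), so `|ψ| ≤ ε := C r⁻²` on the
unit ball around `X` when `|X 2| ≤ Kz`.  All words of `h = (1/A) f` and of `t` are bounded: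
`1/A = radialA (-k) (-β)`, `radialA_wordBdd`, `WordBdd.smul`/`smulC`, `ch1_f_bdd` or `F_bdd` + `WordBdd.clmC`, `tz_wordBdd`; so
the 8th derivative of `s ↦ ψ(X + s v)` is `≤ M` (`iteratedDeriv_line_le`).  `interpolation_eight`:
`|Dψ(X)[v]| ≤ C (ε^{7/8} M^{1/8} + ε) ≤ C' r^{-7/4}`. -/

theorem ds2_h_bdd {R : ℝ} {C : ℕ → ℝ} {K : ℝ} (hR : 1 ≤ R) (S : ChannelSys 𝒦 κ b γ)
    (hS : S.Good R C K) : ∃ C' : ℕ → ℝ, WordBdd R C' (fun _ => 1) S.h := by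
  obtain ⟨C₂, hC₂⟩ := radialA_wordBdd 2
  obtain ⟨hβ1, hβ2⟩ := S.beta_bounds
  have hk : |(-S.k)| ≤ 2 := by
    rw [abs_neg, abs_le]; constructor <;> linarith [S.k_lo, S.k_hi]
  have hβ : |(-S.β)| ≤ 2 := by
    rw [abs_neg, abs_le]; constructor <;> linarith
  have h1 := (hC₂ (-S.k) (-S.β) hk hβ).mono (C' := C₂)
    (g' := fun x => radialA (-S.k) (-S.β) ‖x‖) hR fun _ _ _ => le_rfl
  have h2 := hS.F_bdd.clmC (innerSL ℂ S.φ)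
  have hr0 : ∀ x ∈ Ext R, 0 < ‖x‖ := fun x hx => by
    have : R < ‖x‖ := hx
    linarith
  have h3 := WordBdd.smul (fun x hx => (radialA_pos _ _ (hr0 x hx)).le)
    (fun x _ => S.A_nonneg x) h1 h2
  have hprod : ∀ x ∈ Ext R, radialA (-S.k) (-S.β) ‖x‖ * S.A x = 1 := fun x hx => by
    have h0 := hr0 x hx
    show radialA (-S.k) (-S.β) ‖x‖ * radialA S.k S.β ‖x‖ = 1
    unfold radialA
    rw [Real.rpow_neg h0.le]
    have e1 : Real.exp (-(-S.k * ‖x‖)) * Real.exp (-(S.k * ‖x‖)) = 1 := by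
      rw [← Real.exp_add]; simp
    have e2 : (‖x‖ ^ S.β)⁻¹ * ‖x‖ ^ S.β = 1 := inv_mul_cancel₀ (Real.rpow_pos_of_pos h0 _).ne'
    calc _ = (Real.exp (-(-S.k * ‖x‖)) * Real.exp (-(S.k * ‖x‖))) * ((‖x‖ ^ S.β)⁻¹ * ‖x‖ ^ S.β) := by
          ring
      _ = 1 := by rw [e1, e2, one_mul]
  refine ⟨_, (h3.mono (g' := fun _ => 1) le_rfl fun n x hx => by rw [hprod x hx]).congr
    fun x hx => ?_⟩
  have hA : S.A x ≠ 0 := (S.A_pos (norm_pos_iff.1 (hr0 x hx))).ne'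
  have e : radialA (-S.k) (-S.β) ‖x‖ = (S.A x)⁻¹ := eq_inv_of_mul_eq_one_left (hprod x hx)
  show S.f x / (S.A x : ℂ) = _
  rw [e, innerSL_apply_apply, Complex.real_smul, Complex.ofReal_inv, div_eq_inv_mul]
  rfl

theorem ds2_psi_bdd {R : ℝ} {C : ℕ → ℝ} {K : ℝ} (hR : 1 ≤ R) (S : ChannelSys 𝒦 κ b γ)
    (hS : S.Good R C K) :
    ∃ C' : ℕ → ℝ, WordBdd R C' (fun _ => 1) (fun y => S.h y - S.slope * (tz y : ℂ)) := by
  obtain ⟨C₁, h₁⟩ := ds2_h_bdd hR S hS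
  obtain ⟨C₂, h₂⟩ := tz_wordBdd
  have h3 := (h₂.mono (C' := C₂) (g' := fun _ => 1) hR fun _ _ _ => le_rfl).clm
    (S.slope • Complex.ofRealCLM)
  exact ⟨_, h₁.sub h3⟩

theorem ds2_fderiv_psi {R : ℝ} {C : ℕ → ℝ} {K : ℝ} (hR : 1 ≤ R) (S : ChannelSys 𝒦 κ b γ)
    (hS : S.Good R C K) (Kz : ℝ) : ∃ Cψ : ℝ, 0 ≤ Cψ ∧ ∀ X ∈ Ext (R + 2), |X 2| ≤ Kz →
      ‖fderiv ℝ (fun y => S.h y - S.slope * (tz y : ℂ)) X‖ ≤ Cψ * ‖X‖ ^ (-(7 / 4) : ℝ) := by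
  obtain ⟨C', hψ⟩ := ds2_psi_bdd hR S hS
  obtain ⟨CI, hCI, hint⟩ := interpolation_eight (V := ℂ)
  have hK : 0 ≤ K := (norm_nonneg _).trans hS.slope_le
  set cε : ℝ := K * (4 * (|Kz| + 1) + 4 * (|Kz| + 1) ^ 2) with hcε
  have hcε0 : 0 ≤ cε := by positivity
  set M : ℝ := 3 ^ 8 * |C' 8| with hM
  have hM0 : 0 ≤ M := by positivity
  refine ⟨8 * CI * (cε + M), by positivity, ?_⟩
  intro X hX hz
  have hz' : |X 2| ≤ |Kz| := hz.trans (le_abs_self _)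
  have hr : R + 2 < ‖X‖ := hX
  have hr3 : 3 < ‖X‖ := by linarith
  have hr0 : 0 < ‖X‖ := by linarith
  set ψ : Space → ℂ := fun y => S.h y - S.slope * (tz y : ℂ) with hψdef
  obtain ⟨ρ, hρ⟩ : ∃ ρ, ρ = ‖X‖ ^ (-(1 / 4) : ℝ) := ⟨_, rfl⟩
  have hρ0 : 0 < ρ := hρ ▸ Real.rpow_pos_of_pos hr0 _
  have hρ1 : ρ ≤ 1 := hρ ▸ Real.rpow_le_one_of_one_le_of_nonpos (by linarith) (by norm_num)
  have hρ7 : ‖X‖ ^ (-(7 / 4) : ℝ) = ρ ^ 7 := by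
    rw [hρ, ← Real.rpow_natCast, ← Real.rpow_mul hr0.le]; norm_num
  have hρ8 : (‖X‖ ^ 2)⁻¹ = ρ ^ 8 := by
    rw [hρ, ← Real.rpow_natCast (‖X‖ ^ (-(1 / 4) : ℝ)), ← Real.rpow_mul hr0.le,
      ← Real.rpow_natCast ‖X‖ 2, ← Real.rpow_neg hr0.le]
    norm_num
  rw [hρ7]
  have hXR : X ∈ Ext R := Ext_mono (by linarith) hX
  refine ContinuousLinearMap.opNorm_le_of_unit_norm (by positivity) fun v hv => ?_
  have hmem : ∀ s : ℝ, s ∈ Set.Ioo (-1 : ℝ) 2 → X + s • v ∈ Ext R := fun s hs => by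
    show R < ‖X + s • v‖
    have h1 : ‖X‖ - ‖s • v‖ ≤ ‖X + s • v‖ := by
      have := norm_sub_norm_le X (-(s • v))
      rwa [norm_neg, sub_neg_eq_add] at this
    have h2 : ‖s • v‖ ≤ 2 := by
      rw [norm_smul, hv, mul_one, Real.norm_eq_abs, abs_le]
      constructor <;> linarith [hs.1, hs.2]
    linarith
  have hsub : Set.Icc (0 : ℝ) 1 ⊆ Set.Ioo (-1) 2 := fun s hs =>
    ⟨by linarith [hs.1], by linarith [hs.2]⟩
  have hg : ContDiffOn ℝ 8 (fun s : ℝ => ψ (X + s • v)) (Set.Ioo (-1) 2) := fun s hs =>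
    (contDiffAt_line hψ.1 (hmem s hs) 8).contDiffWithinAt
  have hε : ∀ s ∈ Set.Icc (0 : ℝ) 1, ‖ψ (X + s • v)‖ ≤ cε * ρ ^ 8 := by
    intro s hs
    have hY := hmem s (hsub hs)
    obtain ⟨-, o2, o3, -, -⟩ := hS.odd _ hY
    have hn : ‖X‖ / 2 ≤ ‖X + s • v‖ := by
      have h1 : ‖X‖ - ‖s • v‖ ≤ ‖X + s • v‖ := by
        have := norm_sub_norm_le X (-(s • v))
        rwa [norm_neg, sub_neg_eq_add] at this
      have h2 : ‖s • v‖ ≤ 1 := by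
        rw [norm_smul, hv, mul_one, Real.norm_eq_abs, abs_le]
        constructor <;> linarith [hs.1, hs.2]
      linarith
    have hz2 : |(X + s • v) 2| ≤ |Kz| + 1 := by
      have e : (X + s • v) 2 = X 2 + s * v 2 := by simp
      rw [e]
      have h1 : |s * v 2| ≤ 1 := by
        rw [abs_mul, abs_of_nonneg hs.1]
        have := dst_abs_coord_le v 2
        rw [hv] at this
        nlinarith [hs.2, abs_nonneg (v 2)]
      exact (abs_add_le _ _).trans (add_le_add hz' h1)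
    obtain ⟨Y, hYd⟩ : ∃ Y, Y = X + s • v := ⟨_, rfl⟩
    rw [← hYd] at o2 o3 hn hz2 ⊢
    have hY0 : 0 < ‖Y‖ := by linarith
    have ht : |tz Y| ≤ 2 * (|Kz| + 1) / ‖X‖ := by
      unfold tz
      rw [abs_div, abs_of_pos hY0, div_le_div_iff₀ hY0 hr0]
      have := abs_nonneg Kz
      nlinarith
    have e : ψ Y = (S.h Y - S.a₀ Y) + (S.a₀ Y - S.slope * (tz Y : ℂ)) := by
      rw [hψdef]; ring
    rw [e, ← hρ8]
    refine (norm_add_le _ _).trans ((add_le_add o2 o3).trans ?_)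
    have hT0 : 0 ≤ 2 * (|Kz| + 1) / ‖X‖ := by positivity
    have b1 : K * |tz Y| / ‖Y‖ ≤ K * (2 * (|Kz| + 1) / ‖X‖) * (2 / ‖X‖) := by
      rw [div_eq_mul_inv]
      refine mul_le_mul (mul_le_mul_of_nonneg_left ht hK) ?_ (by positivity) (by positivity)
      rw [inv_le_comm₀ hY0 (by positivity), inv_div]
      exact hn
    have b2 : K * tz Y ^ 2 ≤ K * (2 * (|Kz| + 1) / ‖X‖) ^ 2 := by
      refine mul_le_mul_of_nonneg_left ?_ hK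
      rw [← sq_abs]
      exact pow_le_pow_left₀ (abs_nonneg _) ht 2
    refine (add_le_add b1 b2).trans (le_of_eq ?_)
    rw [hcε]
    field_simp
    ring
  have hM8 : ∀ s ∈ Set.Icc (0 : ℝ) 1, ‖iteratedDeriv 8 (fun s : ℝ => ψ (X + s • v)) s‖ ≤ M := by
    intro s hs
    have hY := hmem s (hsub hs)
    refine iteratedDeriv_line_le hψ.1 hv.le 8 hY fun w hw => ?_
    have := hψ.2 w _ hY
    rw [hw, mul_one] at this
    exact this.trans (le_abs_self _)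
  have hmain := (hint (fun s : ℝ => ψ (X + s • v)) (cε * ρ ^ 8) M (ρ / 8) (by positivity)
    (by linarith) hg hε hM8).1
  rw [iteratedDeriv_one_line (differentiableAt_of_mem_Ext hψ.1 hXR)] at hmain
  have h8 : (ρ / 8) ^ 8 ≤ ρ ^ 8 := pow_le_pow_left₀ (by positivity) (by linarith) 8
  have h9 : CI * (cε * ρ ^ 8 + M * (ρ / 8) ^ 8) ≤ CI * ((cε + M) * ρ ^ 8) := by
    refine mul_le_mul_of_nonneg_left ?_ hCI
    have := mul_le_mul_of_nonneg_left h8 hM0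
    linarith
  have h10 := hmain.trans h9
  have h11 : ‖fderiv ℝ ψ X v‖ * ρ ≤ (8 * CI * (cε + M) * ρ ^ 7) * ρ := by
    calc ‖fderiv ℝ ψ X v‖ * ρ = 8 * (‖fderiv ℝ ψ X v‖ * (ρ / 8)) := by ring
      _ ≤ 8 * (CI * ((cε + M) * ρ ^ 8)) := mul_le_mul_of_nonneg_left h10 (by norm_num)
      _ = _ := by ring
  exact le_of_mul_le_mul_right h11 hρ0

/-! ## PTA, BTA. `C¹` asymptotics of the amplitude -/

/-- products of approximations (used for PTA and BTA). -/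
theorem ds2_amp_alg {ρ E M B η c c' W : ℝ} {H H' D D' : ℂ} (hη0 : 0 ≤ η) (hη1 : η ≤ 1)
    (hE0 : 0 ≤ E) (hEM : E ≤ M) (hB : 0 ≤ B) (hW : 0 ≤ W)
    (hρ : |ρ - E| ≤ η) (hH : ‖H - H'‖ ≤ η) (hH' : ‖H'‖ ≤ B) (hc : |c - c'| ≤ η * W)
    (hc' : |c'| ≤ 2 * W) (hD : ‖D - D'‖ ≤ η * W) (hD' : ‖D'‖ ≤ B * W) :
    ‖(ρ : ℂ) * H - (E : ℂ) * H'‖ ≤ (B + 1 + M) * η ∧
    ‖(ρ : ℂ) * ((c : ℂ) * H + D) - (E : ℂ) * ((c' : ℂ) * H' + D')‖
      ≤ (4 * (B + 1) + M * (B + 4)) * η * W := by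
  have hM : 0 ≤ M := hE0.trans hEM
  have nH : ‖H‖ ≤ B + 1 := by
    have := norm_le_norm_add_norm_sub' H H'
    linarith
  have nD : ‖D‖ ≤ (B + 1) * W := by
    have := norm_le_norm_add_norm_sub' D D'
    nlinarith
  have nc : |c| ≤ 3 * W := by
    have : |c| ≤ |c'| + |c - c'| := by
      have := abs_add_le c' (c - c'); simpa using this
    nlinarith
  have nρE : ‖((ρ : ℂ) - (E : ℂ))‖ ≤ η := by
    rw [← Complex.ofReal_sub, Complex.norm_real]; exact hρ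
  have nE : ‖(E : ℂ)‖ ≤ M := by rw [Complex.norm_real, Real.norm_of_nonneg hE0]; exact hEM
  have gen : ∀ (Y Y' : ℂ) (a d : ℝ), ‖Y‖ ≤ a → ‖Y - Y'‖ ≤ d → 0 ≤ a → 0 ≤ d →
      ‖(ρ : ℂ) * Y - (E : ℂ) * Y'‖ ≤ η * a + M * d := by
    intro Y Y' a d h1 h2 ha hd
    have e : (ρ : ℂ) * Y - (E : ℂ) * Y' = ((ρ : ℂ) - E) * Y + E * (Y - Y') := by ring
    rw [e]
    calc _ ≤ ‖((ρ : ℂ) - E) * Y‖ + ‖(E : ℂ) * (Y - Y')‖ := norm_add_le _ _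
      _ = ‖((ρ : ℂ) - E)‖ * ‖Y‖ + ‖(E : ℂ)‖ * ‖Y - Y'‖ := by rw [norm_mul, norm_mul]
      _ ≤ η * a + M * d := by gcongr
  constructor
  · have := gen H H' (B + 1) η nH hH (by positivity) hη0
    linarith
  · have h1 : ‖(c : ℂ) * H + D‖ ≤ 4 * (B + 1) * W := by
      calc _ ≤ ‖(c : ℂ) * H‖ + ‖D‖ := norm_add_le _ _
        _ = |c| * ‖H‖ + ‖D‖ := by rw [norm_mul, Complex.norm_real, Real.norm_eq_abs]
        _ ≤ 3 * W * (B + 1) + (B + 1) * W := by gcongr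
        _ = _ := by ring
    have h2 : ‖((c : ℂ) * H + D) - ((c' : ℂ) * H' + D')‖ ≤ (B + 4) * η * W := by
      have e : ((c : ℂ) * H + D) - ((c' : ℂ) * H' + D')
          = ((c : ℂ) - c') * H + c' * (H - H') + (D - D') := by ring
      rw [e]
      calc _ ≤ ‖((c : ℂ) - c') * H‖ + ‖(c' : ℂ) * (H - H')‖ + ‖D - D'‖ := norm_add₃_le
        _ = |c - c'| * ‖H‖ + |c'| * ‖H - H'‖ + ‖D - D'‖ := by
            rw [norm_mul, norm_mul, ← Complex.ofReal_sub, Complex.norm_real, Complex.norm_real,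
              Real.norm_eq_abs, Real.norm_eq_abs]
        _ ≤ η * W * (B + 1) + 2 * W * η + η * W := by gcongr
        _ = _ := by ring
    have := gen _ _ _ _ h1 h2 (by positivity) (by positivity)
    calc _ ≤ η * (4 * (B + 1) * W) + M * ((B + 4) * η * W) := this
      _ = _ := by ring

theorem ds2_c_est {k β r η : ℝ} {u w v : Space} (hk : 0 ≤ k) (hk2 : k ≤ 2) (hβ : |β| ≤ 2)
    (hr : 0 < r) (hu : ‖u‖ ≤ 1) (h1 : 2 / r ≤ η / 2) (h2 : ‖u - w‖ ≤ η / 4) :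
    |(-k + β / r) * ⟪u, v⟫_ℝ - -(k * ⟪w, v⟫_ℝ)| ≤ η * ‖v‖ := by
  have e : (-k + β / r) * ⟪u, v⟫_ℝ - -(k * ⟪w, v⟫_ℝ) = β / r * ⟪u, v⟫_ℝ - k * ⟪u - w, v⟫_ℝ := by
    rw [inner_sub_left]; ring
  rw [e]
  have a1 : |β / r * ⟪u, v⟫_ℝ| ≤ η / 2 * ‖v‖ := by
    rw [abs_mul, abs_div, abs_of_pos hr]
    have i1 : |⟪u, v⟫_ℝ| ≤ ‖v‖ := by
      have := abs_real_inner_le_norm u v
      nlinarith [norm_nonneg v]
    calc |β| / r * |⟪u, v⟫_ℝ| ≤ 2 / r * ‖v‖ := by gcongr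
      _ ≤ _ := by gcongr
  have a2 : |k * ⟪u - w, v⟫_ℝ| ≤ η / 2 * ‖v‖ := by
    rw [abs_mul, abs_of_nonneg hk]
    have i1 := abs_real_inner_le_norm (u - w) v
    calc k * |⟪u - w, v⟫_ℝ| ≤ 2 * (η / 4 * ‖v‖) := by
          gcongr
          exact i1.trans (by gcongr)
      _ = _ := by ring
  calc _ ≤ _ + _ := abs_sub _ _
    _ ≤ η / 2 * ‖v‖ + η / 2 * ‖v‖ := add_le_add a1 a2
    _ = _ := by ring

set_option maxHeartbeats 2000000 in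
/-- **leaf DS2-PTA.**  `N = A(s)/s`.  `f(X)/N = (A(r)/A(s)) · s h(X)`, `s h(X) = a' z (s/r) + s ψ(X)`,
`|s ψ| ≤ s K (z²/r² + |z|/r²) → 0`.  By `ds2_fderiv_f`:
`Df(X)[v]/N = (A(r)/A(s)) ((-k + β/r)(ν·v) s h(X) + s Dh(X)[v])`, `s Dh(X)[v] = a' (s/r)(v₂ - t (ν·v)) + s Dψ(X)[v]`
(`ds2_fderiv_tz`, `ds2_fderiv_psi` with `Kz = K`: `s r^{-7/4} → 0`).  Then `ds2_geom`, `ds2_radial_ratio`, `ds2_trE_bounds`
and the elementary rule: `|a - a'| ≤ δ', |b - b'| ≤ δ', |a'|,|b'| ≤ B, δ' ≤ 1 ⇒ |ab - a'b'| ≤ (2B+1) δ'`. -/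
theorem ds2_pt_amp {R : ℝ} {C : ℕ → ℝ} {K₀ : ℝ} (hR : 1 ≤ R) (S : ChannelSys 𝒦 κ b γ)
    (hS : S.Good R C K₀) (K δ : ℝ) (hδ : 0 < δ) :
    ∃ P : ℝ, 1 ≤ P ∧ ∀ y : Space, y 2 = 0 → P ≤ ‖y‖ → ∀ x : Space, ‖x‖ ≤ K →
      y + x ∈ Ext R ∧
      ‖(radialA S.k S.β ‖y‖ / ‖y‖)⁻¹ • S.f (y + x) - S.slope * ((x 2 * trE S.k y x : ℝ) : ℂ)‖ ≤ δ ∧
      ∀ v : Space, ‖(radialA S.k S.β ‖y‖ / ‖y‖)⁻¹ • fderiv ℝ S.f (y + x) v
        - S.slope * (((v 2 - S.k * ⟪‖y‖⁻¹ • y, v⟫_ℝ * x 2) * trE S.k y x : ℝ) : ℂ)‖ ≤ δ * ‖v‖ := by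
  have hR0 : 0 ≤ R := by linarith
  have hK₀ : 0 ≤ K₀ := (norm_nonneg _).trans hS.slope_le
  have hk : 0 ≤ S.k := by have := S.k_lo; linarith
  have hk2 : S.k ≤ 2 := by have := S.k_hi; linarith
  obtain ⟨hβ1, hβ2⟩ := S.beta_bounds
  have hβ : |S.β| ≤ 2 := abs_le.2 ⟨by linarith, hβ2⟩
  obtain ⟨K₁, hK₁⟩ : ∃ K₁, K₁ = max K 0 := ⟨_, rfl⟩
  have hK₁0 : 0 ≤ K₁ := hK₁ ▸ le_max_right _ _
  obtain ⟨M, hM⟩ : ∃ M, M = Real.exp (S.k * K₁) := ⟨_, rfl⟩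
  have hM0 : 0 < M := hM ▸ Real.exp_pos _
  obtain ⟨B, hB⟩ : ∃ B, B = K₀ * (K₁ + 1) := ⟨_, rfl⟩
  have hB0 : 0 ≤ B := by rw [hB]; positivity
  obtain ⟨Cψ, hCψ, hψ⟩ := ds2_fderiv_psi hR S hS K₁
  have hD : 0 < 4 * (B + 1) + M * (B + 4) := by positivity
  obtain ⟨η, hη⟩ : ∃ η, η = min 1 (δ / (4 * (B + 1) + M * (B + 4))) := ⟨_, rfl⟩
  have hη0 : 0 < η := by rw [hη]; exact lt_min one_pos (div_pos hδ hD)
  have hη1 : η ≤ 1 := hη ▸ min_le_left _ _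
  have hηδ : (4 * (B + 1) + M * (B + 4)) * η ≤ δ := by
    have : η ≤ δ / (4 * (B + 1) + M * (B + 4)) := hη ▸ min_le_right _ _
    rwa [le_div_iff₀ hD, mul_comm] at this
  obtain ⟨δg, hδg⟩ : ∃ δg, δg = η / (4 * (B + 1)) := ⟨_, rfl⟩
  have hδg0 : 0 < δg := by rw [hδg]; positivity
  have hδg1 : δg ≤ η / 4 := by
    rw [hδg]
    exact div_le_div_of_nonneg_left hη0.le (by norm_num) (by linarith)
  have hδg2 : B * δg ≤ η / 4 := by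
    have e : (B + 1) * δg = η / 4 := by rw [hδg]; field_simp
    rw [← e]
    exact mul_le_mul_of_nonneg_right (by linarith) hδg0.le
  obtain ⟨P₁, hP₁1, hP₁⟩ := ds2_geom K₁ δg hδg0
  obtain ⟨P₂, hP₂1, hP₂⟩ := ds2_radial_ratio S.k S.β K₁ η hη0
  obtain ⟨R₂, hR₂1, hR₂⟩ := ds1_rho_small (2 * Cψ) (by positivity : 0 < η / 4)
  refine ⟨max (max P₁ P₂) (max (max (2 * R + 5) (2 * R₂))
    (max (8 / η) (16 * K₀ * (K₁ + 1) ^ 2 / η))),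
    hP₁1.trans ((le_max_left _ _).trans (le_max_left _ _)), fun y hy2 hy x hx => ?_⟩
  have hx₁ : ‖x‖ ≤ K₁ := hx.trans (hK₁ ▸ le_max_left _ _)
  have p1 : P₁ ≤ ‖y‖ := ((le_max_left _ _).trans (le_max_left _ _)).trans hy
  have p2 : P₂ ≤ ‖y‖ := ((le_max_right _ _).trans (le_max_left _ _)).trans hy
  have p3 : 2 * R + 5 ≤ ‖y‖ :=
    (((le_max_left _ _).trans (le_max_left _ _)).trans (le_max_right _ _)).trans hy
  have p4 : 2 * R₂ ≤ ‖y‖ :=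
    (((le_max_right _ _).trans (le_max_left _ _)).trans (le_max_right _ _)).trans hy
  have p5 : 8 / η ≤ ‖y‖ :=
    (((le_max_left _ _).trans (le_max_right _ _)).trans (le_max_right _ _)).trans hy
  have p6 : 16 * K₀ * (K₁ + 1) ^ 2 / η ≤ ‖y‖ :=
    (((le_max_right _ _).trans (le_max_right _ _)).trans (le_max_right _ _)).trans hy
  have hs0 : 0 < ‖y‖ := by linarith
  have hy0 : y ≠ 0 := norm_pos_iff.1 hs0
  obtain ⟨g1, g2, -, g4, g5⟩ := hP₁ y p1 x hx₁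
  have hr0 : 0 < ‖y + x‖ := by linarith
  have hX0 : y + x ≠ 0 := norm_pos_iff.1 hr0
  have hXR : y + x ∈ Ext R := by show R < ‖y + x‖; linarith
  have hXR2 : y + x ∈ Ext (R + 2) := by show R + 2 < ‖y + x‖; linarith
  have hz : (y + x) 2 = x 2 := by simp [hy2]
  have hzK : |x 2| ≤ K₁ := (dst_abs_coord_le x 2).trans hx₁
  have hAy := S.A_pos hy0
  have hAyC : (S.A y : ℂ) ≠ 0 := by exact_mod_cast hAy.ne'
  have hsC : (‖y‖ : ℂ) ≠ 0 := by exact_mod_cast hs0.ne'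
  obtain ⟨-, o2, o3, -, -⟩ := hS.odd _ hXR
  have ht : tz (y + x) = x 2 / ‖y + x‖ := by unfold tz; rw [hz]
  rw [ht] at o2 o3
  have hψX := hψ _ hXR2 (by rw [hz]; exact hzK)
  have hDt := fun v => ds2_fderiv_tz hX0 v
  simp only [ht] at hDt
  -- `u = s/r² ≤ 4/s`, `K₀ (K₁+1)² u ≤ η/4`
  obtain ⟨u, hu⟩ : ∃ u, u = ‖y‖ / ‖y + x‖ ^ 2 := ⟨_, rfl⟩
  have hu0 : 0 ≤ u := by rw [hu]; positivity
  have hu4 : u ≤ 4 / ‖y‖ := by
    rw [hu, div_le_div_iff₀ (by positivity) hs0]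
    have h := pow_le_pow_left₀ (by positivity) g1 2
    have e : (‖y‖ / 2) ^ 2 = ‖y‖ * ‖y‖ / 4 := by ring
    linarith
  have hKu : K₀ * (K₁ + 1) ^ 2 * u ≤ η / 4 := by
    have e1 : 16 * K₀ * (K₁ + 1) ^ 2 ≤ ‖y‖ * η := by rwa [div_le_iff₀ hη0] at p6
    calc K₀ * (K₁ + 1) ^ 2 * u ≤ K₀ * (K₁ + 1) ^ 2 * (4 / ‖y‖) :=
          mul_le_mul_of_nonneg_left hu4 (by positivity)
      _ = (16 * K₀ * (K₁ + 1) ^ 2) / (4 * ‖y‖) := by field_simp; ring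
      _ ≤ (‖y‖ * η) / (4 * ‖y‖) := div_le_div_of_nonneg_right e1 (by positivity)
      _ = _ := by field_simp
  have hsl := hS.slope_le
  -- (H)
  have hH : ‖(‖y‖ : ℂ) * S.h (y + x) - S.slope * ((x 2 : ℝ) : ℂ)‖ ≤ η := by
    have e : (‖y‖ : ℂ) * S.h (y + x) - S.slope * ((x 2 : ℝ) : ℂ)
        = (‖y‖ : ℂ) * (S.h (y + x) - S.a₀ (y + x))
          + (‖y‖ : ℂ) * (S.a₀ (y + x) - S.slope * ((x 2 / ‖y + x‖ : ℝ) : ℂ))
          + S.slope * ((x 2 * (‖y‖ / ‖y + x‖ - 1) : ℝ) : ℂ) := by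
      push_cast; ring
    have n1 : ‖(‖y‖ : ℂ) * (S.h (y + x) - S.a₀ (y + x))‖ ≤ K₀ * K₁ * u := by
      rw [norm_mul, Complex.norm_real, norm_norm]
      calc ‖y‖ * ‖S.h (y + x) - S.a₀ (y + x)‖ ≤ ‖y‖ * (K₀ * |x 2 / ‖y + x‖| / ‖y + x‖) :=
            mul_le_mul_of_nonneg_left o2 hs0.le
        _ = K₀ * |x 2| * u := by rw [hu, abs_div, abs_of_pos hr0]; field_simp
        _ ≤ _ := by gcongr
    have n2 : ‖(‖y‖ : ℂ) * (S.a₀ (y + x) - S.slope * ((x 2 / ‖y + x‖ : ℝ) : ℂ))‖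
        ≤ K₀ * K₁ ^ 2 * u := by
      rw [norm_mul, Complex.norm_real, norm_norm]
      calc ‖y‖ * ‖S.a₀ (y + x) - S.slope * ((x 2 / ‖y + x‖ : ℝ) : ℂ)‖
          ≤ ‖y‖ * (K₀ * (x 2 / ‖y + x‖) ^ 2) := mul_le_mul_of_nonneg_left o3 hs0.le
        _ = K₀ * |x 2| ^ 2 * u := by rw [hu, sq_abs]; field_simp
        _ ≤ _ := by gcongr
    have n3 : ‖S.slope * ((x 2 * (‖y‖ / ‖y + x‖ - 1) : ℝ) : ℂ)‖ ≤ B * δg := by
      rw [norm_mul, Complex.norm_real, Real.norm_eq_abs, abs_mul, hB]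
      calc ‖S.slope‖ * (|x 2| * |‖y‖ / ‖y + x‖ - 1|) ≤ K₀ * (K₁ * δg) := by gcongr
        _ ≤ K₀ * ((K₁ + 1) * δg) := by gcongr; linarith
        _ = _ := by ring
    have n4 : K₀ * K₁ * u + K₀ * K₁ ^ 2 * u ≤ K₀ * (K₁ + 1) ^ 2 * u := by
      have e' : K₀ * (K₁ + 1) ^ 2 * u = K₀ * K₁ * u + K₀ * K₁ ^ 2 * u + K₀ * u * (K₁ + 1) := by ring
      have : 0 ≤ K₀ * u * (K₁ + 1) := by positivity
      linarith
    rw [e]
    calc _ ≤ _ + _ + _ := norm_add₃_le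
      _ ≤ K₀ * K₁ * u + K₀ * K₁ ^ 2 * u + B * δg := add_le_add (add_le_add n1 n2) n3
      _ ≤ η := by linarith
  -- (D)
  have dh : DifferentiableAt ℝ S.h (y + x) :=
    differentiableAt_of_mem_Ext (ds1_f_smooth hR S hS).2 hXR
  have dt : HasFDerivAt tz (fderiv ℝ tz (y + x)) (y + x) :=
    (differentiableAt_of_mem_Ext dst_contDiffOn_tz (show (0 : ℝ) < ‖y + x‖ from hr0)).hasFDerivAt
  have dt' : HasFDerivAt (fun y => S.slope * (tz y : ℂ))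
      (S.slope • (Complex.ofRealCLM.comp (fderiv ℝ tz (y + x)))) (y + x) :=
    (Complex.ofRealCLM.hasFDerivAt.comp (y + x) dt).const_mul S.slope
  have hDh : ∀ v, fderiv ℝ S.h (y + x) v
      = fderiv ℝ (fun y => S.h y - S.slope * (tz y : ℂ)) (y + x) v
        + S.slope * ((fderiv ℝ tz (y + x) v : ℝ) : ℂ) := by
    intro v
    rw [fderiv_fun_sub dh dt'.differentiableAt, dt'.fderiv]
    simp
  have hsr : ‖y‖ * ‖y + x‖ ^ (-(7 / 4) : ℝ) ≤ 2 * ‖y + x‖ ^ (-(1 / 4) : ℝ) := by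
    have hr1 : 1 ≤ ‖y + x‖ := by linarith
    have e1 : ‖y + x‖ * ‖y + x‖ ^ (-(7 / 4) : ℝ) = ‖y + x‖ ^ (-(3 / 4) : ℝ) := by
      conv_lhs => rw [← Real.rpow_one ‖y + x‖, Real.rpow_one, ← Real.rpow_one_add' hr0.le (by norm_num)]
      norm_num
    have e2 : ‖y + x‖ ^ (-(3 / 4) : ℝ) ≤ ‖y + x‖ ^ (-(1 / 4) : ℝ) :=
      Real.rpow_le_rpow_of_exponent_le hr1 (by norm_num)
    have hp : 0 ≤ ‖y + x‖ ^ (-(7 / 4) : ℝ) := Real.rpow_nonneg hr0.le _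
    calc ‖y‖ * ‖y + x‖ ^ (-(7 / 4) : ℝ) ≤ (2 * ‖y + x‖) * ‖y + x‖ ^ (-(7 / 4) : ℝ) :=
          mul_le_mul_of_nonneg_right (by linarith) hp
      _ = 2 * (‖y + x‖ * ‖y + x‖ ^ (-(7 / 4) : ℝ)) := by ring
      _ ≤ _ := by rw [e1]; linarith
  have hDD : ∀ v : Space, ‖(‖y‖ : ℂ) * fderiv ℝ S.h (y + x) v - S.slope * ((v 2 : ℝ) : ℂ)‖
      ≤ η * ‖v‖ := by
    intro v
    have hv2 := dst_abs_coord_le v 2
    have hin : |⟪‖y + x‖⁻¹ • (y + x), v⟫_ℝ| ≤ ‖v‖ := by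
      have := abs_real_inner_le_norm (‖y + x‖⁻¹ • (y + x)) v
      rwa [dst_norm_urad hX0, one_mul] at this
    have e : (‖y‖ : ℂ) * fderiv ℝ S.h (y + x) v - S.slope * ((v 2 : ℝ) : ℂ)
        = (‖y‖ : ℂ) * fderiv ℝ (fun y => S.h y - S.slope * (tz y : ℂ)) (y + x) v
          + S.slope * (((‖y‖ / ‖y + x‖ - 1) * v 2
              - x 2 * u * ⟪‖y + x‖⁻¹ • (y + x), v⟫_ℝ : ℝ) : ℂ) := by
      rw [hDh v, hDt v, hu]
      push_cast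
      field_simp
      ring
    have n1 : ‖(‖y‖ : ℂ) * fderiv ℝ (fun y => S.h y - S.slope * (tz y : ℂ)) (y + x) v‖
        ≤ η / 4 * ‖v‖ := by
      rw [norm_mul, Complex.norm_real, norm_norm]
      calc ‖y‖ * ‖fderiv ℝ (fun y => S.h y - S.slope * (tz y : ℂ)) (y + x) v‖
          ≤ ‖y‖ * ((Cψ * ‖y + x‖ ^ (-(7 / 4) : ℝ)) * ‖v‖) := by
            refine mul_le_mul_of_nonneg_left ?_ hs0.le
            exact (ContinuousLinearMap.le_opNorm _ _).trans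
              (mul_le_mul_of_nonneg_right hψX (norm_nonneg _))
        _ = Cψ * (‖y‖ * ‖y + x‖ ^ (-(7 / 4) : ℝ)) * ‖v‖ := by ring
        _ ≤ Cψ * (2 * ‖y + x‖ ^ (-(1 / 4) : ℝ)) * ‖v‖ := by gcongr
        _ = (2 * Cψ * ‖y + x‖ ^ (-(1 / 4) : ℝ)) * ‖v‖ := by ring
        _ ≤ _ := mul_le_mul_of_nonneg_right (hR₂ _ (by linarith)) (norm_nonneg _)
    have n2 : ‖S.slope * (((‖y‖ / ‖y + x‖ - 1) * v 2
        - x 2 * u * ⟪‖y + x‖⁻¹ • (y + x), v⟫_ℝ : ℝ) : ℂ)‖ ≤ (η / 4 + η / 4) * ‖v‖ := by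
      rw [norm_mul, Complex.norm_real, Real.norm_eq_abs]
      have a1 : |(‖y‖ / ‖y + x‖ - 1) * v 2| ≤ δg * ‖v‖ := by
        rw [abs_mul]; gcongr
      have a2 : |x 2 * u * ⟪‖y + x‖⁻¹ • (y + x), v⟫_ℝ| ≤ K₁ * u * ‖v‖ := by
        rw [abs_mul, abs_mul, abs_of_nonneg hu0]; gcongr
      have a3 : K₀ * δg ≤ η / 4 := by
        refine le_trans ?_ hδg2
        rw [hB]
        refine mul_le_mul_of_nonneg_right ?_ hδg0.le
        exact le_mul_of_one_le_right hK₀ (by linarith)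
      have a4 : K₀ * (K₁ * u) ≤ η / 4 := by
        refine le_trans ?_ hKu
        have e' : K₀ * (K₁ + 1) ^ 2 * u = K₀ * (K₁ * u) + K₀ * u * (K₁ ^ 2 + K₁ + 1) := by ring
        have : 0 ≤ K₀ * u * (K₁ ^ 2 + K₁ + 1) := by positivity
        linarith
      calc ‖S.slope‖ * |(‖y‖ / ‖y + x‖ - 1) * v 2 - x 2 * u * ⟪‖y + x‖⁻¹ • (y + x), v⟫_ℝ|
          ≤ K₀ * (δg * ‖v‖ + K₁ * u * ‖v‖) := by
            gcongr
            exact (abs_sub _ _).trans (add_le_add a1 a2)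
        _ = (K₀ * δg + K₀ * (K₁ * u)) * ‖v‖ := by ring
        _ ≤ _ := mul_le_mul_of_nonneg_right (add_le_add a3 a4) (norm_nonneg _)
    rw [e]
    calc _ ≤ _ + _ := norm_add_le _ _
      _ ≤ η / 4 * ‖v‖ + (η / 4 + η / 4) * ‖v‖ := add_le_add n1 n2
      _ ≤ _ := by
        have : 0 ≤ η * ‖v‖ := by positivity
        linarith
  obtain ⟨hE0, hE1⟩ := ds2_trE_bounds hk y hx₁
  rw [← hM] at hE1
  have hρ := hP₂ y p2 x hx₁
  have h2r : 2 / ‖y + x‖ ≤ η / 2 := by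
    rw [div_le_iff₀ hη0] at p5
    rw [div_le_iff₀ hr0]
    have : η / 2 * (‖y‖ / 2) ≤ η / 2 * ‖y + x‖ := mul_le_mul_of_nonneg_left g1 (by positivity)
    linarith
  have hνn : ‖‖y + x‖⁻¹ • (y + x)‖ ≤ 1 := (dst_norm_urad hX0).le
  have key := fun v : Space => ds2_amp_alg (ρ := radialA S.k S.β ‖y + x‖ / radialA S.k S.β ‖y‖)
    (E := trE S.k y x) (M := M) (B := B) (η := η)
    (c := (-S.k + S.β / ‖y + x‖) * ⟪‖y + x‖⁻¹ • (y + x), v⟫_ℝ)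
    (c' := -(S.k * ⟪‖y‖⁻¹ • y, v⟫_ℝ)) (W := ‖v‖)
    (H := (‖y‖ : ℂ) * S.h (y + x)) (H' := S.slope * ((x 2 : ℝ) : ℂ))
    (D := (‖y‖ : ℂ) * fderiv ℝ S.h (y + x) v) (D' := S.slope * ((v 2 : ℝ) : ℂ))
    hη0.le hη1 hE0.le hE1 hB0 (norm_nonneg _) hρ hH
    (by
      rw [norm_mul, Complex.norm_real, Real.norm_eq_abs, hB]
      gcongr; linarith)
    (ds2_c_est hk hk2 hβ hr0 hνn h2r (g4.trans hδg1))
    (by
      rw [abs_neg, abs_mul, abs_of_nonneg hk]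
      have i1 : |⟪‖y‖⁻¹ • y, v⟫_ℝ| ≤ ‖v‖ := by
        have := abs_real_inner_le_norm (‖y‖⁻¹ • y) v
        rwa [dst_norm_urad hy0, one_mul] at this
      gcongr)
    (hDD v)
    (by
      rw [norm_mul, Complex.norm_real, Real.norm_eq_abs, hB]
      have hv2 := dst_abs_coord_le v 2
      calc ‖S.slope‖ * |v 2| ≤ K₀ * ‖v‖ := by gcongr
        _ ≤ _ := by
          refine mul_le_mul_of_nonneg_right ?_ (norm_nonneg _)
          exact le_mul_of_one_le_right hK₀ (by linarith))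
  have hA1 : S.A (y + x) = radialA S.k S.β ‖y + x‖ := rfl
  have hA2 : S.A y = radialA S.k S.β ‖y‖ := rfl
  refine ⟨hXR, ?_, fun v => ?_⟩
  · have k1 := (key 0).1
    have e : (radialA S.k S.β ‖y‖ / ‖y‖)⁻¹ • S.f (y + x)
          - S.slope * ((x 2 * trE S.k y x : ℝ) : ℂ)
        = ((radialA S.k S.β ‖y + x‖ / radialA S.k S.β ‖y‖ : ℝ) : ℂ) * ((‖y‖ : ℂ) * S.h (y + x))
          - ((trE S.k y x : ℝ) : ℂ) * (S.slope * ((x 2 : ℝ) : ℂ)) := by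
      rw [S.f_eq hX0, Complex.real_smul, Complex.real_smul, ← hA1, ← hA2]
      push_cast
      field_simp
    rw [e]
    refine k1.trans (le_trans ?_ hηδ)
    refine mul_le_mul_of_nonneg_right ?_ hη0.le
    have : 0 ≤ M * B := by positivity
    linarith
  · have k2 := (key v).2
    have e : (radialA S.k S.β ‖y‖ / ‖y‖)⁻¹ • fderiv ℝ S.f (y + x) v
          - S.slope * (((v 2 - S.k * ⟪‖y‖⁻¹ • y, v⟫_ℝ * x 2) * trE S.k y x : ℝ) : ℂ)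
        = ((radialA S.k S.β ‖y + x‖ / radialA S.k S.β ‖y‖ : ℝ) : ℂ)
            * ((((-S.k + S.β / ‖y + x‖) * ⟪‖y + x‖⁻¹ • (y + x), v⟫_ℝ : ℝ) : ℂ)
                * ((‖y‖ : ℂ) * S.h (y + x)) + (‖y‖ : ℂ) * fderiv ℝ S.h (y + x) v)
          - ((trE S.k y x : ℝ) : ℂ) * (((-(S.k * ⟪‖y‖⁻¹ • y, v⟫_ℝ) : ℝ) : ℂ)
              * (S.slope * ((x 2 : ℝ) : ℂ)) + S.slope * ((v 2 : ℝ) : ℂ)) := by
      rw [ds2_fderiv_f hR S hS _ hXR v, Complex.real_smul, Complex.real_smul, Complex.real_smul,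
        ← hA1, ← hA2]
      push_cast
      field_simp
      ring
    rw [e]
    exact k2.trans (mul_le_mul_of_nonneg_right hηδ (norm_nonneg _))

/-- **leaf DS2-BTA.**  `f(X)/f(y) = (A(r)/A(s)) h(X)/h(y)`.  `|h(X) - h(y)| ≤ K sup |Dh| ≤ K C/(s-K)` on the segment
(`ds2_fderiv_h_le`, mean value inequality on the convex set `ball y (K+1) ⊆ Ext R`), `|h(y)| ≥ (c₀/2)|y 2|/s`
(`ds2_h_lower`), so `|h(X)/h(y) - 1| ≤ C'/|y 2|` and `|Dh(X)[v]/h(y)| ≤ C' |v| / |y 2|`.  `s ≥ |y 2| ≥ P`.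
Then `ds2_fderiv_f`, `ds2_geom`, `ds2_radial_ratio` as for PTA. -/
theorem ds2_bt_amp {R : ℝ} {C : ℕ → ℝ} {K₀ c₀ : ℝ} (hR : 1 ≤ R) (hc₀ : 0 < c₀)
    (S : ChannelSys 𝒦 κ b γ) (hS : S.Good R C K₀) (h₀ : S.SimpleZero c₀) (K δ : ℝ) (hδ : 0 < δ) :
    ∃ P : ℝ, 1 ≤ P ∧ ∀ y : Space, P ≤ |y 2| → ∀ x : Space, ‖x‖ ≤ K →
      y + x ∈ Ext R ∧ S.f y ≠ 0 ∧
      ‖S.f (y + x) / S.f y - (trE S.k y x : ℂ)‖ ≤ δ ∧
      ∀ v : Space, ‖fderiv ℝ S.f (y + x) v / S.f y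
        + ((S.k * ⟪‖y‖⁻¹ • y, v⟫_ℝ * trE S.k y x : ℝ) : ℂ)‖ ≤ δ * ‖v‖ := by
  have hR0 : 0 ≤ R := by linarith
  have hk : 0 ≤ S.k := by have := S.k_lo; linarith
  have hk2 : S.k ≤ 2 := by have := S.k_hi; linarith
  obtain ⟨hβ1, hβ2⟩ := S.beta_bounds
  have hβ : |S.β| ≤ 2 := abs_le.2 ⟨by linarith, hβ2⟩
  obtain ⟨R', hRR', hlow⟩ := ds2_h_lower hR hc₀ S hS h₀
  obtain ⟨K₁, hK₁⟩ : ∃ K₁, K₁ = max K 0 := ⟨_, rfl⟩
  have hK₁0 : 0 ≤ K₁ := hK₁ ▸ le_max_right _ _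
  obtain ⟨M, hM⟩ : ∃ M, M = Real.exp (S.k * K₁) := ⟨_, rfl⟩
  have hM0 : 0 < M := hM ▸ Real.exp_pos _
  obtain ⟨Ch, hCh⟩ : ∃ Ch, Ch = |C 0 + 3 * C 1| := ⟨_, rfl⟩
  have hCh0 : 0 ≤ Ch := hCh ▸ abs_nonneg _
  have hD : 0 < 8 + 5 * M := by positivity
  obtain ⟨η, hη⟩ : ∃ η, η = min 1 (δ / (8 + 5 * M)) := ⟨_, rfl⟩
  have hη0 : 0 < η := by rw [hη]; exact lt_min one_pos (div_pos hδ hD)
  have hη1 : η ≤ 1 := hη ▸ min_le_left _ _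
  have hηδ : (8 + 5 * M) * η ≤ δ := by
    have : η ≤ δ / (8 + 5 * M) := hη ▸ min_le_right _ _
    rwa [le_div_iff₀ hD, mul_comm] at this
  obtain ⟨P₁, hP₁1, hP₁⟩ := ds2_geom K₁ (η / 4) (by positivity)
  obtain ⟨P₂, hP₂1, hP₂⟩ := ds2_radial_ratio S.k S.β K₁ η hη0
  refine ⟨max (max P₁ P₂) (max (max (R' + 1) (2 * R + 1))
    (max (8 / η) (4 * Ch * (K₁ + 1) / (c₀ * η)))),
    hP₁1.trans ((le_max_left _ _).trans (le_max_left _ _)), fun y hy x hx => ?_⟩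
  have hx₁ : ‖x‖ ≤ K₁ := hx.trans (hK₁ ▸ le_max_left _ _)
  have hzs : |y 2| ≤ ‖y‖ := dst_abs_coord_le y 2
  have p1 : P₁ ≤ ‖y‖ := (((le_max_left _ _).trans (le_max_left _ _)).trans hy).trans hzs
  have p2 : P₂ ≤ ‖y‖ := (((le_max_right _ _).trans (le_max_left _ _)).trans hy).trans hzs
  have p3 : R' + 1 ≤ ‖y‖ :=
    ((((le_max_left _ _).trans (le_max_left _ _)).trans (le_max_right _ _)).trans hy).trans hzs
  have p4 : 2 * R + 1 ≤ ‖y‖ :=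
    ((((le_max_right _ _).trans (le_max_left _ _)).trans (le_max_right _ _)).trans hy).trans hzs
  have p5 : 8 / η ≤ ‖y‖ :=
    ((((le_max_left _ _).trans (le_max_right _ _)).trans (le_max_right _ _)).trans hy).trans hzs
  have p6 : 4 * Ch * (K₁ + 1) / (c₀ * η) ≤ |y 2| :=
    (((le_max_right _ _).trans (le_max_right _ _)).trans (le_max_right _ _)).trans hy
  have hs0 : 0 < ‖y‖ := by linarith
  have hy0 : y ≠ 0 := norm_pos_iff.1 hs0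
  obtain ⟨g1, -, -, g4, -⟩ := hP₁ y p1 x hx₁
  have hr0 : 0 < ‖y + x‖ := by linarith
  have hX0 : y + x ≠ 0 := norm_pos_iff.1 hr0
  have hXR : y + x ∈ Ext R := by show R < ‖y + x‖; linarith
  have hyR' : y ∈ Ext R' := by show R' < ‖y‖; linarith
  have hz0 : 0 < |y 2| := by linarith [hP₁1.trans (((le_max_left P₁ P₂).trans (le_max_left _ _)).trans hy)]
  have hhy : c₀ / 2 * (|y 2| / ‖y‖) ≤ ‖S.h y‖ := by
    have := hlow y hyR'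
    unfold tz at this
    rwa [abs_div, abs_of_pos hs0] at this
  have hhypos : 0 < ‖S.h y‖ := lt_of_lt_of_le (by positivity) hhy
  have hhy0 : S.h y ≠ 0 := norm_pos_iff.1 hhypos
  have hAy := S.A_pos hy0
  have hAX := S.A_pos hX0
  have hAyC : (S.A y : ℂ) ≠ 0 := by exact_mod_cast hAy.ne'
  have hfy : S.f y ≠ 0 := by
    rw [S.f_eq hy0, Complex.real_smul]; exact mul_ne_zero hAyC hhy0
  -- the gradient of `h` on the ball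
  obtain ⟨L, hL⟩ : ∃ L, L = 2 * Ch / ‖y‖ := ⟨_, rfl⟩
  have hL0 : 0 ≤ L := by rw [hL]; positivity
  have hball : ∀ z ∈ Metric.closedBall y K₁, z ∈ Ext R ∧ ‖fderiv ℝ S.h z‖ ≤ L := by
    intro z hz
    have hz' : ‖z - y‖ ≤ K₁ := by rwa [Metric.mem_closedBall, dist_eq_norm] at hz
    have q1 := (hP₁ y p1 (z - y) hz').1
    rw [add_sub_cancel] at q1
    have hzR : z ∈ Ext R := by show R < ‖z‖; linarith
    have hz0 : 0 < ‖z‖ := by linarith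
    refine ⟨hzR, (ds2_fderiv_h_le hR S hS z hzR).trans ?_⟩
    calc (C 0 + 3 * C 1) / ‖z‖ ≤ Ch / ‖z‖ := by
          rw [hCh]; exact div_le_div_of_nonneg_right (le_abs_self _) hz0.le
      _ ≤ Ch / (‖y‖ / 2) := div_le_div_of_nonneg_left hCh0 (by positivity) q1
      _ = L := by rw [hL]; field_simp
  have hsm := (ds1_f_smooth hR S hS).2
  have hXball : y + x ∈ Metric.closedBall y K₁ := by
    rw [Metric.mem_closedBall, dist_eq_norm, add_sub_cancel_left]; exact hx₁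
  have hmv : ‖S.h (y + x) - S.h y‖ ≤ L * ‖(y + x) - y‖ :=
    Convex.norm_image_sub_le_of_norm_fderiv_le
      (fun z hz => differentiableAt_of_mem_Ext hsm (hball z hz).1) (fun z hz => (hball z hz).2)
      (convex_closedBall y K₁) (Metric.mem_closedBall_self hK₁0) hXball
  rw [add_sub_cancel_left] at hmv
  have hLη : L * (K₁ + 1) ≤ η * ‖S.h y‖ := by
    have e1 : 4 * Ch * (K₁ + 1) ≤ |y 2| * (c₀ * η) := by
      rwa [div_le_iff₀ (by positivity)] at p6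
    calc L * (K₁ + 1) = (4 * Ch * (K₁ + 1)) / (2 * ‖y‖) := by rw [hL]; field_simp; ring
      _ ≤ (|y 2| * (c₀ * η)) / (2 * ‖y‖) := div_le_div_of_nonneg_right e1 (by positivity)
      _ = η * (c₀ / 2 * (|y 2| / ‖y‖)) := by field_simp
      _ ≤ _ := mul_le_mul_of_nonneg_left hhy hη0.le
  have hq : ‖S.h (y + x) / S.h y - 1‖ ≤ η := by
    have e : S.h (y + x) / S.h y - 1 = (S.h (y + x) - S.h y) / S.h y := by field_simp
    rw [e, norm_div, div_le_iff₀ hhypos]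
    calc _ ≤ L * ‖x‖ := hmv
      _ ≤ L * (K₁ + 1) := mul_le_mul_of_nonneg_left (by linarith) hL0
      _ ≤ _ := hLη
  have hDv : ∀ v : Space, ‖fderiv ℝ S.h (y + x) v / S.h y - 0‖ ≤ η * ‖v‖ := by
    intro v
    rw [sub_zero, norm_div, div_le_iff₀ hhypos]
    calc _ ≤ ‖fderiv ℝ S.h (y + x)‖ * ‖v‖ := ContinuousLinearMap.le_opNorm _ _
      _ ≤ L * (K₁ + 1) * ‖v‖ := by
          refine mul_le_mul_of_nonneg_right ?_ (norm_nonneg _)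
          exact ((hball _ hXball).2).trans (le_mul_of_one_le_right hL0 (by linarith))
      _ ≤ η * ‖S.h y‖ * ‖v‖ := mul_le_mul_of_nonneg_right hLη (norm_nonneg _)
      _ = _ := by ring
  obtain ⟨hE0, hE1⟩ := ds2_trE_bounds hk y hx₁
  rw [← hM] at hE1
  have hρ := hP₂ y p2 x hx₁
  have h2r : 2 / ‖y + x‖ ≤ η / 2 := by
    rw [div_le_iff₀ hη0] at p5
    rw [div_le_iff₀ hr0]
    nlinarith
  have hνn : ‖‖y + x‖⁻¹ • (y + x)‖ ≤ 1 := (dst_norm_urad hX0).le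
  have key := fun v : Space => ds2_amp_alg (ρ := radialA S.k S.β ‖y + x‖ / radialA S.k S.β ‖y‖)
    (E := trE S.k y x) (M := M) (B := 1) (η := η)
    (c := (-S.k + S.β / ‖y + x‖) * ⟪‖y + x‖⁻¹ • (y + x), v⟫_ℝ)
    (c' := -(S.k * ⟪‖y‖⁻¹ • y, v⟫_ℝ)) (W := ‖v‖)
    (H := S.h (y + x) / S.h y) (H' := 1) (D := fderiv ℝ S.h (y + x) v / S.h y) (D' := 0)
    hη0.le hη1 hE0.le hE1 zero_le_one (norm_nonneg _) hρ hq (by simp)
    (ds2_c_est hk hk2 hβ hr0 hνn h2r g4)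
    (by
      rw [abs_neg, abs_mul, abs_of_nonneg hk]
      have i1 : |⟪‖y‖⁻¹ • y, v⟫_ℝ| ≤ ‖v‖ := by
        have := abs_real_inner_le_norm (‖y‖⁻¹ • y) v
        rwa [dst_norm_urad hy0, one_mul] at this
      gcongr)
    (hDv v) (by simp)
  have hfX : S.f (y + x) / S.f y
      = ((radialA S.k S.β ‖y + x‖ / radialA S.k S.β ‖y‖ : ℝ) : ℂ) * (S.h (y + x) / S.h y) := by
    rw [S.f_eq hX0, S.f_eq hy0, Complex.real_smul, Complex.real_smul, mul_div_mul_comm]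
    push_cast; rfl
  refine ⟨hXR, hfy, ?_, fun v => ?_⟩
  · have k1 := (key 0).1
    rw [mul_one] at k1
    rw [hfX]
    refine k1.trans (le_trans ?_ hηδ)
    refine mul_le_mul_of_nonneg_right ?_ hη0.le
    linarith
  · have k2 := (key v).2
    have e : fderiv ℝ S.f (y + x) v / S.f y
          + ((S.k * ⟪‖y‖⁻¹ • y, v⟫_ℝ * trE S.k y x : ℝ) : ℂ)
        = ((radialA S.k S.β ‖y + x‖ / radialA S.k S.β ‖y‖ : ℝ) : ℂ)
            * ((((-S.k + S.β / ‖y + x‖) * ⟪‖y + x‖⁻¹ • (y + x), v⟫_ℝ : ℝ) : ℂ)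
                * (S.h (y + x) / S.h y) + fderiv ℝ S.h (y + x) v / S.h y)
          - ((trE S.k y x : ℝ) : ℂ) * (((-(S.k * ⟪‖y‖⁻¹ • y, v⟫_ℝ) : ℝ) : ℂ) * 1 + 0) := by
      rw [ds2_fderiv_f hR S hS _ hXR v, S.f_eq hy0, Complex.real_smul, Complex.real_smul,
        Complex.real_smul]
      have hA1 : S.A (y + x) = radialA S.k S.β ‖y + x‖ := rfl
      have hA2 : S.A y = radialA S.k S.β ‖y‖ := rfl
      rw [← hA1, ← hA2]
      push_cast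
      field_simp
      ring
    rw [e]
    refine k2.trans ?_
    refine mul_le_mul_of_nonneg_right (le_trans ?_ hηδ) (norm_nonneg _)
    refine mul_le_mul_of_nonneg_right ?_ hη0.le
    linarith

/-! ## V. The negligible part `v = n - |f|²` (leaf DS2-V)

`‖F‖² = |f|² + ‖QF‖²` (`F = f φ + QF`, `φ ⊥ QF`, `‖φ‖ = 1`), so `v = ‖QF‖² + e`, `e = n - ‖F‖²`.
`‖QF‖ ≤ C 0 A r⁻²`, `‖D(QF)‖ ≤ 3 C 1 A r⁻²` (`QF_bdd`, `dst_norm_fderiv_le_sum`), `D‖QF‖²[w] = 2Re⟪QF, D(QF)[w]⟫`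
(`ds2_fderiv_norm_sq`); `|e|, ‖De‖ ≤ κ.C 0 e^{-2σr} ≤ C A² r⁻⁴` (`exp_le_radialA` or `ds2_exp_rpow_bdd`, `σ ≥ k + μ`). -/

/-- `e^{-2σr} ≤ B A(r)² r⁻⁴`. -/
theorem ds2_exp_le_A_sq (S : ChannelSys 𝒦 κ b γ) : ∃ B : ℝ, 0 ≤ B ∧ ∀ X : Space, 1 ≤ ‖X‖ →
    Real.exp (-(2 * κ.σ * ‖X‖)) ≤ B * (S.A X ^ 2 * (‖X‖ ^ 4)⁻¹) := by
  obtain ⟨B, hB, h⟩ := ds2_exp_rpow_bdd (μ := 2 * κ.μ) (by have := κ.μ_pos; positivity)
    (4 - 2 * S.β)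
  refine ⟨B, hB, fun X hX => ?_⟩
  have hr0 : 0 < ‖X‖ := by linarith
  have h1 := h ‖X‖ hX
  have hσ := S.sigma_gt
  have e1 : S.A X ^ 2 * (‖X‖ ^ 4)⁻¹ = Real.exp (-(2 * S.k * ‖X‖)) * ‖X‖ ^ (2 * S.β - 4) := by
    unfold ChannelCore.A radialA
    rw [mul_pow, ← Real.exp_nat_mul, ← Real.rpow_natCast (‖X‖ ^ S.β), ← Real.rpow_mul hr0.le,
      ← Real.rpow_natCast ‖X‖ 4, ← Real.rpow_neg hr0.le, mul_assoc, ← Real.rpow_add hr0]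
    congr 2
    · push_cast; ring
    · push_cast; ring
  have hp : 0 < ‖X‖ ^ (2 * S.β - 4) := Real.rpow_pos_of_pos hr0 _
  have e2 : ‖X‖ ^ (4 - 2 * S.β) * ‖X‖ ^ (2 * S.β - 4) = 1 := by
    rw [← Real.rpow_add hr0]; simp
  have e3 : Real.exp (-(2 * κ.σ * ‖X‖))
      ≤ Real.exp (-(2 * κ.μ * ‖X‖)) * Real.exp (-(2 * S.k * ‖X‖)) := by
    rw [← Real.exp_add]
    apply Real.exp_le_exp.2
    nlinarith
  rw [e1]
  calc Real.exp (-(2 * κ.σ * ‖X‖))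
      ≤ Real.exp (-(2 * κ.μ * ‖X‖)) * Real.exp (-(2 * S.k * ‖X‖)) := e3
    _ = (Real.exp (-(2 * κ.μ * ‖X‖)) * ‖X‖ ^ (4 - 2 * S.β))
        * (Real.exp (-(2 * S.k * ‖X‖)) * ‖X‖ ^ (2 * S.β - 4)) := by
        rw [mul_mul_mul_comm, e2, mul_one]
    _ ≤ _ := mul_le_mul_of_nonneg_right h1 (by positivity)

theorem ds2_v_bound {R : ℝ} {C : ℕ → ℝ} {K : ℝ} (hRκ : κ.R₁ ≤ R) (S : ChannelSys 𝒦 κ b γ)
    (hS : S.Good R C K) {n : Space → ℝ} (hn : DensityLink S n) :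
    ∃ Cv : ℝ, 0 ≤ Cv ∧ ∀ X ∈ Ext R,
      DifferentiableAt ℝ (fun y => n y - ‖S.f y‖ ^ 2) X ∧
      |n X - ‖S.f X‖ ^ 2| ≤ Cv * (S.A X ^ 2 * (‖X‖ ^ 4)⁻¹) ∧
      ‖fderiv ℝ (fun y => n y - ‖S.f y‖ ^ 2) X‖ ≤ Cv * (S.A X ^ 2 * (‖X‖ ^ 4)⁻¹) := by
  obtain ⟨B, hB, hexp⟩ := ds2_exp_le_A_sq S
  have hR1 : 1 ≤ R := (ds1_one_le_R₁ κ).trans hRκ
  have hR0 : 0 ≤ R := by linarith
  refine ⟨|κ.C 0| * B + |C 0| ^ 2 + 6 * |C 0| * |C 1|, by positivity, fun X hX => ?_⟩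
  have hXκ : X ∈ Ext κ.R₁ := Ext_mono hRκ hX
  have hr1 : 1 ≤ ‖X‖ := hR1.trans (le_of_lt hX)
  have hr0 : 0 < ‖X‖ := by linarith
  have hA := S.A_nonneg X
  obtain ⟨G, hG⟩ : ∃ G, G = S.A X ^ 2 * (‖X‖ ^ 4)⁻¹ := ⟨_, rfl⟩
  have hG0 : 0 ≤ G := by rw [hG]; positivity
  obtain ⟨g, hg⟩ : ∃ g, g = S.A X * (‖X‖ ^ 2)⁻¹ := ⟨_, rfl⟩
  have hg0 : 0 ≤ g := by rw [hg]; positivity
  have hgG : g * g = G := by rw [hg, hG]; field_simp
  have dn : DifferentiableAt ℝ n X :=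
    (hn.smooth.contDiffAt (Ext_mem_nhds hXκ)).differentiableAt (by simp)
  have dF : DifferentiableAt ℝ S.F X := differentiableAt_of_mem_Ext hS.F_bdd.1 hX
  have dQ : DifferentiableAt ℝ (fun y => S.Q (S.F y)) X :=
    differentiableAt_of_mem_Ext hS.QF_bdd.1 hX
  have dN : DifferentiableAt ℝ (fun y => ‖S.F y‖ ^ 2) X := dF.norm_sq ℂ
  have dq : DifferentiableAt ℝ (fun y => ‖S.Q (S.F y)‖ ^ 2) X := dQ.norm_sq ℂ
  have de : DifferentiableAt ℝ (fun y => n y - ‖S.F y‖ ^ 2) X := dn.sub dN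
  have hfun : (fun y => n y - ‖S.f y‖ ^ 2)
      = fun y => (n y - ‖S.F y‖ ^ 2) + ‖S.Q (S.F y)‖ ^ 2 := by
    funext y
    have := S.norm_sq_eq (S.F y)
    unfold ChannelCore.f
    linarith
  have hE : κ.C 0 * Real.exp (-(2 * κ.σ * ‖X‖)) ≤ |κ.C 0| * B * G := by
    calc κ.C 0 * Real.exp (-(2 * κ.σ * ‖X‖)) ≤ |κ.C 0| * Real.exp (-(2 * κ.σ * ‖X‖)) :=
          mul_le_mul_of_nonneg_right (le_abs_self _) (Real.exp_pos _).le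
      _ ≤ |κ.C 0| * (B * G) := mul_le_mul_of_nonneg_left (hG ▸ hexp X hr1) (abs_nonneg _)
      _ = _ := by ring
  have hQ0 : ‖S.Q (S.F X)‖ ≤ |C 0| * g := by
    refine (hS.QF_bdd.2 [] X hX).trans ?_
    simp only [← hg]; exact mul_le_mul_of_nonneg_right (le_abs_self _) hg0
  have hQ1 : ‖fderiv ℝ (fun y => S.Q (S.F y)) X‖ ≤ 3 * (|C 1| * g) := by
    refine (dst_norm_fderiv_le_sum _ _).trans ?_
    calc _ ≤ ∑ _j : Fin 3, |C 1| * g := Finset.sum_le_sum fun j _ => by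
          refine (hS.QF_bdd.2 [Sum.inl j] X hX).trans ?_
          simp only [← hg]; exact mul_le_mul_of_nonneg_right (le_abs_self _) hg0
      _ = _ := by simp
  have hpt : n X - ‖S.f X‖ ^ 2 = (n X - ‖S.F X‖ ^ 2) + ‖S.Q (S.F X)‖ ^ 2 := congrFun hfun X
  rw [← hG, hfun, hpt]
  refine ⟨de.add dq, ?_, ?_⟩
  · have h1 := hn.err₀ X hXκ
    have h2 : ‖S.Q (S.F X)‖ ^ 2 ≤ |C 0| ^ 2 * G := by
      calc ‖S.Q (S.F X)‖ ^ 2 ≤ (|C 0| * g) ^ 2 := pow_le_pow_left₀ (norm_nonneg _) hQ0 2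
        _ = _ := by rw [← hgG]; ring
    have h3 : 0 ≤ 6 * |C 0| * |C 1| * G := by positivity
    calc |n X - ‖S.F X‖ ^ 2 + ‖S.Q (S.F X)‖ ^ 2|
        ≤ |n X - ‖S.F X‖ ^ 2| + |‖S.Q (S.F X)‖ ^ 2| := abs_add_le _ _
      _ = |n X - ‖S.F X‖ ^ 2| + ‖S.Q (S.F X)‖ ^ 2 := by
          rw [abs_of_nonneg (by positivity : (0 : ℝ) ≤ ‖S.Q (S.F X)‖ ^ 2)]
      _ ≤ _ := by linarith
  · rw [fderiv_fun_add de dq]
    have h1 := hn.err₁ X hXκ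
    have h2 : ‖fderiv ℝ (fun y => ‖S.Q (S.F y)‖ ^ 2) X‖ ≤ 6 * |C 0| * |C 1| * G := by
      refine ContinuousLinearMap.opNorm_le_bound _ (by positivity) fun v => ?_
      rw [ds2_fderiv_norm_sq dQ, Real.norm_eq_abs, abs_mul, abs_two]
      calc 2 * |(⟪S.Q (S.F X), fderiv ℝ (fun y => S.Q (S.F y)) X v⟫_ℂ).re|
          ≤ 2 * (‖S.Q (S.F X)‖ * ‖fderiv ℝ (fun y => S.Q (S.F y)) X v‖) := by
            gcongr; exact ds2_abs_re_inner_le _ _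
        _ ≤ 2 * ((|C 0| * g) * ((3 * (|C 1| * g)) * ‖v‖)) := by
            gcongr
            exact (ContinuousLinearMap.le_opNorm _ _).trans
              (mul_le_mul_of_nonneg_right hQ1 (norm_nonneg _))
        _ = _ := by rw [← hgG]; ring
    have h3 : 0 ≤ |C 0| ^ 2 * G := by positivity
    calc _ ≤ _ + _ := norm_add_le _ _
      _ ≤ _ := by linarith

/-- `A(r)² r⁻⁴ ≤ δ (A(s)/s)²` for `s` large: `A(r)/A(s) ≤ e^{kK} + 1` (`ds2_radial_ratio`), `s²/r⁴ ≤ 16/s²`. -/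
theorem ds2_v_small_pt (k a K δ : ℝ) (hk : 0 ≤ k) (hδ : 0 < δ) : ∃ P : ℝ, 1 ≤ P ∧ ∀ y : Space,
    P ≤ ‖y‖ → ∀ x : Space, ‖x‖ ≤ K →
      radialA k a ‖y + x‖ ^ 2 * (‖y + x‖ ^ 4)⁻¹ ≤ δ * (radialA k a ‖y‖ / ‖y‖) ^ 2 := by
  obtain ⟨P₁, hP₁1, hP₁⟩ := ds2_geom K 1 one_pos
  obtain ⟨P₂, hP₂1, hP₂⟩ := ds2_radial_ratio k a K 1 one_pos
  obtain ⟨M, hM⟩ : ∃ M, M = Real.exp (k * K) + 1 := ⟨_, rfl⟩
  have hM0 : 0 < M := by rw [hM]; positivity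
  refine ⟨max (max P₁ P₂) (16 * M ^ 2 / δ), hP₁1.trans ((le_max_left _ _).trans (le_max_left _ _)),
    fun y hy x hx => ?_⟩
  have hy1 : P₁ ≤ ‖y‖ := ((le_max_left _ _).trans (le_max_left _ _)).trans hy
  have hy2 : P₂ ≤ ‖y‖ := ((le_max_right _ _).trans (le_max_left _ _)).trans hy
  have hy3 : 16 * M ^ 2 / δ ≤ ‖y‖ := (le_max_right _ _).trans hy
  have hs1 : 1 ≤ ‖y‖ := hP₁1.trans hy1
  have hs0 : 0 < ‖y‖ := by linarith
  obtain ⟨g1, -, -, -, -⟩ := hP₁ y hy1 x hx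
  have hr0 : 0 < ‖y + x‖ := by linarith
  have h2 := hP₂ y hy2 x hx
  obtain ⟨-, hE1⟩ := ds2_trE_bounds hk y hx
  have hAs := radialA_pos k a hs0
  have hAr := radialA_pos k a hr0
  have hratio : radialA k a ‖y + x‖ ≤ M * radialA k a ‖y‖ := by
    have := (abs_le.1 h2).2
    have h3 : radialA k a ‖y + x‖ / radialA k a ‖y‖ ≤ M := by rw [hM]; linarith
    rwa [div_le_iff₀ hAs] at h3
  have hinv : (‖y + x‖ ^ 4)⁻¹ ≤ 16 * (‖y‖ ^ 4)⁻¹ := by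
    have : (‖y‖ / 2) ^ 4 ≤ ‖y + x‖ ^ 4 := pow_le_pow_left₀ (by positivity) g1 4
    calc (‖y + x‖ ^ 4)⁻¹ ≤ ((‖y‖ / 2) ^ 4)⁻¹ := inv_anti₀ (by positivity) this
      _ = _ := by field_simp; norm_num
  have hsq : 16 * M ^ 2 ≤ δ * ‖y‖ ^ 2 := by
    rw [div_le_iff₀ hδ] at hy3
    nlinarith
  calc radialA k a ‖y + x‖ ^ 2 * (‖y + x‖ ^ 4)⁻¹
      ≤ (M * radialA k a ‖y‖) ^ 2 * (16 * (‖y‖ ^ 4)⁻¹) := by gcongr
    _ = (16 * M ^ 2) * (radialA k a ‖y‖ ^ 2 * (‖y‖ ^ 4)⁻¹) := by ring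
    _ ≤ (δ * ‖y‖ ^ 2) * (radialA k a ‖y‖ ^ 2 * (‖y‖ ^ 4)⁻¹) :=
        mul_le_mul_of_nonneg_right hsq (by positivity)
    _ = _ := by field_simp

/-- `A(r)² r⁻⁴ ≤ δ |f(y)|²` for `|y 2|` large: `|f(y)| = A(s)|h(y)| ≥ (c₀/2) A(s) |y 2|/s`, `s ≥ |y 2|`. -/
theorem ds2_v_small_bt {R : ℝ} {C : ℕ → ℝ} {K₀ c₀ : ℝ} (hR : 1 ≤ R) (hc₀ : 0 < c₀)
    (S : ChannelSys 𝒦 κ b γ) (hS : S.Good R C K₀) (h₀ : S.SimpleZero c₀) (K δ : ℝ) (hδ : 0 < δ) :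
    ∃ P : ℝ, 1 ≤ P ∧ ∀ y : Space, P ≤ |y 2| → ∀ x : Space, ‖x‖ ≤ K →
      S.A (y + x) ^ 2 * (‖y + x‖ ^ 4)⁻¹ ≤ δ * ‖S.f y‖ ^ 2 := by
  have hK₀ : 0 ≤ K₀ := (norm_nonneg _).trans hS.slope_le
  have hk : 0 ≤ S.k := by have := S.k_lo; linarith
  obtain ⟨R', hRR', hlow⟩ := ds1_f_lower (𝒦 := 𝒦) κ b γ R C K₀ hR hK₀ hc₀
  obtain ⟨P₁, hP₁1, hP₁⟩ := ds2_v_small_pt S.k S.β K (δ * (c₀ / 2) ^ 2) hk (by positivity)
  refine ⟨max P₁ (R' + 1), hP₁1.trans (le_max_left _ _), fun y hy x hx => ?_⟩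
  have hzs : |y 2| ≤ ‖y‖ := dst_abs_coord_le y 2
  have hz1 : 1 ≤ |y 2| := (hP₁1.trans (le_max_left _ _)).trans hy
  have hs0 : 0 < ‖y‖ := by linarith
  have hyR' : y ∈ Ext R' := by
    show R' < ‖y‖
    have := (le_max_right P₁ (R' + 1)).trans hy
    linarith
  have h1 := hP₁ y (((le_max_left _ _).trans hy).trans hzs) x hx
  have h2 := hlow S hS h₀ y hyR'
  have hA := S.A_nonneg y
  have h3 : c₀ / 2 * (S.A y / ‖y‖) ≤ ‖S.f y‖ := by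
    refine le_trans ?_ h2
    refine mul_le_mul_of_nonneg_left ?_ (by positivity)
    unfold tz
    rw [abs_div, abs_of_pos hs0, div_eq_mul_inv, div_eq_mul_inv, ← mul_assoc]
    refine mul_le_mul_of_nonneg_right ?_ (by positivity)
    exact le_mul_of_one_le_right hA hz1
  calc S.A (y + x) ^ 2 * (‖y + x‖ ^ 4)⁻¹ ≤ δ * (c₀ / 2) ^ 2 * (S.A y / ‖y‖) ^ 2 := h1
    _ = δ * (c₀ / 2 * (S.A y / ‖y‖)) ^ 2 := by ring
    _ ≤ _ := by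
      refine mul_le_mul_of_nonneg_left ?_ hδ.le
      exact pow_le_pow_left₀ (by positivity) h3 2

/-! ## M. Model functions, gradients, squaring (leaf DS2-M), no channel system -/

theorem ds2_inner_gradient (f : Space → ℝ) (x v : Space) : ⟪gradient f x, v⟫_ℝ = fderiv ℝ f x v := by
  unfold gradient
  exact InnerProductSpace.toDual_symm_apply

theorem ds2_norm_le_of_inner_le {w : Space} {ε : ℝ} (hε : 0 ≤ ε) (h : ∀ v, |⟪w, v⟫_ℝ| ≤ ε * ‖v‖) :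
    ‖w‖ ≤ ε := by
  have h1 := h w
  rw [real_inner_self_eq_norm_sq, abs_of_nonneg (sq_nonneg _)] at h1
  by_contra hc
  push Not at hc
  have hw : 0 < ‖w‖ := lt_of_le_of_lt hε hc
  nlinarith

/-- `gradient f x = (toDual ℝ Space).symm (fderiv ℝ f x)`, an isometry; `ContinuousLinearMap.opNorm_le_bound`. -/
theorem ds2_norm_gradient_sub_le {n g : Space → ℝ} {X x : Space} {c ε : ℝ} (hε : 0 ≤ ε)
    (h : ∀ v, |c * fderiv ℝ n X v - fderiv ℝ g x v| ≤ ε * ‖v‖) :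
    ‖c • gradient n X - gradient g x‖ ≤ ε := by
  refine ds2_norm_le_of_inner_le hε fun v => ?_
  rw [inner_sub_left, real_inner_smul_left, ds2_inner_gradient, ds2_inner_gradient]
  exact h v

theorem ds2_norm_gradient_add_le {n : Space → ℝ} {X w : Space} {c ε : ℝ} (hε : 0 ≤ ε)
    (h : ∀ v, |c * fderiv ℝ n X v + ⟪w, v⟫_ℝ| ≤ ε * ‖v‖) :
    ‖c • gradient n X + w‖ ≤ ε := by
  refine ds2_norm_le_of_inner_le hε fun v => ?_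
  rw [inner_add_left, real_inner_smul_left, ds2_inner_gradient]
  exact h v

/-- the derivative of the model `a² z² e^{-2k ω·x}`. -/
theorem ds2_fderiv_model (a k : ℝ) (u x v : Space) :
    fderiv ℝ (fun x' : Space => a ^ 2 * x' 2 ^ 2 * Real.exp (-(2 * k * ⟪u, x'⟫_ℝ))) x v
      = a ^ 2 * (2 * x 2 * v 2 - 2 * k * ⟪u, v⟫_ℝ * x 2 ^ 2) * Real.exp (-(2 * k * ⟪u, x⟫_ℝ)) := by
  have h1 : HasFDerivAt (fun x' : Space => x' 2) (EuclideanSpace.proj (2 : Fin 3) : Space →L[ℝ] ℝ) x :=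
    (EuclideanSpace.proj (2 : Fin 3) : Space →L[ℝ] ℝ).hasFDerivAt
  have h2 : HasFDerivAt (fun x' : Space => ⟪u, x'⟫_ℝ) (innerSL ℝ u) x := (innerSL ℝ u).hasFDerivAt
  have h3 := ((h1.pow 2).const_mul (a ^ 2)).mul ((h2.const_mul (2 * k)).neg.exp)
  have e : (fun x' : Space => a ^ 2 * x' 2 ^ 2 * Real.exp (-(2 * k * ⟪u, x'⟫_ℝ)))
      = ((fun y : Space => a ^ 2 * y 2 ^ 2) * fun x : Space =>
          Real.exp ((-fun y : Space => 2 * k * ⟪u, y⟫_ℝ) x)) := rfl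
  rw [e, h3.fderiv]
  have e2 : (EuclideanSpace.proj (2 : Fin 3) : Space →L[ℝ] ℝ) v = v 2 := rfl
  simp only [_root_.add_apply, _root_.smul_apply, _root_.neg_apply, innerSL_apply_apply, smul_eq_mul,
    e2, Pi.neg_apply]
  ring

/-- squaring: `‖g‖² - ‖g'‖² = Re⟪g - g', g + g'⟫`, etc. -/
theorem ds2_square {g g' d d' : ℂ} {δ B W : ℝ} (hδ0 : 0 ≤ δ) (hδ : δ ≤ 1) (hW : 0 ≤ W)
    (hg : ‖g - g'‖ ≤ δ) (hd : ‖d - d'‖ ≤ δ * W) (hg' : ‖g'‖ ≤ B) (hd' : ‖d'‖ ≤ B * W) :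
    |‖g‖ ^ 2 - ‖g'‖ ^ 2| ≤ (2 * B + 1) * δ ∧
      |2 * (⟪g, d⟫_ℂ).re - 2 * (⟪g', d'⟫_ℂ).re| ≤ 2 * (2 * B + 1) * δ * W := by
  have hB : 0 ≤ B := (norm_nonneg _).trans hg'
  have h1 : |‖g‖ - ‖g'‖| ≤ δ := (abs_norm_sub_norm_le g g').trans hg
  have h2 : ‖g‖ ≤ B + δ := by linarith [(abs_le.1 h1).2]
  have h3 : ‖d‖ ≤ B * W + δ * W := by
    have := norm_le_norm_add_norm_sub' d d'
    linarith
  constructor
  · have e : ‖g‖ ^ 2 - ‖g'‖ ^ 2 = (‖g‖ - ‖g'‖) * (‖g‖ + ‖g'‖) := by ring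
    rw [e, abs_mul, abs_of_nonneg (by positivity : 0 ≤ ‖g‖ + ‖g'‖)]
    calc |‖g‖ - ‖g'‖| * (‖g‖ + ‖g'‖) ≤ δ * (2 * B + 1) :=
          mul_le_mul h1 (by linarith) (by positivity) hδ0
      _ = _ := by ring
  · have e : 2 * (⟪g, d⟫_ℂ).re - 2 * (⟪g', d'⟫_ℂ).re
        = 2 * ((⟪g - g', d⟫_ℂ).re + (⟪g', d - d'⟫_ℂ).re) := by
      rw [inner_sub_left, inner_sub_right, Complex.sub_re, Complex.sub_re]; ring
    rw [e, abs_mul, abs_of_pos (by norm_num : (0 : ℝ) < 2)]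
    have a1 := ds2_abs_re_inner_le (g - g') d
    have a2 := ds2_abs_re_inner_le g' (d - d')
    have b1 : ‖g - g'‖ * ‖d‖ ≤ δ * (B * W + δ * W) := mul_le_mul hg h3 (norm_nonneg _) hδ0
    have b2 : ‖g'‖ * ‖d - d'‖ ≤ B * (δ * W) := mul_le_mul hg' hd (norm_nonneg _) hB
    have b3 := abs_add_le (⟪g - g', d⟫_ℂ).re (⟪g', d - d'⟫_ℂ).re
    have b4 : δ * (δ * W) ≤ 1 * (δ * W) := mul_le_mul_of_nonneg_right hδ (by positivity)
    nlinarith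

end Claimed.Open.R278
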