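import Claimed.Open.R278.DS2Trans

/-!
# Result 278, layer DS, file DS2TransTop: `ds_planeTranslate`, `ds_bulkTranslate` (glue)

Sub-captain helper88.  No leaf here: everything is proved from the leaves of `DS2Trans.lean`.
-/

open MeasureTheory Filter
open scoped ContDiff InnerProductSpace ComplexConjugate ENNReal Topology Laplacian

noncomputable section

namespace Claimed.Open.R278

variable {𝒦 : Type} [NormedAddCommGroup 𝒦] [InnerProductSpace ℂ 𝒦] [CompleteSpace 𝒦]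
variable {κ : ChannelConsts} {b : Space → ℝ} {γ : ℝ}

theorem ds2_re_inner_mul (s u v : ℂ) : (⟪s * u, s * v⟫_ℂ).re = ‖s‖ ^ 2 * (⟪u, v⟫_ℂ).re := by
  rw [← smul_eq_mul, ← smul_eq_mul, inner_smul_left, inner_smul_right, ← mul_assoc,
    Complex.conj_mul']
  norm_cast
  rw [Complex.re_ofReal_mul]

theorem ds2_re_inner_real (p q : ℝ) : (⟪(p : ℂ), (q : ℂ)⟫_ℂ).re = p * q := by
  simp [mul_comm]

theorem ds2_trE_sq (k : ℝ) (y x : Space) :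
    trE k y x ^ 2 = Real.exp (-(2 * k * ⟪‖y‖⁻¹ • y, x⟫_ℝ)) := by
  unfold trE
  rw [sq, ← Real.exp_add]
  congr 1
  ring

theorem ds2_trE_zero (k : ℝ) (y : Space) : trE k y 0 = 1 := by
  simp [trE]

theorem ds2_abs_inner_unit_le {y : Space} (hy : y ≠ 0) (v : Space) :
    |⟪‖y‖⁻¹ • y, v⟫_ℝ| ≤ ‖v‖ := by
  have h1 : ‖‖y‖⁻¹ • y‖ = 1 := by
    rw [norm_smul, norm_inv, norm_norm, inv_mul_cancel₀ (norm_ne_zero_iff.2 hy)]
  have := abs_real_inner_le_norm (‖y‖⁻¹ • y) v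
  rwa [h1, one_mul] at this

theorem ds2_abs_coord_le (x : Space) (i : Fin 3) : |x i| ≤ ‖x‖ := by
  have := PiLp.norm_apply_le x i
  simpa using this

/-- from the `C¹` asymptotics of the amplitude to those of the density. -/
theorem ds2_density_of_amp {f : Space → ℂ} {n : Space → ℝ} {X : Space} {μ g' : ℂ} {d' : Space → ℂ}
    {δ B Cv c : ℝ}
    (hf : DifferentiableAt ℝ f X) (hv : DifferentiableAt ℝ (fun y => n y - ‖f y‖ ^ 2) X)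
    (hδ0 : 0 ≤ δ) (hδ1 : δ ≤ 1) (hc : c = ‖μ‖ ^ 2)
    (hg : ‖μ * f X - g'‖ ≤ δ) (hd : ∀ w, ‖μ * fderiv ℝ f X w - d' w‖ ≤ δ * ‖w‖)
    (hg' : ‖g'‖ ≤ B) (hd' : ∀ w, ‖d' w‖ ≤ B * ‖w‖)
    (hv0 : c * |n X - ‖f X‖ ^ 2| ≤ Cv * δ)
    (hv1 : c * ‖fderiv ℝ (fun y => n y - ‖f y‖ ^ 2) X‖ ≤ Cv * δ) :
    |c * n X - ‖g'‖ ^ 2| ≤ (2 * B + 1 + Cv) * δ ∧
      ∀ w, |c * fderiv ℝ n X w - 2 * (⟪g', d' w⟫_ℂ).re| ≤ (2 * (2 * B + 1) + Cv) * δ * ‖w‖ := by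
  have hc0 : 0 ≤ c := by rw [hc]; positivity
  have hsq := fun w => ds2_square hδ0 hδ1 (norm_nonneg w) hg (hd w) hg' (hd' w)
  constructor
  · have h1 := (hsq 0).1
    have e : c * n X - ‖g'‖ ^ 2 = (‖μ * f X‖ ^ 2 - ‖g'‖ ^ 2) + c * (n X - ‖f X‖ ^ 2) := by
      rw [norm_mul, mul_pow, ← hc]; ring
    rw [e]
    calc _ ≤ |‖μ * f X‖ ^ 2 - ‖g'‖ ^ 2| + |c * (n X - ‖f X‖ ^ 2)| := abs_add_le _ _
      _ ≤ (2 * B + 1) * δ + Cv * δ := by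
          rw [abs_mul, abs_of_nonneg hc0]; exact add_le_add h1 hv0
      _ = _ := by ring
  · intro w
    have h2 := (hsq w).2
    have hn : fderiv ℝ n X w = 2 * (⟪f X, fderiv ℝ f X w⟫_ℂ).re
        + fderiv ℝ (fun y => n y - ‖f y‖ ^ 2) X w := by
      have e : n = fun y => ‖f y‖ ^ 2 + (n y - ‖f y‖ ^ 2) := by funext y; ring
      have hd2 : DifferentiableAt ℝ (fun y => ‖f y‖ ^ 2) X := hf.norm_sq ℂ
      conv_lhs => rw [e]
      rw [fderiv_fun_add hd2 hv, add_apply, ds2_fderiv_norm_sq hf]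
    have e : c * fderiv ℝ n X w - 2 * (⟪g', d' w⟫_ℂ).re
        = (2 * (⟪μ * f X, μ * fderiv ℝ f X w⟫_ℂ).re - 2 * (⟪g', d' w⟫_ℂ).re)
          + c * fderiv ℝ (fun y => n y - ‖f y‖ ^ 2) X w := by
      rw [hn, ds2_re_inner_mul, ← hc]; ring
    rw [e]
    have h3 : |c * fderiv ℝ (fun y => n y - ‖f y‖ ^ 2) X w| ≤ Cv * δ * ‖w‖ := by
      rw [abs_mul, abs_of_nonneg hc0]
      calc c * |fderiv ℝ (fun y => n y - ‖f y‖ ^ 2) X w|
          ≤ c * (‖fderiv ℝ (fun y => n y - ‖f y‖ ^ 2) X‖ * ‖w‖) :=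
            mul_le_mul_of_nonneg_left
              (by rw [← Real.norm_eq_abs]; exact ContinuousLinearMap.le_opNorm _ _) hc0
        _ = c * ‖fderiv ℝ (fun y => n y - ‖f y‖ ^ 2) X‖ * ‖w‖ := by ring
        _ ≤ _ := mul_le_mul_of_nonneg_right hv1 (norm_nonneg _)
    calc _ ≤ _ + _ := abs_add_le _ _
      _ ≤ 2 * (2 * B + 1) * δ * ‖w‖ + Cv * δ * ‖w‖ := add_le_add h2 h3
      _ = _ := by ring

/-- renormalisation `a/(1+θ)`. -/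
theorem ds2_renorm {a a' θ η B W : ℝ} (hθ : |θ| ≤ η) (hη : η ≤ 1 / 2) (ha : |a - a'| ≤ η * W)
    (ha' : |a'| ≤ B * W) (hW : 0 ≤ W) (hB : 0 ≤ B) :
    |a / (1 + θ) - a'| ≤ (2 + 2 * B) * η * W := by
  have hθ' := abs_le.1 hθ
  have h1 : (1 : ℝ) / 2 ≤ 1 + θ := by linarith
  have h0 : 0 < 1 + θ := by linarith
  have hη0 : 0 ≤ η := (abs_nonneg _).trans hθ
  have e : a / (1 + θ) - a' = ((a - a') - a' * θ) / (1 + θ) := by field_simp; ring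
  rw [e, abs_div, abs_of_pos h0, div_le_iff₀ h0]
  have h2 : |a' * θ| ≤ B * W * η := by
    rw [abs_mul]; exact mul_le_mul ha' hθ (abs_nonneg _) (by positivity)
  have h3 : |(a - a') - a' * θ| ≤ η * W + B * W * η := (abs_sub _ _).trans (add_le_add ha h2)
  have h4 : 0 ≤ (1 + B) * η * W := by positivity
  calc _ ≤ η * W + B * W * η := h3
    _ = (2 + 2 * B) * η * W * (1 / 2) := by ring
    _ ≤ _ := mul_le_mul_of_nonneg_left h1 (by positivity)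

section density
variable (κ : ChannelConsts) (b : Space → ℝ) (γ : ℝ) (Cb : ℕ → ℝ) (cb : ℝ) (c₀ : ℝ)

/-- **DS2c** (3.5) in `C¹`. -/
theorem ds_planeTranslate (hb : FastOrbital b γ κ.R₁ Cb cb) (hc₀ : 0 < c₀)
    (S : ChannelSys 𝒦 κ b γ) (n : Space → ℝ) (hS : S.SimpleZero c₀) (hn : DensityLink S n)
    (heven : ∀ x, n (reflZ x) = n x) (haxi : ∀ a x, n (rotZ a x) = n x) :
    PlaneTranslate n S.k S.β := by
  obtain ⟨R, C, K₀, hRκ, hC, hK₀, hgood⟩ := ds_good (𝒦 := 𝒦) κ b γ Cb cb hb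
  have hG := hgood S
  have hR1 : 1 ≤ R := (ds1_one_le_R₁ κ).trans hRκ
  have hk : 0 ≤ S.k := by have := S.k_lo; linarith
  obtain ⟨a, ha⟩ : ∃ a, a = ‖S.slope‖ := ⟨_, rfl⟩
  have ha0 : 0 < a := ha ▸ lt_of_lt_of_le hc₀ (S.slope_lower hG hS)
  obtain ⟨Cv, hCv, hv⟩ := ds2_v_bound hRκ S hG hn
  refine ⟨a, ha0, fun K ε hε => ?_⟩
  obtain ⟨K₁, hK₁⟩ : ∃ K₁, K₁ = max K 0 := ⟨_, rfl⟩
  have hK₁0 : 0 ≤ K₁ := hK₁ ▸ le_max_right _ _
  obtain ⟨B, hB⟩ : ∃ B, B = a * (1 + K₁ + S.k * K₁) * Real.exp (S.k * K₁) := ⟨_, rfl⟩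
  have hB0 : 0 ≤ B := by rw [hB]; positivity
  have hD : 0 < 2 * (2 * B + 1) + Cv := by positivity
  obtain ⟨δ, hδ⟩ : ∃ δ, δ = min 1 (ε / (2 * (2 * B + 1) + Cv)) := ⟨_, rfl⟩
  have hδ0 : 0 < δ := by rw [hδ]; exact lt_min one_pos (div_pos hε hD)
  have hδ1 : δ ≤ 1 := hδ ▸ min_le_left _ _
  have hδε : (2 * (2 * B + 1) + Cv) * δ ≤ ε := by
    have : δ ≤ ε / (2 * (2 * B + 1) + Cv) := hδ ▸ min_le_right _ _
    rwa [le_div_iff₀ hD, mul_comm] at this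
  obtain ⟨P₁, hP₁1, hP₁⟩ := ds2_pt_amp hR1 S hG K₁ δ hδ0
  obtain ⟨P₂, hP₂1, hP₂⟩ := ds2_v_small_pt S.k S.β K₁ δ hk hδ0
  refine ⟨max P₁ P₂, fun y hy2 hy x hx => ?_⟩
  have hx₁ : ‖x‖ ≤ K₁ := hx.trans (hK₁ ▸ le_max_left _ _)
  obtain ⟨hX, hg, hd⟩ := hP₁ y hy2 ((le_max_left _ _).trans hy) x hx₁
  have hsm := hP₂ y ((le_max_right _ _).trans hy) x hx₁
  obtain ⟨hvd, hv0, hv1⟩ := hv _ hX
  have hy0 : 0 < ‖y‖ := by linarith [(le_max_left P₁ P₂).trans hy]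
  have hyne : y ≠ 0 := norm_pos_iff.1 hy0
  obtain ⟨hE0, hE1⟩ := ds2_trE_bounds hk y hx₁
  have hEsq := ds2_trE_sq S.k y x
  obtain ⟨N, hN⟩ : ∃ N, N = radialA S.k S.β ‖y‖ / ‖y‖ := ⟨_, rfl⟩
  have hN0 : 0 < N := by rw [hN]; exact div_pos (radialA_pos _ _ hy0) hy0
  obtain ⟨E, hE⟩ : ∃ E, E = trE S.k y x := ⟨_, rfl⟩
  rw [← hN] at hg hd hsm ⊢
  rw [← hE] at hg hE0 hE1 hEsq
  simp only [← hE] at hd
  rw [← hEsq]
  have hfd : DifferentiableAt ℝ S.f (y + x) :=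
    (S.contDiffOn_f.contDiffAt ((isOpen_Ext _).mem_nhds (Ext_mono hRκ hX))).differentiableAt
      (by simp)
  have hc0 : 0 ≤ (N ^ 2)⁻¹ := by positivity
  have hsm' : (N ^ 2)⁻¹ * (S.A (y + x) ^ 2 * (‖y + x‖ ^ 4)⁻¹) ≤ δ := by
    rw [inv_mul_le_iff₀ (by positivity)]
    calc _ ≤ δ * N ^ 2 := hsm
      _ = _ := by ring
  have key := ds2_density_of_amp (f := S.f) (n := n) (X := y + x) (μ := ((N⁻¹ : ℝ) : ℂ))
    (g' := S.slope * ((x 2 * E : ℝ) : ℂ))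
    (d' := fun v => S.slope * (((v 2 - S.k * ⟪‖y‖⁻¹ • y, v⟫_ℝ * x 2) * E : ℝ) : ℂ))
    (δ := δ) (B := B) (Cv := Cv) (c := (N ^ 2)⁻¹) hfd hvd hδ0.le hδ1
    (by rw [Complex.norm_real, norm_inv, Real.norm_of_nonneg hN0.le, inv_pow])
    (by rw [← Complex.real_smul]; exact hg)
    (fun w => by rw [← Complex.real_smul]; exact hd w)
    (by
      rw [norm_mul, Complex.norm_real, ← ha, Real.norm_eq_abs, abs_mul, abs_of_pos hE0, hB,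
        mul_assoc]
      refine mul_le_mul_of_nonneg_left ?_ ha0.le
      refine mul_le_mul ?_ hE1 hE0.le (by positivity)
      have := (ds2_abs_coord_le x 2).trans hx₁
      have : 0 ≤ S.k * K₁ := by positivity
      linarith)
    (fun w => by
      rw [norm_mul, Complex.norm_real, ← ha, Real.norm_eq_abs, abs_mul, abs_of_pos hE0, hB]
      have h1 : |w 2 - S.k * ⟪‖y‖⁻¹ • y, w⟫_ℝ * x 2| ≤ (1 + K₁ + S.k * K₁) * ‖w‖ := by
        have e1 := ds2_abs_coord_le w 2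
        have e2 : |S.k * ⟪‖y‖⁻¹ • y, w⟫_ℝ * x 2| ≤ S.k * ‖w‖ * K₁ := by
          rw [abs_mul, abs_mul, abs_of_nonneg hk]
          exact mul_le_mul (mul_le_mul_of_nonneg_left (ds2_abs_inner_unit_le hyne w) hk)
            ((ds2_abs_coord_le x 2).trans hx₁) (abs_nonneg _) (by positivity)
        have e3 : 0 ≤ K₁ * ‖w‖ := by positivity
        calc _ ≤ |w 2| + |S.k * ⟪‖y‖⁻¹ • y, w⟫_ℝ * x 2| := abs_sub _ _
          _ ≤ ‖w‖ + S.k * ‖w‖ * K₁ := add_le_add e1 e2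
          _ ≤ _ := by nlinarith
      calc a * (|w 2 - S.k * ⟪‖y‖⁻¹ • y, w⟫_ℝ * x 2| * E)
          ≤ a * (((1 + K₁ + S.k * K₁) * ‖w‖) * Real.exp (S.k * K₁)) :=
            mul_le_mul_of_nonneg_left (mul_le_mul h1 hE1 hE0.le (by positivity)) ha0.le
        _ = _ := by ring)
    (by
      calc (N ^ 2)⁻¹ * |n (y + x) - ‖S.f (y + x)‖ ^ 2|
          ≤ (N ^ 2)⁻¹ * (Cv * (S.A (y + x) ^ 2 * (‖y + x‖ ^ 4)⁻¹)) :=
            mul_le_mul_of_nonneg_left hv0 hc0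
        _ = Cv * ((N ^ 2)⁻¹ * (S.A (y + x) ^ 2 * (‖y + x‖ ^ 4)⁻¹)) := by ring
        _ ≤ _ := mul_le_mul_of_nonneg_left hsm' hCv)
    (by
      calc (N ^ 2)⁻¹ * ‖fderiv ℝ (fun y => n y - ‖S.f y‖ ^ 2) (y + x)‖
          ≤ (N ^ 2)⁻¹ * (Cv * (S.A (y + x) ^ 2 * (‖y + x‖ ^ 4)⁻¹)) :=
            mul_le_mul_of_nonneg_left hv1 hc0
        _ = Cv * ((N ^ 2)⁻¹ * (S.A (y + x) ^ 2 * (‖y + x‖ ^ 4)⁻¹)) := by ring
        _ ≤ _ := mul_le_mul_of_nonneg_left hsm' hCv)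
  obtain ⟨k1, k2⟩ := key
  constructor
  · have e : ‖S.slope * ((x 2 * E : ℝ) : ℂ)‖ ^ 2 = a ^ 2 * x 2 ^ 2 * E ^ 2 := by
      rw [norm_mul, Complex.norm_real, ← ha, Real.norm_eq_abs, mul_pow, sq_abs]; ring
    rw [e] at k1
    rw [div_eq_inv_mul]
    refine k1.trans (le_trans ?_ hδε)
    refine mul_le_mul_of_nonneg_right ?_ hδ0.le
    linarith
  · refine ds2_norm_gradient_sub_le hε.le fun w => ?_
    have k3 := k2 w
    simp only at k3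
    rw [ds2_re_inner_mul, ds2_re_inner_real, ← ha] at k3
    rw [ds2_fderiv_model, ← ds2_trE_sq, ← hE]
    have e : a ^ 2 * (2 * x 2 * w 2 - 2 * S.k * ⟪‖y‖⁻¹ • y, w⟫_ℝ * x 2 ^ 2) * E ^ 2
        = 2 * (a ^ 2 * (x 2 * E * ((w 2 - S.k * ⟪‖y‖⁻¹ • y, w⟫_ℝ * x 2) * E))) := by ring
    rw [e]
    exact k3.trans (mul_le_mul_of_nonneg_right hδε (norm_nonneg _))

set_option maxHeartbeats 1000000 in
/-- **DS2d** (3.6) in `C¹`. -/
theorem ds_bulkTranslate (hb : FastOrbital b γ κ.R₁ Cb cb) (hc₀ : 0 < c₀)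
    (S : ChannelSys 𝒦 κ b γ) (n : Space → ℝ) (hS : S.SimpleZero c₀) (hn : DensityLink S n)
    (heven : ∀ x, n (reflZ x) = n x) (haxi : ∀ a x, n (rotZ a x) = n x) :
    BulkTranslate n S.k := by
  obtain ⟨R, C, K₀, hRκ, hC, hK₀, hgood⟩ := ds_good (𝒦 := 𝒦) κ b γ Cb cb hb
  have hG := hgood S
  have hR1 : 1 ≤ R := (ds1_one_le_R₁ κ).trans hRκ
  have hk : 0 ≤ S.k := by have := S.k_lo; linarith
  obtain ⟨Cv, hCv, hv⟩ := ds2_v_bound hRκ S hG hn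
  intro K ε hε
  obtain ⟨K₁, hK₁⟩ : ∃ K₁, K₁ = max K 0 := ⟨_, rfl⟩
  have hK₁0 : 0 ≤ K₁ := hK₁ ▸ le_max_right _ _
  obtain ⟨M, hM⟩ : ∃ M, M = Real.exp (S.k * K₁) := ⟨_, rfl⟩
  have hM0 : 0 < M := hM ▸ Real.exp_pos _
  obtain ⟨B, hB⟩ : ∃ B, B = (1 + S.k) * M := ⟨_, rfl⟩
  have hB0 : 0 ≤ B := by rw [hB]; positivity
  obtain ⟨B₂, hB₂⟩ : ∃ B₂, B₂ = (1 + 2 * S.k) * M ^ 2 := ⟨_, rfl⟩
  have hB₂0 : 0 ≤ B₂ := by rw [hB₂]; positivity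
  obtain ⟨D, hDdef⟩ : ∃ D, D = 2 * (2 * B + 1) + Cv := ⟨_, rfl⟩
  have hD : 0 < D := by rw [hDdef]; positivity
  obtain ⟨δ, hδ⟩ : ∃ δ, δ = min 1 (min (1 / (2 * D)) (ε / ((2 + 2 * B₂) * D))) := ⟨_, rfl⟩
  have hδ0 : 0 < δ := by
    rw [hδ]; exact lt_min one_pos (lt_min (by positivity) (by positivity))
  have hδ1 : δ ≤ 1 := hδ ▸ min_le_left _ _
  have hδh : D * δ ≤ 1 / 2 := by
    have : δ ≤ 1 / (2 * D) := hδ ▸ (min_le_right _ _).trans (min_le_left _ _)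
    rw [le_div_iff₀ (by positivity)] at this
    linarith
  have hδε : (2 + 2 * B₂) * (D * δ) ≤ ε := by
    have : δ ≤ ε / ((2 + 2 * B₂) * D) := hδ ▸ (min_le_right _ _).trans (min_le_right _ _)
    rw [le_div_iff₀ (by positivity)] at this
    linarith
  obtain ⟨P₁, hP₁1, hP₁⟩ := ds2_bt_amp hR1 hc₀ S hG hS K₁ δ hδ0
  obtain ⟨P₂, hP₂1, hP₂⟩ := ds2_v_small_bt hR1 hc₀ S hG hS K₁ δ hδ0
  refine ⟨max P₁ P₂, fun y hy x hx => ?_⟩
  have hx₁ : ‖x‖ ≤ K₁ := hx.trans (hK₁ ▸ le_max_left _ _)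
  have hy0 : 0 < ‖y‖ := by
    have := ds2_abs_coord_le y 2
    linarith [(le_max_left P₁ P₂).trans hy]
  have hyne : y ≠ 0 := norm_pos_iff.1 hy0
  have hfy : S.f y ≠ 0 := (hP₁ y ((le_max_left _ _).trans hy) 0 (by simpa using hK₁0)).2.1
  obtain ⟨c, hc⟩ : ∃ c, c = (‖S.f y‖ ^ 2)⁻¹ := ⟨_, rfl⟩
  have hfy2 : 0 < ‖S.f y‖ ^ 2 := by have := norm_pos_iff.2 hfy; positivity
  have hc0 : 0 < c := by rw [hc]; positivity
  have main : ∀ x' : Space, ‖x'‖ ≤ K₁ →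
      |c * n (y + x') - trE S.k y x' ^ 2| ≤ D * δ ∧
      ∀ w, |c * fderiv ℝ n (y + x') w - -(2 * S.k * ⟪‖y‖⁻¹ • y, w⟫_ℝ * trE S.k y x' ^ 2)|
        ≤ D * δ * ‖w‖ := by
    intro x' hx'
    obtain ⟨hX, -, hg, hd⟩ := hP₁ y ((le_max_left _ _).trans hy) x' hx'
    have hsm := hP₂ y ((le_max_right _ _).trans hy) x' hx'
    obtain ⟨hvd, hv0, hv1⟩ := hv _ hX
    obtain ⟨hE0, hE1⟩ := ds2_trE_bounds hk y hx'
    obtain ⟨E, hE⟩ : ∃ E, E = trE S.k y x' := ⟨_, rfl⟩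
    rw [← hE] at hg hE0 hE1 ⊢
    rw [← hM] at hE1
    simp only [← hE] at hd
    have hfd : DifferentiableAt ℝ S.f (y + x') :=
      (S.contDiffOn_f.contDiffAt ((isOpen_Ext _).mem_nhds (Ext_mono hRκ hX))).differentiableAt
        (by simp)
    have hsm' : c * (S.A (y + x') ^ 2 * (‖y + x'‖ ^ 4)⁻¹) ≤ δ := by
      rw [hc, inv_mul_le_iff₀ hfy2]
      calc _ ≤ δ * ‖S.f y‖ ^ 2 := hsm
        _ = _ := by ring
    have key := ds2_density_of_amp (f := S.f) (n := n) (X := y + x') (μ := (S.f y)⁻¹)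
      (g' := ((E : ℝ) : ℂ))
      (d' := fun v => ((-(S.k * ⟪‖y‖⁻¹ • y, v⟫_ℝ * E) : ℝ) : ℂ))
      (δ := δ) (B := B) (Cv := Cv) (c := c) hfd hvd hδ0.le hδ1
      (by rw [hc, norm_inv, inv_pow])
      (by rw [← div_eq_inv_mul]; exact hg)
      (fun w => by
        rw [← div_eq_inv_mul, Complex.ofReal_neg, sub_neg_eq_add]; exact hd w)
      (by
        rw [Complex.norm_real, Real.norm_of_nonneg hE0.le, hB]
        nlinarith)
      (fun w => by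
        rw [Complex.norm_real, Real.norm_eq_abs, abs_neg, abs_mul, abs_mul, abs_of_pos hE0,
          abs_of_nonneg hk, hB]
        have e1 := ds2_abs_inner_unit_le hyne w
        calc S.k * |⟪‖y‖⁻¹ • y, w⟫_ℝ| * E ≤ S.k * ‖w‖ * M :=
              mul_le_mul (mul_le_mul_of_nonneg_left e1 hk) hE1 hE0.le (by positivity)
          _ ≤ _ := by
            have : 0 ≤ M * ‖w‖ := by positivity
            nlinarith)
      (by
        calc c * |n (y + x') - ‖S.f (y + x')‖ ^ 2|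
            ≤ c * (Cv * (S.A (y + x') ^ 2 * (‖y + x'‖ ^ 4)⁻¹)) :=
              mul_le_mul_of_nonneg_left hv0 hc0.le
          _ = Cv * (c * (S.A (y + x') ^ 2 * (‖y + x'‖ ^ 4)⁻¹)) := by ring
          _ ≤ _ := mul_le_mul_of_nonneg_left hsm' hCv)
      (by
        calc c * ‖fderiv ℝ (fun y => n y - ‖S.f y‖ ^ 2) (y + x')‖
            ≤ c * (Cv * (S.A (y + x') ^ 2 * (‖y + x'‖ ^ 4)⁻¹)) :=
              mul_le_mul_of_nonneg_left hv1 hc0.le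
          _ = Cv * (c * (S.A (y + x') ^ 2 * (‖y + x'‖ ^ 4)⁻¹)) := by ring
          _ ≤ _ := mul_le_mul_of_nonneg_left hsm' hCv)
    obtain ⟨k1, k2⟩ := key
    constructor
    · rw [Complex.norm_real, Real.norm_of_nonneg hE0.le] at k1
      refine k1.trans (mul_le_mul_of_nonneg_right ?_ hδ0.le)
      rw [hDdef]; linarith
    · intro w
      have k3 := k2 w
      rw [ds2_re_inner_real, ← hDdef] at k3
      have e : -(2 * S.k * ⟪‖y‖⁻¹ • y, w⟫_ℝ * E ^ 2)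
          = 2 * (E * -(S.k * ⟪‖y‖⁻¹ • y, w⟫_ℝ * E)) := by ring
      rw [e]; exact k3
  obtain ⟨θ, hθ⟩ : ∃ θ, θ = c * n y - 1 := ⟨_, rfl⟩
  have hθle : |θ| ≤ D * δ := by
    have := (main 0 (by simpa using hK₁0)).1
    rwa [add_zero, ds2_trE_zero, one_pow, ← hθ] at this
  have hcn : c * n y = 1 + θ := by rw [hθ]; ring
  obtain ⟨m1, m2⟩ := main x hx₁
  obtain ⟨hE0, hE1⟩ := ds2_trE_bounds hk y hx₁
  rw [← hM] at hE1
  rw [← ds2_trE_sq]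
  obtain ⟨E, hE⟩ : ∃ E, E = trE S.k y x := ⟨_, rfl⟩
  rw [← hE] at m1 hE0 hE1 ⊢
  simp only [← hE] at m2
  have hE2 : E ^ 2 ≤ M ^ 2 := pow_le_pow_left₀ hE0.le hE1 2
  constructor
  · have e : n (y + x) / n y = c * n (y + x) / (1 + θ) := by
      rw [← hcn, mul_div_mul_left _ _ hc0.ne']
    rw [e]
    have := ds2_renorm (W := 1) (B := B₂) hθle hδh (by rw [mul_one]; exact m1)
      (by
        rw [mul_one, abs_of_nonneg (by positivity), hB₂]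
        have : 0 ≤ S.k * M ^ 2 := by positivity
        linarith) zero_le_one hB₂0
    rw [mul_one] at this
    exact this.trans hδε
  · refine ds2_norm_gradient_add_le hε.le fun w => ?_
    have e : (n y)⁻¹ * fderiv ℝ n (y + x) w = c * fderiv ℝ n (y + x) w / (1 + θ) := by
      rw [← hcn, mul_div_mul_left _ _ hc0.ne', div_eq_inv_mul]
    have e2 : ⟪(2 * S.k * E ^ 2) • (‖y‖⁻¹ • y), w⟫_ℝ
        = - -(2 * S.k * ⟪‖y‖⁻¹ • y, w⟫_ℝ * E ^ 2) := by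
      rw [real_inner_smul_left]; ring
    rw [e, e2, ← sub_eq_add_neg]
    have hb' : |-(2 * S.k * ⟪‖y‖⁻¹ • y, w⟫_ℝ * E ^ 2)| ≤ B₂ * ‖w‖ := by
      rw [abs_neg, abs_mul, abs_mul, abs_of_nonneg (by positivity : (0:ℝ) ≤ 2 * S.k),
        abs_of_nonneg (by positivity : (0:ℝ) ≤ E ^ 2), hB₂]
      have e1 := ds2_abs_inner_unit_le hyne w
      calc 2 * S.k * |⟪‖y‖⁻¹ • y, w⟫_ℝ| * E ^ 2 ≤ 2 * S.k * ‖w‖ * M ^ 2 :=
            mul_le_mul (mul_le_mul_of_nonneg_left e1 (by positivity)) hE2 (by positivity)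
              (by positivity)
        _ ≤ _ := by
          have : 0 ≤ M ^ 2 * ‖w‖ := by positivity
          nlinarith
    have := ds2_renorm (W := ‖w‖) (B := B₂) hθle hδh (m2 w) hb' (norm_nonneg _) hB₂0
    exact this.trans (mul_le_mul_of_nonneg_right hδε (norm_nonneg _))

end density

end Claimed.Open.R278
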