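import Claimed.Open.R278.FormLemmas

/-!
# Densities of pure states and of mixtures
-/

open MeasureTheory
open scoped ContDiff InnerProductSpace ComplexConjugate

noncomputable section

namespace Claimed.Open.R278

def consEquiv : Space × (Fin 2 → Space) ≃ᵐ (Config 3) :=
  (MeasurableEquiv.piFinSuccAbove (fun _ : Fin 3 => Space) 0).symm

theorem consEquiv_apply (p : Space × (Fin 2 → Space)) : consEquiv p = (Fin.cons p.1 p.2 : (Config 3)) := by
  simp [consEquiv, MeasurableEquiv.piFinSuccAbove, Fin.insertNthEquiv]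

theorem measurePreserving_consEquiv : MeasurePreserving consEquiv volume volume :=
  (volume_preserving_piFinSuccAbove (fun _ : Fin 3 => Space) 0).symm

theorem integrable_norm_sq (Ψ : (L2 3)) : Integrable (fun x => ‖Ψ x‖ ^ 2) := by
  have := (Lp.memLp Ψ).integrable_norm_pow (by norm_num : (2:ℕ) ≠ 0)
  simpa using this

theorem norm_sq_eq_integral (Ψ : (L2 3)) : ‖Ψ‖ ^ 2 = ∫ x, ‖Ψ x‖ ^ 2 := by
  have h : ⟪Ψ, Ψ⟫_ℂ = ∫ x, ⟪Ψ x, Ψ x⟫_ℂ := L2.inner_def Ψ Ψ
  have h2 : (⟪Ψ, Ψ⟫_ℂ).re = ‖Ψ‖ ^ 2 := by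
    rw [inner_self_eq_norm_sq_to_K]; norm_cast
  rw [← h2, h]
  have : (fun x => ⟪Ψ x, Ψ x⟫_ℂ) = fun x => ((‖Ψ x‖ ^ 2 : ℝ) : ℂ) := by
    funext x; rw [inner_self_eq_norm_sq_to_K]; norm_cast
  rw [this, integral_complex_ofReal]; simp

/-- Fubini in the variables `(r, y)`. -/
theorem integral_config_eq (F : (Config 3) → ℝ) (hF : Integrable F) :
    ∫ x, F x = ∫ r : Space, ∫ y : Fin 2 → Space, F (Fin.cons r y : (Config 3)) := by
  have h1 : ∫ x, F x = ∫ p : Space × (Fin 2 → Space), F (consEquiv p) :=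
    (measurePreserving_consEquiv.integral_comp' F).symm
  have h2 : Integrable (fun p : Space × (Fin 2 → Space) => F (consEquiv p)) (volume.prod volume) :=
    (measurePreserving_consEquiv.integrable_comp_emb consEquiv.measurableEmbedding).2 hF
  rw [h1]
  have := integral_prod _ h2
  rw [← Measure.volume_eq_prod] at this
  simpa [consEquiv_apply] using this

theorem integrable_config_left (F : (Config 3) → ℝ) (hF : Integrable F) :
    Integrable (fun r : Space => ∫ y : Fin 2 → Space, F (Fin.cons r y : (Config 3))) := by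
  have h2 : Integrable (fun p : Space × (Fin 2 → Space) => F (consEquiv p)) (volume.prod volume) :=
    (measurePreserving_consEquiv.integrable_comp_emb consEquiv.measurableEmbedding).2 hF
  simpa [consEquiv_apply] using h2.integral_prod_left

theorem integrable_density (Ψ : (L2 3)) : Integrable (density Ψ) :=
  (integrable_config_left _ (integrable_norm_sq Ψ)).const_mul 3

/-- "it has integral three" -/
theorem integral_density (Ψ : (L2 3)) : ∫ r, density Ψ r = 3 * ‖Ψ‖ ^ 2 := by
  rw [norm_sq_eq_integral, integral_config_eq _ (integrable_norm_sq Ψ)]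
  simp only [density]
  rw [integral_const_mul]


/-! ### The pointwise norm of an antisymmetric state is permutation invariant -/

theorem IsAntisymmetric.norm_comp_perm {Φ : (L2 3)} (h : IsAntisymmetric Φ) (π : Equiv.Perm (Fin 3)) :
    ∀ᵐ x : (Config 3), ‖Φ (x ∘ π)‖ = ‖Φ x‖ := by
  filter_upwards [h π] with x hx
  have h1 : ‖Φ (x ∘ π)‖ ^ 2 = ‖Φ x‖ ^ 2 := by
    rw [EuclideanSpace.norm_sq_eq, EuclideanSpace.norm_sq_eq]
    rw [← Equiv.sum_comp (Equiv.arrowCongr π.symm (Equiv.refl (Fin 2)))]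
    apply Finset.sum_congr rfl
    intro s _
    have : (Equiv.arrowCongr π.symm (Equiv.refl (Fin 2))) s = s ∘ π := by
      funext i; simp [Equiv.arrowCongr]
    rw [this, hx s, norm_mul]
    rcases Int.units_eq_one_or (Equiv.Perm.sign π) with h | h <;> simp [h]
  exact (sq_eq_sq₀ (norm_nonneg _) (norm_nonneg _)).mp h1

/-! ### The occupation number and its multiplication operator -/

theorem measurable_occupation {A : Set Space} (hA : MeasurableSet A) : Measurable (occupation A) := by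
  unfold occupation
  refine Finset.measurable_sum _ fun i _ => ?_
  exact (measurable_const.indicator hA).comp (measurable_pi_apply i)

theorem occupation_nonneg (A : Set Space) (x : (Config 3)) : 0 ≤ occupation A x :=
  Finset.sum_nonneg fun i _ => Set.indicator_nonneg (fun _ _ => zero_le_one) _

theorem occupation_le (A : Set Space) (x : (Config 3)) : occupation A x ≤ 3 := by
  unfold occupation
  calc ∑ i, A.indicator (fun _ => (1 : ℝ)) (x i) ≤ ∑ _ : Fin 3, (1 : ℝ) :=
        Finset.sum_le_sum fun i _ => Set.indicator_le_self' (fun _ _ => zero_le_one) _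
    _ = 3 := by simp

theorem memLp_occupation_smul {A : Set Space} (hA : MeasurableSet A) (Φ : (L2 3)) :
    MemLp (fun x => (occupation A x : ℂ) • Φ x) 2 volume := by
  refine (Lp.memLp Φ).of_le_mul (c := 3) ?_ ?_
  · exact (Complex.measurable_ofReal.comp (measurable_occupation hA)).aestronglyMeasurable.smul
      (aestronglyMeasurable_coe Φ)
  · refine Filter.Eventually.of_forall fun x => ?_
    rw [norm_smul, Complex.norm_real, Real.norm_eq_abs, abs_of_nonneg (occupation_nonneg A x)]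
    exact mul_le_mul_of_nonneg_right (occupation_le A x) (norm_nonneg _)

/-- The bounded multiplication operator `∑ᵢ (1_A)ᵢ` applied to `Φ`. -/
def occMul {A : Set Space} (hA : MeasurableSet A) (Φ : (L2 3)) : (L2 3) := (memLp_occupation_smul hA Φ).toLp _

theorem occupationForm_eq_inner_right {A : Set Space} (hA : MeasurableSet A) (Ξ Φ : (L2 3)) :
    occupationForm A Ξ Φ = ⟪Ξ, occMul hA Φ⟫_ℂ := by
  rw [L2.inner_def]
  apply integral_congr_ae
  filter_upwards [(memLp_occupation_smul hA Φ).coeFn_toLp] with x hx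
  rw [occMul, hx, inner_smul_right]

theorem occupationForm_eq_inner_left {A : Set Space} (hA : MeasurableSet A) (Ξ Φ : (L2 3)) :
    occupationForm A Ξ Φ = ⟪occMul hA Ξ, Φ⟫_ℂ := by
  rw [L2.inner_def]
  apply integral_congr_ae
  filter_upwards [(memLp_occupation_smul hA Ξ).coeFn_toLp] with x hx
  rw [occMul, hx, inner_smul_left, Complex.conj_ofReal]

theorem occupationForm_self (A : Set Space) (Φ : (L2 3)) :
    occupationForm A Φ Φ = ((∫ x, occupation A x * ‖Φ x‖ ^ 2 : ℝ) : ℂ) := by
  rw [← integral_complex_ofReal]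
  apply integral_congr_ae
  refine Filter.Eventually.of_forall fun x => ?_
  simp only
  rw [inner_self_eq_norm_sq_to_K]
  push_cast
  rfl

theorem integrable_indicator_mul_norm_sq {A : Set Space} (hA : MeasurableSet A) (Φ : (L2 3)) (i : Fin 3) :
    Integrable (fun x : (Config 3) => A.indicator (fun _ => (1 : ℝ)) (x i) * ‖Φ x‖ ^ 2) := by
  refine (integrable_norm_sq Φ).bdd_mul (c := 1) ?_ ?_
  · exact ((measurable_const.indicator hA).comp (measurable_pi_apply i)).aestronglyMeasurable
  · refine Filter.Eventually.of_forall fun x => ?_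
    rw [Real.norm_eq_abs, abs_of_nonneg (Set.indicator_nonneg (fun _ _ => zero_le_one) _)]
    exact Set.indicator_le_self' (fun _ _ => zero_le_one) _

/-- For an antisymmetric state, `⟨Φ, ∑ᵢ (1_A)ᵢ Φ⟩ = ∫_A n_Φ`. -/
theorem integral_occupation_mul_norm_sq {Φ : (L2 3)} (h : IsAntisymmetric Φ) {A : Set Space}
    (hA : MeasurableSet A) :
    ∫ x, occupation A x * ‖Φ x‖ ^ 2 = ∫ r in A, density Φ r := by
  have h0 : ∀ i : Fin 3, ∫ x : (Config 3), A.indicator (fun _ => (1 : ℝ)) (x i) * ‖Φ x‖ ^ 2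
      = ∫ x : (Config 3), A.indicator (fun _ => (1 : ℝ)) (x 0) * ‖Φ x‖ ^ 2 := by
    intro i
    have hmp := measurePreserving_comp_perm (Equiv.swap 0 i)
    have hme := measurableEmbedding_comp_perm (Equiv.swap 0 i)
    rw [← hmp.integral_comp hme]
    apply integral_congr_ae
    filter_upwards [h.norm_comp_perm (Equiv.swap 0 i)] with x hx
    rw [hx]; simp
  have h1 : ∫ x, occupation A x * ‖Φ x‖ ^ 2
      = 3 * ∫ x : (Config 3), A.indicator (fun _ => (1 : ℝ)) (x 0) * ‖Φ x‖ ^ 2 := by
    simp only [occupation, Finset.sum_mul]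
    rw [integral_finsetSum _ fun i _ => integrable_indicator_mul_norm_sq hA Φ i]
    simp [h0]
  rw [h1, integral_config_eq _ (integrable_indicator_mul_norm_sq hA Φ 0), ← integral_indicator hA,
    ← integral_const_mul]
  apply integral_congr_ae
  refine Filter.Eventually.of_forall fun r => ?_
  simp only [Fin.cons_zero]
  rw [integral_const_mul]
  by_cases hr : r ∈ A <;> simp [hr, density]

/-! ### Traces -/

theorem HasDiagonalSum.add {a a' : (L2 3) → ℂ} {t t' : ℂ} (h : HasDiagonalSum a t)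
    (h' : HasDiagonalSum a' t') : HasDiagonalSum (fun φ => a φ + a' φ) (t + t') :=
  fun ι b => (h ι b).add (h' ι b)

theorem HasDiagonalSum.const_mul {a : (L2 3) → ℂ} {t : ℂ} (c : ℂ) (h : HasDiagonalSum a t) :
    HasDiagonalSum (fun φ => c * a φ) (c * t) :=
  fun ι b => (h ι b).mul_left c

theorem HasDiagonalSum.congr {a a' : (L2 3) → ℂ} {t t' : ℂ} (h : HasDiagonalSum a t)
    (e : ∀ φ, a' φ = a φ) (et : t' = t) : HasDiagonalSum a' t' := by
  have : a' = a := funext e
  rw [this, et]; exact h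

theorem HasDiagonalSum.zero : HasDiagonalSum (fun _ => 0) 0 := fun _ _ => hasSum_zero

/-- There are orthonormal bases, so `HasDiagonalSum` is never vacuous: the value is unique. -/
theorem HasDiagonalSum.unique {a : (L2 3) → ℂ} {t t' : ℂ} (h : HasDiagonalSum a t)
    (h' : HasDiagonalSum a t') : t = t' := by
  obtain ⟨w, b, -⟩ := exists_hilbertBasis ℂ (L2 3)
  exact (h _ b).unique (h' _ b)

open InnerProductSpace in
/-- `Tr |Φ⟩⟨Φ| = ‖Φ‖²`. -/
theorem hasTrace_rankOne (Φ : (L2 3)) : HasTrace (rankOne ℂ Φ Φ) ((‖Φ‖ ^ 2 : ℝ) : ℂ) := by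
  intro ι b
  have := b.hasSum_inner_mul_inner Φ Φ
  rw [inner_self_eq_norm_sq_to_K] at this
  have e : ∀ k, ⟪b k, rankOne ℂ Φ Φ (b k)⟫_ℂ = ⟪Φ, b k⟫_ℂ * ⟪b k, Φ⟫_ℂ := by
    intro k
    rw [rankOne_apply, inner_smul_right]
  simp only [e]
  push_cast
  exact this

open InnerProductSpace in
/-- The density of the pure state `|Φ⟩⟨Φ|` in the sense of `IsDensityOf` is `n_Φ`. -/
theorem isDensityOf_rankOne {Φ : (L2 3)} (h : IsAntisymmetric Φ) :
    IsDensityOf (rankOne ℂ Φ Φ) (density Φ) := by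
  refine ⟨integrable_density Φ, fun A hA ι b => ?_⟩
  have := b.hasSum_inner_mul_inner Φ (occMul hA Φ)
  rw [← occupationForm_eq_inner_right, occupationForm_self, integral_occupation_mul_norm_sq h hA]
    at this
  have e : ∀ k, occupationForm A (b k) (rankOne ℂ Φ Φ (b k))
      = ⟪Φ, b k⟫_ℂ * ⟪b k, occMul hA Φ⟫_ℂ := by
    intro k
    rw [rankOne_apply, occupationForm_eq_inner_left hA, inner_smul_right,
      ← occupationForm_eq_inner_left hA, occupationForm_eq_inner_right hA]
  simp only [e]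
  exact this

/-! ### Ground-state ensembles: pure states and convex combinations -/

open InnerProductSpace in
/-- The projector `|Φ⟩⟨Φ|` on a ground state is a ground-state ensemble. -/
theorem IsGroundState.isGroundStateEnsemble_rankOne {W : (Config 3) → ℝ} {Φ : (L2 3)}
    (h : IsGroundState W Φ) : IsGroundStateEnsemble W (rankOne ℂ Φ Φ) := by
  obtain ⟨h1, E, hE, hΦ⟩ := h
  refine ⟨isPositive_rankOne_self Φ, ?_, E, hE, fun Ξ => ?_⟩
  · have := hasTrace_rankOne Φ
    rw [h1] at this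
    simpa using this
  · rw [rankOne_apply]; exact smul_mem_eigenspace _ hΦ

/-- Ground-state ensembles form a convex set. -/
theorem IsGroundStateEnsemble.convex {W : (Config 3) → ℝ} (hW : AEStronglyMeasurable W volume)
    {Γ₁ Γ₂ : (L2 3) →L[ℂ] (L2 3)} (h₁ : IsGroundStateEnsemble W Γ₁) (h₂ : IsGroundStateEnsemble W Γ₂)
    {t : ℝ} (ht0 : 0 ≤ t) (ht1 : t ≤ 1) :
    IsGroundStateEnsemble W ((t : ℂ) • Γ₁ + ((1 - t : ℝ) : ℂ) • Γ₂) := by
  obtain ⟨p₁, tr₁, E₁, hE₁, r₁⟩ := h₁
  obtain ⟨p₂, tr₂, E₂, hE₂, r₂⟩ := h₂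
  obtain rfl : E₁ = E₂ := hE₁.unique hE₂
  refine ⟨?_, ?_, E₁, hE₁, fun Φ => ?_⟩
  · refine (p₁.smul_of_nonneg ?_).add (p₂.smul_of_nonneg ?_)
    · exact_mod_cast ht0
    · exact_mod_cast sub_nonneg.mpr ht1
  · refine ((tr₁.const_mul (t : ℂ)).add (tr₂.const_mul ((1 - t : ℝ) : ℂ))).congr ?_ ?_
    · intro φ
      simp only [add_apply, smul_apply, inner_add_right, inner_smul_right]
    · push_cast; ring
  · simp only [add_apply, smul_apply]
    exact add_mem_eigenspace hW (smul_mem_eigenspace _ (r₁ Φ)) (smul_mem_eigenspace _ (r₂ Φ))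

/-- "Ensemble densities are defined by linearity". -/
theorem IsDensityOf.convex {Γ₁ Γ₂ : (L2 3) →L[ℂ] (L2 3)} {n₁ n₂ : Space → ℝ}
    (h₁ : IsDensityOf Γ₁ n₁) (h₂ : IsDensityOf Γ₂ n₂) (t : ℝ) :
    IsDensityOf ((t : ℂ) • Γ₁ + ((1 - t : ℝ) : ℂ) • Γ₂) (fun r => t * n₁ r + (1 - t) * n₂ r) := by
  refine ⟨(h₁.1.const_mul t).add (h₂.1.const_mul (1 - t)), fun A hA => ?_⟩
  have e : (t : ℂ) * ((∫ r in A, n₁ r : ℝ) : ℂ) + ((1 - t : ℝ) : ℂ) * ((∫ r in A, n₂ r : ℝ) : ℂ)
      = ((∫ r in A, (t * n₁ r + (1 - t) * n₂ r) : ℝ) : ℂ) := by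
    rw [integral_add (h₁.1.const_mul t).integrableOn (h₂.1.const_mul (1 - t)).integrableOn,
      integral_const_mul, integral_const_mul]
    push_cast; ring
  refine (((h₁.2 A hA).const_mul (t : ℂ)).add ((h₂.2 A hA).const_mul ((1 - t : ℝ) : ℂ))).congr
    ?_ e.symm
  intro φ
  simp only [add_apply, smul_apply, occupationForm_eq_inner_left hA, inner_add_right,
    inner_smul_right]

/-- The density of an ensemble is unique up to null sets. -/
theorem IsDensityOf.ae_eq {Γ : (L2 3) →L[ℂ] (L2 3)} {n n' : Space → ℝ}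
    (h : IsDensityOf Γ n) (h' : IsDensityOf Γ n') : n =ᵐ[volume] n' := by
  refine h.1.ae_eq_of_forall_setIntegral_eq _ _ h'.1 fun A hA _ => ?_
  exact_mod_cast (h.2 A hA).unique (h'.2 A hA)

/-- The density of an ensemble of trace one has integral three. -/
theorem IsDensityOf.integral_eq {Γ : (L2 3) →L[ℂ] (L2 3)} {n : Space → ℝ} (h : IsDensityOf Γ n)
    (htr : HasTrace Γ 1) : ∫ r, n r = 3 := by
  have h1 := h.2 Set.univ MeasurableSet.univ
  have h2 : HasDiagonalSum (fun φ => occupationForm Set.univ φ (Γ φ)) 3 := by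
    refine (htr.const_mul 3).congr ?_ (by simp)
    intro φ
    rw [L2.inner_def, ← integral_const_mul]
    apply integral_congr_ae
    refine Filter.Eventually.of_forall fun x => ?_
    simp [occupation]
  have := h1.unique h2
  rw [setIntegral_univ] at this
  exact_mod_cast this

end Claimed.Open.R278
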