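import Claimed.Open.R278.DensityLemmas

/-!
# Examples: Coulomb potentials in `L^{3/2} + L^∞`, smooth states, a Slater determinant
-/

open MeasureTheory Set
open scoped ContDiff InnerProductSpace ComplexConjugate ENNReal NNReal

noncomputable section

namespace Claimed.Open.R278

/-! ### The potential class contains the Coulomb potentials -/

theorem PotentialClass.add {v w : Space → ℝ} (hv : v ∈ PotentialClass) (hw : w ∈ PotentialClass) :
    v + w ∈ PotentialClass := by
  obtain ⟨v₁, v₂, h1, h2, rfl⟩ := hv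
  obtain ⟨w₁, w₂, h3, h4, rfl⟩ := hw
  exact ⟨v₁ + w₁, v₂ + w₂, h1.add h3, h2.add h4, by abel⟩

theorem PotentialClass.const_smul {v : Space → ℝ} (c : ℝ) (hv : v ∈ PotentialClass) :
    c • v ∈ PotentialClass := by
  obtain ⟨v₁, v₂, h1, h2, rfl⟩ := hv
  exact ⟨c • v₁, c • v₂, h1.const_smul c, h2.const_smul c, by simp⟩

theorem memLp_inv_norm_ball :
    MemLp ((Metric.ball (0 : Space) 1).indicator fun y => 1 / ‖y‖) (3 / 2) volume := by
  have hm : Measurable ((Metric.ball (0 : Space) 1).indicator fun y : Space => 1 / ‖y‖) :=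
    (measurable_const.div measurable_norm).indicator Metric.isOpen_ball.measurableSet
  have h32 : ((3 / 2 : ℝ≥0∞)).toReal = 3 / 2 := by
    rw [ENNReal.toReal_div]; norm_num
  rw [← integrable_norm_rpow_iff hm.aestronglyMeasurable (by norm_num) (by
    exact ENNReal.div_ne_top (by norm_num) (by norm_num)), h32]
  have h1 : IntegrableOn (fun y : Space => (fun t : ℝ => t ^ (-(3 / 2) : ℝ)) ‖y‖) (Metric.ball 0 1) volume := by
    refine (integrableOn_fun_norm_addHaar (E := Space) volume (f := fun t : ℝ => t ^ (-(3 / 2) : ℝ)) (r := 1)).2 ?_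
    have : Module.finrank ℝ Space = 3 := by simp
    rw [this]
    have h2 : IntegrableOn (fun t : ℝ => t ^ (1 / 2 : ℝ)) (Ioo 0 1) :=
      (intervalIntegral.integrableOn_Ioo_rpow_iff one_pos).2 (by norm_num)
    refine h2.congr_fun ?_ measurableSet_Ioo
    intro t ht
    simp only [smul_eq_mul]
    rw [← Real.rpow_natCast, ← Real.rpow_add ht.1]
    norm_num
  rw [← integrable_indicator_iff Metric.isOpen_ball.measurableSet] at h1
  refine h1.congr (Filter.Eventually.of_forall fun y => ?_)
  by_cases hy : y ∈ Metric.ball (0 : Space) 1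
  · simp only [indicator_of_mem hy]
    rw [Real.norm_eq_abs, abs_of_nonneg (by positivity), one_div, Real.inv_rpow (norm_nonneg _),
      Real.rpow_neg (norm_nonneg _)]
  · simp only [indicator_of_notMem hy]
    rw [norm_zero, Real.zero_rpow (by norm_num)]

/-- The Coulomb potential `1/|r - a|` belongs to `L^{3/2} + L^∞`. -/
theorem inv_norm_sub_mem_potentialClass (a : Space) :
    (fun r : Space => 1 / ‖r - a‖) ∈ PotentialClass := by
  refine ⟨fun r => (Metric.ball (0 : Space) 1).indicator (fun y => 1 / ‖y‖) (r - a),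
    fun r => ((Metric.ball (0 : Space) 1)ᶜ).indicator (fun y => 1 / ‖y‖) (r - a), ?_, ?_, ?_⟩
  · exact memLp_inv_norm_ball.comp_measurePreserving (measurePreserving_sub_right volume a)
  · refine memLp_top_of_bound (C := 1) ?_ ?_
    · exact (((measurable_const.div measurable_norm).indicator
        Metric.isOpen_ball.measurableSet.compl).comp (measurable_id.sub_const a)).aestronglyMeasurable
    · refine Filter.Eventually.of_forall fun r => ?_
      by_cases hy : r - a ∈ (Metric.ball (0 : Space) 1)ᶜ
      · simp only [indicator_of_mem hy]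
        have : 1 ≤ ‖r - a‖ := by simpa using hy
        rw [Real.norm_eq_abs, abs_of_nonneg (by positivity)]
        exact (div_le_one (by linarith)).2 this
      · simp only [indicator_of_notMem hy]; simp
  · funext r
    simp only [Pi.add_apply]
    exact (congrFun (indicator_self_add_compl (Metric.ball (0 : Space) 1) fun y => 1 / ‖y‖) (r - a)).symm

/-- The nuclear attraction of the theorem belongs to the potential class `𝒱`. -/
theorem nuclearPotential_mem_potentialClass (Z R : ℝ) : nuclearPotential Z R ∈ PotentialClass := by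
  have h := PotentialClass.add (PotentialClass.const_smul (-Z) (inv_norm_sub_mem_potentialClass (R • ez)))
    (PotentialClass.const_smul (-Z) (inv_norm_sub_mem_potentialClass (-(R • ez))))
  convert h using 1
  funext r
  simp only [nuclearPotential, Pi.add_apply, Pi.smul_apply, smul_eq_mul, sub_neg_eq_add]
  ring


/-- A confining potential such as `|r|` is *not* in `L^{3/2} + L^∞`. -/
theorem norm_notMem_potentialClass : (fun r : Space => ‖r‖) ∉ PotentialClass := by
  rintro ⟨v₁, v₂, h1, h2, h⟩
  set C : ℝ := (eLpNormEssSup v₂ volume).toReal with hC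
  have hfin : eLpNormEssSup v₂ volume ≠ ⊤ := by
    have := h2.2
    rw [eLpNorm_exponent_top] at this
    exact this.ne
  have hb : ∀ᵐ r : Space, |v₂ r| ≤ C := by
    filter_upwards [ae_le_eLpNormEssSup (f := v₂) (μ := volume)] with r hr
    have := (ENNReal.toReal_le_toReal (by simp) hfin).2 hr
    simpa using this
  have hlt : volume {r : Space | (1 : ℝ≥0) ≤ ‖v₁ r‖₊} < ⊤ :=
    h1.meas_ge_lt_top (by norm_num) (ENNReal.div_ne_top (by norm_num) (by norm_num)) one_ne_zero
  have hsub : (Metric.closedBall (0 : Space) (C + 1))ᶜ ≤ᵐ[volume] {r : Space | (1 : ℝ≥0) ≤ ‖v₁ r‖₊} := by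
    filter_upwards [hb] with r hr hmem
    have h3 : C + 1 < ‖r‖ := by
      have : r ∉ Metric.closedBall (0 : Space) (C + 1) := hmem
      simpa using this
    have h4 : ‖r‖ = v₁ r + v₂ r := congrFun h r
    have h5 : 1 ≤ |v₁ r| := by
      have := abs_le.mp hr
      have h6 : 1 ≤ v₁ r := by linarith [this.2]
      exact h6.trans (le_abs_self _)
    show (1 : ℝ≥0) ≤ ‖v₁ r‖₊
    rw [← NNReal.coe_le_coe]
    simpa using h5
  have hinf : volume ((Metric.closedBall (0 : Space) (C + 1))ᶜ) = ⊤ := by
    rw [measure_compl Metric.isClosed_closedBall.measurableSet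
      (isCompact_closedBall _ _).measure_lt_top.ne, measure_univ_of_isAddLeftInvariant]
    exact ENNReal.top_sub (isCompact_closedBall _ _).measure_lt_top.ne
  have := measure_mono_ae hsub
  exact absurd hlt (not_lt.mpr (hinf ▸ this))

/-! ### Classical `C¹_c` functions are in `H¹`, with their classical gradient -/

section Smooth

variable {F : (Config 3) → (SpinSpace 3)}

theorem memLp_of_contDiff (hF : ContDiff ℝ 1 F) (hc : HasCompactSupport F) : MemLp F 2 volume :=
  hF.continuous.memLp_of_hasCompactSupport hc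

theorem continuous_fderiv_apply (hF : ContDiff ℝ 1 F) (v : (Config 3)) :
    Continuous (fun x => fderiv ℝ F x v) :=
  (hF.continuous_fderiv (by simp)).clm_apply continuous_const

theorem memLp_fderiv_of_contDiff (hF : ContDiff ℝ 1 F) (hc : HasCompactSupport F) (v : (Config 3)) :
    MemLp (fun x => fderiv ℝ F x v) 2 volume :=
  (continuous_fderiv_apply hF v).memLp_of_hasCompactSupport (hc.fderiv_apply (𝕜 := ℝ) v)

/-- A `C¹` function with compact support lies in `H¹`; its weak gradient is the classical one. -/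
theorem isWeakGradient_of_contDiff (hF : ContDiff ℝ 1 F) (hc : HasCompactSupport F) :
    IsWeakGradient ((memLp_of_contDiff hF hc).toLp F)
      (fun j => (memLp_fderiv_of_contDiff hF hc (dir j)).toLp _) := by
  intro j φ hφ hφc
  have hFd : Differentiable ℝ F := hF.differentiable (by simp)
  have hφd : Differentiable ℝ φ := hφ.differentiable (by simp)
  have hd := continuous_fderiv_dir hφ (dir j)
  have h1 : Integrable (fun x => fderiv ℝ φ x (dir j) • F x) :=
    (hd.smul hF.continuous).integrable_of_hasCompactSupport (hc.smul_left)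
  have h2 : Integrable (fun x => φ x • fderiv ℝ F x (dir j)) :=
    (hφ.continuous.smul (continuous_fderiv_apply hF _)).integrable_of_hasCompactSupport
      (hφc.smul_right)
  have h3 : Integrable (fun x => φ x • F x) :=
    (hφ.continuous.smul hF.continuous).integrable_of_hasCompactSupport (hc.smul_left)
  have key := integral_smul_fderiv_eq_neg_fderiv_smul_of_integrable (μ := (volume : Measure (Config 3)))
    (v := dir j) h1 h2 h3 (fun x _ => hφd x) (fun x _ => hFd x)
  have e1 : ∫ x, fderiv ℝ φ x (dir j) • ((memLp_of_contDiff hF hc).toLp F) x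
      = ∫ x, fderiv ℝ φ x (dir j) • F x := by
    apply integral_congr_ae
    filter_upwards [(memLp_of_contDiff hF hc).coeFn_toLp] with x hx
    rw [hx]
  have e2 : ∫ x, φ x • ((memLp_fderiv_of_contDiff hF hc (dir j)).toLp _) x
      = ∫ x, φ x • fderiv ℝ F x (dir j) := by
    apply integral_congr_ae
    filter_upwards [(memLp_fderiv_of_contDiff hF hc (dir j)).coeFn_toLp] with x hx
    rw [hx]
  rw [e1, e2, key, neg_neg]

end Smooth

/-! ### A Slater determinant in the form domain of the Coulomb Hamiltonian -/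

/-- Three centres `(1,0,0), (2,0,0), (3,0,0)`, away from the axis that carries the nuclei. -/
def ctr (k : Fin 3) : Space := EuclideanSpace.single 0 ((k : ℝ) + 1)

/-- Smooth bumps of radius `1/4` around the three centres. -/
def bump (k : Fin 3) : ContDiffBump (ctr k) := ⟨1 / 8, 1 / 4, by norm_num, by norm_num⟩

/-- The spins `↑, ↓, ↑` of the three spin orbitals. -/
def spinOf : Fin 3 → Fin 2 := ![0, 1, 0]

/-- The three spin orbitals. -/
def orb (k : Fin 3) (r : Space) (σ : Fin 2) : ℂ := (bump k r : ℂ) * (if σ = spinOf k then 1 else 0)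

/-- The Slater determinant of the three spin orbitals. -/
def slaterFun (x : (Config 3)) : (SpinSpace 3) :=
  WithLp.toLp 2 fun s => (Matrix.of fun i k => orb k (x i) (s i)).det

theorem slaterFun_apply (x : (Config 3)) (s : (SpinConfig 3)) :
    slaterFun x s = (Matrix.of fun i k => orb k (x i) (s i)).det := rfl

theorem contDiff_slaterFun : ContDiff ℝ 1 slaterFun := by
  rw [contDiff_piLp]
  intro s
  simp only [slaterFun_apply, Matrix.det_apply]
  refine ContDiff.sum fun π _ => ?_
  refine ContDiff.const_smul _ ?_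
  refine contDiff_prod fun i _ => ?_
  simp only [Matrix.of_apply, orb]
  refine ContDiff.mul ?_ contDiff_const
  exact Complex.ofRealCLM.contDiff.comp
    (((bump i).contDiff (n := 1)).comp (contDiff_apply ℝ Space (π i)))

theorem slaterFun_perm (τ : Equiv.Perm (Fin 3)) (x : (Config 3)) (s : (SpinConfig 3)) :
    slaterFun (x ∘ τ) (s ∘ τ) = ((Equiv.Perm.sign τ : ℤ) : ℂ) * slaterFun x s := by
  rw [slaterFun_apply, slaterFun_apply, ← Matrix.det_permute]
  rfl

/-- If the determinant does not vanish, the electrons sit in the three bumps, in some order, with the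
matching spins. -/
theorem exists_perm_of_slaterFun_ne_zero {x : (Config 3)} {s : (SpinConfig 3)} (h : slaterFun x s ≠ 0) :
    ∃ π : Equiv.Perm (Fin 3), ∀ i, x (π i) ∈ Metric.ball (ctr i) (1 / 4) ∧ s (π i) = spinOf i := by
  rw [slaterFun_apply, Matrix.det_apply] at h
  obtain ⟨π, -, hπ⟩ := Finset.exists_ne_zero_of_sum_ne_zero h
  refine ⟨π, fun i => ?_⟩
  have h1 : ∏ i, (Matrix.of fun i k => orb k (x i) (s i)) (π i) i ≠ 0 := by
    intro h0; apply hπ; rw [h0, smul_zero]
  have h2 := Finset.prod_ne_zero_iff.mp h1 i (Finset.mem_univ i)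
  simp only [Matrix.of_apply, orb] at h2
  constructor
  · have h3 : (bump i) (x (π i)) ≠ 0 := by
      intro h0; apply h2; rw [h0]; simp
    have := (bump i).support_eq
    have h4 : x (π i) ∈ Function.support (bump i) := h3
    rw [this] at h4
    exact h4
  · by_contra h0
    apply h2; simp [h0]


theorem coord_mem {i : Fin 3} {r : Space} (h : r ∈ Metric.ball (ctr i) (1 / 4)) :
    |r 0 - ((i : ℝ) + 1)| < 1 / 4 := by
  have h1 : ‖(r - ctr i) 0‖ ≤ ‖r - ctr i‖ := PiLp.norm_apply_le _ _
  have h2 : ‖r - ctr i‖ < 1 / 4 := by simpa [dist_eq_norm] using h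
  have h3 : (r - ctr i) 0 = r 0 - ((i : ℝ) + 1) := by simp [ctr]
  rw [h3, Real.norm_eq_abs] at h1
  linarith

theorem norm_le_of_mem {i : Fin 3} {r : Space} (h : r ∈ Metric.ball (ctr i) (1 / 4)) : ‖r‖ ≤ 4 := by
  have h2 : ‖r - ctr i‖ < 1 / 4 := by simpa [dist_eq_norm] using h
  have h3 : ‖ctr i‖ ≤ 3 := by
    have : (i : ℝ) ≤ 2 := by
      have := i.2
      have h' : (i : ℕ) ≤ 2 := by omega
      exact_mod_cast h'
    rw [ctr, EuclideanSpace.single, PiLp.norm_single, Real.norm_eq_abs,
      abs_of_nonneg (by positivity)]; linarith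
  calc ‖r‖ = ‖(r - ctr i) + ctr i‖ := by rw [sub_add_cancel]
    _ ≤ ‖r - ctr i‖ + ‖ctr i‖ := norm_add_le _ _
    _ ≤ 4 := by linarith

theorem exists_perm_of_slaterFun_ne_zero' {x : (Config 3)} (h : slaterFun x ≠ 0) :
    ∃ π : Equiv.Perm (Fin 3), ∀ i, x (π i) ∈ Metric.ball (ctr i) (1 / 4) := by
  have : ∃ s, slaterFun x s ≠ 0 := by
    by_contra h0
    push Not at h0
    apply h
    ext s
    exact h0 s
  obtain ⟨s, hs⟩ := this
  obtain ⟨π, hπ⟩ := exists_perm_of_slaterFun_ne_zero hs
  exact ⟨π, fun i => (hπ i).1⟩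

theorem hasCompactSupport_slaterFun : HasCompactSupport slaterFun := by
  refine HasCompactSupport.intro
    (K := Set.univ.pi fun _ : Fin 3 => Metric.closedBall (0 : Space) 4)
    (isCompact_univ_pi fun _ => isCompact_closedBall _ _) ?_
  intro x hx
  by_contra h
  obtain ⟨π, hπ⟩ := exists_perm_of_slaterFun_ne_zero' h
  apply hx
  intro j _
  have := norm_le_of_mem (hπ (π.symm j))
  simpa using this

theorem slaterFun_ctr : slaterFun ctr spinOf = 1 := by
  rw [slaterFun_apply]
  have : (Matrix.of fun i k => orb k (ctr i) (spinOf i)) = (1 : Matrix (Fin 3) (Fin 3) ℂ) := by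
    ext i k
    by_cases hik : i = k
    · subst hik
      simp [orb, (bump i).one_of_mem_closedBall (x := ctr i) (by simp [bump])]
    · have h0 : (bump k) (ctr i) = 0 := by
        apply (bump k).zero_of_le_dist
        have : dist (ctr i) (ctr k) = |(i : ℝ) - k| := by
          rw [ctr, ctr, EuclideanSpace.single, EuclideanSpace.single, PiLp.dist_single_same, Real.dist_eq]
          congr 1; ring
        rw [this]
        have h1 : (1 : ℝ) ≤ |(i : ℝ) - k| := by
          have h2 : (i : ℤ) - k ≠ 0 := by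
            intro h; apply hik; ext; omega
          have h3 : (1 : ℤ) ≤ |(i : ℤ) - k| := Int.one_le_abs h2
          exact_mod_cast h3
        simp only [bump]; linarith
      simp [orb, h0, Matrix.one_apply_ne hik]
  rw [this, Matrix.det_one]

/-- The Slater determinant as an element of `(L2 3)`. -/
def slater : (L2 3) := (memLp_of_contDiff contDiff_slaterFun hasCompactSupport_slaterFun).toLp slaterFun

theorem coeFn_slater : (slater : (Config 3) → (SpinSpace 3)) =ᵐ[volume] slaterFun :=
  (memLp_of_contDiff contDiff_slaterFun hasCompactSupport_slaterFun).coeFn_toLp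

theorem slater_ne_zero : slater ≠ 0 := by
  intro h
  have h1 : slaterFun =ᵐ[volume] (fun _ => (0 : (SpinSpace 3))) := by
    have h0 : ∀ᵐ x : (Config 3), (0 : (L2 3)) x = 0 := Lp.coeFn_zero _ _ _
    rw [← h] at h0
    filter_upwards [coeFn_slater, h0] with x hx hx0
    rw [← hx, hx0]
  have h2 := (contDiff_slaterFun.continuous.ae_eq_iff_eq volume continuous_const).1 h1
  have h3 := slaterFun_ctr
  rw [h2] at h3
  simp at h3

theorem isAntisymmetric_slater : IsAntisymmetric slater := by
  intro π
  have h1 := (measurePreserving_comp_perm π).quasiMeasurePreserving.ae coeFn_slater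
  filter_upwards [coeFn_slater, h1] with x hx hx1 s
  rw [hx, hx1, slaterFun_perm]

theorem spinZ_spinOf : spinZ spinOf = 1 / 2 := by
  simp [spinZ, spinOf, Fin.sum_univ_three]

theorem inSpinSector_slater : InSpinSector (1 / 2) slater := by
  filter_upwards [coeFn_slater] with x hx s hs
  rw [hx]
  by_contra h
  obtain ⟨π, hπ⟩ := exists_perm_of_slaterFun_ne_zero h
  apply hs
  rw [← spinZ_spinOf]
  unfold spinZ
  rw [← Equiv.sum_comp π]
  exact Finset.sum_congr rfl fun i _ => by rw [(hπ i).2]

theorem memH1_slater : MemH1 slater :=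
  ⟨_, isWeakGradient_of_contDiff contDiff_slaterFun hasCompactSupport_slaterFun⟩

theorem measurable_nuclearPotential (Z R : ℝ) : Measurable (nuclearPotential Z R) := by
  unfold nuclearPotential
  fun_prop

/-- For three electrons the repulsion is the sum over the three pairs. -/
theorem repulsion_three (x : Config 3) :
    repulsion x = 1 / ‖x 0 - x 1‖ + 1 / ‖x 0 - x 2‖ + 1 / ‖x 1 - x 2‖ := by
  simp [repulsion, Fin.sum_univ_three]

/-- For two electrons the repulsion is the single pair term. -/
theorem repulsion_two (x : Config 2) : repulsion x = 1 / ‖x 0 - x 1‖ := by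
  simp [repulsion, Fin.sum_univ_two]

theorem measurable_coulombPotential (Z R : ℝ) : Measurable (coulombPotential Z R) := by
  have e : coulombPotential Z R = fun x : Config 3 => (∑ i, nuclearPotential Z R (x i))
      + (1 / ‖x 0 - x 1‖ + 1 / ‖x 0 - x 2‖ + 1 / ‖x 1 - x 2‖) := by
    funext x
    rw [coulombPotential, repulsion_three, oneBodyPotential]
  rw [e]
  have := measurable_nuclearPotential Z R
  fun_prop

/-- On the support of the Slater determinant the Coulomb potential is bounded. -/
theorem abs_coulombPotential_le (Z R : ℝ) {x : (Config 3)} (h : slaterFun x ≠ 0) :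
    |coulombPotential Z R x| ≤ 8 * |Z| + 6 := by
  obtain ⟨π, hπ⟩ := exists_perm_of_slaterFun_ne_zero' h
  have hc : ∀ i, |x (π i) 0 - ((i : ℝ) + 1)| < 1 / 4 := fun i => coord_mem (hπ i)
  have hez : ∀ c : ℝ, (c • ez) 0 = 0 := by intro c; simp [ez]
  -- distance to the nuclei
  have hn : ∀ (j : Fin 3) (c : ℝ), 3 / 4 ≤ ‖x j - c • ez‖ := by
    intro j c
    have h1 : ‖(x j - c • ez) 0‖ ≤ ‖x j - c • ez‖ := PiLp.norm_apply_le _ _
    have h2 : (x j - c • ez) 0 = x j 0 := by rw [PiLp.sub_apply, hez]; simp
    rw [h2, Real.norm_eq_abs] at h1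
    have h3 := hc (π.symm j)
    rw [Equiv.apply_symm_apply] at h3
    have h4 : (0 : ℝ) ≤ ((π.symm j : Fin 3) : ℝ) := by positivity
    have h5 := abs_lt.mp h3
    have h6 : 3 / 4 ≤ x j 0 := by linarith [h5.1]
    exact h6.trans ((le_abs_self _).trans h1)
  -- distance between two electrons
  have he : ∀ j l : Fin 3, j ≠ l → 1 / 2 ≤ ‖x j - x l‖ := by
    intro j l hjl
    have h1 : ‖(x j - x l) 0‖ ≤ ‖x j - x l‖ := PiLp.norm_apply_le _ _
    rw [PiLp.sub_apply, Real.norm_eq_abs] at h1
    have h3 := hc (π.symm j)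
    have h4 := hc (π.symm l)
    rw [Equiv.apply_symm_apply] at h3 h4
    have hne : π.symm j ≠ π.symm l := fun h => hjl (π.symm.injective h)
    have h5 : (1 : ℝ) ≤ |((π.symm j : Fin 3) : ℝ) - ((π.symm l : Fin 3) : ℝ)| := by
      have h2 : ((π.symm j : Fin 3) : ℤ) - ((π.symm l : Fin 3) : ℤ) ≠ 0 := by
        intro h; apply hne; ext; omega
      have h3 : (1 : ℤ) ≤ |((π.symm j : Fin 3) : ℤ) - ((π.symm l : Fin 3) : ℤ)| := Int.one_le_abs h2
      exact_mod_cast h3
    have h6 : |((π.symm j : Fin 3) : ℝ) - ((π.symm l : Fin 3) : ℝ)|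
        ≤ |x j 0 - x l 0| + 1 / 2 := by
      have e : ((π.symm j : Fin 3) : ℝ) - ((π.symm l : Fin 3) : ℝ)
          = (x j 0 - x l 0) - (x j 0 - (((π.symm j : Fin 3) : ℝ) + 1))
            + (x l 0 - (((π.symm l : Fin 3) : ℝ) + 1)) := by ring
      rw [e]
      calc _ ≤ |(x j 0 - x l 0) - (x j 0 - (((π.symm j : Fin 3) : ℝ) + 1))|
              + |x l 0 - (((π.symm l : Fin 3) : ℝ) + 1)| := abs_add_le _ _
        _ ≤ |x j 0 - x l 0| + |x j 0 - (((π.symm j : Fin 3) : ℝ) + 1)|
              + |x l 0 - (((π.symm l : Fin 3) : ℝ) + 1)| := by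
            gcongr; exact abs_sub _ _
        _ ≤ _ := by linarith
    linarith
  have hnuc : ∀ j, |nuclearPotential Z R (x j)| ≤ 8 / 3 * |Z| := by
    intro j
    have h1 := hn j R
    have h2 := hn j (-R)
    rw [neg_smul, sub_neg_eq_add] at h2
    have b1 : |Z / ‖x j - R • ez‖| ≤ 4 / 3 * |Z| := by
      rw [abs_div, abs_of_nonneg (norm_nonneg _), div_le_iff₀ (by linarith)]
      nlinarith [abs_nonneg Z]
    have b2 : |Z / ‖x j + R • ez‖| ≤ 4 / 3 * |Z| := by
      rw [abs_div, abs_of_nonneg (norm_nonneg _), div_le_iff₀ (by linarith)]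
      nlinarith [abs_nonneg Z]
    unfold nuclearPotential
    calc |-(Z / ‖x j - R • ez‖) - Z / ‖x j + R • ez‖|
        ≤ |-(Z / ‖x j - R • ez‖)| + |Z / ‖x j + R • ez‖| := abs_sub _ _
      _ ≤ 8 / 3 * |Z| := by rw [abs_neg]; linarith
  have hrep : ∀ j l : Fin 3, j ≠ l → |1 / ‖x j - x l‖| ≤ 2 := by
    intro j l hjl
    have := he j l hjl
    rw [abs_of_nonneg (by positivity), div_le_iff₀ (by linarith)]
    linarith
  rw [coulombPotential, repulsion_three, oneBodyPotential, Fin.sum_univ_three]
  have a0 := hnuc 0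
  have a1 := hnuc 1
  have a2 := hnuc 2
  have r01 := hrep 0 1 (by decide)
  have r02 := hrep 0 2 (by decide)
  have r12 := hrep 1 2 (by decide)
  rw [abs_le] at a0 a1 a2 r01 r02 r12 ⊢
  constructor <;> linarith [a0.1, a0.2, a1.1, a1.2, a2.1, a2.2, r01.1, r01.2, r02.1, r02.2, r12.1, r12.2]

theorem slater_mem_formDomain (Z R : ℝ) : slater ∈ FormDomain (coulombPotential Z R) := by
  refine ⟨isAntisymmetric_slater, memH1_slater, ?_⟩
  refine Integrable.mono' (g := fun x => (8 * |Z| + 6) * ‖slater x‖ ^ 2)
    ((integrable_norm_sq slater).const_mul _) ?_ ?_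
  · exact (measurable_coulombPotential Z R).aestronglyMeasurable.mul
      ((aestronglyMeasurable_coe _).norm.pow 2)
  · filter_upwards [coeFn_slater] with x hx
    rw [hx, Real.norm_eq_abs, abs_mul, abs_of_nonneg (sq_nonneg ‖slaterFun x‖)]
    by_cases h : slaterFun x = 0
    · simp [h]
    · exact mul_le_mul_of_nonneg_right (abs_coulombPotential_le Z R h) (sq_nonneg _)

/-- **The set over which the Coulomb energy is minimised is not empty**, even inside the sector
`S_z = 1/2`: there is a normalized antisymmetric `H¹` state of finite Coulomb energy. -/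
theorem exists_normalized_mem_formDomain (Z R : ℝ) :
    ∃ Φ : (L2 3), Φ ∈ FormDomain (coulombPotential Z R) ∧ ‖Φ‖ = 1 ∧ InSpinSector (1 / 2) Φ := by
  have hn : 0 < ‖slater‖ := norm_pos_iff.mpr slater_ne_zero
  refine ⟨((‖slater‖⁻¹ : ℝ) : ℂ) • slater, smul_mem_formDomain _ (slater_mem_formDomain Z R), ?_, ?_⟩
  · rw [norm_smul, Complex.norm_real, Real.norm_eq_abs, abs_of_pos (inv_pos.mpr hn)]
    field_simp
  · filter_upwards [inSpinSector_slater, Lp.coeFn_smul ((‖slater‖⁻¹ : ℝ) : ℂ) slater] with x hx hx2 s hs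
    rw [hx2, Pi.smul_apply, PiLp.smul_apply, hx s hs, smul_zero]

end Claimed.Open.R278
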