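import Claimed.Open.R278.TopDefs
import Claimed.Open.R278.Examples

/-!
# Result 278, layer L7 = Section 5 (ensemble certificate, identification of the potential): DEFINITIONS  (prefix `en` / `En`)

Sub-captain: helper6.  Target: `en_potential_identification` (`ENMain.lean`) = `potential_identification` of `Top.lean`.

NO one-particle density matrix, NO natural orbitals, NO closedness of forms.  The proof (all numbers refer to `04-ensemble.tex`):

1. `ENTrace`  : a positive operator with a trace is compact, so it has a Hilbert basis of eigenvectors.  Hence a ground-state ensemble `Γ` of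
                `H(W)` with density `n'` gives normalized `Φ k ∈ Eigenspace W E`, weights `w k > 0`, `∑ w k = 1`,
                `∫_A n' = ∑ w k ∫_A density (Φ k)`; consequently `∫ U n' = ∑ w k ∫ U density (Φ k)` whenever `U n'` is integrable.
2. `ENOrb`    : the one-body inequality (5.10) `q_V[f] ≥ d (‖f‖² - ⟨g,f⟩²/2)` for REAL `f ∈ H¹(ℝ³)` with `∫ |V| f² < ∞`;  `q_V[g] = 0`, `q_V[h] = d`.
3. `ENSlice`, `ENPauli`, `ENThree` : the three-body inequality `T[Φ] + 3 ∫ V(x₀) |Φ|² ≥ d ‖Φ‖²` for antisymmetric `Φ ∈ H¹(ℝ⁹;ℂ⁸)`: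
                slice in the variable `x₀` (16 real components), apply 2., integrate, Pauli bound `∑ᵢ (P_ĝ ⊗ 1)ᵢ ≤ 2`.
4. `ENDet`    : determinants `(u₀↑) ∧ (u₁↓) ∧ (u₂↑)` of real `H¹` orbitals: form domain, inner products, one-body forms (biorthogonal case).
5. `ENMain`   : `E ≥ d + ∫ (v - V) n` (1., 3.), `q_{H_v}[Φ_θ] = d + ∫ (v - V) n` (2., 4.), so `Φ_θ` is a ground state
                (`mem_eigenspace_iff_energy`); testing with `Ξ_φ = (ĝ↑) ∧ (φ↓) ∧ (h↑)` gives `q_v(φ, g) = e ⟨φ, g⟩`; subtract `(-Δ/2 + V) g = 0`.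
6. `ENGap`    : `EnData` from `OrbitalFacts` and `WeightedGap` (`Top.lean`): ground state representation with `ξ = φ / g`.
`ENTools` : what we need from the function space kit (FS), in the language `IsH1` of `Statement.lean`.
-/

open MeasureTheory
open scoped ContDiff InnerProductSpace ComplexConjugate ENNReal Topology

noncomputable section

namespace Claimed.Open.R278

/-! ### one-body forms -/

/-- the bilinear form `½ ∫ ∇f₁·∇f₂ + ∫ v f₁ f₂` of `-Δ/2 + v` on real functions with gradients `F₁, F₂` -/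
def enB (v : Space → ℝ) (f₁ f₂ : Space → ℝ) (F₁ F₂ : Space → Space) : ℝ :=
  (1 / 2) * (∫ x, ⟪F₁ x, F₂ x⟫_ℝ) + ∫ x, v x * (f₁ x * f₂ x)

/-- **What Section 5 uses** about the orbitals `g, h` (gradients `Gg, Gh`), the formal potential `V` and the level `d`.
The density is `n = g² + h²`. -/
structure EnData (g h V : Space → ℝ) (Gg Gh : Space → Space) (d : ℝ) : Prop where
  d_pos : 0 < d
  g_pos : ∀ x, 0 < g x
  g_cont : Continuous g
  h_cont : Continuous h
  g_h1 : IsH1 g Gg
  h_h1 : IsH1 h Gh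
  g_norm : (∫ x, g x ^ 2) = 2
  h_norm : (∫ x, h x ^ 2) = 1
  orth : (∫ x, g x * h x) = 0
  V_meas : AEStronglyMeasurable V volume
  V_loc : ∀ R : ℝ, MemLp V 2 (volume.restrict (Metric.ball 0 R))
  V_int : Integrable fun x => (g x ^ 2 + h x ^ 2) * |V x|
  /-- `(-Δ/2 + V) g = 0` weakly -/
  g_eq : ∀ φ : Space → ℝ, ContDiff ℝ 1 φ → HasCompactSupport φ →
    (1 / 2) * (∫ x, ⟪Gg x, gradient φ x⟫_ℝ) + (∫ x, V x * (g x * φ x)) = 0
  /-- `(-Δ/2 + V) h = d h` weakly -/
  h_eq : ∀ φ : Space → ℝ, ContDiff ℝ 1 φ → HasCompactSupport φ →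
    (1 / 2) * (∫ x, ⟪Gh x, gradient φ x⟫_ℝ) + (∫ x, V x * (h x * φ x)) = d * ∫ x, h x * φ x
  /-- (5.10) on `C¹_c` -/
  gap : ∀ φ : Space → ℝ, ContDiff ℝ 1 φ → HasCompactSupport φ →
    d * ((∫ x, φ x ^ 2) - (∫ x, g x * φ x) ^ 2 / 2) ≤
      (1 / 2) * (∫ x, ‖gradient φ x‖ ^ 2) + ∫ x, V x * φ x ^ 2

/-! ### real components and slices -/

/-- the 16 real components of a spin vector: `(s, 0) ↦ Re z_s`, `(s, 1) ↦ Im z_s` -/
def enCmp (c : SpinConfig 3 × Fin 2) (z : SpinSpace 3) : ℝ := if c.2 = 0 then (z c.1).re else (z c.1).im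

/-- the slice `r ↦ (component c of) Φ (x)` where `x i = r` and the other two electrons are at `y` -/
def enSl (Φ : Config 3 → SpinSpace 3) (i : Fin 3) (c : SpinConfig 3 × Fin 2) (y : Config 2) (r : Space) : ℝ :=
  enCmp c (Φ (i.insertNth r y : Config 3))

/-- the slice of the gradient with respect to electron `i` (`G a` = derivative in the direction `(i, a)`) -/
def enSlG (G : Fin 3 → Config 3 → SpinSpace 3) (i : Fin 3) (c : SpinConfig 3 × Fin 2) (y : Config 2)
    (r : Space) : Space :=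
  WithLp.toLp 2 fun a => enCmp c (G a (i.insertNth r y : Config 3))

/-! ### determinants -/

/-- the spin orbital `u k ⊗ (spin ↑, ↓, ↑ for k = 0, 1, 2)` -/
def enOrb (u : Fin 3 → Space → ℝ) (k : Fin 3) (r : Space) (σ : Fin 2) : ℂ :=
  (u k r : ℂ) * (if σ = spinOf k then 1 else 0)

/-- the normalized determinant `(u₀↑) ∧ (u₁↓) ∧ (u₂↑)` as a function -/
def enDetFun (u : Fin 3 → Space → ℝ) (x : Config 3) : SpinSpace 3 :=
  WithLp.toLp 2 fun s => ((√6 : ℝ) : ℂ)⁻¹ * (Matrix.of fun i k => enOrb u k (x i) (s i)).det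

open Classical in
/-- the normalized determinant `(u₀↑) ∧ (u₁↓) ∧ (u₂↑)` in `L2 3` (junk value `0` if the orbitals are not square integrable) -/
def enDet (u : Fin 3 → Space → ℝ) : L2 3 :=
  if h : MemLp (enDetFun u) 2 volume then h.toLp (enDetFun u) else 0

end Claimed.Open.R278
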