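import Claimed.Open.R278.ENTens

/-!
# Result 278, layer L7: determinants `(u₀↑) ∧ (u₁↓) ∧ (u₂↑)` of real `H¹` orbitals   (all PROVED)

`enDetFun u = ∑_σ enP (u ∘ σ) • enE σ`, `enE σ = (√6)⁻¹ sign σ • e_{spinOf ∘ σ}` (`Matrix.det_apply'` after transposition).  Expand; the term
`(σ, τ)` vanishes unless `σ = τ` (`en_comb`): either `spinOf ∘ σ ≠ spinOf ∘ τ`, or there are two positions `i` with `σ i ≠ τ i` (`en_perm_ne`), and at
each of them the overlap `∫ u (σ i) * u' (τ i)` vanishes by biorthogonality.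
-/

open MeasureTheory Filter
open scoped ContDiff InnerProductSpace ComplexConjugate ENNReal Topology
open Claimed.Agent

noncomputable section

namespace Claimed.Open.R278

/-! ### the constant spin vectors -/

/-- `(√6)⁻¹ sign σ • e_{spinOf ∘ σ}` -/
def enE (σ : Equiv.Perm (Fin 3)) : SpinSpace 3 :=
  (((√6 : ℝ) : ℂ)⁻¹ * ((Equiv.Perm.sign σ : ℤ) : ℂ)) • EuclideanSpace.single (fun i => spinOf (σ i)) (1 : ℂ)

theorem enE_inner_self (σ : Equiv.Perm (Fin 3)) : ⟪enE σ, enE σ⟫_ℂ = ((1 / 6 : ℝ) : ℂ) := by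
  unfold enE
  rw [inner_smul_left, inner_smul_right, EuclideanSpace.inner_single_left]
  have h6 : ((√6 : ℝ) : ℂ) * ((√6 : ℝ) : ℂ) = 6 := by
    rw [← Complex.ofReal_mul, Real.mul_self_sqrt (by norm_num)]; norm_num
  have h6' : ((√6 : ℝ) : ℂ) ≠ 0 := by
    intro h; rw [h] at h6; norm_num at h6
  have hs : ((Equiv.Perm.sign σ : ℤ) : ℂ) * ((Equiv.Perm.sign σ : ℤ) : ℂ) = 1 := by
    rcases Int.units_eq_one_or (Equiv.Perm.sign σ) with h | h <;> simp [h]
  simp only [map_mul, map_inv₀, Complex.conj_ofReal, map_intCast, map_one, PiLp.single_apply, if_true, mul_one]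
  calc ((√6 : ℝ) : ℂ)⁻¹ * ((Equiv.Perm.sign σ : ℤ) : ℂ) * (((√6 : ℝ) : ℂ)⁻¹ * ((Equiv.Perm.sign σ : ℤ) : ℂ))
      = (((√6 : ℝ) : ℂ) * ((√6 : ℝ) : ℂ))⁻¹ * (((Equiv.Perm.sign σ : ℤ) : ℂ) * ((Equiv.Perm.sign σ : ℤ) : ℂ)) := by
        rw [mul_inv]; ring
    _ = _ := by rw [h6, hs]; norm_num

theorem enE_inner_of_ne {σ τ : Equiv.Perm (Fin 3)} (h : (fun i => spinOf (σ i)) ≠ fun i => spinOf (τ i)) :
    ⟪enE σ, enE τ⟫_ℂ = 0 := by
  unfold enE
  rw [inner_smul_left, inner_smul_right, EuclideanSpace.inner_single_left]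
  simp [h]

theorem en_comb {c : Equiv.Perm (Fin 3) → Equiv.Perm (Fin 3) → ℝ}
    (hc : ∀ σ τ, σ ≠ τ → (fun i => spinOf (σ i)) = (fun i => spinOf (τ i)) → c σ τ = 0) :
    ∑ σ, ∑ τ, ((c σ τ : ℝ) : ℂ) * ⟪enE σ, enE τ⟫_ℂ = (((1 / 6) * ∑ σ, c σ σ : ℝ) : ℂ) := by
  have h1 : ∀ σ, ∑ τ, ((c σ τ : ℝ) : ℂ) * ⟪enE σ, enE τ⟫_ℂ = (((1 / 6) * c σ σ : ℝ) : ℂ) := by
    intro σ
    rw [Finset.sum_eq_single σ]
    · rw [enE_inner_self]; push_cast; ring
    · intro τ _ hτ
      by_cases hs : (fun i => spinOf (σ i)) = (fun i => spinOf (τ i))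
      · rw [hc σ τ hτ.symm hs]; simp
      · rw [enE_inner_of_ne hs]; simp
    · intro h; exact absurd (Finset.mem_univ σ) h
  simp only [h1]
  rw [Finset.mul_sum]
  push_cast
  rfl

theorem en_perm_ne {σ τ : Equiv.Perm (Fin 3)} (h : σ ≠ τ) (m : Fin 3) : ∃ i, i ≠ m ∧ σ i ≠ τ i := by
  by_contra hcon
  push Not at hcon
  apply h
  ext i
  by_cases hi : i = m
  · subst hi
    by_contra hne
    have hne' : σ i ≠ τ i := fun h => hne (by rw [h])
    have h1 : τ.symm (σ i) ≠ i := fun h => hne' ((Equiv.symm_apply_eq τ).1 h)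
    have h2 := hcon _ h1
    rw [Equiv.apply_symm_apply] at h2
    exact h1 (σ.injective h2)
  · rw [hcon i hi]

theorem en_comb_sum (A S : Fin 3 → ℝ) :
    ∑ m, (1 / 6) * ∑ σ : Equiv.Perm (Fin 3), A (σ m) * ∏ i ∈ Finset.univ.erase m, S (σ i)
      = ∑ k, A k * ∏ l ∈ Finset.univ.erase k, S l := by
  have h1 : ∀ (σ : Equiv.Perm (Fin 3)) (m : Fin 3),
      ∏ i ∈ Finset.univ.erase m, S (σ i) = ∏ l ∈ Finset.univ.erase (σ m), S l := by
    intro σ m
    have : Finset.univ.erase (σ m) = (Finset.univ.erase m).map σ.toEmbedding := by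
      rw [Finset.map_erase, Finset.map_univ_equiv]; rfl
    rw [this, Finset.prod_map]; rfl
  simp only [h1]
  rw [← Finset.mul_sum, Finset.sum_comm]
  have h2 : ∀ σ : Equiv.Perm (Fin 3), ∑ m, A (σ m) * ∏ l ∈ Finset.univ.erase (σ m), S l
      = ∑ k, A k * ∏ l ∈ Finset.univ.erase k, S l := fun σ =>
    Equiv.sum_comp σ fun k => A k * ∏ l ∈ Finset.univ.erase k, S l
  simp only [h2, Finset.sum_const, Finset.card_univ, Fintype.card_perm, Fintype.card_fin, nsmul_eq_mul]
  norm_num [Nat.factorial]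
  ring

/-! ### the determinant as a sum of tensors -/

variable {u u' : Fin 3 → Space → ℝ} {U U' : Fin 3 → Space → Space} {v : Space → ℝ}

theorem enDetFun_eq (u : Fin 3 → Space → ℝ) : enDetFun u = enSum enE (fun σ => enP fun i => u (σ i)) := by
  funext x
  ext s
  have h1 : (enDetFun u x) s = ((√6 : ℝ) : ℂ)⁻¹ * (Matrix.of fun i k => enOrb u k (x i) (s i)).det := rfl
  have h2 : (enSum enE (fun σ => enP fun i => u (σ i)) x) s
      = ∑ σ : Equiv.Perm (Fin 3), ((enP (fun i => u (σ i)) x : ℝ) : ℂ) * (enE σ) s := by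
    unfold enSum
    simp only [← Complex.coe_smul]
    simp
  rw [h1, h2, ← Matrix.det_transpose, Matrix.det_apply', Finset.mul_sum]
  refine Finset.sum_congr rfl fun σ _ => ?_
  have h3 : ∏ i, (Matrix.of fun i k => enOrb u k (x i) (s i)).transpose (σ i) i
      = ((enP (fun i => u (σ i)) x : ℝ) : ℂ) * (if s = fun i => spinOf (σ i) then 1 else 0) := by
    simp only [Matrix.transpose_apply, Matrix.of_apply, enOrb]
    rw [Finset.prod_mul_distrib, Finset.prod_ite_zero]
    simp only [enP, Complex.ofReal_prod, Finset.prod_const_one, Finset.mem_univ, forall_true_left, funext_iff]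
  have h4 : (enE σ) s = (((√6 : ℝ) : ℂ)⁻¹ * ((Equiv.Perm.sign σ : ℤ) : ℂ))
      * (if s = fun i => spinOf (σ i) then 1 else 0) := by
    unfold enE
    simp [PiLp.single_apply]
  rw [h3, h4]
  ring

theorem enDetFun_memLp (hu : ∀ k, MemLp (u k) 2 volume) : MemLp (enDetFun u) 2 volume := by
  rw [enDetFun_eq]
  exact enSum_memLp enE fun σ => enP_memLp fun i => hu (σ i)

theorem enDet_coeFn' (hu : ∀ k, MemLp (u k) 2 volume) : enDet u =ᵐ[volume] enDetFun u := by
  unfold enDet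
  rw [dif_pos (enDetFun_memLp hu)]
  exact (enDetFun_memLp hu).coeFn_toLp

theorem enDet_coeFn (hu : ∀ k, MemLp (u k) 2 volume) :
    enDet u =ᵐ[volume] enSum enE (fun σ => enP fun i => u (σ i)) := by
  rw [← enDetFun_eq]; exact enDet_coeFn' hu

theorem enDet_eq_toLp (hu : ∀ k, MemLp (u k) 2 volume) :
    enDet u = (enSum_memLp enE fun σ => enP_memLp fun i => hu (σ i)).toLp
      (enSum enE (fun σ => enP fun i => u (σ i))) := by
  apply Lp.ext
  filter_upwards [enDet_coeFn hu, (enSum_memLp enE fun σ => enP_memLp fun i => hu (σ i)).coeFn_toLp] with x h1 h2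
  rw [h1, h2]

theorem enDetFun_perm (u : Fin 3 → Space → ℝ) (τ : Equiv.Perm (Fin 3)) (x : Config 3) (s : SpinConfig 3) :
    enDetFun u (x ∘ τ) (s ∘ τ) = ((Equiv.Perm.sign τ : ℤ) : ℂ) * enDetFun u x s := by
  have h1 : ∀ (x : Config 3) (s : SpinConfig 3),
      (enDetFun u x) s = ((√6 : ℝ) : ℂ)⁻¹ * (Matrix.of fun i k => enOrb u k (x i) (s i)).det := fun _ _ => rfl
  rw [h1, h1, mul_left_comm, ← Matrix.det_permute]
  rfl

theorem enDet_isAntisymmetric (hu : ∀ k, MemLp (u k) 2 volume) : IsAntisymmetric (enDet u) := by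
  intro π
  have h1 := (measurePreserving_comp_perm π).quasiMeasurePreserving.ae (enDet_coeFn' hu)
  filter_upwards [enDet_coeFn' hu, h1] with x hx hx1 s
  rw [hx, hx1, enDetFun_perm]

/-! ### the weak gradient -/

/-- the tensors of the derivative in the direction `j = (m, a)` -/
def enQ (u : Fin 3 → Space → ℝ) (U : Fin 3 → Space → Space) (j : Fin 3 × Fin 3) (σ : Equiv.Perm (Fin 3)) :
    Config 3 → ℝ :=
  enP (Function.update (fun i => u (σ i)) j.1 (fun r => U (σ j.1) r j.2))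

theorem enQ_memLp (hu : ∀ k, IsH1 (u k) (U k)) (j : Fin 3 × Fin 3) (σ : Equiv.Perm (Fin 3)) :
    MemLp (enQ u U j σ) 2 volume :=
  enP_memLp (en_update_memLp (fun i => (hu (σ i)).1) j.1 (en_memLp_coord (hu (σ j.1)).2.1 j.2))

theorem enP_integrable_mul_test {f : Fin 3 → Space → ℝ} (hf : ∀ i, MemLp (f i) 2 volume) {ψ : Config 3 → ℝ}
    (hψ : Continuous ψ) (hc : HasCompactSupport ψ) : Integrable fun x => ψ x * enP f x :=
  ((enP_memLp hf).locallyIntegrable (by norm_num)).integrable_smul_left_of_hasCompactSupport hψ hc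

theorem enDet_isWeakGradient (hu : ∀ k, IsH1 (u k) (U k)) :
    IsWeakGradient (enDet u) (fun j => (enSum_memLp enE (enQ_memLp hu j)).toLp (enSum enE (enQ u U j))) := by
  rintro ⟨m, a⟩ φ hφ hc
  have hu2 : ∀ k, MemLp (u k) 2 volume := fun k => (hu k).1
  have e1 : ∫ x, fderiv ℝ φ x (dir (m, a)) • enDet u x
      = ∑ σ, (∫ x, fderiv ℝ φ x (dir (m, a)) * enP (fun i => u (σ i)) x) • enE σ := by
    rw [← enSum_integral_smul enE fun σ => enP_integrable_mul_test (fun i => hu2 (σ i))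
      (continuous_fderiv_dir hφ _) (hasCompactSupport_fderiv_dir hc _)]
    refine integral_congr_ae ?_
    filter_upwards [enDet_coeFn hu2] with x hx
    rw [hx]
  have e2 : ∫ x, φ x • ((enSum_memLp enE (enQ_memLp hu (m, a))).toLp (enSum enE (enQ u U (m, a))) : L2 3) x
      = ∑ σ, (∫ x, φ x * enQ u U (m, a) σ x) • enE σ := by
    have hi : ∀ σ, Integrable fun x => φ x * enQ u U (m, a) σ x := fun σ => enP_integrable_mul_test
      (en_update_memLp (fun i => hu2 (σ i)) m (en_memLp_coord (hu (σ m)).2.1 a)) hφ.continuous hc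
    rw [← enSum_integral_smul enE hi]
    refine integral_congr_ae ?_
    filter_upwards [(enSum_memLp enE (enQ_memLp hu (m, a))).coeFn_toLp] with x hx
    rw [hx]
  rw [e1, e2, ← Finset.sum_neg_distrib]
  refine Finset.sum_congr rfl fun σ _ => ?_
  rw [enP_weakDeriv (fun i => hu2 (σ i)) m (hu (σ m)).2.1 (hu (σ m)).2.2 a hφ hc, neg_smul]
  rfl

/-! ### one-body potentials -/

theorem en_integrable_pot_cross {a b : Space → ℝ} (hv : AEStronglyMeasurable v volume)
    (ha : AEStronglyMeasurable a volume) (hb : AEStronglyMeasurable b volume)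
    (h1 : Integrable fun r => v r * a r ^ 2) (h2 : Integrable fun r => v r * b r ^ 2) :
    Integrable fun r => v r * (a r * b r) := by
  refine (h1.norm.add h2.norm).mono' (hv.mul (ha.mul hb)) (ae_of_all _ fun r => ?_)
  simp only [Real.norm_eq_abs, abs_mul, abs_pow, sq_abs, Pi.add_apply]
  have h3 : |a r| * |b r| ≤ a r ^ 2 + b r ^ 2 := by
    nlinarith [sq_nonneg (|a r| - |b r|), sq_abs (a r), sq_abs (b r), abs_nonneg (a r), abs_nonneg (b r)]
  calc |v r| * (|a r| * |b r|) ≤ |v r| * (a r ^ 2 + b r ^ 2) := mul_le_mul_of_nonneg_left h3 (abs_nonneg _)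
    _ = _ := by ring

theorem enP_pot_eq (f f' : Fin 3 → Space → ℝ) (m : Fin 3) (v : Space → ℝ) (x : Config 3) :
    v (x m) * (enP f x * enP f' x)
      = enP (Function.update (fun i r => f i r * f' i r) m (fun r => v r * (f m r * f' m r))) x := by
  rw [enP_update, enP_mul, enP_erase _ m]
  ring

theorem enP_integrable_pot {f f' : Fin 3 → Space → ℝ} (hf : ∀ i, MemLp (f i) 2 volume)
    (hf' : ∀ i, MemLp (f' i) 2 volume) (m : Fin 3) (hv : Integrable fun r => v r * (f m r * f' m r)) :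
    Integrable fun x : Config 3 => v (x m) * (enP f x * enP f' x) := by
  simp only [enP_pot_eq]
  refine enP_integrable fun i => ?_
  by_cases hi : i = m
  · subst hi; rw [Function.update_self]; exact hv
  · rw [Function.update_of_ne hi]; exact R259.ws_integrable_mul (hf i) (hf' i)

theorem enP_integral_pot (f f' : Fin 3 → Space → ℝ) (m : Fin 3) (v : Space → ℝ) :
    ∫ x : Config 3, v (x m) * (enP f x * enP f' x)
      = (∫ r, v r * (f m r * f' m r)) * ∏ i ∈ Finset.univ.erase m, ∫ r, f i r * f' i r := by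
  simp only [enP_pot_eq]
  rw [enP_integral_update]

theorem enP_integral_mul (f f' : Fin 3 → Space → ℝ) :
    ∫ x : Config 3, enP f x * enP f' x = ∏ i, ∫ r, f i r * f' i r := by
  simp only [enP_mul]
  rw [enP_integral]

theorem enQ_integral_mul (u u' : Fin 3 → Space → ℝ) (U U' : Fin 3 → Space → Space) (m a : Fin 3)
    (σ τ : Equiv.Perm (Fin 3)) :
    ∫ x : Config 3, enQ u U (m, a) σ x * enQ u' U' (m, a) τ x
      = (∫ r, U (σ m) r a * U' (τ m) r a) * ∏ i ∈ Finset.univ.erase m, ∫ r, u (σ i) r * u' (τ i) r := by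
  have : ∀ x : Config 3, enQ u U (m, a) σ x * enQ u' U' (m, a) τ x
      = enP (Function.update (fun i r => u (σ i) r * u' (τ i) r) m (fun r => U (σ m) r a * U' (τ m) r a)) x := by
    intro x
    unfold enQ
    rw [enP_update, enP_update, enP_update, Finset.prod_mul_distrib]
    ring
  simp only [this]
  rw [enP_integral_update]

theorem enDet_integrable_pot (hu : ∀ k, MemLp (u k) 2 volume) (hu' : ∀ k, MemLp (u' k) 2 volume)
    (hv : AEStronglyMeasurable v volume)
    (hvu : ∀ k, Integrable fun r => v r * u k r ^ 2) (hvu' : ∀ k, Integrable fun r => v r * u' k r ^ 2) (m : Fin 3)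
    (σ τ : Equiv.Perm (Fin 3)) :
    Integrable fun x : Config 3 => v (x m) * (enP (fun i => u (σ i)) x * enP (fun i => u' (τ i)) x) :=
  enP_integrable_pot (fun i => hu (σ i)) (fun i => hu' (τ i)) m
    (en_integrable_pot_cross hv (hu _).1 (hu' _).1 (hvu _) (hvu' _))

theorem en_det_mem_formDomain (hu : ∀ k, IsH1 (u k) (U k)) (hv : AEStronglyMeasurable v volume)
    (hvu : ∀ k, Integrable fun r => v r * u k r ^ 2) : enDet u ∈ FormDomain (oneBodyPotential v) := by
  have hu2 : ∀ k, MemLp (u k) 2 volume := fun k => (hu k).1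
  refine ⟨enDet_isAntisymmetric hu2, ⟨_, enDet_isWeakGradient hu⟩, ?_⟩
  unfold oneBodyPotential
  simp only [Finset.sum_mul]
  refine integrable_finsetSum _ fun m _ => ?_
  have h1 := (enSum_integrable_weight enE (w := fun x : Config 3 => v (x m))
    (enDet_integrable_pot hu2 hu2 hv hvu hvu m)).re
  refine h1.congr ?_
  filter_upwards [enDet_coeFn hu2] with x hx
  rw [hx, inner_self_eq_norm_sq_to_K]
  simp only [RCLike.re_to_complex]
  norm_cast
  exact Complex.re_ofReal_mul _ _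

theorem en_det_inner (hu : ∀ k, MemLp (u k) 2 volume) (hu' : ∀ k, MemLp (u' k) 2 volume)
    (horth : ∀ k l, k ≠ l → spinOf k = spinOf l → (∫ r, u k r * u' l r) = 0) :
    ⟪enDet u, enDet u'⟫_ℂ = ((∏ k, ∫ r, u k r * u' k r : ℝ) : ℂ) := by
  rw [enDet_eq_toLp hu, enDet_eq_toLp hu', enSum_toLp_inner enE (fun σ => enP_memLp fun i => hu (σ i))
    (fun σ => enP_memLp fun i => hu' (σ i))]
  simp only [enP_integral_mul]
  rw [en_comb]
  · have : ∀ σ : Equiv.Perm (Fin 3), ∏ i, ∫ r, u (σ i) r * u' (σ i) r = ∏ k, ∫ r, u k r * u' k r := fun σ =>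
      Equiv.prod_comp σ fun k => ∫ r, u k r * u' k r
    simp only [this, Finset.sum_const, Finset.card_univ, Fintype.card_perm, Fintype.card_fin, nsmul_eq_mul]
    congr 1
    norm_num [Nat.factorial]
    ring
  · intro σ τ hne hs
    obtain ⟨i, -, hi⟩ := en_perm_ne hne 0
    exact Finset.prod_eq_zero (Finset.mem_univ i) (horth _ _ hi (congrFun hs i))

theorem en_integral_inner_eq_sum {F F' : Space → Space} (hF : MemLp F 2 volume) (hF' : MemLp F' 2 volume) :
    ∫ r, ⟪F r, F' r⟫_ℝ = ∑ a, ∫ r, F r a * F' r a := by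
  have : ∀ r, ⟪F r, F' r⟫_ℝ = ∑ a, F r a * F' r a := by
    intro r
    simp [PiLp.inner_apply, mul_comm]
  simp only [this]
  rw [integral_finsetSum _ fun a _ => R259.ws_integrable_mul (en_memLp_coord hF a) (en_memLp_coord hF' a)]

theorem en_det_sesq (hu : ∀ k, IsH1 (u k) (U k)) (hu' : ∀ k, IsH1 (u' k) (U' k))
    (hv : AEStronglyMeasurable v volume)
    (hvu : ∀ k, Integrable fun r => v r * u k r ^ 2) (hvu' : ∀ k, Integrable fun r => v r * u' k r ^ 2)
    (horth : ∀ k l, k ≠ l → spinOf k = spinOf l → (∫ r, u k r * u' l r) = 0) :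
    sesqForm (oneBodyPotential v) (enDet u) (enDet u') =
      ((∑ k, enB v (u k) (u' k) (U k) (U' k) * ∏ l ∈ Finset.univ.erase k, ∫ r, u l r * u' l r : ℝ) : ℂ) := by
  have hu2 : ∀ k, MemLp (u k) 2 volume := fun k => (hu k).1
  have hu2' : ∀ k, MemLp (u' k) 2 volume := fun k => (hu' k).1
  have vanish : ∀ (A : Fin 3 → Fin 3 → ℝ) (m : Fin 3) (σ τ : Equiv.Perm (Fin 3)), σ ≠ τ →
      (fun i => spinOf (σ i)) = (fun i => spinOf (τ i)) →
      A (σ m) (τ m) * ∏ i ∈ Finset.univ.erase m, ∫ r, u (σ i) r * u' (τ i) r = 0 := by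
    intro A m σ τ hne hs
    obtain ⟨i, hi, hne'⟩ := en_perm_ne hne m
    rw [Finset.prod_eq_zero (Finset.mem_erase.2 ⟨hi, Finset.mem_univ i⟩) (horth _ _ hne' (congrFun hs i)), mul_zero]
  -- the kinetic part
  have K : ∀ m a : Fin 3, ⟪((enSum_memLp enE (enQ_memLp hu (m, a))).toLp (enSum enE (enQ u U (m, a))) : L2 3),
      ((enSum_memLp enE (enQ_memLp hu' (m, a))).toLp (enSum enE (enQ u' U' (m, a))) : L2 3)⟫_ℂ
      = (((1 / 6) * ∑ σ : Equiv.Perm (Fin 3), (∫ r, U (σ m) r a * U' (σ m) r a)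
          * ∏ i ∈ Finset.univ.erase m, ∫ r, u (σ i) r * u' (σ i) r : ℝ) : ℂ) := by
    intro m a
    rw [enSum_toLp_inner enE (enQ_memLp hu (m, a)) (enQ_memLp hu' (m, a))]
    simp only [enQ_integral_mul]
    exact en_comb (vanish (fun k l => ∫ r, U k r a * U' l r a) m)
  have Ksum : ∑ j : Fin 3 × Fin 3, ⟪((enSum_memLp enE (enQ_memLp hu j)).toLp (enSum enE (enQ u U j)) : L2 3),
      ((enSum_memLp enE (enQ_memLp hu' j)).toLp (enSum enE (enQ u' U' j)) : L2 3)⟫_ℂ
      = ((∑ k, (∫ r, ⟪U k r, U' k r⟫_ℝ) * ∏ l ∈ Finset.univ.erase k, ∫ r, u l r * u' l r : ℝ) : ℂ) := by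
    rw [Fintype.sum_prod_type, Finset.sum_comm]
    simp only [K]
    simp only [← Complex.ofReal_sum]
    congr 1
    have := fun a : Fin 3 => en_comb_sum (fun k => ∫ r, U k r a * U' k r a) (fun l => ∫ r, u l r * u' l r)
    simp only [this]
    rw [Finset.sum_comm]
    refine Finset.sum_congr rfl fun k _ => ?_
    rw [en_integral_inner_eq_sum (hu k).2.1 (hu' k).2.1, Finset.sum_mul]
  -- the potential part
  have hint := fun m : Fin 3 => enDet_integrable_pot hu2 hu2' hv hvu hvu' m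
  have P : ∫ x, (oneBodyPotential v x : ℂ) * ⟪enDet u x, enDet u' x⟫_ℂ
      = ((∑ k, (∫ r, v r * (u k r * u' k r)) * ∏ l ∈ Finset.univ.erase k, ∫ r, u l r * u' l r : ℝ) : ℂ) := by
    have e1 : ∫ x, (oneBodyPotential v x : ℂ) * ⟪enDet u x, enDet u' x⟫_ℂ
        = ∫ x, ∑ m, ((v (x m) : ℝ) : ℂ) * ⟪enSum enE (fun σ => enP fun i => u (σ i)) x,
            enSum enE (fun σ => enP fun i => u' (σ i)) x⟫_ℂ := by
      refine integral_congr_ae ?_
      filter_upwards [enDet_coeFn hu2, enDet_coeFn hu2'] with x h1 h2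
      rw [h1, h2, oneBodyPotential, Complex.ofReal_sum, Finset.sum_mul]
    rw [e1, integral_finsetSum _ fun m _ => enSum_integrable_weight enE (w := fun x : Config 3 => v (x m)) (hint m)]
    have e2 : ∀ m : Fin 3, ∫ x : Config 3, ((v (x m) : ℝ) : ℂ) * ⟪enSum enE (fun σ => enP fun i => u (σ i)) x,
            enSum enE (fun σ => enP fun i => u' (σ i)) x⟫_ℂ
        = (((1 / 6) * ∑ σ : Equiv.Perm (Fin 3), (∫ r, v r * (u (σ m) r * u' (σ m) r))
          * ∏ i ∈ Finset.univ.erase m, ∫ r, u (σ i) r * u' (σ i) r : ℝ) : ℂ) := by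
      intro m
      rw [enSum_integral_weight enE (w := fun x : Config 3 => v (x m)) (hint m)]
      simp only [enP_integral_pot]
      exact en_comb (vanish (fun k l => ∫ r, v r * (u k r * u' l r)) m)
    simp only [e2]
    rw [← Complex.ofReal_sum]
    congr 1
    exact en_comb_sum (fun k => ∫ r, v r * (u k r * u' k r)) (fun l => ∫ r, u l r * u' l r)
  unfold sesqForm
  rw [(enDet_isWeakGradient hu).weakGrad_eq, (enDet_isWeakGradient hu').weakGrad_eq, Ksum, P]
  unfold enB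
  simp only [add_mul, Finset.sum_add_distrib, mul_assoc, ← Finset.mul_sum]
  push_cast
  ring

end Claimed.Open.R278
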