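import Claimed.Open.R278.ENDefs

/-!
# Result 278, layer L7: Fubini along one electron coordinate  (`x = i.insertNth r y`)
-/

open MeasureTheory
open scoped ContDiff InnerProductSpace ComplexConjugate ENNReal Topology

noncomputable section

namespace Claimed.Open.R278

variable {n : ℕ} {E : Type*} [NormedAddCommGroup E]

/-- `(y, r) ↦ x` with `x i = r`, the others at `y` -/
def enIns (n : ℕ) (i : Fin (n + 1)) : Config n × Space ≃ᵐ Config (n + 1) :=
  MeasurableEquiv.prodComm.trans (MeasurableEquiv.piFinSuccAbove (fun _ : Fin (n + 1) => Space) i).symm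

theorem enIns_apply (i : Fin (n + 1)) (p : Config n × Space) :
    enIns n i p = (i.insertNth p.2 p.1 : Config (n + 1)) := by
  simp [enIns, MeasurableEquiv.piFinSuccAbove, Fin.insertNthEquiv, MeasurableEquiv.prodComm]

theorem measurePreserving_enIns (i : Fin (n + 1)) : MeasurePreserving (enIns n i) volume volume :=
  ((volume_preserving_piFinSuccAbove (fun _ : Fin (n + 1) => Space) i).symm).comp
    (Measure.measurePreserving_swap (μ := (volume : Measure (Config n))) (ν := (volume : Measure Space)))

theorem en_integrable_comp_ins (i : Fin (n + 1)) {F : Config (n + 1) → E} (hF : Integrable F) :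
    Integrable (fun p : Config n × Space => F (i.insertNth p.2 p.1 : Config (n + 1))) (volume.prod volume) := by
  have := ((measurePreserving_enIns i).integrable_comp_emb (enIns n i).measurableEmbedding).2 hF
  rw [Measure.volume_eq_prod] at this
  simpa [Function.comp_def, enIns_apply] using this

theorem en_aesm_comp_ins (i : Fin (n + 1)) {F : Config (n + 1) → E} (hF : AEStronglyMeasurable F volume) :
    AEStronglyMeasurable (fun p : Config n × Space => F (i.insertNth p.2 p.1 : Config (n + 1)))
      (volume.prod volume) := by
  have := hF.comp_measurePreserving (measurePreserving_enIns i)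
  rw [Measure.volume_eq_prod] at this
  simpa [Function.comp_def, enIns_apply] using this

theorem en_integral_ins [NormedSpace ℝ E] (i : Fin (n + 1)) {F : Config (n + 1) → E} (hF : Integrable F) :
    ∫ x, F x = ∫ y : Config n, ∫ r : Space, F (i.insertNth r y : Config (n + 1)) := by
  have h1 : ∫ x, F x = ∫ p : Config n × Space, F (enIns n i p) :=
    ((measurePreserving_enIns i).integral_comp' F).symm
  rw [h1]
  have := integral_prod _ (en_integrable_comp_ins i hF)
  rw [← Measure.volume_eq_prod] at this
  simpa [enIns_apply] using this

theorem en_integrable_ins_ae (i : Fin (n + 1)) {F : Config (n + 1) → E} (hF : Integrable F) :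
    ∀ᵐ y : Config n, Integrable fun r : Space => F (i.insertNth r y : Config (n + 1)) :=
  (en_integrable_comp_ins i hF).prod_right_ae

theorem en_integrable_integral_ins [NormedSpace ℝ E] (i : Fin (n + 1)) {F : Config (n + 1) → E}
    (hF : Integrable F) :
    Integrable fun y : Config n => ∫ r : Space, F (i.insertNth r y : Config (n + 1)) :=
  (en_integrable_comp_ins i hF).integral_prod_left

theorem en_ae_ins (i : Fin (n + 1)) {P : Config (n + 1) → Prop} (h : ∀ᵐ x, P x) :
    ∀ᵐ y : Config n, ∀ᵐ r : Space, P (i.insertNth r y : Config (n + 1)) := by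
  have h1 : ∀ᵐ p : Config n × Space, P (enIns n i p) :=
    (measurePreserving_enIns i).quasiMeasurePreserving.ae h
  rw [Measure.volume_eq_prod] at h1
  have := Measure.ae_ae_of_ae_prod h1
  simpa [enIns_apply] using this

end Claimed.Open.R278
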