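import Claimed.Open.R278.ENOrb

/-!
# Result 278, layer L7: `EnData` from `OrbitalFacts` and `WeightedGap`  (ground state representation)

* `en_isH1_div`: quotient rule `∇(ψ/g) = ∇ψ/g - ψ ∇g/g²` for `ψ ∈ C¹_c`, `g ∈ H¹` continuous and positive (chain rule `wsg_comp` of row 259 with a
  `C¹` extension of `t ↦ 1/t` from the range of `g` on `supp ψ`, then the Leibniz rule `wsg_mul`).
* `en_weak_eq_test`: the weak equation may be tested with compactly supported `H¹` functions.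
* `en_ground_state_rep`, `enData_of_orbitalFacts`.
-/

open MeasureTheory Filter
open scoped ContDiff InnerProductSpace ComplexConjugate ENNReal Topology
open Claimed.Agent

noncomputable section

namespace Claimed.Open.R278

theorem en_weakGrad_div {g : Space → ℝ} {Gg : Space → Space} (hg : IsH1 g Gg) (hc : Continuous g) (hpos : ∀ x, 0 < g x)
    {ψ : Space → ℝ} (hψ : ContDiff ℝ 1 ψ) (hψc : HasCompactSupport ψ) :
    R259.WeakGrad (fun x => ψ x / g x) (fun x => (g x)⁻¹ • gradient ψ x - (ψ x / g x ^ 2) • Gg x) := by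
  have hne : ∀ x, g x ≠ 0 := fun x => (hpos x).ne'
  have hK : IsCompact (tsupport ψ) := hψc
  obtain ⟨B, hB⟩ := hK.exists_bound_of_continuousOn (f := fun x => (g x)⁻¹) (hc.inv₀ hne).continuousOn
  obtain ⟨M', hM'⟩ := hK.exists_bound_of_continuousOn (f := g) hc.continuousOn
  obtain ⟨c, M, hcpos, hcM, hrange⟩ : ∃ c M : ℝ, 0 < c ∧ c ≤ M ∧ ∀ x ∈ tsupport ψ, g x ∈ Set.Icc c M := by
    have hB'pos : 0 < max B 1 := lt_of_lt_of_le one_pos (le_max_right _ _)
    refine ⟨(max B 1)⁻¹, max M' (max B 1)⁻¹, inv_pos.2 hB'pos, le_max_right _ _, fun x hx => ⟨?_, ?_⟩⟩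
    · have h1 : (g x)⁻¹ ≤ max B 1 := ((le_abs_self _).trans (hB x hx)).trans (le_max_left _ _)
      exact (inv_le_comm₀ hB'pos (hpos x)).2 h1
    · exact ((le_abs_self _).trans (hM' x hx)).trans (le_max_left _ _)
  have hΘ : ContDiffOn ℝ 1 (fun t : ℝ => t⁻¹) (Set.Ioo (c - c / 2) (M + c / 2)) :=
    contDiffOn_id.inv fun t ht => by
      have h0 : c - c / 2 < t := ht.1
      have : 0 < t := by linarith
      exact this.ne'
  obtain ⟨Θ', C, h1, h2, h3⟩ := R259.ws_extend_C1' hcM (half_pos hcpos) hΘ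
  have W1 := R259.wsg_comp (en_isWeakGrad_iff.1 hg.2.2) h1 h2
  have W2 := R259.wsg_mul W1 hψ
  have hgradψ : ∀ x, x ∉ tsupport ψ → gradient ψ x = 0 := fun x hx =>
    image_eq_zero_of_notMem_tsupport fun h => hx (R259.ws_tsupport_gradient_subset ψ h)
  have e1 : ∀ x, ψ x * Θ' (g x) = ψ x / g x := by
    intro x
    by_cases hx : x ∈ tsupport ψ
    · rw [(h3 _ (hrange x hx)).1, div_eq_mul_inv]
    · simp [image_eq_zero_of_notMem_tsupport hx]
  have e2 : ∀ x, ψ x • (deriv Θ' (g x) • Gg x) + Θ' (g x) • gradient ψ x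
      = (g x)⁻¹ • gradient ψ x - (ψ x / g x ^ 2) • Gg x := by
    intro x
    by_cases hx : x ∈ tsupport ψ
    · rw [(h3 _ (hrange x hx)).1, (h3 _ (hrange x hx)).2, deriv_inv, smul_smul]
      have : ψ x * -(g x ^ 2)⁻¹ = -(ψ x / g x ^ 2) := by rw [div_eq_mul_inv]; ring
      rw [this, neg_smul]; abel
    · simp [image_eq_zero_of_notMem_tsupport hx, hgradψ x hx]
  exact R259.wsg_congr W2 (ae_of_all _ e1) (ae_of_all _ e2)

theorem en_isH1_div {g : Space → ℝ} {Gg : Space → Space} (hg : IsH1 g Gg) (hc : Continuous g) (hpos : ∀ x, 0 < g x)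
    {ψ : Space → ℝ} (hψ : ContDiff ℝ 1 ψ) (hψc : HasCompactSupport ψ) :
    IsH1 (fun x => ψ x / g x) (fun x => (g x)⁻¹ • gradient ψ x - (ψ x / g x ^ 2) • Gg x) := by
  have hne : ∀ x, g x ≠ 0 := fun x => (hpos x).ne'
  have W3 := en_weakGrad_div hg hc hpos hψ hψc
  have c1 : Continuous fun x => ψ x / g x := hψ.continuous.div hc hne
  have s1 : HasCompactSupport fun x => ψ x / g x := by
    have : HasCompactSupport fun x => ψ x * (g x)⁻¹ := HasCompactSupport.mul_right (f := ψ) (f' := fun x => (g x)⁻¹) hψc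
    simpa only [div_eq_mul_inv] using this
  have c2 : Continuous fun x => (g x)⁻¹ • gradient ψ x := (hc.inv₀ hne).smul (R259.ws_gradient_continuous hψ)
  have s2 : HasCompactSupport fun x => (g x)⁻¹ • gradient ψ x :=
    HasCompactSupport.smul_left (f := fun x => (g x)⁻¹) (f' := gradient ψ) (R259.ws_gradient_hasCompactSupport hψc)
  have c3 : Continuous fun x => ψ x / g x ^ 2 := hψ.continuous.div (hc.pow 2) fun x => pow_ne_zero 2 (hne x)
  have s3 : HasCompactSupport fun x => ψ x / g x ^ 2 := by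
    have : HasCompactSupport fun x => ψ x * (g x ^ 2)⁻¹ := HasCompactSupport.mul_right (f := ψ) (f' := fun x => (g x ^ 2)⁻¹) hψc
    simpa only [div_eq_mul_inv] using this
  obtain ⟨C3, hC3⟩ := s3.exists_bound_of_continuous c3
  have m1 : MemLp (fun x => ψ x / g x) 2 volume := c1.memLp_of_hasCompactSupport s1
  have m2 : MemLp (fun x => (g x)⁻¹ • gradient ψ x) 2 volume := c2.memLp_of_hasCompactSupport s2
  have m3 : MemLp (fun x => (ψ x / g x ^ 2) • Gg x) 2 volume := by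
    have m4 : MemLp (fun x => C3 • Gg x) 2 volume := hg.2.1.const_smul C3
    refine m4.mono (c3.aestronglyMeasurable.smul hg.2.1.1) (ae_of_all _ fun x => ?_)
    rw [norm_smul, norm_smul]
    exact mul_le_mul_of_nonneg_right ((hC3 x).trans (le_abs_self C3)) (norm_nonneg _)
  exact ⟨m1, m2.sub m3, en_isWeakGrad_iff.2 W3⟩

/-- the test function `t` vanishes outside a ball. -/
theorem en_weak_eq_test {V : Space → ℝ} (hVloc : ∀ R : ℝ, MemLp V 2 (volume.restrict (Metric.ball 0 R)))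
    {f : Space → ℝ} {F : Space → Space} {ε : ℝ} (hf : IsH1 f F)
    (heq : ∀ φ : Space → ℝ, ContDiff ℝ 1 φ → HasCompactSupport φ →
      (1 / 2) * (∫ x, ⟪F x, gradient φ x⟫_ℝ) + (∫ x, V x * (f x * φ x)) = ε * ∫ x, f x * φ x)
    {t : Space → ℝ} {T : Space → Space} (ht : IsH1 t T) {R : ℝ} (hR : ∀ x, R ≤ ‖x‖ → t x = 0 ∧ T x = 0) :
    (1 / 2) * (∫ x, ⟪F x, T x⟫_ℝ) + (∫ x, V x * (f x * t x)) = ε * ∫ x, f x * t x := by
  obtain ⟨φ, hφ, hφc, h0, h1⟩ := enH1_exists_approx ht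
  have hφ1 : ∀ n, ContDiff ℝ 1 (φ n) := fun n => (hφ n).of_le (by simp)
  have hH : ∀ n, IsH1 (φ n) (gradient (φ n)) := fun n => enH1_of_contDiff (hφ1 n) (hφc n)
  obtain ⟨k, hk⟩ := exists_nat_gt R
  set χ : Space → ℝ := R259.wsCut k with hχdef
  have hχ : ContDiff ℝ 1 χ := (R259.wsCut_contDiff k).of_le (by simp)
  have hχc : HasCompactSupport χ := R259.wsCut_hasCompactSupport k
  have hn : ∀ n, (1 / 2) * (∫ x, ⟪F x, χ x • gradient (φ n) x + φ n x • gradient χ x⟫_ℝ)
      + (∫ x, (V x * χ x) * (f x * φ n x)) = ε * ∫ x, f x * (χ x * φ n x) := by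
    intro n
    have := heq (fun x => χ x * φ n x) (hχ.mul (hφ1 n)) (hφc n).mul_left
    rw [en_gradient_mul hχ (hφ1 n)] at this
    rw [← this]
    congr 2; funext x; ring
  obtain ⟨m0, m1⟩ := enH1_mul_tendsto hχ hχc hH ht h0 h1
  have hHm : ∀ n, IsH1 (fun x => χ x * φ n x) (fun x => χ x • gradient (φ n) x + φ n x • gradient χ x) :=
    fun n => enH1_mul_contDiff (hH n) hχ hχc
  have htm := enH1_mul_contDiff ht hχ hχc
  have t1 := R259.ws_tendsto_inner (fun _ : ℕ => hf.2.1) hf.2.1 (fun n => (hHm n).2.1) htm.2.1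
    (en_const_tendsto_norm_sq F) m1
  have t2 := en_tendsto_pot (en_mul_mem_potentialClass hVloc hχ.continuous hχc) (fun _ : ℕ => hf) hf hH ht
    (en_const_tendsto_sq f) (en_const_tendsto_norm_sq F) h0 h1
  have t3 := R259.ws_tendsto_mul (fun _ : ℕ => hf.1) hf.1 (fun n => (hHm n).1) htm.1
    (en_const_tendsto_sq f) m0
  have lhs := (t1.const_mul (1 / 2)).add t2
  have rhs := t3.const_mul ε
  have key := tendsto_nhds_unique (lhs.congr hn) rhs
  have p1 : ∀ x, χ x * t x = t x := by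
    intro x
    by_cases hx : R ≤ ‖x‖
    · simp [(hR x hx).1]
    · have : ‖x‖ ≤ (k : ℝ) + 1 := by push Not at hx; linarith
      rw [hχdef, R259.wsCut_eq_one this, one_mul]
  have p2 : ∀ x, χ x • T x + t x • gradient χ x = T x := by
    intro x
    by_cases hx : R ≤ ‖x‖
    · simp [(hR x hx).1, (hR x hx).2]
    · have h' : ‖x‖ < (k : ℝ) + 1 := by push Not at hx; linarith
      rw [hχdef, R259.wsCut_eq_one h'.le, R259.wsCut_grad_zero h']; simp
  have p3 : ∀ x, V x * χ x * (f x * t x) = V x * (f x * t x) := by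
    intro x
    calc V x * χ x * (f x * t x) = V x * (f x * (χ x * t x)) := by ring
      _ = _ := by rw [p1]
  simp only [p1, p2, p3] at key
  exact key

/-- the ground state representation on `C¹_c` -/
theorem en_ground_state_rep {V : Space → ℝ} (hVloc : ∀ R : ℝ, MemLp V 2 (volume.restrict (Metric.ball 0 R)))
    {g : Space → ℝ} {Gg : Space → Space} (hg : IsH1 g Gg) (hc : Continuous g) (hpos : ∀ x, 0 < g x)
    (heq : ∀ φ : Space → ℝ, ContDiff ℝ 1 φ → HasCompactSupport φ →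
      (1 / 2) * (∫ x, ⟪Gg x, gradient φ x⟫_ℝ) + (∫ x, V x * (g x * φ x)) = 0)
    {φ : Space → ℝ} (hφ : ContDiff ℝ 1 φ) (hφc : HasCompactSupport φ) :
    Integrable (fun x => g x ^ 2 * ‖(g x)⁻¹ • gradient φ x - (φ x / g x ^ 2) • Gg x‖ ^ 2) ∧
    (1 / 2) * (∫ x, g x ^ 2 * ‖(g x)⁻¹ • gradient φ x - (φ x / g x ^ 2) • Gg x‖ ^ 2) =
      (1 / 2) * (∫ x, ‖gradient φ x‖ ^ 2) + ∫ x, V x * φ x ^ 2 := by
  have hne : ∀ x, g x ≠ 0 := fun x => (hpos x).ne'
  have hφ2 : ContDiff ℝ 1 fun x => φ x * φ x := hφ.mul hφ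
  have hφ2c : HasCompactSupport fun x => φ x * φ x := hφc.mul_left
  have hT : IsH1 (fun x => φ x * φ x / g x) (fun x => (g x)⁻¹ • (φ x • gradient φ x + φ x • gradient φ x)
      - (φ x * φ x / g x ^ 2) • Gg x) := by
    have := en_isH1_div hg hc hpos hφ2 hφ2c
    rw [en_gradient_mul hφ hφ] at this
    exact this
  obtain ⟨R, hR⟩ := hφc.isCompact.isBounded.subset_ball 0
  have hout : ∀ x, R ≤ ‖x‖ → φ x = 0 ∧ gradient φ x = 0 := by
    intro x hx
    have hx' : x ∉ tsupport φ := fun h => by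
      have := hR h
      rw [mem_ball_zero_iff] at this
      linarith
    exact ⟨image_eq_zero_of_notMem_tsupport hx',
      image_eq_zero_of_notMem_tsupport fun h => hx' (R259.ws_tsupport_gradient_subset φ h)⟩
  have key := en_weak_eq_test hVloc (ε := 0) hg (fun ζ h1 h2 => by rw [heq ζ h1 h2]; simp) hT (R := R)
    (fun x hx => by simp [(hout x hx).1])
  have iT := R259.ws_integrable_inner hg.2.1 hT.2.1
  have iφ : Integrable fun x => ‖gradient φ x‖ ^ 2 :=
    R259.ws_integrable_sq (enH1_of_contDiff hφ hφc).2.1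
  have pt : ∀ x, g x ^ 2 * ‖(g x)⁻¹ • gradient φ x - (φ x / g x ^ 2) • Gg x‖ ^ 2
      = ‖gradient φ x‖ ^ 2 - ⟪Gg x, (g x)⁻¹ • (φ x • gradient φ x + φ x • gradient φ x)
          - (φ x * φ x / g x ^ 2) • Gg x⟫_ℝ := by
    intro x
    have h1 : ‖(g x)⁻¹ • gradient φ x - (φ x / g x ^ 2) • Gg x‖ ^ 2
        = (g x)⁻¹ ^ 2 * ‖gradient φ x‖ ^ 2 - 2 * ((g x)⁻¹ * (φ x / g x ^ 2) * ⟪Gg x, gradient φ x⟫_ℝ)
          + (φ x / g x ^ 2) ^ 2 * ‖Gg x‖ ^ 2 := by
      rw [norm_sub_sq_real, norm_smul, norm_smul, real_inner_smul_left, real_inner_smul_right,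
        real_inner_comm (Gg x) (gradient φ x), Real.norm_eq_abs, Real.norm_eq_abs,
        mul_pow, mul_pow, sq_abs, sq_abs]
      ring
    have h2 : ⟪Gg x, (g x)⁻¹ • (φ x • gradient φ x + φ x • gradient φ x) - (φ x * φ x / g x ^ 2) • Gg x⟫_ℝ
        = (g x)⁻¹ * (2 * φ x * ⟪Gg x, gradient φ x⟫_ℝ) - (φ x * φ x / g x ^ 2) * ‖Gg x‖ ^ 2 := by
      rw [inner_sub_right, real_inner_smul_right, inner_add_right, real_inner_smul_right,
        real_inner_smul_right, real_inner_self_eq_norm_sq]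
      ring
    rw [h1, h2]
    have := hne x
    field_simp
    ring
  have e2 : ∀ x, V x * (g x * (φ x * φ x / g x)) = V x * φ x ^ 2 := by
    intro x
    have := hne x
    field_simp
  simp only [e2, zero_mul] at key
  simp only [pt]
  refine ⟨iφ.sub iT, ?_⟩
  rw [integral_sub iφ iT]
  linarith

theorem en_locallyIntegrable_of_L2loc {V : Space → ℝ}
    (hV : ∀ R : ℝ, MemLp V 2 (volume.restrict (Metric.ball 0 R))) : LocallyIntegrable V volume := by
  rw [locallyIntegrable_iff]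
  intro K hK
  obtain ⟨R, hR⟩ := hK.isBounded.subset_ball 0
  have : IsFiniteMeasure (volume.restrict (Metric.ball (0 : Space) R)) :=
    ⟨by rw [Measure.restrict_apply_univ]; exact measure_ball_lt_top⟩
  exact ((hV R).integrable (by norm_num)).mono_measure (Measure.restrict_mono hR le_rfl)

theorem en_orbG_sq {n θ : Space → ℝ} (hn : ∀ x, 0 < n x) (x : Space) :
    n x * Real.cos (θ x) ^ 2 = orbG n θ x ^ 2 := by
  unfold orbG
  rw [mul_pow, Real.sq_sqrt (hn x).le]

theorem en_orbG_sq_add_orbH_sq {n θ : Space → ℝ} (hn : ∀ x, 0 < n x) (x : Space) :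
    orbG n θ x ^ 2 + orbH n θ x ^ 2 = n x := by
  unfold orbG orbH
  have h1 := Real.sq_sqrt (hn x).le
  have h2 := Real.sin_sq_add_cos_sq (θ x)
  calc (√(n x) * Real.cos (θ x)) ^ 2 + (√(n x) * Real.sin (θ x)) ^ 2
      = √(n x) ^ 2 * (Real.sin (θ x) ^ 2 + Real.cos (θ x) ^ 2) := by ring
    _ = n x := by rw [h1, h2, mul_one]

theorem enData_of_orbitalFacts {n θ : Space → ℝ} {dθ : ℝ} (hn : DensityBasic n) (hdpos : 0 < dθ)
    (ho : OrbitalFacts n θ dθ) (hgap : WeightedGap n θ dθ) :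
    EnData (orbG n θ) (orbH n θ) (formalV n θ dθ) (gradient (orbG n θ)) (gradient (orbH n θ)) dθ where
  d_pos := hdpos
  g_pos := ho.g_pos
  g_cont := ho.g_cont
  h_cont := ho.h_cont
  g_h1 := ho.g_h1
  h_h1 := ho.h_h1
  g_norm := ho.g_norm
  h_norm := ho.h_norm
  orth := ho.orth
  V_meas := (en_locallyIntegrable_of_L2loc ho.V_L2loc).aestronglyMeasurable
  V_loc := ho.V_L2loc
  V_int := ho.V_int.congr (ae_of_all _ fun x => by
    simp only [en_orbG_sq_add_orbH_sq hn.pos])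
  g_eq := fun φ h1 h2 => by
    have := ho.g_eq φ h1 h2
    simpa only [mul_assoc] using this
  h_eq := fun φ h1 h2 => by
    have := ho.h_eq φ h1 h2
    simpa only [mul_assoc] using this
  gap := fun φ h1 h2 => by
    have hg_eq : ∀ φ : Space → ℝ, ContDiff ℝ 1 φ → HasCompactSupport φ →
        (1 / 2) * (∫ x, ⟪gradient (orbG n θ) x, gradient φ x⟫_ℝ)
          + (∫ x, formalV n θ dθ x * (orbG n θ x * φ x)) = 0 := fun φ h1 h2 => by
      have := ho.g_eq φ h1 h2
      simpa only [mul_assoc] using this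
    obtain ⟨iG, eG⟩ := en_ground_state_rep ho.V_L2loc ho.g_h1 ho.g_cont ho.g_pos hg_eq h1 h2
    have hdiv := en_isH1_div ho.g_h1 ho.g_cont ho.g_pos h1 h2
    have hne : ∀ x, orbG n θ x ≠ 0 := fun x => (ho.g_pos x).ne'
    have q1 : ∀ x, orbG n θ x ^ 2 * (φ x / orbG n θ x) ^ 2 = φ x ^ 2 := fun x => by
      have := hne x
      field_simp
    have q2 : ∀ x, orbG n θ x ^ 2 * (φ x / orbG n θ x) = orbG n θ x * φ x := fun x => by
      have := hne x
      field_simp
    have iφ : Integrable fun x => φ x ^ 2 :=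
      (h1.continuous.pow 2).integrable_of_hasCompactSupport (by simp only [sq]; exact h2.mul_left (f := φ))
    have := hgap _ _ hdiv.2.2 (by
      simp only [en_orbG_sq hn.pos, mul_add, q1]
      exact iφ.add iG)
    simp only [en_orbG_sq hn.pos, q1, q2, ho.g_norm] at this
    rw [eG] at this
    exact this

end Claimed.Open.R278
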