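import Claimed.Open.R278.ChargeLemmas
import Claimed.Agent.R259.WsH1
import Claimed.Agent.R259.WsLim

/-!
# Result 278, layer L7: `H¹(ℝ³)` in the language `IsH1` of `Statement.lean`, on top of the (sorry-free) scalar kit `Ws*` of row 259

Everything here is PROVED.  Bridge `en_isWeakGrad_iff`, `en_isH1_iff`; algebra; Leibniz rule with a `C¹_c` factor; cutoffs; density; closedness.
All names carry the prefix `en` (the kit FS has its own versions).
-/

open MeasureTheory Filter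
open scoped ContDiff InnerProductSpace ENNReal Topology NNReal
open Claimed.Agent

noncomputable section

namespace Claimed.Open.R278

variable {f f₁ f₂ : Space → ℝ} {F F₁ F₂ : Space → Space}

/-! ### the bridge -/

theorem en_isWeakGrad_iff : IsWeakGrad f F ↔ R259.WeakGrad f F := by
  constructor
  · rintro ⟨h1, h2, h3⟩
    refine ⟨h1, h2, fun ζ hζ => ?_⟩
    refine R259.ws_vec_of_dir h1 h2 (hζ.1.of_le (by simp)) hζ.2 fun v => ?_
    rw [h3 ζ hζ.1 hζ.2 v]
    simp only [mul_comm]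
  · intro h
    refine ⟨h.1, h.2.1, fun φ hφ hc v => ?_⟩
    rw [R259.ws_weakGrad_dir h ⟨hφ, hc⟩ v]
    simp only [mul_comm]

theorem en_dm_one : R259.dm (fun _ : Space => (1 : ℝ)) = volume := by
  simp [R259.dm]

theorem en_isH1_iff : IsH1 f F ↔ R259.H1 volume f F := by
  unfold IsH1 R259.H1
  rw [en_isWeakGrad_iff]
  tauto

theorem en_isH1_iff' : IsH1 f F ↔ R259.H1 (R259.dm (fun _ : Space => (1 : ℝ))) f F := by
  rw [en_dm_one]; exact en_isH1_iff

/-! ### algebra -/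

theorem enH1_of_contDiff {φ : Space → ℝ} (hφ : ContDiff ℝ 1 φ) (hc : HasCompactSupport φ) :
    IsH1 φ (gradient φ) :=
  ⟨hφ.continuous.memLp_of_hasCompactSupport hc,
    (R259.ws_gradient_continuous hφ).memLp_of_hasCompactSupport (R259.ws_gradient_hasCompactSupport hc),
    isWeakGrad_gradient hφ⟩

theorem enH1_add (h₁ : IsH1 f₁ F₁) (h₂ : IsH1 f₂ F₂) :
    IsH1 (fun x => f₁ x + f₂ x) (fun x => F₁ x + F₂ x) :=
  ⟨h₁.1.add h₂.1, h₁.2.1.add h₂.2.1,
    en_isWeakGrad_iff.2 (R259.wsg_add (en_isWeakGrad_iff.1 h₁.2.2) (en_isWeakGrad_iff.1 h₂.2.2))⟩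

theorem enH1_const_mul (c : ℝ) (h : IsH1 f F) : IsH1 (fun x => c * f x) (fun x => c • F x) :=
  ⟨h.1.const_mul c, h.2.1.const_smul c, en_isWeakGrad_iff.2 (R259.wsg_smul c (en_isWeakGrad_iff.1 h.2.2))⟩

theorem enH1_sub (h₁ : IsH1 f₁ F₁) (h₂ : IsH1 f₂ F₂) :
    IsH1 (fun x => f₁ x - f₂ x) (fun x => F₁ x - F₂ x) :=
  ⟨h₁.1.sub h₂.1, h₁.2.1.sub h₂.2.1,
    en_isWeakGrad_iff.2 (R259.wsg_sub (en_isWeakGrad_iff.1 h₁.2.2) (en_isWeakGrad_iff.1 h₂.2.2))⟩

theorem enH1_congr {f' : Space → ℝ} {F' : Space → Space} (h : IsH1 f F) (hf : f =ᵐ[volume] f')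
    (hF : F =ᵐ[volume] F') : IsH1 f' F' :=
  ⟨h.1.ae_eq hf, h.2.1.ae_eq hF, en_isWeakGrad_iff.2 (R259.wsg_congr (en_isWeakGrad_iff.1 h.2.2) hf hF)⟩

/-- Leibniz rule with a `C¹_c` factor; only `IsWeakGrad` and local square integrability are needed, here for `H¹`. -/
theorem enH1_mul_contDiff (h : IsH1 f F) {χ : Space → ℝ} (hχ : ContDiff ℝ 1 χ) (hc : HasCompactSupport χ) :
    IsH1 (fun x => χ x * f x) (fun x => χ x • F x + f x • gradient χ x) := by
  have hg := R259.ws_gradient_continuous hχ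
  have hgc := R259.ws_gradient_hasCompactSupport hc
  obtain ⟨C, hC⟩ := hc.exists_bound_of_continuous hχ.continuous
  obtain ⟨C', hC'⟩ := hgc.exists_bound_of_continuous hg
  refine ⟨?_, MemLp.add ?_ ?_, en_isWeakGrad_iff.2 (R259.wsg_mul (en_isWeakGrad_iff.1 h.2.2) hχ)⟩
  · refine (h.1.const_mul C).mono (hχ.continuous.aestronglyMeasurable.mul h.1.1) (ae_of_all _ fun x => ?_)
    rw [norm_mul, norm_mul]
    exact mul_le_mul_of_nonneg_right ((hC x).trans (le_abs_self C)) (norm_nonneg _)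
  · refine (h.2.1.const_smul C).mono (hχ.continuous.aestronglyMeasurable.smul h.2.1.1) (ae_of_all _ fun x => ?_)
    simp only [Pi.smul_apply]
    rw [norm_smul, norm_smul]
    exact mul_le_mul_of_nonneg_right ((hC x).trans (le_abs_self C)) (norm_nonneg _)
  · refine (h.1.const_mul C').mono (h.1.1.smul hg.aestronglyMeasurable) (ae_of_all _ fun x => ?_)
    rw [norm_smul, norm_mul, mul_comm]
    exact mul_le_mul_of_nonneg_right ((hC' x).trans (le_abs_self C')) (norm_nonneg _)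

/-! ### density, closedness, cutoffs -/

/-- density of `C^∞_c` -/
theorem enH1_exists_approx (h : IsH1 f F) :
    ∃ φ : ℕ → Space → ℝ, (∀ n, ContDiff ℝ ∞ (φ n)) ∧ (∀ n, HasCompactSupport (φ n)) ∧
      Tendsto (fun n => ∫ x, (φ n x - f x) ^ 2) atTop (𝓝 0) ∧
      Tendsto (fun n => ∫ x, ‖gradient (φ n) x - F x‖ ^ 2) atTop (𝓝 0) := by
  obtain ⟨φ, h1, -, -, h4, h5⟩ := R259.wsh_dense (η := fun _ : Space => (1 : ℝ)) continuous_const
    (fun _ => one_pos) (en_isH1_iff'.1 h)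
  rw [en_dm_one] at h4 h5
  exact ⟨φ, fun n => (h1 n).1, fun n => (h1 n).2, h4, h5⟩

/-- closedness of the graph of the gradient -/
theorem enH1_of_tendsto {fn : ℕ → Space → ℝ} {Fn : ℕ → Space → Space}
    (h : ∀ n, IsH1 (fn n) (Fn n)) (hf : MemLp f 2 volume) (hF : MemLp F 2 volume)
    (h0 : Tendsto (fun n => ∫ x, (fn n x - f x) ^ 2) atTop (𝓝 0))
    (h1 : Tendsto (fun n => ∫ x, ‖Fn n x - F x‖ ^ 2) atTop (𝓝 0)) : IsH1 f F := by
  refine en_isH1_iff'.2 (R259.wsh_closed (η := fun _ : Space => (1 : ℝ)) continuous_const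
    (fun _ => one_pos) (fun k => en_isH1_iff'.1 (h k)) ?_ ?_ ?_ ?_) <;> rw [en_dm_one] <;> assumption

theorem enH1_cut (h : IsH1 f F) (k : ℕ) :
    IsH1 (fun x => R259.wsCut k x * f x) (fun x => R259.wsCut k x • F x + f x • gradient (R259.wsCut k) x) :=
  en_isH1_iff.2 (R259.wsh_cut (en_isH1_iff.1 h) k)

theorem enH1_cut_tendsto (h : IsH1 f F) :
    Tendsto (fun k => ∫ x, (R259.wsCut k x * f x - f x) ^ 2) atTop (𝓝 0) ∧
    Tendsto (fun k => ∫ x, ‖(R259.wsCut k x • F x + f x • gradient (R259.wsCut k) x) - F x‖ ^ 2) atTop (𝓝 0) := by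
  obtain ⟨h1, h2⟩ := R259.wsh_cut_tendsto (en_isH1_iff.1 h)
  exact ⟨(R259.ws_tendsto_sq_iff_real (g := fun k x => R259.wsCut k x * f x - f x)
      (fun k => (enH1_cut h k).1.sub h.1)).2 h1,
    (R259.ws_tendsto_sq_iff
      (g := fun k x => (R259.wsCut k x • F x + f x • gradient (R259.wsCut k) x) - F x)
      (fun k => (enH1_cut h k).2.1.sub h.2.1)).2 h2⟩

end Claimed.Open.R278
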