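import Claimed.Open.R278.ENDefs

/-!
# Result 278, layer L7: spectral decomposition of a ground state ensemble  (EN-TR1 .. EN-TR4: all PROVED)

* `en_isCompact_of_summable` (EN-TR1): a positive operator whose diagonal in ONE Hilbert basis is summable is compact.
  Route: `p x := √(re ⟪x, Γ x⟫)` is a continuous seminorm (Cauchy-Schwarz for the positive form), `|⟪y, Γ x⟫| ≤ p y * p x`, and for
  `x' = x - P_F x` (`P_F` = orthogonal projection on `span {b k | k ∈ F}`) `p x' ≤ ‖x‖ * √(∑_{k ∉ F} t k)`; so `Γ ∘ P_F → Γ` in norm;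
  `isCompactOperator_of_tendsto`.  (Alternative: `CFC.sqrt Γ` is Hilbert-Schmidt.)
* `en_exists_eigenbasis` (EN-TR2): Mathlib's `ContinuousLinearMap.orthogonalComplement_iSup_eigenspaces_eq_bot`, a Hilbert basis in each
  eigenspace (`exists_hilbertBasis`), `OrthogonalFamily.orthonormal_sigma_orthonormal`, `HilbertBasis.mkOfOrthogonalEqBot`.
* `en_ensemble_decomp` (EN-TR3): apply both to `Γ`; keep the indices with `w k > 0`; `occupationForm_self`,
  `integral_occupation_mul_norm_sq` (`DensityLemmas.lean`).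
* `en_integral_decomp` (EN-TR4): pure measure theory (`Measure.sum`, `withDensity`, `hasSum_integral_measure`).
-/

open MeasureTheory
open scoped ContDiff InnerProductSpace ComplexConjugate ENNReal Topology NNReal

noncomputable section

namespace Claimed.Open.R278

section Abstract

universe u

variable {H : Type u} [NormedAddCommGroup H] [InnerProductSpace ℂ H] [CompleteSpace H]

omit [CompleteSpace H] in
theorem en_parseval {ι : Type*} (b : HilbertBasis ι ℂ H) (y : H) :
    HasSum (fun k => ‖⟪b k, y⟫_ℂ‖ ^ 2) (‖y‖ ^ 2) := by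
  have h := Complex.reCLM.hasSum (b.hasSum_inner_mul_inner y y)
  have e1 : ∀ k, Complex.reCLM (⟪y, b k⟫_ℂ * ⟪b k, y⟫_ℂ) = ‖⟪b k, y⟫_ℂ‖ ^ 2 := fun k => by
    rw [← inner_conj_symm, Complex.conj_mul']
    simp [← Complex.ofReal_pow]
  have e2 : Complex.reCLM ⟪y, y⟫_ℂ = ‖y‖ ^ 2 := by
    rw [inner_self_eq_norm_sq_to_K]
    simp [← Complex.ofReal_pow]
  simp only [e1, e2] at h
  exact h

theorem en_isCompact_of_hilbertSchmidt {ι : Type*} (b : HilbertBasis ι ℂ H) {S : H →L[ℂ] H}
    (hS : IsSelfAdjoint S) (hs : Summable fun k => ‖S (b k)‖ ^ 2) : IsCompactOperator S := by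
  classical
  set t : ι → ℝ := fun k => ‖S (b k)‖ ^ 2 with ht
  set A : Finset ι → H →L[ℂ] H := fun F => ∑ k ∈ F, ((innerSL ℂ (b k)).comp S).smulRight (b k) with hA
  have hAx : ∀ F x, A F x = ∑ k ∈ F, ⟪b k, S x⟫_ℂ • b k := by
    intro F x
    simp [hA]
  have hAc : ∀ F, IsCompactOperator (A F) := by
    intro F
    simp only [hA]
    induction F using Finset.induction_on with
    | empty => simpa using isCompactOperator_zero
    | insert a s ha ih =>
      rw [Finset.sum_insert ha]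
      refine IsCompactOperator.add ?_ ih
      have h1 : IsCompactOperator ((innerSL ℂ (b a)).comp S) := isCompactOperator_of_locallyCompactSpace_dom _
      exact h1.clm_comp ((ContinuousLinearMap.id ℂ ℂ).smulRight (b a))
  have hsym : ∀ x y, ⟪S x, y⟫_ℂ = ⟪x, S y⟫_ℂ := fun x y => by
    have := ContinuousLinearMap.adjoint_inner_left S y x
    rw [ContinuousLinearMap.isSelfAdjoint_iff'.1 hS] at this
    exact this
  have hbound : ∀ F x, ‖S x - A F x‖ ^ 2 ≤ ((∑' k, t k) - ∑ k ∈ F, t k) * ‖x‖ ^ 2 := by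
    intro F x
    have hp := en_parseval b (S x - A F x)
    have hc : ∀ k, ⟪b k, S x - A F x⟫_ℂ = if k ∈ F then 0 else ⟪b k, S x⟫_ℂ := by
      intro k
      rw [inner_sub_right, hAx, inner_sum]
      simp only [inner_smul_right, orthonormal_iff_ite.1 b.orthonormal, mul_ite, mul_one, mul_zero]
      rw [Finset.sum_ite_eq]
      split_ifs <;> simp
    have hq : HasSum (fun k => (if k ∈ F then 0 else t k) * ‖x‖ ^ 2) (((∑' k, t k) - ∑ k ∈ F, t k) * ‖x‖ ^ 2) := by
      refine HasSum.mul_right _ ?_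
      have h1 : HasSum (fun k => if k ∈ F then t k else 0) (∑ k ∈ F, t k) := by
        have := hasSum_sum_of_ne_finset_zero (L := SummationFilter.unconditional ι)
          (f := fun k => if k ∈ F then t k else 0) (s := F) (fun k hk => by simp [hk])
        rwa [Finset.sum_congr rfl (fun k hk => by simp [hk] : ∀ k ∈ F, (if k ∈ F then t k else 0) = t k)] at this
      have h2 := hs.hasSum.sub h1
      refine h2.congr_fun fun k => ?_
      split_ifs <;> simp
    refine hasSum_le (fun k => ?_) hp hq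
    rw [hc k]
    split_ifs with hk
    · simp
    · rw [← hsym]
      have := norm_inner_le_norm (𝕜 := ℂ) (S (b k)) x
      calc ‖⟪S (b k), x⟫_ℂ‖ ^ 2 ≤ (‖S (b k)‖ * ‖x‖) ^ 2 := by gcongr
        _ = t k * ‖x‖ ^ 2 := by rw [mul_pow]
  have hnonneg : ∀ F : Finset ι, 0 ≤ (∑' k, t k) - ∑ k ∈ F, t k := fun F =>
    sub_nonneg.2 (hs.sum_le_tsum F (fun k _ => sq_nonneg _))
  have hnorm : ∀ F, ‖A F - S‖ ≤ √((∑' k, t k) - ∑ k ∈ F, t k) := by
    intro F
    refine ContinuousLinearMap.opNorm_le_bound _ (Real.sqrt_nonneg _) fun x => ?_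
    rw [_root_.sub_apply, norm_sub_rev]
    apply abs_le_of_sq_le_sq' _ (by positivity) |>.2
    rw [mul_pow, Real.sq_sqrt (hnonneg F)]
    exact hbound F x
  have hlim : Filter.Tendsto A Filter.atTop (𝓝 S) := by
    rw [tendsto_iff_norm_sub_tendsto_zero]
    have h1 : Filter.Tendsto (fun F : Finset ι => √((∑' k, t k) - ∑ k ∈ F, t k)) Filter.atTop (𝓝 0) := by
      have h2 : Filter.Tendsto (fun F : Finset ι => (∑' k, t k) - ∑ k ∈ F, t k) Filter.atTop (𝓝 ((∑' k, t k) - ∑' k, t k)) :=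
        tendsto_const_nhds.sub hs.hasSum
      rw [sub_self] at h2
      simpa using h2.sqrt
    exact squeeze_zero (fun F => norm_nonneg _) hnorm h1
  exact isCompactOperator_of_tendsto hlim (Filter.Eventually.of_forall hAc)

theorem en_isCompact_of_summable {ι : Type*} (b : HilbertBasis ι ℂ H) {Γ : H →L[ℂ] H} (hΓ : Γ.IsPositive)
    (hs : Summable fun k => ⟪b k, Γ (b k)⟫_ℂ) : IsCompactOperator Γ := by
  have h0 : 0 ≤ Γ := (ContinuousLinearMap.nonneg_iff_isPositive Γ).2 hΓ
  obtain ⟨S, hS, hSS⟩ : ∃ S : H →L[ℂ] H, IsSelfAdjoint S ∧ S * S = Γ :=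
    ⟨CFC.sqrt Γ, (CFC.sqrt_nonneg Γ).isSelfAdjoint, CFC.sqrt_mul_sqrt_self Γ h0⟩
  have hsym : ∀ x y, ⟪S x, y⟫_ℂ = ⟪x, S y⟫_ℂ := fun x y => by
    have := ContinuousLinearMap.adjoint_inner_left S y x
    rw [ContinuousLinearMap.isSelfAdjoint_iff'.1 hS] at this
    exact this
  have e : ∀ k, ⟪b k, Γ (b k)⟫_ℂ = ((‖S (b k)‖ ^ 2 : ℝ) : ℂ) := fun k => by
    rw [← hSS, show (S * S) (b k) = S (S (b k)) from rfl, ← hsym, inner_self_eq_norm_sq_to_K]
    push_cast; rfl
  simp only [e] at hs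
  have hc := en_isCompact_of_hilbertSchmidt b hS (Complex.summable_ofReal.1 hs)
  rw [← hSS]
  exact hc.comp_clm S

theorem en_exists_eigenbasis {Γ : H →L[ℂ] H} (hΓ : Γ.IsPositive) (hc : IsCompactOperator Γ) :
    ∃ (ι : Type u) (b : HilbertBasis ι ℂ H) (w : ι → ℝ), (∀ k, 0 ≤ w k) ∧ ∀ k, Γ (b k) = (w k : ℂ) • b k := by
  classical
  have hsym : (Γ : H →ₗ[ℂ] H).IsSymmetric := hΓ.isSymmetric
  set V : ℂ → Submodule ℂ H := fun μ => Module.End.eigenspace (Γ : Module.End ℂ H) μ with hV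
  have hmem : ∀ μ x, x ∈ V μ ↔ Γ x = μ • x := fun μ x => by
    simp only [hV, Module.End.mem_eigenspace_iff]; rfl
  have hclosed : ∀ μ, IsClosed (V μ : Set H) := by
    intro μ
    have : (V μ : Set H) = {x | Γ x = μ • x} := by ext x; exact hmem μ x
    rw [this]
    exact isClosed_eq Γ.continuous (continuous_const_smul μ)
  have : ∀ μ, CompleteSpace (V μ) := fun μ => (hclosed μ).completeSpace_coe
  choose W B hB using fun μ => exists_hilbertBasis ℂ (V μ)
  set v : (Σ μ : ℂ, ↥(W μ)) → H := fun a => ((B a.1 a.2 : V a.1) : H) with hv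
  have hfam : OrthogonalFamily ℂ (fun μ => V μ) (fun μ => (V μ).subtypeₗᵢ) := hsym.orthogonalFamily_eigenspaces
  have hon : Orthonormal ℂ v := hfam.orthonormal_sigma_orthonormal (fun μ => (B μ).orthonormal)
  have hbot : (Submodule.span ℂ (Set.range v))ᗮ = ⊥ := by
    rw [Submodule.eq_bot_iff]
    intro x hx
    have hxv : ∀ a, ⟪x, v a⟫_ℂ = 0 := fun a => by
      have := (Submodule.mem_orthogonal' _ _).1 hx (v a) (Submodule.subset_span ⟨a, rfl⟩)
      exact this
    have hxV : ∀ μ, x ∈ (V μ)ᗮ := by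
      intro μ
      rw [Submodule.mem_orthogonal']
      intro y hy
      have h1 := (B μ).hasSum_repr ⟨y, hy⟩
      have h2 := ((innerSL ℂ x).comp (V μ).subtypeL).hasSum h1
      have h3 : ∀ k, ((innerSL ℂ x).comp (V μ).subtypeL) (((B μ).repr ⟨y, hy⟩ : ↥(W μ) → ℂ) k • B μ k) = 0 := by
        intro k
        have := hxv ⟨μ, k⟩
        simp only [hv] at this
        simp [this]
      simp only [h3] at h2
      have h4 := h2.unique hasSum_zero
      simpa using h4
    have h5 : x ∈ (⨆ μ, V μ)ᗮ := by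
      rw [← Submodule.iInf_orthogonal]
      exact (Submodule.mem_iInf _).2 hxV
    rw [ContinuousLinearMap.orthogonalComplement_iSup_eigenspaces_eq_bot hc hsym] at h5
    exact (Submodule.mem_bot ℂ).1 h5
  refine ⟨_, HilbertBasis.mkOfOrthogonalEqBot hon hbot, fun a => a.1.re, ?_⟩
  have hcoe : ∀ a, (HilbertBasis.mkOfOrthogonalEqBot hon hbot) a = v a := fun a => by
    rw [HilbertBasis.coe_mkOfOrthogonalEqBot]
  have heig : ∀ a, Γ (v a) = a.1 • v a := fun a => (hmem a.1 _).1 (B a.1 a.2).2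
  have hre : ∀ a : (Σ μ : ℂ, ↥(W μ)), 0 ≤ a.1.re ∧ ((a.1.re : ℝ) : ℂ) = a.1 := by
    intro a
    have h1 := hΓ.inner_nonneg_right (v a)
    rw [heig a, inner_smul_right, inner_self_eq_norm_sq_to_K, hon.1 a] at h1
    simp only [Complex.coe_algebraMap, Complex.ofReal_one, one_pow, mul_one] at h1
    rw [Complex.le_def] at h1
    refine ⟨by simpa using h1.1, ?_⟩
    apply Complex.ext
    · simp
    · simpa using h1.2
  refine ⟨fun a => (hre a).1, fun a => ?_⟩
  rw [hcoe, heig a, (hre a).2]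

end Abstract

/-- EN-TR3: a ground state ensemble is a convex combination of normalized ground states, and so is its density. -/
theorem en_ensemble_decomp {W : Config 3 → ℝ} {Γ : L2 3 →L[ℂ] L2 3} {n' : Space → ℝ}
    (hΓ : IsGroundStateEnsemble W Γ) (hn : IsDensityOf Γ n') :
    ∃ E : ℝ, IsSpectrumBottom W E ∧ ∃ (ι : Type) (Φ : ι → L2 3) (w : ι → ℝ),
      (∀ k, 0 < w k) ∧ (∀ k, ‖Φ k‖ = 1) ∧ (∀ k, Φ k ∈ Eigenspace W E) ∧ HasSum w 1 ∧
      ∀ A : Set Space, MeasurableSet A →
        HasSum (fun k => w k * ∫ r in A, density (Φ k) r) (∫ r in A, n' r) := by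
  obtain ⟨hpos, htr, E, hE, hran⟩ := hΓ
  refine ⟨E, hE, ?_⟩
  obtain ⟨w₁, b₁, -⟩ := exists_hilbertBasis ℂ (L2 3)
  have hc : IsCompactOperator Γ := en_isCompact_of_summable b₁ hpos (htr _ b₁).summable
  obtain ⟨ι₀, b, w₀, hw₀, hb⟩ := en_exists_eigenbasis hpos hc
  have hnorm : ∀ k, ‖b k‖ = 1 := fun k => b.orthonormal.1 k
  have e1 : ∀ k, ⟪b k, Γ (b k)⟫_ℂ = ((w₀ k : ℝ) : ℂ) := fun k => by
    rw [hb k, inner_smul_right, inner_self_eq_norm_sq_to_K, hnorm k]; simp
  have s1 : HasSum w₀ 1 := by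
    have := htr _ b
    simp only [e1] at this
    exact (Complex.hasSum_ofReal (x := (1 : ℝ))).1 (by simpa using this)
  have hmemE : ∀ k, 0 < w₀ k → b k ∈ Eigenspace W E := fun k hk => by
    have h1 : b k = ((w₀ k : ℂ))⁻¹ • Γ (b k) := by
      rw [hb k, smul_smul, inv_mul_cancel₀ (by exact_mod_cast hk.ne'), one_smul]
    rw [h1]; exact smul_mem_eigenspace _ (hran _)
  have hsupp : ∀ (a : ι₀ → ℝ), Function.support (fun k => w₀ k * a k) ⊆ {k | 0 < w₀ k} := by
    intro a k hk
    have : w₀ k ≠ 0 := fun h0 => hk (by simp [h0])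
    exact lt_of_le_of_ne (hw₀ k) this.symm
  refine ⟨{k // 0 < w₀ k}, fun k => b k, fun k => w₀ k, fun k => k.2, fun k => hnorm k,
    fun k => hmemE k k.2, ?_, fun A hA => ?_⟩
  · have := (hasSum_subtype_iff_of_support_subset (f := w₀) (s := {k | 0 < w₀ k})
      (by simpa using hsupp fun _ => 1)).2 s1
    exact this
  · have h2 := hn.2 A hA _ b
    have e2 : ∀ k, occupationForm A (b k) (Γ (b k))
        = ((w₀ k * ∫ r in A, density (b k) r : ℝ) : ℂ) := by
      intro k
      rw [hb k, occupationForm_eq_inner_left hA, inner_smul_right, ← occupationForm_eq_inner_left hA,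
        occupationForm_self]
      rcases (hw₀ k).eq_or_lt with h0 | h0
      · simp [← h0]
      · rw [integral_occupation_mul_norm_sq (hmemE k h0).1.1 hA]; push_cast; rfl
    simp only [e2] at h2
    have h3 : HasSum (fun k => w₀ k * ∫ r in A, density (b k) r) (∫ r in A, n' r) :=
      Complex.hasSum_ofReal.1 h2
    exact (hasSum_subtype_iff_of_support_subset (s := {k | 0 < w₀ k}) (hsupp _)).2 h3

/-- EN-TR4, general form -/
theorem en_integral_decomp' {α : Type*} [MeasurableSpace α] {μ : Measure α} [SigmaFinite μ] {ι : Type} {w : ι → ℝ} {ρ : ι → α → ℝ} {n' : α → ℝ}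
    (hw : ∀ k, 0 < w k) (hρ0 : ∀ k r, 0 ≤ ρ k r) (hρ : ∀ k, Integrable (ρ k) μ) (hn : Integrable n' μ)
    (hsum : ∀ A : Set α, MeasurableSet A →
      HasSum (fun k => w k * ∫ r in A, ρ k r ∂μ) (∫ r in A, n' r ∂μ))
    {U : α → ℝ} (hU : Integrable (fun r => U r * n' r) μ) :
    (∀ k, Integrable (fun r => U r * ρ k r) μ) ∧
      HasSum (fun k => w k * ∫ r, U r * ρ k r ∂μ) (∫ r, U r * n' r ∂μ) := by
  have hn0 : 0 ≤ᵐ[μ] n' := by
    refine ae_nonneg_of_forall_setIntegral_nonneg hn fun A hA _ => ?_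
    exact (hsum A hA).nonneg fun k => mul_nonneg (hw k).le (integral_nonneg fun r => hρ0 k r)
  set f : ι → α → ℝ≥0 := fun k r => Real.toNNReal (w k * ρ k r) with hf
  set f' : α → ℝ≥0 := fun r => Real.toNNReal (n' r) with hf'
  have hfm : ∀ k, AEMeasurable (f k) μ := fun k => ((hρ k).const_mul (w k)).1.aemeasurable.real_toNNReal
  have hfm' : AEMeasurable f' μ := hn.1.aemeasurable.real_toNNReal
  set ν : ι → Measure α := fun k => μ.withDensity fun r => (f k r : ℝ≥0∞) with hν
  set ν' : Measure α := μ.withDensity fun r => (f' r : ℝ≥0∞) with hν'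
  have hνν : Measure.sum ν = ν' := by
    ext A hA
    rw [Measure.sum_apply _ hA]
    have e1 : ∀ k, ν k A = ENNReal.ofReal (w k * ∫ r in A, ρ k r ∂μ) := by
      intro k
      rw [hν, withDensity_apply _ hA, ← integral_const_mul,
        ofReal_integral_eq_lintegral_ofReal ((hρ k).const_mul (w k)).integrableOn
          (ae_of_all _ fun r => mul_nonneg (hw k).le (hρ0 k r))]
      rfl
    have e2 : ν' A = ENNReal.ofReal (∫ r in A, n' r ∂μ) := by
      rw [hν', withDensity_apply _ hA, ofReal_integral_eq_lintegral_ofReal hn.integrableOn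
        (ae_restrict_of_ae hn0)]
      rfl
    simp only [e1]
    rw [e2, ← (hsum A hA).tsum_eq, ENNReal.ofReal_tsum_of_nonneg
      (fun k => mul_nonneg (hw k).le (integral_nonneg fun r => hρ0 k r)) (hsum A hA).summable]
  have hU' : Integrable U ν' := by
    rw [hν', integrable_withDensity_iff_integrable_smul₀ hfm']
    refine hU.congr ?_
    filter_upwards [hn0] with r hr
    rw [NNReal.smul_def, smul_eq_mul, hf', Real.coe_toNNReal _ hr, mul_comm]
  have hUk : ∀ k, Integrable U (ν k) := fun k =>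
    hU'.mono_measure (hνν ▸ Measure.le_sum ν k)
  have ek : ∀ k r, (f k r) • U r = w k * (U r * ρ k r) := fun k r => by
    rw [NNReal.smul_def, smul_eq_mul, hf, Real.coe_toNNReal _ (mul_nonneg (hw k).le (hρ0 k r))]; ring
  have hUk' : ∀ k, Integrable (fun r => w k * (U r * ρ k r)) μ := fun k => by
    have := (integrable_withDensity_iff_integrable_smul₀ (hfm k)).1 (hUk k)
    simpa only [ek] using this
  refine ⟨fun k => ?_, ?_⟩
  · have := (hUk' k).const_mul (w k)⁻¹
    refine this.congr (ae_of_all _ fun r => ?_)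
    simp only
    rw [← mul_assoc, inv_mul_cancel₀ (hw k).ne', one_mul]
  · have h1 := hasSum_integral_measure (hνν ▸ hU' : Integrable U (Measure.sum ν))
    rw [hνν] at h1
    have e3 : ∀ k, ∫ r, U r ∂ν k = w k * ∫ r, U r * ρ k r ∂μ := fun k => by
      rw [hν, integral_withDensity_eq_integral_smul₀ (hfm k)]
      simp only [ek, integral_const_mul]
    have e4 : ∫ r, U r ∂ν' = ∫ r, U r * n' r ∂μ := by
      rw [hν', integral_withDensity_eq_integral_smul₀ hfm']
      refine integral_congr_ae ?_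
      filter_upwards [hn0] with r hr
      rw [NNReal.smul_def, smul_eq_mul, hf', Real.coe_toNNReal _ hr, mul_comm]
    simp only [e3, e4] at h1
    exact h1

/-- EN-TR4: from sets to functions. -/
theorem en_integral_decomp {ι : Type} {w : ι → ℝ} {ρ : ι → Space → ℝ} {n' : Space → ℝ}
    (hw : ∀ k, 0 < w k) (hρ0 : ∀ k r, 0 ≤ ρ k r) (hρ : ∀ k, Integrable (ρ k)) (hn : Integrable n')
    (hsum : ∀ A : Set Space, MeasurableSet A →
      HasSum (fun k => w k * ∫ r in A, ρ k r) (∫ r in A, n' r))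
    {U : Space → ℝ} (_hUm : AEStronglyMeasurable U volume) (hU : Integrable fun r => U r * n' r) :
    (∀ k, Integrable fun r => U r * ρ k r) ∧
      HasSum (fun k => w k * ∫ r, U r * ρ k r) (∫ r, U r * n' r) :=
  en_integral_decomp' hw hρ0 hρ hn hsum hU

end Claimed.Open.R278
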