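import Claimed.Open.R278.ENThree
import Claimed.Open.R278.ENDet
import Claimed.Open.R278.ENTrace
import Claimed.Open.R278.ENGap
import Claimed.Open.R278.Closing

/-!
# Result 278, layer L7: assembly.  `en_potential_identification` = `potential_identification` of `Top.lean`
-/

open MeasureTheory Filter
open scoped ContDiff InnerProductSpace ComplexConjugate ENNReal Topology

noncomputable section

namespace Claimed.Open.R278

variable {g h V : Space → ℝ} {Gg Gh : Space → Space} {d : ℝ}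

/-! ### the lower bound for the ground energy -/

theorem en_density_nonneg (Φ : L2 3) (r : Space) : 0 ≤ density Φ r :=
  mul_nonneg (by norm_num) (integral_nonneg fun _ => sq_nonneg _)

/-- one normalized ground state -/
theorem en_lower_bound_one (D : EnData g h V Gg Gh d) {v : Space → ℝ} (hvm : AEStronglyMeasurable v volume)
    {E : ℝ} (hE : IsSpectrumBottom (oneBodyPotential (m := 3) v) E) {Φ : L2 3} (hΦ1 : ‖Φ‖ = 1)
    (hΦ : Φ ∈ Eigenspace (oneBodyPotential v) E)
    (hv : Integrable fun r => v r * density Φ r) (hV : Integrable fun r => V r * density Φ r) :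
    d + (∫ r, v r * density Φ r) - (∫ r, V r * density Φ r) ≤ E := by
  have hWm : AEStronglyMeasurable (oneBodyPotential (m := 3) v) volume := en_aesm_oneBody hvm 3
  have ha : IsAntisymmetric Φ := hΦ.1.1
  have h1 : MemH1 Φ := hΦ.1.2.1
  have hen := ((mem_eigenspace_iff_energy hWm hE).1 hΦ).2
  rw [hΦ1, energy_eq] at hen
  have h3 := en_three_body D ha h1 (fun i => en_integrable_coord ha D.V_meas hV i)
  rw [hΦ1] at h3
  have e1 : ∫ x : Config 3, oneBodyPotential v x * ‖Φ x‖ ^ 2 = ∑ i, ∫ x : Config 3, v (x i) * ‖Φ x‖ ^ 2 := by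
    rw [← integral_finsetSum _ (fun i _ => en_integrable_coord ha hvm hv i)]
    congr 1; funext x
    rw [oneBodyPotential, Finset.sum_mul]
  simp only [en_integral_coord ha hvm hv, en_integral_coord ha D.V_meas hV, Finset.sum_const,
    Finset.card_univ, Fintype.card_fin, nsmul_eq_mul] at e1 h3
  push_cast at e1 h3
  rw [e1] at hen
  linarith

/-- the ensemble -/
theorem en_lower_bound (D : EnData g h V Gg Gh d) {v : Space → ℝ} (hvm : AEStronglyMeasurable v volume)
    {Γ : L2 3 →L[ℂ] L2 3} {n' : Space → ℝ} (hΓ : IsGroundStateEnsemble (oneBodyPotential v) Γ)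
    (hn' : IsDensityOf Γ n') (hv : Integrable fun r => v r * n' r) (hV : Integrable fun r => V r * n' r) :
    ∃ E : ℝ, IsSpectrumBottom (oneBodyPotential (m := 3) v) E ∧ d + (∫ r, v r * n' r) - (∫ r, V r * n' r) ≤ E := by
  obtain ⟨E, hE, ι, Φ, w, hw, hΦ1, hΦE, hwsum, hdens⟩ := en_ensemble_decomp hΓ hn'
  refine ⟨E, hE, ?_⟩
  obtain ⟨hvk, hvs⟩ := en_integral_decomp hw (fun k r => en_density_nonneg (Φ k) r)
    (fun k => integrable_density (Φ k)) hn'.1 hdens hvm hv
  obtain ⟨hVk, hVs⟩ := en_integral_decomp hw (fun k r => en_density_nonneg (Φ k) r)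
    (fun k => integrable_density (Φ k)) hn'.1 hdens D.V_meas hV
  have s1 : HasSum (fun k => w k * E) (1 * E) := hwsum.mul_right E
  have s2 : HasSum (fun k => w k * d + w k * (∫ r, v r * density (Φ k) r)
      - w k * (∫ r, V r * density (Φ k) r)) (1 * d + (∫ r, v r * n' r) - (∫ r, V r * n' r)) :=
    ((hwsum.mul_right d).add hvs).sub hVs
  have := hasSum_le (fun k => ?_) s2 s1
  · linarith
  · have := en_lower_bound_one D hvm hE (hΦ1 k) (hΦE k) (hvk k) (hVk k)
    have := mul_le_mul_of_nonneg_left this (hw k).le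
    linarith

/-! ### the determinants `Ξ_f = (ĝ↑) ∧ (f↓) ∧ (h↑)` -/

/-- `ĝ = g / √2` -/
def enGhat (g : Space → ℝ) (x : Space) : ℝ := (√2)⁻¹ * g x

/-- `Ξ_f = (ĝ↑) ∧ (f↓) ∧ (h↑)` -/
def enXi (g h f : Space → ℝ) : L2 3 := enDet ![enGhat g, f, h]

theorem EnData.ghat_h1 (D : EnData g h V Gg Gh d) : IsH1 (enGhat g) (fun x => (√2)⁻¹ • Gg x) :=
  enH1_const_mul _ D.g_h1

theorem en_inv_sqrt_two_sq : ((√2)⁻¹ : ℝ) * (√2)⁻¹ = 1 / 2 := by
  rw [← mul_inv, Real.mul_self_sqrt (by norm_num)]; norm_num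

theorem EnData.ghat_norm (D : EnData g h V Gg Gh d) : (∫ x, enGhat g x * enGhat g x) = 1 := by
  have : ∀ x, enGhat g x * enGhat g x = (1 / 2) * g x ^ 2 := fun x => by
    unfold enGhat
    calc (√2)⁻¹ * g x * ((√2)⁻¹ * g x) = ((√2)⁻¹ * (√2)⁻¹) * g x ^ 2 := by ring
      _ = _ := by rw [en_inv_sqrt_two_sq]
  simp only [this]
  rw [integral_const_mul, D.g_norm]; norm_num

theorem EnData.ghat_orth (D : EnData g h V Gg Gh d) : (∫ x, enGhat g x * h x) = 0 := by
  have : ∀ x, enGhat g x * h x = (√2)⁻¹ * (g x * h x) := fun x => by unfold enGhat; ring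
  simp only [this]
  rw [integral_const_mul, D.orth, mul_zero]

theorem EnData.ghat_orth' (D : EnData g h V Gg Gh d) : (∫ x, h x * enGhat g x) = 0 := by
  simp only [mul_comm (h _)]; exact D.ghat_orth

theorem EnData.h_norm' (D : EnData g h V Gg Gh d) : (∫ x, h x * h x) = 1 := by
  simp only [← sq]; exact D.h_norm

section Xi

variable {v : Space → ℝ} {f f' : Space → ℝ} {F F' : Space → Space}

theorem en_integrable_pot_sq (hv : v ∈ PotentialClass) (hf : IsH1 f F) : Integrable fun r => v r * f r ^ 2 := by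
  simpa only [sq] using en_integrable_pot hv hf hf

theorem enXi_mem_formDomain (D : EnData g h V Gg Gh d) (hv : v ∈ PotentialClass) (hf : IsH1 f F) :
    enXi g h f ∈ FormDomain (oneBodyPotential v) := by
  refine en_det_mem_formDomain (U := ![fun x => (√2)⁻¹ • Gg x, F, Gh]) ?_ (en_potentialClass_aesm hv) ?_
  · intro k; fin_cases k
    · exact D.ghat_h1
    · exact hf
    · exact D.h_h1
  · intro k; fin_cases k
    · exact en_integrable_pot_sq hv D.ghat_h1
    · exact en_integrable_pot_sq hv hf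
    · exact en_integrable_pot_sq hv D.h_h1

theorem enXi_orth (D : EnData g h V Gg Gh d) (f f' : Space → ℝ) : ∀ k l : Fin 3, k ≠ l → spinOf k = spinOf l →
    (∫ r, (![enGhat g, f, h] : Fin 3 → Space → ℝ) k r * (![enGhat g, f', h] : Fin 3 → Space → ℝ) l r) = 0 := by
  intro k l hkl hs
  fin_cases k <;> fin_cases l <;> simp [spinOf] at hkl hs ⊢
  · exact D.ghat_orth
  · exact D.ghat_orth'

theorem enXi_inner (D : EnData g h V Gg Gh d) (hf : MemLp f 2 volume) (hf' : MemLp f' 2 volume) :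
    ⟪enXi g h f, enXi g h f'⟫_ℂ = ((∫ r, f r * f' r : ℝ) : ℂ) := by
  unfold enXi
  rw [en_det_inner ?_ ?_ (enXi_orth D f f')]
  · rw [Fin.prod_univ_three]
    simp only [Matrix.cons_val_zero, Matrix.cons_val_one, Matrix.cons_val]
    rw [D.ghat_norm, D.h_norm']; simp
  · intro k; fin_cases k
    · exact D.ghat_h1.1
    · exact hf
    · exact D.h_h1.1
  · intro k; fin_cases k
    · exact D.ghat_h1.1
    · exact hf'
    · exact D.h_h1.1

theorem enXi_sesq (D : EnData g h V Gg Gh d) (hv : v ∈ PotentialClass) (hf : IsH1 f F) (hf' : IsH1 f' F') :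
    sesqForm (oneBodyPotential v) (enXi g h f) (enXi g h f') =
      ((enB v f f' F F' + (∫ r, f r * f' r) *
        (enB v (enGhat g) (enGhat g) (fun x => (√2)⁻¹ • Gg x) (fun x => (√2)⁻¹ • Gg x) + enB v h h Gh Gh) : ℝ) : ℂ) := by
  unfold enXi
  rw [en_det_sesq (U := ![fun x => (√2)⁻¹ • Gg x, F, Gh]) (U' := ![fun x => (√2)⁻¹ • Gg x, F', Gh]) ?_ ?_
    (en_potentialClass_aesm hv) ?_ ?_ (enXi_orth D f f')]
  · have e0 : (Finset.univ.erase (0 : Fin 3)) = {1, 2} := by decide
    have e1 : (Finset.univ.erase (1 : Fin 3)) = {0, 2} := by decide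
    have e2 : (Finset.univ.erase (2 : Fin 3)) = {0, 1} := by decide
    rw [Fin.sum_univ_three, e0, e1, e2, Finset.prod_pair (by decide), Finset.prod_pair (by decide),
      Finset.prod_pair (by decide)]
    simp only [Matrix.cons_val_zero, Matrix.cons_val_one, Matrix.cons_val]
    rw [D.ghat_norm, D.h_norm']
    congr 1; ring
  · intro k; fin_cases k
    · exact D.ghat_h1
    · exact hf
    · exact D.h_h1
  · intro k; fin_cases k
    · exact D.ghat_h1
    · exact hf'
    · exact D.h_h1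
  · intro k; fin_cases k
    · exact en_integrable_pot_sq hv D.ghat_h1
    · exact en_integrable_pot_sq hv hf
    · exact en_integrable_pot_sq hv D.h_h1
  · intro k; fin_cases k
    · exact en_integrable_pot_sq hv D.ghat_h1
    · exact en_integrable_pot_sq hv hf'
    · exact en_integrable_pot_sq hv D.h_h1

end Xi

/-! ### identification -/

theorem EnData.V_locallyIntegrable (D : EnData g h V Gg Gh d) : LocallyIntegrable V volume := by
  rw [locallyIntegrable_iff]
  intro K hK
  obtain ⟨R, hR⟩ := hK.isBounded.subset_ball 0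
  have : IsFiniteMeasure (volume.restrict (Metric.ball (0 : Space) R)) :=
    ⟨by rw [Measure.restrict_apply_univ]; exact measure_ball_lt_top⟩
  exact ((D.V_loc R).integrable (by norm_num)).mono_measure (Measure.restrict_mono hR le_rfl)

theorem enB_ghat (v g : Space → ℝ) (Gg : Space → Space) :
    enB v (enGhat g) (enGhat g) (fun x => (√2)⁻¹ • Gg x) (fun x => (√2)⁻¹ • Gg x) =
      (1 / 2) * ((1 / 2) * (∫ x, ‖Gg x‖ ^ 2) + ∫ x, v x * g x ^ 2) := by
  unfold enB
  have e1 : ∀ x, ⟪(√2)⁻¹ • Gg x, (√2)⁻¹ • Gg x⟫_ℝ = (1 / 2) * ‖Gg x‖ ^ 2 := fun x => by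
    rw [real_inner_smul_left, real_inner_smul_right, real_inner_self_eq_norm_sq, ← mul_assoc,
      en_inv_sqrt_two_sq]
  have e2 : ∀ x, v x * (enGhat g x * enGhat g x) = (1 / 2) * (v x * g x ^ 2) := fun x => by
    unfold enGhat
    calc v x * ((√2)⁻¹ * g x * ((√2)⁻¹ * g x)) = ((√2)⁻¹ * (√2)⁻¹) * (v x * g x ^ 2) := by ring
      _ = _ := by rw [en_inv_sqrt_two_sq]
  simp only [e1, e2, integral_const_mul]
  ring

theorem enB_self (v f : Space → ℝ) (F : Space → Space) :
    enB v f f F F = (1 / 2) * (∫ x, ‖F x‖ ^ 2) + ∫ x, v x * f x ^ 2 := by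
  unfold enB
  simp only [real_inner_self_eq_norm_sq, sq]

theorem enB_right_ghat (v φ g : Space → ℝ) (P Gg : Space → Space) :
    enB v φ (enGhat g) P (fun x => (√2)⁻¹ • Gg x) =
      (√2)⁻¹ * ((1 / 2) * (∫ x, ⟪Gg x, P x⟫_ℝ) + ∫ x, v x * (g x * φ x)) := by
  unfold enB
  have e1 : ∀ x, ⟪P x, (√2)⁻¹ • Gg x⟫_ℝ = (√2)⁻¹ * ⟪Gg x, P x⟫_ℝ := fun x => by
    rw [real_inner_smul_right, real_inner_comm]
  have e2 : ∀ x, v x * (φ x * enGhat g x) = (√2)⁻¹ * (v x * (g x * φ x)) := fun x => by
    unfold enGhat; ring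
  simp only [e1, e2, integral_const_mul]
  ring

/-- Proposition 5.2 in terms of `EnData`. -/
theorem en_identify (D : EnData g h V Gg Gh d) {v : Space → ℝ} (hv : v ∈ PotentialClass)
    {Γ : L2 3 →L[ℂ] L2 3} {n' : Space → ℝ} (hΓ : IsGroundStateEnsemble (oneBodyPotential v) Γ)
    (hn' : IsDensityOf Γ n') (hnn : n' =ᵐ[volume] fun x => g x ^ 2 + h x ^ 2) :
    ∃ e : ℝ, v =ᵐ[volume] fun x => V x + e := by
  have hvm := en_potentialClass_aesm hv
  have hWm : AEStronglyMeasurable (oneBodyPotential (m := 3) v) volume := en_aesm_oneBody hvm 3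
  have ivg := en_integrable_pot_sq hv D.g_h1
  have ivh := en_integrable_pot_sq hv D.h_h1
  have iVg := D.integrable_V_g
  have iVh := D.integrable_V_h
  have cv : (fun r => v r * g r ^ 2 + v r * h r ^ 2) =ᵐ[volume] fun r => v r * n' r := by
    filter_upwards [hnn] with x hx
    rw [hx]; ring
  have cV : (fun r => V r * g r ^ 2 + V r * h r ^ 2) =ᵐ[volume] fun r => V r * n' r := by
    filter_upwards [hnn] with x hx
    rw [hx]; ring
  have hvn : Integrable fun r => v r * n' r := (ivg.add ivh).congr cv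
  have hVn : Integrable fun r => V r * n' r := (iVg.add iVh).congr cV
  have evn : (∫ r, v r * n' r) = (∫ r, v r * g r ^ 2) + ∫ r, v r * h r ^ 2 := by
    rw [← integral_add ivg ivh]; exact (integral_congr_ae cv).symm
  have eVn : (∫ r, V r * n' r) = (∫ r, V r * g r ^ 2) + ∫ r, V r * h r ^ 2 := by
    rw [← integral_add iVg iVh]; exact (integral_congr_ae cV).symm
  obtain ⟨E, hE, hlow⟩ := en_lower_bound D hvm hΓ hn' hvn hVn
  -- the determinant `Φ_θ`
  set Θ : L2 3 := enXi g h (enGhat g) with hΘ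
  set c : ℝ := enB v (enGhat g) (enGhat g) (fun x => (√2)⁻¹ • Gg x) (fun x => (√2)⁻¹ • Gg x) + enB v h h Gh Gh
    with hc
  have hΘd : Θ ∈ FormDomain (oneBodyPotential v) := enXi_mem_formDomain D hv D.ghat_h1
  have hΘn : ‖Θ‖ ^ 2 = 1 := by
    have h1 := enXi_inner D D.ghat_h1.1 D.ghat_h1.1
    rw [D.ghat_norm, inner_self_eq_norm_sq_to_K] at h1
    have h2 : ((‖enXi g h (enGhat g)‖ ^ 2 : ℝ) : ℂ) = ((1 : ℝ) : ℂ) := by
      rw [← h1]; push_cast; rfl
    exact Complex.ofReal_injective h2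
  have hΘe : energy (oneBodyPotential v) Θ = d + (∫ r, v r * n' r) - (∫ r, V r * n' r) := by
    unfold energy
    rw [hΘ, enXi_sesq D hv D.ghat_h1 D.ghat_h1, Complex.ofReal_re, D.ghat_norm, enB_ghat, enB_self, evn, eVn]
    have q1 := en_qV_g D
    have q2 := en_qV_h D
    linarith
  have hΘE : Θ ∈ Eigenspace (oneBodyPotential v) E := by
    refine (mem_eigenspace_iff_energy hWm hE).2 ⟨hΘd, ?_⟩
    have := hE.le_energy hΘd
    rw [hΘn] at this ⊢
    linarith
  refine ⟨E - c, ?_⟩
  -- the weak equation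
  have key : ∀ φ : Space → ℝ, ContDiff ℝ ∞ φ → HasCompactSupport φ →
      ∫ x, φ x • ((v x - V x - (E - c)) * g x) = 0 := by
    intro φ hφ hφc
    have hφ1 : ContDiff ℝ 1 φ := hφ.of_le (by simp)
    have hφH : IsH1 φ (gradient φ) := enH1_of_contDiff hφ1 hφc
    have h1 := hΘE.2 _ (enXi_mem_formDomain D hv hφH)
    rw [hΘ, enXi_sesq D hv hφH D.ghat_h1, enXi_inner D hφH.1 D.ghat_h1.1, ← hc, enB_right_ghat] at h1
    have h2 : (√2)⁻¹ * ((1 / 2) * (∫ x, ⟪Gg x, gradient φ x⟫_ℝ) + ∫ x, v x * (g x * φ x))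
        + (∫ r, φ r * enGhat g r) * c = E * ∫ r, φ r * enGhat g r := by exact_mod_cast h1
    have e3 : (∫ r, φ r * enGhat g r) = (√2)⁻¹ * ∫ r, g r * φ r := by
      rw [← integral_const_mul]; congr 1; funext r; unfold enGhat; ring
    rw [e3] at h2
    have hs : ((√2)⁻¹ : ℝ) ≠ 0 := by positivity
    have h3 : (1 / 2) * (∫ x, ⟪Gg x, gradient φ x⟫_ℝ) + (∫ x, v x * (g x * φ x))
        = (E - c) * ∫ r, g r * φ r := by
      apply mul_left_cancel₀ hs
      linarith
    have h4 := D.g_eq φ hφ1 hφc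
    have i1 : Integrable fun x => v x * (g x * φ x) := en_integrable_pot hv D.g_h1 hφH
    have cgφ : Continuous fun x => g x * φ x := D.g_cont.mul hφ1.continuous
    have sgφ : HasCompactSupport fun x => g x * φ x := hφc.mul_left
    have i2 : Integrable fun x => V x * (g x * φ x) :=
      D.V_locallyIntegrable.integrable_smul_right_of_hasCompactSupport cgφ sgφ
    have i3 : Integrable fun x => g x * φ x := cgφ.integrable_of_hasCompactSupport sgφ
    have e4 : ∀ x, φ x • ((v x - V x - (E - c)) * g x)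
        = v x * (g x * φ x) - V x * (g x * φ x) - (E - c) * (g x * φ x) := fun x => by
      rw [smul_eq_mul]; ring
    simp only [e4]
    have i12 : Integrable fun x => v x * (g x * φ x) - V x * (g x * φ x) := i1.sub i2
    rw [integral_sub i12 (i3.const_mul _), integral_sub i1 i2, integral_const_mul]
    linarith
  have hloc : LocallyIntegrable (fun x => (v x - V x - (E - c)) * g x) volume :=
    LocallyIntegrable.mul_continuous D.g_cont
      (((en_potentialClass_locInt hv).sub D.V_locallyIntegrable).sub (locallyIntegrable_const _))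
  filter_upwards [ae_eq_zero_of_integral_contDiff_smul_eq_zero hloc key] with x hx
  have := (mul_eq_zero.1 hx).resolve_right (D.g_pos x).ne'
  linarith

/-- **L7 top theorem** (Props 5.1, 5.2): same statement as `potential_identification` of `Top.lean`. -/
theorem en_potential_identification {n θ : Space → ℝ} {dθ : ℝ} (hn : DensityBasic n)
    (_hθ : IsFoldedMinimizer n θ) (hdpos : 0 < dθ) (ho : OrbitalFacts n θ dθ)
    (hgap : WeightedGap n θ dθ)
    (hrep : ∃ (v : Space → ℝ) (Γ : L2 3 →L[ℂ] L2 3) (n' : Space → ℝ),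
        v ∈ PotentialClass ∧ IsGroundStateEnsemble (oneBodyPotential v) Γ ∧
        IsDensityOf Γ n' ∧ n' =ᵐ[volume] n) :
    formalV n θ dθ ∈ PotentialClass := by
  obtain ⟨v, Γ, n', hv, hΓ, hn', hnn⟩ := hrep
  have D := enData_of_orbitalFacts hn hdpos ho hgap
  obtain ⟨e, he⟩ := en_identify D hv hΓ hn'
    (hnn.trans (ae_of_all _ fun x => (en_orbG_sq_add_orbH_sq hn.pos x).symm))
  obtain ⟨v₁, v₂, h₁, h₂, rfl⟩ := hv
  refine ⟨fun x => formalV n θ dθ x - (v₂ x - e), fun x => v₂ x - e, ?_, ?_, ?_⟩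
  · refine h₁.ae_eq ?_
    filter_upwards [he] with x hx
    simp only [Pi.add_apply] at hx
    linarith
  · exact h₂.sub (memLp_top_const e)
  · funext x; simp

end Claimed.Open.R278
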