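import Claimed.Open.R278.ENTools

/-!
# Result 278, layer L7: the one-body inequality (5.10) on `𝓔_V = {f ∈ H¹ : ∫ |V| f² < ∞}`, and `q_V[g] = 0`, `q_V[h] = d`

Route: take `φ n ∈ C^∞_c`, `φ n → f` in `H¹` (`enH1_exists_approx`), a fixed cutoff `χ = wsCut k`; apply the `C¹_c` statement (`EnData.gap`,
`g_eq`, `h_eq`) to `χ * φ n`; let `n → ∞` (`V * χ` and `V * χ²` are in `L^{3/2}`: `en_mul_mem_potentialClass`, `en_tendsto_pot`), then
`k → ∞` (dominated convergence, `enH1_cut_tendsto`).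
-/

open MeasureTheory Filter
open scoped ContDiff InnerProductSpace ComplexConjugate ENNReal Topology
open Claimed.Agent

noncomputable section

namespace Claimed.Open.R278

/-! ### auxiliary limits -/

theorem en_gradient_mul {χ φ : Space → ℝ} (hχ : ContDiff ℝ 1 χ) (hφ : ContDiff ℝ 1 φ) :
    gradient (fun x => χ x * φ x) = fun x => χ x • gradient φ x + φ x • gradient χ x := by
  funext x
  exact R259.ws_gradient_mul ((hχ.differentiable (by simp)) x) ((hφ.differentiable (by simp)) x)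

/-- multiplication by a fixed `C¹_c` function is continuous in `H¹` -/
theorem enH1_mul_tendsto {χ : Space → ℝ} (hχ : ContDiff ℝ 1 χ) (hc : HasCompactSupport χ)
    {a : Space → ℝ} {A : Space → Space} {an : ℕ → Space → ℝ} {An : ℕ → Space → Space}
    (han : ∀ n, IsH1 (an n) (An n)) (ha : IsH1 a A)
    (a0 : Tendsto (fun n => ∫ x, (an n x - a x) ^ 2) atTop (𝓝 0))
    (a1 : Tendsto (fun n => ∫ x, ‖An n x - A x‖ ^ 2) atTop (𝓝 0)) :
    Tendsto (fun n => ∫ x, (χ x * an n x - χ x * a x) ^ 2) atTop (𝓝 0) ∧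
    Tendsto (fun n => ∫ x, ‖(χ x • An n x + an n x • gradient χ x) - (χ x • A x + a x • gradient χ x)‖ ^ 2)
      atTop (𝓝 0) := by
  have hg := R259.ws_gradient_continuous hχ
  have hgc := R259.ws_gradient_hasCompactSupport hc
  obtain ⟨C, hC⟩ := hc.exists_bound_of_continuous hχ.continuous
  obtain ⟨C', hC'⟩ := hgc.exists_bound_of_continuous hg
  have i0 : ∀ n, Integrable fun x => (an n x - a x) ^ 2 := fun n => by
    have := R259.ws_integrable_sq ((han n).1.sub ha.1)
    simpa only [Pi.sub_apply, Real.norm_eq_abs, sq_abs] using this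
  have i1 : ∀ n, Integrable fun x => ‖An n x - A x‖ ^ 2 := fun n =>
    R259.ws_integrable_sq ((han n).2.1.sub ha.2.1)
  constructor
  · have hlim : Tendsto (fun n => C ^ 2 * ∫ x, (an n x - a x) ^ 2) atTop (𝓝 0) := by
      simpa using a0.const_mul (C ^ 2)
    refine squeeze_zero (fun n => integral_nonneg fun x => sq_nonneg _) (fun n => ?_) hlim
    rw [← integral_const_mul]
    refine integral_mono_of_nonneg (ae_of_all _ fun x => sq_nonneg _) ((i0 n).const_mul _)
      (ae_of_all _ fun x => ?_)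
    have h1 : χ x ^ 2 ≤ C ^ 2 := sq_le_sq' (by linarith [neg_abs_le (χ x), hC x, Real.norm_eq_abs (χ x)])
      ((le_abs_self _).trans (hC x))
    calc (χ x * an n x - χ x * a x) ^ 2 = χ x ^ 2 * (an n x - a x) ^ 2 := by ring
      _ ≤ C ^ 2 * (an n x - a x) ^ 2 := mul_le_mul_of_nonneg_right h1 (sq_nonneg _)
  · have hlim : Tendsto (fun n => 2 * C ^ 2 * (∫ x, ‖An n x - A x‖ ^ 2) + 2 * C' ^ 2 * ∫ x, (an n x - a x) ^ 2)
        atTop (𝓝 0) := by
      simpa using (a1.const_mul (2 * C ^ 2)).add (a0.const_mul (2 * C' ^ 2))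
    refine squeeze_zero (fun n => integral_nonneg fun x => sq_nonneg _) (fun n => ?_) hlim
    rw [← integral_const_mul, ← integral_const_mul, ← integral_add ((i1 n).const_mul _) ((i0 n).const_mul _)]
    refine integral_mono_of_nonneg (ae_of_all _ fun x => sq_nonneg _)
      (((i1 n).const_mul _).add ((i0 n).const_mul _)) (ae_of_all _ fun x => ?_)
    have e : (χ x • An n x + an n x • gradient χ x) - (χ x • A x + a x • gradient χ x)
        = χ x • (An n x - A x) + (an n x - a x) • gradient χ x := by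
      rw [smul_sub, sub_smul]; abel
    have n1 : ‖χ x • (An n x - A x)‖ ≤ C * ‖An n x - A x‖ := by
      rw [norm_smul]; exact mul_le_mul_of_nonneg_right (hC x) (norm_nonneg _)
    have n2 : ‖(an n x - a x) • gradient χ x‖ ≤ C' * |an n x - a x| := by
      rw [norm_smul, Real.norm_eq_abs, mul_comm]; exact mul_le_mul_of_nonneg_right (hC' x) (abs_nonneg _)
    have n3 := norm_add_le (χ x • (An n x - A x)) ((an n x - a x) • gradient χ x)
    show ‖_‖ ^ 2 ≤ 2 * C ^ 2 * ‖An n x - A x‖ ^ 2 + 2 * C' ^ 2 * (an n x - a x) ^ 2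
    rw [e, ← sq_abs (an n x - a x)]
    have n4 : ‖χ x • (An n x - A x) + (an n x - a x) • gradient χ x‖
        ≤ C * ‖An n x - A x‖ + C' * |an n x - a x| := n3.trans (add_le_add n1 n2)
    calc ‖χ x • (An n x - A x) + (an n x - a x) • gradient χ x‖ ^ 2
        ≤ (C * ‖An n x - A x‖ + C' * |an n x - a x|) ^ 2 := pow_le_pow_left₀ (norm_nonneg _) n4 2
      _ ≤ _ := by nlinarith [sq_nonneg (C * ‖An n x - A x‖ - C' * |an n x - a x|)]

/-- dominated convergence for the cutoffs -/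
theorem en_cut_tendsto_integral {w : Space → ℝ} (hw : Integrable w) (p : ℕ) :
    Tendsto (fun k => ∫ x, w x * R259.wsCut k x ^ p) atTop (𝓝 (∫ x, w x)) := by
  refine tendsto_integral_of_dominated_convergence (fun x => ‖w x‖) (fun k => ?_) hw.norm (fun k => ?_) ?_
  · exact hw.1.mul ((R259.wsCut_contDiff k).continuous.pow p).aestronglyMeasurable
  · refine ae_of_all _ fun x => ?_
    rw [norm_mul]
    refine mul_le_of_le_one_right (norm_nonneg _) ?_
    rw [Real.norm_eq_abs, abs_of_nonneg (pow_nonneg (R259.wsCut_nonneg k x) p)]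
    exact pow_le_one₀ (R259.wsCut_nonneg k x) (R259.wsCut_le_one k x)
  · refine ae_of_all _ fun x => ?_
    refine tendsto_const_nhds.congr' ?_
    filter_upwards [R259.wsCut_eventually x] with k hk
    rw [R259.wsCut_eq_one hk.le]; simp

theorem en_const_tendsto_sq (f : Space → ℝ) : Tendsto (fun _ : ℕ => ∫ x, (f x - f x) ^ 2) atTop (𝓝 0) := by
  simp

theorem en_const_tendsto_norm_sq (F : Space → Space) :
    Tendsto (fun _ : ℕ => ∫ x, ‖F x - F x‖ ^ 2) atTop (𝓝 0) := by
  simp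

variable {g h V : Space → ℝ} {Gg Gh : Space → Space} {d : ℝ}

/-- EN-OR2: a weak solution in `𝓔_V` can be tested with itself. -/
theorem en_weak_eq_self {V : Space → ℝ} (_hVm : AEStronglyMeasurable V volume)
    (hVloc : ∀ R : ℝ, MemLp V 2 (volume.restrict (Metric.ball 0 R)))
    {f : Space → ℝ} {F : Space → Space} {ε : ℝ} (hf : IsH1 f F) (hV : Integrable fun x => V x * f x ^ 2)
    (heq : ∀ φ : Space → ℝ, ContDiff ℝ 1 φ → HasCompactSupport φ →
      (1 / 2) * (∫ x, ⟪F x, gradient φ x⟫_ℝ) + (∫ x, V x * (f x * φ x)) = ε * ∫ x, f x * φ x) :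
    (1 / 2) * (∫ x, ‖F x‖ ^ 2) + (∫ x, V x * f x ^ 2) = ε * ∫ x, f x ^ 2 := by
  obtain ⟨φ, hφ, hφc, h0, h1⟩ := enH1_exists_approx hf
  have hφ1 : ∀ n, ContDiff ℝ 1 (φ n) := fun n => (hφ n).of_le (by simp)
  have hH : ∀ n, IsH1 (φ n) (gradient (φ n)) := fun n => enH1_of_contDiff (hφ1 n) (hφc n)
  -- step 1: the identity with a cutoff
  have step1 : ∀ k : ℕ, (1 / 2) * (∫ x, ⟪F x, R259.wsCut k x • F x + f x • gradient (R259.wsCut k) x⟫_ℝ)
      + (∫ x, (V x * f x ^ 2) * R259.wsCut k x ^ 1) = ε * ∫ x, f x * (R259.wsCut k x * f x) := by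
    intro k
    set χ : Space → ℝ := R259.wsCut k with hχdef
    have hχ : ContDiff ℝ 1 χ := (R259.wsCut_contDiff k).of_le (by simp)
    have hχc : HasCompactSupport χ := R259.wsCut_hasCompactSupport k
    have hn : ∀ n, (1 / 2) * (∫ x, ⟪F x, χ x • gradient (φ n) x + φ n x • gradient χ x⟫_ℝ)
        + (∫ x, (V x * χ x) * (f x * φ n x)) = ε * ∫ x, f x * (χ x * φ n x) := by
      intro n
      have := heq (fun x => χ x * φ n x) (hχ.mul (hφ1 n)) (hφc n).mul_left
      rw [en_gradient_mul hχ (hφ1 n)] at this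
      rw [← this]
      congr 2; funext x; ring
    obtain ⟨m0, m1⟩ := enH1_mul_tendsto hχ hχc hH hf h0 h1
    have hHm : ∀ n, IsH1 (fun x => χ x * φ n x) (fun x => χ x • gradient (φ n) x + φ n x • gradient χ x) :=
      fun n => enH1_mul_contDiff (hH n) hχ hχc
    have hfm := enH1_mul_contDiff hf hχ hχc
    have t1 := R259.ws_tendsto_inner (fun _ : ℕ => hf.2.1) hf.2.1 (fun n => (hHm n).2.1) hfm.2.1
      (en_const_tendsto_norm_sq F) m1
    have t2 := en_tendsto_pot (en_mul_mem_potentialClass hVloc hχ.continuous hχc) (fun _ : ℕ => hf) hf hH hf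
      (en_const_tendsto_sq f) (en_const_tendsto_norm_sq F) h0 h1
    have t3 := R259.ws_tendsto_mul (fun _ : ℕ => hf.1) hf.1 (fun n => (hHm n).1) hfm.1
      (en_const_tendsto_sq f) m0
    have lhs := (t1.const_mul (1 / 2)).add t2
    have rhs := t3.const_mul ε
    have := tendsto_nhds_unique (lhs.congr hn) rhs
    rw [← this]
    congr 2; funext x; ring
  -- step 2: remove the cutoff
  obtain ⟨c0, c1⟩ := enH1_cut_tendsto hf
  have t1 := R259.ws_tendsto_inner (fun _ : ℕ => hf.2.1) hf.2.1 (fun k => (enH1_cut hf k).2.1) hf.2.1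
    (en_const_tendsto_norm_sq F) c1
  have t2 := en_cut_tendsto_integral hV 1
  have t3 := R259.ws_tendsto_mul (fun _ : ℕ => hf.1) hf.1 (fun k => (enH1_cut hf k).1) hf.1
    (en_const_tendsto_sq f) c0
  have lhs := (t1.const_mul (1 / 2)).add t2
  have rhs := t3.const_mul ε
  have := tendsto_nhds_unique (lhs.congr step1) rhs
  simp only [real_inner_self_eq_norm_sq, ← sq] at this
  exact this

/-- EN-OR1: (5.10) on `𝓔_V`. -/
theorem en_orbital_bound (D : EnData g h V Gg Gh d) {f : Space → ℝ} {F : Space → Space} (hf : IsH1 f F)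
    (hV : Integrable fun x => V x * f x ^ 2) :
    d * ((∫ x, f x ^ 2) - (∫ x, g x * f x) ^ 2 / 2) ≤ (1 / 2) * (∫ x, ‖F x‖ ^ 2) + ∫ x, V x * f x ^ 2 := by
  obtain ⟨φ, hφ, hφc, h0, h1⟩ := enH1_exists_approx hf
  have hφ1 : ∀ n, ContDiff ℝ 1 (φ n) := fun n => (hφ n).of_le (by simp)
  have hH : ∀ n, IsH1 (φ n) (gradient (φ n)) := fun n => enH1_of_contDiff (hφ1 n) (hφc n)
  have step1 : ∀ k : ℕ, d * ((∫ x, (R259.wsCut k x * f x) ^ 2) - (∫ x, g x * (R259.wsCut k x * f x)) ^ 2 / 2)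
      ≤ (1 / 2) * (∫ x, ‖R259.wsCut k x • F x + f x • gradient (R259.wsCut k) x‖ ^ 2)
        + ∫ x, (V x * f x ^ 2) * R259.wsCut k x ^ 2 := by
    intro k
    set χ : Space → ℝ := R259.wsCut k with hχdef
    have hχ : ContDiff ℝ 1 χ := (R259.wsCut_contDiff k).of_le (by simp)
    have hχc : HasCompactSupport χ := R259.wsCut_hasCompactSupport k
    have hn : ∀ n, d * ((∫ x, (χ x * φ n x) ^ 2) - (∫ x, g x * (χ x * φ n x)) ^ 2 / 2)
        ≤ (1 / 2) * (∫ x, ‖χ x • gradient (φ n) x + φ n x • gradient χ x‖ ^ 2)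
          + ∫ x, (V x * χ x ^ 2) * (φ n x * φ n x) := by
      intro n
      have := D.gap (fun x => χ x * φ n x) (hχ.mul (hφ1 n)) (hφc n).mul_left
      rw [en_gradient_mul hχ (hφ1 n)] at this
      refine this.trans (le_of_eq ?_)
      congr 2; funext x; ring
    obtain ⟨m0, m1⟩ := enH1_mul_tendsto hχ hχc hH hf h0 h1
    have hHm : ∀ n, IsH1 (fun x => χ x * φ n x) (fun x => χ x • gradient (φ n) x + φ n x • gradient χ x) :=
      fun n => enH1_mul_contDiff (hH n) hχ hχc
    have hfm := enH1_mul_contDiff hf hχ hχc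
    have t0 := R259.ws_tendsto_sq (fun n => (hHm n).1) hfm.1 m0
    have t1 := R259.ws_tendsto_norm_sq (fun n => (hHm n).2.1) hfm.2.1 m1
    have t2 := en_tendsto_pot (en_mul_mem_potentialClass (χ := fun x => χ x ^ 2) D.V_loc (hχ.continuous.pow 2)
      (by simp only [sq]; exact hχc.mul_left (f := χ))) hH hf hH hf h0 h1 h0 h1
    have t3 := R259.ws_tendsto_mul (fun _ : ℕ => D.g_h1.1) D.g_h1.1 (fun n => (hHm n).1) hfm.1
      (en_const_tendsto_sq g) m0
    have lhs := (t0.sub ((t3.pow 2).div_const 2)).const_mul d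
    have rhs := (t1.const_mul (1 / 2)).add t2
    have := le_of_tendsto_of_tendsto' lhs rhs hn
    refine this.trans (le_of_eq ?_)
    congr 2; funext x; ring
  obtain ⟨c0, c1⟩ := enH1_cut_tendsto hf
  have t0 := R259.ws_tendsto_sq (fun k => (enH1_cut hf k).1) hf.1 c0
  have t1 := R259.ws_tendsto_norm_sq (fun k => (enH1_cut hf k).2.1) hf.2.1 c1
  have t2 := en_cut_tendsto_integral hV 2
  have t3 := R259.ws_tendsto_mul (fun _ : ℕ => D.g_h1.1) D.g_h1.1 (fun k => (enH1_cut hf k).1) hf.1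
    (en_const_tendsto_sq g) c0
  have lhs := (t0.sub ((t3.pow 2).div_const 2)).const_mul d
  have rhs := (t1.const_mul (1 / 2)).add t2
  exact le_of_tendsto_of_tendsto' lhs rhs step1

theorem EnData.integrable_V_g (D : EnData g h V Gg Gh d) : Integrable fun x => V x * g x ^ 2 := by
  refine D.V_int.mono (D.V_meas.mul (D.g_cont.pow 2).aestronglyMeasurable) (ae_of_all _ fun x => ?_)
  rw [norm_mul, norm_mul, Real.norm_eq_abs, Real.norm_eq_abs, Real.norm_eq_abs, Real.norm_eq_abs, abs_abs,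
    mul_comm, abs_of_nonneg (sq_nonneg (g x)), abs_of_nonneg (add_nonneg (sq_nonneg (g x)) (sq_nonneg (h x)))]
  exact mul_le_mul_of_nonneg_right (le_add_of_nonneg_right (sq_nonneg _)) (abs_nonneg _)

theorem EnData.integrable_V_h (D : EnData g h V Gg Gh d) : Integrable fun x => V x * h x ^ 2 := by
  refine D.V_int.mono (D.V_meas.mul (D.h_cont.pow 2).aestronglyMeasurable) (ae_of_all _ fun x => ?_)
  rw [norm_mul, norm_mul, Real.norm_eq_abs, Real.norm_eq_abs, Real.norm_eq_abs, Real.norm_eq_abs, abs_abs,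
    mul_comm, abs_of_nonneg (sq_nonneg (h x)), abs_of_nonneg (add_nonneg (sq_nonneg (g x)) (sq_nonneg (h x)))]
  exact mul_le_mul_of_nonneg_right (le_add_of_nonneg_left (sq_nonneg _)) (abs_nonneg _)

theorem en_qV_g (D : EnData g h V Gg Gh d) : (1 / 2) * (∫ x, ‖Gg x‖ ^ 2) + (∫ x, V x * g x ^ 2) = 0 := by
  have := en_weak_eq_self D.V_meas D.V_loc (ε := 0) D.g_h1 D.integrable_V_g
    (fun φ h1 h2 => by rw [D.g_eq φ h1 h2]; simp)
  simpa using this

theorem en_qV_h (D : EnData g h V Gg Gh d) : (1 / 2) * (∫ x, ‖Gh x‖ ^ 2) + (∫ x, V x * h x ^ 2) = d := by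
  have := en_weak_eq_self D.V_meas D.V_loc (ε := d) D.h_h1 D.integrable_V_h D.h_eq
  rw [this, D.h_norm, mul_one]

end Claimed.Open.R278
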