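import Claimed.Open.R278.ENSlice

/-!
# Result 278, layer L7: the Pauli bound `∑ᵢ (P_u ⊗ 1_{ℂ²})ᵢ ≤ 2` on antisymmetric states   (all PROVED)

* `en_pauli_scalar`: REAL SCALAR functions `ψ ∈ L²(ℝ⁹)`, antisymmetric under the transpositions of a set `S` of electrons.
  With `enTh u ψ i y = ∫ u(r) ψ(i.insertNth r y) dr`, `enPr u ψ i x = u (x i) * enTh u ψ i (i.removeNth x)`:
  `∫ ψ * enPr i = ∫ (enPr i)² = ∫ (enTh i)²` (Fubini, no antisymmetry), `∫ enPr i * enPr j ≤ 0` for `i ≠ j ∈ S` (two Fubini steps: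
  `= ∫_w κ w * κ' w`, `κ' = - κ` by antisymmetry), and `0 ≤ ∫ (ψ - ∑_{i ∈ S} enPr i)²`.
* `en_pauli`: apply `en_pauli_scalar` to the 16 real components `enCmp c ∘ Φ`, `c = (s, ·)`, with `S = {i | s i = σ}`, `σ = 0, 1`.
-/

open MeasureTheory Filter
open scoped ContDiff InnerProductSpace ComplexConjugate ENNReal Topology
open Claimed.Agent

noncomputable section

namespace Claimed.Open.R278

variable {n : ℕ}

/-- `θ i y = ∫ u(r) ψ(x) dr`, where `x i = r` and the other electrons are at `y` -/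
def enTh (u : Space → ℝ) (ψ : Config (n + 1) → ℝ) (i : Fin (n + 1)) (y : Config n) : ℝ :=
  ∫ r, u r * ψ (i.insertNth r y : Config (n + 1))

/-- `(P_u)_i ψ` -/
def enPr (u : Space → ℝ) (ψ : Config (n + 1) → ℝ) (i : Fin (n + 1)) (x : Config (n + 1)) : ℝ :=
  u (x i) * enTh u ψ i (i.removeNth x)

variable {u : Space → ℝ} {ψ : Config (n + 1) → ℝ}

theorem enPr_ins (u : Space → ℝ) (ψ : Config (n + 1) → ℝ) (i : Fin (n + 1)) (r : Space) (y : Config n) :
    enPr u ψ i (i.insertNth r y : Config (n + 1)) = u r * enTh u ψ i y := by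
  simp [enPr]

theorem enTh_aesm (hu : AEStronglyMeasurable u volume) (hψ : AEStronglyMeasurable ψ volume) (i : Fin (n + 1)) :
    AEStronglyMeasurable (enTh u ψ i) volume := by
  have h1 : AEStronglyMeasurable (fun p : Config n × Space => u p.2 * ψ (i.insertNth p.2 p.1 : Config (n + 1)))
      (volume.prod volume) := hu.comp_snd.mul (en_aesm_comp_ins i hψ)
  exact h1.integral_prod_right'

theorem enTh_sq_le (hu : MemLp u 2 volume) (hψ : MemLp ψ 2 volume) (i : Fin (n + 1)) :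
    ∀ᵐ y : Config n, enTh u ψ i y ^ 2 ≤ (∫ r, u r ^ 2) * ∫ r, ψ (i.insertNth r y : Config (n + 1)) ^ 2 := by
  filter_upwards [en_slice_memLp hψ i] with y hy
  exact R259.ws_cauchy_schwarz_mul hu hy

theorem enTh_memLp (hu : MemLp u 2 volume) (hψ : MemLp ψ 2 volume) (i : Fin (n + 1)) :
    MemLp (enTh u ψ i) 2 volume := by
  have hm := enTh_aesm hu.1 hψ.1 i
  rw [memLp_two_iff_integrable_sq hm]
  have h1 : Integrable fun y : Config n => (∫ r, u r ^ 2) * ∫ r, ψ (i.insertNth r y : Config (n + 1)) ^ 2 :=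
    (en_integrable_integral_ins i ((memLp_two_iff_integrable_sq hψ.1).1 hψ)).const_mul _
  refine h1.mono' (hm.pow 2) ?_
  filter_upwards [enTh_sq_le hu hψ i] with y hy
  rwa [Real.norm_eq_abs, abs_of_nonneg (sq_nonneg _)]

theorem enPr_memLp (hu : MemLp u 2 volume) (hψ : MemLp ψ 2 volume) (i : Fin (n + 1)) :
    MemLp (enPr u ψ i) 2 volume := by
  have hθ := enTh_memLp hu hψ i
  have e : enPr u ψ i = (fun p : Config n × Space => enTh u ψ i p.1 * u p.2) ∘ (enIns n i).symm := by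
    funext x
    obtain ⟨p, rfl⟩ := (enIns n i).surjective x
    simp only [Function.comp_apply, MeasurableEquiv.symm_apply_apply]
    rw [enIns_apply, enPr_ins, mul_comm]
  rw [e]
  refine MemLp.comp_measurePreserving ?_ (measurePreserving_enIns i).symm
  rw [Measure.volume_eq_prod]
  have hm : AEStronglyMeasurable (fun p : Config n × Space => enTh u ψ i p.1 * u p.2) (volume.prod volume) :=
    hθ.1.comp_fst.mul hu.1.comp_snd
  rw [memLp_two_iff_integrable_sq hm]
  simp only [mul_pow]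
  exact ((memLp_two_iff_integrable_sq hθ.1).1 hθ).mul_prod ((memLp_two_iff_integrable_sq hu.1).1 hu)

theorem en_integral_mul_enPr (hu : MemLp u 2 volume) (hψ : MemLp ψ 2 volume) (i : Fin (n + 1)) :
    ∫ x, ψ x * enPr u ψ i x = ∫ y, enTh u ψ i y ^ 2 := by
  rw [en_integral_ins i (R259.ws_integrable_mul hψ (enPr_memLp hu hψ i))]
  congr 1; funext y
  simp only [enPr_ins]
  have : ∀ r, ψ (i.insertNth r y : Config (n + 1)) * (u r * enTh u ψ i y)
      = (u r * ψ (i.insertNth r y : Config (n + 1))) * enTh u ψ i y := fun r => by ring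
  simp only [this]
  rw [integral_mul_const, sq]
  rfl

theorem en_integral_enPr_sq (hu : MemLp u 2 volume) (hψ : MemLp ψ 2 volume) (i : Fin (n + 1)) :
    ∫ x, enPr u ψ i x * enPr u ψ i x = (∫ r, u r ^ 2) * ∫ y, enTh u ψ i y ^ 2 := by
  rw [en_integral_ins i (R259.ws_integrable_mul (enPr_memLp hu hψ i) (enPr_memLp hu hψ i)), ← integral_const_mul]
  congr 1; funext y
  simp only [enPr_ins]
  have : ∀ r, u r * enTh u ψ i y * (u r * enTh u ψ i y) = u r ^ 2 * enTh u ψ i y ^ 2 := fun r => by ring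
  simp only [this]
  rw [integral_mul_const]

theorem en_ins_ins_swap (i : Fin (n + 2)) (j' : Fin (n + 1)) (r r' : Space) (w : Config n) :
    (i.insertNth r (j'.insertNth r' w : Config (n + 1)) : Config (n + 2)) ∘ Equiv.swap i (i.succAbove j')
      = (i.insertNth r' (j'.insertNth r w : Config (n + 1)) : Config (n + 2)) := by
  funext m
  rcases Fin.eq_self_or_eq_succAbove i m with rfl | ⟨k, rfl⟩
  · simp
  · rcases Fin.eq_self_or_eq_succAbove j' k with rfl | ⟨l, rfl⟩
    · simp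
    · have h1 : i.succAbove (j'.succAbove l) ≠ i := Fin.succAbove_ne _ _
      have h2 : i.succAbove (j'.succAbove l) ≠ i.succAbove j' := fun h =>
        Fin.succAbove_ne _ _ (Fin.succAbove_right_injective h)
      simp [Equiv.swap_apply_of_ne_of_ne h1 h2]

theorem enPr_ins_ins (u : Space → ℝ) (ψ : Config (n + 2) → ℝ) (i : Fin (n + 2)) (j' : Fin (n + 1)) (r r' : Space)
    (w : Config n) :
    enPr u ψ (i.succAbove j') (i.insertNth r (j'.insertNth r' w : Config (n + 1)) : Config (n + 2))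
      = u r' * ∫ s, u s * ψ (i.insertNth r (j'.insertNth s w : Config (n + 1)) : Config (n + 2)) := by
  unfold enPr enTh
  simp only [Fin.insertNth_apply_succAbove, Fin.insertNth_apply_same, Fin.insertNth_removeNth]
  congr 2; funext s
  rw [← Fin.insertNth_update, Fin.update_insertNth]

theorem enPr_cross {ψ : Config (n + 2) → ℝ} (hu : MemLp u 2 volume) (hψ : MemLp ψ 2 volume) (i : Fin (n + 2))
    (j' : Fin (n + 1)) (has : ∀ᵐ x : Config (n + 2), ψ (x ∘ Equiv.swap i (i.succAbove j')) = - ψ x) :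
    ∫ x, enPr u ψ i x * enPr u ψ (i.succAbove j') x ≤ 0 := by
  have hI := R259.ws_integrable_mul (enPr_memLp hu hψ i) (enPr_memLp hu hψ (i.succAbove j'))
  rw [en_integral_ins i hI, en_integral_ins j' (en_integrable_integral_ins i hI)]
  have h1 := en_ae_ins j' (en_ae_ins i has)
  refine integral_nonpos_of_ae ?_
  filter_upwards [h1] with w hw
  simp only [en_ins_ins_swap] at hw
  simp only [Pi.zero_apply, enPr_ins, enPr_ins_ins]
  -- `β r = - α r`
  have hβ : ∀ᵐ r : Space, (∫ s, u s * ψ (i.insertNth r (j'.insertNth s w : Config (n + 1)) : Config (n + 2)))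
      = - enTh u ψ i (j'.insertNth r w : Config (n + 1)) := by
    filter_upwards [hw] with r hr
    unfold enTh
    rw [← integral_neg]
    refine integral_congr_ae ?_
    filter_upwards [hr] with s hs
    rw [hs]; ring
  have e1 : ∀ r' r : Space, u r * enTh u ψ i (j'.insertNth r' w : Config (n + 1)) *
      (u r' * ∫ s, u s * ψ (i.insertNth r (j'.insertNth s w : Config (n + 1)) : Config (n + 2)))
      = (u r' * enTh u ψ i (j'.insertNth r' w : Config (n + 1))) *
        (u r * ∫ s, u s * ψ (i.insertNth r (j'.insertNth s w : Config (n + 1)) : Config (n + 2))) :=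
    fun r' r => by ring
  simp only [e1]
  simp only [integral_const_mul, integral_mul_const]
  have e2 : (∫ r, u r * ∫ s, u s * ψ (i.insertNth r (j'.insertNth s w : Config (n + 1)) : Config (n + 2)))
      = - ∫ r, u r * enTh u ψ i (j'.insertNth r w : Config (n + 1)) := by
    rw [← integral_neg]
    refine integral_congr_ae ?_
    filter_upwards [hβ] with r hr
    rw [hr]; ring
  rw [e2]
  nlinarith [sq_nonneg (∫ r, u r * enTh u ψ i (j'.insertNth r w : Config (n + 1)))]

/-- EN-PA1 -/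
theorem en_pauli_scalar {ψ : Config 3 → ℝ} (hψ : MemLp ψ 2 volume) (S : Finset (Fin 3))
    (hS : ∀ i ∈ S, ∀ j ∈ S, i ≠ j → ∀ᵐ x : Config 3, ψ (x ∘ Equiv.swap i j) = - ψ x)
    {u : Space → ℝ} (hu : MemLp u 2 volume) (hu1 : (∫ r, u r ^ 2) = 1) :
    (∀ i : Fin 3, Integrable fun y : Config 2 => (∫ r, u r * ψ (i.insertNth r y : Config 3)) ^ 2) ∧
    ∑ i ∈ S, ∫ y : Config 2, (∫ r, u r * ψ (i.insertNth r y : Config 3)) ^ 2 ≤ ∫ x, ψ x ^ 2 := by
  refine ⟨fun i => (memLp_two_iff_integrable_sq (enTh_memLp hu hψ i).1).1 (enTh_memLp hu hψ i), ?_⟩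
  change ∑ i ∈ S, ∫ y : Config 2, enTh u ψ i y ^ 2 ≤ _
  have hP := fun i => enPr_memLp hu hψ i
  have i0 : Integrable fun x => ψ x ^ 2 := (memLp_two_iff_integrable_sq hψ.1).1 hψ
  have i1 : ∀ i, Integrable fun x => ψ x * enPr u ψ i x := fun i => R259.ws_integrable_mul hψ (hP i)
  have i2 : ∀ i j, Integrable fun x => enPr u ψ i x * enPr u ψ j x := fun i j => R259.ws_integrable_mul (hP i) (hP j)
  have e : ∀ x, (ψ x - ∑ i ∈ S, enPr u ψ i x) ^ 2
      = ψ x ^ 2 - 2 * ∑ i ∈ S, ψ x * enPr u ψ i x + ∑ i ∈ S, ∑ j ∈ S, enPr u ψ i x * enPr u ψ j x := by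
    intro x
    rw [sub_sq, ← Finset.mul_sum, ← Finset.sum_mul_sum, sq (∑ i ∈ S, enPr u ψ i x)]
    ring
  have h0 : 0 ≤ ∫ x, (ψ x - ∑ i ∈ S, enPr u ψ i x) ^ 2 := integral_nonneg fun _ => sq_nonneg _
  simp only [e] at h0
  have j1 : Integrable fun x => ∑ i ∈ S, ψ x * enPr u ψ i x := integrable_finsetSum _ fun i _ => i1 i
  have j2 : Integrable fun x => ∑ i ∈ S, ∑ j ∈ S, enPr u ψ i x * enPr u ψ j x :=
    integrable_finsetSum _ fun i _ => integrable_finsetSum _ fun j _ => i2 i j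
  have j3 : Integrable fun x => ψ x ^ 2 - 2 * ∑ i ∈ S, ψ x * enPr u ψ i x := i0.sub (j1.const_mul 2)
  rw [integral_add j3 j2, integral_sub i0 (j1.const_mul 2), integral_const_mul,
    integral_finsetSum _ fun i _ => i1 i, integral_finsetSum _ fun i _ => integrable_finsetSum _ fun j _ => i2 i j] at h0
  simp only [integral_finsetSum _ fun j _ => i2 _ j, en_integral_mul_enPr hu hψ] at h0
  have h2 : ∑ i ∈ S, ∑ j ∈ S, ∫ x, enPr u ψ i x * enPr u ψ j x ≤ ∑ i ∈ S, ∫ y, enTh u ψ i y ^ 2 := by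
    refine Finset.sum_le_sum fun i hi => ?_
    rw [← Finset.add_sum_erase S _ hi, en_integral_enPr_sq hu hψ, hu1, one_mul]
    have : ∑ j ∈ S.erase i, ∫ x, enPr u ψ i x * enPr u ψ j x ≤ 0 := by
      refine Finset.sum_nonpos fun j hj => ?_
      obtain ⟨hji, hjS⟩ := Finset.mem_erase.1 hj
      obtain ⟨j', rfl⟩ := Fin.exists_succAbove_eq hji
      exact enPr_cross hu hψ i j' (hS i hi _ hjS hji.symm)
    linarith
  linarith

/-- EN-PA2 -/
theorem en_pauli {Φ : L2 3} (ha : IsAntisymmetric Φ) {u : Space → ℝ} (hu : MemLp u 2 volume)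
    (hu1 : (∫ r, u r ^ 2) = 1) :
    (∀ i c, Integrable fun y : Config 2 => (∫ r, u r * enSl Φ i c y r) ^ 2) ∧
    ∑ i, ∑ c, ∫ y : Config 2, (∫ r, u r * enSl Φ i c y r) ^ 2 ≤ 2 * ‖Φ‖ ^ 2 := by
  have hm : ∀ c, MemLp (fun x : Config 3 => enCmp c (Φ x)) 2 volume := fun c => by
    have := (enCmpL c).comp_memLp' (Lp.memLp Φ)
    simpa only [Function.comp_def, enCmpL_apply] using this
  have hanti : ∀ (c : SpinConfig 3 × Fin 2) (σ : Fin 2), ∀ i ∈ Finset.univ.filter (fun i => c.1 i = σ),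
      ∀ j ∈ Finset.univ.filter (fun i => c.1 i = σ), i ≠ j →
      ∀ᵐ x : Config 3, enCmp c (Φ (x ∘ Equiv.swap i j)) = - enCmp c (Φ x) := by
    intro c σ i hi j hj hij
    have hi' : c.1 i = σ := (Finset.mem_filter.1 hi).2
    have hj' : c.1 j = σ := (Finset.mem_filter.1 hj).2
    have hs : c.1 ∘ Equiv.swap i j = c.1 := by
      funext k
      simp only [Function.comp_apply]
      by_cases h1 : k = i
      · subst h1; rw [Equiv.swap_apply_left, hi', hj']
      · by_cases h2 : k = j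
        · subst h2; rw [Equiv.swap_apply_right, hi', hj']
        · rw [Equiv.swap_apply_of_ne_of_ne h1 h2]
    filter_upwards [ha (Equiv.swap i j)] with x hx
    have h3 := hx c.1
    rw [hs, Equiv.Perm.sign_swap hij] at h3
    unfold enCmp
    rw [h3]
    split_ifs <;> simp
  have key := fun (c : SpinConfig 3 × Fin 2) (σ : Fin 2) =>
    en_pauli_scalar (hm c) (Finset.univ.filter (fun i => c.1 i = σ)) (hanti c σ) hu hu1
  refine ⟨fun i c => (key c 0).1 i, ?_⟩
  rw [Finset.sum_comm]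
  have h1 : ∀ c : SpinConfig 3 × Fin 2, ∑ i, ∫ y : Config 2, (∫ r, u r * enSl Φ i c y r) ^ 2
      ≤ 2 * ∫ x : Config 3, enCmp c (Φ x) ^ 2 := by
    intro c
    rw [← Finset.sum_fiberwise Finset.univ (fun i => c.1 i), Fin.sum_univ_two]
    have a0 := (key c 0).2
    have a1 := (key c 1).2
    have : ∀ σ : Fin 2, ∑ i ∈ Finset.univ.filter (fun i => c.1 i = σ),
        ∫ y : Config 2, (∫ r, u r * enSl Φ i c y r) ^ 2 ≤ ∫ x : Config 3, enCmp c (Φ x) ^ 2 := fun σ => (key c σ).2
    linarith [this 0, this 1]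
  refine (Finset.sum_le_sum fun c _ => h1 c).trans (le_of_eq ?_)
  rw [← Finset.mul_sum, norm_sq_eq_integral,
    ← integral_finsetSum _ fun c _ => (memLp_two_iff_integrable_sq (hm c).1).1 (hm c)]
  simp only [en_norm_sq_eq_sum_cmp]

end Claimed.Open.R278
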