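import Mathlib

/-!
# Mollification in `L²` and density of `C¹_c` in `H¹`

General lemmas (on a finite dimensional real normed space with a Haar measure) used for the checked
example of a noninteracting ground state.
-/

open MeasureTheory Convolution ContinuousLinearMap Metric Filter Topology Set
open scoped ContDiff

noncomputable section

set_option linter.unusedSectionVars false

namespace Claimed.Open.R278

/-- Weighted Cauchy–Schwarz inequality `(∫ ρ h)² ≤ (∫ ρ) (∫ ρ h²)`. -/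
theorem sq_integral_mul_le {α : Type*} [MeasurableSpace α] {ν : Measure α} {ρ h : α → ℝ}
    (hρ : ∀ x, 0 ≤ ρ x) (i0 : Integrable ρ ν) (i1 : Integrable (fun x => ρ x * h x) ν)
    (i2 : Integrable (fun x => ρ x * h x ^ 2) ν) :
    (∫ x, ρ x * h x ∂ν) ^ 2 ≤ (∫ x, ρ x ∂ν) * ∫ x, ρ x * h x ^ 2 ∂ν := by
  have key : ∀ t : ℝ, 0 ≤ (∫ x, ρ x ∂ν) * (t * t) + (2 * ∫ x, ρ x * h x ∂ν) * t
      + ∫ x, ρ x * h x ^ 2 ∂ν := by
    intro t
    have e : ∫ x, ρ x * (t + h x) ^ 2 ∂ν = (∫ x, ρ x ∂ν) * (t * t) + (2 * ∫ x, ρ x * h x ∂ν) * t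
        + ∫ x, ρ x * h x ^ 2 ∂ν := by
      have : ∀ x, ρ x * (t + h x) ^ 2 = ρ x * (t * t) + (2 * t) * (ρ x * h x) + ρ x * h x ^ 2 := by
        intro x; ring
      simp only [this]
      have j0 : Integrable (fun x => ρ x * (t * t)) ν := i0.mul_const _
      have j1 : Integrable (fun x => (2 * t) * (ρ x * h x)) ν := i1.const_mul _
      have j2 : Integrable (fun x => ρ x * (t * t) + (2 * t) * (ρ x * h x)) ν := j0.add j1
      rw [integral_add j2 i2, integral_add j0 j1, integral_mul_const, integral_const_mul]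
      ring
    rw [← e]
    exact integral_nonneg fun x => mul_nonneg (hρ x) (sq_nonneg _)
  have := discrim_le_zero key
  rw [discrim] at this
  nlinarith

variable {X E : Type*} [NormedAddCommGroup X] [NormedSpace ℝ X] [FiniteDimensional ℝ X]
  [MeasurableSpace X] [BorelSpace X] {μ : Measure X} [μ.IsAddHaarMeasure]
  [NormedAddCommGroup E] [NormedSpace ℝ E] [CompleteSpace E]

/-- Mollification `(ρ ⋆ f)(x) = ∫ ρ(t) f(x - t) dt`. -/
def moll (μ : Measure X) (ρ : X → ℝ) (f : X → E) : X → E := ρ ⋆[lsmul ℝ ℝ, μ] f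

theorem moll_apply (ρ : X → ℝ) (f : X → E) (x : X) : moll μ ρ f x = ∫ t, ρ t • f (x - t) ∂μ := rfl

theorem moll_apply_swap (ρ : X → ℝ) (f : X → E) (x : X) :
    moll μ ρ f x = ∫ t, ρ (x - t) • f t ∂μ := by
  rw [moll, convolution_eq_swap]; rfl

section Contraction

variable {ρ : X → ℝ} (hρc : Continuous ρ) (hρs : HasCompactSupport ρ) (hρ0 : ∀ x, 0 ≤ ρ x)
  (hρ1 : ∫ x, ρ x ∂μ = 1)

include hρc hρs in
theorem continuous_moll {f : X → E} (hf : LocallyIntegrable f μ) : Continuous (moll μ ρ f) :=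
  hρs.continuous_convolution_left _ hρc hf

include hρc hρs hρ0 hρ1 in
theorem norm_sq_moll_le {f : X → E} (hf : MemLp f 2 μ) (x : X) :
    ‖moll μ ρ f x‖ ^ 2 ≤ (ρ ⋆[lsmul ℝ ℝ, μ] fun y => ‖f y‖ ^ 2) x := by
  have hsq : Integrable (fun y => ‖f y‖ ^ 2) μ := (memLp_two_iff_integrable_sq_norm hf.1).1 hf
  have hm : AEStronglyMeasurable (fun t => f (x - t)) μ :=
    hf.1.comp_measurePreserving (μ.measurePreserving_sub_left x)
  have hsq' : Integrable (fun t => ‖f (x - t)‖ ^ 2) μ := hsq.comp_sub_left x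
  obtain ⟨C, hC⟩ := hρs.exists_bound_of_continuous hρc
  have i0 : Integrable ρ μ := hρc.integrable_of_hasCompactSupport hρs
  have i2 : Integrable (fun t => ρ t * ‖f (x - t)‖ ^ 2) μ :=
    hsq'.bdd_mul hρc.aestronglyMeasurable (Eventually.of_forall hC)
  have i1 : Integrable (fun t => ρ t * ‖f (x - t)‖) μ := by
    refine Integrable.mono' (i0.add i2) (hρc.aestronglyMeasurable.mul hm.norm) ?_
    refine Eventually.of_forall fun t => ?_
    rw [Real.norm_eq_abs, abs_of_nonneg (mul_nonneg (hρ0 t) (norm_nonneg _))]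
    have : ‖f (x - t)‖ ≤ 1 + ‖f (x - t)‖ ^ 2 := by nlinarith [sq_nonneg (‖f (x - t)‖ - 1)]
    calc ρ t * ‖f (x - t)‖ ≤ ρ t * (1 + ‖f (x - t)‖ ^ 2) := mul_le_mul_of_nonneg_left this (hρ0 t)
      _ = (ρ + fun t => ρ t * ‖f (x - t)‖ ^ 2) t := by simp only [Pi.add_apply]; ring
  have h1 : ‖moll μ ρ f x‖ ≤ ∫ t, ρ t * ‖f (x - t)‖ ∂μ := by
    rw [moll_apply]
    refine (norm_integral_le_integral_norm _).trans (le_of_eq ?_)
    refine integral_congr_ae (Eventually.of_forall fun t => ?_)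
    simp only [norm_smul, Real.norm_eq_abs, abs_of_nonneg (hρ0 t)]
  have h2 := sq_integral_mul_le hρ0 i0 i1 i2
  rw [hρ1, one_mul] at h2
  calc ‖moll μ ρ f x‖ ^ 2 ≤ (∫ t, ρ t * ‖f (x - t)‖ ∂μ) ^ 2 :=
        pow_le_pow_left₀ (norm_nonneg _) h1 2
    _ ≤ ∫ t, ρ t * ‖f (x - t)‖ ^ 2 ∂μ := h2
    _ = _ := rfl

include hρc hρs hρ0 hρ1 in
/-- Mollification is a contraction of `L²`. -/
theorem memLp_moll {f : X → E} (hf : MemLp f 2 μ) :
    MemLp (moll μ ρ f) 2 μ ∧ ∫ x, ‖moll μ ρ f x‖ ^ 2 ∂μ ≤ ∫ x, ‖f x‖ ^ 2 ∂μ := by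
  have hsq : Integrable (fun y => ‖f y‖ ^ 2) μ := (memLp_two_iff_integrable_sq_norm hf.1).1 hf
  have i0 : Integrable ρ μ := hρc.integrable_of_hasCompactSupport hρs
  have hc : Continuous (moll μ ρ f) :=
    continuous_moll hρc hρs (hf.locallyIntegrable (by norm_num))
  have hI : Integrable (ρ ⋆[lsmul ℝ ℝ, μ] fun y => ‖f y‖ ^ 2) μ := i0.integrable_convolution _ hsq
  have hi : Integrable (fun x => ‖moll μ ρ f x‖ ^ 2) μ := by
    refine Integrable.mono' hI (hc.norm.pow 2).aestronglyMeasurable ?_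
    refine Eventually.of_forall fun x => ?_
    rw [Real.norm_eq_abs, abs_of_nonneg (sq_nonneg _)]
    exact norm_sq_moll_le hρc hρs hρ0 hρ1 hf x
  refine ⟨(memLp_two_iff_integrable_sq_norm hc.aestronglyMeasurable).2 hi, ?_⟩
  calc ∫ x, ‖moll μ ρ f x‖ ^ 2 ∂μ ≤ ∫ x, (ρ ⋆[lsmul ℝ ℝ, μ] fun y => ‖f y‖ ^ 2) x ∂μ :=
        integral_mono hi hI (norm_sq_moll_le hρc hρs hρ0 hρ1 hf)
    _ = ∫ x, ‖f x‖ ^ 2 ∂μ := by
        rw [integral_convolution _ i0 hsq, hρ1]; simp

end Contraction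

theorem moll_sub {ρ : X → ℝ} (hρc : Continuous ρ) (hρs : HasCompactSupport ρ) {f g : X → E}
    (hf : LocallyIntegrable f μ) (hg : LocallyIntegrable g μ) (x : X) :
    moll μ ρ (fun y => f y - g y) x = moll μ ρ f x - moll μ ρ g x := by
  have h1 : Integrable (fun t => ρ t • f (x - t)) μ :=
    (hρs.convolutionExists_left (lsmul ℝ ℝ) hρc hf x).integrable
  have h2 : Integrable (fun t => ρ t • g (x - t)) μ :=
    (hρs.convolutionExists_left (lsmul ℝ ℝ) hρc hg x).integrable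
  rw [moll_apply, moll_apply, moll_apply, ← integral_sub h1 h2]
  simp only [smul_sub]

/-- A sequence of bump functions whose supports shrink to the origin. -/
def bumpSeq (n : ℕ) : ContDiffBump (0 : X) where
  rIn := 1 / (2 * ((n : ℝ) + 1))
  rOut := 1 / ((n : ℝ) + 1)
  rIn_pos := by positivity
  rIn_lt_rOut := by
    apply one_div_lt_one_div_of_lt (by positivity)
    have : (0 : ℝ) ≤ n := Nat.cast_nonneg n
    linarith

/-- The corresponding mollifiers. -/
def mollSeq (μ : Measure X) (n : ℕ) : X → ℝ := (bumpSeq n).normed μ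

theorem contDiff_mollSeq (n : ℕ) : ContDiff ℝ ∞ (mollSeq μ n) := (bumpSeq n).contDiff_normed
theorem continuous_mollSeq (n : ℕ) : Continuous (mollSeq μ n) := (bumpSeq n).continuous_normed
theorem hasCompactSupport_mollSeq (n : ℕ) : HasCompactSupport (mollSeq μ n) :=
  (bumpSeq n).hasCompactSupport_normed
theorem mollSeq_nonneg (n : ℕ) (x : X) : 0 ≤ mollSeq μ n x := (bumpSeq n).nonneg_normed x
theorem integral_mollSeq (n : ℕ) : ∫ x, mollSeq μ n x ∂μ = 1 := (bumpSeq n).integral_normed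

/-- Mollification of a continuous compactly supported function converges in `L²`. -/
theorem exists_moll_close_of_continuous {g : X → E} (hg : Continuous g) (hgs : HasCompactSupport g)
    {η : ℝ} (hη : 0 < η) :
    ∃ N : ℕ, ∀ n ≥ N, ∫ x, ‖moll μ (mollSeq μ n) g x - g x‖ ^ 2 ∂μ ≤ η := by
  set K := cthickening 1 (tsupport g) with hK
  have hKc : IsCompact K := hgs.isCompact.cthickening
  have hKfin : μ K ≠ ⊤ := hKc.measure_lt_top.ne
  set V := μ.real K with hV
  have hV0 : 0 ≤ V := measureReal_nonneg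
  set w₀ := Real.sqrt (η / (V + 1)) with hw₀
  have hw₀pos : 0 < w₀ := Real.sqrt_pos.mpr (by positivity)
  have hw₀2 : w₀ ^ 2 * V ≤ η := by
    rw [hw₀, Real.sq_sqrt (by positivity), div_mul_eq_mul_div, div_le_iff₀ (by positivity)]
    nlinarith
  obtain ⟨δ, hδ, hu⟩ := Metric.uniformContinuous_iff.mp
    (hgs.uniformContinuous_of_continuous hg) w₀ hw₀pos
  obtain ⟨N, hN⟩ := exists_nat_gt (1 / δ)
  refine ⟨N, fun n hn => ?_⟩
  have hr : (bumpSeq n : ContDiffBump (0 : X)).rOut < δ := by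
    show 1 / ((n : ℝ) + 1) < δ
    have h1 : 1 / δ < (n : ℝ) + 1 := by
      have : (N : ℝ) ≤ n := by exact_mod_cast hn
      linarith
    rw [div_lt_iff₀ (by positivity)]
    rw [div_lt_iff₀ hδ] at h1
    linarith
  have hr1 : (bumpSeq n : ContDiffBump (0 : X)).rOut ≤ 1 := by
    show 1 / ((n : ℝ) + 1) ≤ 1
    rw [div_le_one (by positivity)]
    have : (0 : ℝ) ≤ n := Nat.cast_nonneg n
    linarith
  have hb : ∀ x, ‖moll μ (mollSeq μ n) g x - g x‖ ^ 2 ≤ K.indicator (fun _ => w₀ ^ 2) x := by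
    intro x
    by_cases hx : x ∈ K
    · rw [indicator_of_mem hx]
      have := (bumpSeq n).dist_normed_convolution_le (μ := μ) (x₀ := x) (ε := w₀)
        hg.aestronglyMeasurable (fun y hy => (hu (lt_trans (mem_ball.mp hy) hr)).le)
      rw [dist_eq_norm] at this
      exact pow_le_pow_left₀ (norm_nonneg _) this 2
    · rw [indicator_of_notMem hx]
      have hz : ∀ y ∈ ball x (bumpSeq n : ContDiffBump (0 : X)).rOut, g y = 0 := by
        intro y hy
        by_contra hne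
        apply hx
        have hy' : y ∈ tsupport g := subset_tsupport g hne
        apply mem_cthickening_of_dist_le x y 1 _ hy'
        rw [dist_comm]
        exact (mem_ball.mp hy).le.trans hr1
      have hx0 : g x = 0 := hz x (mem_ball_self (bumpSeq n).rOut_pos)
      have := (bumpSeq n).normed_convolution_eq_right (μ := μ) (x₀ := x) (g := g)
        (fun y hy => by rw [hz y hy, hx0])
      have e : moll μ (mollSeq μ n) g x = g x := this
      rw [e]; simp
  have hcont : Continuous (moll μ (mollSeq μ n) g) :=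
    continuous_moll (continuous_mollSeq n) (hasCompactSupport_mollSeq n) hg.locallyIntegrable
  have hI : Integrable (K.indicator (fun _ => w₀ ^ 2)) μ :=
    (integrable_indicator_iff hKc.measurableSet).2 (integrableOn_const hKfin)
  calc ∫ x, ‖moll μ (mollSeq μ n) g x - g x‖ ^ 2 ∂μ ≤ ∫ x, K.indicator (fun _ => w₀ ^ 2) x ∂μ := by
        apply integral_mono_of_nonneg (Eventually.of_forall fun x => sq_nonneg _) hI
          (Eventually.of_forall hb)
    _ = V * w₀ ^ 2 := by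
        rw [integral_indicator_const _ hKc.measurableSet, smul_eq_mul]
    _ ≤ η := by linarith

theorem norm_add_three_sq_le (a b c : E) :
    ‖a + b + c‖ ^ 2 ≤ 3 * (‖a‖ ^ 2 + ‖b‖ ^ 2 + ‖c‖ ^ 2) := by
  have h : ‖a + b + c‖ ≤ ‖a‖ + ‖b‖ + ‖c‖ := norm_add₃_le
  have h2 : ‖a + b + c‖ ^ 2 ≤ (‖a‖ + ‖b‖ + ‖c‖) ^ 2 := pow_le_pow_left₀ (norm_nonneg _) h 2
  nlinarith [sq_nonneg (‖a‖ - ‖b‖), sq_nonneg (‖a‖ - ‖c‖), sq_nonneg (‖b‖ - ‖c‖)]

/-- Mollification converges in `L²`. -/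
theorem exists_moll_close {f : X → E} (hf : MemLp f 2 μ) {η : ℝ} (hη : 0 < η) :
    ∃ N : ℕ, ∀ n ≥ N, ∫ x, ‖moll μ (mollSeq μ n) f x - f x‖ ^ 2 ∂μ ≤ η := by
  have hf' : MemLp f (ENNReal.ofReal 2) μ := by simpa using hf
  obtain ⟨g, hgs, hfg, hgc, hg2⟩ :=
    hf'.exists_hasCompactSupport_integral_rpow_sub_le (by norm_num) (show 0 < η / 9 by positivity)
  have hg2 : MemLp g 2 μ := by simpa using hg2
  have hfg : ∫ x, ‖f x - g x‖ ^ 2 ∂μ ≤ η / 9 := by
    simpa only [Real.rpow_two] using hfg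
  obtain ⟨N, hN⟩ := exists_moll_close_of_continuous (μ := μ) hgc hgs (show 0 < η / 9 by positivity)
  refine ⟨N, fun n hn => ?_⟩
  have hd : MemLp (fun y => f y - g y) 2 μ := hf.sub hg2
  obtain ⟨hm, hle⟩ := memLp_moll (continuous_mollSeq n) (hasCompactSupport_mollSeq n)
    (mollSeq_nonneg n) (integral_mollSeq n) hd
  have hmg := (memLp_moll (continuous_mollSeq n) (hasCompactSupport_mollSeq n)
    (mollSeq_nonneg n) (integral_mollSeq n) hg2).1
  have i1 : Integrable (fun x => ‖moll μ (mollSeq μ n) (fun y => f y - g y) x‖ ^ 2) μ :=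
    (memLp_two_iff_integrable_sq_norm hm.1).1 hm
  have i2 : Integrable (fun x => ‖moll μ (mollSeq μ n) g x - g x‖ ^ 2) μ :=
    (memLp_two_iff_integrable_sq_norm (hmg.sub hg2).1).1 (hmg.sub hg2)
  have i3 : Integrable (fun x => ‖f x - g x‖ ^ 2) μ := (memLp_two_iff_integrable_sq_norm hd.1).1 hd
  have hpt : ∀ x, ‖moll μ (mollSeq μ n) f x - f x‖ ^ 2 ≤
      3 * (‖moll μ (mollSeq μ n) (fun y => f y - g y) x‖ ^ 2
        + ‖moll μ (mollSeq μ n) g x - g x‖ ^ 2 + ‖f x - g x‖ ^ 2) := by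
    intro x
    have e : moll μ (mollSeq μ n) f x - f x = moll μ (mollSeq μ n) (fun y => f y - g y) x
        + (moll μ (mollSeq μ n) g x - g x) + (g x - f x) := by
      rw [moll_sub (continuous_mollSeq n) (hasCompactSupport_mollSeq n)
        (hf.locallyIntegrable (by norm_num)) (hg2.locallyIntegrable (by norm_num))]
      abel
    rw [e, norm_sub_rev (f x) (g x)]
    exact norm_add_three_sq_le _ _ _
  calc ∫ x, ‖moll μ (mollSeq μ n) f x - f x‖ ^ 2 ∂μ
      ≤ ∫ x, 3 * (‖moll μ (mollSeq μ n) (fun y => f y - g y) x‖ ^ 2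
        + ‖moll μ (mollSeq μ n) g x - g x‖ ^ 2 + ‖f x - g x‖ ^ 2) ∂μ :=
        integral_mono_of_nonneg (Eventually.of_forall fun x => sq_nonneg _)
          (((i1.add i2).add i3).const_mul 3) (Eventually.of_forall hpt)
    _ = 3 * ((∫ x, ‖moll μ (mollSeq μ n) (fun y => f y - g y) x‖ ^ 2 ∂μ)
        + (∫ x, ‖moll μ (mollSeq μ n) g x - g x‖ ^ 2 ∂μ) + ∫ x, ‖f x - g x‖ ^ 2 ∂μ) := by
        have i12 : Integrable (fun x => ‖moll μ (mollSeq μ n) (fun y => f y - g y) x‖ ^ 2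
            + ‖moll μ (mollSeq μ n) g x - g x‖ ^ 2) μ := i1.add i2
        rw [integral_const_mul, integral_add i12 i3, integral_add i1 i2]
    _ ≤ 3 * (η / 9 + η / 9 + η / 9) := by
        have := hN n hn
        gcongr
        exact hle.trans hfg
    _ = η := by ring

/-! ### weak derivatives -/

/-- `g` is the weak derivative of `f` in the direction `v`. -/
def HasWeakDeriv (μ : Measure X) (v : X) (f g : X → E) : Prop :=
  ∀ φ : X → ℝ, ContDiff ℝ ∞ φ → HasCompactSupport φ →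
    ∫ x, fderiv ℝ φ x v • f x ∂μ = - ∫ x, φ x • g x ∂μ

theorem contDiff_moll {ρ : X → ℝ} (hρ : ContDiff ℝ ∞ ρ) (hρs : HasCompactSupport ρ) {f : X → E}
    (hf : LocallyIntegrable f μ) : ContDiff ℝ ∞ (moll μ ρ f) :=
  hρs.contDiff_convolution_left _ hρ hf

/-- The derivative of the mollification is the mollification of the weak derivative. -/
theorem fderiv_moll {ρ : X → ℝ} (hρ : ContDiff ℝ ∞ ρ) (hρs : HasCompactSupport ρ) {f g : X → E}
    {v : X} (hf : LocallyIntegrable f μ) (hw : HasWeakDeriv μ v f g) (x : X) :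
    fderiv ℝ (moll μ ρ f) x v = moll μ ρ g x := by
  have hρ1 : ContDiff ℝ 1 ρ := hρ.of_le (by simp)
  have e0 : moll μ ρ f = f ⋆[(lsmul ℝ ℝ : ℝ →L[ℝ] E →L[ℝ] E).flip, μ] ρ :=
    (convolution_flip _).symm
  have h1 := hρs.hasFDerivAt_convolution_right (lsmul ℝ ℝ : ℝ →L[ℝ] E →L[ℝ] E).flip hf hρ1 x
  rw [e0, h1.fderiv, convolution_precompR_apply _ hf (hρs.fderiv ℝ)
    (hρ1.continuous_fderiv (by simp)) x v, convolution_def]
  set φ : X → ℝ := fun t => ρ (x - t) with hφ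
  have hφc : ContDiff ℝ ∞ φ := hρ.comp (contDiff_const.sub contDiff_id)
  have hφs : HasCompactSupport φ := hρs.comp_homeomorph (Homeomorph.subLeft x)
  have hd : ∀ t, fderiv ℝ φ t v = - fderiv ℝ ρ (x - t) v := by
    intro t
    have h2 : HasFDerivAt φ ((fderiv ℝ ρ (x - t)).comp (0 - ContinuousLinearMap.id ℝ X)) t :=
      ((hρ1.differentiable (by simp)) (x - t)).hasFDerivAt.comp t
        ((hasFDerivAt_const x t).sub (hasFDerivAt_id t))
    rw [h2.fderiv]; simp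
  have h3 := hw φ hφc hφs
  simp only [hd, neg_smul, integral_neg, neg_inj] at h3
  rw [moll_apply_swap]
  exact h3

/-- **Mollification step.**  An `L²` function with weak derivatives in `L²` along finitely many
directions is approximated, together with these derivatives, by smooth functions. -/
theorem exists_smooth_approx {ι : Type*} [Fintype ι] {v : ι → X} {f : X → E} {g : ι → X → E}
    (hf : MemLp f 2 μ) (hg : ∀ j, MemLp (g j) 2 μ) (hw : ∀ j, HasWeakDeriv μ (v j) f (g j))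
    {η : ℝ} (hη : 0 < η) :
    ∃ u : X → E, ContDiff ℝ ∞ u ∧ MemLp u 2 μ ∧ (∀ j, MemLp (fun x => fderiv ℝ u x (v j)) 2 μ) ∧
      ∫ x, ‖u x - f x‖ ^ 2 ∂μ ≤ η ∧ ∀ j, ∫ x, ‖fderiv ℝ u x (v j) - g j x‖ ^ 2 ∂μ ≤ η := by
  obtain ⟨N₀, hN₀⟩ := exists_moll_close hf hη
  choose N hN using fun j => exists_moll_close (hg j) hη
  set n := max N₀ (Finset.univ.sup N) with hn
  have hfl : LocallyIntegrable f μ := hf.locallyIntegrable (by norm_num)
  have hder : ∀ j, (fun x => fderiv ℝ (moll μ (mollSeq μ n) f) x (v j))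
      = moll μ (mollSeq μ n) (g j) := fun j => by
    funext x
    exact fderiv_moll (contDiff_mollSeq n) (hasCompactSupport_mollSeq n) hfl (hw j) x
  refine ⟨moll μ (mollSeq μ n) f, contDiff_moll (contDiff_mollSeq n) (hasCompactSupport_mollSeq n) hfl,
    (memLp_moll (continuous_mollSeq n) (hasCompactSupport_mollSeq n)
      (mollSeq_nonneg n) (integral_mollSeq n) hf).1, fun j => ?_, hN₀ n (le_max_left _ _),
    fun j => ?_⟩
  · rw [hder j]
    exact (memLp_moll (continuous_mollSeq n) (hasCompactSupport_mollSeq n)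
      (mollSeq_nonneg n) (integral_mollSeq n) (hg j)).1
  · have := hN j n ((Finset.le_sup (Finset.mem_univ j)).trans (le_max_right _ _))
    simpa only [← congrFun (hder j) _] using this

/-! ### cutoff -/

/-- A fixed bump function equal to `1` on the unit ball. -/
def cutBump : ContDiffBump (0 : X) := ⟨1, 2, one_pos, one_lt_two⟩

/-- The cutoff `χ(x / (n+1))`. -/
def cutoff (n : ℕ) (x : X) : ℝ := (cutBump : ContDiffBump (0 : X)) (((n : ℝ) + 1)⁻¹ • x)

theorem contDiff_cutoff (n : ℕ) : ContDiff ℝ ∞ (cutoff n : X → ℝ) :=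
  (cutBump : ContDiffBump (0 : X)).contDiff.comp (contDiff_const_smul _)

theorem hasCompactSupport_cutoff (n : ℕ) : HasCompactSupport (cutoff n : X → ℝ) :=
  (cutBump : ContDiffBump (0 : X)).hasCompactSupport.comp_smul (by positivity)

theorem cutoff_nonneg (n : ℕ) (x : X) : 0 ≤ cutoff n x := (cutBump : ContDiffBump (0 : X)).nonneg
theorem cutoff_le_one (n : ℕ) (x : X) : cutoff n x ≤ 1 := (cutBump : ContDiffBump (0 : X)).le_one

theorem cutoff_eq_one {n : ℕ} {x : X} (h : ‖x‖ ≤ (n : ℝ) + 1) : cutoff n x = 1 := by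
  apply (cutBump : ContDiffBump (0 : X)).one_of_mem_closedBall
  rw [mem_closedBall_zero_iff, norm_smul, norm_inv, Real.norm_eq_abs,
    abs_of_pos (by positivity : (0 : ℝ) < (n : ℝ) + 1)]
  show ((n : ℝ) + 1)⁻¹ * ‖x‖ ≤ 1
  rw [inv_mul_le_iff₀ (by positivity)]; linarith

theorem fderiv_cutoff (n : ℕ) (x v : X) : fderiv ℝ (cutoff n) x v
    = ((n : ℝ) + 1)⁻¹ * fderiv ℝ (cutBump : ContDiffBump (0 : X)) (((n : ℝ) + 1)⁻¹ • x) v := by
  have h1 : HasFDerivAt (fun y : X => ((n : ℝ) + 1)⁻¹ • y)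
      (((n : ℝ) + 1)⁻¹ • ContinuousLinearMap.id ℝ X) x := (hasFDerivAt_id x).const_smul _
  have h2 := ((cutBump : ContDiffBump (0 : X)).contDiff (n := 1)).differentiable (by simp)
    (((n : ℝ) + 1)⁻¹ • x)
  have h3 : HasFDerivAt (cutoff n) _ x := h2.hasFDerivAt.comp x h1
  rw [h3.fderiv]; simp

theorem exists_fderiv_cutBump_bound (v : X) :
    ∃ C : ℝ, 0 ≤ C ∧ ∀ y : X, |fderiv ℝ (cutBump : ContDiffBump (0 : X)) y v| ≤ C := by
  have hc : Continuous fun y : X => fderiv ℝ (cutBump : ContDiffBump (0 : X)) y v :=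
    (((cutBump : ContDiffBump (0 : X)).contDiff (n := 1)).continuous_fderiv (by simp)).clm_apply
      continuous_const
  have hs : HasCompactSupport fun y : X => fderiv ℝ (cutBump : ContDiffBump (0 : X)) y v :=
    (cutBump : ContDiffBump (0 : X)).hasCompactSupport.fderiv_apply (𝕜 := ℝ) v
  obtain ⟨C, hC⟩ := hs.exists_bound_of_continuous hc
  exact ⟨C, (norm_nonneg _).trans (hC 0), hC⟩

/-- The `L²` tail of an `L²` function tends to zero. -/
theorem tendsto_integral_one_sub_cutoff {h : X → E} (hh : MemLp h 2 μ) :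
    Tendsto (fun n : ℕ => ∫ x, (1 - cutoff n x) ^ 2 * ‖h x‖ ^ 2 ∂μ) atTop (𝓝 0) := by
  have hsq : Integrable (fun y => ‖h y‖ ^ 2) μ := (memLp_two_iff_integrable_sq_norm hh.1).1 hh
  have := tendsto_integral_of_dominated_convergence (μ := μ)
    (F := fun (n : ℕ) x => (1 - cutoff n x) ^ 2 * ‖h x‖ ^ 2) (f := fun _ => (0 : ℝ))
    (fun y => ‖h y‖ ^ 2) ?_ hsq ?_ ?_
  · simpa using this
  · intro n
    exact (((continuous_const.sub (contDiff_cutoff n).continuous).pow 2).aestronglyMeasurable).mul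
      (hh.1.norm.pow 2)
  · intro n
    refine Eventually.of_forall fun x => ?_
    rw [Real.norm_eq_abs, abs_of_nonneg (by positivity)]
    have h0 := cutoff_nonneg n x
    have h1 := cutoff_le_one n x
    have : (1 - cutoff n x) ^ 2 ≤ 1 := by nlinarith
    nlinarith [sq_nonneg ‖h x‖]
  · refine Eventually.of_forall fun x => ?_
    apply tendsto_const_nhds.congr'
    obtain ⟨N, hN⟩ := exists_nat_ge ‖x‖
    filter_upwards [eventually_ge_atTop N] with n hn
    have : ‖x‖ ≤ (n : ℝ) + 1 := by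
      have : (N : ℝ) ≤ n := by exact_mod_cast hn
      linarith
    rw [cutoff_eq_one this]; simp

/-- **Cutoff step.** -/
theorem exists_compactSupport_approx {ι : Type*} [Fintype ι] {v : ι → X} {u : X → E}
    (hu : ContDiff ℝ 1 u) (hu2 : MemLp u 2 μ) (hdu : ∀ j, MemLp (fun x => fderiv ℝ u x (v j)) 2 μ)
    {η : ℝ} (hη : 0 < η) :
    ∃ F : X → E, ContDiff ℝ 1 F ∧ HasCompactSupport F ∧
      ∫ x, ‖F x - u x‖ ^ 2 ∂μ ≤ η ∧ ∀ j, ∫ x, ‖fderiv ℝ F x (v j) - fderiv ℝ u x (v j)‖ ^ 2 ∂μ ≤ η := by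
  have hsq : Integrable (fun y => ‖u y‖ ^ 2) μ := (memLp_two_iff_integrable_sq_norm hu2.1).1 hu2
  choose C hC0 hC using fun j => exists_fderiv_cutBump_bound (X := X) (v j)
  -- the three families of small quantities
  have t0 := tendsto_integral_one_sub_cutoff hu2
  have t1 := fun j => tendsto_integral_one_sub_cutoff (hdu j)
  have t2 : ∀ j, Tendsto (fun n : ℕ => (((n : ℝ) + 1)⁻¹ * C j) ^ 2 * ∫ x, ‖u x‖ ^ 2 ∂μ) atTop (𝓝 0) := by
    intro j
    have h1 : Tendsto (fun n : ℕ => ((n : ℝ) + 1)⁻¹) atTop (𝓝 0) :=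
      tendsto_inv_atTop_zero.comp (tendsto_atTop_add_const_right _ _ tendsto_natCast_atTop_atTop)
    have h2 := ((h1.mul_const (C j)).pow 2).mul_const (∫ x, ‖u x‖ ^ 2 ∂μ)
    simpa using h2
  have e0 : ∀ᶠ n : ℕ in atTop, ∫ x, (1 - cutoff n x) ^ 2 * ‖u x‖ ^ 2 ∂μ < η :=
    (tendsto_order.1 t0).2 η hη
  have e1 : ∀ᶠ n : ℕ in atTop, ∀ j, ∫ x, (1 - cutoff n x) ^ 2 * ‖fderiv ℝ u x (v j)‖ ^ 2 ∂μ < η / 4 :=
    eventually_all.2 fun j => (tendsto_order.1 (t1 j)).2 (η / 4) (by positivity)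
  have e2 : ∀ᶠ n : ℕ in atTop, ∀ j, (((n : ℝ) + 1)⁻¹ * C j) ^ 2 * ∫ x, ‖u x‖ ^ 2 ∂μ < η / 4 :=
    eventually_all.2 fun j => (tendsto_order.1 (t2 j)).2 (η / 4) (by positivity)
  obtain ⟨n, h0, h1, h2⟩ := (e0.and (e1.and e2)).exists
  have hχ : ContDiff ℝ 1 (cutoff n : X → ℝ) := (contDiff_cutoff n).of_le (by simp)
  refine ⟨fun x => cutoff n x • u x, hχ.smul hu, (hasCompactSupport_cutoff n).smul_right, ?_, ?_⟩
  · refine le_of_eq_of_le (integral_congr_ae (Eventually.of_forall fun x => ?_)) h0.le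
    have : cutoff n x • u x - u x = -((1 - cutoff n x) • u x) := by rw [sub_smul, one_smul]; abel
    simp only [this, norm_neg, norm_smul, mul_pow, Real.norm_eq_abs, sq_abs]
  · intro j
    have hd : ∀ x, fderiv ℝ (fun x => cutoff n x • u x) x (v j) - fderiv ℝ u x (v j)
        = -((1 - cutoff n x) • fderiv ℝ u x (v j)) + fderiv ℝ (cutoff n) x (v j) • u x := by
      intro x
      have : HasFDerivAt (fun x => cutoff n x • u x) _ x :=
        ((hχ.differentiable (by simp)) x).hasFDerivAt.smul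
          ((hu.differentiable (by simp)) x).hasFDerivAt
      rw [this.fderiv]
      simp only [add_apply, smul_apply, smulRight_apply, sub_smul, one_smul]
      abel
    have i1 : Integrable (fun x => (1 - cutoff n x) ^ 2 * ‖fderiv ℝ u x (v j)‖ ^ 2) μ := by
      have hq := (memLp_two_iff_integrable_sq_norm (hdu j).1).1 (hdu j)
      refine hq.bdd_mul (c := 1)
        ((continuous_const.sub (contDiff_cutoff n).continuous).pow 2).aestronglyMeasurable
        (Eventually.of_forall fun x => ?_)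
      rw [Real.norm_eq_abs, abs_of_nonneg (sq_nonneg _)]
      nlinarith [cutoff_nonneg n x, cutoff_le_one n x]
    have hpt : ∀ x, ‖fderiv ℝ (fun x => cutoff n x • u x) x (v j) - fderiv ℝ u x (v j)‖ ^ 2
        ≤ 2 * ((1 - cutoff n x) ^ 2 * ‖fderiv ℝ u x (v j)‖ ^ 2)
          + 2 * ((((n : ℝ) + 1)⁻¹ * C j) ^ 2 * ‖u x‖ ^ 2) := by
      intro x
      rw [hd x]
      set a := -((1 - cutoff n x) • fderiv ℝ u x (v j)) with ha
      set b := fderiv ℝ (cutoff n) x (v j) • u x with hb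
      have h3 : ‖a + b‖ ^ 2 ≤ 2 * ‖a‖ ^ 2 + 2 * ‖b‖ ^ 2 := by
        have h4 : ‖a + b‖ ^ 2 ≤ (‖a‖ + ‖b‖) ^ 2 :=
          pow_le_pow_left₀ (norm_nonneg _) (norm_add_le _ _) 2
        nlinarith [sq_nonneg (‖a‖ - ‖b‖)]
      have h5 : ‖a‖ ^ 2 = (1 - cutoff n x) ^ 2 * ‖fderiv ℝ u x (v j)‖ ^ 2 := by
        rw [ha, norm_neg, norm_smul, mul_pow, Real.norm_eq_abs, sq_abs]
      have h6 : ‖b‖ ^ 2 ≤ (((n : ℝ) + 1)⁻¹ * C j) ^ 2 * ‖u x‖ ^ 2 := by
        rw [hb, norm_smul, mul_pow]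
        apply mul_le_mul_of_nonneg_right _ (sq_nonneg _)
        apply pow_le_pow_left₀ (norm_nonneg _)
        rw [fderiv_cutoff, norm_mul, Real.norm_eq_abs, Real.norm_eq_abs,
          abs_of_pos (by positivity : (0 : ℝ) < ((n : ℝ) + 1)⁻¹)]
        exact mul_le_mul_of_nonneg_left (hC j _) (by positivity)
      linarith
    calc ∫ x, ‖fderiv ℝ (fun x => cutoff n x • u x) x (v j) - fderiv ℝ u x (v j)‖ ^ 2 ∂μ
        ≤ ∫ x, (2 * ((1 - cutoff n x) ^ 2 * ‖fderiv ℝ u x (v j)‖ ^ 2)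
          + 2 * ((((n : ℝ) + 1)⁻¹ * C j) ^ 2 * ‖u x‖ ^ 2)) ∂μ :=
          integral_mono_of_nonneg (Eventually.of_forall fun x => sq_nonneg _)
            ((i1.const_mul 2).add ((hsq.const_mul _).const_mul 2)) (Eventually.of_forall hpt)
      _ = 2 * (∫ x, (1 - cutoff n x) ^ 2 * ‖fderiv ℝ u x (v j)‖ ^ 2 ∂μ)
          + 2 * ((((n : ℝ) + 1)⁻¹ * C j) ^ 2 * ∫ x, ‖u x‖ ^ 2 ∂μ) := by
          rw [integral_add (i1.const_mul 2) ((hsq.const_mul _).const_mul 2), integral_const_mul,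
            integral_const_mul, integral_const_mul]
      _ ≤ η := by linarith [h1 j, h2 j]

/-- **Density of `C¹_c` in `H¹`**: an `L²` function with weak derivatives in `L²` along finitely many
directions is approximated in `L²`, together with these derivatives, by `C¹` functions with compact
support. -/
theorem exists_contDiff_hasCompactSupport_approx {ι : Type*} [Fintype ι] {v : ι → X} {f : X → E}
    {g : ι → X → E} (hf : MemLp f 2 μ) (hg : ∀ j, MemLp (g j) 2 μ)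
    (hw : ∀ j, HasWeakDeriv μ (v j) f (g j)) {η : ℝ} (hη : 0 < η) :
    ∃ F : X → E, ContDiff ℝ 1 F ∧ HasCompactSupport F ∧
      ∫ x, ‖F x - f x‖ ^ 2 ∂μ ≤ η ∧ ∀ j, ∫ x, ‖fderiv ℝ F x (v j) - g j x‖ ^ 2 ∂μ ≤ η := by
  obtain ⟨u, hu, hu2, hdu, h0, h1⟩ := exists_smooth_approx hf hg hw (show 0 < η / 4 by positivity)
  have hu1 : ContDiff ℝ 1 u := hu.of_le (by simp)
  obtain ⟨F, hF, hFs, k0, k1⟩ := exists_compactSupport_approx hu1 hu2 hdu
    (show 0 < η / 4 by positivity)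
  have hF2 : MemLp F 2 μ := hF.continuous.memLp_of_hasCompactSupport hFs
  have hdF : ∀ j, MemLp (fun x => fderiv ℝ F x (v j)) 2 μ := fun j =>
    ((hF.continuous_fderiv (by simp)).clm_apply continuous_const).memLp_of_hasCompactSupport
      (hFs.fderiv_apply (𝕜 := ℝ) (v j))
  have tri : ∀ {a b c : X → E}, MemLp a 2 μ → MemLp b 2 μ → MemLp c 2 μ →
      ∫ x, ‖a x - b x‖ ^ 2 ∂μ ≤ η / 4 → ∫ x, ‖b x - c x‖ ^ 2 ∂μ ≤ η / 4 →
      ∫ x, ‖a x - c x‖ ^ 2 ∂μ ≤ η := by
    intro a b c ha hb hc h1 h2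
    have i1 := (memLp_two_iff_integrable_sq_norm (ha.sub hb).1).1 (ha.sub hb)
    have i2 := (memLp_two_iff_integrable_sq_norm (hb.sub hc).1).1 (hb.sub hc)
    simp only [Pi.sub_apply] at i1 i2
    calc ∫ x, ‖a x - c x‖ ^ 2 ∂μ ≤ ∫ x, (2 * ‖a x - b x‖ ^ 2 + 2 * ‖b x - c x‖ ^ 2) ∂μ := by
          refine integral_mono_of_nonneg (Eventually.of_forall fun x => sq_nonneg _)
            ((i1.const_mul 2).add (i2.const_mul 2)) (Eventually.of_forall fun x => ?_)
          have e : a x - c x = (a x - b x) + (b x - c x) := by abel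
          have h4 : ‖a x - c x‖ ^ 2 ≤ (‖a x - b x‖ + ‖b x - c x‖) ^ 2 := by
            rw [e]; exact pow_le_pow_left₀ (norm_nonneg _) (norm_add_le _ _) 2
          show ‖a x - c x‖ ^ 2 ≤ 2 * ‖a x - b x‖ ^ 2 + 2 * ‖b x - c x‖ ^ 2
          nlinarith [sq_nonneg (‖a x - b x‖ - ‖b x - c x‖)]
      _ = 2 * (∫ x, ‖a x - b x‖ ^ 2 ∂μ) + 2 * ∫ x, ‖b x - c x‖ ^ 2 ∂μ := by
          rw [integral_add (i1.const_mul 2) (i2.const_mul 2), integral_const_mul, integral_const_mul]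
      _ ≤ η := by linarith
  exact ⟨F, hF, hFs, tri hF2 hu2 hf k0 h0, fun j => tri (hdF j) (hdu j) (hg j) (k1 j) (h1 j)⟩

end Claimed.Open.R278
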