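import Claimed.Open.R278.ENTools
import Claimed.Open.R278.Mollify

/-!
# Result 278, layer L7: slices of `H¹(ℝ⁹; ℂ⁸)` functions in one electron variable   (all PROVED)

* `en_slice_isH1`.  `C¹_c` approximants `F k` of `(Φ, G)` with errors `≤ 2^{-k}` (`exists_contDiff_hasCompactSupport_approx`);
  by Tonelli `∑_k ∫_r ‖F k - Φ‖² (·, y) < ∞` for a.e. `y`, so the slices converge in `L²(ℝ³)`, with the gradients; slices of `C¹_c` functions are
  `C¹_c` (`enH1_of_contDiff`); `enH1_of_tendsto`.
* `en_slice_weight`, `en_slice_grad`: Fubini identities (`ENFub.lean`) and `‖z‖² = ∑_c (enCmp c z)²`.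
-/

open MeasureTheory Filter
open scoped ContDiff InnerProductSpace ComplexConjugate ENNReal Topology

noncomputable section

namespace Claimed.Open.R278

/-! ### components -/

/-- the component as a real continuous linear functional -/
def enCmpL (c : SpinConfig 3 × Fin 2) : SpinSpace 3 →L[ℝ] ℝ :=
  (if c.2 = 0 then Complex.reCLM else Complex.imCLM).comp
    ((EuclideanSpace.proj c.1 : SpinSpace 3 →L[ℂ] ℂ).restrictScalars ℝ)

theorem enCmpL_apply (c : SpinConfig 3 × Fin 2) (z : SpinSpace 3) : enCmpL c z = enCmp c z := by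
  unfold enCmpL enCmp
  split_ifs <;> simp

theorem enCmp_sub (c : SpinConfig 3 × Fin 2) (z w : SpinSpace 3) : enCmp c (z - w) = enCmp c z - enCmp c w := by
  simp only [← enCmpL_apply, map_sub]

theorem enCmp_zero (c : SpinConfig 3 × Fin 2) : enCmp c 0 = 0 := by
  simp only [← enCmpL_apply, map_zero]

theorem en_norm_sq_eq_sum_cmp (z : SpinSpace 3) : ‖z‖ ^ 2 = ∑ c, enCmp c z ^ 2 := by
  rw [EuclideanSpace.norm_sq_eq, Fintype.sum_prod_type]
  refine Finset.sum_congr rfl fun s _ => ?_
  rw [Fin.sum_univ_two]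
  simp [enCmp, Complex.sq_norm, Complex.normSq_apply]
  ring

theorem enCmp_sq_le (c : SpinConfig 3 × Fin 2) (z : SpinSpace 3) : enCmp c z ^ 2 ≤ ‖z‖ ^ 2 := by
  rw [en_norm_sq_eq_sum_cmp]
  exact Finset.single_le_sum (f := fun c => enCmp c z ^ 2) (fun _ _ => sq_nonneg _) (Finset.mem_univ c)

/-! ### a.e. convergence from summability -/

theorem en_ae_tendsto_zero {α : Type*} [MeasurableSpace α] {μ : Measure α} {a : ℕ → α → ℝ}
    (h0 : ∀ k y, 0 ≤ a k y) (hi : ∀ k, Integrable (a k) μ) (hs : Summable fun k => ∫ y, a k y ∂μ) :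
    ∀ᵐ y ∂μ, Tendsto (fun k => a k y) atTop (𝓝 0) := by
  have hm : ∀ k, AEMeasurable (fun y => ENNReal.ofReal (a k y)) μ := fun k => (hi k).1.aemeasurable.ennreal_ofReal
  have h1 : ∫⁻ y, ∑' k, ENNReal.ofReal (a k y) ∂μ = ∑' k, ENNReal.ofReal (∫ y, a k y ∂μ) := by
    rw [lintegral_tsum hm]
    congr 1; funext k
    rw [ofReal_integral_eq_lintegral_ofReal (hi k) (ae_of_all _ (h0 k))]
  have h3 : ∀ᵐ y ∂μ, ∑' k, ENNReal.ofReal (a k y) < ⊤ :=
    ae_lt_top' (AEMeasurable.tsum hm) (h1 ▸ hs.tsum_ofReal_ne_top)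
  filter_upwards [h3] with y hy
  have h4 := ENNReal.tendsto_atTop_zero_of_tsum_ne_top hy.ne
  have h5 := (ENNReal.tendsto_toReal ENNReal.zero_ne_top).comp h4
  simpa [Function.comp_def, ENNReal.toReal_ofReal (h0 _ _)] using h5

/-! ### the insertion map -/

variable {n : ℕ} {E : Type*} [NormedAddCommGroup E]

theorem en_insertNth_eq (i : Fin (n + 1)) (r : Space) (y : Config n) :
    (i.insertNth r y : Config (n + 1))
      = ContinuousLinearMap.single ℝ (fun _ : Fin (n + 1) => Space) i r + (i.insertNth 0 y : Config (n + 1)) := by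
  funext j
  rcases Fin.eq_self_or_eq_succAbove i j with rfl | ⟨k, rfl⟩
  · simp
  · simp

theorem en_hasFDerivAt_ins (i : Fin (n + 1)) (y : Config n) (r : Space) :
    HasFDerivAt (fun r : Space => (i.insertNth r y : Config (n + 1)))
      (ContinuousLinearMap.single ℝ (fun _ : Fin (n + 1) => Space) i) r := by
  rw [show (fun r : Space => (i.insertNth r y : Config (n + 1))) = _ from funext fun r => en_insertNth_eq i r y]
  exact ((ContinuousLinearMap.single ℝ (fun _ : Fin (n + 1) => Space) i).hasFDerivAt).add_const _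

theorem en_contDiff_ins (i : Fin (n + 1)) (y : Config n) (m : WithTop ℕ∞) :
    ContDiff ℝ m (fun r : Space => (i.insertNth r y : Config (n + 1))) := by
  rw [show (fun r : Space => (i.insertNth r y : Config (n + 1))) = _ from funext fun r => en_insertNth_eq i r y]
  exact ((ContinuousLinearMap.single ℝ (fun _ : Fin (n + 1) => Space) i).contDiff).add contDiff_const

theorem en_hasCompactSupport_slice {F : Config (n + 1) → E} (hc : HasCompactSupport F) (i : Fin (n + 1))
    (y : Config n) : HasCompactSupport fun r : Space => F (i.insertNth r y : Config (n + 1)) := by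
  obtain ⟨R, hR⟩ := hc.isCompact.isBounded.subset_closedBall 0
  refine HasCompactSupport.of_support_subset_isCompact (isCompact_closedBall (0 : Space) R) fun r hr => ?_
  have h1 : (i.insertNth r y : Config (n + 1)) ∈ tsupport F := subset_tsupport _ hr
  have h2 := hR h1
  rw [mem_closedBall_zero_iff] at h2 ⊢
  have h3 := norm_le_pi_norm (i.insertNth r y : Config (n + 1)) i
  rw [Fin.insertNth_apply_same] at h3
  exact h3.trans h2

variable [NormedSpace ℝ E]

theorem en_contDiff_slice {F : Config (n + 1) → E} (hF : ContDiff ℝ 1 F) (i : Fin (n + 1)) (y : Config n) :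
    ContDiff ℝ 1 fun r : Space => F (i.insertNth r y : Config (n + 1)) :=
  hF.comp (en_contDiff_ins i y 1)

theorem en_hasFDerivAt_slice {F : Config (n + 1) → E} (hF : ContDiff ℝ 1 F) (i : Fin (n + 1)) (y : Config n)
    (r : Space) :
    HasFDerivAt (fun r : Space => F (i.insertNth r y : Config (n + 1)))
      ((fderiv ℝ F (i.insertNth r y : Config (n + 1))).comp
        (ContinuousLinearMap.single ℝ (fun _ : Fin (n + 1) => Space) i)) r :=
  ((hF.differentiable (by simp)) _).hasFDerivAt.comp r (en_hasFDerivAt_ins i y r)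

theorem en_gradient_apply (φ : Space → ℝ) (r : Space) (a : Fin 3) :
    gradient φ r a = fderiv ℝ φ r (EuclideanSpace.single a 1) := by
  have h1 : ⟪gradient φ r, EuclideanSpace.single a (1 : ℝ)⟫_ℝ = fderiv ℝ φ r (EuclideanSpace.single a 1) := by
    unfold gradient
    rw [InnerProductSpace.toDual_symm_apply]
  rw [← h1, EuclideanSpace.inner_single_right]
  simp

/-! ### slices of `C¹_c` functions -/

theorem enSlG_apply (G : Fin 3 → Config 3 → SpinSpace 3) (i : Fin 3) (c : SpinConfig 3 × Fin 2) (y : Config 2)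
    (r : Space) (a : Fin 3) : enSlG G i c y r a = enCmp c (G a (i.insertNth r y : Config 3)) := rfl

theorem enSlG_norm_sq (G : Fin 3 → Config 3 → SpinSpace 3) (i : Fin 3) (c : SpinConfig 3 × Fin 2) (y : Config 2)
    (r : Space) : ‖enSlG G i c y r‖ ^ 2 = ∑ a, enCmp c (G a (i.insertNth r y : Config 3)) ^ 2 := by
  rw [EuclideanSpace.norm_sq_eq]
  simp only [enSlG_apply, Real.norm_eq_abs, sq_abs]

theorem enSlG_sub_norm_sq (G G' : Fin 3 → Config 3 → SpinSpace 3) (i : Fin 3) (c : SpinConfig 3 × Fin 2)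
    (y : Config 2) (r : Space) : ‖enSlG G i c y r - enSlG G' i c y r‖ ^ 2
      = ∑ a, enCmp c (G a (i.insertNth r y : Config 3) - G' a (i.insertNth r y : Config 3)) ^ 2 := by
  rw [EuclideanSpace.norm_sq_eq]
  simp only [PiLp.sub_apply, enSlG_apply, Real.norm_eq_abs, sq_abs, enCmp_sub]

theorem enSlG_eq_sum (G : Fin 3 → Config 3 → SpinSpace 3) (i : Fin 3) (c : SpinConfig 3 × Fin 2) (y : Config 2)
    (r : Space) : enSlG G i c y r
      = ∑ a, enCmp c (G a (i.insertNth r y : Config 3)) • EuclideanSpace.single a (1 : ℝ) := by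
  ext b
  simp [enSlG_apply, Finset.sum_apply, Pi.single_apply]

theorem en_slice_contDiff_isH1 {F : Config 3 → SpinSpace 3} (hF : ContDiff ℝ 1 F) (hc : HasCompactSupport F)
    (i : Fin 3) (c : SpinConfig 3 × Fin 2) (y : Config 2) :
    IsH1 (enSl F i c y) (enSlG (fun a x => fderiv ℝ F x (dir (i, a))) i c y) := by
  have e0 : enSl F i c y = fun r => enCmpL c (F (i.insertNth r y : Config 3)) := by
    funext r; rw [enCmpL_apply]; rfl
  have h1 : ContDiff ℝ 1 (enSl F i c y) := by
    rw [e0]; exact (enCmpL c).contDiff.comp (en_contDiff_slice hF i y)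
  have h2 : HasCompactSupport (enSl F i c y) := by
    rw [e0]; exact (en_hasCompactSupport_slice hc i y).comp_left (map_zero _)
  have h3 : gradient (enSl F i c y) = enSlG (fun a x => fderiv ℝ F x (dir (i, a))) i c y := by
    funext r
    ext a
    have h4 : HasFDerivAt (fun r => enCmpL c (F (i.insertNth r y : Config 3))) _ r :=
      (enCmpL c).hasFDerivAt.comp r (en_hasFDerivAt_slice hF i y r)
    rw [en_gradient_apply, enSlG_apply, e0, h4.fderiv]
    simp only [ContinuousLinearMap.comp_apply, enCmpL_apply]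
    rfl
  rw [← h3]
  exact enH1_of_contDiff h1 h2

/-! ### slices of `L²` functions -/

omit [NormedSpace ℝ E] in
theorem en_slice_memLp {B : Config (n + 1) → E} (hB : MemLp B 2 volume) (i : Fin (n + 1)) :
    ∀ᵐ y : Config n, MemLp (fun r : Space => B (i.insertNth r y : Config (n + 1))) 2 volume := by
  have h1 := (en_aesm_comp_ins i hB.1).prodMk_left
  have h2 := en_integrable_ins_ae i ((memLp_two_iff_integrable_sq_norm hB.1).1 hB)
  filter_upwards [h1, h2] with y h1 h2
  exact (memLp_two_iff_integrable_sq_norm h1).2 h2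

omit [NormedSpace ℝ E] in
theorem en_slice_tendsto {A : ℕ → Config (n + 1) → E} {B : Config (n + 1) → E} (i : Fin (n + 1))
    (hA : ∀ k, Integrable fun x => ‖A k x - B x‖ ^ 2) (hs : Summable fun k => ∫ x, ‖A k x - B x‖ ^ 2) :
    ∀ᵐ y : Config n,
      (∀ k, Integrable fun r : Space =>
        ‖A k (i.insertNth r y : Config (n + 1)) - B (i.insertNth r y : Config (n + 1))‖ ^ 2) ∧
      Tendsto (fun k => ∫ r : Space,
        ‖A k (i.insertNth r y : Config (n + 1)) - B (i.insertNth r y : Config (n + 1))‖ ^ 2) atTop (𝓝 0) := by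
  have h1 := en_ae_tendsto_zero (μ := (volume : Measure (Config n)))
    (a := fun k y => ∫ r : Space,
      ‖A k (i.insertNth r y : Config (n + 1)) - B (i.insertNth r y : Config (n + 1))‖ ^ 2)
    (fun k y => integral_nonneg fun _ => sq_nonneg _) (fun k => en_integrable_integral_ins i (hA k))
    (by simpa only [← en_integral_ins i (hA _)] using hs)
  have h2 := ae_all_iff.2 fun k => en_integrable_ins_ae i (hA k)
  filter_upwards [h1, h2] with y h1 h2
  exact ⟨h2, h1⟩

/-- EN-SL1 -/
theorem en_slice_isH1 {Φ : L2 3} {G : Fin 3 × Fin 3 → L2 3} (h : IsWeakGradient Φ G) (i : Fin 3) :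
    ∀ᵐ y : Config 2, ∀ c, IsH1 (enSl Φ i c y) (enSlG (fun a => G (i, a)) i c y) := by
  have hex : ∀ k : ℕ, ∃ F : Config 3 → SpinSpace 3, ContDiff ℝ 1 F ∧ HasCompactSupport F ∧
      ∫ x, ‖F x - Φ x‖ ^ 2 ≤ (1 / 2 : ℝ) ^ k ∧ ∀ j, ∫ x, ‖fderiv ℝ F x (dir j) - G j x‖ ^ 2 ≤ (1 / 2 : ℝ) ^ k :=
    fun k => exists_contDiff_hasCompactSupport_approx
      (μ := (volume : Measure (Config 3))) (v := dir) (f := Φ) (g := fun j => G j)
      (Lp.memLp Φ) (fun j => Lp.memLp _) (fun j φ hφ hφc => h j φ hφ hφc) (η := (1 / 2 : ℝ) ^ k) (by positivity)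
  choose F hF hc h0 h1 using hex
  have hgeo : Summable fun k : ℕ => (1 / 2 : ℝ) ^ k := summable_geometric_of_lt_one (by norm_num) (by norm_num)
  have i0 : ∀ k, Integrable fun x => ‖F k x - Φ x‖ ^ 2 := fun k =>
    have hm := (memLp_of_contDiff (hF k) (hc k)).sub (Lp.memLp Φ)
    (memLp_two_iff_integrable_sq_norm hm.1).1 hm
  have i1 : ∀ a k, Integrable fun x => ‖fderiv ℝ (F k) x (dir (i, a)) - G (i, a) x‖ ^ 2 := fun a k =>
    have hm := ((continuous_fderiv_apply (hF k) (dir (i, a))).memLp_of_hasCompactSupport (p := 2)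
      ((hc k).fderiv_apply (𝕜 := ℝ) (dir (i, a)))).sub (Lp.memLp (G (i, a)))
    (memLp_two_iff_integrable_sq_norm hm.1).1 hm
  have t0 := en_slice_tendsto (A := F) (B := Φ) i i0
    (Summable.of_nonneg_of_le (fun k => integral_nonneg fun _ => sq_nonneg _) h0 hgeo)
  have t1 := ae_all_iff.2 fun a => en_slice_tendsto (A := fun k x => fderiv ℝ (F k) x (dir (i, a))) (B := G (i, a)) i
    (i1 a) (Summable.of_nonneg_of_le (fun k => integral_nonneg fun _ => sq_nonneg _) (fun k => h1 k (i, a)) hgeo)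
  have m0 := en_slice_memLp (Lp.memLp Φ) i
  have m1 := ae_all_iff.2 fun a => en_slice_memLp (Lp.memLp (G (i, a))) i
  filter_upwards [t0, t1, m0, m1] with y t0 t1 m0 m1 c
  refine enH1_of_tendsto (fn := fun k => enSl (F k) i c y)
    (Fn := fun k => enSlG (fun a x => fderiv ℝ (F k) x (dir (i, a))) i c y)
    (fun k => en_slice_contDiff_isH1 (hF k) (hc k) i c y) ?_ ?_ ?_ ?_
  · have := (enCmpL c).comp_memLp' m0
    simp only [Function.comp_def, enCmpL_apply] at this
    exact this
  · rw [show enSlG (fun a => G (i, a)) i c y = _ from funext fun r => enSlG_eq_sum _ i c y r]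
    refine memLp_finsetSum _ fun a _ => ?_
    have h2 := (enCmpL c).comp_memLp' (m1 a)
    have h3 := (ContinuousLinearMap.toSpanSingleton ℝ (EuclideanSpace.single a (1 : ℝ) : Space)).comp_memLp' h2
    simpa only [Function.comp_def, enCmpL_apply, ContinuousLinearMap.toSpanSingleton_apply] using h3
  · refine squeeze_zero (fun k => integral_nonneg fun _ => sq_nonneg _) (fun k => ?_) t0.2
    refine integral_mono_of_nonneg (ae_of_all _ fun _ => sq_nonneg _) (t0.1 k) (ae_of_all _ fun r => ?_)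
    simp only [enSl, ← enCmp_sub]
    exact enCmp_sq_le _ _
  · have hsum : Tendsto (fun k => ∑ a, ∫ r : Space, ‖fderiv ℝ (F k) (i.insertNth r y : Config 3) (dir (i, a))
        - G (i, a) (i.insertNth r y : Config 3)‖ ^ 2) atTop (𝓝 0) := by
      have := tendsto_finsetSum (Finset.univ : Finset (Fin 3)) fun a _ => (t1 a).2
      simpa using this
    refine squeeze_zero (fun k => integral_nonneg fun _ => sq_nonneg _) (fun k => ?_) hsum
    rw [← integral_finsetSum _ fun a _ => (t1 a).1 k]
    refine integral_mono_of_nonneg (ae_of_all _ fun _ => sq_nonneg _) (integrable_finsetSum _ fun a _ => (t1 a).1 k)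
      (ae_of_all _ fun r => ?_)
    simp only [enSlG_sub_norm_sq]
    exact Finset.sum_le_sum fun a _ => enCmp_sq_le _ _

theorem en_aesm_cmp (Φ : L2 3) (c : SpinConfig 3 × Fin 2) :
    AEStronglyMeasurable (fun x : Config 3 => enCmp c (Φ x)) volume := by
  have := (enCmpL c).continuous.comp_aestronglyMeasurable (Lp.aestronglyMeasurable Φ)
  simpa only [Function.comp_def, enCmpL_apply] using this

theorem en_integrable_weight_cmp (Φ : L2 3) (i : Fin 3) {U : Space → ℝ}
    (hU : Integrable fun x : Config 3 => U (x i) * ‖Φ x‖ ^ 2) (c : SpinConfig 3 × Fin 2) :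
    Integrable fun x : Config 3 => U (x i) * enCmp c (Φ x) ^ 2 := by
  have h1 : Integrable fun x : Config 3 => (U (x i) * ‖Φ x‖ ^ 2) * (enCmp c (Φ x) ^ 2 / ‖Φ x‖ ^ 2) := by
    refine hU.mul_bdd (c := 1) (((en_aesm_cmp Φ c).pow 2).div₀ ((Lp.aestronglyMeasurable Φ).norm.pow 2))
      (ae_of_all _ fun x => ?_)
    rw [Real.norm_eq_abs, abs_of_nonneg (by positivity)]
    exact div_le_one_of_le₀ (enCmp_sq_le _ _) (sq_nonneg _)
  refine h1.congr (ae_of_all _ fun x => ?_)
  by_cases hx : Φ x = 0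
  · simp [hx, enCmp_zero]
  · have : ‖Φ x‖ ≠ 0 := norm_ne_zero_iff.2 hx
    simp only []
    field_simp

/-- EN-SL2 (a): for a weight `U(x i)` -/
theorem en_slice_weight (Φ : L2 3) (i : Fin 3) {U : Space → ℝ}
    (hU : Integrable fun x : Config 3 => U (x i) * ‖Φ x‖ ^ 2) :
    (∀ᵐ y : Config 2, ∀ c, Integrable fun r => U r * enSl Φ i c y r ^ 2) ∧
    (∀ c, Integrable fun y : Config 2 => ∫ r, U r * enSl Φ i c y r ^ 2) ∧
    ∫ x : Config 3, U (x i) * ‖Φ x‖ ^ 2 = ∑ c, ∫ y : Config 2, ∫ r, U r * enSl Φ i c y r ^ 2 := by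
  have hc := en_integrable_weight_cmp Φ i hU
  refine ⟨ae_all_iff.2 fun c => ?_, fun c => ?_, ?_⟩
  · filter_upwards [en_integrable_ins_ae i (hc c)] with y hy
    simp only [Fin.insertNth_apply_same] at hy
    exact hy
  · have := en_integrable_integral_ins i (hc c)
    simp only [Fin.insertNth_apply_same] at this
    exact this
  · have e1 : ∀ x : Config 3, U (x i) * ‖Φ x‖ ^ 2 = ∑ c, U (x i) * enCmp c (Φ x) ^ 2 := fun x => by
      rw [en_norm_sq_eq_sum_cmp, Finset.mul_sum]
    simp only [e1]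
    rw [integral_finsetSum _ fun c _ => hc c]
    refine Finset.sum_congr rfl fun c _ => ?_
    rw [en_integral_ins i (hc c)]
    simp only [Fin.insertNth_apply_same]
    rfl

/-- EN-SL2 (b): for the gradient -/
theorem en_slice_grad (G : Fin 3 → L2 3) (i : Fin 3) :
    (∀ c, Integrable fun y : Config 2 => ∫ r, ‖enSlG (fun a => G a) i c y r‖ ^ 2) ∧
    ∑ a, ‖G a‖ ^ 2 = ∑ c, ∫ y : Config 2, ∫ r, ‖enSlG (fun a => G a) i c y r‖ ^ 2 := by
  have hc : ∀ a c, Integrable fun x : Config 3 => enCmp c (G a x) ^ 2 := fun a c =>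
    (integrable_norm_sq (G a)).mono' ((en_aesm_cmp (G a) c).pow 2) (ae_of_all _ fun x => by
      rw [Real.norm_eq_abs, abs_of_nonneg (sq_nonneg _)]
      exact enCmp_sq_le _ _)
  have hs : ∀ c, Integrable fun x : Config 3 => ∑ a, enCmp c (G a x) ^ 2 := fun c =>
    integrable_finsetSum _ fun a _ => hc a c
  refine ⟨fun c => ?_, ?_⟩
  · simp only [enSlG_norm_sq]
    exact en_integrable_integral_ins i (hs c)
  · simp only [enSlG_norm_sq]
    have e1 : ∀ c, ∫ y : Config 2, ∫ r : Space, ∑ a, enCmp c (G a (i.insertNth r y : Config 3)) ^ 2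
        = ∑ a, ∫ x : Config 3, enCmp c (G a x) ^ 2 := fun c => by
      rw [← en_integral_ins i (hs c), integral_finsetSum _ fun a _ => hc a c]
    simp only [e1]
    rw [Finset.sum_comm]
    refine Finset.sum_congr rfl fun a _ => ?_
    rw [norm_sq_eq_integral, ← integral_finsetSum _ fun c _ => hc a c]
    simp only [en_norm_sq_eq_sum_cmp]

end Claimed.Open.R278
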