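import Claimed.Open.R278.ENSlice

/-!
# Result 278, layer L7: scalar tensors `f₀ ⊗ f₁ ⊗ f₂` on `ℝ⁹` and finite sums `∑ σ, p σ x • E σ` with constant spin vectors  (all PROVED)

* `enP f x = ∏ i, f i (x i)`: `L²`, integrals (`integral_fintype_prod_volume_eq_prod`), weak derivative `enP_weakDeriv` (Fubini along `x m` and
  `IsWeakGrad (f m) F` tested with the slice of the test function).
* `enSum E p x = ∑ σ, p σ x • E σ`: `L²`, weighted inner products, integrals against scalar functions.
-/

open MeasureTheory Filter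
open scoped ContDiff InnerProductSpace ComplexConjugate ENNReal Topology
open Claimed.Agent

noncomputable section

namespace Claimed.Open.R278

/-! ### scalar tensors -/

/-- the scalar tensor `f₀ ⊗ f₁ ⊗ f₂` -/
def enP (f : Fin 3 → Space → ℝ) (x : Config 3) : ℝ := ∏ i, f i (x i)

variable {f f' : Fin 3 → Space → ℝ}

theorem enP_mul (f f' : Fin 3 → Space → ℝ) (x : Config 3) :
    enP f x * enP f' x = enP (fun i r => f i r * f' i r) x := Finset.prod_mul_distrib.symm

theorem enP_erase (f : Fin 3 → Space → ℝ) (m : Fin 3) (x : Config 3) :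
    enP f x = f m (x m) * ∏ i ∈ Finset.univ.erase m, f i (x i) :=
  (Finset.mul_prod_erase Finset.univ (fun i => f i (x i)) (Finset.mem_univ m)).symm

theorem enP_update (f : Fin 3 → Space → ℝ) (m : Fin 3) (a : Space → ℝ) (x : Config 3) :
    enP (Function.update f m a) x = a (x m) * ∏ i ∈ Finset.univ.erase m, f i (x i) := by
  rw [enP_erase _ m, Function.update_self]
  congr 1
  refine Finset.prod_congr rfl fun i hi => ?_
  rw [Function.update_of_ne (Finset.ne_of_mem_erase hi)]

theorem enP_ins (f : Fin 3 → Space → ℝ) (m : Fin 3) (r : Space) (y : Config 2) :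
    enP f (m.insertNth r y : Config 3) = f m r * ∏ k, f (m.succAbove k) (y k) := by
  unfold enP
  rw [Fin.prod_univ_succAbove _ m]
  simp

theorem enP_integrable (h : ∀ i, Integrable (f i) volume) : Integrable (enP f) volume :=
  Integrable.fintype_prod h

theorem enP_integral (f : Fin 3 → Space → ℝ) : ∫ x, enP f x = ∏ i, ∫ r, f i r :=
  integral_fintype_prod_volume_eq_prod f

theorem enP_integral_update (f : Fin 3 → Space → ℝ) (m : Fin 3) (a : Space → ℝ) :
    ∫ x, enP (Function.update f m a) x = (∫ r, a r) * ∏ i ∈ Finset.univ.erase m, ∫ r, f i r := by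
  rw [enP_integral, ← Finset.mul_prod_erase Finset.univ _ (Finset.mem_univ m), Function.update_self]
  congr 1
  refine Finset.prod_congr rfl fun i hi => ?_
  rw [Function.update_of_ne (Finset.ne_of_mem_erase hi)]

theorem enP_aesm (h : ∀ i, AEStronglyMeasurable (f i) volume) : AEStronglyMeasurable (enP f) volume :=
  Finset.aestronglyMeasurable_fun_prod _ fun i _ => en_aesm_coord (h i) i

theorem enP_memLp (h : ∀ i, MemLp (f i) 2 volume) : MemLp (enP f) 2 volume := by
  rw [memLp_two_iff_integrable_sq (enP_aesm fun i => (h i).1)]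
  simp only [sq, enP_mul]
  exact enP_integrable fun i => R259.ws_integrable_mul (h i) (h i)

theorem en_update_memLp (h : ∀ i, MemLp (f i) 2 volume) (m : Fin 3) {a : Space → ℝ} (ha : MemLp a 2 volume) :
    ∀ i, MemLp (Function.update f m a i) 2 volume := by
  intro i
  by_cases hi : i = m
  · subst hi; rw [Function.update_self]; exact ha
  · rw [Function.update_of_ne hi]; exact h i

theorem en_memLp_coord {F : Space → Space} (hF : MemLp F 2 volume) (a : Fin 3) :
    MemLp (fun r => F r a) 2 volume := by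
  exact (EuclideanSpace.proj a : Space →L[ℝ] ℝ).comp_memLp' hF

/-- the weak derivative of a tensor -/
theorem enP_weakDeriv (hf : ∀ i, MemLp (f i) 2 volume) (m : Fin 3) {F : Space → Space} (hF : MemLp F 2 volume)
    (hw : IsWeakGrad (f m) F) (a : Fin 3) {φ : Config 3 → ℝ} (hφ : ContDiff ℝ ∞ φ) (hc : HasCompactSupport φ) :
    ∫ x, fderiv ℝ φ x (dir (m, a)) * enP f x
      = - ∫ x, φ x * enP (Function.update f m (fun r => F r a)) x := by
  have hφ1 : ContDiff ℝ 1 φ := hφ.of_le (by simp)
  have i1 : Integrable fun x => fderiv ℝ φ x (dir (m, a)) * enP f x :=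
    ((enP_memLp hf).locallyIntegrable (by norm_num)).integrable_smul_left_of_hasCompactSupport
      (continuous_fderiv_dir hφ _) (hasCompactSupport_fderiv_dir hc _)
  have i2 : Integrable fun x => φ x * enP (Function.update f m (fun r => F r a)) x :=
    ((enP_memLp (en_update_memLp hf m (en_memLp_coord hF a))).locallyIntegrable
      (by norm_num)).integrable_smul_left_of_hasCompactSupport hφ.continuous hc
  rw [en_integral_ins m i1, en_integral_ins m i2, ← integral_neg]
  congr 1; funext y
  have hne : ∀ k : Fin 2, Function.update f m (fun r => F r a) (m.succAbove k) = f (m.succAbove k) :=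
    fun k => Function.update_of_ne (Fin.succAbove_ne m k) _ _
  simp only [enP_ins, Function.update_self, hne]
  have key := hw.2.2 (fun r => φ (m.insertNth r y : Config 3)) (hφ.comp (en_contDiff_ins m y ∞))
    (en_hasCompactSupport_slice hc m y) (EuclideanSpace.single a 1)
  have e1 : ∀ r, fderiv ℝ (fun r => φ (m.insertNth r y : Config 3)) r (EuclideanSpace.single a 1)
      = fderiv ℝ φ (m.insertNth r y : Config 3) (dir (m, a)) := fun r => by
    rw [(en_hasFDerivAt_slice hφ1 m y r).fderiv]; rfl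
  have e2 : ∀ r, ⟪F r, EuclideanSpace.single a (1 : ℝ)⟫_ℝ = F r a := fun r => by
    rw [EuclideanSpace.inner_single_right]; simp
  simp only [e1, e2] at key
  have a1 : ∀ r, fderiv ℝ φ (m.insertNth r y : Config 3) (dir (m, a)) * (f m r * ∏ k, f (m.succAbove k) (y k))
      = (f m r * fderiv ℝ φ (m.insertNth r y : Config 3) (dir (m, a))) * ∏ k, f (m.succAbove k) (y k) :=
    fun r => by ring
  have a2 : ∀ r, φ (m.insertNth r y : Config 3) * (F r a * ∏ k, f (m.succAbove k) (y k))
      = (F r a * φ (m.insertNth r y : Config 3)) * ∏ k, f (m.succAbove k) (y k) := fun r => by ring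
  simp only [a1, a2]
  rw [integral_mul_const, integral_mul_const, key]
  ring

/-! ### finite sums `∑ σ, p σ x • E σ` with constant spin vectors `E σ` -/

section Sum

variable {ι : Type*} [Fintype ι] (E : ι → SpinSpace 3) {p p' : ι → Config 3 → ℝ}

/-- `x ↦ ∑ σ, p σ x • E σ` -/
def enSum (p : ι → Config 3 → ℝ) (x : Config 3) : SpinSpace 3 := ∑ σ, p σ x • E σ

theorem enSum_memLp (hp : ∀ σ, MemLp (p σ) 2 volume) : MemLp (enSum E p) 2 volume := by
  unfold enSum
  refine memLp_finsetSum _ fun σ _ => ?_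
  exact (ContinuousLinearMap.toSpanSingleton ℝ (E σ)).comp_memLp' (hp σ)

theorem enSum_inner (p p' : ι → Config 3 → ℝ) (x : Config 3) :
    ⟪enSum E p x, enSum E p' x⟫_ℂ = ∑ σ, ∑ τ, ((p σ x * p' τ x : ℝ) : ℂ) * ⟪E σ, E τ⟫_ℂ := by
  unfold enSum
  rw [sum_inner]
  refine Finset.sum_congr rfl fun σ _ => ?_
  rw [inner_sum]
  refine Finset.sum_congr rfl fun τ _ => ?_
  rw [← Complex.coe_smul, ← Complex.coe_smul, inner_smul_left, inner_smul_right]
  simp only [Complex.conj_ofReal, Complex.ofReal_mul]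
  ring

theorem enSum_weight_eq (w : Config 3 → ℝ) (p p' : ι → Config 3 → ℝ) (x : Config 3) :
    (w x : ℂ) * ⟪enSum E p x, enSum E p' x⟫_ℂ
      = ∑ σ, ∑ τ, ((w x * (p σ x * p' τ x) : ℝ) : ℂ) * ⟪E σ, E τ⟫_ℂ := by
  rw [enSum_inner, Finset.mul_sum]
  refine Finset.sum_congr rfl fun σ _ => ?_
  rw [Finset.mul_sum]
  refine Finset.sum_congr rfl fun τ _ => ?_
  push_cast
  ring

theorem enSum_integrable_weight {w : Config 3 → ℝ} (h : ∀ σ τ, Integrable fun x => w x * (p σ x * p' τ x)) :
    Integrable fun x => (w x : ℂ) * ⟪enSum E p x, enSum E p' x⟫_ℂ := by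
  simp only [enSum_weight_eq]
  exact integrable_finsetSum _ fun σ _ => integrable_finsetSum _ fun τ _ => (h σ τ).ofReal.mul_const _

theorem enSum_integral_weight {w : Config 3 → ℝ} (h : ∀ σ τ, Integrable fun x => w x * (p σ x * p' τ x)) :
    ∫ x, (w x : ℂ) * ⟪enSum E p x, enSum E p' x⟫_ℂ
      = ∑ σ, ∑ τ, ((∫ x, w x * (p σ x * p' τ x) : ℝ) : ℂ) * ⟪E σ, E τ⟫_ℂ := by
  simp only [enSum_weight_eq]
  rw [integral_finsetSum _ fun σ _ => integrable_finsetSum _ fun τ _ => (h σ τ).ofReal.mul_const _]
  refine Finset.sum_congr rfl fun σ _ => ?_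
  rw [integral_finsetSum _ fun τ _ => (h σ τ).ofReal.mul_const _]
  refine Finset.sum_congr rfl fun τ _ => ?_
  rw [integral_mul_const]
  congr 1
  exact integral_ofReal

theorem enSum_toLp_inner (hp : ∀ σ, MemLp (p σ) 2 volume) (hp' : ∀ σ, MemLp (p' σ) 2 volume) :
    ⟪(enSum_memLp E hp).toLp (enSum E p), (enSum_memLp E hp').toLp (enSum E p')⟫_ℂ
      = ∑ σ, ∑ τ, ((∫ x, p σ x * p' τ x : ℝ) : ℂ) * ⟪E σ, E τ⟫_ℂ := by
  rw [L2.inner_def]
  have h1 := enSum_integral_weight E (w := fun _ => 1) (p := p) (p' := p')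
    (fun σ τ => by simpa only [one_mul] using R259.ws_integrable_mul (hp σ) (hp' τ))
  simp only [Complex.ofReal_one, one_mul] at h1
  rw [← h1]
  refine integral_congr_ae ?_
  filter_upwards [(enSum_memLp E hp).coeFn_toLp, (enSum_memLp E hp').coeFn_toLp] with x h1 h2
  rw [h1, h2]

theorem enSum_integral_smul {ψ : Config 3 → ℝ} (h : ∀ σ, Integrable fun x => ψ x * p σ x) :
    ∫ x, ψ x • enSum E p x = ∑ σ, (∫ x, ψ x * p σ x) • E σ := by
  unfold enSum
  simp only [Finset.smul_sum, smul_smul]
  rw [integral_finsetSum _ fun σ _ => (h σ).smul_const _]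
  refine Finset.sum_congr rfl fun σ _ => ?_
  rw [integral_smul_const]

end Sum

end Claimed.Open.R278
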