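import Claimed.Open.R278.ENPauli
import Claimed.Open.R278.ENOrb

/-!
# Result 278, layer L7: the three-body inequality `T[Φ] + ∑ᵢ ∫ V(xᵢ) |Φ|² ≥ d ‖Φ‖²`   (PROVED)

For each electron `i`: slice (`en_slice_isH1`, `en_slice_weight`, `en_slice_grad`), apply `en_orbital_bound` to the 16 real components, integrate
over `y`; sum over `i`; `en_pauli` with `u = g / √2`.
-/

open MeasureTheory Filter
open scoped ContDiff InnerProductSpace ComplexConjugate ENNReal Topology

noncomputable section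

namespace Claimed.Open.R278

variable {g h V : Space → ℝ} {Gg Gh : Space → Space} {d : ℝ}

/-- one electron: slice, apply `en_orbital_bound` to the 16 components, integrate -/
theorem en_three_body_aux (D : EnData g h V Gg Gh d) {Φ : L2 3} (h1 : MemH1 Φ) (i : Fin 3)
    (hV : Integrable fun x : Config 3 => V (x i) * ‖Φ x‖ ^ 2)
    (hP : ∀ c, Integrable fun y : Config 2 => (∫ r, ((√2)⁻¹ * g r) * enSl Φ i c y r) ^ 2) :
    d * (‖Φ‖ ^ 2 - ∑ c, ∫ y : Config 2, (∫ r, ((√2)⁻¹ * g r) * enSl Φ i c y r) ^ 2)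
      ≤ (1 / 2) * ∑ a, ‖weakGrad Φ (i, a)‖ ^ 2 + ∫ x : Config 3, V (x i) * ‖Φ x‖ ^ 2 := by
  have sl := en_slice_isH1 h1.isWeakGradient i
  obtain ⟨w1, w2, w3⟩ := en_slice_weight Φ i hV
  obtain ⟨-, n2, n3⟩ := en_slice_weight Φ i (U := fun _ => 1) (by simpa using integrable_norm_sq Φ)
  obtain ⟨g1, g2⟩ := en_slice_grad (fun a => weakGrad Φ (i, a)) i
  simp only [one_mul] at n2 n3
  have hc : ∀ c, d * ((∫ y : Config 2, ∫ r, enSl Φ i c y r ^ 2)
        - ∫ y : Config 2, (∫ r, ((√2)⁻¹ * g r) * enSl Φ i c y r) ^ 2)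
      ≤ (1 / 2) * (∫ y : Config 2, ∫ r, ‖enSlG (fun a => weakGrad Φ (i, a)) i c y r‖ ^ 2)
        + ∫ y : Config 2, ∫ r, V r * enSl Φ i c y r ^ 2 := by
    intro c
    rw [← integral_sub (n2 c) (hP c), ← integral_const_mul, ← integral_const_mul,
      ← integral_add ((g1 c).const_mul _) (w2 c)]
    refine integral_mono_ae (((n2 c).sub (hP c)).const_mul d) (((g1 c).const_mul _).add (w2 c)) ?_
    filter_upwards [sl, w1] with y hy hw
    have := en_orbital_bound D (hy c) (hw c)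
    have e : (∫ r, ((√2)⁻¹ * g r) * enSl Φ i c y r) ^ 2 = (∫ r, g r * enSl Φ i c y r) ^ 2 / 2 := by
      simp only [mul_assoc]
      rw [integral_const_mul, mul_pow, inv_pow, Real.sq_sqrt (by norm_num)]
      ring
    simp only [e]
    exact this
  have hsum := Finset.sum_le_sum fun c (_ : c ∈ Finset.univ) => hc c
  rw [← Finset.mul_sum, Finset.sum_sub_distrib, Finset.sum_add_distrib, ← Finset.mul_sum, ← n3, ← g2, ← w3,
    ← norm_sq_eq_integral] at hsum
  exact hsum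

/-- EN-TH -/
theorem en_three_body (D : EnData g h V Gg Gh d) {Φ : L2 3} (ha : IsAntisymmetric Φ) (h1 : MemH1 Φ)
    (hV : ∀ i, Integrable fun x : Config 3 => V (x i) * ‖Φ x‖ ^ 2) :
    d * ‖Φ‖ ^ 2 ≤ (1 / 2) * ∑ j, ‖weakGrad Φ j‖ ^ 2 + ∑ i, ∫ x : Config 3, V (x i) * ‖Φ x‖ ^ 2 := by
  have hu : MemLp (fun r => (√2)⁻¹ * g r) 2 volume := D.g_h1.1.const_mul _
  have hu1 : (∫ r, ((√2)⁻¹ * g r) ^ 2) = 1 := by
    simp only [mul_pow]
    rw [integral_const_mul, D.g_norm, inv_pow, Real.sq_sqrt (by norm_num)]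
    norm_num
  obtain ⟨p1, p2⟩ := en_pauli ha hu hu1
  have hsum := Finset.sum_le_sum fun i (_ : i ∈ Finset.univ) => en_three_body_aux D h1 i (hV i) (p1 i)
  rw [← Finset.mul_sum, Finset.sum_sub_distrib, Finset.sum_add_distrib, ← Finset.mul_sum,
    ← Fintype.sum_prod_type (f := fun j : Fin 3 × Fin 3 => ‖weakGrad Φ j‖ ^ 2)] at hsum
  simp only [Finset.sum_const, Finset.card_univ, Fintype.card_fin, nsmul_eq_mul] at hsum
  refine le_trans ?_ hsum
  have := D.d_pos
  push_cast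
  nlinarith

end Claimed.Open.R278
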