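import Claimed.Open.R278.ENFub
import Claimed.Open.R278.ENSob

/-!
# Result 278, layer L7: measurability of one-body potentials; the density versus the coordinates  (all PROVED)

The `H¹(ℝ³)` tools are in `ENH1.lean` (bridge to the kit `Ws*` of row 259, algebra, Leibniz, cutoffs, density, closedness) and `ENSob.lean`
(Sobolev, Hölder `3/2, 6, 6`, `L^{3/2} + L^∞` as a continuous bilinear form on `H¹`).
-/

open MeasureTheory Filter
open scoped ContDiff InnerProductSpace ComplexConjugate ENNReal Topology NNReal

noncomputable section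

namespace Claimed.Open.R278

theorem en_aesm_coord {U : Space → ℝ} (hU : AEStronglyMeasurable U volume) {m : ℕ} (i : Fin m) :
    AEStronglyMeasurable (fun x : Config m => U (x i)) volume :=
  hU.comp_quasiMeasurePreserving (Measure.quasiMeasurePreserving_eval (fun _ : Fin m => (volume : Measure Space)) i)

theorem en_aesm_oneBody {v : Space → ℝ} (hv : AEStronglyMeasurable v volume) (m : ℕ) :
    AEStronglyMeasurable (oneBodyPotential (m := m) v) volume := by
  unfold oneBodyPotential
  exact Finset.aestronglyMeasurable_fun_sum _ fun i _ => en_aesm_coord hv i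

theorem en_integrable_coord_zero (Φ : L2 3) {U : Space → ℝ}
    (hUm : AEStronglyMeasurable U volume) (hU : Integrable fun r => U r * density Φ r) :
    Integrable fun x : Config 3 => U (x 0) * ‖Φ x‖ ^ 2 := by
  have hm : AEStronglyMeasurable (fun x : Config 3 => U (x 0) * ‖Φ x‖ ^ 2) volume :=
    (en_aesm_coord hUm 0).mul ((aestronglyMeasurable_coe Φ).norm.pow 2)
  rw [← measurePreserving_consEquiv.integrable_comp_emb consEquiv.measurableEmbedding]
  have hm' := hm.comp_measurePreserving measurePreserving_consEquiv
  rw [Measure.volume_eq_prod] at hm' ⊢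
  rw [integrable_prod_iff hm']
  have hN : Integrable (fun p : Space × (Fin 2 → Space) => ‖Φ (consEquiv p)‖ ^ 2) (volume.prod volume) := by
    have := (measurePreserving_consEquiv.integrable_comp_emb consEquiv.measurableEmbedding).2
      (integrable_norm_sq Φ)
    rw [Measure.volume_eq_prod] at this
    exact this
  constructor
  · filter_upwards [hN.prod_right_ae] with r hr
    simp only [Function.comp_def, consEquiv_apply, Fin.cons_zero] at hr ⊢
    exact hr.const_mul _
  · refine (hU.norm.const_mul (1 / 3)).congr (ae_of_all _ fun r => ?_)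
    simp only [Function.comp_def, consEquiv_apply, Fin.cons_zero, norm_mul, density]
    rw [integral_const_mul]
    have h0 : 0 ≤ ∫ y : Config 2, ‖Φ (Fin.cons r y : Config 3)‖ ^ 2 := integral_nonneg fun _ => sq_nonneg _
    have e1 : ∀ y : Config 2, |‖Φ (Fin.cons r y : Config 3)‖ ^ 2| = ‖Φ (Fin.cons r y : Config 3)‖ ^ 2 :=
      fun y => abs_of_nonneg (sq_nonneg _)
    simp only [Real.norm_eq_abs, abs_of_nonneg h0, e1, abs_of_pos (show (0:ℝ) < 3 by norm_num)]
    ring

theorem en_coord_perm {Φ : L2 3} (ha : IsAntisymmetric Φ) (U : Space → ℝ) (i : Fin 3) :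
    (fun x : Config 3 => U (x i) * ‖Φ x‖ ^ 2) =ᵐ[volume]
      (fun x : Config 3 => U (x 0) * ‖Φ x‖ ^ 2) ∘ fun x : Config 3 => x ∘ Equiv.swap 0 i := by
  filter_upwards [ha.norm_comp_perm (Equiv.swap 0 i)] with x hx
  simp only [Function.comp_def] at hx ⊢
  rw [hx]; simp

theorem en_integrable_coord {Φ : L2 3} (ha : IsAntisymmetric Φ) {U : Space → ℝ}
    (hUm : AEStronglyMeasurable U volume) (hU : Integrable fun r => U r * density Φ r) (i : Fin 3) :
    Integrable fun x : Config 3 => U (x i) * ‖Φ x‖ ^ 2 :=
  (((measurePreserving_comp_perm (Equiv.swap 0 i)).integrable_comp_emb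
    (measurableEmbedding_comp_perm (Equiv.swap 0 i))).2 (en_integrable_coord_zero Φ hUm hU)).congr
    (en_coord_perm ha U i).symm

theorem en_integral_coord {Φ : L2 3} (ha : IsAntisymmetric Φ) {U : Space → ℝ}
    (hUm : AEStronglyMeasurable U volume) (hU : Integrable fun r => U r * density Φ r) (i : Fin 3) :
    ∫ x : Config 3, U (x i) * ‖Φ x‖ ^ 2 = (1 / 3) * ∫ r, U r * density Φ r := by
  rw [integral_congr_ae (en_coord_perm ha U i)]
  have h1 := (measurePreserving_comp_perm (Equiv.swap 0 i)).integral_comp
    (measurableEmbedding_comp_perm (Equiv.swap 0 i)) (fun x : Config 3 => U (x 0) * ‖Φ x‖ ^ 2)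
  simp only [Function.comp_def] at h1 ⊢
  rw [h1, integral_config_eq _ (en_integrable_coord_zero Φ hUm hU), ← integral_const_mul]
  congr 1; funext r
  simp only [Fin.cons_zero, density]
  rw [integral_const_mul]; ring

end Claimed.Open.R278
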