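import Claimed.Open.R278.Closing

/-!
# The first excited states of `∑ₖ (-½ ∂ₖ² - 3 sech² yₖ)` on `ℝⁿ`

For every family `C : Fin n → E` the function `y ↦ ∏ₗ sech² yₗ · ∑ₖ sinh yₖ • C k` is an
eigenfunction with eigenvalue `-2n + 3/2`; here we compute its energy.
-/

open MeasureTheory Filter Topology Set
open scoped ContDiff InnerProductSpace ENNReal

noncomputable section

set_option linter.unusedSectionVars false

namespace Claimed.Open.R278

variable {E : Type*} [NormedAddCommGroup E] [InnerProductSpace ℂ E] [NormedSpace ℝ E]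
  [IsScalarTower ℝ ℂ E] [CompleteSpace E] {n : ℕ}

/-! ### Scalar building blocks -/

/-- `∏ₗ sech² yₗ · sinh yₖ`. -/
def bS (k : Fin n) (y : Fin n → ℝ) : ℝ := prodSech y ^ 2 * Real.sinh (y k)

/-- `∏ₗ sech² yₗ · cosh yₖ`. -/
def bC (k : Fin n) (y : Fin n → ℝ) : ℝ := prodSech y ^ 2 * Real.cosh (y k)

theorem contDiff_bS (k : Fin n) : ContDiff ℝ ∞ (bS k) :=
  (contDiff_prodSech.pow 2).mul (Real.contDiff_sinh.comp (contDiff_apply ℝ ℝ k))

theorem contDiff_bC (k : Fin n) : ContDiff ℝ ∞ (bC k) :=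
  (contDiff_prodSech.pow 2).mul (Real.contDiff_cosh.comp (contDiff_apply ℝ ℝ k))

theorem hasFDerivAt_coord {u : ℝ → ℝ} {u' : ℝ} {y : Fin n → ℝ} {k : Fin n}
    (h : HasDerivAt u u' (y k)) :
    HasFDerivAt (fun y : Fin n → ℝ => u (y k))
      (u' • (ContinuousLinearMap.proj k : (Fin n → ℝ) →L[ℝ] ℝ)) y :=
  h.comp_hasFDerivAt y (ContinuousLinearMap.proj (R := ℝ) (φ := fun _ : Fin n => ℝ) k).hasFDerivAt

theorem fderiv_bS (k m : Fin n) (y : Fin n → ℝ) :
    fderiv ℝ (bS k) y (Pi.single m 1) =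
      -(2 * Real.tanh (y m)) * bS k y + if k = m then bC k y else 0 := by
  have h1 : HasFDerivAt (fun y : Fin n → ℝ => prodSech y ^ 2) _ y :=
    ((contDiff_prodSech.pow 2).differentiable (by simp) y).hasFDerivAt
  have h := h1.mul (hasFDerivAt_coord (Real.hasDerivAt_sinh (y k)))
  have h3 : fderiv ℝ (bS k) y = _ := h.fderiv
  rw [h3]
  simp only [_root_.add_apply, _root_.smul_apply, ContinuousLinearMap.proj_apply, smul_eq_mul,
    fderiv_prodSech_sq, bS, bC, Pi.single_apply]
  split_ifs <;> ring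

theorem fderiv_bC (k m : Fin n) (y : Fin n → ℝ) :
    fderiv ℝ (bC k) y (Pi.single m 1) =
      -(2 * Real.tanh (y m)) * bC k y + if k = m then bS k y else 0 := by
  have h1 : HasFDerivAt (fun y : Fin n → ℝ => prodSech y ^ 2) _ y :=
    ((contDiff_prodSech.pow 2).differentiable (by simp) y).hasFDerivAt
  have h := h1.mul (hasFDerivAt_coord (Real.hasDerivAt_cosh (y k)))
  have h3 : fderiv ℝ (bC k) y = _ := h.fderiv
  rw [h3]
  simp only [_root_.add_apply, _root_.smul_apply, ContinuousLinearMap.proj_apply, smul_eq_mul,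
    fderiv_prodSech_sq, bS, bC, Pi.single_apply]
  split_ifs <;> ring

theorem tanh_mul_bC (m : Fin n) (y : Fin n → ℝ) : Real.tanh (y m) * bC m y = bS m y := by
  have := (Real.cosh_pos (y m)).ne'
  rw [bC, bS, Real.tanh_eq_sinh_div_cosh]
  field_simp

theorem bC_nonneg (k : Fin n) (y : Fin n → ℝ) : 0 ≤ bC k y :=
  mul_nonneg (sq_nonneg _) (Real.cosh_pos _).le

theorem bC_le (k : Fin n) (y : Fin n → ℝ) : bC k y ≤ prodSech y := by
  have h1 := prodSech_le_sech y k
  have h2 := prodSech_pos y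
  have h3 : prodSech y * Real.cosh (y k) ≤ 1 := by
    calc prodSech y * Real.cosh (y k) ≤ sech (y k) * Real.cosh (y k) :=
          mul_le_mul_of_nonneg_right h1 (Real.cosh_pos _).le
      _ = 1 := sech_mul_cosh _
  calc bC k y = prodSech y * (prodSech y * Real.cosh (y k)) := by rw [bC]; ring
    _ ≤ prodSech y * 1 := mul_le_mul_of_nonneg_left h3 h2.le
    _ = prodSech y := mul_one _

theorem abs_bC_le (k : Fin n) (y : Fin n → ℝ) : |bC k y| ≤ prodSech y := by
  rw [abs_of_nonneg (bC_nonneg k y)]; exact bC_le k y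

theorem abs_bS_le (k : Fin n) (y : Fin n → ℝ) : |bS k y| ≤ prodSech y := by
  rw [← tanh_mul_bC, abs_mul]
  calc |Real.tanh (y k)| * |bC k y| ≤ 1 * prodSech y :=
        mul_le_mul (abs_tanh_le_one _) (abs_bC_le k y) (abs_nonneg _) zero_le_one
    _ = prodSech y := one_mul _

/-! ### Functions dominated by `∏ sech` -/

/-- Continuous functions bounded by a multiple of `∏ₖ sech yₖ`. -/
def Dec (a : (Fin n → ℝ) → E) : Prop := Continuous a ∧ ∃ A, ∀ y, ‖a y‖ ≤ A * prodSech y

theorem Dec.add {a b : (Fin n → ℝ) → E} (ha : Dec a) (hb : Dec b) : Dec fun y => a y + b y := by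
  obtain ⟨ca, A, hA⟩ := ha
  obtain ⟨cb, B, hB⟩ := hb
  exact ⟨ca.add cb, A + B, fun y => (norm_add_le _ _).trans (by rw [add_mul]; linarith [hA y, hB y])⟩

theorem Dec.bdd_smul {a : (Fin n → ℝ) → E} (ha : Dec a) {t : (Fin n → ℝ) → ℝ} (ht : Continuous t)
    {B : ℝ} (hB : ∀ y, |t y| ≤ B) : Dec fun y => t y • a y := by
  obtain ⟨ca, A, hA⟩ := ha
  refine ⟨ht.smul ca, B * A, fun y => ?_⟩
  rw [norm_smul, Real.norm_eq_abs, mul_assoc]
  exact mul_le_mul (hB y) (hA y) (norm_nonneg _) ((abs_nonneg _).trans (hB y))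

theorem Dec.sub {a b : (Fin n → ℝ) → E} (ha : Dec a) (hb : Dec b) : Dec fun y => a y - b y := by
  have := ha.add (hb.bdd_smul (t := fun _ => -1) continuous_const (B := 1) (by simp))
  simpa [sub_eq_add_neg] using this

theorem dec_zero : Dec (fun _ : Fin n → ℝ => (0 : E)) :=
  ⟨continuous_const, 0, fun y => by simp⟩

theorem dec_sum {ι : Type*} (s : Finset ι) {a : ι → (Fin n → ℝ) → E} (h : ∀ i ∈ s, Dec (a i)) :
    Dec fun y => ∑ i ∈ s, a i y := by
  classical
  induction s using Finset.induction_on with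
  | empty => simpa using dec_zero
  | insert i s hi ih =>
    simp only [Finset.sum_insert hi]
    exact (h i (Finset.mem_insert_self i s)).add (ih fun j hj => h j (Finset.mem_insert_of_mem hj))

theorem dec_smul_const {b : (Fin n → ℝ) → ℝ} (hb : Continuous b) (h : ∀ y, |b y| ≤ prodSech y)
    (c : E) : Dec fun y => b y • c := by
  refine ⟨hb.smul continuous_const, ‖c‖, fun y => ?_⟩
  rw [norm_smul, Real.norm_eq_abs, mul_comm]
  exact mul_le_mul_of_nonneg_left (h y) (norm_nonneg _)

theorem Dec.integrable_reB {a b : (Fin n → ℝ) → E} (ha : Dec a) (hb : Dec b) :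
    Integrable fun y => reB (a y) (b y) := by
  obtain ⟨ca, A, hA⟩ := ha
  obtain ⟨cb, B, hB⟩ := hb
  have c : Continuous fun y => reB (a y) (b y) :=
    ((reB (E := E)).continuous.comp ca).clm_apply cb
  refine ((integrable_prodSech_pow (n := n) 1).const_mul (A * B)).mono' c.aestronglyMeasurable
    (ae_of_all _ fun y => ?_)
  rw [Real.norm_eq_abs]
  calc |reB (a y) (b y)| ≤ ‖a y‖ * ‖b y‖ := abs_reB_le _ _
    _ ≤ (A * prodSech y) * (B * prodSech y) :=
        mul_le_mul (hA y) (hB y) (norm_nonneg _) ((norm_nonneg _).trans (hA y))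
    _ = A * B * prodSech y ^ (1 + 1) := by ring

theorem Dec.integrable_norm_sq {a : (Fin n → ℝ) → E} (ha : Dec a) :
    Integrable fun y => ‖a y‖ ^ 2 := by
  simpa [reB_self] using ha.integrable_reB ha

theorem Dec.integrable_mul_norm_sq {a : (Fin n → ℝ) → E} (ha : Dec a) {t : (Fin n → ℝ) → ℝ}
    (ht : Continuous t) {B : ℝ} (hB : ∀ y, |t y| ≤ B) : Integrable fun y => t y * ‖a y‖ ^ 2 := by
  have := (ha.bdd_smul ht hB).integrable_reB ha
  simpa [reB_self] using this

/-! ### The excited states -/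

/-- The first excited states `y ↦ ∏ₗ sech² yₗ · ∑ₖ sinh yₖ • C k`. -/
def exc (C : Fin n → E) (y : Fin n → ℝ) : E := ∑ k, bS k y • C k

/-- The partial derivative `∂ₘ` of `exc C`. -/
def excD (C : Fin n → E) (m : Fin n) (y : Fin n → ℝ) : E :=
  bC m y • C m - (2 * Real.tanh (y m)) • exc C y

/-- The second partial derivative `∂ₘ²` of `exc C`. -/
def excDD (C : Fin n → E) (m : Fin n) (y : Fin n → ℝ) : E :=
  (-3 * bS m y) • C m + (4 - 6 * sech (y m) ^ 2) • exc C y

variable (C : Fin n → E)

theorem contDiff_exc : ContDiff ℝ ∞ (exc C) :=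
  ContDiff.sum fun k _ => (contDiff_bS k).smul contDiff_const

theorem hasFDerivAt_exc (y : Fin n → ℝ) :
    HasFDerivAt (exc C) (∑ k, (fderiv ℝ (bS k) y).smulRight (C k)) y :=
  HasFDerivAt.fun_sum fun k _ =>
    (((contDiff_bS k).differentiable (by simp) y).hasFDerivAt.smul_const (C k))

theorem fderiv_exc (m : Fin n) (y : Fin n → ℝ) :
    fderiv ℝ (exc C) y (Pi.single m 1) = excD C m y := by
  rw [(hasFDerivAt_exc C y).fderiv]
  simp only [_root_.sum_apply, ContinuousLinearMap.smulRight_apply, fderiv_bS, add_smul,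
    Finset.sum_add_distrib, ite_smul, zero_smul, Finset.sum_ite_eq', Finset.mem_univ, if_true,
    excD, exc, mul_smul, neg_smul, Finset.smul_sum, Finset.sum_neg_distrib]
  abel

theorem continuous_tanh_coord (m : Fin n) : Continuous fun y : Fin n → ℝ => Real.tanh (y m) :=
  continuous_tanh'.comp (continuous_apply m)

theorem continuous_sech_coord (m : Fin n) : Continuous fun y : Fin n → ℝ => sech (y m) :=
  continuous_sech.comp (continuous_apply m)

theorem hasFDerivAt_excD (m : Fin n) (y : Fin n → ℝ) :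
    HasFDerivAt (excD C m)
      ((fderiv ℝ (bC m) y).smulRight (C m) -
        ((2 * Real.tanh (y m)) • (fderiv ℝ (exc C) y) +
          ((2 : ℝ) • ((sech (y m) ^ 2) •
            (ContinuousLinearMap.proj m : (Fin n → ℝ) →L[ℝ] ℝ))).smulRight (exc C y))) y := by
  have h1 := ((contDiff_bC m).differentiable (by simp) y).hasFDerivAt.smul_const (C m)
  have h2 := ((hasFDerivAt_tanh_coord y m).const_mul 2).smul
    ((contDiff_exc C).differentiable (by simp) y).hasFDerivAt
  exact h1.sub h2

theorem fderiv_excD (m : Fin n) (y : Fin n → ℝ) :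
    fderiv ℝ (excD C m) y (Pi.single m 1) = excDD C m y := by
  rw [(hasFDerivAt_excD C m y).fderiv]
  simp only [_root_.sub_apply, _root_.add_apply, _root_.smul_apply,
    ContinuousLinearMap.smulRight_apply, fderiv_bC, fderiv_exc, ContinuousLinearMap.proj_apply,
    Pi.single_eq_same, if_true, smul_eq_mul, mul_one]
  have h1 := tanh_mul_bC m y
  have h2 := tanh_sq_eq (y m)
  simp only [excD, excDD, smul_sub, smul_smul, add_smul, sub_smul]
  have e1 : -(2 * Real.tanh (y m)) * bC m y = -2 * bS m y := by rw [← h1]; ring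
  have e2 : 2 * Real.tanh (y m) * bC m y = 2 * bS m y := by rw [← h1]; ring
  have e3 : 2 * Real.tanh (y m) * (2 * Real.tanh (y m)) = 4 - 4 * sech (y m) ^ 2 := by
    have : 2 * Real.tanh (y m) * (2 * Real.tanh (y m)) = 4 * Real.tanh (y m) ^ 2 := by ring
    rw [this, h2]; ring
  rw [e1, e2, e3]
  module

theorem dec_exc : Dec (exc C) :=
  dec_sum _ fun k _ => dec_smul_const (contDiff_bS k).continuous (abs_bS_le k) (C k)

theorem dec_excD (m : Fin n) : Dec (excD C m) :=
  (dec_smul_const (contDiff_bC m).continuous (abs_bC_le m) (C m)).sub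
    ((dec_exc C).bdd_smul (continuous_const.mul (continuous_tanh_coord m)) (B := 2) fun y => by
      rw [abs_mul]; have := abs_tanh_le_one (y m); norm_num; linarith)

theorem abs_four_sub_le (x : ℝ) : |4 - 6 * sech x ^ 2| ≤ 4 := by
  have := sech_sq_mem x
  rw [abs_le]; constructor <;> linarith [this.1, this.2]

theorem dec_excDD (m : Fin n) : Dec (excDD C m) := by
  have h1 : Dec fun y => (-3 : ℝ) • (bS m y • C m) :=
    (dec_smul_const (contDiff_bS m).continuous (abs_bS_le m) (C m)).bdd_smul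
      (t := fun _ => (-3 : ℝ)) continuous_const (B := 3) (by intro; norm_num)
  have h2 := (dec_exc C).bdd_smul
    (continuous_const.sub (continuous_const.mul ((continuous_sech_coord m).pow 2)))
    (B := 4) fun y => abs_four_sub_le (y m)
  have h3 := h1.add h2
  have e : excDD C m = fun y => (-3 : ℝ) • (bS m y • C m) + (4 - 6 * sech (y m) ^ 2) • exc C y := by
    funext y; rw [excDD, smul_smul]
  rw [e]; exact h3

theorem integral_reB_exc_excDD (m : Fin n) :
    ∫ y, reB (exc C y) (excDD C m y) = -∫ y, ‖excD C m y‖ ^ 2 := by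
  have h := integral_bilinear_fderiv_right_eq_neg_left_of_integrable (μ := volume)
    (f := exc C) (g := excD C m) (v := Pi.single m 1) (B := reB (E := E))
    (by simpa only [fderiv_exc] using (dec_excD C m).integrable_reB (dec_excD C m))
    (by simpa only [fderiv_excD] using (dec_exc C).integrable_reB (dec_excDD C m))
    ((dec_exc C).integrable_reB (dec_excD C m))
    (fun y _ => (contDiff_exc C).differentiable (by simp) y)
    (fun y _ => (hasFDerivAt_excD C m y).differentiableAt)
  simpa only [fderiv_exc, fderiv_excD, reB_self] using h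

/-- **Energy of the excited states**: equality holds in `flat_lower_bound`. -/
theorem exc_energy :
    ∑ m, ((1 / 2) * (∫ y, ‖excD C m y‖ ^ 2) + ∫ y, (2 - 3 * sech (y m) ^ 2) * ‖exc C y‖ ^ 2) =
      (3 / 2) * ∫ y, ‖exc C y‖ ^ 2 := by
  have hN := (dec_exc C).integrable_norm_sq
  have i1 : ∀ m : Fin n, Integrable fun y => bS m y * reB (exc C y) (C m) := fun m => by
    have := (dec_exc C).integrable_reB
      (dec_smul_const (contDiff_bS m).continuous (abs_bS_le m) (C m))
    simpa using this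
  have i2 : ∀ m : Fin n, Integrable fun y => (2 - 3 * sech (y m) ^ 2) * ‖exc C y‖ ^ 2 := fun m =>
    (dec_exc C).integrable_mul_norm_sq
      (continuous_const.sub (continuous_const.mul ((continuous_sech_coord m).pow 2))) (B := 2)
      fun y => by
        have := sech_sq_mem (y m)
        rw [abs_le]; constructor <;> linarith [this.1, this.2]
  have e1 : ∀ m : Fin n, ∫ y, ‖excD C m y‖ ^ 2 =
      3 * (∫ y, bS m y * reB (exc C y) (C m)) -
        2 * ∫ y, (2 - 3 * sech (y m) ^ 2) * ‖exc C y‖ ^ 2 := by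
    intro m
    have h := integral_reB_exc_excDD C m
    have : ∀ y, reB (exc C y) (excDD C m y) =
        2 * ((2 - 3 * sech (y m) ^ 2) * ‖exc C y‖ ^ 2) - 3 * (bS m y * reB (exc C y) (C m)) := by
      intro y
      simp only [excDD, map_add, map_smul, smul_eq_mul, reB_self]
      ring
    simp only [this] at h
    rw [integral_sub ((i2 m).const_mul 2) ((i1 m).const_mul 3), integral_const_mul,
      integral_const_mul] at h
    linarith
  have e2 : ∑ m : Fin n, ∫ y, bS m y * reB (exc C y) (C m) = ∫ y, ‖exc C y‖ ^ 2 := by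
    rw [← integral_finsetSum _ fun m _ => i1 m]
    congr 1; funext y
    rw [← reB_self (exc C y)]
    conv_rhs => rw [exc, map_sum]
    simp only [map_smul, smul_eq_mul]
    rfl
  simp only [e1]
  have : ∀ m : Fin n, (1 / 2 : ℝ) * (3 * (∫ y, bS m y * reB (exc C y) (C m)) -
        2 * ∫ y, (2 - 3 * sech (y m) ^ 2) * ‖exc C y‖ ^ 2) +
      ∫ y, (2 - 3 * sech (y m) ^ 2) * ‖exc C y‖ ^ 2 =
      (3 / 2) * ∫ y, bS m y * reB (exc C y) (C m) := fun m => by ring
  simp only [this]
  rw [← Finset.mul_sum, e2]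

theorem exc_single (k : Fin n) :
    exc C (Pi.single k 1) = (prodSech (Pi.single k 1 : Fin n → ℝ) ^ 2 * Real.sinh 1) • C k := by
  rw [exc, Finset.sum_eq_single k]
  · simp [bS]
  · intro l _ hl
    simp [bS, hl]
  · simp

end Claimed.Open.R278
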