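import Claimed.Open.R278.FSWeak
import Claimed.Open.R278.Closing
import Claimed.Open.R278.ChargeLemmas
import Claimed.Agent.R259.WsHilb
import Claimed.Open.R278.ENH1

/-!
# Result 278, kit FS, file 2: bridges between the three languages of weak derivatives

* many body: `IsWeakGradient Ψ G`, `MemH1 Ψ`, `weakGrad Ψ` for `Ψ : L2 m` (`Statement.lean`);
* scalar on `Space = ℝ³`: `IsWeakGrad f G`, `IsH1 f G` (`Statement.lean`);
* raw functions: `WD μ v f g`, `WD2 μ v f g` (`FSWeak.lean`);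
* the sorry-free scalar kit `Claimed.Agent.R259.WeakGrad`, `Claimed.Agent.R259.H1 m u g` of `Claimed/Agent/R259/Ws*.lean`
  (chain rule `wsg_comp`, products `wsg_mul`, `wsg_mul_bdd`, positive part `wsg_posPart`, `wsg_abs`, `wsg_max_const`,
  `wsg_min_const`, `wsg_clip`, level sets `wsg_level`, `C¹` tests `wsg_test_C1`, weighted spaces `H1 (dm η)`: density
  `wsh_dense`, closedness `wsh_closed`, lower semicontinuity `wsh_lsc`, weak convergence `wsh_weak_conv`, `ws_cluster`).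
  USE IT for every scalar statement through `isWeakGrad_iff_weakGrad`.

Each section is ONE LEAF.  Everything here is paper-free.
-/

open MeasureTheory Filter Topology Set
open scoped ContDiff InnerProductSpace

noncomputable section

set_option linter.unusedSectionVars false

namespace Claimed.Open.R278

/-! ## LEAF FS-B1: `L2 m` versus raw functions -/

section B1

variable {m : ℕ}

theorem L2.memLp (Ψ : L2 m) : MemLp (Ψ : Config m → SpinSpace m) 2 volume := Lp.memLp Ψ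

theorem isWeakGradient_iff_wd2 {Ψ : L2 m} {G : Fin m × Fin 3 → L2 m} :
    IsWeakGradient Ψ G ↔ ∀ j, WD2 volume (dir j) (Ψ : Config m → SpinSpace m) (G j) :=
  ⟨fun h j => ⟨Lp.memLp _, Lp.memLp _, fun φ hφ hc => h j φ hφ hc⟩, fun h j φ hφ hc => (h j).weak φ hφ hc⟩

theorem MemH1.wd2 {Ψ : L2 m} (h : MemH1 Ψ) (j : Fin m × Fin 3) :
    WD2 volume (dir j) (Ψ : Config m → SpinSpace m) (weakGrad Ψ j) :=
  isWeakGradient_iff_wd2.1 h.isWeakGradient j

/-- every vector of `Config m` is a combination of the `dir j`. -/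
theorem config_eq_sum_dir (v : Config m) : v = ∑ j : Fin m × Fin 3, v j.1 j.2 • dir j := by
  funext i
  ext a
  simp only [dir, Finset.sum_apply, Pi.smul_apply, Fintype.sum_prod_type]
  rw [WithLp.ofLp_sum, Finset.sum_apply, Finset.sum_eq_single i]
  · rw [WithLp.ofLp_sum, Finset.sum_apply, Finset.sum_eq_single a]
    · simp
    · intro b _ hb
      simp [hb.symm]
    · simp
  · intro k _ hk
    simp [hk.symm]
  · simp

/-- derivative of an `H¹` state along an arbitrary direction. -/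
theorem MemH1.wd2_dir {Ψ : L2 m} (h : MemH1 Ψ) (v : Config m) :
    WD2 volume v (Ψ : Config m → SpinSpace m) (fun x => ∑ j : Fin m × Fin 3, v j.1 j.2 • weakGrad Ψ j x) := by
  have h1 : ∀ j : Fin m × Fin 3, WD volume (v j.1 j.2 • dir j) (Ψ : Config m → SpinSpace m)
      (fun x => v j.1 j.2 • weakGrad Ψ j x) := fun j => WD.smul_dir _ (h.wd2 j).wd
  have h2 := WD.sum_dir Finset.univ ((L2.memLp Ψ).locallyIntegrable (by norm_num)) fun j _ => h1 j
  rw [← config_eq_sum_dir v] at h2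
  exact ⟨L2.memLp Ψ, memLp_finsetSum _ fun j _ => (L2.memLp (weakGrad Ψ j)).const_smul (v j.1 j.2), h2.weak⟩

theorem isWeakGradient_toLp {f : Config m → SpinSpace m} {g : Fin m × Fin 3 → Config m → SpinSpace m}
    (hf : MemLp f 2 volume) (hg : ∀ j, MemLp (g j) 2 volume) (h : ∀ j, HasWeakDeriv volume (dir j) f (g j)) :
    IsWeakGradient (hf.toLp f) (fun j => (hg j).toLp (g j)) := by
  intro j φ hφ hc
  have e1 : ∫ x, fderiv ℝ φ x (dir j) • (hf.toLp f) x = ∫ x, fderiv ℝ φ x (dir j) • f x := by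
    refine integral_congr_ae ?_
    filter_upwards [hf.coeFn_toLp] with x hx
    rw [hx]
  have e2 : ∫ x, φ x • ((hg j).toLp (g j)) x = ∫ x, φ x • g j x := by
    refine integral_congr_ae ?_
    filter_upwards [(hg j).coeFn_toLp] with x hx
    rw [hx]
  rw [e1, e2]
  exact h j φ hφ hc

theorem memH1_toLp {f : Config m → SpinSpace m} {g : Fin m × Fin 3 → Config m → SpinSpace m}
    (hf : MemLp f 2 volume) (hg : ∀ j, MemLp (g j) 2 volume) (h : ∀ j, HasWeakDeriv volume (dir j) f (g j)) :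
    MemH1 (hf.toLp f) := ⟨_, isWeakGradient_toLp hf hg h⟩

theorem weakGrad_toLp {f : Config m → SpinSpace m} {g : Fin m × Fin 3 → Config m → SpinSpace m}
    (hf : MemLp f 2 volume) (hg : ∀ j, MemLp (g j) 2 volume) (h : ∀ j, HasWeakDeriv volume (dir j) f (g j)) :
    weakGrad (hf.toLp f) = fun j => (hg j).toLp (g j) := (isWeakGradient_toLp hf hg h).weakGrad_eq

theorem L2.norm_sq_eq (Ψ : L2 m) : ‖Ψ‖ ^ 2 = ∫ x, ‖Ψ x‖ ^ 2 := by
  conv_lhs => rw [← Lp.toLp_coeFn Ψ (L2.memLp Ψ)]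
  rw [fs_norm_toLp, Real.sq_sqrt (integral_nonneg fun x => sq_nonneg _)]

theorem L2.norm_sub_sq_eq (Ψ Φ : L2 m) : ‖Ψ - Φ‖ ^ 2 = ∫ x, ‖Ψ x - Φ x‖ ^ 2 := by
  rw [L2.norm_sq_eq]
  refine integral_congr_ae ?_
  filter_upwards [Lp.coeFn_sub Ψ Φ] with x hx
  rw [hx, Pi.sub_apply]

theorem L2.norm_toLp_sq {f : Config m → SpinSpace m} (hf : MemLp f 2 volume) :
    ‖hf.toLp f‖ ^ 2 = ∫ x, ‖f x‖ ^ 2 := by
  rw [fs_norm_toLp, Real.sq_sqrt (integral_nonneg fun x => sq_nonneg _)]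

theorem L2.inner_eq (Ξ Φ : L2 m) : ⟪Ξ, Φ⟫_ℂ = ∫ x, ⟪Ξ x, Φ x⟫_ℂ := by
  exact MeasureTheory.L2.inner_def Ξ Φ

theorem L2.integrable_inner (Ξ Φ : L2 m) : Integrable (fun x => ⟪Ξ x, Φ x⟫_ℂ) := by
  exact fs_integrable_inner (L2.memLp Ξ) (L2.memLp Φ)

theorem L2.integrable_norm_sq (Ψ : L2 m) : Integrable (fun x => ‖Ψ x‖ ^ 2) := by
  exact (memLp_two_iff_integrable_sq_norm (L2.memLp Ψ).1).1 (L2.memLp Ψ)

/-- the kinetic energy (twice): `∑ⱼ ‖∂ⱼΨ‖²`. -/
def kin (Ψ : L2 m) : ℝ := ∑ j, ‖weakGrad Ψ j‖ ^ 2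

theorem kin_nonneg (Ψ : L2 m) : 0 ≤ kin Ψ := Finset.sum_nonneg fun _ _ => sq_nonneg _

theorem energy_eq_kin (W : Config m → ℝ) (Ψ : L2 m) :
    energy W Ψ = (1 / 2) * kin Ψ + ∫ x, W x * ‖Ψ x‖ ^ 2 := energy_eq W Ψ

theorem kin_eq_integral (Ψ : L2 m) : kin Ψ = ∑ j, ∫ x, ‖weakGrad Ψ j x‖ ^ 2 :=
  Finset.sum_congr rfl fun _ _ => L2.norm_sq_eq _

/-- `C¹_c` is dense in `H¹` (sequence form, in `L2 m`). -/
theorem MemH1.exists_seq {Ψ : L2 m} (h : MemH1 Ψ) :
    ∃ u : ℕ → Config m → SpinSpace m, (∀ n, ContDiff ℝ 1 (u n)) ∧ (∀ n, HasCompactSupport (u n)) ∧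
      ∃ (U : ℕ → L2 m), (∀ n, (U n : Config m → SpinSpace m) =ᵐ[volume] u n) ∧ (∀ n, MemH1 (U n)) ∧
        (∀ n j, (weakGrad (U n) j : Config m → SpinSpace m) =ᵐ[volume] fun x => fderiv ℝ (u n) x (dir j)) ∧
        Tendsto U atTop (𝓝 Ψ) ∧ ∀ j, Tendsto (fun n => weakGrad (U n) j) atTop (𝓝 (weakGrad Ψ j)) := by
  obtain ⟨u, hu, hc, h0, h1⟩ := exists_seq_contDiff_approx (fun j => h.wd2 j) (L2.memLp Ψ)
  have mu : ∀ n, MemLp (u n) 2 volume := fun n => fs_memLp_C1c (hu n).continuous (hc n)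
  have md : ∀ n j, MemLp (fun x => fderiv ℝ (u n) x (dir j)) 2 volume := fun n j => fs_memLp_d (hu n) (hc n) _
  have hw : ∀ n j, HasWeakDeriv volume (dir j) (u n) (fun x => fderiv ℝ (u n) x (dir j)) := fun n j =>
    (HasWeakDeriv.of_contDiff (hu n) _).weak
  refine ⟨u, hu, hc, fun n => (mu n).toLp (u n), fun n => (mu n).coeFn_toLp,
    fun n => memH1_toLp (mu n) (md n) (hw n), fun n j => ?_, ?_, fun j => ?_⟩
  · rw [weakGrad_toLp (mu n) (md n) (hw n)]
    exact (md n j).coeFn_toLp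
  · have := fs_tendsto_toLp mu (L2.memLp Ψ) h0
    rwa [Lp.toLp_coeFn] at this
  · have := fs_tendsto_toLp (fun n => md n j) (L2.memLp (weakGrad Ψ j)) (h1 j)
    rw [Lp.toLp_coeFn] at this
    simpa only [weakGrad_toLp (mu _) (md _) (hw _)] using this

/-- the graph of the weak gradient is weakly (hence strongly) sequentially closed. -/
theorem IsWeakGradient.of_tendsto_weak {Ψn : ℕ → L2 m} {Gn : ℕ → Fin m × Fin 3 → L2 m} {Ψ : L2 m}
    {G : Fin m × Fin 3 → L2 m} (h : ∀ n, IsWeakGradient (Ψn n) (Gn n))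
    (h1 : ∀ Φ : L2 m, Tendsto (fun n => ⟪Φ, Ψn n⟫_ℂ) atTop (𝓝 ⟪Φ, Ψ⟫_ℂ))
    (h2 : ∀ j, ∀ Φ : L2 m, Tendsto (fun n => ⟪Φ, Gn n j⟫_ℂ) atTop (𝓝 ⟪Φ, G j⟫_ℂ)) : IsWeakGradient Ψ G := by
  intro j φ hφ hc
  have hφ1 : ContDiff ℝ 1 φ := hφ.of_le fs_one_le
  refine ext_inner_left ℂ fun e => ?_
  -- test vectors in `L2 m`
  have m1 : MemLp (fun x => fderiv ℝ φ x (dir j) • e) 2 (volume : Measure (Config m)) :=
    fs_memLp_C1c ((fs_cont_d hφ1 _).smul continuous_const) (hc.fderiv_apply (𝕜 := ℝ) _).smul_right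
  have m2 : MemLp (fun x => φ x • e) 2 (volume : Measure (Config m)) :=
    fs_memLp_C1c (hφ1.continuous.smul continuous_const) hc.smul_right
  have key : ∀ (χ : Config m → ℝ) (hm : MemLp (fun x => χ x • e) 2 (volume : Measure (Config m)))
      (hχ : Continuous χ) (hχc : HasCompactSupport χ) (Φ : L2 m),
      ⟪hm.toLp _, Φ⟫_ℂ = ⟪e, ∫ x, χ x • Φ x⟫_ℂ := by
    intro χ hm hχ hχc Φ
    rw [← integral_inner (fs_int ((L2.memLp Φ).locallyIntegrable (by norm_num)) hχ hχc), L2.inner_eq]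
    refine integral_congr_ae ?_
    filter_upwards [hm.coeFn_toLp] with x hx
    rw [hx, fs_inner_smul_left, fs_inner_smul_right]
  have t1 := h1 (m1.toLp _)
  have t2 := h2 j (m2.toLp _)
  simp only [key _ m1 (fs_cont_d hφ1 _) (hc.fderiv_apply (𝕜 := ℝ) _)] at t1
  simp only [key _ m2 hφ1.continuous hc] at t2
  simp only [h _ j φ hφ hc, inner_neg_right] at t1
  rw [inner_neg_right]
  exact tendsto_nhds_unique t1 t2.neg

theorem IsWeakGradient.of_tendsto {Ψn : ℕ → L2 m} {Gn : ℕ → Fin m × Fin 3 → L2 m} {Ψ : L2 m}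
    {G : Fin m × Fin 3 → L2 m} (h : ∀ n, IsWeakGradient (Ψn n) (Gn n))
    (h1 : Tendsto Ψn atTop (𝓝 Ψ)) (h2 : ∀ j, Tendsto (fun n => Gn n j) atTop (𝓝 (G j))) : IsWeakGradient Ψ G := by
  exact IsWeakGradient.of_tendsto_weak h (fun Φ => (tendsto_const_nhds.inner h1))
    (fun j Φ => (tendsto_const_nhds.inner (h2 j)))

/-- integration by parts in `H¹`. -/
theorem MemH1.inner_weakGrad {Ξ Φ : L2 m} (hΞ : MemH1 Ξ) (hΦ : MemH1 Φ) (j : Fin m × Fin 3) :
    ⟪weakGrad Ξ j, Φ⟫_ℂ = - ⟪Ξ, weakGrad Φ j⟫_ℂ := by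
  rw [L2.inner_eq, L2.inner_eq]
  exact WD2.integral_inner (hΞ.wd2 j) (hΦ.wd2 j)

end B1

/-! ## LEAF FS-B2: multiplication of states by real functions; IMS localisation -/

section B2

variable {m : ℕ}

open Classical in
/-- multiplication of `Ψ` by the real function `χ` (junk value `0` if the product is not in `L²`). -/
def mulL2 (χ : Config m → ℝ) (Ψ : L2 m) : L2 m :=
  if h : MemLp (fun x => χ x • (Ψ x : SpinSpace m)) 2 volume then h.toLp _ else 0

theorem memLp_smul_of_bdd {χ : Config m → ℝ} (hm : AEStronglyMeasurable χ volume) {C : ℝ} (hC : ∀ x, |χ x| ≤ C)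
    (Ψ : L2 m) : MemLp (fun x => χ x • (Ψ x : SpinSpace m)) 2 volume := by
  refine (L2.memLp Ψ).of_le_mul (c := C) (hm.smul (L2.memLp Ψ).1) (Eventually.of_forall fun x => ?_)
  rw [norm_smul, Real.norm_eq_abs]
  exact mul_le_mul_of_nonneg_right (hC x) (norm_nonneg _)

theorem coeFn_mulL2 {χ : Config m → ℝ} (hm : AEStronglyMeasurable χ volume) {C : ℝ} (hC : ∀ x, |χ x| ≤ C)
    (Ψ : L2 m) : (mulL2 χ Ψ : Config m → SpinSpace m) =ᵐ[volume] fun x => χ x • Ψ x := by
  unfold mulL2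
  rw [dif_pos (memLp_smul_of_bdd hm hC Ψ)]
  exact MemLp.coeFn_toLp _

/-- Leibniz rule in `L2 m`. -/
theorem MemH1.isWeakGradient_mulL2 {Ψ : L2 m} (h : MemH1 Ψ) {χ : Config m → ℝ} (hχ : ContDiff ℝ 1 χ) {C : ℝ}
    (h0 : ∀ x, |χ x| ≤ C) (h1 : ∀ x j, |fderiv ℝ χ x (dir j)| ≤ C) :
    IsWeakGradient (mulL2 χ Ψ)
      (fun j => mulL2 (fun x => fderiv ℝ χ x (dir j)) Ψ + mulL2 χ (weakGrad Ψ j)) := by
  refine isWeakGradient_iff_wd2.2 fun j => ?_
  have hd : Continuous fun x => fderiv ℝ χ x (dir j) := fs_cont_d hχ _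
  have w := WD2.smul_left (h.wd2 j) hχ h0 (fun x => h1 x j)
  refine ⟨L2.memLp _, L2.memLp _, (w.wd.congr_ae ?_ ?_).weak⟩
  · exact (coeFn_mulL2 hχ.continuous.aestronglyMeasurable h0 Ψ).symm
  · filter_upwards [Lp.coeFn_add (mulL2 (fun x => fderiv ℝ χ x (dir j)) Ψ) (mulL2 χ (weakGrad Ψ j)),
      coeFn_mulL2 hd.aestronglyMeasurable (fun x => h1 x j) Ψ,
      coeFn_mulL2 hχ.continuous.aestronglyMeasurable h0 (weakGrad Ψ j)] with x e1 e2 e3
    rw [e1, Pi.add_apply, e2, e3]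

/-- a permutation symmetric factor preserves antisymmetry. -/
theorem IsAntisymmetric.mulL2 {Ψ : L2 m} (h : IsAntisymmetric Ψ) {χ : Config m → ℝ}
    (hm : AEStronglyMeasurable χ volume) {C : ℝ} (hC : ∀ x, |χ x| ≤ C)
    (hs : ∀ (π : Equiv.Perm (Fin m)) x, χ (x ∘ π) = χ x) : IsAntisymmetric (mulL2 χ Ψ) := by
  intro π
  have h0 := coeFn_mulL2 hm hC Ψ
  have h1 := (measurePreserving_comp_perm π).quasiMeasurePreserving.ae h0
  filter_upwards [h0, h1, h π] with x hx hx1 h2 s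
  simp only [hx, hx1, hs π x, PiLp.smul_apply, h2 s, Complex.real_smul]
  ring

theorem InSpinSector.mulL2 {μ : ℚ} {Ψ : L2 m} (h : InSpinSector μ Ψ) {χ : Config m → ℝ}
    (hm : AEStronglyMeasurable χ volume) {C : ℝ} (hC : ∀ x, |χ x| ≤ C) : InSpinSector μ (mulL2 χ Ψ) := by
  filter_upwards [coeFn_mulL2 hm hC Ψ, h] with x hx h2 s hs
  rw [hx, PiLp.smul_apply, h2 s hs, smul_zero]

/-- pointwise IMS identity (any real inner product space `H`). -/
theorem ims_pointwise {X H ι : Type*} [NormedAddCommGroup X] [NormedSpace ℝ X] [NormedAddCommGroup H]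
    [InnerProductSpace ℝ H] [Fintype ι] {χ : ι → X → ℝ} (hχ : ∀ k, ContDiff ℝ 1 (χ k))
    (h1 : ∀ x, ∑ k, χ k x ^ 2 = 1) (v x : X) (a b : H) :
    ∑ k, ‖fderiv ℝ (χ k) x v • a + χ k x • b‖ ^ 2 = ‖b‖ ^ 2 + (∑ k, fderiv ℝ (χ k) x v ^ 2) * ‖a‖ ^ 2 := by
  have hsum : ∑ k, χ k x * fderiv ℝ (χ k) x v = 0 := by
    have hd : HasFDerivAt (fun y => ∑ k, χ k y ^ 2) (∑ k, (2 • χ k x ^ (2 - 1)) • fderiv ℝ (χ k) x) x :=
      HasFDerivAt.fun_sum fun k _ => ((hχ k).differentiable one_ne_zero x).hasFDerivAt.pow 2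
    have hc : (fun y => ∑ k, χ k y ^ 2) = fun _ => (1 : ℝ) := funext h1
    rw [hc] at hd
    have := hd.unique (hasFDerivAt_const (1 : ℝ) x)
    have h2 := congrArg (fun L : X →L[ℝ] ℝ => L v) this
    simp only [sum_apply, smul_apply, smul_eq_mul, nsmul_eq_mul, Nat.cast_ofNat,
      zero_apply, Nat.add_one_sub_one, pow_one, mul_assoc, ← Finset.mul_sum] at h2
    linarith
  have e : ∀ k, ‖fderiv ℝ (χ k) x v • a + χ k x • b‖ ^ 2
      = fderiv ℝ (χ k) x v ^ 2 * ‖a‖ ^ 2 + 2 * ⟪a, b⟫_ℝ * (χ k x * fderiv ℝ (χ k) x v) + χ k x ^ 2 * ‖b‖ ^ 2 := by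
    intro k
    rw [norm_add_sq_real, norm_smul, norm_smul, real_inner_smul_left, real_inner_smul_right, mul_pow, mul_pow,
      Real.norm_eq_abs, Real.norm_eq_abs, sq_abs, sq_abs]
    ring
  simp only [e, Finset.sum_add_distrib, ← Finset.sum_mul, ← Finset.mul_sum, hsum, h1]
  ring

/-- **IMS localisation formula** for the energy. -/
theorem ims_energy {ι : Type*} [Fintype ι] {W : Config m → ℝ} {Ψ : L2 m} (hΨ : Ψ ∈ FormDomain W)
    {χ : ι → Config m → ℝ} (hχ : ∀ k, ContDiff ℝ 1 (χ k)) (h1 : ∀ x, ∑ k, χ k x ^ 2 = 1) {C : ℝ}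
    (hd : ∀ k x j, |fderiv ℝ (χ k) x (dir j)| ≤ C) :
    ∑ k, energy W (mulL2 (χ k) Ψ)
      = energy W Ψ + (1 / 2) * ∫ x, (∑ k, ∑ j, fderiv ℝ (χ k) x (dir j) ^ 2) * ‖Ψ x‖ ^ 2 := by
  set C' := max C 1 with hC'
  have hk0 : ∀ k x, |χ k x| ≤ C' := by
    intro k x
    have h2 : χ k x ^ 2 ≤ 1 := by
      rw [← h1 x]
      exact Finset.single_le_sum (f := fun k => χ k x ^ 2) (fun _ _ => sq_nonneg _) (Finset.mem_univ k)
    exact (abs_le_one_iff_mul_self_le_one.2 (by nlinarith)).trans (le_max_right _ _)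
  have hk1 : ∀ k x j, |fderiv ℝ (χ k) x (dir j)| ≤ C' := fun k x j => (hd k x j).trans (le_max_left _ _)
  have hH := hΨ.2.1
  have hcm : ∀ k, AEStronglyMeasurable (χ k) volume := fun k => (hχ k).continuous.aestronglyMeasurable
  have hdm : ∀ k j, Continuous fun x => fderiv ℝ (χ k) x (dir j) := fun k j => fs_cont_d (hχ k) _
  have hg : ∀ k, weakGrad (mulL2 (χ k) Ψ)
      = fun j => mulL2 (fun x => fderiv ℝ (χ k) x (dir j)) Ψ + mulL2 (χ k) (weakGrad Ψ j) :=
    fun k => (hH.isWeakGradient_mulL2 (hχ k) (hk0 k) (hk1 k)).weakGrad_eq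
  have hA : ∀ k j, ‖weakGrad (mulL2 (χ k) Ψ) j‖ ^ 2
      = ∫ x, ‖fderiv ℝ (χ k) x (dir j) • Ψ x + χ k x • weakGrad Ψ j x‖ ^ 2 := by
    intro k j
    rw [hg k, L2.norm_sq_eq]
    refine integral_congr_ae ?_
    filter_upwards [Lp.coeFn_add (mulL2 (fun x => fderiv ℝ (χ k) x (dir j)) Ψ) (mulL2 (χ k) (weakGrad Ψ j)),
      coeFn_mulL2 (hdm k j).aestronglyMeasurable (fun x => hk1 k x j) Ψ,
      coeFn_mulL2 (hcm k) (hk0 k) (weakGrad Ψ j)] with x e1 e2 e3
    rw [e1, Pi.add_apply, e2, e3]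
  have iA : ∀ k j, Integrable
      (fun x => ‖fderiv ℝ (χ k) x (dir j) • Ψ x + χ k x • weakGrad Ψ j x‖ ^ 2) volume := fun k j => by
    have hm := (memLp_smul_of_bdd (hdm k j).aestronglyMeasurable (fun x => hk1 k x j) Ψ).add
      (memLp_smul_of_bdd (hcm k) (hk0 k) (weakGrad Ψ j))
    exact (memLp_two_iff_integrable_sq_norm hm.1).1 hm
  have hP : ∀ k, ∫ x, W x * ‖mulL2 (χ k) Ψ x‖ ^ 2 = ∫ x, χ k x ^ 2 * (W x * ‖Ψ x‖ ^ 2) := by
    intro k
    refine integral_congr_ae ?_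
    filter_upwards [coeFn_mulL2 (hcm k) (hk0 k) Ψ] with x hx
    rw [hx, norm_smul, mul_pow, Real.norm_eq_abs, sq_abs]
    ring
  have iP : ∀ k, Integrable (fun x => χ k x ^ 2 * (W x * ‖Ψ x‖ ^ 2)) volume := fun k =>
    hΨ.2.2.bdd_mul (c := C' ^ 2) ((hχ k).continuous.pow 2).aestronglyMeasurable
      (Eventually.of_forall fun x => by
        rw [Real.norm_eq_abs, abs_pow]
        exact pow_le_pow_left₀ (abs_nonneg _) (hk0 k x) 2)
  have iD : ∀ k j, Integrable (fun x => fderiv ℝ (χ k) x (dir j) ^ 2 * ‖Ψ x‖ ^ 2) volume := fun k j =>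
    (L2.integrable_norm_sq Ψ).bdd_mul (c := C' ^ 2) ((hdm k j).pow 2).aestronglyMeasurable
      (Eventually.of_forall fun x => by
        rw [Real.norm_eq_abs, abs_pow]
        exact pow_le_pow_left₀ (abs_nonneg _) (hk1 k x j) 2)
  have e1 : ∑ k, ∫ x, χ k x ^ 2 * (W x * ‖Ψ x‖ ^ 2) = ∫ x, W x * ‖Ψ x‖ ^ 2 := by
    rw [← integral_finsetSum _ fun k _ => iP k]
    refine integral_congr_ae (Eventually.of_forall fun x => ?_)
    show ∑ k, χ k x ^ 2 * (W x * ‖Ψ x‖ ^ 2) = _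
    rw [← Finset.sum_mul, h1 x, one_mul]
  have e2 : ∀ j, ∑ k, ∫ x, ‖fderiv ℝ (χ k) x (dir j) • Ψ x + χ k x • weakGrad Ψ j x‖ ^ 2
      = ‖weakGrad Ψ j‖ ^ 2 + ∑ k, ∫ x, fderiv ℝ (χ k) x (dir j) ^ 2 * ‖Ψ x‖ ^ 2 := by
    intro j
    rw [← integral_finsetSum _ fun k _ => iA k j, ← integral_finsetSum _ fun k _ => iD k j, L2.norm_sq_eq,
      ← integral_add (L2.integrable_norm_sq _) (integrable_finsetSum _ fun k _ => iD k j)]
    refine integral_congr_ae (Eventually.of_forall fun x => ?_)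
    show ∑ k, ‖fderiv ℝ (χ k) x (dir j) • Ψ x + χ k x • weakGrad Ψ j x‖ ^ 2
      = ‖weakGrad Ψ j x‖ ^ 2 + ∑ k, fderiv ℝ (χ k) x (dir j) ^ 2 * ‖Ψ x‖ ^ 2
    rw [ims_pointwise hχ h1 (dir j) x (Ψ x) (weakGrad Ψ j x), Finset.sum_mul]
  have e3 : ∫ x, (∑ k, ∑ j, fderiv ℝ (χ k) x (dir j) ^ 2) * ‖Ψ x‖ ^ 2
      = ∑ j, ∑ k, ∫ x, fderiv ℝ (χ k) x (dir j) ^ 2 * ‖Ψ x‖ ^ 2 := by
    rw [Finset.sum_comm]
    simp only [Finset.sum_mul]
    rw [integral_finsetSum _ fun k _ => integrable_finsetSum _ fun j _ => iD k j]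
    exact Finset.sum_congr rfl fun k _ => integral_finsetSum _ fun j _ => iD k j
  simp only [energy_eq_kin, kin, hA, hP]
  rw [Finset.sum_add_distrib, ← Finset.mul_sum, Finset.sum_comm, e1, e3]
  simp only [e2]
  rw [Finset.sum_add_distrib]
  ring

theorem mulL2_mem_formDomain {W : Config m → ℝ} {Ψ : L2 m} (hΨ : Ψ ∈ FormDomain W) {χ : Config m → ℝ}
    (hχ : ContDiff ℝ 1 χ) {C : ℝ} (h0 : ∀ x, |χ x| ≤ C) (h1 : ∀ x j, |fderiv ℝ χ x (dir j)| ≤ C)
    (hs : ∀ (π : Equiv.Perm (Fin m)) x, χ (x ∘ π) = χ x) : mulL2 χ Ψ ∈ FormDomain W := by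
  have hm := hχ.continuous.aestronglyMeasurable (μ := (volume : Measure (Config m)))
  refine ⟨hΨ.1.mulL2 hm h0 hs, ⟨_, hΨ.2.1.isWeakGradient_mulL2 hχ h0 h1⟩, ?_⟩
  have i1 : Integrable (fun x => χ x ^ 2 * (W x * ‖Ψ x‖ ^ 2)) volume :=
    hΨ.2.2.bdd_mul (c := C ^ 2) (hχ.continuous.pow 2).aestronglyMeasurable
      (Eventually.of_forall fun x => by
        rw [Real.norm_eq_abs, abs_pow]
        exact pow_le_pow_left₀ (abs_nonneg _) (h0 x) 2)
  refine i1.congr ?_
  filter_upwards [coeFn_mulL2 hm h0 Ψ] with x hx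
  rw [hx, norm_smul, mul_pow, Real.norm_eq_abs, sq_abs]
  ring

end B2

/-! ## LEAF FS-B3: scalar functions on `Space` -/

section B3

theorem isWeakGrad_iff_wd {f : Space → ℝ} {G : Space → Space} :
    IsWeakGrad f G ↔ LocallyIntegrable G volume ∧ ∀ v : Space, WD volume v f (fun x => ⟪G x, v⟫_ℝ) := by
  constructor
  · rintro ⟨h1, h2, h3⟩
    refine ⟨h2, fun v => ⟨h1, fs_li_clm h2 ((innerSL ℝ).flip v), fun φ hφ hc => ?_⟩⟩
    have := h3 φ hφ hc v
    simpa only [smul_eq_mul, mul_comm] using this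
  · rintro ⟨h2, h3⟩
    refine ⟨(h3 0).locf, h2, fun φ hφ hc v => ?_⟩
    have := (h3 v).weak φ hφ hc
    simpa only [smul_eq_mul, mul_comm] using this

theorem isH1_iff_wd2 {f : Space → ℝ} {G : Space → Space} :
    IsH1 f G ↔ MemLp G 2 volume ∧ ∀ v : Space, WD2 volume v f (fun x => ⟪G x, v⟫_ℝ) := by
  constructor
  · rintro ⟨h1, h2, h3⟩
    exact ⟨h2, fun v => ⟨h1, h2.inner_const v, ((isWeakGrad_iff_wd.1 h3).2 v).weak⟩⟩
  · rintro ⟨h2, h3⟩
    exact ⟨(h3 0).memf, h2, isWeakGrad_iff_wd.2 ⟨h2.locallyIntegrable (by norm_num), fun v => (h3 v).wd⟩⟩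

/-- the gradient assembled from the three coordinate derivatives. -/
theorem isWeakGrad_of_coord {f : Space → ℝ} {g : Fin 3 → Space → ℝ}
    (h : ∀ a, WD volume (EuclideanSpace.single a (1 : ℝ)) f (g a)) :
    IsWeakGrad f (fun x => WithLp.toLp 2 fun a => g a x) := by
  have e : ∀ x, (WithLp.toLp 2 fun a => g a x : Space) = ∑ a, g a x • EuclideanSpace.single a (1 : ℝ) := by
    intro x
    ext b
    simp [Finset.sum_apply, Pi.single_apply]
  have hG : LocallyIntegrable (fun x => (WithLp.toLp 2 fun a => g a x : Space)) volume := by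
    simp only [e]
    exact locallyIntegrable_finsetSum _ fun a _ =>
      fs_li_clm (h a).locg (ContinuousLinearMap.toSpanSingleton ℝ (EuclideanSpace.single a (1 : ℝ)))
  refine isWeakGrad_iff_wd.2 ⟨hG, fun v => ?_⟩
  have h1 := WD.sum_dir Finset.univ (h 0).locf fun a _ => WD.smul_dir (v a) (h a)
  have e2 : ∑ a, v a • EuclideanSpace.single a (1 : ℝ) = v := by
    ext b
    simp [Finset.sum_apply, Pi.single_apply]
  rw [e2] at h1
  refine h1.congr_ae (Eventually.of_forall fun x => rfl) (Eventually.of_forall fun x => ?_)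
  simp [PiLp.inner_apply, mul_comm]

theorem isH1_of_coord {f : Space → ℝ} {g : Fin 3 → Space → ℝ}
    (h : ∀ a, WD2 volume (EuclideanSpace.single a (1 : ℝ)) f (g a)) :
    IsH1 f (fun x => WithLp.toLp 2 fun a => g a x) := by
  have e : ∀ x, (WithLp.toLp 2 fun a => g a x : Space) = ∑ a, g a x • EuclideanSpace.single a (1 : ℝ) := by
    intro x
    ext b
    simp [Finset.sum_apply, Pi.single_apply]
  refine ⟨(h 0).memf, ?_, isWeakGrad_of_coord fun a => (h a).wd⟩
  simp only [e]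
  exact memLp_finsetSum _ fun a _ =>
    (ContinuousLinearMap.toSpanSingleton ℝ (EuclideanSpace.single a (1 : ℝ))).comp_memLp' (h a).memg

theorem IsH1.wd2_coord {f : Space → ℝ} {G : Space → Space} (h : IsH1 f G) (a : Fin 3) :
    WD2 volume (EuclideanSpace.single a (1 : ℝ)) f (fun x => G x a) := by
  have := (isH1_iff_wd2.1 h).2 (EuclideanSpace.single a (1 : ℝ))
  simpa [EuclideanSpace.inner_single_right] using this

theorem IsWeakGrad.wd_coord {f : Space → ℝ} {G : Space → Space} (h : IsWeakGrad f G) (a : Fin 3) :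
    WD volume (EuclideanSpace.single a (1 : ℝ)) f (fun x => G x a) := by
  have := (isWeakGrad_iff_wd.1 h).2 (EuclideanSpace.single a (1 : ℝ))
  simpa [EuclideanSpace.inner_single_right] using this

/-- **the bridge to the scalar kit of row 259.** -/
theorem isWeakGrad_iff_weakGrad {f : Space → ℝ} {G : Space → Space} :
    IsWeakGrad f G ↔ Claimed.Agent.R259.WeakGrad f G := by
  exact en_isWeakGrad_iff

theorem isH1_iff_H1 {f : Space → ℝ} {G : Space → Space} :
    IsH1 f G ↔ Claimed.Agent.R259.H1 volume f G := by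
  exact en_isH1_iff

theorem integral_norm_sq_eq_sum_coord {G : Space → Space} (hG : MemLp G 2 volume) :
    ∫ x, ‖G x‖ ^ 2 = ∑ a, ∫ x, G x a ^ 2 := by
  have hm : ∀ a, MemLp (fun x => G x a) 2 volume := fun a =>
    (EuclideanSpace.proj (𝕜 := ℝ) a).comp_memLp' hG
  have hi : ∀ a, Integrable (fun x => G x a ^ 2) volume := fun a => (hm a).integrable_sq
  rw [← integral_finsetSum _ fun a _ => hi a]
  refine integral_congr_ae (Eventually.of_forall fun x => ?_)
  simp [EuclideanSpace.norm_sq_eq]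

end B3

/-! ## LEAF FS-B4: the scalar calculus in the language of `Statement.lean`
(each line is a one-line consequence of `isWeakGrad_iff_weakGrad` and of the file of row 259 named in the docstring) -/

section B4

variable {f g : Space → ℝ} {F G : Space → Space}

open Claimed.Agent in
theorem IsWeakGrad.ws (h : IsWeakGrad f F) : R259.WeakGrad f F := isWeakGrad_iff_weakGrad.1 h

open Claimed.Agent in
theorem isWeakGrad_of_ws (h : R259.WeakGrad f F) : IsWeakGrad f F := isWeakGrad_iff_weakGrad.2 h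

theorem IsWeakGrad.wd (h : IsWeakGrad f F) (v : Space) : WD volume v f (fun x => ⟪F x, v⟫_ℝ) :=
  (isWeakGrad_iff_wd.1 h).2 v

theorem IsH1.wd2 (h : IsH1 f F) (v : Space) : WD2 volume v f (fun x => ⟪F x, v⟫_ℝ) :=
  (isH1_iff_wd2.1 h).2 v

theorem L2Loc.inner_const (h : L2Loc volume F) (v : Space) : L2Loc volume (fun x => ⟪F x, v⟫_ℝ) :=
  fun K hK => (h K hK).inner_const v

theorem IsWeakGrad.add (h : IsWeakGrad f F) (h' : IsWeakGrad g G) :
    IsWeakGrad (fun x => f x + g x) (fun x => F x + G x) := by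
  exact isWeakGrad_of_ws (Claimed.Agent.R259.wsg_add h.ws h'.ws)

theorem IsWeakGrad.sub (h : IsWeakGrad f F) (h' : IsWeakGrad g G) :
    IsWeakGrad (fun x => f x - g x) (fun x => F x - G x) := by
  exact isWeakGrad_of_ws (Claimed.Agent.R259.wsg_sub h.ws h'.ws)

theorem IsWeakGrad.const_mul (c : ℝ) (h : IsWeakGrad f F) : IsWeakGrad (fun x => c * f x) (fun x => c • F x) := by
  exact isWeakGrad_of_ws (Claimed.Agent.R259.wsg_smul c h.ws)

theorem IsWeakGrad.neg (h : IsWeakGrad f F) : IsWeakGrad (fun x => - f x) (fun x => - F x) := by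
  exact isWeakGrad_of_ws (Claimed.Agent.R259.wsg_neg h.ws)

theorem isWeakGrad_const (c : ℝ) : IsWeakGrad (fun _ => c) (fun _ => 0) := by
  exact isWeakGrad_of_ws (Claimed.Agent.R259.wsg_const c)

theorem IsWeakGrad.congr_ae {f' : Space → ℝ} {F' : Space → Space} (h : IsWeakGrad f F) (h1 : f =ᵐ[volume] f')
    (h2 : F =ᵐ[volume] F') : IsWeakGrad f' F' := by
  exact isWeakGrad_of_ws (Claimed.Agent.R259.wsg_congr h.ws h1 h2)

/-- `wsg_mul`. -/
theorem IsWeakGrad.mul_contDiff (h : IsWeakGrad f F) {χ : Space → ℝ} (hχ : ContDiff ℝ 1 χ) :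
    IsWeakGrad (fun x => χ x * f x) (fun x => χ x • F x + f x • gradient χ x) := by
  exact isWeakGrad_of_ws (Claimed.Agent.R259.wsg_mul h.ws hχ)

/-- `wsg_comp`: chain rule for `C¹` functions with bounded derivative. -/
theorem IsWeakGrad.comp (h : IsWeakGrad f F) {Θ : ℝ → ℝ} (hΘ : ContDiff ℝ 1 Θ) {C : ℝ}
    (hC : ∀ z, |deriv Θ z| ≤ C) : IsWeakGrad (fun x => Θ (f x)) (fun x => deriv Θ (f x) • F x) := by
  exact isWeakGrad_of_ws (Claimed.Agent.R259.wsg_comp h.ws hΘ hC)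

/-- product of two `H¹_loc` functions (from `WD.bilin`). -/
theorem IsWeakGrad.mul (h : IsWeakGrad f F) (h' : IsWeakGrad g G) (h1 : L2Loc volume f) (h2 : L2Loc volume F)
    (h3 : L2Loc volume g) (h4 : L2Loc volume G) :
    IsWeakGrad (fun x => f x * g x) (fun x => g x • F x + f x • G x) := by
  refine isWeakGrad_iff_wd.2 ⟨?_, fun v => ?_⟩
  · exact (fs_li_bilin_L2 (ContinuousLinearMap.lsmul ℝ ℝ) h3 h2).add
      (fs_li_bilin_L2 (ContinuousLinearMap.lsmul ℝ ℝ) h1 h4)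
  · have := WD.bilin (ContinuousLinearMap.mul ℝ ℝ) (h.wd v) (h'.wd v) h1 (h2.inner_const v) h3 (h4.inner_const v)
    refine this.congr_ae (Eventually.of_forall fun x => rfl) (Eventually.of_forall fun x => ?_)
    simp only [ContinuousLinearMap.mul_apply', inner_add_left, real_inner_smul_left]
    ring

/-- `wsg_posPart`. -/
theorem IsWeakGrad.posPart (h : IsWeakGrad f F) :
    IsWeakGrad (fun x => max (f x) 0) (fun x => if 0 < f x then F x else 0) := by
  refine (isWeakGrad_of_ws (Claimed.Agent.R259.wsg_posPart h.ws)).congr_ae (Eventually.of_forall fun x => rfl)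
    (Eventually.of_forall fun x => ?_)
  simp only [Set.indicator_apply, Set.mem_ofPred_eq]

/-- `wsg_abs`. -/
theorem IsWeakGrad.abs (h : IsWeakGrad f F) : IsWeakGrad (fun x => |f x|) (fun x => Real.sign (f x) • F x) := by
  exact isWeakGrad_of_ws (Claimed.Agent.R259.wsg_abs h.ws)

/-- maximum of two functions. -/
theorem IsWeakGrad.max (h : IsWeakGrad f F) (h' : IsWeakGrad g G) :
    IsWeakGrad (fun x => max (f x) (g x)) (fun x => if g x < f x then F x else G x) := by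
  refine (h'.add (h.sub h').posPart).congr_ae (Eventually.of_forall fun x => ?_)
    (Eventually.of_forall fun x => ?_)
  · show g x + Max.max (f x - g x) 0 = Max.max (f x) (g x)
    rcases le_total (f x) (g x) with hx | hx
    · rw [max_eq_right (sub_nonpos.2 hx), max_eq_right hx, add_zero]
    · rw [max_eq_left (sub_nonneg.2 hx), max_eq_left hx]; ring
  · show G x + (if 0 < f x - g x then F x - G x else 0) = if g x < f x then F x else G x
    by_cases hx : g x < f x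
    · rw [if_pos hx, if_pos (sub_pos.2 hx)]; abel
    · rw [if_neg hx, if_neg (by rwa [sub_pos]), add_zero]

theorem IsWeakGrad.min (h : IsWeakGrad f F) (h' : IsWeakGrad g G) :
    IsWeakGrad (fun x => min (f x) (g x)) (fun x => if f x < g x then F x else G x) := by
  refine (h'.sub (h'.sub h).posPart).congr_ae (Eventually.of_forall fun x => ?_)
    (Eventually.of_forall fun x => ?_)
  · show g x - Max.max (g x - f x) 0 = Min.min (f x) (g x)
    rcases le_total (f x) (g x) with hx | hx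
    · rw [max_eq_left (sub_nonneg.2 hx), min_eq_left hx]; ring
    · rw [max_eq_right (sub_nonpos.2 hx), min_eq_right hx, sub_zero]
  · show G x - (if 0 < g x - f x then G x - F x else 0) = if f x < g x then F x else G x
    by_cases hx : f x < g x
    · rw [if_pos hx, if_pos (sub_pos.2 hx)]; abel
    · rw [if_neg hx, if_neg (by rwa [sub_pos]), sub_zero]

/-- `wsg_level`: the gradient vanishes a.e. on level sets. -/
theorem IsWeakGrad.ae_eq_zero_of_level (h : IsWeakGrad f F) (c : ℝ) : ∀ᵐ x, f x = c → F x = 0 := by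
  exact Claimed.Agent.R259.wsg_level h.ws c

/-- `wsg_test_C1` + density: the defining identity of the weak gradient tested with a compactly supported `H¹`
function, when `f, F ∈ L²_loc`. -/
theorem IsWeakGrad.integral_mul_H1c (h : IsWeakGrad f F) (h1 : L2Loc volume f) (h2 : L2Loc volume F)
    (hg : IsH1 g G) (hc : HasCompactSupport g) (v : Space) :
    ∫ x, f x * ⟪G x, v⟫_ℝ = - ∫ x, ⟪F x, v⟫_ℝ * g x := by
  set K := tsupport g with hK
  have hKc : IsCompact K := hc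
  have w := WD.bilin (ContinuousLinearMap.mul ℝ ℝ) (h.wd v) (hg.wd2 v).wd h1 (h2.inner_const v)
    (MemLp.l2Loc hg.1) (MemLp.l2Loc (hg.wd2 v).memg)
  simp only [ContinuousLinearMap.mul_apply'] at w
  have hg0 : ∀ x, x ∉ K → g x = 0 := fun x hx => image_eq_zero_of_notMem_tsupport hx
  have hG0 : ∀ᵐ x, x ∉ K → G x = 0 := by
    filter_upwards [hg.2.2.ae_eq_zero_of_level 0] with x hx hxK
    exact hx (hg0 x hxK)
  have mf : MemLp (K.indicator f) 2 volume := fs_memLp_indicator h1 hKc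
  have mF : MemLp (K.indicator fun x => ⟪F x, v⟫_ℝ) 2 volume := fs_memLp_indicator (h2.inner_const v) hKc
  have i0 : Integrable (fun x => f x * g x) volume := by
    refine (mf.integrable_mul hg.1).congr (Eventually.of_forall fun x => ?_)
    by_cases hx : x ∈ K
    · simp [Set.indicator_of_mem hx]
    · simp [hg0 x hx]
  have i1 : Integrable (fun x => ⟪F x, v⟫_ℝ * g x) volume := by
    refine (mF.integrable_mul hg.1).congr (Eventually.of_forall fun x => ?_)
    by_cases hx : x ∈ K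
    · simp [Set.indicator_of_mem hx]
    · simp [hg0 x hx]
  have i2 : Integrable (fun x => f x * ⟪G x, v⟫_ℝ) volume := by
    refine (mf.integrable_mul (hg.wd2 v).memg).congr ?_
    filter_upwards [hG0] with x hx0
    by_cases hx : x ∈ K
    · simp [Set.indicator_of_mem hx]
    · simp [hx0 hx]
  have := WD.integral_eq_zero w i0 (i1.add i2)
  rw [integral_add i1 i2] at this
  linarith

theorem IsH1.add (h : IsH1 f F) (h' : IsH1 g G) : IsH1 (fun x => f x + g x) (fun x => F x + G x) := by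
  exact enH1_add h h'

theorem IsH1.sub (h : IsH1 f F) (h' : IsH1 g G) : IsH1 (fun x => f x - g x) (fun x => F x - G x) := by
  exact enH1_sub h h'

theorem IsH1.const_mul (c : ℝ) (h : IsH1 f F) : IsH1 (fun x => c * f x) (fun x => c • F x) := by
  exact enH1_const_mul c h

theorem IsH1.abs (h : IsH1 f F) : IsH1 (fun x => |f x|) (fun x => Real.sign (f x) • F x) := by
  have w := h.2.2.abs
  refine ⟨h.1.norm, h.2.1.mono w.2.1.aestronglyMeasurable (Eventually.of_forall fun x => ?_), w⟩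
  rw [norm_smul, Real.norm_eq_abs]
  refine mul_le_of_le_one_left (norm_nonneg _) ?_
  rcases lt_trichotomy (f x) 0 with hx | hx | hx
  · simp [Real.sign_of_neg hx]
  · simp [hx]
  · simp [Real.sign_of_pos hx]

theorem IsH1.posPart (h : IsH1 f F) : IsH1 (fun x => max (f x) 0) (fun x => if 0 < f x then F x else 0) := by
  have w := h.2.2.posPart
  refine ⟨h.1.mono w.1.aestronglyMeasurable (Eventually.of_forall fun x => ?_),
    h.2.1.mono w.2.1.aestronglyMeasurable (Eventually.of_forall fun x => ?_), w⟩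
  · rw [Real.norm_eq_abs, Real.norm_eq_abs, abs_of_nonneg (le_max_right _ _)]
    exact max_le (le_abs_self _) (abs_nonneg _)
  · split_ifs
    · exact le_rfl
    · simp

/-- bounded `C¹` factor with bounded gradient. -/
theorem IsH1.mul_contDiff (h : IsH1 f F) {χ : Space → ℝ} (hχ : ContDiff ℝ 1 χ) {C : ℝ} (h0 : ∀ x, |χ x| ≤ C)
    (h1 : ∀ x, ‖gradient χ x‖ ≤ C) : IsH1 (fun x => χ x * f x) (fun x => χ x • F x + f x • gradient χ x) := by
  refine ⟨fs_memLp_smul_of_bdd h.1 hχ.continuous h0,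
    (fs_memLp_smul_of_bdd h.2.1 hχ.continuous h0).add ?_, h.2.2.mul_contDiff hχ⟩
  refine h.1.of_le_mul (c := C) (h.1.1.smul (continuous_gradient hχ).aestronglyMeasurable)
    (Eventually.of_forall fun x => ?_)
  rw [norm_smul, mul_comm]
  exact mul_le_mul_of_nonneg_right (h1 x) (norm_nonneg _)

/-- cutoff of an `H¹_loc` function. -/
theorem IsWeakGrad.isH1_mul_cutoff (h : IsWeakGrad f F) (h1 : L2Loc volume f) (h2 : L2Loc volume F)
    {χ : Space → ℝ} (hχ : ContDiff ℝ 1 χ) (hc : HasCompactSupport χ) :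
    IsH1 (fun x => χ x * f x) (fun x => χ x • F x + f x • gradient χ x) := by
  have hgc : Continuous (gradient χ) := continuous_gradient hχ
  have hgs : HasCompactSupport (gradient χ) := Claimed.Agent.R259.ws_gradient_hasCompactSupport hc
  obtain ⟨C, hC⟩ := hgs.exists_bound_of_continuous hgc
  refine ⟨fs_memLp_smul_of_compact h1 hχ.continuous hc,
    (fs_memLp_smul_of_compact h2 hχ.continuous hc).add ?_, h.mul_contDiff hχ⟩
  refine (fs_memLp_indicator h1 hgs.isCompact).of_le_mul (c := C)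
    (h.1.aestronglyMeasurable.smul hgc.aestronglyMeasurable) (Eventually.of_forall fun x => ?_)
  by_cases hx : x ∈ tsupport (gradient χ)
  · rw [Set.indicator_of_mem hx, norm_smul, mul_comm]
    exact mul_le_mul_of_nonneg_right (hC x) (norm_nonneg _)
  · rw [image_eq_zero_of_notMem_tsupport hx, smul_zero, norm_zero]
    exact mul_nonneg ((norm_nonneg _).trans (hC x)) (norm_nonneg _)

theorem isH1_of_contDiff (hf : ContDiff ℝ 1 f) (hc : HasCompactSupport f) : IsH1 f (gradient f) := by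
  exact enH1_of_contDiff hf hc

/-- a `C¹` function which is in `L²` together with its gradient. -/
theorem isH1_of_contDiff_memLp (hf : ContDiff ℝ 1 f) (h0 : MemLp f 2 volume) (h1 : MemLp (gradient f) 2 volume) :
    IsH1 f (gradient f) := ⟨h0, h1, isWeakGrad_gradient hf⟩

/-- density of `C¹_c` in `H¹(ℝ³)` (even `C^∞_c`: `wsh_dense` with `η = 1`). -/
theorem IsH1.exists_seq (h : IsH1 f F) :
    ∃ u : ℕ → Space → ℝ, (∀ n, ContDiff ℝ ∞ (u n)) ∧ (∀ n, HasCompactSupport (u n)) ∧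
      Tendsto (fun n => ∫ x, (u n x - f x) ^ 2) atTop (𝓝 0) ∧
      Tendsto (fun n => ∫ x, ‖gradient (u n) x - F x‖ ^ 2) atTop (𝓝 0) := by
  exact enH1_exists_approx h

/-- closedness. -/
theorem IsH1.of_tendsto {fn : ℕ → Space → ℝ} {Fn : ℕ → Space → Space} (h : ∀ n, IsH1 (fn n) (Fn n))
    (hf : MemLp f 2 volume) (hF : MemLp F 2 volume)
    (h1 : Tendsto (fun n => ∫ x, (fn n x - f x) ^ 2) atTop (𝓝 0))
    (h2 : Tendsto (fun n => ∫ x, ‖Fn n x - F x‖ ^ 2) atTop (𝓝 0)) : IsH1 f F := by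
  exact enH1_of_tendsto h hf hF h1 h2

/-- Green's formula in `H¹(ℝ³)`. -/
theorem IsH1.integral_mul_inner (h : IsH1 f F) (h' : IsH1 g G) (v : Space) :
    ∫ x, f x * ⟪G x, v⟫_ℝ = - ∫ x, ⟪F x, v⟫_ℝ * g x := by
  have := WD2.integral_inner (𝕜 := ℝ) (h.wd2 v) (h'.wd2 v)
  simp only [RCLike.inner_apply, conj_trivial] at this
  simp only [mul_comm (f _)]
  simp only [mul_comm] at this ⊢
  linarith

/-- composition with an isometry of `ℝ³` (rotations `rotZIsometry`, reflection `reflZIsometry`) and translations. -/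
theorem IsWeakGrad.comp_isometry (h : IsWeakGrad f F) (A : Space ≃ₗᵢ[ℝ] Space) :
    IsWeakGrad (fun x => f (A x)) (fun x => A.symm (F (A x))) := by
  obtain ⟨c, -, hc⟩ := fs_map_equiv (volume : Measure Space) (volume : Measure Space) A.toContinuousLinearEquiv
  have hc' : (volume : Measure Space).map A.toContinuousLinearEquiv.toHomeomorph = c • volume := hc
  refine isWeakGrad_iff_wd.2 ⟨?_, fun w => ?_⟩
  · exact fs_li_clm (fs_li_of_map hc' h.2.1) (A.symm.toContinuousLinearEquiv : Space →L[ℝ] Space)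
  · have := WD.comp_equiv (ν := volume) (w := w) A.toContinuousLinearEquiv (h.wd (A w))
    refine this.congr_ae (Eventually.of_forall fun x => rfl) (Eventually.of_forall fun x => ?_)
    show ⟪F (A x), A w⟫_ℝ = ⟪A.symm (F (A x)), w⟫_ℝ
    rw [LinearIsometryEquiv.inner_map_eq_flip, LinearIsometryEquiv.symm_symm]

theorem IsWeakGrad.translate (h : IsWeakGrad f F) (a : Space) :
    IsWeakGrad (fun x => f (x + a)) (fun x => F (x + a)) := by
  refine isWeakGrad_iff_wd.2 ⟨fs_li_of_map (fs_map_addRight (μ := volume) a) h.2.1, fun v => ?_⟩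
  exact WD.translate (h.wd v) a

theorem IsH1.comp_isometry (h : IsH1 f F) (A : Space ≃ₗᵢ[ℝ] Space) :
    IsH1 (fun x => f (A x)) (fun x => A.symm (F (A x))) := by
  obtain ⟨c, -, hc⟩ := fs_map_equiv (volume : Measure Space) (volume : Measure Space) A.toContinuousLinearEquiv
  have hc' : (volume : Measure Space).map A.toContinuousLinearEquiv.toHomeomorph = c • volume := hc
  exact ⟨fs_memLp_of_map hc' h.1,
    (A.symm.toContinuousLinearEquiv : Space →L[ℝ] Space).comp_memLp' (fs_memLp_of_map hc' h.2.1),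
    h.2.2.comp_isometry A⟩

theorem IsH1.translate (h : IsH1 f F) (a : Space) : IsH1 (fun x => f (x + a)) (fun x => F (x + a)) := by
  exact ⟨fs_memLp_translate h.1 a, fs_memLp_translate h.2.1 a, h.2.2.translate a⟩

end B4

end Claimed.Open.R278
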