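import Claimed.Open.R278.Mollify

/-!
# Result 278, kit FS (function spaces), file 1: calculus of directional weak derivatives

Architect: helper42.  RAW FUNCTIONS, not `Lp` classes.  Base notion: `HasWeakDeriv μ v f g` of `Mollify.lean`
(`X` a finite dimensional real normed space with a Haar measure `μ`, e.g. `Space`, `Config m`, `Space × Config 2`;
values in a real Banach space `E`, e.g. `ℝ`, `SpinSpace m`, the fibre space `Lp (SpinSpace 3) 2 volume`; `v : X` ANY direction).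

Bundles:  `WD μ v f g`  (`f, g ∈ L¹_loc`),  `WD2 μ v f g`  (`f, g ∈ L²`),  `L2Loc μ f`.

GENERAL ROUTE for every product/chain rule: (1) the rule for `C¹` functions is classical (`HasWeakDeriv.of_contDiff`);
(2) mollify: `moll μ (mollSeq μ n) f` is smooth, its derivative along `v` is `moll μ (mollSeq μ n) g` (`fderiv_moll`), and
`moll .. f → f` in `L¹(K)` resp. `L²(K)` for every compact `K` (`tendsto_moll_L1loc`, `tendsto_moll_L2loc`);
(3) pass to the limit in the two integrals of the definition (the test function has compact support).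

Each section below is ONE LEAF.
-/

open MeasureTheory Filter Topology Set Convolution ContinuousLinearMap
open scoped ContDiff InnerProductSpace NNReal

noncomputable section

set_option linter.unusedSectionVars false

namespace Claimed.Open.R278

variable {X E F G : Type*} [NormedAddCommGroup X] [NormedSpace ℝ X] [FiniteDimensional ℝ X]
  [MeasurableSpace X] [BorelSpace X] {μ : Measure X} [μ.IsAddHaarMeasure]
  [NormedAddCommGroup E] [NormedSpace ℝ E] [CompleteSpace E]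
  [NormedAddCommGroup F] [NormedSpace ℝ F] [CompleteSpace F]
  [NormedAddCommGroup G] [NormedSpace ℝ G] [CompleteSpace G]

/-! ## Definitions -/

/-- locally square integrable. -/
def L2Loc (μ : Measure X) (f : X → E) : Prop := ∀ K : Set X, IsCompact K → MemLp f 2 (μ.restrict K)

/-- `f, g ∈ L¹_loc` and `g = ∂_v f` weakly. -/
structure WD (μ : Measure X) (v : X) (f g : X → E) : Prop where
  locf : LocallyIntegrable f μ
  locg : LocallyIntegrable g μ
  weak : HasWeakDeriv μ v f g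

/-- `f, g ∈ L²` and `g = ∂_v f` weakly. -/
structure WD2 (μ : Measure X) (v : X) (f g : X → E) : Prop where
  memf : MemLp f 2 μ
  memg : MemLp g 2 μ
  weak : HasWeakDeriv μ v f g

theorem MemLp.l2Loc {f : X → E} (hf : MemLp f 2 μ) : L2Loc μ f := fun _ _ => hf.restrict _

theorem L2Loc.locallyIntegrable {f : X → E} (hf : L2Loc μ f) : LocallyIntegrable f μ := by
  rw [locallyIntegrable_iff]
  intro K hK
  have : IsFiniteMeasure (μ.restrict K) := ⟨by rw [Measure.restrict_apply_univ]; exact hK.measure_lt_top⟩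
  exact (hf K hK).integrable (by norm_num)

theorem WD2.wd {v : X} {f g : X → E} (h : WD2 μ v f g) : WD μ v f g :=
  ⟨h.memf.locallyIntegrable (by norm_num), h.memg.locallyIntegrable (by norm_num), h.weak⟩

/-! ## helper lemmas -/

theorem fs_cont_d {φ : X → ℝ} (hφ : ContDiff ℝ 1 φ) (v : X) : Continuous fun x => fderiv ℝ φ x v :=
  (hφ.continuous_fderiv (by simp)).clm_apply continuous_const

theorem fs_int {f : X → E} (hf : LocallyIntegrable f μ) {φ : X → ℝ} (hφ : Continuous φ)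
    (hc : HasCompactSupport φ) : Integrable (fun x => φ x • f x) μ :=
  hf.integrable_smul_left_of_hasCompactSupport hφ hc

theorem fs_int_d {f : X → E} (hf : LocallyIntegrable f μ) {φ : X → ℝ} (hφ : ContDiff ℝ 1 φ)
    (hc : HasCompactSupport φ) (v : X) : Integrable (fun x => fderiv ℝ φ x v • f x) μ :=
  fs_int hf (fs_cont_d hφ v) (hc.fderiv_apply (𝕜 := ℝ) v)

theorem fs_one_le : ((1 : ℕ∞) : WithTop ℕ∞) ≤ ∞ := by simp

theorem fs_li_clm {f : X → E} (hf : LocallyIntegrable f μ) (T : E →L[ℝ] F) :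
    LocallyIntegrable (fun x => T (f x)) μ := fun x =>
  let ⟨s, hs, h⟩ := hf x
  ⟨s, hs, T.integrable_comp h⟩

theorem fs_li_congr {f f' : X → E} (hf : LocallyIntegrable f μ) (h : f =ᵐ[μ] f') :
    LocallyIntegrable f' μ := fun x =>
  let ⟨s, hs, h'⟩ := hf x
  ⟨s, hs, h'.congr (ae_restrict_of_ae h)⟩

/-! ## LEAF FS-W1: mollifiers in `L¹_loc`, `L²_loc`; test functions of class `C¹` -/

section W1

theorem fs_rOut_le_one (n : ℕ) : 1 / ((n : ℝ) + 1) ≤ 1 := by
  rw [div_le_one (by positivity)]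
  have : (0 : ℝ) ≤ n := Nat.cast_nonneg n
  linarith

theorem fs_mollSeq_eq_zero {n : ℕ} {x : X} (hx : 1 / ((n : ℝ) + 1) ≤ ‖x‖) : mollSeq μ n x = 0 := by
  have h : x ∉ Function.support (mollSeq μ n) := by
    rw [mollSeq, (bumpSeq n).support_normed_eq, Metric.mem_ball, dist_zero_right, not_lt]
    exact hx
  simpa using h

/-- the value of the mollification at `x` depends only on `f` near `x`. -/
theorem fs_moll_congr_ball (n : ℕ) {f f' : X → E} {x : X}
    (h : ∀ y ∈ Metric.ball x (1 / ((n : ℝ) + 1)), f y = f' y) :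
    moll μ (mollSeq μ n) f x = moll μ (mollSeq μ n) f' x := by
  rw [moll_apply_swap, moll_apply_swap]
  refine integral_congr_ae (Eventually.of_forall fun y => ?_)
  by_cases hy : y ∈ Metric.ball x (1 / ((n : ℝ) + 1))
  · simp only [h y hy]
  · have : mollSeq μ n (x - y) = 0 := by
      apply fs_mollSeq_eq_zero
      rw [Metric.mem_ball, dist_comm, dist_eq_norm] at hy
      exact not_lt.1 hy
    simp only [this, zero_smul]

/-- on `K` the mollification only sees `f` on the `1`-thickening of `K`. -/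
theorem fs_moll_indicator (n : ℕ) (f : X → E) {K : Set X} {x : X} (hx : x ∈ K) :
    moll μ (mollSeq μ n) f x = moll μ (mollSeq μ n) ((Metric.cthickening 1 K).indicator f) x := by
  refine fs_moll_congr_ball n fun y hy => ?_
  refine (Set.indicator_of_mem ?_ f).symm
  exact Metric.mem_cthickening_of_dist_le y x 1 K hx ((Metric.mem_ball.1 hy).le.trans (fs_rOut_le_one n))

/-- mollification contracts `L¹`. -/
theorem fs_integral_norm_moll_le {ρ : X → ℝ} (hρc : Continuous ρ) (hρs : HasCompactSupport ρ)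
    (hρ0 : ∀ x, 0 ≤ ρ x) (hρ1 : ∫ x, ρ x ∂μ = 1) {f : X → E} (hf : Integrable f μ) :
    Integrable (moll μ ρ f) μ ∧ ∫ x, ‖moll μ ρ f x‖ ∂μ ≤ ∫ x, ‖f x‖ ∂μ := by
  have i0 : Integrable ρ μ := hρc.integrable_of_hasCompactSupport hρs
  have hI : Integrable (ρ ⋆[lsmul ℝ ℝ, μ] fun y => ‖f y‖) μ := i0.integrable_convolution _ hf.norm
  have hc : Continuous (moll μ ρ f) := continuous_moll hρc hρs hf.locallyIntegrable
  have hb : ∀ x, ‖moll μ ρ f x‖ ≤ (ρ ⋆[lsmul ℝ ℝ, μ] fun y => ‖f y‖) x := by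
    intro x
    rw [moll_apply]
    refine (norm_integral_le_integral_norm _).trans (le_of_eq ?_)
    refine integral_congr_ae (Eventually.of_forall fun t => ?_)
    simp only [norm_smul, Real.norm_eq_abs, abs_of_nonneg (hρ0 t), lsmul_apply, smul_eq_mul]
  have hi : Integrable (moll μ ρ f) μ := hI.mono' hc.aestronglyMeasurable (Eventually.of_forall hb)
  refine ⟨hi, ?_⟩
  calc ∫ x, ‖moll μ ρ f x‖ ∂μ ≤ ∫ x, (ρ ⋆[lsmul ℝ ℝ, μ] fun y => ‖f y‖) x ∂μ :=
        integral_mono hi.norm hI hb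
    _ = ∫ x, ‖f x‖ ∂μ := by rw [integral_convolution _ i0 hf.norm, hρ1]; simp

/-- Cauchy–Schwarz on a set of finite measure. -/
theorem fs_setIntegral_norm_le {α : Type*} [MeasurableSpace α] {ν : Measure α} {K : Set α} (hK : ν K ≠ ⊤)
    {a : α → E} (ha : MemLp a 2 (ν.restrict K)) :
    ∫ x in K, ‖a x‖ ∂ν ≤ √(ν.real K) * √(∫ x in K, ‖a x‖ ^ 2 ∂ν) := by
  have : IsFiniteMeasure (ν.restrict K) := ⟨by rw [Measure.restrict_apply_univ]; exact lt_top_iff_ne_top.2 hK⟩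
  have i2 : Integrable (fun x => ‖a x‖ ^ 2) (ν.restrict K) := (memLp_two_iff_integrable_sq_norm ha.1).1 ha
  have i1 : Integrable (fun x => ‖a x‖) (ν.restrict K) := (ha.integrable (by norm_num)).norm
  have := sq_integral_mul_le (ν := ν.restrict K) (ρ := fun _ => (1 : ℝ)) (h := fun x => ‖a x‖)
    (fun _ => zero_le_one) (integrable_const _) (by simpa using i1) (by simpa using i2)
  simp only [one_mul, integral_const, smul_eq_mul, mul_one, measureReal_restrict_apply_univ] at this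
  rw [← Real.sqrt_mul measureReal_nonneg]
  exact Real.le_sqrt_of_sq_le this


theorem fs_memLp_indicator {f : X → E} (hf : L2Loc μ f) {K : Set X} (hK : IsCompact K) :
    MemLp (K.indicator f) 2 μ := (memLp_indicator_iff_restrict hK.measurableSet).2 (hf K hK)

theorem tendsto_moll_L2loc {f : X → E} (hf : L2Loc μ f) {K : Set X} (hK : IsCompact K) :
    Tendsto (fun n => ∫ x in K, ‖moll μ (mollSeq μ n) f x - f x‖ ^ 2 ∂μ) atTop (𝓝 0) := by
  set K' := Metric.cthickening 1 K with hK'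
  have hK'c : IsCompact K' := hK.cthickening
  set f' : X → E := K'.indicator f with hf'
  have hf'2 : MemLp f' 2 μ := fs_memLp_indicator hf hK'c
  rw [Metric.tendsto_atTop]
  intro ε hε
  obtain ⟨N, hN⟩ := exists_moll_close hf'2 (show 0 < ε / 2 by positivity)
  refine ⟨N, fun n hn => ?_⟩
  have hm := (memLp_moll (continuous_mollSeq n) (hasCompactSupport_mollSeq n)
    (mollSeq_nonneg n) (integral_mollSeq n) hf'2).1
  have i1 : Integrable (fun x => ‖moll μ (mollSeq μ n) f' x - f' x‖ ^ 2) μ :=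
    (memLp_two_iff_integrable_sq_norm (hm.sub hf'2).1).1 (hm.sub hf'2)
  have e : ∫ x in K, ‖moll μ (mollSeq μ n) f x - f x‖ ^ 2 ∂μ
      = ∫ x in K, ‖moll μ (mollSeq μ n) f' x - f' x‖ ^ 2 ∂μ := by
    refine setIntegral_congr_fun hK.measurableSet fun x hx => ?_
    have e1 : f' x = f x := Set.indicator_of_mem (Metric.self_subset_cthickening K hx) f
    simp only [e1, fs_moll_indicator n f hx, ← hK', ← hf']
  have h0 : 0 ≤ ∫ x in K, ‖moll μ (mollSeq μ n) f' x - f' x‖ ^ 2 ∂μ :=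
    integral_nonneg fun x => sq_nonneg _
  have h1 : ∫ x in K, ‖moll μ (mollSeq μ n) f' x - f' x‖ ^ 2 ∂μ
      ≤ ∫ x, ‖moll μ (mollSeq μ n) f' x - f' x‖ ^ 2 ∂μ :=
    setIntegral_le_integral i1 (Eventually.of_forall fun x => sq_nonneg _)
  rw [e, Real.dist_eq, sub_zero, abs_of_nonneg h0]
  linarith [hN n hn]

theorem tendsto_moll_L1loc {f : X → E} (hf : LocallyIntegrable f μ) {K : Set X} (hK : IsCompact K) :
    Tendsto (fun n => ∫ x in K, ‖moll μ (mollSeq μ n) f x - f x‖ ∂μ) atTop (𝓝 0) := by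
  set K' := Metric.cthickening 1 K with hK'
  have hK'c : IsCompact K' := hK.cthickening
  set f' : X → E := K'.indicator f with hf'
  have hf'i : Integrable f' μ := (hf.integrableOn_isCompact hK'c).integrable_indicator hK'c.measurableSet
  rw [Metric.tendsto_atTop]
  intro ε hε
  obtain ⟨g, hgs, hfg, hgc, hgi⟩ := hf'i.exists_hasCompactSupport_integral_sub_le (show 0 < ε / 4 by positivity)
  set V := μ.real K with hV
  have hV0 : 0 ≤ V := measureReal_nonneg
  obtain ⟨N, hN⟩ := exists_moll_close_of_continuous (μ := μ) hgc hgs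
    (show 0 < (ε / 4) ^ 2 / (V + 1) by positivity)
  refine ⟨N, fun n hn => ?_⟩
  have hρc := continuous_mollSeq (μ := μ) n
  have hρs := hasCompactSupport_mollSeq (μ := μ) n
  have hd : Integrable (fun y => f' y - g y) μ := hf'i.sub hgi
  obtain ⟨hm, hle⟩ := fs_integral_norm_moll_le hρc hρs (mollSeq_nonneg n) (integral_mollSeq n) hd
  have hg2 : MemLp g 2 μ := hgc.memLp_of_hasCompactSupport hgs
  have hmg := (memLp_moll hρc hρs (mollSeq_nonneg n) (integral_mollSeq n) hg2).1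
  have hmg2 : MemLp (fun x => moll μ (mollSeq μ n) g x - g x) 2 μ := hmg.sub hg2
  have e : ∫ x in K, ‖moll μ (mollSeq μ n) f x - f x‖ ∂μ
      = ∫ x in K, ‖moll μ (mollSeq μ n) f' x - f' x‖ ∂μ := by
    refine setIntegral_congr_fun hK.measurableSet fun x hx => ?_
    have e1 : f' x = f x := Set.indicator_of_mem (Metric.self_subset_cthickening K hx) f
    simp only [e1, fs_moll_indicator n f hx, ← hK', ← hf']
  have h0 : 0 ≤ ∫ x in K, ‖moll μ (mollSeq μ n) f' x - f' x‖ ∂μ := integral_nonneg fun x => norm_nonneg _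
  -- the middle term
  have hmid : ∫ x in K, ‖moll μ (mollSeq μ n) g x - g x‖ ∂μ ≤ ε / 4 := by
    refine (fs_setIntegral_norm_le hK.measure_lt_top.ne (hmg2.restrict K)).trans ?_
    have i2 : Integrable (fun x => ‖moll μ (mollSeq μ n) g x - g x‖ ^ 2) μ :=
      (memLp_two_iff_integrable_sq_norm hmg2.1).1 hmg2
    have h2 : ∫ x in K, ‖moll μ (mollSeq μ n) g x - g x‖ ^ 2 ∂μ ≤ (ε / 4) ^ 2 / (V + 1) :=
      (setIntegral_le_integral i2 (Eventually.of_forall fun x => sq_nonneg _)).trans (hN n hn)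
    rw [← Real.sqrt_mul hV0]
    apply Real.sqrt_le_iff.2
    refine ⟨by positivity, ?_⟩
    calc V * ∫ x in K, ‖moll μ (mollSeq μ n) g x - g x‖ ^ 2 ∂μ ≤ V * ((ε / 4) ^ 2 / (V + 1)) :=
          mul_le_mul_of_nonneg_left h2 hV0
      _ ≤ (ε / 4) ^ 2 := by
          rw [mul_div_assoc', div_le_iff₀ (by positivity)]
          nlinarith [sq_nonneg (ε / 4)]
  have hpt : ∀ x, ‖moll μ (mollSeq μ n) f' x - f' x‖ ≤ ‖moll μ (mollSeq μ n) (fun y => f' y - g y) x‖
      + ‖moll μ (mollSeq μ n) g x - g x‖ + ‖f' x - g x‖ := by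
    intro x
    have e2 : moll μ (mollSeq μ n) f' x - f' x = moll μ (mollSeq μ n) (fun y => f' y - g y) x
        + (moll μ (mollSeq μ n) g x - g x) + (g x - f' x) := by
      rw [moll_sub hρc hρs hf'i.locallyIntegrable hgi.locallyIntegrable]
      abel
    rw [e2, norm_sub_rev (f' x) (g x)]
    exact norm_add₃_le
  have j1 : IntegrableOn (fun x => ‖moll μ (mollSeq μ n) (fun y => f' y - g y) x‖) K μ := hm.norm.integrableOn
  have j2 : IntegrableOn (fun x => ‖moll μ (mollSeq μ n) g x - g x‖) K μ :=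
    ((hmg2.locallyIntegrable (by norm_num)).integrableOn_isCompact hK).norm
  have j3 : IntegrableOn (fun x => ‖f' x - g x‖) K μ := hd.norm.integrableOn
  have hsum : ∫ x in K, ‖moll μ (mollSeq μ n) f' x - f' x‖ ∂μ
      ≤ (∫ x in K, ‖moll μ (mollSeq μ n) (fun y => f' y - g y) x‖ ∂μ)
        + (∫ x in K, ‖moll μ (mollSeq μ n) g x - g x‖ ∂μ) + ∫ x in K, ‖f' x - g x‖ ∂μ := by
    have j12 : IntegrableOn (fun x => ‖moll μ (mollSeq μ n) (fun y => f' y - g y) x‖
        + ‖moll μ (mollSeq μ n) g x - g x‖) K μ := j1.add j2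
    rw [← integral_add j1 j2, ← integral_add j12 j3]
    exact integral_mono_of_nonneg (Eventually.of_forall fun x => norm_nonneg _) (j12.add j3)
      (Eventually.of_forall hpt)
  have k1 : ∫ x in K, ‖moll μ (mollSeq μ n) (fun y => f' y - g y) x‖ ∂μ ≤ ε / 4 :=
    (setIntegral_le_integral hm.norm (Eventually.of_forall fun x => norm_nonneg _)).trans (hle.trans hfg)
  have k3 : ∫ x in K, ‖f' x - g x‖ ∂μ ≤ ε / 4 :=
    (setIntegral_le_integral hd.norm (Eventually.of_forall fun x => norm_nonneg _)).trans hfg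
  rw [e, Real.dist_eq, sub_zero, abs_of_nonneg h0]
  linarith


/-- `L¹_loc` convergence implies convergence of the integrals against continuous compactly supported functions. -/
theorem fs_tendsto_integral_smul {fn : ℕ → X → E} {f : X → E} (hfn : ∀ n, LocallyIntegrable (fn n) μ)
    (hf : LocallyIntegrable f μ)
    (h : ∀ K, IsCompact K → Tendsto (fun n => ∫ x in K, ‖fn n x - f x‖ ∂μ) atTop (𝓝 0))
    {ζ : X → ℝ} (hζ : Continuous ζ) (hc : HasCompactSupport ζ) :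
    Tendsto (fun n => ∫ x, ζ x • fn n x ∂μ) atTop (𝓝 (∫ x, ζ x • f x ∂μ)) := by
  obtain ⟨M, hM⟩ := hc.exists_bound_of_continuous hζ
  rw [tendsto_iff_norm_sub_tendsto_zero]
  have h2 : Tendsto (fun n => M * ∫ x in tsupport ζ, ‖fn n x - f x‖ ∂μ) atTop (𝓝 0) := by
    simpa using (h _ hc.isCompact).const_mul M
  refine squeeze_zero (fun n => norm_nonneg _) (fun n => ?_) h2
  have i1 := fs_int (hfn n) hζ hc
  have i2 := fs_int hf hζ hc
  rw [← integral_sub i1 i2]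
  refine (norm_integral_le_integral_norm _).trans ?_
  have e : ∫ x, ‖ζ x • fn n x - ζ x • f x‖ ∂μ = ∫ x in tsupport ζ, ‖ζ x • fn n x - ζ x • f x‖ ∂μ := by
    refine (setIntegral_eq_integral_of_forall_compl_eq_zero fun x hx => ?_).symm
    rw [image_eq_zero_of_notMem_tsupport hx]; simp
  rw [e, ← integral_const_mul]
  refine integral_mono_of_nonneg (Eventually.of_forall fun x => norm_nonneg _)
    ((((hfn n).sub hf).integrableOn_isCompact hc.isCompact).norm.const_mul M) (Eventually.of_forall fun x => ?_)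
  show ‖ζ x • fn n x - ζ x • f x‖ ≤ M * ‖fn n x - f x‖
  rw [← smul_sub, norm_smul]
  exact mul_le_mul_of_nonneg_right (hM x) (norm_nonneg _)

/-- classical integration by parts. -/
theorem fs_ibp_C1 {f : X → E} (hf : ContDiff ℝ 1 f) {φ : X → ℝ} (hφ : ContDiff ℝ 1 φ)
    (hc : HasCompactSupport φ) (v : X) :
    ∫ x, fderiv ℝ φ x v • f x ∂μ = - ∫ x, φ x • fderiv ℝ f x v ∂μ := by
  have hcd : Continuous fun x => fderiv ℝ f x v :=
    (hf.continuous_fderiv (by simp)).clm_apply continuous_const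
  have h1 : Integrable (fun x => fderiv ℝ φ x v • f x) μ := fs_int_d hf.continuous.locallyIntegrable hφ hc v
  have h2 : Integrable (fun x => φ x • fderiv ℝ f x v) μ := fs_int hcd.locallyIntegrable hφ.continuous hc
  have h3 : Integrable (fun x => φ x • f x) μ := fs_int hf.continuous.locallyIntegrable hφ.continuous hc
  have key := integral_smul_fderiv_eq_neg_fderiv_smul_of_integrable (μ := μ) (v := v) h1 h2 h3
    (fun x _ => (hφ.differentiable (by simp)) x) (fun x _ => (hf.differentiable (by simp)) x)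
  rw [key, neg_neg]

theorem HasWeakDeriv.of_contDiff {f : X → E} (hf : ContDiff ℝ 1 f) (v : X) :
    WD μ v f (fun x => fderiv ℝ f x v) :=
  ⟨hf.continuous.locallyIntegrable,
    ((hf.continuous_fderiv (by simp)).clm_apply continuous_const).locallyIntegrable,
    fun φ hφ hc => fs_ibp_C1 hf (hφ.of_le (by simp)) hc v⟩

theorem fs_li_moll (n : ℕ) {f : X → E} (hf : LocallyIntegrable f μ) :
    LocallyIntegrable (moll μ (mollSeq μ n) f) μ :=
  (continuous_moll (continuous_mollSeq n) (hasCompactSupport_mollSeq n) hf).locallyIntegrable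

theorem WD.test_C1 {v : X} {f g : X → E} (h : WD μ v f g) {φ : X → ℝ} (hφ : ContDiff ℝ 1 φ)
    (hc : HasCompactSupport φ) : ∫ x, fderiv ℝ φ x v • f x ∂μ = - ∫ x, φ x • g x ∂μ := by
  have t1 : Tendsto (fun n => ∫ x, fderiv ℝ φ x v • moll μ (mollSeq μ n) f x ∂μ) atTop
      (𝓝 (∫ x, fderiv ℝ φ x v • f x ∂μ)) :=
    fs_tendsto_integral_smul (fun n => fs_li_moll n h.locf) h.locf (fun K hK => tendsto_moll_L1loc h.locf hK)
      (fs_cont_d hφ v) (hc.fderiv_apply (𝕜 := ℝ) v)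
  have t2 : Tendsto (fun n => ∫ x, φ x • moll μ (mollSeq μ n) g x ∂μ) atTop (𝓝 (∫ x, φ x • g x ∂μ)) :=
    fs_tendsto_integral_smul (fun n => fs_li_moll n h.locg) h.locg (fun K hK => tendsto_moll_L1loc h.locg hK)
      hφ.continuous hc
  have e : ∀ n, ∫ x, fderiv ℝ φ x v • moll μ (mollSeq μ n) f x ∂μ
      = - ∫ x, φ x • moll μ (mollSeq μ n) g x ∂μ := by
    intro n
    have hs : ContDiff ℝ 1 (moll μ (mollSeq μ n) f) :=
      (contDiff_moll (contDiff_mollSeq n) (hasCompactSupport_mollSeq n) h.locf).of_le (by simp)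
    rw [fs_ibp_C1 hs hφ hc v]
    simp only [fderiv_moll (contDiff_mollSeq n) (hasCompactSupport_mollSeq n) h.locf h.weak]
  simp only [e] at t1
  exact tendsto_nhds_unique t1 t2.neg

theorem WD.of_tendsto {v : X} {f g : X → E} {fn gn : ℕ → X → E} (h : ∀ n, WD μ v (fn n) (gn n))
    (hf : LocallyIntegrable f μ) (hg : LocallyIntegrable g μ)
    (hfn : ∀ K, IsCompact K → Tendsto (fun n => ∫ x in K, ‖fn n x - f x‖ ∂μ) atTop (𝓝 0))
    (hgn : ∀ K, IsCompact K → Tendsto (fun n => ∫ x in K, ‖gn n x - g x‖ ∂μ) atTop (𝓝 0)) :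
    WD μ v f g := by
  refine ⟨hf, hg, fun φ hφ hc => ?_⟩
  have hφ1 : ContDiff ℝ 1 φ := hφ.of_le (by simp)
  have t1 := fs_tendsto_integral_smul (fun n => (h n).locf) hf hfn (fs_cont_d hφ1 v)
    (hc.fderiv_apply (𝕜 := ℝ) v)
  have t2 := fs_tendsto_integral_smul (fun n => (h n).locg) hg hgn hφ1.continuous hc
  simp only [fun n => (h n).weak φ hφ hc] at t1
  exact tendsto_nhds_unique t1 t2.neg

end W1

/-! ## LEAF FS-W2: algebra, uniqueness, directions -/

section W2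

theorem WD.add {v : X} {f₁ f₂ g₁ g₂ : X → E} (h₁ : WD μ v f₁ g₁) (h₂ : WD μ v f₂ g₂) :
    WD μ v (fun x => f₁ x + f₂ x) (fun x => g₁ x + g₂ x) := by
  refine ⟨h₁.locf.add h₂.locf, h₁.locg.add h₂.locg, fun φ hφ hc => ?_⟩
  have hφ1 : ContDiff ℝ 1 φ := hφ.of_le (by simp)
  simp only [smul_add]
  rw [integral_add (fs_int_d h₁.locf hφ1 hc v) (fs_int_d h₂.locf hφ1 hc v),
    integral_add (fs_int h₁.locg hφ1.continuous hc) (fs_int h₂.locg hφ1.continuous hc),
    h₁.weak φ hφ hc, h₂.weak φ hφ hc]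
  abel

theorem WD.clm {v : X} {f g : X → E} (T : E →L[ℝ] F) (h : WD μ v f g) :
    WD μ v (fun x => T (f x)) (fun x => T (g x)) := by
  refine ⟨fs_li_clm h.locf T, fs_li_clm h.locg T, fun φ hφ hc => ?_⟩
  have hφ1 : ContDiff ℝ 1 φ := hφ.of_le (by simp)
  simp only [← map_smul]
  rw [T.integral_comp_comm (fs_int_d h.locf hφ1 hc v), T.integral_comp_comm (fs_int h.locg hφ1.continuous hc),
    h.weak φ hφ hc, map_neg]

theorem WD.neg {v : X} {f g : X → E} (h : WD μ v f g) : WD μ v (fun x => -f x) (fun x => -g x) := by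
  simpa using WD.clm (-(ContinuousLinearMap.id ℝ E)) h

theorem WD.sub {v : X} {f₁ f₂ g₁ g₂ : X → E} (h₁ : WD μ v f₁ g₁) (h₂ : WD μ v f₂ g₂) :
    WD μ v (fun x => f₁ x - f₂ x) (fun x => g₁ x - g₂ x) := by
  simpa only [sub_eq_add_neg] using WD.add h₁ (WD.neg h₂)

theorem WD.const_smul {v : X} {f g : X → E} (c : ℝ) (h : WD μ v f g) :
    WD μ v (fun x => c • f x) (fun x => c • g x) := by
  simpa using WD.clm (c • (ContinuousLinearMap.id ℝ E)) h

theorem WD.zero (v : X) : WD μ v (fun _ => (0 : E)) (fun _ => 0) :=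
  ⟨locallyIntegrable_zero, locallyIntegrable_zero, fun φ _ _ => by simp⟩

theorem WD.sum {ι : Type*} (s : Finset ι) {v : X} {f g : ι → X → E} (h : ∀ i ∈ s, WD μ v (f i) (g i)) :
    WD μ v (fun x => ∑ i ∈ s, f i x) (fun x => ∑ i ∈ s, g i x) := by
  classical
  induction s using Finset.induction_on with
  | empty => simpa using WD.zero (μ := μ) (E := E) v
  | insert a s ha ih =>
    simp only [Finset.sum_insert ha]
    exact WD.add (h a (Finset.mem_insert_self a s)) (ih fun i hi => h i (Finset.mem_insert_of_mem hi))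

theorem WD.unique {v : X} {f g g' : X → E} (h : WD μ v f g) (h' : WD μ v f g') : g =ᵐ[μ] g' :=
  ae_eq_of_integral_contDiff_smul_eq h.locg h'.locg fun φ hφ hc =>
    neg_injective ((h.weak φ hφ hc).symm.trans (h'.weak φ hφ hc))

theorem WD.congr_ae {v : X} {f f' g g' : X → E} (h : WD μ v f g) (hf : f =ᵐ[μ] f') (hg : g =ᵐ[μ] g') :
    WD μ v f' g' := by
  refine ⟨fs_li_congr h.locf hf, fs_li_congr h.locg hg, fun φ hφ hc => ?_⟩
  have e1 : ∫ x, fderiv ℝ φ x v • f' x ∂μ = ∫ x, fderiv ℝ φ x v • f x ∂μ :=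
    integral_congr_ae (hf.mono fun x hx => by simp only [hx])
  have e2 : ∫ x, φ x • g' x ∂μ = ∫ x, φ x • g x ∂μ :=
    integral_congr_ae (hg.mono fun x hx => by simp only [hx])
  rw [e1, e2, h.weak φ hφ hc]

theorem WD.add_dir {v w : X} {f g k : X → E} (h : WD μ v f g) (h' : WD μ w f k) :
    WD μ (v + w) f (fun x => g x + k x) := by
  refine ⟨h.locf, h.locg.add h'.locg, fun φ hφ hc => ?_⟩
  have hφ1 : ContDiff ℝ 1 φ := hφ.of_le (by simp)
  simp only [map_add, add_smul, smul_add]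
  rw [integral_add (fs_int_d h.locf hφ1 hc v) (fs_int_d h.locf hφ1 hc w),
    integral_add (fs_int h.locg hφ1.continuous hc) (fs_int h'.locg hφ1.continuous hc),
    h.weak φ hφ hc, h'.weak φ hφ hc]
  abel

theorem WD.smul_dir {v : X} {f g : X → E} (c : ℝ) (h : WD μ v f g) : WD μ (c • v) f (fun x => c • g x) := by
  refine ⟨h.locf, h.locg.smul c, fun φ hφ hc => ?_⟩
  have e1 : ∀ x, fderiv ℝ φ x (c • v) • f x = c • (fderiv ℝ φ x v • f x) := fun x => by
    rw [map_smul, smul_assoc]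
  have e2 : ∀ x, φ x • c • g x = c • (φ x • g x) := fun x => smul_comm _ _ _
  simp only [e1, e2]
  rw [integral_smul, integral_smul, h.weak φ hφ hc, smul_neg]

theorem WD.sum_dir {ι : Type*} (s : Finset ι) {v : ι → X} {f : X → E} {g : ι → X → E}
    (hf : LocallyIntegrable f μ) (h : ∀ i ∈ s, WD μ (v i) f (g i)) :
    WD μ (∑ i ∈ s, v i) f (fun x => ∑ i ∈ s, g i x) := by
  classical
  induction s using Finset.induction_on with
  | empty => exact ⟨hf, by simpa using locallyIntegrable_zero, fun φ _ _ => by simp⟩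
  | insert a s ha ih =>
    simp only [Finset.sum_insert ha]
    exact WD.add_dir (h a (Finset.mem_insert_self a s)) (ih fun i hi => h i (Finset.mem_insert_of_mem hi))

theorem fs_contDiff_d {φ : X → ℝ} (hφ : ContDiff ℝ ∞ φ) (v : X) : ContDiff ℝ ∞ fun x => fderiv ℝ φ x v :=
  (hφ.fderiv_right (m := ∞) (by simp)).clm_apply contDiff_const

theorem fs_fderiv_d {φ : X → ℝ} (hφ : ContDiff ℝ ∞ φ) (v w x : X) :
    fderiv ℝ (fun y => fderiv ℝ φ y v) x w = fderiv ℝ (fderiv ℝ φ) x w v := by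
  have hd : DifferentiableAt ℝ (fderiv ℝ φ) x :=
    ((hφ.fderiv_right (m := ∞) (by simp)).differentiable (by simp)) x
  have := (hd.hasFDerivAt.clm_apply (hasFDerivAt_const v x)).fderiv
  rw [this]; simp

theorem WD.comm {v w : X} {f g k l : X → E} (h₁ : WD μ v f g) (h₂ : WD μ w f k) (h₃ : WD μ w g l) :
    WD μ v k l := by
  refine ⟨h₂.locg, h₃.locg, fun φ hφ hc => ?_⟩
  have a2 := h₂.weak _ (fs_contDiff_d hφ v) (hc.fderiv_apply (𝕜 := ℝ) v)
  have a1 := h₁.weak _ (fs_contDiff_d hφ w) (hc.fderiv_apply (𝕜 := ℝ) w)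
  have a3 := h₃.weak φ hφ hc
  have sym : ∀ x, fderiv ℝ (fun y => fderiv ℝ φ y v) x w = fderiv ℝ (fun y => fderiv ℝ φ y w) x v := fun x => by
    rw [fs_fderiv_d hφ, fs_fderiv_d hφ]
    have h2 : ((2 : ℕ∞) : WithTop ℕ∞) ≤ ((⊤ : ℕ∞) : WithTop ℕ∞) := WithTop.coe_le_coe.2 le_top
    exact ((hφ.contDiffAt (x := x)).isSymmSndFDerivAt (by simpa using h2)).eq w v
  simp only [sym] at a2
  rw [a1] at a2
  rw [← neg_inj, ← a2, a3]

end W2

/-! ## LEAF FS-W3: product rules -/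

section W3

/-- Cauchy–Schwarz for norms. -/
theorem fs_cs {α : Type*} [MeasurableSpace α] {ν : Measure α} {E' F' : Type*} [NormedAddCommGroup E']
    [NormedAddCommGroup F'] {a : α → E'} {b : α → F'} (ha : MemLp a 2 ν) (hb : MemLp b 2 ν) :
    Integrable (fun x => ‖a x‖ * ‖b x‖) ν ∧
      ∫ x, ‖a x‖ * ‖b x‖ ∂ν ≤ √(∫ x, ‖a x‖ ^ 2 ∂ν) * √(∫ x, ‖b x‖ ^ 2 ∂ν) := by
  have ha' : MemLp (fun x => ‖a x‖) (ENNReal.ofReal 2) ν := by simpa using ha.norm
  have hb' : MemLp (fun x => ‖b x‖) (ENNReal.ofReal 2) ν := by simpa using hb.norm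
  refine ⟨?_, ?_⟩
  · have := MemLp.integrable_mul (p := 2) (q := 2) ha.norm hb.norm
    exact this
  · have := integral_mul_norm_le_Lp_mul_Lq (μ := ν) Real.HolderConjugate.two_two ha' hb'
    simp only [norm_norm, Real.rpow_two] at this
    rwa [← Real.sqrt_eq_rpow, ← Real.sqrt_eq_rpow] at this

/-- a continuous factor in a bilinear map preserves local integrability. -/
theorem fs_li_bilin (B : G →L[ℝ] E →L[ℝ] F) {a : X → G} (ha : Continuous a) {f : X → E}
    (hf : LocallyIntegrable f μ) : LocallyIntegrable (fun x => B (a x) (f x)) μ := by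
  rw [locallyIntegrable_iff]
  intro K hK
  obtain ⟨C, hC⟩ := hK.exists_bound_of_continuousOn ha.continuousOn
  have hfK := hf.integrableOn_isCompact hK
  refine Integrable.mono' (hfK.norm.const_mul (‖B‖ * C))
    (B.aestronglyMeasurable_comp₂ ha.aestronglyMeasurable hfK.aestronglyMeasurable) ?_
  filter_upwards [ae_restrict_mem hK.measurableSet] with x hx
  calc ‖B (a x) (f x)‖ ≤ ‖B‖ * ‖a x‖ * ‖f x‖ := B.le_opNorm₂ _ _
    _ ≤ ‖B‖ * C * ‖f x‖ := by gcongr; exact hC x hx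

/-- `L¹_loc` convergence is preserved by a continuous factor. -/
theorem fs_tendsto_bilin (B : G →L[ℝ] E →L[ℝ] F) {a : X → G} (ha : Continuous a) {fn : ℕ → X → E} {f : X → E}
    (hfn : ∀ n, LocallyIntegrable (fn n) μ) (hf : LocallyIntegrable f μ) {K : Set X} (hK : IsCompact K)
    (h : Tendsto (fun n => ∫ x in K, ‖fn n x - f x‖ ∂μ) atTop (𝓝 0)) :
    Tendsto (fun n => ∫ x in K, ‖B (a x) (fn n x) - B (a x) (f x)‖ ∂μ) atTop (𝓝 0) := by
  obtain ⟨C, hC⟩ := hK.exists_bound_of_continuousOn ha.continuousOn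
  have h2 : Tendsto (fun n => (‖B‖ * C) * ∫ x in K, ‖fn n x - f x‖ ∂μ) atTop (𝓝 0) := by
    simpa using h.const_mul (‖B‖ * C)
  refine squeeze_zero (fun n => integral_nonneg fun x => norm_nonneg _) (fun n => ?_) h2
  rw [← integral_const_mul]
  refine integral_mono_of_nonneg (Eventually.of_forall fun x => norm_nonneg _)
    ((((hfn n).sub hf).integrableOn_isCompact hK).norm.const_mul _) ?_
  filter_upwards [ae_restrict_mem hK.measurableSet] with x hx
  rw [← map_sub]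
  calc ‖B (a x) (fn n x - f x)‖ ≤ ‖B‖ * ‖a x‖ * ‖fn n x - f x‖ := B.le_opNorm₂ _ _
    _ ≤ ‖B‖ * C * ‖fn n x - f x‖ := by gcongr; exact hC x hx

/-- sum of two `L¹(K)` convergences. -/
theorem fs_tendsto_add {an bn : ℕ → X → F} {a b : X → F} {K : Set X}
    (ia : ∀ n, IntegrableOn (fun x => an n x - a x) K μ) (ib : ∀ n, IntegrableOn (fun x => bn n x - b x) K μ)
    (ha : Tendsto (fun n => ∫ x in K, ‖an n x - a x‖ ∂μ) atTop (𝓝 0))
    (hb : Tendsto (fun n => ∫ x in K, ‖bn n x - b x‖ ∂μ) atTop (𝓝 0)) :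
    Tendsto (fun n => ∫ x in K, ‖(an n x + bn n x) - (a x + b x)‖ ∂μ) atTop (𝓝 0) := by
  have h2 := ha.add hb
  rw [add_zero] at h2
  refine squeeze_zero (fun n => integral_nonneg fun x => norm_nonneg _) (fun n => ?_) h2
  rw [← integral_add (ia n).norm (ib n).norm]
  refine integral_mono_of_nonneg (Eventually.of_forall fun x => norm_nonneg _) ((ia n).norm.add (ib n).norm)
    (Eventually.of_forall fun x => ?_)
  have : an n x + bn n x - (a x + b x) = (an n x - a x) + (bn n x - b x) := by abel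
  show ‖an n x + bn n x - (a x + b x)‖ ≤ ‖an n x - a x‖ + ‖bn n x - b x‖
  rw [this]
  exact norm_add_le _ _

/-- Leibniz rule: `C¹` factor times `W^{1,1}_loc` factor, general bilinear map. -/
theorem WD.bilin_contDiff (B : G →L[ℝ] E →L[ℝ] F) {v : X} {a : X → G} (ha : ContDiff ℝ 1 a) {f g : X → E}
    (h : WD μ v f g) :
    WD μ v (fun x => B (a x) (f x)) (fun x => B (fderiv ℝ a x v) (f x) + B (a x) (g x)) := by
  have hac : Continuous a := ha.continuous
  have hdc : Continuous fun x => fderiv ℝ a x v := (ha.continuous_fderiv (by simp)).clm_apply continuous_const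
  set fn : ℕ → X → E := fun n => moll μ (mollSeq μ n) f with hfn
  set gn : ℕ → X → E := fun n => moll μ (mollSeq μ n) g with hgn
  have hs : ∀ n, ContDiff ℝ 1 (fn n) := fun n =>
    (contDiff_moll (contDiff_mollSeq n) (hasCompactSupport_mollSeq n) h.locf).of_le (by simp)
  have hder : ∀ n x, fderiv ℝ (fn n) x v = gn n x := fun n x =>
    fderiv_moll (contDiff_mollSeq n) (hasCompactSupport_mollSeq n) h.locf h.weak x
  have hn : ∀ n, WD μ v (fun x => B (a x) (fn n x))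
      (fun x => B (fderiv ℝ a x v) (fn n x) + B (a x) (gn n x)) := by
    intro n
    have hC : ContDiff ℝ 1 fun x => B (a x) (fn n x) := (B.contDiff.comp ha).clm_apply (hs n)
    have := HasWeakDeriv.of_contDiff (μ := μ) hC v
    refine this.congr_ae (Eventually.of_forall fun x => rfl) (Eventually.of_forall fun x => ?_)
    have h1 := B.hasFDerivAt_of_bilinear ((ha.differentiable (by simp)) x).hasFDerivAt
      (((hs n).differentiable (by simp)) x).hasFDerivAt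
    show fderiv ℝ (fun x => B (a x) (fn n x)) x v = _
    rw [h1.fderiv]
    simp only [add_apply, precompR_apply, precompL_apply, compL_apply, comp_apply, hder]
    abel
  have lf : ∀ n, LocallyIntegrable (fn n) μ := fun n => fs_li_moll n h.locf
  have lg : ∀ n, LocallyIntegrable (gn n) μ := fun n => fs_li_moll n h.locg
  refine WD.of_tendsto hn (fs_li_bilin B hac h.locf)
    ((fs_li_bilin B hdc h.locf).add (fs_li_bilin B hac h.locg)) (fun K hK => ?_) (fun K hK => ?_)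
  · exact fs_tendsto_bilin B hac lf h.locf hK (tendsto_moll_L1loc h.locf hK)
  · refine fs_tendsto_add (fun n => ?_) (fun n => ?_)
      (fs_tendsto_bilin B hdc lf h.locf hK (tendsto_moll_L1loc h.locf hK))
      (fs_tendsto_bilin B hac lg h.locg hK (tendsto_moll_L1loc h.locg hK))
    · exact ((fs_li_bilin B hdc (lf n)).sub (fs_li_bilin B hdc h.locf)).integrableOn_isCompact hK
    · exact ((fs_li_bilin B hac (lg n)).sub (fs_li_bilin B hac h.locg)).integrableOn_isCompact hK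

theorem WD.smul_left {v : X} {f g : X → E} (h : WD μ v f g) {χ : X → ℝ} (hχ : ContDiff ℝ 1 χ) :
    WD μ v (fun x => χ x • f x) (fun x => fderiv ℝ χ x v • f x + χ x • g x) :=
  WD.bilin_contDiff (lsmul ℝ ℝ : ℝ →L[ℝ] E →L[ℝ] E) hχ h

theorem WD.clm_apply {v : X} {f g : X → E} (h : WD μ v f g) {M : X → E →L[ℝ] F} (hM : ContDiff ℝ 1 M) :
    WD μ v (fun x => M x (f x)) (fun x => (fderiv ℝ M x v) (f x) + M x (g x)) :=
  WD.bilin_contDiff (ContinuousLinearMap.id ℝ (E →L[ℝ] F)) hM h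


theorem fs_l2Loc_of_continuous {u : X → E} (hu : Continuous u) : L2Loc μ u := by
  intro K hK
  have : IsFiniteMeasure (μ.restrict K) := ⟨by rw [Measure.restrict_apply_univ]; exact hK.measure_lt_top⟩
  obtain ⟨C, hC⟩ := hK.exists_bound_of_continuousOn hu.continuousOn
  refine MemLp.of_bound hu.aestronglyMeasurable C ?_
  filter_upwards [ae_restrict_mem hK.measurableSet] with x hx using hC x hx

theorem fs_l2Loc_moll (n : ℕ) {f : X → E} (hf : LocallyIntegrable f μ) : L2Loc μ (moll μ (mollSeq μ n) f) :=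
  fs_l2Loc_of_continuous (continuous_moll (continuous_mollSeq n) (hasCompactSupport_mollSeq n) hf)

/-- the bilinear image of two `L²_loc` functions is in `L¹_loc`. -/
theorem fs_li_bilin_L2 (B : E →L[ℝ] F →L[ℝ] G) {a : X → E} {b : X → F} (ha : L2Loc μ a) (hb : L2Loc μ b) :
    LocallyIntegrable (fun x => B (a x) (b x)) μ := by
  rw [locallyIntegrable_iff]
  intro K hK
  refine Integrable.mono' ((fs_cs (ha K hK) (hb K hK)).1.const_mul ‖B‖)
    (B.aestronglyMeasurable_comp₂ (ha K hK).1 (hb K hK).1) (Eventually.of_forall fun x => ?_)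
  rw [← mul_assoc]
  exact B.le_opNorm₂ _ _

theorem fs_tendsto_bilin_L2 (B : E →L[ℝ] F →L[ℝ] G) {an : ℕ → X → E} {a : X → E} {b : X → F}
    (han : ∀ n, L2Loc μ (an n)) (ha : L2Loc μ a) (hb : L2Loc μ b) {K : Set X} (hK : IsCompact K)
    (h : Tendsto (fun n => ∫ x in K, ‖an n x - a x‖ ^ 2 ∂μ) atTop (𝓝 0)) :
    Tendsto (fun n => ∫ x in K, ‖B (an n x) (b x) - B (a x) (b x)‖ ∂μ) atTop (𝓝 0) := by
  have h2 : Tendsto (fun n => ‖B‖ * (√(∫ x in K, ‖an n x - a x‖ ^ 2 ∂μ) * √(∫ x in K, ‖b x‖ ^ 2 ∂μ)))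
      atTop (𝓝 0) := by
    have := ((Real.continuous_sqrt.tendsto 0).comp h).mul_const (√(∫ x in K, ‖b x‖ ^ 2 ∂μ))
    simpa using this.const_mul ‖B‖
  refine squeeze_zero (fun n => integral_nonneg fun x => norm_nonneg _) (fun n => ?_) h2
  have hd : MemLp (fun x => an n x - a x) 2 (μ.restrict K) := (han n K hK).sub (ha K hK)
  obtain ⟨i1, i2⟩ := fs_cs hd (hb K hK)
  refine le_trans ?_ (mul_le_mul_of_nonneg_left i2 (norm_nonneg B))
  rw [← integral_const_mul]
  refine integral_mono_of_nonneg (Eventually.of_forall fun x => norm_nonneg _) (i1.const_mul _)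
    (Eventually.of_forall fun x => ?_)
  show ‖B (an n x) (b x) - B (a x) (b x)‖ ≤ ‖B‖ * (‖an n x - a x‖ * ‖b x‖)
  rw [← mul_assoc, ← sub_apply, ← map_sub]
  exact B.le_opNorm₂ _ _

theorem WD.bilin (B : E →L[ℝ] F →L[ℝ] G) {v : X} {f f' : X → E} {g g' : X → F}
    (hf : WD μ v f f') (hg : WD μ v g g') (h1 : L2Loc μ f) (h2 : L2Loc μ f') (h3 : L2Loc μ g) (h4 : L2Loc μ g') :
    WD μ v (fun x => B (f x) (g x)) (fun x => B (f' x) (g x) + B (f x) (g' x)) := by
  set fn : ℕ → X → E := fun n => moll μ (mollSeq μ n) f with hfn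
  set fn' : ℕ → X → E := fun n => moll μ (mollSeq μ n) f' with hfn'
  have hs : ∀ n, ContDiff ℝ 1 (fn n) := fun n =>
    (contDiff_moll (contDiff_mollSeq n) (hasCompactSupport_mollSeq n) hf.locf).of_le (by simp)
  have hder : ∀ n x, fderiv ℝ (fn n) x v = fn' n x := fun n x =>
    fderiv_moll (contDiff_mollSeq n) (hasCompactSupport_mollSeq n) hf.locf hf.weak x
  have hn : ∀ n, WD μ v (fun x => B (fn n x) (g x)) (fun x => B (fn' n x) (g x) + B (fn n x) (g' x)) := by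
    intro n
    have := WD.bilin_contDiff B (hs n) hg
    simpa only [hder] using this
  have lf : ∀ n, L2Loc μ (fn n) := fun n => fs_l2Loc_moll n hf.locf
  have lf' : ∀ n, L2Loc μ (fn' n) := fun n => fs_l2Loc_moll n hf.locg
  refine WD.of_tendsto hn (fs_li_bilin_L2 B h1 h3)
    ((fs_li_bilin_L2 B h2 h3).add (fs_li_bilin_L2 B h1 h4)) (fun K hK => ?_) (fun K hK => ?_)
  · exact fs_tendsto_bilin_L2 B lf h1 h3 hK (tendsto_moll_L2loc h1 hK)
  · refine fs_tendsto_add (fun n => ?_) (fun n => ?_)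
      (fs_tendsto_bilin_L2 B lf' h2 h3 hK (tendsto_moll_L2loc h2 hK))
      (fs_tendsto_bilin_L2 B lf h1 h4 hK (tendsto_moll_L2loc h1 hK))
    · exact ((fs_li_bilin_L2 B (lf' n) h3).sub (fs_li_bilin_L2 B h2 h3)).integrableOn_isCompact hK
    · exact ((fs_li_bilin_L2 B (lf n) h4).sub (fs_li_bilin_L2 B h1 h4)).integrableOn_isCompact hK

theorem fs_memLp_smul_of_bdd {f : X → E} (hf : MemLp f 2 μ) {χ : X → ℝ} (hχ : Continuous χ) {C : ℝ}
    (h0 : ∀ x, |χ x| ≤ C) : MemLp (fun x => χ x • f x) 2 μ :=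
  hf.of_le_mul (c := C) (hχ.aestronglyMeasurable.smul hf.1) (Eventually.of_forall fun x => by
    rw [norm_smul, Real.norm_eq_abs]
    exact mul_le_mul_of_nonneg_right (h0 x) (norm_nonneg _))

theorem WD2.smul_left {v : X} {f g : X → E} (h : WD2 μ v f g) {χ : X → ℝ} (hχ : ContDiff ℝ 1 χ) {C : ℝ}
    (h0 : ∀ x, |χ x| ≤ C) (h1 : ∀ x, |fderiv ℝ χ x v| ≤ C) :
    WD2 μ v (fun x => χ x • f x) (fun x => fderiv ℝ χ x v • f x + χ x • g x) :=
  ⟨fs_memLp_smul_of_bdd h.memf hχ.continuous h0,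
    (fs_memLp_smul_of_bdd h.memf (fs_cont_d hχ v) h1).add (fs_memLp_smul_of_bdd h.memg hχ.continuous h0),
    (WD.smul_left h.wd hχ).weak⟩

theorem fs_memLp_smul_of_compact {f : X → E} (hf : L2Loc μ f) {χ : X → ℝ} (hχ : Continuous χ)
    (hc : HasCompactSupport χ) : MemLp (fun x => χ x • f x) 2 μ := by
  obtain ⟨C, hC⟩ := hc.exists_bound_of_continuous hχ
  have e : (fun x => χ x • f x) = fun x => χ x • (tsupport χ).indicator f x := by
    funext x
    by_cases hx : x ∈ tsupport χ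
    · rw [Set.indicator_of_mem hx]
    · rw [image_eq_zero_of_notMem_tsupport hx, zero_smul, zero_smul]
  rw [e]
  exact fs_memLp_smul_of_bdd (fs_memLp_indicator hf hc.isCompact) hχ hC

theorem WD.smul_left_wd2 {v : X} {f g : X → E} (h : WD μ v f g) (h1 : L2Loc μ f) (h2 : L2Loc μ g) {χ : X → ℝ}
    (hχ : ContDiff ℝ 1 χ) (hc : HasCompactSupport χ) :
    WD2 μ v (fun x => χ x • f x) (fun x => fderiv ℝ χ x v • f x + χ x • g x) :=
  ⟨fs_memLp_smul_of_compact h1 hχ.continuous hc,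
    (fs_memLp_smul_of_compact h1 (fs_cont_d hχ v) (hc.fderiv_apply (𝕜 := ℝ) v)).add
      (fs_memLp_smul_of_compact h2 hχ.continuous hc),
    (WD.smul_left h hχ).weak⟩

end W3

/-! ## LEAF FS-W4: translations and linear changes of variables -/

section W4

variable {Y : Type*} [NormedAddCommGroup Y] [NormedSpace ℝ Y] [FiniteDimensional ℝ Y]
  [MeasurableSpace Y] [BorelSpace Y] {ν : Measure Y} [ν.IsAddHaarMeasure]

/-- the image of a Haar measure under a linear equivalence is a positive multiple of the Haar measure. -/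
theorem fs_map_equiv (μ : Measure X) [μ.IsAddHaarMeasure] (ν : Measure Y) [ν.IsAddHaarMeasure] (A : Y ≃L[ℝ] X) :
    ∃ c : ℝ≥0, 0 < c ∧ ν.map A = c • μ :=
  ⟨_, Measure.addHaarScalarFactor_pos_of_isAddHaarMeasure (ν.map A) μ, Measure.isAddLeftInvariant_eq_smul (ν.map A) μ⟩

theorem fs_li_of_map {h : Y ≃ₜ X} {c : ℝ≥0} (hc : ν.map h = c • μ) {f : X → E} (hf : LocallyIntegrable f μ) :
    LocallyIntegrable (fun y => f (h y)) ν := by
  rw [locallyIntegrable_iff]
  intro K hK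
  have hK' : IsCompact (h '' K) := hK.image h.continuous
  have h1 : IntegrableOn f (h '' K) (ν.map h) := by
    rw [hc, IntegrableOn, Measure.restrict_smul]
    exact (hf.integrableOn_isCompact hK').smul_measure_nnreal
  have h2 := (h.measurableEmbedding.integrableOn_map_iff).1 h1
  rwa [h.injective.preimage_image] at h2

theorem fs_memLp_of_map {h : Y ≃ₜ X} {c : ℝ≥0} (hc : ν.map h = c • μ) {f : X → E} (hf : MemLp f 2 μ) :
    MemLp (fun y => f (h y)) 2 ν := by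
  have h1 : MemLp f 2 (ν.map h) := by
    rw [hc]
    exact hf.smul_measure (c := (c : ENNReal)) ENNReal.coe_ne_top
  exact (h.measurableEmbedding.memLp_map_measure_iff).1 h1

theorem fs_integral_of_map {h : Y ≃ₜ X} {c : ℝ≥0} (hc : ν.map h = c • μ) (u : X → E) :
    ∫ y, u (h y) ∂ν = c • ∫ x, u x ∂μ := by
  rw [← h.measurableEmbedding.integral_map, hc, integral_smul_nnreal_measure]

theorem fs_map_addRight (a : X) : μ.map (Homeomorph.addRight a) = (1 : ℝ≥0) • μ := by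
  rw [one_smul]
  exact (measurePreserving_add_right μ a).map_eq

theorem WD.translate {v : X} {f g : X → E} (h : WD μ v f g) (a : X) :
    WD μ v (fun x => f (x + a)) (fun x => g (x + a)) := by
  have hc := fs_map_addRight (μ := μ) a
  refine ⟨fs_li_of_map hc h.locf, fs_li_of_map hc h.locg, fun φ hφ hs => ?_⟩
  have hψ : ContDiff ℝ ∞ fun y => φ (y - a) := hφ.comp (contDiff_id.sub contDiff_const)
  have hψs : HasCompactSupport fun y => φ (y - a) := hs.comp_homeomorph (Homeomorph.subRight a)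
  have key := h.weak _ hψ hψs
  simp only [fderiv_comp_sub] at key
  have e1 := integral_add_right_eq_self (μ := μ) (fun y => fderiv ℝ φ (y - a) v • f y) a
  have e2 := integral_add_right_eq_self (μ := μ) (fun y => φ (y - a) • g y) a
  simp only [add_sub_cancel_right] at e1 e2
  rw [e1, e2, key]

theorem WD2.translate {v : X} {f g : X → E} (h : WD2 μ v f g) (a : X) :
    WD2 μ v (fun x => f (x + a)) (fun x => g (x + a)) :=
  ⟨fs_memLp_of_map (fs_map_addRight (μ := μ) a) h.memf, fs_memLp_of_map (fs_map_addRight (μ := μ) a) h.memg,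
    (WD.translate h.wd a).weak⟩

/-- linear change of variables.  Rotations, reflections, dilations, permutations of the electrons,
`Config 3 ≃ Space × Config 2`, `Config m ≃ EuclideanSpace ℝ (Fin m × Fin 3)`. -/
theorem WD.comp_equiv {w : Y} {f g : X → E} (A : Y ≃L[ℝ] X) (h : WD μ (A w) f g) :
    WD ν w (fun y => f (A y)) (fun y => g (A y)) := by
  obtain ⟨c, -, hc⟩ := fs_map_equiv μ ν A
  have hc' : ν.map A.toHomeomorph = c • μ := hc
  refine ⟨fs_li_of_map hc' h.locf, fs_li_of_map hc' h.locg, fun ψ hψ hs => ?_⟩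
  have hφ : ContDiff ℝ ∞ fun x => ψ (A.symm x) := hψ.comp A.symm.contDiff
  have hφs : HasCompactSupport fun x => ψ (A.symm x) := hs.comp_homeomorph A.symm.toHomeomorph
  have key := h.weak _ hφ hφs
  have hd : ∀ x, fderiv ℝ (fun x => ψ (A.symm x)) x (A w) = fderiv ℝ ψ (A.symm x) w := by
    intro x
    have h1 : HasFDerivAt (fun x => ψ (A.symm x)) ((fderiv ℝ ψ (A.symm x)).comp (A.symm : X →L[ℝ] Y)) x :=
      ((hψ.differentiable (by simp)) (A.symm x)).hasFDerivAt.comp x A.symm.hasFDerivAt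
    rw [h1.fderiv]; simp
  simp only [hd] at key
  have e1 := fs_integral_of_map hc' (fun x => fderiv ℝ ψ (A.symm x) w • f x)
  have e2 := fs_integral_of_map hc' (fun x => ψ (A.symm x) • g x)
  simp only [ContinuousLinearEquiv.coe_toHomeomorph, ContinuousLinearEquiv.symm_apply_apply] at e1 e2
  rw [e1, e2, key, smul_neg]

theorem WD2.comp_equiv {w : Y} {f g : X → E} (A : Y ≃L[ℝ] X) (h : WD2 μ (A w) f g) :
    WD2 ν w (fun y => f (A y)) (fun y => g (A y)) := by
  obtain ⟨c, -, hc⟩ := fs_map_equiv μ ν A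
  have hc' : ν.map A.toHomeomorph = c • μ := hc
  exact ⟨fs_memLp_of_map hc' h.memf, fs_memLp_of_map hc' h.memg, (WD.comp_equiv A h.wd).weak⟩

end W4

/-! ## Hilbert space valued functions -/

variable {𝕜 : Type*} [RCLike 𝕜] {H : Type*} [NormedAddCommGroup H] [InnerProductSpace 𝕜 H] [NormedSpace ℝ H]
  [CompleteSpace H]

/-! ## LEAF FS-W5: inner products, integration by parts in `L²`, density, closedness -/

section W5

variable (𝕜 H) in
/-- the inner product as a real bilinear map. -/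
def innerB : H →L[ℝ] H →L[ℝ] 𝕜 := (isBoundedBilinearMap_inner (𝕜 := 𝕜) (E := H)).toContinuousLinearMap

@[simp] theorem innerB_apply (a b : H) : innerB 𝕜 H a b = ⟪a, b⟫_𝕜 := rfl

theorem WD.inner {v : X} {f f' g g' : X → H} (hf : WD μ v f f') (hg : WD μ v g g')
    (h1 : L2Loc μ f) (h2 : L2Loc μ f') (h3 : L2Loc μ g) (h4 : L2Loc μ g') :
    WD μ v (fun x => ⟪f x, g x⟫_𝕜) (fun x => ⟪f' x, g x⟫_𝕜 + ⟪f x, g' x⟫_𝕜) :=
  WD.bilin (innerB 𝕜 H) hf hg h1 h2 h3 h4

variable (𝕜) in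
theorem WD.norm_sq {v : X} {f f' : X → H} (hf : WD μ v f f') (h1 : L2Loc μ f) (h2 : L2Loc μ f') :
    WD μ v (fun x => ‖f x‖ ^ 2) (fun x => 2 * RCLike.re ⟪f x, f' x⟫_𝕜) := by
  have := WD.clm (RCLike.reCLM (K := 𝕜)) (WD.inner (𝕜 := 𝕜) hf hf h1 h2 h1 h2)
  refine this.congr_ae (Eventually.of_forall fun x => ?_) (Eventually.of_forall fun x => ?_)
  · show RCLike.re ⟪f x, f x⟫_𝕜 = ‖f x‖ ^ 2
    rw [inner_self_eq_norm_sq]
  · show RCLike.re (⟪f' x, f x⟫_𝕜 + ⟪f x, f' x⟫_𝕜) = 2 * RCLike.re ⟪f x, f' x⟫_𝕜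
    rw [map_add, inner_re_symm]
    ring

theorem WD.integral_eq_zero {v : X} {f g : X → E} (h : WD μ v f g) (hf : Integrable f μ) (hg : Integrable g μ) :
    ∫ x, g x ∂μ = 0 := by
  obtain ⟨C, hC0, hC⟩ := exists_fderiv_cutBump_bound (X := X) v
  have key : ∀ n : ℕ, ∫ x, fderiv ℝ (cutoff n) x v • f x ∂μ = - ∫ x, cutoff n x • g x ∂μ := fun n =>
    h.weak _ (contDiff_cutoff n) (hasCompactSupport_cutoff n)
  have t1 : Tendsto (fun n : ℕ => ∫ x, fderiv ℝ (cutoff n) x v • f x ∂μ) atTop (𝓝 0) := by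
    rw [tendsto_zero_iff_norm_tendsto_zero]
    have h1 : Tendsto (fun n : ℕ => (((n : ℝ) + 1)⁻¹ * C) * ∫ x, ‖f x‖ ∂μ) atTop (𝓝 0) := by
      have h0 : Tendsto (fun n : ℕ => ((n : ℝ) + 1)⁻¹) atTop (𝓝 0) :=
        tendsto_inv_atTop_zero.comp (tendsto_atTop_add_const_right _ _ tendsto_natCast_atTop_atTop)
      simpa using (h0.mul_const C).mul_const (∫ x, ‖f x‖ ∂μ)
    refine squeeze_zero (fun n => norm_nonneg _) (fun n => ?_) h1
    refine (norm_integral_le_integral_norm _).trans ?_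
    rw [← integral_const_mul]
    refine integral_mono_of_nonneg (Eventually.of_forall fun x => norm_nonneg _) (hf.norm.const_mul _)
      (Eventually.of_forall fun x => ?_)
    show ‖fderiv ℝ (cutoff n) x v • f x‖ ≤ ((n : ℝ) + 1)⁻¹ * C * ‖f x‖
    rw [norm_smul, fderiv_cutoff, norm_mul, Real.norm_eq_abs, Real.norm_eq_abs,
      abs_of_pos (by positivity : (0 : ℝ) < ((n : ℝ) + 1)⁻¹)]
    gcongr
    exact hC _
  have t2 : Tendsto (fun n : ℕ => ∫ x, cutoff n x • g x ∂μ) atTop (𝓝 (∫ x, g x ∂μ)) := by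
    refine tendsto_integral_of_dominated_convergence (fun x => ‖g x‖) (fun n => ?_) hg.norm (fun n => ?_) ?_
    · exact (contDiff_cutoff n).continuous.aestronglyMeasurable.smul hg.1
    · refine Eventually.of_forall fun x => ?_
      rw [norm_smul, Real.norm_eq_abs, abs_of_nonneg (cutoff_nonneg n x)]
      exact mul_le_of_le_one_left (norm_nonneg _) (cutoff_le_one n x)
    · refine Eventually.of_forall fun x => ?_
      apply tendsto_const_nhds.congr'
      obtain ⟨N, hN⟩ := exists_nat_ge ‖x‖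
      filter_upwards [eventually_ge_atTop N] with n hn
      have : ‖x‖ ≤ (n : ℝ) + 1 := by
        have : (N : ℝ) ≤ n := by exact_mod_cast hn
        linarith
      rw [cutoff_eq_one this, one_smul]
  simp only [key] at t1
  have := tendsto_nhds_unique t1 t2.neg
  exact neg_eq_zero.1 this.symm

theorem fs_integrable_inner {α : Type*} [MeasurableSpace α] {ν : Measure α} {a b : α → H} (ha : MemLp a 2 ν)
    (hb : MemLp b 2 ν) : Integrable (fun x => ⟪a x, b x⟫_𝕜) ν :=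
  (fs_cs ha hb).1.mono' (ha.1.inner hb.1) (Eventually.of_forall fun _ => norm_inner_le_norm _ _)

theorem WD2.integral_inner {v : X} {f f' g g' : X → H} (hf : WD2 μ v f f') (hg : WD2 μ v g g') :
    ∫ x, ⟪f' x, g x⟫_𝕜 ∂μ = - ∫ x, ⟪f x, g' x⟫_𝕜 ∂μ := by
  have i1 : Integrable (fun x => ⟪f' x, g x⟫_𝕜) μ := fs_integrable_inner hf.memg hg.memf
  have i2 : Integrable (fun x => ⟪f x, g' x⟫_𝕜) μ := fs_integrable_inner hf.memf hg.memg
  have := WD.integral_eq_zero (WD.inner (𝕜 := 𝕜) hf.wd hg.wd (MemLp.l2Loc hf.memf) (MemLp.l2Loc hf.memg)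
    (MemLp.l2Loc hg.memf) (MemLp.l2Loc hg.memg))
    (fs_integrable_inner hf.memf hg.memf) (i1.add i2)
  rw [integral_add i1 i2] at this
  exact eq_neg_of_add_eq_zero_left this

/-- `L²` convergence implies `L¹(K)` convergence. -/
theorem fs_tendsto_L1_of_L2 {fn : ℕ → X → E} {f : X → E} (hfn : ∀ n, MemLp (fn n) 2 μ) (hf : MemLp f 2 μ)
    (h : Tendsto (fun n => ∫ x, ‖fn n x - f x‖ ^ 2 ∂μ) atTop (𝓝 0)) {K : Set X} (hK : IsCompact K) :
    Tendsto (fun n => ∫ x in K, ‖fn n x - f x‖ ∂μ) atTop (𝓝 0) := by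
  have h2 : Tendsto (fun n => √(μ.real K) * √(∫ x, ‖fn n x - f x‖ ^ 2 ∂μ)) atTop (𝓝 0) := by
    simpa using ((Real.continuous_sqrt.tendsto 0).comp h).const_mul (√(μ.real K))
  refine squeeze_zero (fun n => integral_nonneg fun x => norm_nonneg _) (fun n => ?_) h2
  have hd : MemLp (fun x => fn n x - f x) 2 μ := (hfn n).sub hf
  refine (fs_setIntegral_norm_le hK.measure_lt_top.ne (hd.restrict K)).trans ?_
  exact mul_le_mul_of_nonneg_left (Real.sqrt_le_sqrt (setIntegral_le_integral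
    ((memLp_two_iff_integrable_sq_norm hd.1).1 hd) (Eventually.of_forall fun x => sq_nonneg _))) (Real.sqrt_nonneg _)

theorem WD2.of_tendsto {v : X} {f g : X → E} {fn gn : ℕ → X → E} (h : ∀ n, WD2 μ v (fn n) (gn n))
    (hf : MemLp f 2 μ) (hg : MemLp g 2 μ)
    (hfn : Tendsto (fun n => ∫ x, ‖fn n x - f x‖ ^ 2 ∂μ) atTop (𝓝 0))
    (hgn : Tendsto (fun n => ∫ x, ‖gn n x - g x‖ ^ 2 ∂μ) atTop (𝓝 0)) : WD2 μ v f g :=
  ⟨hf, hg, (WD.of_tendsto (fun n => (h n).wd) (hf.locallyIntegrable (by norm_num))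
    (hg.locallyIntegrable (by norm_num)) (fun _ hK => fs_tendsto_L1_of_L2 (fun n => (h n).memf) hf hfn hK)
    (fun _ hK => fs_tendsto_L1_of_L2 (fun n => (h n).memg) hg hgn hK)).weak⟩

theorem exists_seq_contDiff_approx {ι : Type*} [Fintype ι] {v : ι → X} {f : X → E} {g : ι → X → E}
    (h : ∀ j, WD2 μ (v j) f (g j)) (hf : MemLp f 2 μ) :
    ∃ u : ℕ → X → E, (∀ n, ContDiff ℝ 1 (u n)) ∧ (∀ n, HasCompactSupport (u n)) ∧
      Tendsto (fun n => ∫ x, ‖u n x - f x‖ ^ 2 ∂μ) atTop (𝓝 0) ∧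
      ∀ j, Tendsto (fun n => ∫ x, ‖fderiv ℝ (u n) x (v j) - g j x‖ ^ 2 ∂μ) atTop (𝓝 0) := by
  have := fun n : ℕ => exists_contDiff_hasCompactSupport_approx hf (fun j => (h j).memg) (fun j => (h j).weak)
    (show 0 < 1 / ((n : ℝ) + 1) by positivity)
  choose u hu hc h0 h1 using this
  refine ⟨u, hu, hc, ?_, fun j => ?_⟩
  · exact squeeze_zero (fun n => integral_nonneg fun x => sq_nonneg _) h0 tendsto_one_div_add_atTop_nhds_zero_nat
  · exact squeeze_zero (fun n => integral_nonneg fun x => sq_nonneg _) (fun n => h1 n j)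
      tendsto_one_div_add_atTop_nhds_zero_nat

end W5

/-! ## LEAF FS-W6: difference quotients and existence of weak derivatives (Riesz) -/

section W6

open scoped ENNReal

/-! ### `L²` norms as integrals -/

theorem fs_lintegral_sq {α : Type*} [MeasurableSpace α] {ν : Measure α} {E' : Type*} [NormedAddCommGroup E']
    {a : α → E'} (ha : MemLp a 2 ν) : ∫⁻ x, ‖a x‖ₑ ^ 2 ∂ν = ENNReal.ofReal (∫ x, ‖a x‖ ^ 2 ∂ν) := by
  rw [ofReal_integral_eq_lintegral_ofReal ((memLp_two_iff_integrable_sq_norm ha.1).1 ha)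
    (Eventually.of_forall fun x => sq_nonneg _)]
  refine lintegral_congr fun x => ?_
  rw [ENNReal.ofReal_pow (norm_nonneg _), ofReal_norm]

theorem fs_norm_toLp {α : Type*} [MeasurableSpace α] {ν : Measure α} {E' : Type*} [NormedAddCommGroup E']
    {a : α → E'} (ha : MemLp a 2 ν) : ‖ha.toLp a‖ = √(∫ x, ‖a x‖ ^ 2 ∂ν) := by
  rw [Lp.norm_toLp, ha.eLpNorm_eq_integral_rpow_norm (by norm_num) (by norm_num),
    ENNReal.toReal_ofReal (by positivity)]
  simp only [ENNReal.toReal_ofNat, Real.rpow_two]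
  rw [Real.sqrt_eq_rpow, one_div]

theorem fs_tendsto_toLp {α : Type*} [MeasurableSpace α] {ν : Measure α} {E' : Type*} [NormedAddCommGroup E']
    {an : ℕ → α → E'} {a : α → E'} (han : ∀ n, MemLp (an n) 2 ν) (ha : MemLp a 2 ν)
    (h : Tendsto (fun n => ∫ x, ‖an n x - a x‖ ^ 2 ∂ν) atTop (𝓝 0)) :
    Tendsto (fun n => (han n).toLp (an n)) atTop (𝓝 (ha.toLp a)) := by
  rw [tendsto_iff_norm_sub_tendsto_zero]
  have e : ∀ n, ‖(han n).toLp (an n) - ha.toLp a‖ = √(∫ x, ‖an n x - a x‖ ^ 2 ∂ν) := fun n => by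
    rw [← MemLp.toLp_sub, fs_norm_toLp]; rfl
  simp only [e]
  have h2 := (Real.continuous_sqrt.tendsto 0).comp h
  simpa [Function.comp_def] using h2

/-- `L²` convergence implies convergence of the squared norms. -/
theorem fs_tendsto_integral_sq {α : Type*} [MeasurableSpace α] {ν : Measure α} {E' : Type*}
    [NormedAddCommGroup E'] {an : ℕ → α → E'} {a : α → E'} (han : ∀ n, MemLp (an n) 2 ν) (ha : MemLp a 2 ν)
    (h : Tendsto (fun n => ∫ x, ‖an n x - a x‖ ^ 2 ∂ν) atTop (𝓝 0)) :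
    Tendsto (fun n => ∫ x, ‖an n x‖ ^ 2 ∂ν) atTop (𝓝 (∫ x, ‖a x‖ ^ 2 ∂ν)) := by
  have h1 := ((fs_tendsto_toLp han ha h).norm).pow 2
  simp only [fs_norm_toLp] at h1
  have e : ∀ b : α → E', √(∫ x, ‖b x‖ ^ 2 ∂ν) ^ 2 = ∫ x, ‖b x‖ ^ 2 ∂ν := fun b =>
    Real.sq_sqrt (integral_nonneg fun x => sq_nonneg _)
  simpa only [e] using h1

/-! ### the translation estimate -/

theorem fs_sq_lintegral_le {α : Type*} [MeasurableSpace α] (ν : Measure α) (u : α → ℝ≥0∞)
    (hu : AEMeasurable u ν) : (∫⁻ a, u a ∂ν) ^ 2 ≤ ν Set.univ * ∫⁻ a, u a ^ 2 ∂ν := by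
  have h := ENNReal.lintegral_mul_le_Lp_mul_Lq ν (Real.HolderConjugate.two_two) hu
    (aemeasurable_const (b := (1 : ℝ≥0∞)))
  simp only [Pi.mul_apply, mul_one, ENNReal.one_rpow, lintegral_const, one_mul] at h
  calc (∫⁻ a, u a ∂ν) ^ 2
      ≤ ((∫⁻ a, u a ^ (2:ℝ) ∂ν) ^ (1 / (2:ℝ)) * ν Set.univ ^ (1 / (2:ℝ))) ^ 2 := by
        gcongr
    _ = ν Set.univ * ∫⁻ a, u a ^ 2 ∂ν := by
        rw [mul_pow, ← ENNReal.rpow_natCast, ← ENNReal.rpow_natCast, ← ENNReal.rpow_mul,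
          ← ENNReal.rpow_mul]
        norm_num
        rw [mul_comm]

theorem fs_translate_pointwise {φ : X → E} (hφ : ContDiff ℝ 1 φ) (x h : X) :
    ‖φ (x + h) - φ x‖ₑ ^ 2 ≤ ∫⁻ t in Set.Ioc (0:ℝ) 1, ‖fderiv ℝ φ (x + t • h) h‖ₑ ^ 2 := by
  have hd : ∀ t : ℝ, HasDerivAt (fun t : ℝ => φ (x + t • h)) (fderiv ℝ φ (x + t • h) h) t := by
    intro t
    have h1 : HasFDerivAt φ (fderiv ℝ φ (x + t • h)) (x + t • h) :=
      (hφ.differentiable one_ne_zero _).hasFDerivAt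
    have h2 : HasDerivAt (fun t : ℝ => x + t • h) h t := by
      simpa using ((hasDerivAt_id t).smul_const h).const_add x
    exact h1.comp_hasDerivAt t h2
  have hcont : Continuous fun t : ℝ => fderiv ℝ φ (x + t • h) h := by
    have := hφ.continuous_fderiv one_ne_zero
    fun_prop
  have hftc : ∫ t in (0:ℝ)..1, fderiv ℝ φ (x + t • h) h = φ (x + h) - φ x := by
    rw [intervalIntegral.integral_eq_sub_of_hasDerivAt (fun t _ => hd t)
      (hcont.intervalIntegrable _ _)]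
    simp
  rw [← hftc, intervalIntegral.integral_of_le zero_le_one]
  calc ‖∫ t in Set.Ioc (0:ℝ) 1, fderiv ℝ φ (x + t • h) h‖ₑ ^ 2
      ≤ (∫⁻ t in Set.Ioc (0:ℝ) 1, ‖fderiv ℝ φ (x + t • h) h‖ₑ) ^ 2 := by
        gcongr; exact enorm_integral_le_lintegral_enorm _
    _ ≤ (volume.restrict (Set.Ioc (0:ℝ) 1)) Set.univ *
          ∫⁻ t in Set.Ioc (0:ℝ) 1, ‖fderiv ℝ φ (x + t • h) h‖ₑ ^ 2 :=
        fs_sq_lintegral_le _ _ hcont.enorm.aemeasurable
    _ = ∫⁻ t in Set.Ioc (0:ℝ) 1, ‖fderiv ℝ φ (x + t • h) h‖ₑ ^ 2 := by simp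

theorem fs_translate_C1 {φ : X → E} (hφ : ContDiff ℝ 1 φ) (h : X) :
    ∫⁻ x, ‖φ (x + h) - φ x‖ₑ ^ 2 ∂μ ≤ ∫⁻ x, ‖fderiv ℝ φ x h‖ₑ ^ 2 ∂μ := by
  have hc := hφ.continuous_fderiv one_ne_zero
  calc ∫⁻ x, ‖φ (x + h) - φ x‖ₑ ^ 2 ∂μ
      ≤ ∫⁻ x, (∫⁻ t in Set.Ioc (0:ℝ) 1, ‖fderiv ℝ φ (x + t • h) h‖ₑ ^ 2) ∂μ :=
        lintegral_mono fun x => fs_translate_pointwise hφ x h
    _ = ∫⁻ t in Set.Ioc (0:ℝ) 1, ∫⁻ x, ‖fderiv ℝ φ (x + t • h) h‖ₑ ^ 2 ∂μ := by
        apply lintegral_lintegral_swap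
        have hm : Measurable fun a : X × ℝ => ‖fderiv ℝ φ (a.1 + a.2 • h) h‖ₑ :=
          (by fun_prop : Continuous fun a : X × ℝ => fderiv ℝ φ (a.1 + a.2 • h) h).enorm.measurable
        exact (hm.pow_const _).aemeasurable
    _ = ∫⁻ t in Set.Ioc (0:ℝ) 1, ∫⁻ x, ‖fderiv ℝ φ x h‖ₑ ^ 2 ∂μ := by
        congr 1 with t
        exact lintegral_add_right_eq_self (fun y => ‖fderiv ℝ φ y h‖ₑ ^ 2) (t • h)
    _ = _ := by simp

theorem fs_memLp_translate {f : X → E} (hf : MemLp f 2 μ) (a : X) : MemLp (fun x => f (x + a)) 2 μ :=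
  fs_memLp_of_map (fs_map_addRight (μ := μ) a) hf

theorem WD2.translate_sub_le {v : X} {f g : X → E} (h : WD2 μ v f g) (t : ℝ) :
    ∫ x, ‖f (x + t • v) - f x‖ ^ 2 ∂μ ≤ t ^ 2 * ∫ x, ‖g x‖ ^ 2 ∂μ := by
  have hfl := h.wd.locf
  set un : ℕ → X → E := fun n => moll μ (mollSeq μ n) f with hun
  set gn : ℕ → X → E := fun n => moll μ (mollSeq μ n) g with hgn
  have hs : ∀ n, ContDiff ℝ 1 (un n) := fun n =>
    (contDiff_moll (contDiff_mollSeq n) (hasCompactSupport_mollSeq n) hfl).of_le (by simp)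
  have hder : ∀ n x, fderiv ℝ (un n) x v = gn n x := fun n x =>
    fderiv_moll (contDiff_mollSeq n) (hasCompactSupport_mollSeq n) hfl h.weak x
  have mu : ∀ n, MemLp (un n) 2 μ := fun n => (memLp_moll (continuous_mollSeq n) (hasCompactSupport_mollSeq n)
    (mollSeq_nonneg n) (integral_mollSeq n) h.memf).1
  have mg := fun n => memLp_moll (continuous_mollSeq n) (hasCompactSupport_mollSeq n)
    (mollSeq_nonneg n) (integral_mollSeq (μ := μ) n) h.memg
  have md : ∀ n, MemLp (fun x => un n (x + t • v) - un n x) 2 μ := fun n =>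
    (fs_memLp_translate (mu n) _).sub (mu n)
  have md' : MemLp (fun x => f (x + t • v) - f x) 2 μ := (fs_memLp_translate h.memf _).sub h.memf
  -- the estimate for the mollified functions
  have hn : ∀ n, ∫ x, ‖un n (x + t • v) - un n x‖ ^ 2 ∂μ ≤ t ^ 2 * ∫ x, ‖g x‖ ^ 2 ∂μ := by
    intro n
    have h1 := fs_translate_C1 (μ := μ) (hs n) (t • v)
    have mt : MemLp (fun x => fderiv ℝ (un n) x (t • v)) 2 μ := by
      simp only [map_smul, hder]
      exact (mg n).1.const_smul t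
    rw [fs_lintegral_sq (md n), fs_lintegral_sq mt,
      ENNReal.ofReal_le_ofReal_iff (integral_nonneg fun x => sq_nonneg _)] at h1
    refine h1.trans ?_
    simp only [map_smul, hder, norm_smul, mul_pow, Real.norm_eq_abs, sq_abs]
    rw [integral_const_mul]
    exact mul_le_mul_of_nonneg_left (mg n).2 (sq_nonneg t)
  -- convergence
  have hconv : Tendsto (fun n => ∫ x, ‖un n x - f x‖ ^ 2 ∂μ) atTop (𝓝 0) := by
    rw [Metric.tendsto_atTop]
    intro ε hε
    obtain ⟨N, hN⟩ := exists_moll_close h.memf (show 0 < ε / 2 by positivity)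
    refine ⟨N, fun n hn' => ?_⟩
    rw [Real.dist_eq, sub_zero, abs_of_nonneg (integral_nonneg fun x => sq_nonneg _)]
    linarith [hN n hn']
  have hconv2 : Tendsto (fun n => ∫ x, ‖(un n (x + t • v) - un n x) - (f (x + t • v) - f x)‖ ^ 2 ∂μ)
      atTop (𝓝 0) := by
    have h4 : Tendsto (fun n => 4 * ∫ x, ‖un n x - f x‖ ^ 2 ∂μ) atTop (𝓝 0) := by
      simpa using hconv.const_mul 4
    refine squeeze_zero (fun n => integral_nonneg fun x => sq_nonneg _) (fun n => ?_) h4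
    have m1 : MemLp (fun x => un n x - f x) 2 μ := (mu n).sub h.memf
    have i1 := (memLp_two_iff_integrable_sq_norm m1.1).1 m1
    have m2 := fs_memLp_translate m1 (t • v)
    have i2 := (memLp_two_iff_integrable_sq_norm m2.1).1 m2
    have e2 : ∫ x, ‖un n (x + t • v) - f (x + t • v)‖ ^ 2 ∂μ = ∫ x, ‖un n x - f x‖ ^ 2 ∂μ :=
      integral_add_right_eq_self (fun x => ‖un n x - f x‖ ^ 2) (t • v)
    calc ∫ x, ‖(un n (x + t • v) - un n x) - (f (x + t • v) - f x)‖ ^ 2 ∂μ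
        ≤ ∫ x, (2 * ‖un n (x + t • v) - f (x + t • v)‖ ^ 2 + 2 * ‖un n x - f x‖ ^ 2) ∂μ := by
          refine integral_mono_of_nonneg (Eventually.of_forall fun x => sq_nonneg _)
            ((i2.const_mul 2).add (i1.const_mul 2)) (Eventually.of_forall fun x => ?_)
          set a := un n (x + t • v) - f (x + t • v)
          set b := un n x - f x
          have e : (un n (x + t • v) - un n x) - (f (x + t • v) - f x) = a - b := by
            simp only [a, b]; abel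
          show ‖(un n (x + t • v) - un n x) - (f (x + t • v) - f x)‖ ^ 2 ≤ 2 * ‖a‖ ^ 2 + 2 * ‖b‖ ^ 2
          rw [e]
          have h5 : ‖a - b‖ ^ 2 ≤ (‖a‖ + ‖b‖) ^ 2 := pow_le_pow_left₀ (norm_nonneg _) (norm_sub_le _ _) 2
          nlinarith [sq_nonneg (‖a‖ - ‖b‖)]
      _ = 4 * ∫ x, ‖un n x - f x‖ ^ 2 ∂μ := by
          rw [integral_add (i2.const_mul 2) (i1.const_mul 2), integral_const_mul, integral_const_mul, e2]
          ring
  exact le_of_tendsto' (fs_tendsto_integral_sq md md' hconv2) hn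

/-- abstract Riesz representation of a functional bounded through a linear map into a Hilbert space. -/
theorem fs_riesz {V K : Type*} [AddCommGroup V] [Module 𝕜 V] [NormedAddCommGroup K] [InnerProductSpace 𝕜 K]
    [CompleteSpace K] (T : V →ₗ[𝕜] K) (L : V →ₗ[𝕜] 𝕜) {M : ℝ} (hM : ∀ x, ‖L x‖ ≤ M * ‖T x‖) :
    ∃ g : K, ‖g‖ ≤ M ⊔ 0 ∧ ∀ x, L x = ⟪g, T x⟫_𝕜 := by
  have hker : LinearMap.ker T ≤ LinearMap.ker L := by
    intro x hx
    rw [LinearMap.mem_ker] at hx ⊢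
    have := hM x
    rw [hx, norm_zero, mul_zero] at this
    exact norm_le_zero_iff.1 this
  let ℓ : LinearMap.range T →ₗ[𝕜] 𝕜 := ((LinearMap.ker T).liftQ L hker) ∘ₗ T.quotKerEquivRange.symm.toLinearMap
  have hℓ : ∀ x, ℓ ⟨T x, LinearMap.mem_range_self T x⟩ = L x := by
    intro x
    show (LinearMap.ker T).liftQ L hker (T.quotKerEquivRange.symm ⟨T x, _⟩) = L x
    rw [LinearMap.quotKerEquivRange_symm_apply_image]
    simp
  have hb : ∀ y : LinearMap.range T, ‖ℓ y‖ ≤ (M ⊔ 0) * ‖y‖ := by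
    rintro ⟨_, x, rfl⟩
    rw [hℓ]
    exact (hM x).trans (mul_le_mul_of_nonneg_right le_sup_left (norm_nonneg _))
  obtain ⟨g', hg', hn⟩ := exists_extension_norm_eq (LinearMap.range T) (ℓ.mkContinuous _ hb)
  refine ⟨(InnerProductSpace.toDual 𝕜 K).symm g', ?_, fun x => ?_⟩
  · rw [LinearIsometryEquiv.norm_map, hn]
    exact LinearMap.mkContinuous_norm_le _ le_sup_right _
  · rw [InnerProductSpace.toDual_symm_apply]
    have := hg' ⟨T x, LinearMap.mem_range_self T x⟩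
    rw [this]
    exact (hℓ x).symm

variable (𝕜 X H) in
/-- the space of `C¹` compactly supported `H` valued functions. -/
def fsC1c : Submodule 𝕜 (X → H) where
  carrier := {Φ | ContDiff ℝ 1 Φ ∧ HasCompactSupport Φ}
  add_mem' := fun ha hb => ⟨ha.1.add hb.1, ha.2.add hb.2⟩
  zero_mem' := ⟨contDiff_const, HasCompactSupport.zero⟩
  smul_mem' := fun c _ h => ⟨h.1.const_smul c, h.2.smul_left (f := fun _ => c)⟩

theorem fs_memLp_C1c {Φ : X → E} (h : Continuous Φ) (hc : HasCompactSupport Φ) : MemLp Φ 2 μ :=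
  h.memLp_of_hasCompactSupport hc

theorem fs_memLp_d {Φ : X → E} (h : ContDiff ℝ 1 Φ) (hc : HasCompactSupport Φ) (v : X) :
    MemLp (fun x => fderiv ℝ Φ x v) 2 μ :=
  ((h.continuous_fderiv one_ne_zero).clm_apply continuous_const).memLp_of_hasCompactSupport
    (hc.fderiv_apply (𝕜 := ℝ) v)

variable (𝕜 μ H) in
def fsT : fsC1c X 𝕜 H →ₗ[𝕜] Lp H 2 μ where
  toFun Φ := (fs_memLp_C1c (μ := μ) Φ.2.1.continuous Φ.2.2).toLp Φ.1
  map_add' _ _ := rfl
  map_smul' _ _ := rfl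

variable (𝕜 μ) in
def fsL (v : X) {f : X → H} (hf : MemLp f 2 μ) : fsC1c X 𝕜 H →ₗ[𝕜] 𝕜 where
  toFun Φ := ∫ x, ⟪f x, fderiv ℝ Φ.1 x v⟫_𝕜 ∂μ
  map_add' Φ Ψ := by
    have e : ∀ x, fderiv ℝ (Φ + Ψ).1 x v = fderiv ℝ Φ.1 x v + fderiv ℝ Ψ.1 x v := fun x => by
      show fderiv ℝ (Φ.1 + Ψ.1) x v = _
      rw [fderiv_add (Φ.2.1.differentiable one_ne_zero x) (Ψ.2.1.differentiable one_ne_zero x)]
      rfl
    simp only [e, inner_add_right]
    exact integral_add (fs_integrable_inner hf (fs_memLp_d Φ.2.1 Φ.2.2 v))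
      (fs_integrable_inner hf (fs_memLp_d Ψ.2.1 Ψ.2.2 v))
  map_smul' c Φ := by
    have e : ∀ x, fderiv ℝ (c • Φ).1 x v = c • fderiv ℝ Φ.1 x v := fun x => by
      show fderiv ℝ (c • Φ.1) x v = _
      rw [fderiv_const_smul (Φ.2.1.differentiable one_ne_zero x)]
      rfl
    simp only [e, inner_smul_right, RingHom.id_apply, smul_eq_mul]
    exact integral_const_mul _ _

theorem fs_inner_smul_left (r : ℝ) (a b : H) : ⟪r • a, b⟫_𝕜 = r • ⟪a, b⟫_𝕜 := by
  have := (innerB 𝕜 H).map_smul r a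
  exact congrArg (fun T => T b) this

theorem fs_inner_smul_right (r : ℝ) (a b : H) : ⟪a, r • b⟫_𝕜 = r • ⟪a, b⟫_𝕜 :=
  (innerB 𝕜 H a).map_smul r b

theorem fs_integral_inner_left {α : Type*} [MeasurableSpace α] {ν : Measure α} {a : α → H}
    (ha : Integrable a ν) (e : H) : ∫ x, ⟪a x, e⟫_𝕜 ∂ν = ⟪∫ x, a x ∂ν, e⟫_𝕜 :=
  ((innerB 𝕜 H).flip e).integral_comp_comm ha

variable (𝕜) in
theorem exists_wd2_of_bounded {v : X} {f : X → H} (hf : MemLp f 2 μ) {C : ℝ} (hC : 0 ≤ C)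
    (hb : ∀ Φ : X → H, ContDiff ℝ 1 Φ → HasCompactSupport Φ →
      ‖∫ x, ⟪fderiv ℝ Φ x v, f x⟫_𝕜 ∂μ‖ ^ 2 ≤ C * ∫ x, ‖Φ x‖ ^ 2 ∂μ) :
    ∃ g : X → H, WD2 μ v f g ∧ ∫ x, ‖g x‖ ^ 2 ∂μ ≤ C := by
  have hM : ∀ Φ : fsC1c X 𝕜 H, ‖fsL μ 𝕜 v hf Φ‖ ≤ √C * ‖fsT μ 𝕜 H Φ‖ := by
    intro Φ
    have h1 := hb Φ.1 Φ.2.1 Φ.2.2
    have e1 : fsL μ 𝕜 v hf Φ = (starRingEnd 𝕜) (∫ x, ⟪fderiv ℝ Φ.1 x v, f x⟫_𝕜 ∂μ) := by
      rw [← integral_conj]
      simp only [inner_conj_symm]
      rfl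
    have e2 : ‖fsT μ 𝕜 H Φ‖ = √(∫ x, ‖Φ.1 x‖ ^ 2 ∂μ) :=
      fs_norm_toLp (fs_memLp_C1c (μ := μ) Φ.2.1.continuous Φ.2.2)
    rw [e1, e2, RCLike.norm_conj, ← Real.sqrt_mul hC]
    exact Real.le_sqrt_of_sq_le h1
  obtain ⟨g₀, hg₀, hg⟩ := fs_riesz (fsT μ 𝕜 H) (fsL μ 𝕜 v hf) hM
  rw [sup_of_le_left (Real.sqrt_nonneg C)] at hg₀
  have mg : MemLp (g₀ : X → H) 2 μ := Lp.memLp g₀
  refine ⟨fun x => - g₀ x, ⟨hf, mg.neg, fun φ hφ hs => ?_⟩, ?_⟩
  · have hφ1 : ContDiff ℝ 1 φ := hφ.of_le fs_one_le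
    have i1 : Integrable (fun x => fderiv ℝ φ x v • f x) μ := fs_int_d (hf.locallyIntegrable (by norm_num)) hφ1 hs v
    have i2 : Integrable (fun x => φ x • g₀ x) μ := fs_int (mg.locallyIntegrable (by norm_num)) hφ1.continuous hs
    have key : ∫ x, fderiv ℝ φ x v • f x ∂μ = ∫ x, φ x • g₀ x ∂μ := by
      refine ext_inner_right 𝕜 fun e => ?_
      rw [← fs_integral_inner_left i1, ← fs_integral_inner_left i2]
      have hΦ : (fun x => φ x • e) ∈ fsC1c X 𝕜 H := ⟨hφ1.smul contDiff_const, hs.smul_right⟩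
      have h2 := hg ⟨_, hΦ⟩
      have e3 : fsL μ 𝕜 v hf ⟨_, hΦ⟩ = ∫ x, ⟪fderiv ℝ φ x v • f x, e⟫_𝕜 ∂μ := by
        show ∫ x, ⟪f x, fderiv ℝ (fun x => φ x • e) x v⟫_𝕜 ∂μ = _
        refine integral_congr_ae (Eventually.of_forall fun x => ?_)
        show ⟪f x, fderiv ℝ (fun x => φ x • e) x v⟫_𝕜 = ⟪fderiv ℝ φ x v • f x, e⟫_𝕜
        rw [fderiv_smul_const (hφ1.differentiable one_ne_zero x), ContinuousLinearMap.smulRight_apply,
          fs_inner_smul_left, fs_inner_smul_right]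
      have e4 : ⟪g₀, fsT μ 𝕜 H ⟨_, hΦ⟩⟫_𝕜 = ∫ x, ⟪φ x • g₀ x, e⟫_𝕜 ∂μ := by
        rw [L2.inner_def]
        refine integral_congr_ae ?_
        have := MemLp.coeFn_toLp (fs_memLp_C1c (μ := μ) hΦ.1.continuous hΦ.2)
        filter_upwards [this] with x hx
        have hx' : (fsT μ 𝕜 H ⟨_, hΦ⟩ : X → H) x = φ x • e := hx
        rw [hx', fs_inner_smul_left, fs_inner_smul_right]
      rw [← e3, ← e4, h2]
    rw [key]
    simp only [smul_neg, integral_neg, neg_neg]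
  · simp only [norm_neg]
    have h3 : ‖g₀‖ = √(∫ x, ‖g₀ x‖ ^ 2 ∂μ) := by
      conv_lhs => rw [← Lp.toLp_coeFn g₀ mg]
      exact fs_norm_toLp mg
    rw [h3] at hg₀
    exact (Real.sqrt_le_sqrt_iff hC).1 hg₀

theorem fs_norm_integral_inner_le {α : Type*} [MeasurableSpace α] {ν : Measure α} {a b : α → H}
    (ha : MemLp a 2 ν) (hb : MemLp b 2 ν) :
    ‖∫ x, ⟪a x, b x⟫_𝕜 ∂ν‖ ≤ √(∫ x, ‖a x‖ ^ 2 ∂ν) * √(∫ x, ‖b x‖ ^ 2 ∂ν) := by
  refine (norm_integral_le_integral_norm _).trans (le_trans ?_ (fs_cs ha hb).2)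
  exact integral_mono_of_nonneg (Eventually.of_forall fun x => norm_nonneg _) (fs_cs ha hb).1
    (Eventually.of_forall fun x => norm_inner_le_norm _ _)

theorem fs_norm_integral_inner_sq_le {α : Type*} [MeasurableSpace α] {ν : Measure α} {a b : α → H}
    (ha : MemLp a 2 ν) (hb : MemLp b 2 ν) :
    ‖∫ x, ⟪a x, b x⟫_𝕜 ∂ν‖ ^ 2 ≤ (∫ x, ‖a x‖ ^ 2 ∂ν) * ∫ x, ‖b x‖ ^ 2 ∂ν := by
  have h := pow_le_pow_left₀ (norm_nonneg _) (fs_norm_integral_inner_le (𝕜 := 𝕜) ha hb) 2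
  rwa [mul_pow, Real.sq_sqrt (integral_nonneg fun x => sq_nonneg _),
    Real.sq_sqrt (integral_nonneg fun x => sq_nonneg _)] at h

theorem fs_tendsto_integral_inner {α : Type*} [MeasurableSpace α] {ν : Measure α} {a b : α → H}
    {bn : ℕ → α → H} (ha : MemLp a 2 ν) (hbn : ∀ n, MemLp (bn n) 2 ν) (hb : MemLp b 2 ν)
    (h : Tendsto (fun n => ∫ x, ‖bn n x - b x‖ ^ 2 ∂ν) atTop (𝓝 0)) :
    Tendsto (fun n => ∫ x, ⟪a x, bn n x⟫_𝕜 ∂ν) atTop (𝓝 (∫ x, ⟪a x, b x⟫_𝕜 ∂ν)) := by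
  rw [tendsto_iff_norm_sub_tendsto_zero]
  have h2 : Tendsto (fun n => √(∫ x, ‖a x‖ ^ 2 ∂ν) * √(∫ x, ‖bn n x - b x‖ ^ 2 ∂ν)) atTop (𝓝 0) := by
    simpa using ((Real.continuous_sqrt.tendsto 0).comp h).const_mul (√(∫ x, ‖a x‖ ^ 2 ∂ν))
  refine squeeze_zero (fun n => norm_nonneg _) (fun n => ?_) h2
  rw [← integral_sub (fs_integrable_inner ha (hbn n)) (fs_integrable_inner ha hb)]
  simp only [← inner_sub_right]
  exact fs_norm_integral_inner_le ha ((hbn n).sub hb)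

theorem fs_wd2_C1c {Φ : X → E} (hΦ : ContDiff ℝ 1 Φ) (hs : HasCompactSupport Φ) (v : X) :
    WD2 μ v Φ (fun x => fderiv ℝ Φ x v) :=
  ⟨fs_memLp_C1c hΦ.continuous hs, fs_memLp_d hΦ hs v, (HasWeakDeriv.of_contDiff hΦ v).weak⟩

variable (𝕜) in
include 𝕜 in
theorem exists_wd2_of_tendsto {v : X} {f : X → H} {fn gn : ℕ → X → H} (h : ∀ n, WD2 μ v (fn n) (gn n))
    (hf : MemLp f 2 μ) (hfn : Tendsto (fun n => ∫ x, ‖fn n x - f x‖ ^ 2 ∂μ) atTop (𝓝 0)) {C : ℝ}
    (hC : ∃ᶠ n in atTop, ∫ x, ‖gn n x‖ ^ 2 ∂μ ≤ C) :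
    ∃ g : X → H, WD2 μ v f g ∧ ∫ x, ‖g x‖ ^ 2 ∂μ ≤ C := by
  have hC0 : 0 ≤ C := by
    obtain ⟨n, hn⟩ := hC.exists
    exact (integral_nonneg fun x => sq_nonneg _).trans hn
  refine exists_wd2_of_bounded 𝕜 hf hC0 fun Φ hΦ hs => ?_
  have wΦ : WD2 μ v Φ (fun x => fderiv ℝ Φ x v) := fs_wd2_C1c hΦ hs v
  have t1 := fs_tendsto_integral_inner (𝕜 := 𝕜) wΦ.memg (fun n => (h n).memf) hf hfn
  refine (isClosed_Iic (a := C * ∫ x, ‖Φ x‖ ^ 2 ∂μ)).mem_of_frequently_of_tendsto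
    (hC.mono fun n hn => ?_) (t1.norm.pow 2)
  show ‖∫ x, ⟪fderiv ℝ Φ x v, fn n x⟫_𝕜 ∂μ‖ ^ 2 ≤ C * ∫ x, ‖Φ x‖ ^ 2 ∂μ
  rw [WD2.integral_inner wΦ (h n), norm_neg, mul_comm]
  exact (fs_norm_integral_inner_sq_le wΦ.memf (h n).memg).trans
    (mul_le_mul_of_nonneg_left hn (integral_nonneg fun x => sq_nonneg _))

/-- difference quotients of a `C¹_c` function, tested against `f ∈ L²`. -/
theorem fs_tendsto_diffQuot {v : X} {f : X → H} (hf : MemLp f 2 μ) {Φ : X → H} (hΦ : ContDiff ℝ 1 Φ)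
    (hs : HasCompactSupport Φ) {s : ℕ → ℝ} (hs0 : ∀ n, s n ≠ 0) (hst : Tendsto s atTop (𝓝 0)) :
    Tendsto (fun n => ∫ x, ⟪(s n)⁻¹ • (Φ (x + s n • v) - Φ x), f x⟫_𝕜 ∂μ) atTop
      (𝓝 (∫ x, ⟪fderiv ℝ Φ x v, f x⟫_𝕜 ∂μ)) := by
  obtain ⟨B, hB⟩ := (hs.fderiv (𝕜 := ℝ)).exists_bound_of_continuous (hΦ.continuous_fderiv one_ne_zero)
  have hlip : ∀ x y, ‖Φ y - Φ x‖ ≤ B * ‖y - x‖ := fun x y =>
    Convex.norm_image_sub_le_of_norm_fderiv_le (fun z _ => hΦ.differentiable one_ne_zero z) (fun z _ => hB z)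
      convex_univ (mem_univ x) (mem_univ y)
  set K := Metric.cthickening ‖v‖ (tsupport Φ) with hK
  have hKc : IsCompact K := hs.isCompact.cthickening
  have hout : ∀ t : ℝ, |t| ≤ 1 → ∀ x, x ∉ K → Φ (x + t • v) - Φ x = 0 := by
    intro t ht x hx
    have h1 : Φ x = 0 := by
      by_contra h
      exact hx (Metric.self_subset_cthickening _ (subset_tsupport _ h))
    have h2 : Φ (x + t • v) = 0 := by
      by_contra h
      refine hx (Metric.mem_cthickening_of_dist_le x (x + t • v) _ _ (subset_tsupport _ h) ?_)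
      rw [dist_eq_norm, sub_add_cancel_left, norm_neg, norm_smul, Real.norm_eq_abs]
      exact mul_le_of_le_one_left (norm_nonneg _) ht
    rw [h1, h2, sub_zero]
  have hbi : Integrable (K.indicator fun x => B * ‖v‖ * ‖f x‖) μ := by
    rw [integrable_indicator_iff hKc.measurableSet]
    exact (((hf.locallyIntegrable (by norm_num)).integrableOn_isCompact hKc).norm).const_mul _
  refine tendsto_integral_filter_of_dominated_convergence (K.indicator fun x => B * ‖v‖ * ‖f x‖) ?_ ?_ hbi ?_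
  · refine Eventually.of_forall fun n => ?_
    have hc : Continuous fun x => (s n)⁻¹ • (Φ (x + s n • v) - Φ x) := by
      have := hΦ.continuous
      fun_prop
    exact hc.aestronglyMeasurable.inner hf.1
  · have h1 : ∀ᶠ n in atTop, |s n| ≤ 1 := by
      have := (hst.abs).eventually (ge_mem_nhds (show |(0:ℝ)| < 1 by simp))
      exact this
    filter_upwards [h1] with n hn
    refine Eventually.of_forall fun x => ?_
    by_cases hx : x ∈ K
    · rw [Set.indicator_of_mem hx]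
      refine (norm_inner_le_norm _ _).trans (mul_le_mul_of_nonneg_right ?_ (norm_nonneg _))
      rw [norm_smul, norm_inv, Real.norm_eq_abs]
      have h2 := hlip x (x + s n • v)
      rw [add_sub_cancel_left, norm_smul, Real.norm_eq_abs] at h2
      have h3 : 0 < |s n| := abs_pos.2 (hs0 n)
      rw [inv_mul_le_iff₀ h3]
      calc _ ≤ _ := h2
        _ = _ := by ring
    · rw [Set.indicator_of_notMem hx, hout _ hn x hx]
      simp
  · refine Eventually.of_forall fun x => ?_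
    have hd : HasDerivAt (fun t : ℝ => Φ (x + t • v)) (fderiv ℝ Φ x v) 0 := by
      have h1 : HasFDerivAt Φ (fderiv ℝ Φ x) (x + (0:ℝ) • v) := by
        rw [zero_smul, add_zero]
        exact (hΦ.differentiable one_ne_zero _).hasFDerivAt
      have h2 : HasDerivAt (fun t : ℝ => x + t • v) v 0 := by
        simpa using ((hasDerivAt_id (0:ℝ)).smul_const v).const_add x
      exact h1.comp_hasDerivAt 0 h2
    rw [hasDerivAt_iff_tendsto_slope_zero] at hd
    have h3 : Tendsto s atTop (𝓝[≠] 0) :=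
      tendsto_nhdsWithin_iff.2 ⟨hst, Eventually.of_forall fun n => hs0 n⟩
    have h4 := hd.comp h3
    simp only [zero_add, zero_smul, add_zero, Function.comp_def] at h4
    exact h4.inner tendsto_const_nhds

variable (𝕜) in
include 𝕜 in
theorem exists_wd2_of_diffQuot {v : X} {f : X → H} (hf : MemLp f 2 μ) {C : ℝ} (hC : 0 ≤ C) {t : ℕ → ℝ}
    (ht0 : ∀ n, t n ≠ 0) (ht : Tendsto t atTop (𝓝 0))
    (hb : ∀ n, ∫ x, ‖f (x + t n • v) - f x‖ ^ 2 ∂μ ≤ C * t n ^ 2) :
    ∃ g : X → H, WD2 μ v f g ∧ ∫ x, ‖g x‖ ^ 2 ∂μ ≤ C := by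
  refine exists_wd2_of_bounded 𝕜 hf hC fun Φ hΦ hs => ?_
  have mΦ : MemLp Φ 2 μ := fs_memLp_C1c hΦ.continuous hs
  have t1 := fs_tendsto_diffQuot (𝕜 := 𝕜) (v := v) hf hΦ hs (s := fun n => - t n)
    (fun n => neg_ne_zero.2 (ht0 n)) (by simpa using ht.neg)
  refine le_of_tendsto' (t1.norm.pow 2) fun n => ?_
  have i1 : Integrable (fun x => ⟪Φ (x + -t n • v), f x⟫_𝕜) μ :=
    fs_integrable_inner (fs_memLp_translate mΦ _) hf
  have i2 : Integrable (fun x => ⟪Φ x, f x⟫_𝕜) μ := fs_integrable_inner mΦ hf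
  have i3 : Integrable (fun x => ⟪Φ x, f (x + t n • v)⟫_𝕜) μ :=
    fs_integrable_inner mΦ (fs_memLp_translate hf _)
  have e1 : ∫ x, ⟪Φ (x + -t n • v), f x⟫_𝕜 ∂μ = ∫ x, ⟪Φ x, f (x + t n • v)⟫_𝕜 ∂μ := by
    have := integral_add_right_eq_self (μ := μ) (fun x => ⟪Φ (x + -t n • v), f x⟫_𝕜) (t n • v)
    rw [← this]
    refine integral_congr_ae (Eventually.of_forall fun x => ?_)
    show ⟪Φ (x + t n • v + -t n • v), f (x + t n • v)⟫_𝕜 = _
    rw [neg_smul, add_neg_cancel_right]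
  have e2 : ∫ x, ⟪(-t n)⁻¹ • (Φ (x + -t n • v) - Φ x), f x⟫_𝕜 ∂μ
      = (-t n)⁻¹ • ∫ x, ⟪Φ x, f (x + t n • v) - f x⟫_𝕜 ∂μ := by
    simp only [fs_inner_smul_left, inner_sub_left, inner_sub_right]
    rw [integral_smul, integral_sub i1 i2, integral_sub i3 i2, e1]
  rw [e2, norm_smul, mul_pow, norm_inv, norm_neg, Real.norm_eq_abs, inv_pow, sq_abs]
  have h5 := fs_norm_integral_inner_sq_le (𝕜 := 𝕜) mΦ ((fs_memLp_translate hf (t n • v)).sub hf)
  have h6 : (0:ℝ) < t n ^ 2 := by have := ht0 n; positivity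
  rw [inv_mul_le_iff₀ h6]
  refine h5.trans ?_
  calc _ ≤ (∫ x, ‖Φ x‖ ^ 2 ∂μ) * (C * t n ^ 2) :=
        mul_le_mul_of_nonneg_left (hb n) (integral_nonneg fun x => sq_nonneg _)
    _ = _ := by ring

end W6

/-! ## LEAF FS-W7: the norm of a Hilbert valued function (Kato's inequality, first order part) -/

section W7

/-- the regularised norm. -/
def regN (ε : ℝ) (a : E) : ℝ := √(‖a‖ ^ 2 + ε ^ 2)

theorem regN_pos {ε : ℝ} (hε : 0 < ε) (a : E) : 0 < regN ε a := Real.sqrt_pos.2 (by positivity)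

theorem regN_sq (ε : ℝ) (a : E) : regN ε a ^ 2 = ‖a‖ ^ 2 + ε ^ 2 := Real.sq_sqrt (by positivity)

theorem le_regN {ε : ℝ} (_hε : 0 < ε) (a : E) : ε ≤ regN ε a :=
  Real.le_sqrt_of_sq_le (by nlinarith [sq_nonneg ‖a‖])

theorem norm_le_regN (ε : ℝ) (a : E) : ‖a‖ ≤ regN ε a :=
  Real.le_sqrt_of_sq_le (by nlinarith [sq_nonneg ε])

theorem regN_le {ε : ℝ} (hε : 0 < ε) (a : E) : regN ε a ≤ ‖a‖ + ε :=
  Real.sqrt_le_iff.2 ⟨by positivity, by nlinarith [norm_nonneg a]⟩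

theorem abs_regN_sub_le {ε : ℝ} (hε : 0 < ε) (a b : E) : |regN ε a - regN ε b| ≤ ‖a - b‖ := by
  have hA := regN_pos hε a
  have hB := regN_pos hε b
  have h1 : |regN ε a - regN ε b| * (regN ε a + regN ε b) = |‖a‖ - ‖b‖| * (‖a‖ + ‖b‖) := by
    rw [← abs_of_pos (add_pos hA hB), ← abs_mul,
      ← abs_of_nonneg (add_nonneg (norm_nonneg a) (norm_nonneg b)), ← abs_mul]
    congr 1
    have := regN_sq ε a
    have := regN_sq ε b
    nlinarith
  have h2 : |‖a‖ - ‖b‖| * (‖a‖ + ‖b‖) ≤ ‖a - b‖ * (regN ε a + regN ε b) :=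
    mul_le_mul (abs_norm_sub_norm_le a b) (add_le_add (norm_le_regN ε a) (norm_le_regN ε b))
      (by positivity) (norm_nonneg _)
  rw [← h1] at h2
  exact le_of_mul_le_mul_right h2 (add_pos hA hB)

theorem fs_abs_re_inner_le (a b : H) : |RCLike.re ⟪a, b⟫_𝕜| ≤ ‖a‖ * ‖b‖ :=
  (RCLike.abs_re_le_norm _).trans (norm_inner_le_norm _ _)

variable (𝕜) in
theorem abs_regG_le {ε : ℝ} (hε : 0 < ε) (a a' : H) : |RCLike.re ⟪a, a'⟫_𝕜 / regN ε a| ≤ ‖a'‖ := by
  rw [abs_div, abs_of_pos (regN_pos hε a), div_le_iff₀ (regN_pos hε a)]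
  refine (fs_abs_re_inner_le a a').trans ?_
  rw [mul_comm]
  exact mul_le_mul_of_nonneg_left (norm_le_regN ε a) (norm_nonneg _)

variable (𝕜) in
theorem abs_regG_sub_le {ε : ℝ} (hε : 0 < ε) (a a' b b' : H) :
    |RCLike.re ⟪a, a'⟫_𝕜 / regN ε a - RCLike.re ⟪b, b'⟫_𝕜 / regN ε b|
      ≤ ‖a' - b'‖ + 2 / ε * (‖a - b‖ * ‖b'‖) := by
  have hA := regN_pos hε a
  have hB := regN_pos hε b
  have e : RCLike.re ⟪a, a'⟫_𝕜 / regN ε a - RCLike.re ⟪b, b'⟫_𝕜 / regN ε b
      = RCLike.re ⟪a, a' - b'⟫_𝕜 / regN ε a + RCLike.re ⟪a - b, b'⟫_𝕜 / regN ε a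
        + RCLike.re ⟪b, b'⟫_𝕜 / regN ε b * ((regN ε b - regN ε a) / regN ε a) := by
    rw [inner_sub_right, inner_sub_left, map_sub, map_sub]
    field_simp
    ring
  rw [e]
  have h1 := abs_regG_le 𝕜 hε a (a' - b')
  have h2 : |RCLike.re ⟪a - b, b'⟫_𝕜 / regN ε a| ≤ 1 / ε * (‖a - b‖ * ‖b'‖) := by
    rw [abs_div, abs_of_pos hA, div_eq_inv_mul, one_div]
    exact mul_le_mul (inv_anti₀ hε (le_regN hε a)) (fs_abs_re_inner_le _ _) (abs_nonneg _) (by positivity)
  have h3 : |RCLike.re ⟪b, b'⟫_𝕜 / regN ε b * ((regN ε b - regN ε a) / regN ε a)|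
      ≤ 1 / ε * (‖a - b‖ * ‖b'‖) := by
    rw [abs_mul]
    have h4 : |(regN ε b - regN ε a) / regN ε a| ≤ 1 / ε * ‖a - b‖ := by
      rw [abs_div, abs_of_pos hA, div_eq_inv_mul, one_div, abs_sub_comm]
      exact mul_le_mul (inv_anti₀ hε (le_regN hε a)) (abs_regN_sub_le hε a b) (abs_nonneg _) (by positivity)
    calc _ ≤ ‖b'‖ * (1 / ε * ‖a - b‖) := mul_le_mul (abs_regG_le 𝕜 hε b b') h4 (abs_nonneg _) (norm_nonneg _)
      _ = _ := by ring
  calc _ ≤ _ := abs_add_three _ _ _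
    _ ≤ ‖a' - b'‖ + 1 / ε * (‖a - b‖ * ‖b'‖) + 1 / ε * (‖a - b‖ * ‖b'‖) := by gcongr
    _ = _ := by ring

theorem fs_aesm_regN {f : X → E} (hf : AEStronglyMeasurable f μ) (ε : ℝ) :
    AEStronglyMeasurable (fun x => regN ε (f x)) μ :=
  Real.continuous_sqrt.comp_aestronglyMeasurable ((hf.norm.pow 2).add aestronglyMeasurable_const)

variable (𝕜) in
theorem fs_aesm_div {f f' : X → H} {u : X → ℝ} (hf : AEStronglyMeasurable f μ) (hf' : AEStronglyMeasurable f' μ)
    (hu : AEStronglyMeasurable u μ) : AEStronglyMeasurable (fun x => RCLike.re ⟪f x, f' x⟫_𝕜 / u x) μ :=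
  ((RCLike.continuous_re.comp_aestronglyMeasurable (hf.inner hf')).aemeasurable.div
    hu.aemeasurable).aestronglyMeasurable

theorem fs_li_norm {f : X → E} (hf : LocallyIntegrable f μ) : LocallyIntegrable (fun x => ‖f x‖) μ :=
  hf.mono hf.aestronglyMeasurable.norm (Eventually.of_forall fun _ => (norm_norm _).le)

theorem fs_li_regN {f : X → E} (hf : LocallyIntegrable f μ) {ε : ℝ} (hε : 0 < ε) :
    LocallyIntegrable (fun x => regN ε (f x)) μ := by
  refine ((fs_li_norm hf).add (locallyIntegrable_const ε)).mono (fs_aesm_regN hf.aestronglyMeasurable ε)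
    (Eventually.of_forall fun x => ?_)
  rw [Real.norm_eq_abs, Real.norm_eq_abs, abs_of_pos (regN_pos hε _)]
  exact (regN_le hε _).trans (le_abs_self _)

variable (𝕜) in
theorem fs_li_regG {f f' : X → H} (hf : LocallyIntegrable f μ) (hf' : LocallyIntegrable f' μ) {ε : ℝ}
    (hε : 0 < ε) : LocallyIntegrable (fun x => RCLike.re ⟪f x, f' x⟫_𝕜 / regN ε (f x)) μ := by
  refine hf'.mono (fs_aesm_div 𝕜 hf.aestronglyMeasurable hf'.aestronglyMeasurable
    (fs_aesm_regN hf.aestronglyMeasurable ε)) (Eventually.of_forall fun x => ?_)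
  rw [Real.norm_eq_abs]
  exact abs_regG_le 𝕜 hε _ _

variable (𝕜) in
/-- the classical case. -/
theorem fs_norm_reg_C1 {u : X → H} (hu : ContDiff ℝ 1 u) (v : X) {ε : ℝ} (hε : 0 < ε) :
    WD μ v (fun x => regN ε (u x)) (fun x => RCLike.re ⟪u x, fderiv ℝ u x v⟫_𝕜 / regN ε (u x)) := by
  have hs : ContDiff ℝ 1 fun x => ‖u x‖ ^ 2 := hu.norm_sq 𝕜
  have hs' : ContDiff ℝ 1 fun x => ‖u x‖ ^ 2 + ε ^ 2 := hs.add contDiff_const
  have hne : ∀ x, ‖u x‖ ^ 2 + ε ^ 2 ≠ 0 := fun x => by positivity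
  have hw : ContDiff ℝ 1 fun x => regN ε (u x) := hs'.sqrt hne
  have w0 := HasWeakDeriv.of_contDiff (μ := μ) hu v
  have hc : Continuous fun x => fderiv ℝ u x v := (hu.continuous_fderiv one_ne_zero).clm_apply continuous_const
  have w1 : WD μ v (fun x => ‖u x‖ ^ 2) (fun x => 2 * RCLike.re ⟪u x, fderiv ℝ u x v⟫_𝕜) :=
    WD.norm_sq 𝕜 w0 (fs_l2Loc_of_continuous hu.continuous) (fs_l2Loc_of_continuous hc)
  have w2 := HasWeakDeriv.of_contDiff (μ := μ) hs v
  have hae := w2.unique w1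
  refine (HasWeakDeriv.of_contDiff (μ := μ) hw v).congr_ae (Eventually.of_forall fun x => rfl) ?_
  filter_upwards [hae] with x hx
  have h1 : HasFDerivAt (fun x => ‖u x‖ ^ 2 + ε ^ 2) (fderiv ℝ (fun x => ‖u x‖ ^ 2) x) x :=
    ((hs.differentiable one_ne_zero x).hasFDerivAt).add_const _
  have h2 := h1.sqrt (hne x)
  have h3 : fderiv ℝ (fun x => regN ε (u x)) x = _ := h2.fderiv
  rw [h3]
  show (1 / (2 * regN ε (u x))) * fderiv ℝ (fun x => ‖u x‖ ^ 2) x v = _
  rw [hx]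
  have := regN_pos hε (u x)
  field_simp

variable (𝕜) in
theorem WD.norm_reg {v : X} {f f' : X → H} (hf : WD μ v f f') (h1 : L2Loc μ f) (h2 : L2Loc μ f') {ε : ℝ}
    (hε : 0 < ε) :
    WD μ v (fun x => √(‖f x‖ ^ 2 + ε ^ 2)) (fun x => RCLike.re ⟪f x, f' x⟫_𝕜 / √(‖f x‖ ^ 2 + ε ^ 2)) := by
  set fn : ℕ → X → H := fun n => moll μ (mollSeq μ n) f with hfn
  set fn' : ℕ → X → H := fun n => moll μ (mollSeq μ n) f' with hfn'
  have hs : ∀ n, ContDiff ℝ 1 (fn n) := fun n =>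
    (contDiff_moll (contDiff_mollSeq n) (hasCompactSupport_mollSeq n) hf.locf).of_le (by simp)
  have hder : ∀ n x, fderiv ℝ (fn n) x v = fn' n x := fun n x =>
    fderiv_moll (contDiff_mollSeq n) (hasCompactSupport_mollSeq n) hf.locf hf.weak x
  have hn : ∀ n, WD μ v (fun x => regN ε (fn n x)) (fun x => RCLike.re ⟪fn n x, fn' n x⟫_𝕜 / regN ε (fn n x)) := by
    intro n
    have := fs_norm_reg_C1 (μ := μ) 𝕜 (hs n) v hε
    simpa only [hder] using this
  have lf : ∀ n, L2Loc μ (fn n) := fun n => fs_l2Loc_moll n hf.locf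
  have lf' : ∀ n, L2Loc μ (fn' n) := fun n => fs_l2Loc_moll n hf.locg
  refine WD.of_tendsto hn (fs_li_regN hf.locf hε) (fs_li_regG 𝕜 hf.locf hf.locg hε) (fun K hK => ?_)
    (fun K hK => ?_)
  · refine squeeze_zero (fun n => integral_nonneg fun x => norm_nonneg _) (fun n => ?_)
      (tendsto_moll_L1loc hf.locf hK)
    refine integral_mono_of_nonneg (Eventually.of_forall fun x => norm_nonneg _)
      (((fs_li_moll n hf.locf).sub hf.locf).integrableOn_isCompact hK).norm (Eventually.of_forall fun x => ?_)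
    exact abs_regN_sub_le hε _ _
  · have t1 := tendsto_moll_L1loc hf.locg hK
    have t2 : Tendsto (fun n => 2 / ε * (√(∫ x in K, ‖fn n x - f x‖ ^ 2 ∂μ) * √(∫ x in K, ‖f' x‖ ^ 2 ∂μ)))
        atTop (𝓝 0) := by
      have := ((Real.continuous_sqrt.tendsto 0).comp (tendsto_moll_L2loc h1 hK)).mul_const
        (√(∫ x in K, ‖f' x‖ ^ 2 ∂μ))
      simpa using this.const_mul (2 / ε)
    have t3 := t1.add t2
    rw [add_zero] at t3
    refine squeeze_zero (fun n => integral_nonneg fun x => norm_nonneg _) (fun n => ?_) t3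
    have hd : MemLp (fun x => fn n x - f x) 2 (μ.restrict K) := (lf n K hK).sub (h1 K hK)
    obtain ⟨i1, i2⟩ := fs_cs hd (h2 K hK)
    have i3 : Integrable (fun x => ‖fn' n x - f' x‖) (μ.restrict K) :=
      (((fs_li_moll n hf.locg).sub hf.locg).integrableOn_isCompact hK).norm
    calc ∫ x in K, ‖RCLike.re ⟪fn n x, fn' n x⟫_𝕜 / regN ε (fn n x) - RCLike.re ⟪f x, f' x⟫_𝕜 / regN ε (f x)‖ ∂μ
        ≤ ∫ x in K, (‖fn' n x - f' x‖ + 2 / ε * (‖fn n x - f x‖ * ‖f' x‖)) ∂μ := by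
          refine integral_mono_of_nonneg (Eventually.of_forall fun x => norm_nonneg _)
            (i3.add (i1.const_mul _)) (Eventually.of_forall fun x => ?_)
          exact abs_regG_sub_le 𝕜 hε _ _ _ _
      _ = ∫ x in K, ‖fn' n x - f' x‖ ∂μ + 2 / ε * ∫ x in K, ‖fn n x - f x‖ * ‖f' x‖ ∂μ := by
          rw [integral_add i3 (i1.const_mul _), integral_const_mul]
      _ ≤ _ := by gcongr

variable (𝕜) in
theorem abs_re_inner_div_norm_le (a b : H) : |RCLike.re ⟪a, b⟫_𝕜 / ‖a‖| ≤ ‖b‖ := by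
  rcases eq_or_ne a 0 with rfl | ha
  · simp
  · have h : 0 < ‖a‖ := norm_pos_iff.2 ha
    rw [abs_div, abs_of_pos h, div_le_iff₀ h, mul_comm]
    exact fs_abs_re_inner_le a b

variable (𝕜) in
theorem WD.norm {v : X} {f f' : X → H} (hf : WD μ v f f') (h1 : L2Loc μ f) (h2 : L2Loc μ f') :
    WD μ v (fun x => ‖f x‖) (fun x => RCLike.re ⟪f x, f' x⟫_𝕜 / ‖f x‖) := by
  set ε : ℕ → ℝ := fun n => 1 / ((n : ℝ) + 1) with hε
  have hε0 : ∀ n, 0 < ε n := fun n => by positivity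
  have hεt : Tendsto ε atTop (𝓝 0) := tendsto_one_div_add_atTop_nhds_zero_nat
  have hn : ∀ n, WD μ v (fun x => regN (ε n) (f x)) (fun x => RCLike.re ⟪f x, f' x⟫_𝕜 / regN (ε n) (f x)) :=
    fun n => WD.norm_reg 𝕜 hf h1 h2 (hε0 n)
  have hm : AEStronglyMeasurable (fun x => RCLike.re ⟪f x, f' x⟫_𝕜 / ‖f x‖) μ :=
    fs_aesm_div 𝕜 hf.locf.aestronglyMeasurable hf.locg.aestronglyMeasurable hf.locf.aestronglyMeasurable.norm
  have hli : LocallyIntegrable (fun x => RCLike.re ⟪f x, f' x⟫_𝕜 / ‖f x‖) μ :=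
    hf.locg.mono hm (Eventually.of_forall fun x => by
      rw [Real.norm_eq_abs]; exact abs_re_inner_div_norm_le 𝕜 _ _)
  refine WD.of_tendsto hn (fs_li_norm hf.locf) hli (fun K hK => ?_) (fun K hK => ?_)
  · have t : Tendsto (fun n => ε n * μ.real K) atTop (𝓝 0) := by simpa using hεt.mul_const (μ.real K)
    refine squeeze_zero (fun n => integral_nonneg fun x => norm_nonneg _) (fun n => ?_) t
    have hfin : IsFiniteMeasure (μ.restrict K) :=
      ⟨by rw [Measure.restrict_apply_univ]; exact hK.measure_lt_top⟩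
    calc ∫ x in K, ‖regN (ε n) (f x) - ‖f x‖‖ ∂μ ≤ ∫ _x in K, ε n ∂μ := by
          refine integral_mono_of_nonneg (Eventually.of_forall fun x => norm_nonneg _) (integrable_const _)
            (Eventually.of_forall fun x => ?_)
          show ‖regN (ε n) (f x) - ‖f x‖‖ ≤ ε n
          rw [Real.norm_eq_abs, abs_of_nonneg (sub_nonneg.2 (norm_le_regN _ _))]
          linarith [regN_le (hε0 n) (f x)]
      _ = ε n * μ.real K := by
          rw [integral_const, smul_eq_mul, mul_comm, measureReal_restrict_apply_univ]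
  · have hb : Integrable (fun x => 2 * ‖f' x‖) (μ.restrict K) :=
      ((hf.locg.integrableOn_isCompact hK).norm).const_mul 2
    have := tendsto_integral_of_dominated_convergence (μ := μ.restrict K)
      (F := fun n x => ‖RCLike.re ⟪f x, f' x⟫_𝕜 / regN (ε n) (f x) - RCLike.re ⟪f x, f' x⟫_𝕜 / ‖f x‖‖)
      (f := fun _ => 0) (fun x => 2 * ‖f' x‖) (fun n => ?_) hb (fun n => ?_) ?_
    · simpa using this
    · exact (((fs_aesm_div 𝕜 hf.locf.aestronglyMeasurable hf.locg.aestronglyMeasurable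
        (fs_aesm_regN hf.locf.aestronglyMeasurable (ε n))).sub hm).norm).restrict
    · refine Eventually.of_forall fun x => ?_
      rw [norm_norm, Real.norm_eq_abs]
      refine (abs_sub _ _).trans ?_
      have := abs_regG_le 𝕜 (hε0 n) (f x) (f' x)
      have := abs_re_inner_div_norm_le 𝕜 (f x) (f' x)
      linarith
    · refine Eventually.of_forall fun x => ?_
      rcases eq_or_ne (f x) 0 with h0 | h0
      · simp [h0]
      · have hpos : 0 < ‖f x‖ := norm_pos_iff.2 h0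
        have t1 : Tendsto (fun n => regN (ε n) (f x)) atTop (𝓝 ‖f x‖) := by
          have : Tendsto (fun n => √(‖f x‖ ^ 2 + ε n ^ 2)) atTop (𝓝 (√(‖f x‖ ^ 2 + 0 ^ 2))) :=
            (Real.continuous_sqrt.tendsto _).comp (tendsto_const_nhds.add (hεt.pow 2))
          simpa [Real.sqrt_sq hpos.le, regN] using this
        have t2 := (tendsto_const_nhds (x := RCLike.re ⟪f x, f' x⟫_𝕜)).div t1 hpos.ne'
        have t3 := (t2.sub_const (RCLike.re ⟪f x, f' x⟫_𝕜 / ‖f x‖)).norm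
        simpa using t3

variable (𝕜) in
theorem WD2.norm {v : X} {f f' : X → H} (hf : WD2 μ v f f') :
    WD2 μ v (fun x => ‖f x‖) (fun x => RCLike.re ⟪f x, f' x⟫_𝕜 / ‖f x‖) := by
  refine ⟨hf.memf.norm, ?_, (WD.norm 𝕜 hf.wd (MemLp.l2Loc hf.memf) (MemLp.l2Loc hf.memg)).weak⟩
  refine hf.memg.mono (fs_aesm_div 𝕜 hf.memf.1 hf.memg.1 hf.memf.1.norm) (Eventually.of_forall fun x => ?_)
  rw [Real.norm_eq_abs]
  exact abs_re_inner_div_norm_le 𝕜 _ _

end W7

end Claimed.Open.R278
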