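import Claimed.Open.R278.PoschlTeller

/-!
# The spectral gap of `∑ₖ (-½ ∂ₖ² - 3 sech² yₖ)` on `ℝⁿ`, for `C¹_c` functions
-/

open MeasureTheory Filter Topology Set
open scoped ContDiff InnerProductSpace ENNReal

noncomputable section

set_option linter.unusedSectionVars false

namespace Claimed.Open.R278

variable {E : Type*} [NormedAddCommGroup E] [InnerProductSpace ℂ E] [NormedSpace ℝ E]
  [IsScalarTower ℝ ℂ E] [CompleteSpace E]

/-- The real inner product `Re ⟪u, w⟫` as a continuous real bilinear map. -/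
def reB : E →L[ℝ] E →L[ℝ] ℝ :=
  (ContinuousLinearMap.compL ℝ E ℂ ℝ Complex.reCLM).comp
    (isBoundedBilinearMap_inner (𝕜 := ℂ) (E := E)).toContinuousLinearMap

theorem reB_apply (u w : E) : reB u w = (⟪u, w⟫_ℂ).re := rfl

theorem reB_self (u : E) : reB u u = ‖u‖ ^ 2 := by
  rw [reB_apply]; exact inner_self_eq_norm_sq (𝕜 := ℂ) u

theorem reB_comm (u w : E) : reB u w = reB w u := by
  rw [reB_apply, reB_apply]; exact inner_re_symm (𝕜 := ℂ) u w

theorem abs_reB_le (u w : E) : |reB u w| ≤ ‖u‖ * ‖w‖ := by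
  rw [reB_apply]
  exact (Complex.abs_re_le_norm _).trans (norm_inner_le_norm u w)

theorem norm_add_smul_sq (u w : E) (t : ℝ) :
    ‖u + t • w‖ ^ 2 = ‖u‖ ^ 2 + 2 * t * reB u w + t ^ 2 * ‖w‖ ^ 2 := by
  rw [← reB_self, ← reB_self u, ← reB_self w]
  simp only [map_add, map_smul, _root_.add_apply, _root_.smul_apply,
    smul_eq_mul]
  rw [reB_comm w u]
  ring

/-! ### The product ground state -/

/-- `S(y) = ∏ₖ sech yₖ`. -/
def prodSech {n : ℕ} (y : Fin n → ℝ) : ℝ := ∏ k, sech (y k)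

theorem prodSech_pos {n : ℕ} (y : Fin n → ℝ) : 0 < prodSech y :=
  Finset.prod_pos fun _ _ => sech_pos _

theorem prodSech_le_sech {n : ℕ} (y : Fin n → ℝ) (k : Fin n) : prodSech y ≤ sech (y k) := by
  rw [prodSech, ← Finset.mul_prod_erase _ _ (Finset.mem_univ k)]
  exact mul_le_of_le_one_right (sech_pos _).le
    (Finset.prod_le_one (fun _ _ => (sech_pos _).le) fun _ _ => sech_le_one _)

theorem prodSech_le_one {n : ℕ} (y : Fin n → ℝ) : prodSech y ≤ 1 :=
  Finset.prod_le_one (fun _ _ => (sech_pos _).le) fun _ _ => sech_le_one _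

theorem contDiff_prodSech {n : ℕ} : ContDiff ℝ ∞ (prodSech (n := n)) :=
  contDiff_prod fun k _ => contDiff_sech.comp (contDiff_apply ℝ ℝ k)

theorem continuous_prodSech {n : ℕ} : Continuous (prodSech (n := n)) := contDiff_prodSech.continuous

theorem fderiv_prodSech {n : ℕ} (y : Fin n → ℝ) (k : Fin n) :
    fderiv ℝ prodSech y (Pi.single k 1) = -(Real.tanh (y k) * prodSech y) := by
  classical
  have h : ∀ i ∈ (Finset.univ : Finset (Fin n)), HasFDerivAt (fun y : Fin n → ℝ => sech (y i))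
      ((-(Real.sinh (y i) * sech (y i) ^ 2)) • (ContinuousLinearMap.proj i : (Fin n → ℝ) →L[ℝ] ℝ))
      y := by
    intro i _
    have := (hasDerivAt_sech (y i)).comp_hasFDerivAt y
      (ContinuousLinearMap.proj (R := ℝ) (φ := fun _ : Fin n => ℝ) i).hasFDerivAt
    exact this
  have h2 := HasFDerivAt.finsetProd h
  have h3 : fderiv ℝ prodSech y = _ := h2.fderiv
  rw [h3]
  simp only [_root_.sum_apply, _root_.smul_apply,
    ContinuousLinearMap.proj_apply, smul_eq_mul]
  rw [Finset.sum_eq_single k (fun i _ hik => by simp [hik]) (by simp)]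
  rw [prodSech, ← Finset.mul_prod_erase _ _ (Finset.mem_univ k), Real.tanh_eq_sinh_div_cosh]
  simp only [Pi.single_eq_same, sech]
  field_simp

theorem fderiv_prodSech_sq {n : ℕ} (y : Fin n → ℝ) (k : Fin n) :
    fderiv ℝ (fun y => prodSech y ^ 2) y (Pi.single k 1) =
      -(2 * Real.tanh (y k) * prodSech y ^ 2) := by
  have h := ((contDiff_prodSech.differentiable (by simp) y).hasFDerivAt).pow 2
  have h3 : fderiv ℝ (fun y => prodSech y ^ 2) y = _ := h.fderiv
  rw [h3]
  simp only [_root_.smul_apply, smul_eq_mul, fderiv_prodSech]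
  push_cast
  ring

theorem hasFDerivAt_tanh_coord {n : ℕ} (y : Fin n → ℝ) (k : Fin n) :
    HasFDerivAt (fun y : Fin n → ℝ => Real.tanh (y k))
      ((sech (y k) ^ 2) • (ContinuousLinearMap.proj k : (Fin n → ℝ) →L[ℝ] ℝ)) y := by
  have h1 : HasDerivAt Real.tanh (sech (y k) ^ 2) (y k) := by
    have := (Real.hasDerivAt_sinh (y k)).div (Real.hasDerivAt_cosh (y k)) (Real.cosh_pos _).ne'
    have e : Real.tanh = fun x => Real.sinh x / Real.cosh x := by
      funext x; exact Real.tanh_eq_sinh_div_cosh x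
    rw [e]
    refine this.congr_deriv ?_
    have hc := Real.cosh_sq (y k)
    have hp := (Real.cosh_pos (y k)).ne'
    simp only [sech]
    field_simp
    linarith
  exact h1.comp_hasFDerivAt y (ContinuousLinearMap.proj (R := ℝ) (φ := fun _ : Fin n => ℝ) k).hasFDerivAt

theorem tanh_sq_eq (x : ℝ) : Real.tanh x ^ 2 = 1 - sech x ^ 2 := by
  have hc := Real.cosh_sq x
  have hp := (Real.cosh_pos x).ne'
  rw [Real.tanh_eq_sinh_div_cosh, sech]
  field_simp
  linarith

theorem abs_tanh_le_one (x : ℝ) : |Real.tanh x| ≤ 1 := by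
  have h := tanh_sq_eq x
  have h2 := sq_nonneg (sech x)
  exact abs_le_one_iff_mul_self_le_one.2 (by nlinarith)

theorem continuous_tanh' : Continuous Real.tanh := by
  have e : Real.tanh = fun x => Real.sinh x / Real.cosh x := by
    funext x; exact Real.tanh_eq_sinh_div_cosh x
  rw [e]
  exact Real.continuous_sinh.div Real.continuous_cosh fun x => (Real.cosh_pos x).ne'

theorem hasCompactSupport_of_zero {X M N : Type*} [TopologicalSpace X] [Zero M] [Zero N]
    {F : X → M} {h : X → N} (hc : HasCompactSupport F) (H : ∀ y, F y = 0 → h y = 0) :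
    HasCompactSupport h :=
  hc.mono fun y hy => by
    simp only [Function.mem_support] at hy ⊢
    exact fun h0 => hy (H y h0)

section Flat

variable {n : ℕ} {F : (Fin n → ℝ) → E}

/-- The factorisation identity
`∫ ‖∂ₖF + 2 tanh(yₖ) F‖² = ∫ ‖∂ₖF‖² + ∫ (4 - 6 sech² yₖ) ‖F‖²`. -/
theorem integral_norm_factor_sq (hF : ContDiff ℝ 1 F) (hc : HasCompactSupport F) (k : Fin n) :
    ∫ y, ‖fderiv ℝ F y (Pi.single k 1) + (2 * Real.tanh (y k)) • F y‖ ^ 2 =
      (∫ y, ‖fderiv ℝ F y (Pi.single k 1)‖ ^ 2) + ∫ y, (4 - 6 * sech (y k) ^ 2) * ‖F y‖ ^ 2 := by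
  set v : Fin n → ℝ := Pi.single k 1 with hv
  have cF : Continuous F := hF.continuous
  have cD : Continuous fun y => fderiv ℝ F y v :=
    (hF.continuous_fderiv (by simp)).clm_apply continuous_const
  have sD : HasCompactSupport fun y => fderiv ℝ F y v := hc.fderiv_apply (𝕜 := ℝ) v
  have ct : Continuous fun y : Fin n → ℝ => Real.tanh (y k) :=
    continuous_tanh'.comp (continuous_apply k)
  have cs : Continuous fun y : Fin n → ℝ => sech (y k) := continuous_sech.comp (continuous_apply k)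
  have cB : ∀ {a b : (Fin n → ℝ) → E}, Continuous a → Continuous b →
      Continuous fun y => reB (a y) (b y) := fun ha hb =>
    (reB (E := E)).continuous.comp ha |>.clm_apply hb
  -- the derivative of `tanh(yₖ) F`
  have hdf : ∀ y, fderiv ℝ (fun y => Real.tanh (y k) • F y) y v =
      Real.tanh (y k) • fderiv ℝ F y v + (sech (y k) ^ 2) • F y := by
    intro y
    have h := (hasFDerivAt_tanh_coord y k).smul (hF.differentiable (by simp) y).hasFDerivAt
    have h3 : fderiv ℝ (fun y => Real.tanh (y k) • F y) y = _ := h.fderiv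
    rw [h3]
    simp [hv]
  have ibp := integral_bilinear_fderiv_right_eq_neg_left_of_integrable (μ := volume)
    (f := fun y => Real.tanh (y k) • F y) (g := F) (v := v) (B := reB (E := E))
    (by
      simp only [hdf]
      exact (cB ((ct.smul cD).add ((cs.pow 2).smul cF)) cF).integrable_of_hasCompactSupport
        (hasCompactSupport_of_zero hc fun y h0 => by simp [h0]))
    ((cB (ct.smul cF) cD).integrable_of_hasCompactSupport
      (hasCompactSupport_of_zero hc fun y h0 => by simp [h0]))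
    ((cB (ct.smul cF) cF).integrable_of_hasCompactSupport
      (hasCompactSupport_of_zero hc fun y h0 => by simp [h0]))
    (fun y _ => ((hasFDerivAt_tanh_coord y k).smul
      (hF.differentiable (by simp) y).hasFDerivAt).differentiableAt)
    (fun y _ => hF.differentiable (by simp) y)
  set a : (Fin n → ℝ) → ℝ := fun y => Real.tanh (y k) * reB (fderiv ℝ F y v) (F y) with ha
  set b : (Fin n → ℝ) → ℝ := fun y => sech (y k) ^ 2 * ‖F y‖ ^ 2 with hb
  set N : (Fin n → ℝ) → ℝ := fun y => ‖F y‖ ^ 2 with hN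
  set D : (Fin n → ℝ) → ℝ := fun y => ‖fderiv ℝ F y v‖ ^ 2 with hD
  have ia : Integrable a := (ct.mul (cB cD cF)).integrable_of_hasCompactSupport
    (hasCompactSupport_of_zero hc fun y h0 => by simp [h0])
  have ib : Integrable b := ((cs.pow 2).mul (cF.norm.pow 2)).integrable_of_hasCompactSupport
    (hasCompactSupport_of_zero hc fun y h0 => by simp [h0])
  have iN : Integrable N := (cF.norm.pow 2).integrable_of_hasCompactSupport
    (hasCompactSupport_of_zero hc fun y h0 => by simp [h0])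
  have iD : Integrable D := (cD.norm.pow 2).integrable_of_hasCompactSupport
    (hasCompactSupport_of_zero sD fun y h0 => by simp [h0])
  have e1 : ∫ y, a y = -((∫ y, a y) + ∫ y, b y) := by
    rw [← integral_add ia ib]
    simp only [hdf, map_add, map_smul, _root_.add_apply, _root_.smul_apply, smul_eq_mul,
      reB_self] at ibp
    simp only [reB_comm (F _)] at ibp
    exact ibp
  have e2 : ∀ y, ‖fderiv ℝ F y v + (2 * Real.tanh (y k)) • F y‖ ^ 2 =
      (D y + 4 * a y) + (4 * N y - 4 * b y) := by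
    intro y
    rw [norm_add_smul_sq]
    have := tanh_sq_eq (y k)
    simp only [ha, hb, hN, hD]
    rw [mul_pow, this]
    ring
  have e3 : ∀ y, (4 - 6 * sech (y k) ^ 2) * ‖F y‖ ^ 2 = 4 * N y - 6 * b y := by
    intro y
    simp only [hb, hN]
    ring
  simp only [e2, e3]
  have j1 : Integrable (fun y => D y + 4 * a y) := iD.add (ia.const_mul 4)
  have j2 : Integrable (fun y => 4 * N y - 4 * b y) := (iN.const_mul 4).sub (ib.const_mul 4)
  rw [integral_add j1 j2, integral_add iD (ia.const_mul 4),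
    integral_sub (iN.const_mul 4) (ib.const_mul 4), integral_sub (iN.const_mul 4) (ib.const_mul 6),
    integral_const_mul, integral_const_mul, integral_const_mul, integral_const_mul]
  linarith

/-- The Poincaré inequality in the ground state representation. -/
theorem flat_gap (hF : ContDiff ℝ 1 F) (hc : HasCompactSupport F) :
    (∫ y, ‖F y‖ ^ 2) - (kappa ^ n)⁻¹ * ‖∫ y, prodSech y ^ 2 • F y‖ ^ 2 ≤
      (1 / 3) * ∑ k, ∫ y, ‖fderiv ℝ F y (Pi.single k 1) + (2 * Real.tanh (y k)) • F y‖ ^ 2 := by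
  obtain ⟨ζ, hζ⟩ : ∃ ζ : (Fin n → ℝ) → E, ζ = fun y => (prodSech y ^ 2)⁻¹ • F y := ⟨_, rfl⟩
  have hS2 : ContDiff ℝ 1 fun y : Fin n → ℝ => prodSech y ^ 2 :=
    (contDiff_prodSech.pow 2).of_le (by simp)
  have hpos : ∀ y : Fin n → ℝ, 0 < prodSech y ^ 2 := fun y => pow_pos (prodSech_pos y) 2
  have hne : ∀ y : Fin n → ℝ, prodSech y ^ 2 ≠ 0 := fun y => (hpos y).ne'
  have hζd : ContDiff ℝ 1 ζ := hζ ▸ (hS2.inv hne).smul hF
  have hζc : HasCompactSupport ζ := hζ ▸ hc.smul_left
  have key := vari_pi_ptMeasure_le n hζd hζc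
  have hprod : ∀ y : Fin n → ℝ, ∏ k, sech (y k) ^ 4 = (prodSech y ^ 2) ^ 2 := by
    intro y; rw [prodSech, ← pow_mul, ← Finset.prod_pow]
  have hFz : ∀ y, prodSech y ^ 2 • ζ y = F y := fun y => by
    simp only [hζ]; rw [smul_smul, mul_inv_cancel₀ (hne y), one_smul]
  have hA : ∀ k y, prodSech y ^ 2 • fderiv ℝ ζ y (Pi.single k 1) =
      fderiv ℝ F y (Pi.single k 1) + (2 * Real.tanh (y k)) • F y := by
    intro k y
    have h := (hS2.differentiable (by simp) y).hasFDerivAt.smul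
      (hζd.differentiable (by simp) y).hasFDerivAt
    have h3 : fderiv ℝ (fun y => prodSech y ^ 2 • ζ y) y = _ := h.fderiv
    have h4 : (fun y => prodSech y ^ 2 • ζ y) = F := funext hFz
    rw [h4] at h3
    rw [h3]
    simp only [_root_.add_apply, _root_.smul_apply, ContinuousLinearMap.smulRight_apply,
      fderiv_prodSech_sq]
    rw [← hFz y, smul_smul, neg_smul, add_assoc, neg_add_cancel, add_zero]
  have e1 : ∀ y, (prodSech y ^ 2) ^ 2 • ‖ζ y‖ ^ 2 = ‖F y‖ ^ 2 := fun y => by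
    rw [← hFz y, norm_smul, Real.norm_eq_abs, abs_of_pos (hpos y), mul_pow, smul_eq_mul]
  have e2 : ∀ y, (prodSech y ^ 2) ^ 2 • ζ y = prodSech y ^ 2 • F y := fun y => by
    rw [← hFz y, smul_smul, sq]
  have e3 : ∀ k y, (prodSech y ^ 2) ^ 2 • ‖fderiv ℝ ζ y (Pi.single k 1)‖ ^ 2 =
      ‖fderiv ℝ F y (Pi.single k 1) + (2 * Real.tanh (y k)) • F y‖ ^ 2 := fun k y => by
    rw [← hA k y, norm_smul, Real.norm_eq_abs, abs_of_pos (hpos y), mul_pow, smul_eq_mul]
  simp only [vari, integral_pi_ptMeasure, hprod, e1, e2, e3] at key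
  have hk : 0 < kappa ^ n := pow_pos kappa_pos n
  rw [norm_smul, Real.norm_eq_abs, abs_of_pos (inv_pos.2 hk), ← Finset.smul_sum] at key
  simp only [smul_eq_mul] at key
  have h5 := mul_le_mul_of_nonneg_left key hk.le
  have h6 : kappa ^ n * (kappa ^ n)⁻¹ = 1 := mul_inv_cancel₀ hk.ne'
  calc (∫ y, ‖F y‖ ^ 2) - (kappa ^ n)⁻¹ * ‖∫ y, prodSech y ^ 2 • F y‖ ^ 2
      = (kappa ^ n * (kappa ^ n)⁻¹) * (∫ y, ‖F y‖ ^ 2) -
          (kappa ^ n * (kappa ^ n)⁻¹) * ((kappa ^ n)⁻¹ * ‖∫ y, prodSech y ^ 2 • F y‖ ^ 2) := by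
        rw [h6]; ring
    _ = kappa ^ n * ((kappa ^ n)⁻¹ * (∫ y, ‖F y‖ ^ 2) -
          ((kappa ^ n)⁻¹ * ‖∫ y, prodSech y ^ 2 • F y‖) ^ 2) := by ring
    _ ≤ _ := h5
    _ = (kappa ^ n * (kappa ^ n)⁻¹) * ((1 / 3) * ∑ k, ∫ y, ‖fderiv ℝ F y (Pi.single k 1) +
          (2 * Real.tanh (y k)) • F y‖ ^ 2) := by ring
    _ = _ := by rw [h6, one_mul]

/-- **Spectral gap on `C¹_c`.**  With `h = -½ d²/dx² - 3 sech² x ≥ -2`, the operator `∑ₖ hₖ + 2n`
is bounded below by `3/2` on the orthogonal complement of the product ground state. -/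
theorem flat_lower_bound (hF : ContDiff ℝ 1 F) (hc : HasCompactSupport F) :
    (3 / 2) * ((∫ y, ‖F y‖ ^ 2) - (kappa ^ n)⁻¹ * ‖∫ y, prodSech y ^ 2 • F y‖ ^ 2) ≤
      ∑ k, ((1 / 2) * (∫ y, ‖fderiv ℝ F y (Pi.single k 1)‖ ^ 2) +
        ∫ y, (2 - 3 * sech (y k) ^ 2) * ‖F y‖ ^ 2) := by
  have h := flat_gap hF hc
  simp only [integral_norm_factor_sq hF hc] at h
  have e : ∀ k : Fin n, ∫ y, (4 - 6 * sech (y k) ^ 2) * ‖F y‖ ^ 2 =
      2 * ∫ y, (2 - 3 * sech (y k) ^ 2) * ‖F y‖ ^ 2 := fun k => by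
    rw [← integral_const_mul]
    congr 1; funext y; ring
  simp only [e] at h
  have e' : ∑ k : Fin n, ((1 / 2) * (∫ y, ‖fderiv ℝ F y (Pi.single k 1)‖ ^ 2) +
        ∫ y, (2 - 3 * sech (y k) ^ 2) * ‖F y‖ ^ 2) =
      (1 / 2) * ∑ k : Fin n, ((∫ y, ‖fderiv ℝ F y (Pi.single k 1)‖ ^ 2) +
        2 * ∫ y, (2 - 3 * sech (y k) ^ 2) * ‖F y‖ ^ 2) := by
    rw [Finset.mul_sum]
    refine Finset.sum_congr rfl fun k _ => ?_
    ring
  rw [e']
  linarith

end Flat

end Claimed.Open.R278
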