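import Claimed.Open.R278.Statement

open MeasureTheory
open scoped ContDiff InnerProductSpace ComplexConjugate

noncomputable section

namespace Claimed.Open.R278

variable {m : ℕ}

theorem measurePreserving_comp_perm (π : Equiv.Perm (Fin m)) :
    MeasurePreserving (fun x : (Config m) => x ∘ π) volume volume := by
  have h := volume_measurePreserving_piCongrLeft (fun _ : Fin m => Space) π.symm
  have e : (fun x : (Config m) => x ∘ π) = ⇑(MeasurableEquiv.piCongrLeft (fun _ : Fin m => Space) π.symm) := by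
    funext x i
    simp [MeasurableEquiv.piCongrLeft, Equiv.piCongrLeft, Equiv.piCongrLeft']
  rw [e]; exact h

theorem measurableEmbedding_comp_perm (π : Equiv.Perm (Fin m)) :
    MeasurableEmbedding (fun x : (Config m) => x ∘ π) := by
  have e : (fun x : (Config m) => x ∘ π) = ⇑(MeasurableEquiv.piCongrLeft (fun _ : Fin m => Space) π.symm) := by
    funext x i
    simp [MeasurableEquiv.piCongrLeft, Equiv.piCongrLeft, Equiv.piCongrLeft']
  rw [e]; exact MeasurableEquiv.measurableEmbedding _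

theorem L2.locallyIntegrable (Ψ : (L2 m)) : LocallyIntegrable (Ψ : (Config m) → (SpinSpace m)) volume :=
  (Lp.memLp Ψ).locallyIntegrable (by norm_num)

/-! ### antisymmetric vectors form a subspace -/

theorem IsAntisymmetric.zero : IsAntisymmetric (0 : L2 m) := by
  intro π
  have h0 : ∀ᵐ x : (Config m), (0 : (L2 m)) x = 0 := Lp.coeFn_zero _ _ _
  have h1 := (measurePreserving_comp_perm π).quasiMeasurePreserving.ae h0
  filter_upwards [h0, h1] with x hx hx1 s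
  rw [hx, hx1]; simp

theorem IsAntisymmetric.add {Ψ Φ : (L2 m)} (hΨ : IsAntisymmetric Ψ) (hΦ : IsAntisymmetric Φ) :
    IsAntisymmetric (Ψ + Φ) := by
  intro π
  have h0 : ∀ᵐ x : (Config m), (Ψ + Φ : (L2 m)) x = Ψ x + Φ x := Lp.coeFn_add _ _
  have h1 := (measurePreserving_comp_perm π).quasiMeasurePreserving.ae h0
  filter_upwards [h0, h1, hΨ π, hΦ π] with x hx hx1 h2 h3 s
  simp only [hx, hx1, PiLp.add_apply, h2 s, h3 s]
  ring

theorem IsAntisymmetric.smul {Ψ : (L2 m)} (c : ℂ) (hΨ : IsAntisymmetric Ψ) :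
    IsAntisymmetric (c • Ψ) := by
  intro π
  have h0 : ∀ᵐ x : (Config m), (c • Ψ : (L2 m)) x = c • Ψ x := Lp.coeFn_smul _ _
  have h1 := (measurePreserving_comp_perm π).quasiMeasurePreserving.ae h0
  filter_upwards [h0, h1, hΨ π] with x hx hx1 h2 s
  simp only [hx, hx1, PiLp.smul_apply, h2 s, smul_eq_mul]
  ring

/-! ### `H¹` is a subspace, the weak gradient is linear -/

theorem integrable_smul_L2 {g : (Config m) → ℝ} (hg : Continuous g) (hgc : HasCompactSupport g) (Ψ : (L2 m)) :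
    Integrable (fun x => g x • Ψ x) :=
  (L2.locallyIntegrable Ψ).integrable_smul_left_of_hasCompactSupport hg hgc

theorem continuous_fderiv_dir {φ : (Config m) → ℝ} (hφ : ContDiff ℝ ∞ φ) (v : (Config m)) :
    Continuous (fun x => fderiv ℝ φ x v) :=
  (hφ.continuous_fderiv (by simp)).clm_apply continuous_const

theorem hasCompactSupport_fderiv_dir {φ : (Config m) → ℝ} (hφ : HasCompactSupport φ) (v : (Config m)) :
    HasCompactSupport (fun x => fderiv ℝ φ x v) :=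
  hφ.fderiv_apply (𝕜 := ℝ) v

theorem IsWeakGradient.zero : IsWeakGradient (0 : L2 m) 0 := by
  intro j φ hφ hφc
  have h0 : ∀ᵐ x : (Config m), (0 : (L2 m)) x = 0 := Lp.coeFn_zero _ _ _
  have e1 : ∫ x, (fderiv ℝ φ x (dir j)) • (0 : (L2 m)) x = 0 := by
    rw [integral_congr_ae (g := fun _ => 0)]
    · simp
    · filter_upwards [h0] with x hx; rw [hx]; simp
  have e2 : ∫ x, φ x • ((0 : Fin m × Fin 3 → (L2 m)) j) x = 0 := by
    rw [integral_congr_ae (g := fun _ => 0)]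
    · simp
    · filter_upwards [h0] with x hx; rw [Pi.zero_apply, hx]; simp
  rw [e1, e2]; simp

theorem IsWeakGradient.add {Ψ Φ : (L2 m)} {G G' : Fin m × Fin 3 → (L2 m)}
    (h : IsWeakGradient Ψ G) (h' : IsWeakGradient Φ G') : IsWeakGradient (Ψ + Φ) (G + G') := by
  intro j φ hφ hφc
  have hd := continuous_fderiv_dir hφ (dir j)
  have hdc := hasCompactSupport_fderiv_dir hφc (dir j)
  have e1 : ∫ x, (fderiv ℝ φ x (dir j)) • (Ψ + Φ : (L2 m)) x
      = (∫ x, (fderiv ℝ φ x (dir j)) • Ψ x) + ∫ x, (fderiv ℝ φ x (dir j)) • Φ x := by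
    rw [← integral_add (integrable_smul_L2 hd hdc Ψ) (integrable_smul_L2 hd hdc Φ)]
    apply integral_congr_ae
    filter_upwards [Lp.coeFn_add Ψ Φ] with x hx
    rw [hx, Pi.add_apply, smul_add]
  have e2 : ∫ x, φ x • ((G + G') j : (L2 m)) x = (∫ x, φ x • G j x) + ∫ x, φ x • G' j x := by
    rw [← integral_add (integrable_smul_L2 hφ.continuous hφc _) (integrable_smul_L2 hφ.continuous hφc _)]
    apply integral_congr_ae
    filter_upwards [Lp.coeFn_add (G j) (G' j)] with x hx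
    rw [Pi.add_apply, hx, Pi.add_apply, smul_add]
  rw [e1, e2, h j φ hφ hφc, h' j φ hφ hφc]; abel

theorem IsWeakGradient.smul {Ψ : (L2 m)} {G : Fin m × Fin 3 → (L2 m)} (c : ℂ)
    (h : IsWeakGradient Ψ G) : IsWeakGradient (c • Ψ) (c • G) := by
  intro j φ hφ hφc
  have e1 : ∫ x, (fderiv ℝ φ x (dir j)) • (c • Ψ : (L2 m)) x
      = c • ∫ x, (fderiv ℝ φ x (dir j)) • Ψ x := by
    rw [← integral_smul]
    apply integral_congr_ae
    filter_upwards [Lp.coeFn_smul c Ψ] with x hx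
    rw [hx, Pi.smul_apply, smul_comm]
  have e2 : ∫ x, φ x • ((c • G) j : (L2 m)) x = c • ∫ x, φ x • G j x := by
    rw [← integral_smul]
    apply integral_congr_ae
    filter_upwards [Lp.coeFn_smul c (G j)] with x hx
    rw [Pi.smul_apply, hx, Pi.smul_apply, smul_comm]
  rw [e1, e2, h j φ hφ hφc]; simp


/-- The weak gradient is unique, so `weakGrad` (defined by choice) is canonical. -/
theorem IsWeakGradient.unique {Ψ : (L2 m)} {G G' : Fin m × Fin 3 → (L2 m)}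
    (h : IsWeakGradient Ψ G) (h' : IsWeakGradient Ψ G') : G = G' := by
  funext j
  apply Lp.ext
  apply ae_eq_of_integral_contDiff_smul_eq (L2.locallyIntegrable _) (L2.locallyIntegrable _)
  intro φ hφ hφc
  have h1 := h j φ hφ hφc
  have h2 := h' j φ hφ hφc
  rw [h1] at h2
  exact neg_injective h2

theorem IsWeakGradient.weakGrad_eq {Ψ : (L2 m)} {G : Fin m × Fin 3 → (L2 m)}
    (h : IsWeakGradient Ψ G) : weakGrad Ψ = G := by
  have hm : MemH1 Ψ := ⟨G, h⟩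
  have : weakGrad Ψ = hm.choose := by simp [weakGrad, hm]
  rw [this]
  exact hm.choose_spec.unique h

theorem MemH1.isWeakGradient {Ψ : (L2 m)} (h : MemH1 Ψ) : IsWeakGradient Ψ (weakGrad Ψ) := by
  obtain ⟨G, hG⟩ := h
  rw [hG.weakGrad_eq]; exact hG

theorem MemH1.zero : MemH1 (0 : L2 m) := ⟨0, IsWeakGradient.zero⟩

theorem MemH1.add {Ψ Φ : (L2 m)} (h : MemH1 Ψ) (h' : MemH1 Φ) : MemH1 (Ψ + Φ) :=
  ⟨_, h.isWeakGradient.add h'.isWeakGradient⟩

theorem MemH1.smul {Ψ : (L2 m)} (c : ℂ) (h : MemH1 Ψ) : MemH1 (c • Ψ) :=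
  ⟨_, h.isWeakGradient.smul c⟩

theorem weakGrad_zero : weakGrad (0 : L2 m) = 0 := IsWeakGradient.zero.weakGrad_eq

theorem weakGrad_add {Ψ Φ : (L2 m)} (h : MemH1 Ψ) (h' : MemH1 Φ) :
    weakGrad (Ψ + Φ) = weakGrad Ψ + weakGrad Φ :=
  (h.isWeakGradient.add h'.isWeakGradient).weakGrad_eq

theorem weakGrad_smul {Ψ : (L2 m)} (c : ℂ) (h : MemH1 Ψ) : weakGrad (c • Ψ) = c • weakGrad Ψ :=
  (h.isWeakGradient.smul c).weakGrad_eq

/-! ### The form domain is a subspace and the form is sesquilinear and Hermitian on it -/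

section Form

variable {W : (Config m) → ℝ}

theorem aestronglyMeasurable_coe (Ψ : (L2 m)) : AEStronglyMeasurable (Ψ : (Config m) → (SpinSpace m)) volume :=
  (Lp.memLp Ψ).aestronglyMeasurable

theorem integrable_W_inner (hW : AEStronglyMeasurable W volume) {Ξ Φ : (L2 m)}
    (hΞ : Integrable (fun x => W x * ‖Ξ x‖ ^ 2)) (hΦ : Integrable (fun x => W x * ‖Φ x‖ ^ 2)) :
    Integrable (fun x => (W x : ℂ) * ⟪Ξ x, Φ x⟫_ℂ) := by
  refine Integrable.mono' (g := fun x => ‖W x * ‖Ξ x‖ ^ 2‖ + ‖W x * ‖Φ x‖ ^ 2‖)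
    (hΞ.norm.add hΦ.norm) ?_ ?_
  · exact (Complex.measurable_ofReal.comp_aemeasurable hW.aemeasurable).aestronglyMeasurable.mul
      ((aestronglyMeasurable_coe Ξ).inner (aestronglyMeasurable_coe Φ))
  · refine Filter.Eventually.of_forall fun x => ?_
    have h1 : ‖⟪Ξ x, Φ x⟫_ℂ‖ ≤ ‖Ξ x‖ * ‖Φ x‖ := norm_inner_le_norm _ _
    have h2 : ‖Ξ x‖ * ‖Φ x‖ ≤ ‖Ξ x‖ ^ 2 + ‖Φ x‖ ^ 2 := by nlinarith [sq_nonneg (‖Ξ x‖ - ‖Φ x‖), sq_nonneg (‖Ξ x‖ + ‖Φ x‖)]
    calc ‖(W x : ℂ) * ⟪Ξ x, Φ x⟫_ℂ‖ = |W x| * ‖⟪Ξ x, Φ x⟫_ℂ‖ := by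
          rw [norm_mul, Complex.norm_real, Real.norm_eq_abs]
      _ ≤ |W x| * (‖Ξ x‖ ^ 2 + ‖Φ x‖ ^ 2) := by
          exact mul_le_mul_of_nonneg_left (h1.trans h2) (abs_nonneg _)
      _ = ‖W x * ‖Ξ x‖ ^ 2‖ + ‖W x * ‖Φ x‖ ^ 2‖ := by
          rw [Real.norm_eq_abs, Real.norm_eq_abs, abs_mul, abs_mul, abs_of_nonneg (sq_nonneg ‖Ξ x‖),
            abs_of_nonneg (sq_nonneg ‖Φ x‖)]; ring

theorem zero_mem_formDomain : (0 : (L2 m)) ∈ FormDomain W := by
  refine ⟨IsAntisymmetric.zero, MemH1.zero, ?_⟩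
  have h0 : ∀ᵐ x : (Config m), (0 : (L2 m)) x = 0 := Lp.coeFn_zero _ _ _
  refine (integrable_zero _ _ _).congr ?_
  filter_upwards [h0] with x hx
  rw [hx]; simp

theorem add_mem_formDomain (hW : AEStronglyMeasurable W volume) {Ψ Φ : (L2 m)}
    (hΨ : Ψ ∈ FormDomain W) (hΦ : Φ ∈ FormDomain W) : Ψ + Φ ∈ FormDomain W := by
  refine ⟨hΨ.1.add hΦ.1, hΨ.2.1.add hΦ.2.1, ?_⟩
  refine Integrable.mono' (g := fun x => 2 * ‖W x * ‖Ψ x‖ ^ 2‖ + 2 * ‖W x * ‖Φ x‖ ^ 2‖)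
    ((hΨ.2.2.norm.const_mul 2).add (hΦ.2.2.norm.const_mul 2)) ?_ ?_
  · exact hW.mul ((aestronglyMeasurable_coe _).norm.pow 2)
  · filter_upwards [Lp.coeFn_add Ψ Φ] with x hx
    rw [hx, Pi.add_apply]
    have h1 : ‖Ψ x + Φ x‖ ≤ ‖Ψ x‖ + ‖Φ x‖ := norm_add_le _ _
    have h2 : ‖Ψ x + Φ x‖ ^ 2 ≤ 2 * ‖Ψ x‖ ^ 2 + 2 * ‖Φ x‖ ^ 2 := by
      nlinarith [sq_nonneg (‖Ψ x‖ - ‖Φ x‖), norm_nonneg (Ψ x + Φ x), norm_nonneg (Ψ x), norm_nonneg (Φ x)]
    calc ‖W x * ‖Ψ x + Φ x‖ ^ 2‖ = |W x| * ‖Ψ x + Φ x‖ ^ 2 := by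
          rw [Real.norm_eq_abs, abs_mul, abs_of_nonneg (sq_nonneg ‖Ψ x + Φ x‖)]
      _ ≤ |W x| * (2 * ‖Ψ x‖ ^ 2 + 2 * ‖Φ x‖ ^ 2) := mul_le_mul_of_nonneg_left h2 (abs_nonneg _)
      _ = 2 * ‖W x * ‖Ψ x‖ ^ 2‖ + 2 * ‖W x * ‖Φ x‖ ^ 2‖ := by
          rw [Real.norm_eq_abs, Real.norm_eq_abs, abs_mul, abs_mul, abs_of_nonneg (sq_nonneg ‖Ψ x‖),
            abs_of_nonneg (sq_nonneg ‖Φ x‖)]; ring

theorem smul_mem_formDomain (c : ℂ) {Ψ : (L2 m)} (hΨ : Ψ ∈ FormDomain W) : c • Ψ ∈ FormDomain W := by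
  refine ⟨hΨ.1.smul c, hΨ.2.1.smul c, ?_⟩
  refine (hΨ.2.2.const_mul (‖c‖ ^ 2)).congr ?_
  filter_upwards [Lp.coeFn_smul c Ψ] with x hx
  rw [hx, Pi.smul_apply, norm_smul]; ring

/-- The form domain as a complex subspace of `L2 m`. -/
def formSubmodule (W : (Config m) → ℝ) (hW : AEStronglyMeasurable W volume) : Submodule ℂ (L2 m) where
  carrier := FormDomain W
  add_mem' := add_mem_formDomain hW
  zero_mem' := zero_mem_formDomain
  smul_mem' := fun c _ h => smul_mem_formDomain c h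

theorem sesqForm_add_right (hW : AEStronglyMeasurable W volume) {Ξ Φ₁ Φ₂ : (L2 m)}
    (hΞ : Ξ ∈ FormDomain W) (h₁ : Φ₁ ∈ FormDomain W) (h₂ : Φ₂ ∈ FormDomain W) :
    sesqForm W Ξ (Φ₁ + Φ₂) = sesqForm W Ξ Φ₁ + sesqForm W Ξ Φ₂ := by
  have e : ∫ x, (W x : ℂ) * ⟪Ξ x, (Φ₁ + Φ₂ : (L2 m)) x⟫_ℂ
      = (∫ x, (W x : ℂ) * ⟪Ξ x, Φ₁ x⟫_ℂ) + ∫ x, (W x : ℂ) * ⟪Ξ x, Φ₂ x⟫_ℂ := by
    rw [← integral_add (integrable_W_inner hW hΞ.2.2 h₁.2.2) (integrable_W_inner hW hΞ.2.2 h₂.2.2)]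
    apply integral_congr_ae
    filter_upwards [Lp.coeFn_add Φ₁ Φ₂] with x hx
    rw [hx, Pi.add_apply, inner_add_right, mul_add]
  simp only [sesqForm, e, weakGrad_add h₁.2.1 h₂.2.1, Pi.add_apply, inner_add_right,
    Finset.sum_add_distrib]
  ring

theorem sesqForm_smul_right (c : ℂ) {Ξ Φ : (L2 m)} (hΦ : Φ ∈ FormDomain W) :
    sesqForm W Ξ (c • Φ) = c * sesqForm W Ξ Φ := by
  have e : ∫ x, (W x : ℂ) * ⟪Ξ x, (c • Φ : (L2 m)) x⟫_ℂ = c * ∫ x, (W x : ℂ) * ⟪Ξ x, Φ x⟫_ℂ := by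
    rw [← integral_const_mul]
    apply integral_congr_ae
    filter_upwards [Lp.coeFn_smul c Φ] with x hx
    rw [hx, Pi.smul_apply, inner_smul_right]; ring
  simp only [sesqForm, e, weakGrad_smul c hΦ.2.1, Pi.smul_apply, inner_smul_right,
    ← Finset.mul_sum]
  ring

theorem sesqForm_conj_symm (Ξ Φ : (L2 m)) : sesqForm W Φ Ξ = conj (sesqForm W Ξ Φ) := by
  have e : ∫ x, (W x : ℂ) * ⟪Φ x, Ξ x⟫_ℂ = conj (∫ x, (W x : ℂ) * ⟪Ξ x, Φ x⟫_ℂ) := by
    rw [← integral_conj]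
    apply integral_congr_ae
    refine Filter.Eventually.of_forall fun x => ?_
    simp only [map_mul, Complex.conj_ofReal, inner_conj_symm]
  have h2 : conj (1 / 2 : ℂ) = 1 / 2 := by
    rw [show (1 / 2 : ℂ) = ((1 / 2 : ℝ) : ℂ) by norm_num, Complex.conj_ofReal]
  simp only [sesqForm, e, map_add, map_mul, map_sum, inner_conj_symm, h2]

theorem sesqForm_add_left (hW : AEStronglyMeasurable W volume) {Ξ₁ Ξ₂ Φ : (L2 m)}
    (h₁ : Ξ₁ ∈ FormDomain W) (h₂ : Ξ₂ ∈ FormDomain W) (hΦ : Φ ∈ FormDomain W) :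
    sesqForm W (Ξ₁ + Ξ₂) Φ = sesqForm W Ξ₁ Φ + sesqForm W Ξ₂ Φ := by
  rw [sesqForm_conj_symm Φ (Ξ₁ + Ξ₂), sesqForm_add_right hW hΦ h₁ h₂, map_add,
    ← sesqForm_conj_symm, ← sesqForm_conj_symm]

theorem sesqForm_smul_left (c : ℂ) {Ξ Φ : (L2 m)} (hΞ : Ξ ∈ FormDomain W) :
    sesqForm W (c • Ξ) Φ = conj c * sesqForm W Ξ Φ := by
  rw [sesqForm_conj_symm Φ (c • Ξ), sesqForm_smul_right c hΞ, map_mul, ← sesqForm_conj_symm]

theorem energy_smul (c : ℂ) {Φ : (L2 m)} (hΦ : Φ ∈ FormDomain W) :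
    energy W (c • Φ) = ‖c‖ ^ 2 * energy W Φ := by
  unfold energy
  rw [sesqForm_smul_right c hΦ, sesqForm_smul_left c hΦ, ← mul_assoc, Complex.mul_conj,
    Complex.normSq_eq_norm_sq, Complex.re_ofReal_mul]

/-- The form is bounded below by its infimum on normalized vectors. -/
theorem IsSpectrumBottom.le_energy {E : ℝ} (hE : IsSpectrumBottom W E) {Φ : (L2 m)}
    (hΦ : Φ ∈ FormDomain W) : E * ‖Φ‖ ^ 2 ≤ energy W Φ := by
  by_cases h0 : Φ = 0
  · have : energy W Φ = 0 := by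
      have := energy_smul (W := W) 0 hΦ
      rw [zero_smul] at this
      rw [h0, this]; simp
    rw [this, h0]; simp
  · have hn : 0 < ‖Φ‖ := norm_pos_iff.mpr h0
    have h1 : ‖((‖Φ‖⁻¹ : ℝ) : ℂ) • Φ‖ = 1 := by
      rw [norm_smul, Complex.norm_real, Real.norm_eq_abs, abs_of_pos (inv_pos.mpr hn)]
      field_simp
    have h2 := hE.1 ⟨_, ⟨smul_mem_formDomain ((‖Φ‖⁻¹ : ℝ) : ℂ) hΦ, h1⟩, rfl⟩
    rw [energy_smul _ hΦ, Complex.norm_real, Real.norm_eq_abs, abs_of_pos (inv_pos.mpr hn)] at h2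
    have h3 : E * ‖Φ‖ ^ 2 ≤ (‖Φ‖⁻¹ ^ 2 * energy W Φ) * ‖Φ‖ ^ 2 :=
      mul_le_mul_of_nonneg_right h2 (sq_nonneg _)
    have h4 : (‖Φ‖⁻¹ ^ 2 * energy W Φ) * ‖Φ‖ ^ 2 = energy W Φ := by field_simp
    linarith

end Form

/-- A positive semidefinite Hermitian form vanishes against its null vectors (Cauchy–Schwarz). -/
theorem sesq_eq_zero_of_self_eq_zero {V : Type*} [AddCommGroup V] [Module ℂ V] (a : V → V → ℂ)
    (add_right : ∀ x y z, a x (y + z) = a x y + a x z)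
    (smul_right : ∀ (c : ℂ) x y, a x (c • y) = c * a x y)
    (conj_symm : ∀ x y, a y x = conj (a x y))
    (nonneg : ∀ x, 0 ≤ (a x x).re) {x : V} (hx : (a x x).re = 0) (y : V) : a y x = 0 := by
  have add_left : ∀ x y z, a (x + y) z = a x z + a y z := by
    intro x y z
    rw [conj_symm z (x + y), add_right, map_add, ← conj_symm, ← conj_symm]
  have smul_left : ∀ (c : ℂ) x y, a (c • x) y = conj c * a x y := by
    intro c x y
    rw [conj_symm y (c • x), smul_right, map_mul, ← conj_symm]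
  set z := a y x with hz
  set c := (a y y).re with hc
  have hc0 : 0 ≤ c := nonneg y
  set s : ℝ := 1 / (c + 1) with hs
  have hs0 : 0 < s := by positivity
  have hsc : s * c ≤ 1 := by
    rw [hs, div_mul_eq_mul_div, one_mul]; exact (div_le_one (by positivity)).mpr (by linarith)
  set l : ℂ := -(s : ℂ) * z with hl
  have key : a (x + l • y) (x + l • y) = a x x + l * conj z + conj l * z + conj l * l * a y y := by
    rw [add_right, add_left, add_left, smul_right, smul_right, smul_left, smul_left,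
      conj_symm y x]
    ring
  have h1 : (l * conj z).re = -s * ‖z‖ ^ 2 := by
    rw [hl, mul_assoc, Complex.mul_conj, Complex.normSq_eq_norm_sq]
    norm_cast
  have h2 : (conj l * z).re = -s * ‖z‖ ^ 2 := by
    rw [hl, map_mul, map_neg, Complex.conj_ofReal, mul_assoc, mul_comm (conj z), Complex.mul_conj,
      Complex.normSq_eq_norm_sq]
    norm_cast
  have h3 : (conj l * l * a y y).re = s ^ 2 * ‖z‖ ^ 2 * c := by
    rw [mul_comm (conj l), Complex.mul_conj, Complex.normSq_eq_norm_sq, Complex.re_ofReal_mul, hl,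
      norm_mul, norm_neg, Complex.norm_real, Real.norm_eq_abs, abs_of_pos hs0]
    ring
  have h4 := nonneg (x + l • y)
  rw [key, Complex.add_re, Complex.add_re, Complex.add_re, hx, h1, h2, h3] at h4
  have h5 : s * ‖z‖ ^ 2 ≤ 0 := by
    have : s ^ 2 * ‖z‖ ^ 2 * c = (s * c) * (s * ‖z‖ ^ 2) := by ring
    have h6 : (s * c) * (s * ‖z‖ ^ 2) ≤ 1 * (s * ‖z‖ ^ 2) :=
      mul_le_mul_of_nonneg_right hsc (by positivity)
    nlinarith
  have h7 : ‖z‖ ^ 2 ≤ 0 := by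
    by_contra h
    have := mul_pos hs0 (not_le.mp h)
    linarith
  have h8 : ‖z‖ = 0 := by
    have := sq_nonneg ‖z‖
    exact pow_eq_zero_iff (two_ne_zero) |>.mp (le_antisymm h7 this)
  exact norm_eq_zero.mp h8

section Variational

variable {W : (Config m) → ℝ}

/-- **Variational characterisation of the ground eigenspace.**  At the bottom `E` of the spectrum the
weak eigenvalue equation is equivalent to `q_W[Φ] = E ‖Φ‖²`. -/
theorem mem_eigenspace_iff_energy (hW : AEStronglyMeasurable W volume) {E : ℝ}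
    (hE : IsSpectrumBottom W E) {Φ : (L2 m)} :
    Φ ∈ Eigenspace W E ↔ Φ ∈ FormDomain W ∧ energy W Φ = E * ‖Φ‖ ^ 2 := by
  constructor
  · rintro ⟨hΦ, h⟩
    refine ⟨hΦ, ?_⟩
    have := h Φ hΦ
    unfold energy
    rw [this, inner_self_eq_norm_sq_to_K, Complex.re_ofReal_mul]
    norm_cast
  · rintro ⟨hΦ, h⟩
    refine ⟨hΦ, fun Ξ hΞ => ?_⟩
    let V := formSubmodule W hW
    let a : V → V → ℂ := fun x y => sesqForm W x y - (E : ℂ) * ⟪(x : (L2 m)), (y : (L2 m))⟫_ℂ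
    have hself : ∀ x : V, (a x x).re = energy W x - E * ‖(x : (L2 m))‖ ^ 2 := by
      intro x
      simp only [a, Complex.sub_re, energy]
      rw [inner_self_eq_norm_sq_to_K, Complex.re_ofReal_mul]
      norm_cast
    have := sesq_eq_zero_of_self_eq_zero a
      (fun x y z => by
        simp only [a, Submodule.coe_add, sesqForm_add_right hW x.2 y.2 z.2, inner_add_right]; ring)
      (fun c x y => by
        simp only [a, Submodule.coe_smul, sesqForm_smul_right c y.2, inner_smul_right]; ring)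
      (fun x y => by
        simp only [a, map_sub, map_mul, Complex.conj_ofReal, inner_conj_symm,
          ← sesqForm_conj_symm])
      (fun x => by rw [hself]; have := hE.le_energy x.2; linarith)
      (x := ⟨Φ, hΦ⟩) (by rw [hself]; simp [h]) ⟨Ξ, hΞ⟩
    simp only [a] at this
    exact sub_eq_zero.mp this

/-- **Ground states are exactly the normalized energy minimisers** over the form domain. -/
theorem isGroundState_iff_minimizer (hW : AEStronglyMeasurable W volume) {Ψ : (L2 m)} :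
    IsGroundState W Ψ ↔ Ψ ∈ FormDomain W ∧ ‖Ψ‖ = 1 ∧
      ∀ Φ ∈ FormDomain W, ‖Φ‖ = 1 → energy W Ψ ≤ energy W Φ := by
  constructor
  · rintro ⟨h1, E, hE, hΨ⟩
    obtain ⟨hd, he⟩ := (mem_eigenspace_iff_energy hW hE).1 hΨ
    refine ⟨hd, h1, fun Φ hΦ hΦ1 => ?_⟩
    have := hE.le_energy hΦ
    rw [he, h1]; rw [hΦ1] at this; exact this
  · rintro ⟨hd, h1, hmin⟩
    have hE : IsSpectrumBottom W (energy W Ψ) := by
      apply IsLeast.isGLB
      refine ⟨⟨Ψ, ⟨hd, h1⟩, rfl⟩, ?_⟩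
      rintro _ ⟨Φ, ⟨hΦ, hΦ1⟩, rfl⟩
      exact hmin Φ hΦ hΦ1
    exact ⟨h1, _, hE, (mem_eigenspace_iff_energy hW hE).2 ⟨hd, by rw [h1]; simp⟩⟩

/-- Eigenspaces are subspaces. -/
theorem zero_mem_eigenspace (E : ℝ) : (0 : (L2 m)) ∈ Eigenspace W E := by
  refine ⟨zero_mem_formDomain, fun Ξ _ => ?_⟩
  have := sesqForm_smul_right (W := W) (Ξ := Ξ) 0 (zero_mem_formDomain (W := W))
  rw [zero_smul, zero_mul] at this
  rw [this]; simp

theorem add_mem_eigenspace (hW : AEStronglyMeasurable W volume) {E : ℝ} {Φ₁ Φ₂ : (L2 m)}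
    (h₁ : Φ₁ ∈ Eigenspace W E) (h₂ : Φ₂ ∈ Eigenspace W E) : Φ₁ + Φ₂ ∈ Eigenspace W E := by
  refine ⟨add_mem_formDomain hW h₁.1 h₂.1, fun Ξ hΞ => ?_⟩
  rw [sesqForm_add_right hW hΞ h₁.1 h₂.1, h₁.2 Ξ hΞ, h₂.2 Ξ hΞ, inner_add_right]; ring

theorem smul_mem_eigenspace (c : ℂ) {E : ℝ} {Φ : (L2 m)} (h : Φ ∈ Eigenspace W E) :
    c • Φ ∈ Eigenspace W E := by
  refine ⟨smul_mem_formDomain c h.1, fun Ξ hΞ => ?_⟩
  rw [sesqForm_smul_right c h.1, h.2 Ξ hΞ, inner_smul_right]; ring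

end Variational

end Claimed.Open.R278
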