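import Claimed.Open.R278.GPSub
import Claimed.Open.R278.ACRec

/-!
# Package GP, leaves GP-K1, GP-K2, GP-K3: weak comparison in the strip region, (4.19) and the flux bound (4.20)

GP-K1 (`gp_weak_comparison`, abstract).  Suppose `v(x₁) < 0`, `s(x₁) > 0`, `x₁ ∈ O`; fix `ε > 0` with `v(x₁) < -2ε`.  `u = (-v-ε)₊` has weak gradient `-1_{v<-ε} ∇v` (`IsWeakGrad.posPart`/`comp_lipschitz`; `v ∈ C¹`).
`χ_j = acCut j` (ACRec.lean: radial cutoff, `|∇χ_j| ≤ C/(j+1)`).  `K = closure O ∩ {v ≤ -ε} ∩ tsupport χ_j` is compact and `K ⊆ O` (by `hbd`).  Take `κ ∈ C^∞_c`, `0 ≤ κ ≤ 1`, `κ = 1` near `K`, `tsupport κ ⊆ O`.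
`φ = κ χ_j² u` is a `GpTest`, `≥ 0`, supported in `O`, zero where `v ≥ 0`; on `O` it equals `χ_j² u` and `Φ = χ_j² ∇u + 2 χ_j u ∇χ_j` a.e. (`u χ_j² ∇κ = 0`), outside `O` both vanish.  Then
`∫ n s φ ≤ ∫_O n (-χ_j² 1_{v<-ε} |∇v|² + 2 χ_j u ⟪∇v,∇χ_j⟫) ≤ ∫_O n u² |∇χ_j|² ≤ B² C² (j+1)⁻² ∫ n → 0`,
while `∫ n s φ ≥ ∫_{ball x₁ r} n s ε > 0` for all large `j` (`s, n > 0`, `u ≥ ε` near `x₁`): contradiction.

GP-K2 (`gp_super`): `v = (2/π) δ - 𝒲`.  `∫ n ⟪∇v,Φ⟫ = -(2/π) ∫ n ⟪∇θ,Φ⟫ - ∫ n ⟪∇𝒲,Φ⟫`; `DriftEq.test`: `∫ n ⟪∇θ,Φ⟫ = d ∫ n sin 2θ φ`; on `{φ ≠ 0} ⊆ O ∩ {v < 0}`: `sin 2θ = sin 2δ ≤ 2δ` (`δ ≥ 0` on `Ω₊`) and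
`(2/π) δ < 𝒲`, so `(2/π) d sin 2θ ≤ 2 d 𝒲 ≤ 0.002 𝒲`; `gp_sub_weak`.

GP-K3 (`gp_compare`, `gp_flux_bound`).  Boundary of `gpO M`: `closure (gpO M) ⊆ {M ≤ p, 0 ≤ z ≤ L}`; a point of the closure outside `gpO M` has `p = M` (`GPData.inner`), or `z = 0` (`δ = π/2`, `𝒲 = 1`), or `z = L` (`𝒲 = 0 ≤ δ`).
`|v| ≤ 3` on `O`.  `s = 0.015 𝒲 > 0` on `O`.  `gp_flux_bound`: `t ↦ v (x + t e_z) ≥ 0` on `[0,L]`, `= 0` at `t = 0`, differentiable: derivative `≥ 0`; `gpW_fderiv_ez`.
-/

open MeasureTheory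
open scoped ContDiff InnerProductSpace ENNReal Topology

noncomputable section

namespace Claimed.Open.R278

/-! ### GP-K1 -/

theorem gpk_gradient_congr {f g : Space → ℝ} {x : Space} (h : f =ᶠ[𝓝 x] g) : gradient f x = gradient g x := by
  unfold gradient
  rw [h.fderiv_eq]

theorem gpk_gradient_eq_zero {f : Space → ℝ} {x : Space} (h : f =ᶠ[𝓝 x] fun _ => 0) : gradient f x = 0 := by
  rw [gpk_gradient_congr h]
  unfold gradient
  simp

theorem gpk_gradient_comp {φ : ℝ → ℝ} {φ' : ℝ} {τ : Space → ℝ} {x : Space} (hφ : HasDerivAt φ φ' (τ x))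
    (hτ : DifferentiableAt ℝ τ x) : gradient (fun y => φ (τ y)) x = φ' • gradient τ x := by
  have h1 := hτ.hasGradientAt
  rw [hasGradientAt_iff_hasFDerivAt] at h1
  have h2 := hφ.comp_hasFDerivAt x h1
  refine HasGradientAt.gradient ?_
  rw [hasGradientAt_iff_hasFDerivAt, map_smul]
  exact h2

theorem gpk_pointwise (a t : ℝ) (V W : Space) :
    ⟪V, (a ^ 2) • (-V - 0) + t • ((2 * a) • W)⟫_ℝ ≤ t ^ 2 * ‖W‖ ^ 2 := by
  have h := norm_sub_sq_real (a • V) (t • W)
  have h0 : 0 ≤ ‖a • V - t • W‖ ^ 2 := sq_nonneg _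
  simp only [norm_smul, real_inner_smul_left, real_inner_smul_right, mul_pow, Real.norm_eq_abs, sq_abs] at h
  simp only [sub_zero, inner_add_right, real_inner_smul_right, inner_neg_right, real_inner_self_eq_norm_sq]
  nlinarith

theorem gp_weak_comparison {n v s : Space → ℝ} {O : Set Space} (hO : IsOpen O) (hnc : Continuous n)
    (hnpos : ∀ x, 0 < n x) (hnint : Integrable n) (hv : ContDiff ℝ 1 v) {B : ℝ} (hvB : ∀ x ∈ O, |v x| ≤ B)
    (hs : Continuous s) (hs0 : ∀ x ∈ O, 0 ≤ s x) (hbd : ∀ x ∈ closure O, x ∉ O → 0 ≤ v x)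
    (hsup : ∀ (φ : Space → ℝ) (Φ : Space → Space), GpTest φ Φ → tsupport φ ⊆ O → (∀ x, 0 ≤ φ x) →
      (∀ x, 0 ≤ v x → φ x = 0) → (∫ x, n x * s x * φ x) ≤ ∫ x, n x * ⟪gradient v x, Φ x⟫_ℝ) :
    ∀ x ∈ O, 0 < s x → 0 ≤ v x := by
  intro x₁ hx₁ hs₁
  by_contra hv₁
  rw [not_le] at hv₁
  obtain ⟨ε, hε⟩ : ∃ ε : ℝ, ε = -v x₁ / 3 := ⟨_, rfl⟩
  have hε0 : 0 < ε := by rw [hε]; linarith
  have hvx₁ : v x₁ < -2 * ε := by rw [hε]; linarith
  have hB0 : 0 ≤ B := (abs_nonneg _).trans (hvB x₁ hx₁)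
  have hgc : Continuous (gradient v) := continuous_gradient hv
  -- the truncation
  obtain ⟨u, hu⟩ : ∃ u : Space → ℝ, u = fun x => max (-v x - ε) 0 := ⟨_, rfl⟩
  obtain ⟨U, hU⟩ : ∃ U : Space → Space, U = fun x => if 0 < -v x - ε then -gradient v x - 0 else 0 := ⟨_, rfl⟩
  have huU : IsWeakGrad u U := by
    rw [hu, hU]
    exact ((isWeakGrad_gradient hv).neg.sub (isWeakGrad_const ε)).posPart
  have huc : Continuous u := by
    rw [hu]
    exact ((hv.continuous.neg).sub continuous_const).max continuous_const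
  have hu0 : ∀ x, 0 ≤ u x := fun x => by rw [hu]; exact le_max_right _ _
  have huB : ∀ x ∈ O, u x ≤ B := fun x hx => by
    rw [hu]
    refine max_le ?_ hB0
    have := (abs_le.1 (hvB x hx)).1
    linarith
  have hUl2 : AnL2loc U := fun R =>
    (anL2loc_of_continuous hgc R).mono huU.2.1.aestronglyMeasurable.restrict
      (Filter.Eventually.of_forall fun x => by
        rw [hU]
        by_cases h : 0 < -v x - ε
        · simp [h]
        · simp [h])
  -- a neighbourhood of `x₁`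
  have hnhd : ∀ᶠ x in 𝓝 x₁, x ∈ O ∧ v x < -2 * ε ∧ s x₁ / 2 < s x :=
    (hO.eventually_mem hx₁).and ((hv.continuous.continuousAt.eventually_lt continuousAt_const hvx₁).and
      (continuousAt_const.eventually_lt hs.continuousAt (by linarith)))
  obtain ⟨ρ, hρ, hball⟩ := Metric.eventually_nhds_iff_ball.1 hnhd
  -- the lower bound
  let β : ContDiffBump x₁ := ⟨ρ / 2, ρ, by positivity, by linarith⟩
  obtain ⟨g, hg⟩ : ∃ g : Space → ℝ, g = fun x => n x * (s x₁ / 2) * (ε * β x) := ⟨_, rfl⟩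
  have hgc' : Continuous g := by
    rw [hg]
    exact (hnc.mul continuous_const).mul (continuous_const.mul β.continuous)
  have hgs : HasCompactSupport g := by
    rw [hg]
    exact (β.hasCompactSupport.mul_left (f := fun _ => ε)).mul_left
  have hg0 : ∀ x, 0 ≤ g x := fun x => by
    rw [hg]
    have := hnpos x
    have := β.nonneg (x := x)
    positivity
  have hgpos : 0 < ∫ x, g x := by
    refine hgc'.integral_pos_of_hasCompactSupport_nonneg_nonzero hgs hg0 (x := x₁) ?_
    rw [hg]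
    have h1 : β x₁ = 1 := β.one_of_mem_closedBall (Metric.mem_closedBall_self (by positivity))
    have := hnpos x₁
    simp only [h1]
    positivity
  obtain ⟨C, hC⟩ := acCut_grad_le
  have hnI : 0 ≤ ∫ x, n x := integral_nonneg fun x => (hnpos x).le
  -- main estimate for every `j`
  have main : ∀ j : ℕ, ‖x₁‖ + ρ ≤ (j : ℝ) + 1 →
      (∫ x, g x) ≤ (B ^ 2 * (C / ((j : ℝ) + 1)) ^ 2) * ∫ x, n x := by
    intro j hj
    obtain ⟨χ, hχ⟩ : ∃ χ : Space → ℝ, χ = acCut j := ⟨_, rfl⟩
    have hχs : ContDiff ℝ ∞ χ := hχ ▸ acCut_contDiff j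
    have hχc : HasCompactSupport χ := hχ ▸ acCut_hasCompactSupport j
    have hK : IsCompact (closure O ∩ {x | v x ≤ -ε} ∩ tsupport χ) :=
      hχc.isCompact.inter_left (isClosed_closure.inter (isClosed_le hv.continuous continuous_const))
    have hKO : closure O ∩ {x | v x ≤ -ε} ∩ tsupport χ ⊆ O := by
      rintro x ⟨⟨h1, h2⟩, -⟩
      by_contra h3
      have := hbd x h1 h3
      have h2' : v x ≤ -ε := h2
      linarith
    obtain ⟨κ, hκs, hκc, hκO, hκ1, hκ01⟩ := gp_exists_cutoff hK hO hKO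
    obtain ⟨ψ, hψ⟩ : ∃ ψ : Space → ℝ, ψ = fun x => κ x * χ x ^ 2 := ⟨_, rfl⟩
    have hψs : ContDiff ℝ ∞ ψ := by rw [hψ]; exact hκs.mul (hχs.pow 2)
    have hψ1 : ContDiff ℝ 1 ψ := hψs.of_le (by simp)
    have hψsupp : tsupport ψ ⊆ tsupport κ := by rw [hψ]; exact tsupport_mul_subset_left
    have hψc : HasCompactSupport ψ := by rw [hψ]; exact hκc.mul_right
    have hw := huU.mul_contDiff hψ1
    have hT : GpTest (fun x => ψ x * u x) (fun x => ψ x • U x + u x • gradient ψ x) := by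
      refine ⟨hw, hψs.continuous.mul huc, hψc.mul_right, fun R => ?_⟩
      exact (hUl2.smul_continuous hψs.continuous R).add
        (anL2loc_of_continuous (huc.smul (continuous_gradient hψ1)) R)
    have hsuppφ : tsupport (fun x => ψ x * u x) ⊆ O :=
      (tsupport_mul_subset_left.trans hψsupp).trans hκO
    have hψ0 : ∀ x, 0 ≤ ψ x := fun x => by rw [hψ]; exact mul_nonneg (hκ01 x).1 (sq_nonneg _)
    have hφ0 : ∀ x, 0 ≤ ψ x * u x := fun x => mul_nonneg (hψ0 x) (hu0 x)
    have hφv : ∀ x, 0 ≤ v x → ψ x * u x = 0 := fun x hx => by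
      have : u x = 0 := by rw [hu]; exact max_eq_right (by linarith)
      rw [this, mul_zero]
    have key := hsup _ _ hT hsuppφ hφ0 hφv
    -- value of `κ` on `K`
    have hκK : ∀ x ∈ closure O ∩ {x | v x ≤ -ε} ∩ tsupport χ, ∀ᶠ y in 𝓝 x, κ y = 1 := fun x hx =>
      hκ1.filter_mono (nhds_le_nhdsSet hx)
    -- upper bound
    have hup : ∀ x, n x * ⟪gradient v x, ψ x • U x + u x • gradient ψ x⟫_ℝ
        ≤ (B ^ 2 * (C / ((j : ℝ) + 1)) ^ 2) * n x := by
      intro x
      have hR : 0 ≤ (B ^ 2 * (C / ((j : ℝ) + 1)) ^ 2) * n x := by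
        have := hnpos x; positivity
      have hzero : ψ x • U x + u x • gradient ψ x = 0 →
          n x * ⟪gradient v x, ψ x • U x + u x • gradient ψ x⟫_ℝ
            ≤ (B ^ 2 * (C / ((j : ℝ) + 1)) ^ 2) * n x := fun h => by
        rw [h, inner_zero_right, mul_zero]; exact hR
      by_cases hxψ : x ∈ tsupport ψ
      · have hxO : x ∈ O := hκO (hψsupp hxψ)
        by_cases hux : 0 < -v x - ε
        · have hxχ : x ∈ tsupport χ := by
            have : tsupport ψ ⊆ tsupport χ := by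
              rw [hψ]
              refine tsupport_mul_subset_right.trans ?_
              exact closure_mono fun y hy => fun h0 => hy (by simp [h0])
            exact this hxψ
          have hxK : x ∈ closure O ∩ {x | v x ≤ -ε} ∩ tsupport χ :=
            ⟨⟨subset_closure hxO, by show v x ≤ -ε; linarith⟩, hxχ⟩
          have hev : ψ =ᶠ[𝓝 x] fun y => χ y ^ 2 := by
            filter_upwards [hκK x hxK] with y hy
            rw [hψ]; simp only [hy, one_mul]
          have e1 : ψ x = χ x ^ 2 := hev.eq_of_nhds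
          have e2 : gradient ψ x = (2 * χ x) • gradient χ x := by
            rw [gpk_gradient_congr hev]
            have hd : HasDerivAt (fun t : ℝ => t ^ 2) (2 * χ x) (χ x) := by
              simpa using hasDerivAt_pow 2 (χ x)
            exact gpk_gradient_comp hd ((hχs.differentiable (by simp)) x)
          have e3 : U x = -gradient v x - 0 := by rw [hU]; simp only [if_pos hux]
          rw [e1, e2, e3]
          have h1 := gpk_pointwise (χ x) (u x) (gradient v x) (gradient χ x)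
          have h2 : u x ^ 2 * ‖gradient χ x‖ ^ 2 ≤ B ^ 2 * (C / ((j : ℝ) + 1)) ^ 2 := by
            have h3 : ‖gradient χ x‖ ≤ C / ((j : ℝ) + 1) := hχ ▸ hC j x
            exact mul_le_mul (pow_le_pow_left₀ (hu0 x) (huB x hxO) 2)
              (pow_le_pow_left₀ (norm_nonneg _) h3 2) (sq_nonneg _) (sq_nonneg _)
          calc n x * _ ≤ n x * (B ^ 2 * (C / ((j : ℝ) + 1)) ^ 2) :=
                mul_le_mul_of_nonneg_left (h1.trans h2) (hnpos x).le
            _ = _ := mul_comm _ _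
        · refine hzero ?_
          have e3 : U x = 0 := by rw [hU]; simp only [if_neg hux]
          have e4 : u x = 0 := by rw [hu]; exact max_eq_right (not_lt.1 hux)
          rw [e3, e4, smul_zero, zero_smul, add_zero]
      · refine hzero ?_
        have hev : ψ =ᶠ[𝓝 x] fun _ => 0 := notMem_tsupport_iff_eventuallyEq.1 hxψ
        rw [gpk_gradient_eq_zero hev, hev.eq_of_nhds, zero_smul, smul_zero, add_zero]
    have hupI : (∫ x, n x * ⟪gradient v x, ψ x • U x + u x • gradient ψ x⟫_ℝ)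
        ≤ (B ^ 2 * (C / ((j : ℝ) + 1)) ^ 2) * ∫ x, n x := by
      rw [← integral_const_mul]
      by_cases hi : Integrable fun x => n x * ⟪gradient v x, ψ x • U x + u x • gradient ψ x⟫_ℝ
      · exact integral_mono hi (hnint.const_mul _) hup
      · rw [integral_undef hi]
        exact integral_nonneg fun x => by have := hnpos x; positivity
    -- lower bound
    have hlow : ∀ x, g x ≤ n x * s x * (ψ x * u x) := by
      intro x
      by_cases hxb : x ∈ Metric.ball x₁ ρ
      · obtain ⟨hxO, hvx, hsx⟩ := hball x hxb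
        have hnx : ‖x‖ ≤ (j : ℝ) + 1 := by
          have h1 : ‖x‖ ≤ ‖x₁‖ + ‖x - x₁‖ := by
            have := norm_add_le x₁ (x - x₁)
            simpa using this
          rw [Metric.mem_ball, dist_eq_norm] at hxb
          linarith
        have hχ1 : χ x = 1 := by rw [hχ]; exact acCut_eq_one hnx
        have hxK : x ∈ closure O ∩ {x | v x ≤ -ε} ∩ tsupport χ :=
          ⟨⟨subset_closure hxO, by show v x ≤ -ε; linarith⟩, subset_tsupport _ (by simp [hχ1])⟩
        have hκx : κ x = 1 := (hκK x hxK).self_of_nhds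
        have hψx : ψ x = 1 := by rw [hψ]; simp [hκx, hχ1]
        have hux : ε ≤ u x := by
          rw [hu]; exact le_max_of_le_left (by linarith)
        rw [hg, hψx, one_mul]
        have hβ : ε * β x ≤ u x := by
          calc ε * β x ≤ ε * 1 := mul_le_mul_of_nonneg_left β.le_one hε0.le
            _ ≤ u x := by rw [mul_one]; exact hux
        have hβ0 : 0 ≤ ε * β x := mul_nonneg hε0.le β.nonneg
        exact mul_le_mul (mul_le_mul_of_nonneg_left hsx.le (hnpos x).le) hβ hβ0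
          (mul_nonneg (hnpos x).le (by linarith))
      · have hβ : β x = 0 := β.zero_of_le_dist (by
          rw [Metric.mem_ball, not_lt] at hxb; exact hxb)
        have e : g x = 0 := by rw [hg]; simp [hβ]
        rw [e]
        by_cases hxO : x ∈ O
        · exact mul_nonneg (mul_nonneg (hnpos x).le (hs0 x hxO)) (hφ0 x)
        · have : ψ x * u x = 0 := by
            by_contra hne
            exact hxO (hsuppφ (subset_tsupport _ hne))
          rw [this, mul_zero]
    have hlowI : (∫ x, g x) ≤ ∫ x, n x * s x * (ψ x * u x) := by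
      refine integral_mono (hgc'.integrable_of_hasCompactSupport hgs) ?_ hlow
      exact ((hnc.mul hs).mul (hψs.continuous.mul huc)).integrable_of_hasCompactSupport
        (hψc.mul_right.mul_left)
    exact (hlowI.trans key).trans hupI
  -- choice of `j`
  obtain ⟨j, hj⟩ := exists_nat_gt (max (‖x₁‖ + ρ) ((B ^ 2 * C ^ 2 * ∫ x, n x) / (∫ x, g x) + 1))
  have hj1 : ‖x₁‖ + ρ ≤ (j : ℝ) + 1 := by
    have := (le_max_left _ _).trans hj.le
    linarith
  have hj2 : (B ^ 2 * C ^ 2 * ∫ x, n x) / (∫ x, g x) + 1 < (j : ℝ) := (le_max_right _ _).trans_lt hj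
  have hm := main j hj1
  have hA0 : 0 ≤ B ^ 2 * C ^ 2 * ∫ x, n x := by positivity
  have hj0 : (1 : ℝ) ≤ (j : ℝ) + 1 := by
    have : (0 : ℝ) ≤ j := Nat.cast_nonneg j
    linarith
  have h3 : (B ^ 2 * C ^ 2 * ∫ x, n x) < (∫ x, g x) * ((j : ℝ) + 1) := by
    have : (B ^ 2 * C ^ 2 * ∫ x, n x) / (∫ x, g x) < (j : ℝ) + 1 := by linarith
    rw [div_lt_iff₀ hgpos] at this
    linarith
  have h4 : (∫ x, g x) * ((j : ℝ) + 1) ^ 2 ≤ B ^ 2 * C ^ 2 * ∫ x, n x := by
    have e : (B ^ 2 * (C / ((j : ℝ) + 1)) ^ 2) * ∫ x, n x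
        = (B ^ 2 * C ^ 2 * ∫ x, n x) / ((j : ℝ) + 1) ^ 2 := by
      field_simp
    rw [e, le_div_iff₀ (by positivity)] at hm
    exact hm
  have h5 : (∫ x, g x) * ((j : ℝ) + 1) ≤ (∫ x, g x) * ((j : ℝ) + 1) ^ 2 :=
    mul_le_mul_of_nonneg_left (by nlinarith) hgpos.le
  linarith

/-! ### GP-K2 -/

variable {b e : Space → ℝ} {εb εe : ℝ} {M : ℕ} {n θ : Space → ℝ} {k d : ℝ}

theorem GPData.M_ge (D : GPData b e εb εe M n θ k d) : (100 : ℝ) ≤ M := by
  have h := D.hM
  have : (10 : ℝ) ≤ bigD := by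
    unfold bigD
    calc (10 : ℝ) = 10 ^ 1 := by norm_num
      _ ≤ 10 ^ 200 := pow_le_pow_right₀ (by norm_num) (by norm_num)
  linarith

theorem GPData.M_pos (D : GPData b e εb εe M n θ k d) : (0 : ℝ) < M := by
  have := D.M_ge; linarith

theorem gpk_integrable {φ : Space → ℝ} {Φ : Space → Space} (h : GpTest φ Φ) {A : Space → Space}
    (hA : Continuous A) : Integrable (fun x => ⟪A x, Φ x⟫_ℝ) := by
  obtain ⟨R, hR⟩ := h.supp.isCompact.isBounded.subset_ball (0 : Space)
  have h1 : MemLp ((Metric.ball (0 : Space) R).indicator A) 2 volume :=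
    (memLp_indicator_iff_restrict measurableSet_ball).2 (anL2loc_of_continuous hA R)
  have h2 : MemLp Φ 2 volume := tk2_grad_memLp h.wg.ws h.l2 h.supp
  have h3 := MeasureTheory.L2.integrable_inner (𝕜 := ℝ) (h1.toLp _) (h2.toLp _)
  refine h3.congr ?_
  filter_upwards [h.wg.ae_eq_zero_of_level 0, h1.coeFn_toLp, h2.coeFn_toLp] with x hx e1 e2
  rw [e1, e2]
  by_cases hxB : x ∈ Metric.ball (0 : Space) R
  · rw [Set.indicator_of_mem hxB]
  · rw [Set.indicator_of_notMem hxB, hx (image_eq_zero_of_notMem_tsupport fun h => hxB (hR h))]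
    simp

theorem gpk_gradient_v {θ W : Space → ℝ} (hθ : ContDiff ℝ 1 θ) (hW : ContDiff ℝ 1 W) (c : ℝ) (x : Space) :
    gradient (fun y => c * gpDel θ y - W y) x = -(c • gradient θ x) - gradient W x := by
  have h1 : HasFDerivAt θ (fderiv ℝ θ x) x := ((hθ.differentiable one_ne_zero) x).hasFDerivAt
  have h2 : HasFDerivAt W (fderiv ℝ W x) x := ((hW.differentiable one_ne_zero) x).hasFDerivAt
  have h3 : HasFDerivAt (fun y => c * gpDel θ y - W y) (c • (-fderiv ℝ θ x) - fderiv ℝ W x) x :=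
    ((h1.const_sub (Real.pi / 2)).const_mul c).sub h2
  unfold gradient
  rw [h3.fderiv, map_sub, map_smul, map_neg, smul_neg]

theorem gp_super (D : GPData b e εb εe M n θ k d) {φ : Space → ℝ} {Φ : Space → Space} (h : GpTest φ Φ)
    (hs : tsupport φ ⊆ gpO M) (h0 : ∀ x, 0 ≤ φ x)
    (hv : ∀ x, 0 ≤ 2 / Real.pi * gpDel θ x - gpW n k M x → φ x = 0) :
    (∫ x, n x * (0.015 * gpW n k M x) * φ x)
      ≤ ∫ x, n x * ⟪gradient (fun y => 2 / Real.pi * gpDel θ y - gpW n k M y) x, Φ x⟫_ℝ := by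
  have hθ1 : ContDiff ℝ 1 θ := D.hθ.1
  have hW2 : ContDiff ℝ 2 (gpW n k M) := gpW_contDiff D.hn D.M_pos D.hds
  have hW1 : ContDiff ℝ 1 (gpW n k M) := hW2.of_le (by norm_num)
  have hnc := D.hn.continuous
  have i1 : Integrable (fun x => n x * ⟪gradient θ x, Φ x⟫_ℝ) := by
    have := gpk_integrable h (A := fun x => n x • gradient θ x) (hnc.smul (continuous_gradient hθ1))
    simpa only [real_inner_smul_left] using this
  have i2 : Integrable (fun x => n x * ⟪gradient (gpW n k M) x, Φ x⟫_ℝ) := by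
    have := gpk_integrable h (A := fun x => n x • gradient (gpW n k M) x) (hnc.smul (continuous_gradient hW1))
    simpa only [real_inner_smul_left] using this
  have e0 : (∫ x, n x * ⟪gradient (fun y => 2 / Real.pi * gpDel θ y - gpW n k M y) x, Φ x⟫_ℝ)
      = -(2 / Real.pi * ∫ x, n x * ⟪gradient θ x, Φ x⟫_ℝ) - ∫ x, n x * ⟪gradient (gpW n k M) x, Φ x⟫_ℝ := by
    have i3 : Integrable (fun x => -(2 / Real.pi * (n x * ⟪gradient θ x, Φ x⟫_ℝ))) := (i1.const_mul _).neg
    rw [← integral_const_mul, ← integral_neg, ← integral_sub i3 i2]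
    refine integral_congr_ae (Filter.Eventually.of_forall fun x => ?_)
    simp only [gpk_gradient_v hθ1 hW1, inner_sub_left, inner_neg_left, real_inner_smul_left]
    ring
  have E1 := DriftEq.test hnc (D.hθ.driftEq D.hn D.hd) (F := |d|)
    (Filter.Eventually.of_forall fun x => by
      rw [abs_mul]
      exact mul_le_of_le_one_right (abs_nonneg _) (Real.abs_sin_le_one _))
    h.wg.ws (anL2loc_of_continuous h.cont) h.l2 h.supp
  have E2 := gp_sub_weak D.hn D.M_ge D.hk D.hk' D.hds h hs h0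
  have j1 : Integrable (fun x => n x * gpW n k M x * φ x) :=
    ((hnc.mul hW1.continuous).mul h.cont).integrable_of_hasCompactSupport h.supp.mul_left
  have j2 : Integrable (fun x => n x * (d * Real.sin (2 * θ x)) * φ x) :=
    ((hnc.mul (continuous_const.mul (Real.continuous_sin.comp (continuous_const.mul hθ1.continuous)))).mul
      h.cont).integrable_of_hasCompactSupport h.supp.mul_left
  have hpi := Real.pi_pos
  have E3 : (2 / Real.pi * ∫ x, n x * (d * Real.sin (2 * θ x)) * φ x)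
      ≤ 0.002 * ∫ x, n x * gpW n k M x * φ x := by
    rw [← integral_const_mul, ← integral_const_mul]
    refine integral_mono (j2.const_mul _) (j1.const_mul _) fun x => ?_
    show 2 / Real.pi * (n x * (d * Real.sin (2 * θ x)) * φ x) ≤ 0.002 * (n x * gpW n k M x * φ x)
    by_cases hφ : φ x = 0
    · rw [hφ]; simp
    · have hxO : x ∈ gpO M := hs (subset_tsupport _ hφ)
      have hvx : 2 / Real.pi * gpDel θ x - gpW n k M x < 0 := by
        by_contra hc
        exact hφ (hv x (not_lt.1 hc))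
      have hδ0 : 0 ≤ gpDel θ x := by
        have := (D.hθ.2.2.1 x hxO.2.1).2
        unfold gpDel; linarith
      have hsin : Real.sin (2 * θ x) ≤ 2 * gpDel θ x := by
        have e : 2 * θ x = Real.pi - 2 * gpDel θ x := by unfold gpDel; ring
        rw [e, Real.sin_pi_sub]
        exact Real.sin_le (by linarith)
      have hnφ : 0 ≤ n x * φ x := mul_nonneg (D.hn.pos x).le (h0 x)
      have hd0 := D.d_pos
      have hd1 := D.d_lt
      have hc0 : 0 ≤ 2 / Real.pi := by positivity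
      have h5 : 2 / Real.pi * (d * Real.sin (2 * θ x)) ≤ 0.002 * gpW n k M x := by
        have h6 : 2 / Real.pi * (d * Real.sin (2 * θ x)) ≤ 2 / Real.pi * (d * (2 * gpDel θ x)) :=
          mul_le_mul_of_nonneg_left (mul_le_mul_of_nonneg_left hsin hd0.le) hc0
        have h7 : 0 ≤ 2 / Real.pi * gpDel θ x := mul_nonneg hc0 hδ0
        have h8 : 2 / Real.pi * (d * (2 * gpDel θ x)) = 2 * d * (2 / Real.pi * gpDel θ x) := by ring
        have h9 : 2 * d * (2 / Real.pi * gpDel θ x) ≤ 0.002 * (2 / Real.pi * gpDel θ x) :=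
          mul_le_mul_of_nonneg_right (by linarith) h7
        linarith
      calc 2 / Real.pi * (n x * (d * Real.sin (2 * θ x)) * φ x)
          = (2 / Real.pi * (d * Real.sin (2 * θ x))) * (n x * φ x) := by ring
        _ ≤ (0.002 * gpW n k M x) * (n x * φ x) := mul_le_mul_of_nonneg_right h5 hnφ
        _ = _ := by ring
  have e4 : (∫ x, n x * (0.015 * gpW n k M x) * φ x) = 0.015 * ∫ x, n x * gpW n k M x * φ x := by
    rw [← integral_const_mul]
    refine integral_congr_ae (Filter.Eventually.of_forall fun x => ?_)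
    show n x * (0.015 * gpW n k M x) * φ x = 0.015 * (n x * gpW n k M x * φ x)
    ring
  rw [e0, e4, E1]
  linarith

/-! ### GP-K3 -/

theorem gpk_boundary (D : GPData b e εb εe M n θ k d) {x : Space} (hp : (M : ℝ) ≤ hrad x) (h0 : 0 ≤ x 2)
    (hL : x 2 ≤ stripL) (hx : x ∉ gpO M) : gpW n k M x ≤ 2 / Real.pi * gpDel θ x := by
  have hpi := Real.pi_pos
  rcases hp.eq_or_lt with hp | hp
  · exact D.inner x hp.symm h0 hL
  rcases h0.eq_or_lt with h0 | h0
  · rw [gpW_plane D.hn D.M_pos D.hds h0.symm, gpDel, D.hθ.eq_zero_of_plane h0.symm]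
    apply le_of_eq
    rw [sub_zero]
    field_simp
  rcases hL.eq_or_lt with hL | hL
  · rw [gpW_top hL]
    have := (D.hθ.2.2.1 x h0).2
    have h1 : 0 ≤ gpDel θ x := by unfold gpDel; linarith
    positivity
  · exact absurd ⟨hp, h0, hL⟩ hx

theorem gpk_contDiff_v (D : GPData b e εb εe M n θ k d) :
    ContDiff ℝ 1 (fun y => 2 / Real.pi * gpDel θ y - gpW n k M y) := by
  have hW1 : ContDiff ℝ 1 (gpW n k M) := (gpW_contDiff D.hn D.M_pos D.hds).of_le (by norm_num)
  unfold gpDel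
  exact (contDiff_const.mul (contDiff_const.sub D.hθ.1)).sub hW1

/-- (4.19). -/
theorem gp_compare (D : GPData b e εb εe M n θ k d) {x : Space} (hp : (M : ℝ) ≤ hrad x) (h0 : 0 ≤ x 2)
    (hL : x 2 ≤ stripL) : gpW n k M x ≤ 2 / Real.pi * gpDel θ x := by
  by_cases hx : x ∈ gpO M
  · have hpi := Real.pi_pos
    have hW1 : ContDiff ℝ 1 (gpW n k M) := (gpW_contDiff D.hn D.M_pos D.hds).of_le (by norm_num)
    have hcl : closure (gpO (M : ℝ)) ⊆ {y : Space | (M : ℝ) ≤ hrad y ∧ 0 ≤ y 2 ∧ y 2 ≤ stripL} := by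
      have hc2 : Continuous fun y : Space => y 2 := by fun_prop
      refine closure_minimal (fun y hy => ⟨hy.1.le, hy.2.1.le, hy.2.2.le⟩) ?_
      exact (isClosed_le continuous_const hrad_continuous).inter
        ((isClosed_le continuous_const hc2).inter (isClosed_le hc2 continuous_const))
    have key := gp_weak_comparison (n := n) (v := fun y => 2 / Real.pi * gpDel θ y - gpW n k M y)
      (s := fun y => 0.015 * gpW n k M y) (gpO_isOpen (M : ℝ)) D.hn.continuous D.hn.pos D.hn.integrable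
      (gpk_contDiff_v D) (B := 1)
      (fun y hy => by
        have h1 := D.hθ.2.2.1 y hy.2.1
        have h2 := gpW_pos D.hn D.M_pos D.hds hy.2.2
        have h3 := gpW_le_one D.hn D.M_pos D.hds hy.2.1.le hy.2.2.le
        have h4 : 0 ≤ 2 / Real.pi * gpDel θ y := by
          have : 0 ≤ gpDel θ y := by unfold gpDel; linarith
          positivity
        have h5 : 2 / Real.pi * gpDel θ y ≤ 1 := by
          have h6 : gpDel θ y ≤ Real.pi / 2 := by unfold gpDel; linarith
          calc 2 / Real.pi * gpDel θ y ≤ 2 / Real.pi * (Real.pi / 2) :=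
                mul_le_mul_of_nonneg_left h6 (by positivity)
            _ = 1 := by field_simp
        rw [abs_le]
        constructor <;> linarith)
      (continuous_const.mul hW1.continuous)
      (fun y hy => by
        have h2 := gpW_pos D.hn D.M_pos D.hds hy.2.2
        positivity)
      (fun y hy hyO => by
        obtain ⟨a1, a2, a3⟩ := hcl hy
        have := gpk_boundary D a1 a2 a3 hyO
        linarith)
      (fun φ Φ h1 h2 h3 h4 => gp_super D h1 h2 h3 h4)
      x hx (by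
        have h2 := gpW_pos D.hn D.M_pos D.hds hx.2.2
        positivity)
    linarith
  · exact gpk_boundary D hp h0 hL hx

/-- (4.20): the flux bound on the plane. -/
theorem gp_flux_bound (D : GPData b e εb εe M n θ k d) {x : Space} (hp : (M : ℝ) ≤ hrad x) (h0 : x 2 = 0) :
    fderiv ℝ θ x ez ≤ -(Real.pi / 2) * deriv (stW (gpM n k M) (hrad x)) 0 := by
  have hpi := Real.pi_pos
  have hW1 : ContDiff ℝ 1 (gpW n k M) := (gpW_contDiff D.hn D.M_pos D.hds).of_le (by norm_num)
  have h1 : HasFDerivAt θ (fderiv ℝ θ x) x := ((D.hθ.1.differentiable one_ne_zero) x).hasFDerivAt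
  have h2 : HasFDerivAt (gpW n k M) (fderiv ℝ (gpW n k M) x) x := ((hW1.differentiable one_ne_zero) x).hasFDerivAt
  have h3 : HasFDerivAt (fun y => 2 / Real.pi * gpDel θ y - gpW n k M y)
      ((2 / Real.pi) • (-fderiv ℝ θ x) - fderiv ℝ (gpW n k M) x) x :=
    ((h1.const_sub (Real.pi / 2)).const_mul (2 / Real.pi)).sub h2
  have hline : HasDerivAt (fun t : ℝ => x + t • ez) ez 0 := by
    simpa using ((hasDerivAt_id (0 : ℝ)).smul_const ez).const_add x
  have h3' : HasFDerivAt (fun y => 2 / Real.pi * gpDel θ y - gpW n k M y)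
      ((2 / Real.pi) • (-fderiv ℝ θ x) - fderiv ℝ (gpW n k M) x) (x + (0 : ℝ) • ez) := by
    simpa using h3
  have h4 := h3'.comp_hasDerivAt (0 : ℝ) hline
  have h5 := (hasDerivAt_iff_tendsto_slope.1 h4).mono_left
    (nhdsWithin_mono (0 : ℝ) (fun t (ht : t ∈ Set.Ioi (0 : ℝ)) => ne_of_gt ht))
  have h6 : 0 ≤ ((2 / Real.pi) • (-fderiv ℝ θ x) - fderiv ℝ (gpW n k M) x) ez := by
    refine ge_of_tendsto h5 ?_
    filter_upwards [Ioo_mem_nhdsGT stripL_pos] with t ht
    have e0 : (x + t • ez) 0 = x 0 := by simp [ez]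
    have e1 : (x + t • ez) 1 = x 1 := by simp [ez]
    have e2 : (x + t • ez) 2 = t := by simp [ez, h0]
    have eh : hrad (x + t • ez) = hrad x := by unfold hrad; rw [e0, e1]
    have c1 := gp_compare D (x := x + t • ez) (by rw [eh]; exact hp) (by rw [e2]; exact ht.1.le)
      (by rw [e2]; exact ht.2.le)
    have c0 : 2 / Real.pi * gpDel θ x - gpW n k M x = 0 := by
      rw [gpW_plane D.hn D.M_pos D.hds h0, gpDel, D.hθ.eq_zero_of_plane h0, sub_zero]
      field_simp
      ring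
    rw [slope_def_field]
    simp only [Function.comp, zero_smul, add_zero, c0, sub_zero]
    exact div_nonneg (by linarith) ht.1.le
  have h7 := gpW_fderiv_ez D.hn D.M_pos D.hds x
  rw [h0] at h7
  simp only [_root_.sub_apply, _root_.smul_apply, _root_.neg_apply, smul_eq_mul, h7] at h6
  have h8 : fderiv ℝ θ x ez = Real.pi / 2 * (2 / Real.pi * fderiv ℝ θ x ez) := by field_simp
  rw [h8]
  have : 2 / Real.pi * fderiv ℝ θ x ez ≤ -deriv (stW (gpM n k M) (hrad x)) 0 := by linarith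
  calc Real.pi / 2 * (2 / Real.pi * fderiv ℝ θ x ez) ≤ Real.pi / 2 * (-deriv (stW (gpM n k M) (hrad x)) 0) :=
        mul_le_mul_of_nonneg_left this (by positivity)
    _ = _ := by ring

end Claimed.Open.R278
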