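import Claimed.Open.R278.OBDefs

/-!
# Result 278, BP-OB, tools T0, T1 (paper-free): gluing of `C¹` functions; `(t₊)²`, `(t₊)³`

LEAF OB-T0T1 (done, helper181).
-/

open MeasureTheory Filter Topology Set
open scoped ContDiff InnerProductSpace ENNReal Laplacian
open Claimed.Agent.R259

noncomputable section

set_option linter.unusedSectionVars false

namespace Claimed.Open.R278

theorem ob_contDiff_mul_of_tsupport {f ζ : Space → ℝ} {U : Set Space} (hU : IsOpen U)
    (hf : ContDiffOn ℝ 1 f U) (hζ : ContDiff ℝ 1 ζ) (hs : tsupport ζ ⊆ U) :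
    ContDiff ℝ 1 (fun x => ζ x * f x) := by
  rw [contDiff_iff_contDiffAt]
  intro x
  by_cases hx : x ∈ U
  · exact hζ.contDiffAt.mul (hf.contDiffAt (hU.mem_nhds hx))
  · have hx' : x ∉ tsupport ζ := fun h => hx (hs h)
    have h0 : (fun x => ζ x * f x) =ᶠ[𝓝 x] fun _ => 0 := by
      filter_upwards [(isClosed_tsupport ζ).isOpen_compl.mem_nhds hx'] with y hy
      rw [image_eq_zero_of_notMem_tsupport hy, zero_mul]
    exact contDiffAt_const.congr_of_eventuallyEq h0

theorem ob_gradient_mul_of_tsupport {f ζ : Space → ℝ} {U : Set Space} (hU : IsOpen U)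
    (hf : ContDiffOn ℝ 1 f U) (hζ : ContDiff ℝ 1 ζ) (hs : tsupport ζ ⊆ U) (x : Space) :
    gradient (fun x => ζ x * f x) x = ζ x • gradient f x + f x • gradient ζ x := by
  by_cases hx : x ∈ U
  · exact ws_gradient_mul (hζ.differentiable (by simp) x)
      ((hf.contDiffAt (hU.mem_nhds hx)).differentiableAt (by simp))
  · have hx' : x ∉ tsupport ζ := fun h => hx (hs h)
    have h0 : (fun x => ζ x * f x) =ᶠ[𝓝 x] fun _ => 0 := by
      filter_upwards [(isClosed_tsupport ζ).isOpen_compl.mem_nhds hx'] with y hy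
      rw [image_eq_zero_of_notMem_tsupport hy, zero_mul]
    have h1 : ζ =ᶠ[𝓝 x] fun _ => 0 := by
      filter_upwards [(isClosed_tsupport ζ).isOpen_compl.mem_nhds hx'] with y hy
      rw [image_eq_zero_of_notMem_tsupport hy]
    have e1 : gradient (fun x => ζ x * f x) x = 0 := by
      unfold gradient
      rw [h0.fderiv_eq]; simp
    have e2 : gradient ζ x = 0 := by
      unfold gradient
      rw [h1.fderiv_eq]; simp
    rw [e1, e2, image_eq_zero_of_notMem_tsupport hx']; simp

theorem ob_sq_hasDerivAt (t : ℝ) : HasDerivAt obSq (2 * max t 0) t := by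
  rcases lt_trichotomy t 0 with h | h | h
  · have e : obSq =ᶠ[𝓝 t] fun _ => 0 := by
      filter_upwards [gt_mem_nhds h] with s hs
      simp [obSq, max_eq_right hs.le]
    rw [max_eq_right h.le, mul_zero]
    exact (hasDerivAt_const t (0:ℝ)).congr_of_eventuallyEq e
  · subst h
    rw [max_self, mul_zero, hasDerivAt_iff_isLittleO_nhds_zero]
    simp only [zero_add, smul_zero, sub_zero]
    have h0 : obSq 0 = 0 := by simp [obSq]
    rw [h0]
    simp only [sub_zero]
    refine Asymptotics.IsLittleO.of_bound ?_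
    intro c hc
    rw [Metric.eventually_nhds_iff]
    refine ⟨c, hc, fun y hy => ?_⟩
    rw [Real.dist_eq, sub_zero] at hy
    have h1 : |max y 0| ≤ |y| := by
      rcases le_total y 0 with h | h
      · rw [max_eq_right h]; simp
      · rw [max_eq_left h]
    simp only [obSq, Real.norm_eq_abs, abs_pow]
    nlinarith [abs_nonneg y, abs_nonneg (max y 0)]
  · have e : obSq =ᶠ[𝓝 t] fun s => s ^ 2 := by
      filter_upwards [lt_mem_nhds h] with s hs
      simp [obSq, max_eq_left hs.le]
    rw [max_eq_left h.le]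
    have := (hasDerivAt_pow 2 t).congr_of_eventuallyEq e
    simpa using this

theorem ob_sq_contDiff : ContDiff ℝ 1 obSq := by
  rw [show (1 : WithTop ℕ∞) = 0 + 1 by simp, contDiff_succ_iff_deriv]
  refine ⟨fun t => (ob_sq_hasDerivAt t).differentiableAt, by simp, ?_⟩
  have : deriv obSq = fun t => 2 * max t 0 := funext fun t => (ob_sq_hasDerivAt t).deriv
  rw [this, contDiff_zero]
  fun_prop

theorem ob_sq_deriv (t : ℝ) : deriv obSq t = 2 * max t 0 := (ob_sq_hasDerivAt t).deriv

theorem ob_cube_hasDerivAt (t : ℝ) : HasDerivAt obCube (3 * obSq t) t := by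
  have e : obCube = fun t => obSq t * t := by
    funext s
    rcases le_total s 0 with h | h
    · simp [obCube, obSq, max_eq_right h]
    · simp [obCube, obSq, max_eq_left h]; ring
  rw [e]
  have h := (ob_sq_hasDerivAt t).fun_mul (hasDerivAt_id' t)
  have e2 : 2 * max t 0 * t + obSq t * 1 = 3 * obSq t := by
    rcases le_total t 0 with h | h
    · simp [obSq, max_eq_right h]
    · simp only [obSq, max_eq_left h]; ring
  rw [e2] at h
  exact h

theorem ob_cube_contDiff : ContDiff ℝ 2 obCube := by
  rw [show (2 : WithTop ℕ∞) = 1 + 1 by norm_num, contDiff_succ_iff_deriv]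
  refine ⟨fun t => (ob_cube_hasDerivAt t).differentiableAt, by simp, ?_⟩
  have : deriv obCube = fun t => 3 * obSq t := funext fun t => (ob_cube_hasDerivAt t).deriv
  rw [this]
  exact contDiff_const.mul ob_sq_contDiff

theorem ob_cube_deriv : deriv obCube = fun t => 3 * obSq t := funext fun t => (ob_cube_hasDerivAt t).deriv

theorem ob_cube_deriv2 (t : ℝ) : deriv (deriv obCube) t = 6 * max t 0 := by
  have : deriv obCube = fun t => 3 * obSq t := funext fun t => (ob_cube_hasDerivAt t).deriv
  rw [this]
  have := ((ob_sq_hasDerivAt t).const_mul 3).deriv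
  rw [this]; ring

end Claimed.Open.R278
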