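import Claimed.Open.R278.OBTest
import Claimed.Open.R278.OBGlue
import Claimed.Agent.R259.OpCalc
import Claimed.Agent.R259.RegKerB

/-!
# Result 278, BP-OB: elementary calculus on `Space` (coordinates, `|x|²`, `√(t²+σ²)`, chain rules for `gradient` and `Δ`)
-/

open MeasureTheory Filter Topology Set
open scoped ContDiff InnerProductSpace ENNReal Laplacian
open Claimed.Agent.R259

noncomputable section

set_option linter.unusedSectionVars false

namespace Claimed.Open.R278

theorem ob_coord_eq_inner (x : Space) : x 2 = ⟪ez, x⟫_ℝ := by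
  simp [ez, EuclideanSpace.inner_single_left]

theorem ob_norm_ez : ‖ez‖ = 1 := by
  simp [ez]

theorem ob_coord_hasFDerivAt (x : Space) : HasFDerivAt (fun x : Space => x 2) (innerSL ℝ ez) x := by
  have : (fun x : Space => x 2) = fun x => innerSL ℝ ez x := funext fun x => by
    rw [ob_coord_eq_inner]; rfl
  rw [this]
  exact (innerSL ℝ ez).hasFDerivAt

theorem ob_coord_contDiff : ContDiff ℝ ∞ (fun x : Space => x 2) := by
  have : (fun x : Space => x 2) = fun x => ⟪ez, x⟫_ℝ := funext ob_coord_eq_inner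
  rw [this]
  exact contDiff_const.inner ℝ contDiff_id

/-- the gradient from a Fréchet derivative given as an inner product. -/
theorem ob_gradient_of_hasFDerivAt {f : Space → ℝ} {x w : Space} (h : HasFDerivAt f (innerSL ℝ w) x) :
    gradient f x = w := by
  refine ext_inner_right ℝ fun v => ?_
  rw [inner_gradient_left, h.fderiv]
  rfl

theorem ob_hasFDerivAt_gradient {f : Space → ℝ} {x : Space} (h : DifferentiableAt ℝ f x) :
    HasFDerivAt f (innerSL ℝ (gradient f x)) x := by
  have : innerSL ℝ (gradient f x) = fderiv ℝ f x := by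
    ext v
    rw [← inner_gradient_left]; rfl
  rw [this]
  exact h.hasFDerivAt

theorem ob_coord_gradient (x : Space) : gradient (fun x : Space => x 2) x = ez :=
  ob_gradient_of_hasFDerivAt (ob_coord_hasFDerivAt x)

theorem ob_wsDiv_const (w x : Space) : wsDiv (fun _ : Space => w) x = 0 := by
  unfold wsDiv
  simp

theorem ob_coord_laplacian (x : Space) : Δ (fun x : Space => x 2) x = 0 := by
  rw [← ob_wsDiv_gradient (ob_coord_contDiff.contDiffAt.of_le reg_two_le_infty)]
  have : gradient (fun x : Space => x 2) = fun _ => ez := funext ob_coord_gradient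
  rw [this, ob_wsDiv_const]

theorem ob_normsq_hasFDerivAt (x : Space) :
    HasFDerivAt (fun x : Space => ‖x‖ ^ 2) (innerSL ℝ ((2 : ℝ) • x)) x := by
  have h := (hasStrictFDerivAt_norm_sq x).hasFDerivAt
  have e : (2 : ℕ) • innerSL ℝ x = innerSL ℝ ((2 : ℝ) • x) := by
    ext v; simp [inner_smul_left]
  rw [← e]; exact h

theorem ob_normsq_gradient (x : Space) : gradient (fun x : Space => ‖x‖ ^ 2) x = (2 : ℝ) • x :=
  ob_gradient_of_hasFDerivAt (ob_normsq_hasFDerivAt x)

theorem ob_normsq_laplacian (x : Space) : Δ (fun x : Space => ‖x‖ ^ 2) x = 6 := by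
  rw [← ob_wsDiv_gradient ((contDiff_norm_sq ℝ).contDiffAt)]
  have : gradient (fun x : Space => ‖x‖ ^ 2) = fun x => (2 : ℝ) • x := funext ob_normsq_gradient
  rw [this]
  unfold wsDiv
  have h : ∀ y : Space, fderiv ℝ (fun x : Space => (2 : ℝ) • x) x y = (2 : ℝ) • y := by
    intro y
    have : HasFDerivAt (fun x : Space => (2 : ℝ) • x) ((2 : ℝ) • ContinuousLinearMap.id ℝ Space) x :=
      ((2 : ℝ) • ContinuousLinearMap.id ℝ Space).hasFDerivAt
    rw [this.fderiv]; simp
  simp only [h, inner_smul_left, RCLike.conj_to_real, real_inner_self_eq_norm_sq,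
    (stdOrthonormalBasis ℝ Space).norm_eq_one]
  simp
  norm_num

theorem ob_laplacian_const (c : ℝ) (x : Space) : Δ (fun _ : Space => c) x = 0 := by simp

/-- chain rule for the gradient. -/
theorem ob_gradient_comp {Θ : ℝ → ℝ} {f : Space → ℝ} {x : Space} (hΘ : DifferentiableAt ℝ Θ (f x))
    (hf : DifferentiableAt ℝ f x) : gradient (fun y => Θ (f y)) x = deriv Θ (f x) • gradient f x := by
  refine ob_gradient_of_hasFDerivAt ?_
  have h := hΘ.hasDerivAt.comp_hasFDerivAt x (ob_hasFDerivAt_gradient hf)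
  have e : deriv Θ (f x) • innerSL ℝ (gradient f x) = innerSL ℝ (deriv Θ (f x) • gradient f x) := by
    ext v; simp [inner_smul_left]
  rw [← e]; exact h

theorem ob_gradient_add {f g : Space → ℝ} {x : Space} (hf : DifferentiableAt ℝ f x)
    (hg : DifferentiableAt ℝ g x) : gradient (fun y => f y + g y) x = gradient f x + gradient g x := by
  refine ob_gradient_of_hasFDerivAt ?_
  have h := (ob_hasFDerivAt_gradient hf).add (ob_hasFDerivAt_gradient hg)
  rw [map_add]; exact h

theorem ob_gradient_const_mul (c : ℝ) {f : Space → ℝ} {x : Space} (hf : DifferentiableAt ℝ f x) :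
    gradient (fun y => c * f y) x = c • gradient f x := by
  refine ob_gradient_of_hasFDerivAt ?_
  have h := (ob_hasFDerivAt_gradient hf).const_mul c
  have e : c • innerSL ℝ (gradient f x) = innerSL ℝ (c • gradient f x) := by
    ext v; simp [inner_smul_left]
  rw [← e]; exact h

theorem ob_gradient_mul {f g : Space → ℝ} {x : Space} (hf : DifferentiableAt ℝ f x)
    (hg : DifferentiableAt ℝ g x) :
    gradient (fun y => f y * g y) x = f x • gradient g x + g x • gradient f x := by
  refine ob_gradient_of_hasFDerivAt ?_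
  have h := (ob_hasFDerivAt_gradient hf).mul (ob_hasFDerivAt_gradient hg)
  have e : f x • innerSL ℝ (gradient g x) + g x • innerSL ℝ (gradient f x)
      = innerSL ℝ (f x • gradient g x + g x • gradient f x) := by
    ext v; simp [inner_smul_left, inner_add_left]
  rw [← e]; exact h

/-! ### `S(t) = √(t² + σ²)` -/

theorem ob_S_pos {σ : ℝ} (hσ : 0 < σ) (t : ℝ) : 0 < √(t ^ 2 + σ ^ 2) :=
  Real.sqrt_pos.2 (by positivity)

theorem ob_S_sq {σ : ℝ} (t : ℝ) : √(t ^ 2 + σ ^ 2) ^ 2 = t ^ 2 + σ ^ 2 :=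
  Real.sq_sqrt (by positivity)

theorem ob_S_contDiff {σ : ℝ} (hσ : 0 < σ) : ContDiff ℝ ∞ (fun t : ℝ => √(t ^ 2 + σ ^ 2)) := by
  refine ContDiff.sqrt (by fun_prop) fun t => ?_
  positivity

theorem ob_S_hasDerivAt {σ : ℝ} (hσ : 0 < σ) (t : ℝ) :
    HasDerivAt (fun t : ℝ => √(t ^ 2 + σ ^ 2)) (t / √(t ^ 2 + σ ^ 2)) t := by
  have h1 : HasDerivAt (fun t : ℝ => t ^ 2 + σ ^ 2) (2 * t) t := by
    have := ((hasDerivAt_id t).pow 2).add_const (σ ^ 2)
    simpa using this
  have h2 := h1.sqrt (by positivity)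
  convert h2 using 1
  have := (ob_S_pos hσ t).ne'
  field_simp

theorem ob_S_deriv {σ : ℝ} (hσ : 0 < σ) :
    deriv (fun t : ℝ => √(t ^ 2 + σ ^ 2)) = fun t => t / √(t ^ 2 + σ ^ 2) :=
  funext fun t => (ob_S_hasDerivAt hσ t).deriv

theorem ob_S_deriv2 {σ : ℝ} (hσ : 0 < σ) (t : ℝ) :
    deriv (deriv (fun t : ℝ => √(t ^ 2 + σ ^ 2))) t = σ ^ 2 / √(t ^ 2 + σ ^ 2) ^ 3 := by
  rw [ob_S_deriv hσ]
  have h := ((hasDerivAt_id t).div (ob_S_hasDerivAt hσ t) (ob_S_pos hσ t).ne').deriv
  have e : (fun t : ℝ => t / √(t ^ 2 + σ ^ 2)) = id / fun t : ℝ => √(t ^ 2 + σ ^ 2) := rfl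
  rw [e, h]
  have hs := (ob_S_pos hσ t).ne'
  have h2 := ob_S_sq (σ := σ) t
  simp only [id]
  field_simp
  nlinarith [h2]

theorem ob_laplacian_hcs {ψ : Space → ℝ} (hc : HasCompactSupport ψ) : HasCompactSupport (Δ ψ) := by
  have hL : Δ ψ = fun x => - opA (fun _ : Space => (1 : ℝ)) ψ x := by
    funext x; rw [opc_one, neg_neg]
  rw [hL]; exact (opc_hasCompactSupport _ hc).neg

theorem ob_locallyIntegrable_abs {f : Space → ℝ} (hf : LocallyIntegrable f volume) :
    LocallyIntegrable (fun x => |f x|) volume := fun x => by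
  obtain ⟨s, hs, h⟩ := hf x
  exact ⟨s, hs, h.abs⟩

theorem ob_plane_null : volume {x : Space | x 2 = 0} = 0 := by
  have h1 : {x : Space | x 2 = 0}
      = ((LinearMap.ker (EuclideanSpace.proj (2 : Fin 3) : Space →L[ℝ] ℝ).toLinearMap :
        Submodule ℝ Space) : Set Space) := by
    ext x
    simp
  rw [h1]
  refine Measure.addHaar_submodule volume _ ?_
  intro htop
  have : (EuclideanSpace.single (2 : Fin 3) (1 : ℝ) : Space)
      ∈ LinearMap.ker (EuclideanSpace.proj (2 : Fin 3) : Space →L[ℝ] ℝ).toLinearMap := by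
    rw [htop]; trivial
  simp at this

theorem ob_coord_ne_ae : ∀ᵐ x : Space, x 2 ≠ 0 := by
  rw [ae_iff]
  simpa using ob_plane_null

theorem ob_abs_inner_unit_le (y x : Space) : |⟪‖y‖⁻¹ • y, x⟫_ℝ| ≤ ‖x‖ := by
  refine (abs_real_inner_le_norm _ _).trans ?_
  rw [norm_smul, norm_inv, norm_norm]
  rcases eq_or_ne ‖y‖ 0 with h | h
  · rw [h]; simp
  · rw [inv_mul_cancel₀ h, one_mul]

/-! ### `ρ = √(1+|x|²)` and exponential barriers -/
theorem ob_rho_pos (x : Space) : 0 < obRho x := Real.sqrt_pos.2 (by positivity)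

theorem ob_rho_sq (x : Space) : obRho x ^ 2 = 1 + ‖x‖ ^ 2 := Real.sq_sqrt (by positivity)

theorem ob_norm_le_rho (x : Space) : ‖x‖ ≤ obRho x :=
  Real.le_sqrt_of_sq_le (by linarith)

theorem ob_one_le_rho (x : Space) : 1 ≤ obRho x :=
  Real.le_sqrt_of_sq_le (by nlinarith [sq_nonneg ‖x‖])

theorem ob_rho_le (x : Space) : obRho x ≤ 1 + ‖x‖ :=
  Real.sqrt_le_iff.2 ⟨by positivity, by nlinarith [norm_nonneg x]⟩

theorem ob_rho_contDiff : ContDiff ℝ ∞ obRho := by
  unfold obRho
  exact (contDiff_const.add (contDiff_norm_sq ℝ)).sqrt fun x => by positivity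

theorem ob_rho_gradient (x : Space) : gradient obRho x = (obRho x)⁻¹ • x := by
  refine ob_gradient_of_hasFDerivAt ?_
  have h1 := ((ob_normsq_hasFDerivAt x).const_add 1).sqrt (by positivity)
  refine HasFDerivAt.congr_fderiv h1 ?_
  ext v
  have := (ob_rho_pos x).ne'
  simp only [obRho] at this ⊢
  simp [inner_smul_left]
  field_simp

theorem ob_rho_gradient_le (x : Space) : ‖gradient obRho x‖ ≤ 1 := by
  rw [ob_rho_gradient, norm_smul, norm_inv, Real.norm_of_nonneg (ob_rho_pos x).le,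
    inv_mul_le_iff₀ (ob_rho_pos x), mul_one]
  exact ob_norm_le_rho x

theorem ob_rho_laplacian_nonneg (x : Space) : 0 ≤ Δ obRho x := by
  have h2 : ContDiffAt ℝ 2 obRho x := (ob_rho_contDiff.of_le reg_two_le_infty).contDiffAt
  have h1 := opc_laplacian_comp (x := x) (Θ := fun t : ℝ => t ^ 2) (f := obRho)
    (by fun_prop) h2
  have d1 : deriv (fun t : ℝ => t ^ 2) = fun t => 2 * t := by funext t; simp
  have d2 : deriv (fun t : ℝ => 2 * t) (obRho x) = 2 := by
    simp
  rw [d1, d2] at h1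
  have e : (fun y => obRho y ^ 2) = (fun _ : Space => (1 : ℝ)) + fun y : Space => ‖y‖ ^ 2 := by
    funext y; simp [ob_rho_sq]
  rw [e, ContDiffAt.laplacian_add contDiffAt_const (contDiff_norm_sq ℝ).contDiffAt, ob_laplacian_const,
    ob_normsq_laplacian] at h1
  have h3 := ob_rho_gradient_le x
  have h4 : ‖gradient obRho x‖ ^ 2 ≤ 1 := by nlinarith [norm_nonneg (gradient obRho x)]
  have h5 := ob_rho_pos x
  simp only at h1
  by_contra hneg
  push Not at hneg
  nlinarith

theorem ob_expdecay_deriv (A s : ℝ) : deriv (fun t : ℝ => A * Real.exp (-(s * t))) = fun t => -s * (A * Real.exp (-(s * t))) := by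
  funext t
  have h : HasDerivAt (fun t : ℝ => A * Real.exp (-(s * t))) (A * (Real.exp (-(s * t)) * (-(s * 1)))) t :=
    (((hasDerivAt_id t).const_mul s).neg.exp).const_mul A
  rw [h.deriv]; ring

theorem ob_expdecay_deriv2 (A s t : ℝ) :
    deriv (deriv (fun t : ℝ => A * Real.exp (-(s * t)))) t = s ^ 2 * (A * Real.exp (-(s * t))) := by
  rw [ob_expdecay_deriv]
  have h : HasDerivAt (fun t : ℝ => -s * (A * Real.exp (-(s * t)))) (-s * (A * (Real.exp (-(s * t)) * (-(s * 1))))) t :=
    ((((hasDerivAt_id t).const_mul s).neg.exp).const_mul A).const_mul (-s)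
  rw [h.deriv]; ring

theorem ob_expdecay_contDiff (A s : ℝ) : ContDiff ℝ ∞ (fun t : ℝ => A * Real.exp (-(s * t))) := by
  fun_prop

theorem ob_barrier_contDiff (A s : ℝ) : ContDiff ℝ ∞ (fun x => A * Real.exp (-(s * obRho x))) :=
  (ob_expdecay_contDiff A s).comp ob_rho_contDiff

theorem ob_barrier (A : ℝ) (hA : 0 ≤ A) {s : ℝ} (hs : 0 ≤ s) (x : Space) :
    ‖gradient (fun x => A * Real.exp (-(s * obRho x))) x‖ ≤ s * (A * Real.exp (-(s * obRho x))) ∧
    Δ (fun x => A * Real.exp (-(s * obRho x))) x ≤ s ^ 2 * (A * Real.exp (-(s * obRho x))) := by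
  have h2 : ContDiffAt ℝ 2 obRho x := (ob_rho_contDiff.of_le reg_two_le_infty).contDiffAt
  have hΘ : ContDiffAt ℝ 2 (fun t : ℝ => A * Real.exp (-(s * t))) (obRho x) :=
    ((ob_expdecay_contDiff A s).of_le reg_two_le_infty).contDiffAt
  have hb : 0 ≤ A * Real.exp (-(s * obRho x)) := by positivity
  have h3 := ob_rho_gradient_le x
  constructor
  · rw [ob_gradient_comp (Θ := fun t : ℝ => A * Real.exp (-(s * t))) (hΘ.differentiableAt (by norm_num))
      (h2.differentiableAt (by norm_num)), ob_expdecay_deriv, norm_smul, Real.norm_eq_abs, abs_mul, abs_neg,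
      abs_of_nonneg hs, abs_of_nonneg hb]
    calc s * (A * Real.exp (-(s * obRho x))) * ‖gradient obRho x‖ ≤ s * (A * Real.exp (-(s * obRho x))) * 1 := by
          gcongr
      _ = _ := mul_one _
  · rw [opc_laplacian_comp (Θ := fun t : ℝ => A * Real.exp (-(s * t))) hΘ h2, ob_expdecay_deriv2, ob_expdecay_deriv]
    have h4 : ‖gradient obRho x‖ ^ 2 ≤ 1 := by nlinarith [norm_nonneg (gradient obRho x)]
    have h5 := ob_rho_laplacian_nonneg x
    have h6 : 0 ≤ s * (A * Real.exp (-(s * obRho x))) * Δ obRho x := by positivity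
    have h7 : s ^ 2 * (A * Real.exp (-(s * obRho x))) * ‖gradient obRho x‖ ^ 2
        ≤ s ^ 2 * (A * Real.exp (-(s * obRho x))) * 1 := by gcongr
    simp only
    nlinarith

theorem ob_ibp_weight_integrable {n : Space → ℝ} {N : Space → Space} (h : IsWeakGrad n N) {B φ : Space → ℝ}
    (hB : ContDiff ℝ 2 B) (hφ : Continuous φ) (hc : HasCompactSupport φ) :
    Integrable (fun x => (⟪N x, gradient B x⟫_ℝ + n x * Δ B x) * φ x) := by
  have hW : Continuous (fun x => φ x • gradient B x) := hφ.smul (ob_gradient_contDiff hB).continuous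
  have hWc : HasCompactSupport (fun x => φ x • gradient B x) := hc.smul_right
  have i2 : Integrable (fun x => n x * (Δ B x * φ x)) volume :=
    h.1.integrable_smul_right_of_hasCompactSupport ((ob_laplacian_continuous hB).mul hφ) hc.mul_left
  have i3 : Integrable (fun x => ⟪N x, φ x • gradient B x⟫_ℝ) volume :=
    ob_integrable_inner h.2.1 hW hWc
  refine (i3.add i2).congr (Eventually.of_forall fun x => ?_)
  simp only [Pi.add_apply, inner_smul_right]; ring

end Claimed.Open.R278
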