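import Claimed.Open.R278.OBGlue

/-!
# Result 278, BP-OB, tool T8 (paper-free): weak comparison for `div(n ∇·)`, `∫ n < ∞`

LEAF OB-T8 (done, helper181).

PROOF.  `E = β - θ`, `W(x) = obSq (E x)` for `x ∈ Ω`, `0` otherwise.  `W ∈ C¹`: on `Ω` a composition; near a point of the frontier
`E < 0`, so `W = 0`; in the exterior `W = 0`.  `tsupport W ⊆ Ω`.  `∇W = 2 E₊ ∇E` on `Ω`.  Test with `φ = χ² W`, `χ = wsCut j`:
  `2 ∫ n χ² E₊ |∇E|² + ∫ n q χ² E₊² ≤ - 2 ∫ n χ E₊² ∇E·∇χ ≤ ∫ n χ² E₊ |∇E|² + ∫ n E₊³ |∇χ|²`,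
so `∫ n q χ² W ≤ C³ (M/(j+1))² ∫ n → 0` (`wsCut_grad_bound`).  The integrand is `≥ 0` (`q ≥ 0` on `{E > 0} ∩ Ω` by `hq0` and continuity).
If `E x₁ > 0`, `x₁ ∈ Ω`, the continuous function `n q W` is positive on the nonempty open set `({E > 0} ∩ Ω) \ nuclei`, on which `χ = 1` for
large `j` near a chosen point: contradiction.
-/

open MeasureTheory Filter Topology Set
open scoped ContDiff InnerProductSpace ENNReal Laplacian
open Claimed.Agent.R259

noncomputable section

set_option linter.unusedSectionVars false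

namespace Claimed.Open.R278

theorem ob_gradient_sub {f g : Space → ℝ} {x : Space} (hf : DifferentiableAt ℝ f x)
    (hg : DifferentiableAt ℝ g x) :
    gradient (fun y => f y - g y) x = gradient f x - gradient g x := by
  unfold gradient
  rw [fderiv_fun_sub hf hg, map_sub]

theorem ob_gradient_congr {f g : Space → ℝ} {x : Space} (h : f =ᶠ[𝓝 x] g) : gradient f x = gradient g x := by
  unfold gradient
  rw [h.fderiv_eq]

theorem ob_gradient_const (c : ℝ) (x : Space) : gradient (fun _ : Space => c) x = 0 := by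
  unfold gradient
  simp

section cmp

variable {θ β : Space → ℝ} {Ω : Set Space}

/-- the truncated square `W = (β - θ)₊² 1_Ω`. -/
def obTr (θ β : Space → ℝ) (Ω : Set Space) : Space → ℝ := Ω.indicator fun x => obSq (β x - θ x)

theorem obcmp_eqns_cite : True := by
  have := @obTr.eq_1
  trivial

theorem obTr_nonneg (x : Space) : 0 ≤ obTr θ β Ω x := by
  unfold obTr
  exact Set.indicator_nonneg (fun x _ => by unfold obSq; positivity) x

theorem obTr_eventually_zero (hθ : Continuous θ) (hβ : Continuous β) (hΩ : IsOpen Ω)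
    (hfr : ∀ x ∈ frontier Ω, β x < θ x) {x : Space} (hx : x ∉ Ω) :
    obTr θ β Ω =ᶠ[𝓝 x] fun _ => 0 := by
  by_cases hc : x ∈ closure Ω
  · have hxf : x ∈ frontier Ω := by
      rw [frontier, hΩ.interior_eq]; exact ⟨hc, hx⟩
    have h1 : ∀ᶠ y in 𝓝 x, β y < θ y :=
      (hβ.continuousAt.prodMk hθ.continuousAt).eventually
        ((isOpen_lt continuous_fst continuous_snd).mem_nhds (hfr x hxf))
    filter_upwards [h1] with y hy
    unfold obTr
    by_cases hyΩ : y ∈ Ω
    · rw [Set.indicator_of_mem hyΩ]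
      simp [obSq, max_eq_right (sub_nonpos.2 hy.le)]
    · rw [Set.indicator_of_notMem hyΩ]
  · filter_upwards [isClosed_closure.isOpen_compl.mem_nhds hc] with y hy
    unfold obTr
    rw [Set.indicator_of_notMem fun h => hy (subset_closure h)]

theorem obTr_eventually_eq (hΩ : IsOpen Ω) {x : Space} (hx : x ∈ Ω) :
    obTr θ β Ω =ᶠ[𝓝 x] fun x => obSq (β x - θ x) := by
  filter_upwards [hΩ.mem_nhds hx] with y hy
  unfold obTr
  rw [Set.indicator_of_mem hy]

theorem obTr_contDiff (hθ : ContDiff ℝ 1 θ) (hβ : ContDiff ℝ 1 β) (hΩ : IsOpen Ω)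
    (hfr : ∀ x ∈ frontier Ω, β x < θ x) : ContDiff ℝ 1 (obTr θ β Ω) := by
  rw [contDiff_iff_contDiffAt]
  intro x
  by_cases hx : x ∈ Ω
  · exact (ob_sq_contDiff.comp (hβ.sub hθ)).contDiffAt.congr_of_eventuallyEq (obTr_eventually_eq hΩ hx)
  · exact contDiffAt_const.congr_of_eventuallyEq
      (obTr_eventually_zero hθ.continuous hβ.continuous hΩ hfr hx)

theorem obTr_gradient (hθ : ContDiff ℝ 1 θ) (hβ : ContDiff ℝ 1 β) (hΩ : IsOpen Ω)
    (hfr : ∀ x ∈ frontier Ω, β x < θ x) (x : Space) :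
    gradient (obTr θ β Ω) x
      = Ω.indicator (fun x => (2 * max (β x - θ x) 0) • (gradient β x - gradient θ x)) x := by
  by_cases hx : x ∈ Ω
  · rw [Set.indicator_of_mem hx, ob_gradient_congr (obTr_eventually_eq hΩ hx),
      ws_gradient_comp (f := fun x => β x - θ x) (ob_sq_hasDerivAt _).differentiableAt
        ((hβ.sub hθ).differentiable (by simp) x), ob_sq_deriv,
      ob_gradient_sub (hβ.differentiable (by simp) x) (hθ.differentiable (by simp) x)]
  · rw [Set.indicator_of_notMem hx,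
      ob_gradient_congr (obTr_eventually_zero hθ.continuous hβ.continuous hΩ hfr hx), ob_gradient_const]

theorem obTr_tsupport (hθ : Continuous θ) (hβ : Continuous β) (hΩ : IsOpen Ω)
    (hfr : ∀ x ∈ frontier Ω, β x < θ x) : tsupport (obTr θ β Ω) ⊆ Ω := by
  intro x hx
  by_contra hxΩ
  have h0 := obTr_eventually_zero hθ hβ hΩ hfr hxΩ
  rw [tsupport, mem_closure_iff_nhds] at hx
  obtain ⟨y, hy1, hy2⟩ := hx _ h0
  exact hy2 hy1

end cmp

theorem ob_compare_pt {e χ s t a b C' : ℝ} (he : 0 ≤ e) (heC : e ≤ C') (hχ : 0 ≤ χ) (_hs : 0 ≤ s) (ht : 0 ≤ t)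
    (htb : t ≤ b) (ha : |a| ≤ s * t) :
    -(C' ^ 3 * b ^ 2) ≤ 2 * χ ^ 2 * e * s ^ 2 + 2 * χ * e ^ 2 * a := by
  have h1 : -(s * t) ≤ a := by have := neg_abs_le a; linarith
  have h2 : 2 * χ * e ^ 2 * (-(s * t)) ≤ 2 * χ * e ^ 2 * a :=
    mul_le_mul_of_nonneg_left h1 (by positivity)
  have h3 : e * (2 * (χ * s) * (e * t)) ≤ e * ((χ * s) ^ 2 + (e * t) ^ 2) :=
    mul_le_mul_of_nonneg_left (by nlinarith [sq_nonneg (χ * s - e * t)]) he
  have h4 : e ^ 3 * t ^ 2 ≤ C' ^ 3 * b ^ 2 := by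
    have h5 : e ^ 3 ≤ C' ^ 3 := pow_le_pow_left₀ he heC 3
    have h6 : t ^ 2 ≤ b ^ 2 := pow_le_pow_left₀ ht htb 2
    exact mul_le_mul h5 h6 (by positivity) (by have := he.trans heC; positivity)
  have h7 : 0 ≤ χ ^ 2 * e * s ^ 2 := by positivity
  nlinarith

theorem ob_compare {n θ β q : Space → ℝ} {Ω : Set Space} {C : ℝ}
    (hnc : Continuous n) (hnpos : ∀ x, 0 < n x) (hni : Integrable n)
    (hθ : ContDiff ℝ 1 θ) (hβ : ContDiff ℝ 1 β) (hq : Continuous q) (hΩ : IsOpen Ω)
    (hfr : ∀ x ∈ frontier Ω, β x < θ x)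
    (hC : ∀ x ∈ Ω, β x - θ x ≤ C)
    (hweak : ∀ φ : Space → ℝ, ContDiff ℝ 1 φ → HasCompactSupport φ → (∀ x, 0 ≤ φ x) → tsupport φ ⊆ Ω →
      ∫ x, n x * ⟪gradient β x - gradient θ x, gradient φ x⟫_ℝ ≤ - ∫ x, n x * q x * φ x)
    (hq0 : ∀ x ∈ Ω, θ x < β x → x ∉ nuclei → 0 < q x) :
    ∀ x ∈ Ω, β x ≤ θ x := by
  intro x₁ hx₁
  by_contra hlt
  push Not at hlt
  set W := obTr θ β Ω with hW
  have hWc : ContDiff ℝ 1 W := obTr_contDiff hθ hβ hΩ hfr
  have hWs : tsupport W ⊆ Ω := obTr_tsupport hθ.continuous hβ.continuous hΩ hfr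
  have hW0 : ∀ x, 0 ≤ W x := fun x => obTr_nonneg x
  obtain ⟨M, hM0, hM⟩ := wsCut_grad_bound (E := Space)
  set C' := max C 0 with hC'
  have key : ∀ j : ℕ, ∫ x, n x * q x * (wsCut j x ^ 2 * W x)
      ≤ C' ^ 3 * (M / ((j : ℝ) + 1)) ^ 2 * ∫ x, n x := by
    intro j
    set χ := (wsCut j : Space → ℝ) with hχdef
    have hχ : ContDiff ℝ 1 χ := (wsCut_contDiff j).of_le (by simp)
    have hφ : ContDiff ℝ 1 (fun x => χ x ^ 2 * W x) := (hχ.pow 2).mul hWc
    have hχc : HasCompactSupport (fun x => χ x ^ 2) :=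
      (wsCut_hasCompactSupport j).comp_left (g := fun t : ℝ => t ^ 2) (by simp)
    have hφc : HasCompactSupport (fun x => χ x ^ 2 * W x) := hχc.mul_right
    have hφ0 : ∀ x, 0 ≤ χ x ^ 2 * W x := fun x => mul_nonneg (sq_nonneg _) (hW0 x)
    have hφs : tsupport (fun x => χ x ^ 2 * W x) ⊆ Ω := (tsupport_mul_subset_right).trans hWs
    have h1 := hweak _ hφ hφc hφ0 hφs
    have hg : ∀ x, gradient (fun x => χ x ^ 2 * W x) x
        = χ x ^ 2 • gradient W x + W x • ((2 * χ x) • gradient χ x) := by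
      intro x
      rw [ws_gradient_mul ((hχ.pow 2).differentiable (by simp) x) (hWc.differentiable (by simp) x)]
      congr 2
      have := ws_gradient_comp (Θ := fun t : ℝ => t ^ 2) (f := χ) (x := x)
        (by fun_prop) (hχ.differentiable (by simp) x)
      rw [this]
      simp
    have hpt : ∀ x, -(C' ^ 3 * (M / ((j : ℝ) + 1)) ^ 2 * n x)
        ≤ n x * ⟪gradient β x - gradient θ x, gradient (fun x => χ x ^ 2 * W x) x⟫_ℝ := by
      intro x
      rw [hg x, obTr_gradient hθ hβ hΩ hfr x]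
      by_cases hx : x ∈ Ω
      · rw [Set.indicator_of_mem hx]
        have hWx : W x = (max (β x - θ x) 0) ^ 2 := by
          rw [hW, obTr, Set.indicator_of_mem hx, obSq]
        rw [hWx]
        set e := max (β x - θ x) 0 with he
        set G := gradient β x - gradient θ x with hG
        have e1 : ⟪G, χ x ^ 2 • (2 * e) • G + e ^ 2 • (2 * χ x) • gradient χ x⟫_ℝ
            = 2 * χ x ^ 2 * e * ‖G‖ ^ 2 + 2 * χ x * e ^ 2 * ⟪G, gradient χ x⟫_ℝ := by
          simp only [inner_add_right, inner_smul_right, real_inner_self_eq_norm_sq]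
          ring
        rw [e1]
        have h2 := ob_compare_pt (e := e) (χ := χ x) (s := ‖G‖) (t := ‖gradient χ x‖)
          (a := ⟪G, gradient χ x⟫_ℝ) (b := M / ((j : ℝ) + 1)) (C' := C') (le_max_right _ _)
          (max_le_max_right 0 (hC x hx)) (wsCut_nonneg j x) (norm_nonneg _) (norm_nonneg _) (hM j x)
          (abs_real_inner_le_norm _ _)
        have := mul_le_mul_of_nonneg_left h2 (hnpos x).le
        linarith
      · rw [Set.indicator_of_notMem hx]
        have hWx : W x = 0 := by rw [hW, obTr, Set.indicator_of_notMem hx]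
        rw [hWx]
        simp only [smul_zero, zero_smul, add_zero, inner_zero_right, mul_zero, Left.neg_nonpos_iff]
        have := (hnpos x).le
        positivity
    have hi : Integrable (fun x => n x * ⟪gradient β x - gradient θ x,
        gradient (fun x => χ x ^ 2 * W x) x⟫_ℝ) volume := by
      refine (hnc.mul (((ws_gradient_continuous hβ).sub (ws_gradient_continuous hθ)).inner
        (ws_gradient_continuous hφ))).integrable_of_hasCompactSupport ?_
      refine HasCompactSupport.mul_left ?_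
      exact (ws_gradient_hasCompactSupport hφc).mono fun x hx h0 => hx (by simp [h0])
    have h3 : -(C' ^ 3 * (M / ((j : ℝ) + 1)) ^ 2 * ∫ x, n x)
        ≤ ∫ x, n x * ⟪gradient β x - gradient θ x, gradient (fun x => χ x ^ 2 * W x) x⟫_ℝ := by
      rw [← integral_const_mul, ← integral_neg]
      exact integral_mono (hni.const_mul _).neg hi hpt
    linarith
  -- a point where everything is positive
  set U := {x | x ∈ Ω ∧ θ x < β x} with hU
  have hUo : IsOpen U := hΩ.inter (isOpen_lt hθ.continuous hβ.continuous)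
  have hnull : volume (nuclei : Set Space) = 0 := by
    have : (nuclei : Set Space).Finite := by unfold nuclei; exact Set.toFinite _
    exact this.measure_zero _
  obtain ⟨x₂, hx₂U, hx₂n⟩ : ∃ x₂ ∈ U, x₂ ∉ nuclei := by
    by_contra hcon
    push Not at hcon
    have h1 : volume U ≤ volume (nuclei : Set Space) := measure_mono hcon
    have h2 : 0 < volume U := hUo.measure_pos _ ⟨x₁, hx₁, hlt⟩
    rw [hnull] at h1
    exact absurd h2 (not_lt.2 h1)
  set F : Space → ℝ := fun x => n x * q x * W x with hF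
  have hFc : Continuous F := (hnc.mul hq).mul hWc.continuous
  have hWpos : ∀ x ∈ U, 0 < W x := by
    intro x hx
    rw [hW, obTr, Set.indicator_of_mem hx.1, obSq, max_eq_left (sub_nonneg.2 hx.2.le)]
    have := sub_pos.2 hx.2
    positivity
  have hF2 : 0 < F x₂ := mul_pos (mul_pos (hnpos x₂) (hq0 x₂ hx₂U.1 hx₂U.2 hx₂n)) (hWpos x₂ hx₂U)
  have hFae : ∀ᵐ x, 0 ≤ F x := by
    have : ∀ᵐ x : Space, x ∉ nuclei := by
      rw [ae_iff]; simpa using hnull
    filter_upwards [this] with x hx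
    by_cases hxU : x ∈ U
    · exact (mul_pos (mul_pos (hnpos x) (hq0 x hxU.1 hxU.2 hx)) (hWpos x hxU)).le
    · have : W x = 0 := by
        rw [hW, obTr]
        by_cases hxΩ : x ∈ Ω
        · rw [Set.indicator_of_mem hxΩ, obSq, max_eq_right]
          · simp
          · have : ¬ θ x < β x := fun h => hxU ⟨hxΩ, h⟩
            linarith [not_lt.1 this]
        · rw [Set.indicator_of_notMem hxΩ]
      simp [hF, this]
  obtain ⟨r, hr, hball⟩ : ∃ r > 0, ∀ y ∈ Metric.ball x₂ r, F x₂ / 2 < F y := by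
    have : ∀ᶠ y in 𝓝 x₂, F x₂ / 2 < F y := hFc.continuousAt.eventually (lt_mem_nhds (by linarith))
    exact Metric.eventually_nhds_iff_ball.1 this
  set c₁ := F x₂ / 2 * (volume (Metric.ball x₂ r)).toReal with hc₁
  have hvol : 0 < (volume (Metric.ball x₂ r)).toReal :=
    ENNReal.toReal_pos (Metric.isOpen_ball.measure_pos _ ⟨x₂, Metric.mem_ball_self hr⟩).ne'
      measure_ball_lt_top.ne
  have hc₁pos : 0 < c₁ := by positivity
  have lower : ∀ j : ℕ, ‖x₂‖ + r ≤ (j : ℝ) + 1 → c₁ ≤ ∫ x, n x * q x * (wsCut j x ^ 2 * W x) := by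
    intro j hj
    have hχc : HasCompactSupport (fun x : Space => wsCut j x ^ 2) :=
      (wsCut_hasCompactSupport j).comp_left (g := fun t : ℝ => t ^ 2) (by simp)
    have hi : Integrable (fun x => n x * q x * (wsCut j x ^ 2 * W x)) volume :=
      ((hnc.mul hq).mul (((wsCut_contDiff j).continuous.pow 2).mul hWc.continuous)).integrable_of_hasCompactSupport
        (hχc.mul_right.mul_left)
    have h0 : ∀ᵐ x, 0 ≤ n x * q x * (wsCut j x ^ 2 * W x) := by
      filter_upwards [hFae] with x hx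
      have : n x * q x * (wsCut j x ^ 2 * W x) = wsCut j x ^ 2 * F x := by simp only [hF]; ring
      rw [this]
      exact mul_nonneg (sq_nonneg _) hx
    calc c₁ = ∫ x in Metric.ball x₂ r, F x₂ / 2 := by
          rw [setIntegral_const, hc₁, smul_eq_mul, mul_comm]; rfl
      _ ≤ ∫ x in Metric.ball x₂ r, n x * q x * (wsCut j x ^ 2 * W x) := by
          refine setIntegral_mono_on (integrableOn_const (by exact measure_ball_lt_top.ne)) hi.integrableOn measurableSet_ball ?_
          intro x hx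
          have hx1 : ‖x‖ ≤ (j : ℝ) + 1 := by
            have h1 : ‖x‖ ≤ ‖x₂‖ + ‖x - x₂‖ := by
              have := norm_add_le x₂ (x - x₂); simpa using this
            have h2 : ‖x - x₂‖ < r := by simpa [dist_eq_norm] using hx
            linarith
          rw [wsCut_eq_one hx1]
          have := hball x hx
          simp only [hF] at this
          simp only [one_pow, one_mul]
          exact this.le
      _ ≤ ∫ x, n x * q x * (wsCut j x ^ 2 * W x) := setIntegral_le_integral hi h0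
  -- choose `j`
  set A := C' ^ 3 * M ^ 2 * ∫ x, n x with hA
  have hA0 : 0 ≤ A := by
    have : 0 ≤ ∫ x, n x := integral_nonneg fun x => (hnpos x).le
    have : 0 ≤ C' := le_max_right _ _
    positivity
  obtain ⟨j, hj⟩ := exists_nat_gt (max (‖x₂‖ + r) (A / c₁))
  have hj1 : ‖x₂‖ + r ≤ (j : ℝ) + 1 := by have := le_max_left (‖x₂‖ + r) (A / c₁); linarith
  have hj2 : A / c₁ < (j : ℝ) + 1 := by have := le_max_right (‖x₂‖ + r) (A / c₁); linarith
  have hj0 : (1 : ℝ) ≤ (j : ℝ) + 1 := by have : (0 : ℝ) ≤ j := Nat.cast_nonneg j; linarith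
  have h1 := (lower j hj1).trans (key j)
  have h2 : C' ^ 3 * (M / ((j : ℝ) + 1)) ^ 2 * ∫ x, n x = A / ((j : ℝ) + 1) ^ 2 := by
    rw [hA]; field_simp
  rw [h2] at h1
  have h3 : A / ((j : ℝ) + 1) ^ 2 ≤ A / ((j : ℝ) + 1) := by
    apply div_le_div_of_nonneg_left hA0 (by linarith)
    nlinarith
  have h4 : A / ((j : ℝ) + 1) < c₁ := by
    rw [div_lt_iff₀ (by linarith)]
    rw [div_lt_iff₀ hc₁pos] at hj2
    linarith
  linarith

end Claimed.Open.R278
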