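import Claimed.Open.R278.GPDefs
import Claimed.Open.R278.OBCalc
import Claimed.Open.R278.OBCmp

/-!
# Package GP, leaves GP-C1, GP-C2, GP-C3: cylindrical calculus on `ℝ³`, the coordinate divergence, integration by parts

GP-C1 (Mathlib only): `hrad`, `epVec`, axisymmetric functions.
* `hrad x = √(x₀² + x₁²)` is smooth where it is positive (`Real.sqrt` smooth on `(0,∞)`), with gradient `epVec x`.
* `gp_axi`: `exists_rotZ_cyl` (ChargeLemmas.lean).
* `gp_cyl_gradient`: chain rule for `y ↦ f (hrad y) (y 2)`; partial derivatives of `F q = f q.1 q.2`: `deriv (fun p => f p z) p = fderiv F (p,z) (1,0)`, `deriv (f p) z = fderiv F (p,z) (0,1)`.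
* `gp_axi_fderiv`: an axisymmetric `f`, differentiable at `cyl (hrad x) (x 2)`, is `y ↦ f (cyl (hrad y) (y 2))`; apply the chain rule.

GP-C2 (Mathlib only): `gpDiv`.
* `gpDiv_smul`: `div (a X) = ⟪∇a, X⟫ + a div X`.   * `gpDiv_congr`: depends only on the germ.
* `gp_cyl_div`: for `X = a(p,z) e_p + c(p,z) e_z`: components `X_i = (a/p) x_i` (`i = 0,1`), `X_2 = c`;  `div X = a_p + a/p + c_z`  (`∑_{i<2} x_i ∂_i (a/p) = p ∂_p (a/p) = a_p - a/p`, plus `2 a/p`).

GP-C3: integration by parts.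
* `gp_contDiff_of_tsupport`: `C¹` on an open set times a `C¹` function supported inside is globally `C¹` (at `x ∉ O` the product vanishes near `x`).
* `gp_div_ibp`: `IsWeakGrad` against a `C¹_c` field: componentwise definition of `IsWeakGrad` with `v = single i 1`, extended from `C^∞_c` to `C¹_c` tests (kit WS: `wsg_test_C1` through the bridge `isWeakGrad_iff_weakGrad`,
  or `wsg_div_ibp` + `wsDiv = gpDiv` (trace in two orthonormal bases)).
* `gp_div_ibp_local`: take `κ ∈ C^∞_c`, `κ = 1` near `tsupport φ`, `tsupport κ ⊆ O` (`gp_exists_cutoff`); `κ X` is `C¹_c`; `Φ = 0` a.e. off `tsupport φ`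
  (`tk_weakGrad_eq_gradient_on` on the open set `(tsupport φ)ᶜ`, where `φ = 0`).
* `gp_gauss_half`: `H_j(z) = Real.smoothTransition ((j+1) z)`; `∫ H_j(x 2) div Z = -∫ H_j'(x 2) Z_2 = 0` for `1/(j+1) < ℓ` (`gp_div_ibp` with `φ = H_j(x 2) κ`, `κ = 1` near the support of `Z`; or Fubini); `H_j → 1_{z>0}` pointwise, dominated convergence.
-/

open MeasureTheory
open scoped ContDiff InnerProductSpace ENNReal Topology Manifold

noncomputable section

namespace Claimed.Open.R278

/-! ### GP-C1 -/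

theorem hrad_nonneg (x : Space) : 0 ≤ hrad x := Real.sqrt_nonneg _

theorem hrad_sq (x : Space) : hrad x ^ 2 = x 0 ^ 2 + x 1 ^ 2 := Real.sq_sqrt (by positivity)

theorem norm_sq_eq_hrad (x : Space) : ‖x‖ ^ 2 = hrad x ^ 2 + x 2 ^ 2 := by
  rw [norm_sq_space, hrad_sq]

theorem hrad_le_norm (x : Space) : hrad x ≤ ‖x‖ := by
  have h := norm_sq_eq_hrad x
  exact abs_le_of_sq_le_sq' (by nlinarith [sq_nonneg (x 2)]) (norm_nonneg _) |>.2

theorem norm_le_hrad_add (x : Space) : ‖x‖ ≤ hrad x + |x 2| := by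
  have h := norm_sq_eq_hrad x
  have h0 := hrad_nonneg x
  have h1 := abs_nonneg (x 2)
  refine abs_le_of_sq_le_sq' ?_ (by positivity) |>.2
  have : |x 2| ^ 2 = x 2 ^ 2 := sq_abs _
  nlinarith

theorem hrad_cyl {p : ℝ} (hp : 0 ≤ p) (z : ℝ) : hrad (cyl p z) = p := by
  simp [hrad, Real.sqrt_sq hp]

theorem gp_coord_eq_inner (i : Fin 3) (x : Space) : x i = ⟪EuclideanSpace.single i (1:ℝ), x⟫_ℝ := by
  simp [EuclideanSpace.inner_single_left]

theorem gp_coord_hasFDerivAt (i : Fin 3) (x : Space) :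
    HasFDerivAt (fun x : Space => x i) (innerSL ℝ (EuclideanSpace.single i (1:ℝ))) x := by
  have : (fun x : Space => x i) = fun x => innerSL ℝ (EuclideanSpace.single i (1:ℝ)) x := funext fun x => by
    rw [gp_coord_eq_inner]; rfl
  rw [this]
  exact (innerSL ℝ _).hasFDerivAt

theorem gp_coord_contDiff (i : Fin 3) : ContDiff ℝ ∞ (fun x : Space => x i) := by
  have : (fun x : Space => x i) = fun x => ⟪EuclideanSpace.single i (1:ℝ), x⟫_ℝ := funext (gp_coord_eq_inner i)
  rw [this]
  exact contDiff_const.inner ℝ contDiff_id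

theorem gp_coord_gradient (i : Fin 3) (x : Space) :
    gradient (fun x : Space => x i) x = EuclideanSpace.single i (1:ℝ) :=
  ob_gradient_of_hasFDerivAt (gp_coord_hasFDerivAt i x)

theorem hrad_continuous : Continuous hrad := by
  unfold hrad
  exact Real.continuous_sqrt.comp
    (((gp_coord_contDiff 0).continuous.pow 2).add ((gp_coord_contDiff 1).continuous.pow 2))

theorem hrad_reflZ (x : Space) : hrad (reflZ x) = hrad x := by
  simp [hrad]

theorem gp_hsq_contDiff : ContDiff ℝ ∞ (fun x : Space => x 0 ^ 2 + x 1 ^ 2) :=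
  ((gp_coord_contDiff 0).pow 2).add ((gp_coord_contDiff 1).pow 2)

theorem gp_hsq_pos {x : Space} (hx : 0 < hrad x) : 0 < x 0 ^ 2 + x 1 ^ 2 := by
  rw [← hrad_sq]; positivity

theorem hrad_contDiffAt {x : Space} (hx : 0 < hrad x) : ContDiffAt ℝ ∞ hrad x := by
  unfold hrad
  exact gp_hsq_contDiff.contDiffAt.sqrt (gp_hsq_pos hx).ne'

theorem hrad_differentiableAt {x : Space} (hx : 0 < hrad x) : DifferentiableAt ℝ hrad x :=
  (hrad_contDiffAt hx).differentiableAt (by simp)

/-- the horizontal projection. -/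
def gpP (x : Space) : Space := !₂[x 0, x 1, 0]

theorem gpP_eq (x : Space) :
    gpP x = x 0 • EuclideanSpace.single (0 : Fin 3) (1:ℝ) + x 1 • EuclideanSpace.single (1 : Fin 3) (1:ℝ) := by
  apply space_ext <;> simp [gpP]

theorem epVec_eq (x : Space) : epVec x = (hrad x)⁻¹ • gpP x := rfl

theorem gp_hsq_gradient (x : Space) : gradient (fun x : Space => x 0 ^ 2 + x 1 ^ 2) x = (2:ℝ) • gpP x := by
  have h0 : DifferentiableAt ℝ (fun x : Space => x 0) x := (gp_coord_hasFDerivAt 0 x).differentiableAt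
  have h1 : DifferentiableAt ℝ (fun x : Space => x 1) x := (gp_coord_hasFDerivAt 1 x).differentiableAt
  have e : (fun x : Space => x 0 ^ 2 + x 1 ^ 2) = fun x : Space => x 0 * x 0 + x 1 * x 1 := by
    funext y; ring
  have h00 : DifferentiableAt ℝ (fun x : Space => x 0 * x 0) x := h0.mul h0
  have h11 : DifferentiableAt ℝ (fun x : Space => x 1 * x 1) x := h1.mul h1
  rw [e, ob_gradient_add h00 h11, ob_gradient_mul h0 h0, ob_gradient_mul h1 h1,
    gp_coord_gradient, gp_coord_gradient, gpP_eq]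
  module

theorem hrad_gradient {x : Space} (hx : 0 < hrad x) : gradient hrad x = epVec x := by
  have h1 : DifferentiableAt ℝ (fun x : Space => x 0 ^ 2 + x 1 ^ 2) x :=
    gp_hsq_contDiff.differentiable (by simp) x
  have hpos := gp_hsq_pos hx
  have h2 : HasDerivAt Real.sqrt (1 / (2 * √(x 0 ^ 2 + x 1 ^ 2))) (x 0 ^ 2 + x 1 ^ 2) :=
    Real.hasDerivAt_sqrt hpos.ne'
  have h3 := ob_gradient_comp (Θ := Real.sqrt) h2.differentiableAt h1
  have e : hrad = fun y : Space => √(y 0 ^ 2 + y 1 ^ 2) := rfl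
  rw [e, h3, h2.deriv, gp_hsq_gradient, epVec_eq, smul_smul]
  congr 1
  have : hrad x = √(x 0 ^ 2 + x 1 ^ 2) := rfl
  rw [this]
  have := (Real.sqrt_pos.2 hpos).ne'
  field_simp

theorem gpP_norm (x : Space) : ‖gpP x‖ = hrad x := by
  have : ‖gpP x‖ ^ 2 = hrad x ^ 2 := by
    rw [norm_sq_space, hrad_sq]; simp [gpP]
  exact (sq_eq_sq₀ (norm_nonneg _) (hrad_nonneg _)).mp this

theorem epVec_norm {x : Space} (hx : 0 < hrad x) : ‖epVec x‖ = 1 := by
  rw [epVec_eq, norm_smul, gpP_norm, Real.norm_of_nonneg (by positivity)]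
  exact inv_mul_cancel₀ hx.ne'

theorem epVec_inner_ez (x : Space) : ⟪epVec x, ez⟫_ℝ = 0 := by
  rw [real_inner_comm, ← ob_coord_eq_inner]
  simp [epVec]

theorem gp_not_mem_nuclei_of_hrad {x : Space} (hx : 0 < hrad x) : x ∉ nuclei := by
  intro hmem
  have : hrad x = 0 := by
    rcases hmem with h | h
    · rw [h]; simp [hrad, ez]
    · rw [h]; simp [hrad, ez]
  linarith

theorem gp_not_mem_nuclei_of_norm {x : Space} (hx : bigD < ‖x‖) : x ∉ nuclei := by
  intro hmem
  have hD : (0:ℝ) < bigD := by unfold bigD; positivity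
  have : ‖x‖ = bigD := by
    rcases hmem with h | h
    · rw [h, norm_smul, ob_norm_ez, Real.norm_of_nonneg hD.le, mul_one]
    · rw [h, norm_neg, norm_smul, ob_norm_ez, Real.norm_of_nonneg hD.le, mul_one]
  linarith

/-- axisymmetric functions are functions of `(hrad x, x 2)`. -/
theorem gp_axi {f : Space → ℝ} (h : ∀ a x, f (rotZ a x) = f x) (x : Space) : f x = f (cyl (hrad x) (x 2)) := by
  obtain ⟨a, ha⟩ := exists_rotZ_cyl x
  conv_lhs => rw [ha]
  rw [h]
  rfl

theorem gp_partial_fst {f : ℝ → ℝ → ℝ} {p z : ℝ}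
    (hf : DifferentiableAt ℝ (fun q : ℝ × ℝ => f q.1 q.2) (p, z)) :
    HasDerivAt (fun p' => f p' z) (fderiv ℝ (fun q : ℝ × ℝ => f q.1 q.2) (p, z) (1, 0)) p :=
  HasFDerivAt.comp_hasDerivAt (f := fun p' : ℝ => (p', z)) p hf.hasFDerivAt
    ((hasDerivAt_id p).prodMk (hasDerivAt_const p z))

theorem gp_partial_snd {f : ℝ → ℝ → ℝ} {p z : ℝ}
    (hf : DifferentiableAt ℝ (fun q : ℝ × ℝ => f q.1 q.2) (p, z)) :
    HasDerivAt (f p) (fderiv ℝ (fun q : ℝ × ℝ => f q.1 q.2) (p, z) (0, 1)) z :=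
  HasFDerivAt.comp_hasDerivAt (f := fun z' : ℝ => (p, z')) z hf.hasFDerivAt
    ((hasDerivAt_const z p).prodMk (hasDerivAt_id z))

theorem gp_cylmap_hasFDerivAt {x : Space} (hx : 0 < hrad x) :
    HasFDerivAt (fun y : Space => (hrad y, y 2)) ((innerSL ℝ (epVec x)).prod (innerSL ℝ ez)) x := by
  have h1 := ob_hasFDerivAt_gradient (hrad_differentiableAt hx)
  rw [hrad_gradient hx] at h1
  exact h1.prodMk (ob_coord_hasFDerivAt x)

theorem gp_cyl_differentiableAt {f : ℝ → ℝ → ℝ} {x : Space} (hx : 0 < hrad x)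
    (hf : DifferentiableAt ℝ (fun q : ℝ × ℝ => f q.1 q.2) (hrad x, x 2)) :
    DifferentiableAt ℝ (fun y : Space => f (hrad y) (y 2)) x :=
  (HasFDerivAt.comp (g := fun q : ℝ × ℝ => f q.1 q.2) x hf.hasFDerivAt
    (gp_cylmap_hasFDerivAt hx)).differentiableAt

theorem gp_cyl_gradient {f : ℝ → ℝ → ℝ} {x : Space} (hx : 0 < hrad x)
    (hf : DifferentiableAt ℝ (fun q : ℝ × ℝ => f q.1 q.2) (hrad x, x 2)) :
    gradient (fun y : Space => f (hrad y) (y 2)) x
      = deriv (fun p => f p (x 2)) (hrad x) • epVec x + deriv (f (hrad x)) (x 2) • ez := by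
  rw [(gp_partial_fst hf).deriv, (gp_partial_snd hf).deriv]
  refine ob_gradient_of_hasFDerivAt ?_
  have h := HasFDerivAt.comp (g := fun q : ℝ × ℝ => f q.1 q.2) x hf.hasFDerivAt (gp_cylmap_hasFDerivAt hx)
  set F' := fderiv ℝ (fun q : ℝ × ℝ => f q.1 q.2) (hrad x, x 2) with hF'
  have e0 : innerSL ℝ (F' (1, 0) • epVec x + F' (0, 1) • ez)
      = F' ∘SL ((innerSL ℝ (epVec x)).prod (innerSL ℝ ez)) := by
    ext v
    have e : ((⟪epVec x, v⟫_ℝ, ⟪ez, v⟫_ℝ) : ℝ × ℝ)
        = ⟪epVec x, v⟫_ℝ • ((1:ℝ), (0:ℝ)) + ⟪ez, v⟫_ℝ • ((0:ℝ), (1:ℝ)) := by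
      ext <;> simp
    simp only [innerSL_apply_apply, ContinuousLinearMap.comp_apply, ContinuousLinearMap.prod_apply,
      inner_add_left, inner_smul_left, RCLike.conj_to_real]
    rw [e, map_add, map_smul, map_smul]
    simp only [smul_eq_mul]
    ring
  rw [e0]
  exact h

theorem gp_cylpt_contDiff : ContDiff ℝ ∞ fun q : ℝ × ℝ => cyl q.1 q.2 := by
  unfold cyl
  rw [contDiff_euclidean]
  intro i
  fin_cases i
  · exact contDiff_fst
  · exact contDiff_const
  · exact contDiff_snd

/-- the gradient of an axisymmetric function. -/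
theorem gp_axi_gradient {f : Space → ℝ} (h : ∀ a x, f (rotZ a x) = f x) {x : Space} (hx : 0 < hrad x)
    (hf : DifferentiableAt ℝ f (cyl (hrad x) (x 2))) :
    gradient f x = deriv (fun p => f (cyl p (x 2))) (hrad x) • epVec x
      + deriv (fun z => f (cyl (hrad x) z)) (x 2) • ez := by
  have h1 : DifferentiableAt ℝ (fun q : ℝ × ℝ => f (cyl q.1 q.2)) (hrad x, x 2) :=
    DifferentiableAt.comp (hrad x, x 2) (g := f) (f := fun q : ℝ × ℝ => cyl q.1 q.2) hf
      (gp_cylpt_contDiff.differentiable (by simp) _)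
  have h2 := gp_cyl_gradient (f := fun p z => f (cyl p z)) hx h1
  have e : (fun y : Space => f (cyl (hrad y) (y 2))) = f := funext fun y => (gp_axi h y).symm
  rw [e] at h2
  exact h2

/-- the horizontal radial derivative of an axisymmetric function. -/
theorem gp_axi_fderiv_ep {f : Space → ℝ} (h : ∀ a x, f (rotZ a x) = f x) {x : Space} (hx : 0 < hrad x)
    (hf : DifferentiableAt ℝ f (cyl (hrad x) (x 2))) :
    fderiv ℝ f x (epVec x) = deriv (fun p => f (cyl p (x 2))) (hrad x) := by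
  rw [← inner_gradient_left, gp_axi_gradient h hx hf, inner_add_left, inner_smul_left, inner_smul_left,
    real_inner_self_eq_norm_sq, epVec_norm hx, real_inner_comm, epVec_inner_ez]
  simp

/-! ### GP-C2 -/

theorem gpDiv_congr {X X' : Space → Space} {x : Space} (h : X =ᶠ[𝓝 x] X') : gpDiv X x = gpDiv X' x := by
  unfold gpDiv
  refine Finset.sum_congr rfl fun i _ => ?_
  have : (fun y => X y i) =ᶠ[𝓝 x] fun y => X' y i := h.mono fun y hy => by simp only [hy]
  rw [this.fderiv_eq]

theorem gp_comp_differentiableAt {X : Space → Space} {x : Space} (hX : DifferentiableAt ℝ X x) (i : Fin 3) :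
    DifferentiableAt ℝ (fun y => X y i) x := by
  have : (fun y => X y i) = fun y => ⟪EuclideanSpace.single i (1:ℝ), X y⟫_ℝ :=
    funext fun y => gp_coord_eq_inner i (X y)
  rw [this]
  exact (differentiableAt_const _).inner ℝ hX

theorem gp_sum_coord (L : Space →L[ℝ] ℝ) (v : Space) :
    ∑ i : Fin 3, v i * L (EuclideanSpace.single i 1) = L v := by
  have : v = ∑ i : Fin 3, v i • EuclideanSpace.single i (1:ℝ) := by
    apply space_ext <;> simp [Fin.sum_univ_three]
  conv_rhs => rw [this]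
  rw [map_sum]
  simp

theorem gpDiv_add {X X' : Space → Space} {x : Space} (hX : DifferentiableAt ℝ X x)
    (hX' : DifferentiableAt ℝ X' x) : gpDiv (fun y => X y + X' y) x = gpDiv X x + gpDiv X' x := by
  unfold gpDiv
  rw [← Finset.sum_add_distrib]
  refine Finset.sum_congr rfl fun i _ => ?_
  have e : (fun y => (X y + X' y) i) = fun y => X y i + X' y i := rfl
  rw [e, fderiv_fun_add (gp_comp_differentiableAt hX i) (gp_comp_differentiableAt hX' i)]
  rfl

theorem gpDiv_const (w x : Space) : gpDiv (fun _ => w) x = 0 := by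
  unfold gpDiv
  simp

theorem gpDiv_smul {a : Space → ℝ} {X : Space → Space} {x : Space} (ha : DifferentiableAt ℝ a x)
    (hX : DifferentiableAt ℝ X x) :
    gpDiv (fun y => a y • X y) x = ⟪gradient a x, X x⟫_ℝ + a x * gpDiv X x := by
  unfold gpDiv
  rw [inner_gradient_left, ← gp_sum_coord (fderiv ℝ a x) (X x), Finset.mul_sum, ← Finset.sum_add_distrib]
  refine Finset.sum_congr rfl fun i _ => ?_
  have e : (fun y => (a y • X y) i) = fun y => a y * X y i := rfl
  rw [e, fderiv_fun_mul ha (gp_comp_differentiableAt hX i)]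
  simp only [add_apply, smul_apply, smul_eq_mul]
  ring

theorem gpP_contDiff : ContDiff ℝ ∞ gpP := by
  unfold gpP
  rw [contDiff_euclidean]
  intro i
  fin_cases i
  · exact gp_coord_contDiff 0
  · exact gp_coord_contDiff 1
  · exact contDiff_const

theorem gpP_div (x : Space) : gpDiv gpP x = 2 := by
  unfold gpDiv
  rw [Fin.sum_univ_three]
  have e0 : (fun y => gpP y 0) = fun y : Space => y 0 := rfl
  have e1 : (fun y => gpP y 1) = fun y : Space => y 1 := rfl
  have e2 : (fun y => gpP y 2) = fun _ : Space => (0:ℝ) := rfl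
  rw [e0, e1, e2, (gp_coord_hasFDerivAt 0 x).fderiv, (gp_coord_hasFDerivAt 1 x).fderiv]
  simp
  norm_num

theorem epVec_differentiableAt {x : Space} (hx : 0 < hrad x) : DifferentiableAt ℝ epVec x := by
  have : epVec = fun y => (hrad y)⁻¹ • gpP y := rfl
  rw [this]
  exact ((hrad_differentiableAt hx).inv hx.ne').smul (gpP_contDiff.differentiable (by simp) x)

theorem epVec_div {x : Space} (hx : 0 < hrad x) : gpDiv epVec x = 1 / hrad x := by
  have e : epVec = fun y => (hrad y)⁻¹ • gpP y := rfl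
  have hinv : DifferentiableAt ℝ (fun y => (hrad y)⁻¹) x := (hrad_differentiableAt hx).inv hx.ne'
  rw [e, gpDiv_smul hinv (gpP_contDiff.differentiable (by simp) x), gpP_div]
  have h1 : gradient (fun y => (hrad y)⁻¹) x = (-(hrad x ^ 2)⁻¹) • epVec x := by
    have := ob_gradient_comp (Θ := fun t : ℝ => t⁻¹) (f := hrad) (x := x)
      (differentiableAt_inv hx.ne') (hrad_differentiableAt hx)
    rw [this, hrad_gradient hx]
    congr 1
    simp
  rw [h1, epVec_eq, inner_smul_left, inner_smul_left, real_inner_self_eq_norm_sq, gpP_norm]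
  simp only [RCLike.conj_to_real]
  field_simp
  ring

theorem gp_cyl_div {a c : ℝ → ℝ → ℝ} {x : Space} (hx : 0 < hrad x)
    (ha : DifferentiableAt ℝ (fun q : ℝ × ℝ => a q.1 q.2) (hrad x, x 2))
    (hc : DifferentiableAt ℝ (fun q : ℝ × ℝ => c q.1 q.2) (hrad x, x 2)) :
    gpDiv (fun y : Space => a (hrad y) (y 2) • epVec y + c (hrad y) (y 2) • ez) x
      = deriv (fun p => a p (x 2)) (hrad x) + a (hrad x) (x 2) / hrad x + deriv (c (hrad x)) (x 2) := by
  have hA := gp_cyl_differentiableAt hx ha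
  have hC := gp_cyl_differentiableAt hx hc
  have hep := epVec_differentiableAt hx
  have hAe : DifferentiableAt ℝ (fun y : Space => a (hrad y) (y 2) • epVec y) x := hA.smul hep
  have hCe : DifferentiableAt ℝ (fun y : Space => c (hrad y) (y 2) • ez) x := hC.smul (differentiableAt_const _)
  rw [gpDiv_add hAe hCe, gpDiv_smul hA hep,
    gpDiv_smul hC (differentiableAt_const _), gpDiv_const, gp_cyl_gradient hx ha, gp_cyl_gradient hx hc,
    epVec_div hx]
  simp only [inner_add_left, inner_smul_left, RCLike.conj_to_real, real_inner_self_eq_norm_sq, epVec_norm hx,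
    epVec_inner_ez, ob_norm_ez]
  rw [real_inner_comm, epVec_inner_ez]
  ring

/-! ### GP-C3 -/


theorem gp_exists_cutoff {K O : Set Space} (hK : IsCompact K) (hO : IsOpen O) (hKO : K ⊆ O) :
    ∃ κ : Space → ℝ, ContDiff ℝ ∞ κ ∧ HasCompactSupport κ ∧ tsupport κ ⊆ O ∧ (∀ᶠ x in 𝓝ˢ K, κ x = 1) ∧
      ∀ x, 0 ≤ κ x ∧ κ x ≤ 1 := by
  obtain ⟨K', hK'c, hKK', hK'O⟩ := exists_compact_between hK hO hKO
  obtain ⟨f, h1, h0, hf⟩ := exists_contMDiffMap_one_nhds_of_subset_interior (n := (⊤ : ℕ∞)) 𝓘(ℝ, Space)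
    hK.isClosed hKK'
  have hts : tsupport f ⊆ K' := by
    refine closure_minimal (fun x hx => ?_) hK'c.isClosed
    by_contra hno
    exact hx (h0 x hno)
  refine ⟨f, contMDiff_iff_contDiff.1 f.contMDiff, ?_, hts.trans hK'O, h1, fun x => hf x⟩
  exact hK'c.of_isClosed_subset (isClosed_tsupport _) hts

theorem gp_contDiff_of_tsupport {F : Type*} [NormedAddCommGroup F] [NormedSpace ℝ F] {X : Space → F}
    {a : Space → ℝ} {O : Set Space} (hO : IsOpen O) (hX : ContDiffOn ℝ 1 X O) (ha : ContDiff ℝ 1 a)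
    (hs : tsupport a ⊆ O) : ContDiff ℝ 1 (fun x => a x • X x) := by
  rw [contDiff_iff_contDiffAt]
  intro x
  by_cases hx : x ∈ O
  · exact ha.contDiffAt.smul (hX.contDiffAt (hO.mem_nhds hx))
  · have h1 : x ∉ tsupport a := fun h => hx (hs h)
    have h2 : a =ᶠ[𝓝 x] 0 := notMem_tsupport_iff_eventuallyEq.1 h1
    have h3 : (fun x => a x • X x) =ᶠ[𝓝 x] fun _ => (0 : F) := h2.mono fun y hy => by
      simp only [hy, Pi.zero_apply, zero_smul]
    exact contDiffAt_const.congr_of_eventuallyEq h3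

theorem gpDiv_eq_wsDiv {X : Space → Space} {x : Space} (hX : DifferentiableAt ℝ X x) :
    gpDiv X x = Claimed.Agent.R259.wsDiv X x := by
  unfold gpDiv Claimed.Agent.R259.wsDiv
  have h1 := LinearMap.trace_eq_sum_inner (fderiv ℝ X x : Space →ₗ[ℝ] Space) (stdOrthonormalBasis ℝ Space)
  have h2 := LinearMap.trace_eq_sum_inner (fderiv ℝ X x : Space →ₗ[ℝ] Space) (EuclideanSpace.basisFun (Fin 3) ℝ)
  have e1 : ∑ i, ⟪fderiv ℝ X x (stdOrthonormalBasis ℝ Space i), stdOrthonormalBasis ℝ Space i⟫_ℝ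
      = LinearMap.trace ℝ Space (fderiv ℝ X x : Space →ₗ[ℝ] Space) := by
    rw [h1]
    exact Finset.sum_congr rfl fun i _ => real_inner_comm _ _
  rw [e1, h2]
  refine Finset.sum_congr rfl fun i _ => ?_
  have e : (fun y => X y i) = fun y => ⟪X y, EuclideanSpace.single i (1:ℝ)⟫_ℝ := funext fun y => by
    rw [real_inner_comm]; exact gp_coord_eq_inner i (X y)
  rw [e, Claimed.Agent.R259.wsi_fderiv_inner hX, real_inner_comm]
  simp

theorem gp_div_ibp {φ : Space → ℝ} {Φ : Space → Space} (h : IsWeakGrad φ Φ) {X : Space → Space}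
    (hX : ContDiff ℝ 1 X) (hc : HasCompactSupport X) :
    (∫ x, ⟪Φ x, X x⟫_ℝ) = -(∫ x, φ x * gpDiv X x) := by
  rw [Claimed.Agent.R259.wsg_div_ibp (isWeakGrad_iff_weakGrad.1 h) hX hc]
  congr 1
  refine integral_congr_ae (Filter.Eventually.of_forall fun x => ?_)
  simp only [gpDiv_eq_wsDiv (hX.differentiable (by simp) x)]

theorem gp_div_ibp_local {φ : Space → ℝ} {Φ : Space → Space} (h : IsWeakGrad φ Φ) (hc : HasCompactSupport φ)
    {O : Set Space} (hO : IsOpen O) (hs : tsupport φ ⊆ O) {X : Space → Space} (hX : ContDiffOn ℝ 1 X O) :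
    (∫ x, ⟪Φ x, X x⟫_ℝ) = -(∫ x, φ x * gpDiv X x) := by
  obtain ⟨κ, hκ, hκc, hκO, hκ1, -⟩ := gp_exists_cutoff hc hO hs
  have hκX : ContDiff ℝ 1 (fun x => κ x • X x) := gp_contDiff_of_tsupport hO hX (hκ.of_le (by simp)) hκO
  have hκXc : HasCompactSupport (fun x => κ x • X x) := hκc.smul_right
  have h1 := gp_div_ibp h hκX hκXc
  have hnear : ∀ x ∈ tsupport φ, ∀ᶠ y in 𝓝 x, κ y = 1 := fun x hx =>
    (Filter.eventually_iff.1 hκ1 |> fun hh => Filter.Eventually.filter_mono (nhds_le_nhdsSet hx) hκ1)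
  -- right-hand sides agree
  have e2 : (fun x => φ x * gpDiv (fun x => κ x • X x) x) = fun x => φ x * gpDiv X x := by
    funext x
    by_cases hx : x ∈ tsupport φ
    · have : (fun x => κ x • X x) =ᶠ[𝓝 x] X := (hnear x hx).mono fun y hy => by simp only [hy, one_smul]
      rw [gpDiv_congr this]
    · have : φ x = 0 := image_eq_zero_of_notMem_tsupport hx
      simp [this]
  -- left-hand sides agree a.e.
  have hzero : ∀ᵐ x, x ∈ (tsupport φ)ᶜ → Φ x = gradient φ x :=
    tk_weakGrad_eq_gradient_on h (isClosed_tsupport φ).isOpen_compl (by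
      have : ContDiffOn ℝ 1 (fun _ : Space => (0:ℝ)) (tsupport φ)ᶜ := contDiffOn_const
      exact this.congr fun x hx => image_eq_zero_of_notMem_tsupport hx)
  have e1 : (fun x => ⟪Φ x, κ x • X x⟫_ℝ) =ᵐ[volume] fun x => ⟪Φ x, X x⟫_ℝ := by
    filter_upwards [hzero] with x hx
    by_cases hxs : x ∈ tsupport φ
    · rw [(hnear x hxs).self_of_nhds, one_smul]
    · have h0 : φ =ᶠ[𝓝 x] 0 := notMem_tsupport_iff_eventuallyEq.1 hxs
      have h3 : gradient φ x = 0 := by
        have : gradient φ x = gradient (fun _ : Space => (0:ℝ)) x := by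
          unfold gradient
          rw [h0.fderiv_eq]
          rfl
        rw [this, ob_gradient_const]
      rw [hx hxs, h3, inner_zero_left, inner_zero_left]
  rw [← integral_congr_ae e1, h1, e2]

theorem gp_upperHalf_isOpen : IsOpen upperHalf :=
  isOpen_lt continuous_const ob_coord_contDiff.continuous

theorem gpDiv_continuous {Z : Space → Space} (hZ : ContDiff ℝ 1 Z) : Continuous (gpDiv Z) := by
  unfold gpDiv
  refine continuous_finsetSum _ fun i _ => ?_
  have hi : ContDiff ℝ 1 (fun y => Z y i) := by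
    have : (fun y => Z y i) = fun y => ⟪EuclideanSpace.single i (1:ℝ), Z y⟫_ℝ :=
      funext fun y => gp_coord_eq_inner i (Z y)
    rw [this]
    exact contDiff_const.inner ℝ hZ
  exact (hi.continuous_fderiv (by simp)).clm_apply continuous_const

theorem gpDiv_hasCompactSupport {Z : Space → Space} (hc : HasCompactSupport Z) :
    HasCompactSupport (gpDiv Z) := by
  refine HasCompactSupport.intro hc fun x hx => ?_
  have h0 : Z =ᶠ[𝓝 x] fun _ => (0 : Space) := notMem_tsupport_iff_eventuallyEq.1 hx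
  rw [gpDiv_congr h0]
  unfold gpDiv
  simp

theorem gp_smoothTransition_deriv_eq_zero {t : ℝ} (ht : t < 0 ∨ 1 < t) : deriv Real.smoothTransition t = 0 := by
  rcases ht with h | h
  · have : Real.smoothTransition =ᶠ[𝓝 t] fun _ => (0:ℝ) :=
      (gt_mem_nhds h).mono fun s hs => Real.smoothTransition.zero_of_nonpos (le_of_lt hs)
    rw [this.deriv_eq, deriv_const]
  · have : Real.smoothTransition =ᶠ[𝓝 t] fun _ => (1:ℝ) :=
      (lt_mem_nhds h).mono fun s hs => Real.smoothTransition.one_of_one_le (le_of_lt hs)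
    rw [this.deriv_eq, deriv_const]

/-- Gauss' theorem on the half space for fields which are tangential near the plane. -/
theorem gp_gauss_half {Z : Space → Space} (hZ : ContDiff ℝ 1 Z) (hc : HasCompactSupport Z) {ℓ : ℝ} (hℓ : 0 < ℓ)
    (h0 : ∀ x : Space, |x 2| < ℓ → Z x 2 = 0) : (∫ x in upperHalf, gpDiv Z x) = 0 := by
  set H : ℕ → Space → ℝ := fun j x => Real.smoothTransition (((j:ℝ) + 1) * x 2) with hH
  have hHc : ∀ j, ContDiff ℝ ∞ (H j) := fun j =>
    Real.smoothTransition.contDiff.comp (contDiff_const.mul ob_coord_contDiff)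
  have hgrad : ∀ j x, gradient (H j) x
      = (deriv Real.smoothTransition (((j:ℝ) + 1) * x 2) * ((j:ℝ) + 1)) • ez := by
    intro j x
    have h1 : DifferentiableAt ℝ (fun y : Space => y 2) x := (ob_coord_hasFDerivAt x).differentiableAt
    have h2 : DifferentiableAt ℝ (fun y : Space => ((j:ℝ) + 1) * y 2) x := h1.const_mul _
    rw [hH]
    have h3 : DifferentiableAt ℝ Real.smoothTransition (((j:ℝ) + 1) * x 2) :=
      (Real.smoothTransition.contDiff (n := 1)).differentiable (by simp) _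
    rw [ob_gradient_comp h3 h2,
      ob_gradient_const_mul _ h1, ob_coord_gradient, smul_smul]
  have hzero : ∀ j : ℕ, 1 / ((j:ℝ) + 1) < ℓ → (∫ x, H j x * gpDiv Z x) = 0 := by
    intro j hj
    have hw : IsWeakGrad (H j) (gradient (H j)) :=
      isWeakGrad_iff_weakGrad.2 (Claimed.Agent.R259.ws_weakGrad_of_contDiff ((hHc j).of_le (by simp)))
    have h1 := gp_div_ibp hw hZ hc
    have h2 : (fun x => ⟪gradient (H j) x, Z x⟫_ℝ) = fun _ => (0:ℝ) := by
      funext x
      rw [hgrad, inner_smul_left, ← ob_coord_eq_inner]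
      by_cases hx : |x 2| < ℓ
      · rw [h0 x hx, mul_zero]
      · have hj1 : (0:ℝ) < (j:ℝ) + 1 := by positivity
        have : ((j:ℝ) + 1) * x 2 < 0 ∨ 1 < ((j:ℝ) + 1) * x 2 := by
          rw [not_lt] at hx
          rcases le_abs'.1 hx with h | h
          · left; nlinarith
          · right
            rw [div_lt_iff₀ hj1] at hj
            nlinarith
        rw [gp_smoothTransition_deriv_eq_zero this]
        simp
    rw [h2] at h1
    simp only [integral_zero] at h1
    linarith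
  have hcont := gpDiv_continuous hZ
  have hint : Integrable (gpDiv Z) := hcont.integrable_of_hasCompactSupport (gpDiv_hasCompactSupport hc)
  have hlim : Filter.Tendsto (fun j => ∫ x, H j x * gpDiv Z x) Filter.atTop
      (𝓝 (∫ x, upperHalf.indicator (gpDiv Z) x)) := by
    refine tendsto_integral_of_dominated_convergence (fun x => ‖gpDiv Z x‖) (fun j => ?_) hint.norm
      (fun j => Filter.Eventually.of_forall fun x => ?_) (Filter.Eventually.of_forall fun x => ?_)
    · exact ((hHc j).continuous.mul hcont).aestronglyMeasurable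
    · rw [norm_mul]
      have h1 : ‖H j x‖ ≤ 1 := by
        rw [Real.norm_of_nonneg (Real.smoothTransition.nonneg _)]
        exact Real.smoothTransition.le_one _
      calc ‖H j x‖ * ‖gpDiv Z x‖ ≤ 1 * ‖gpDiv Z x‖ := by gcongr
        _ = _ := one_mul _
    · by_cases hx : x ∈ upperHalf
      · rw [Set.indicator_of_mem hx]
        have hx' : 0 < x 2 := hx
        obtain ⟨N, hN⟩ := exists_nat_gt (1 / x 2)
        refine tendsto_const_nhds.congr' ?_
        filter_upwards [Filter.eventually_ge_atTop N] with j hj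
        have hjN : (N:ℝ) ≤ j := by exact_mod_cast hj
        have : 1 ≤ ((j:ℝ) + 1) * x 2 := by
          rw [div_lt_iff₀ hx'] at hN
          nlinarith
        simp only [hH, Real.smoothTransition.one_of_one_le this, one_mul]
      · rw [Set.indicator_of_notMem hx]
        have hx' : x 2 ≤ 0 := not_lt.1 hx
        refine tendsto_const_nhds.congr fun j => ?_
        have : ((j:ℝ) + 1) * x 2 ≤ 0 := mul_nonpos_of_nonneg_of_nonpos (by positivity) hx'
        simp only [hH, Real.smoothTransition.zero_of_nonpos this, zero_mul]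
  have hev : ∀ᶠ j : ℕ in Filter.atTop, (∫ x, H j x * gpDiv Z x) = 0 := by
    obtain ⟨N, hN⟩ := exists_nat_gt (1 / ℓ)
    filter_upwards [Filter.eventually_ge_atTop N] with j hj
    apply hzero
    have hjN : (N:ℝ) ≤ j := by exact_mod_cast hj
    rw [div_lt_iff₀ (by positivity)]
    rw [div_lt_iff₀ hℓ] at hN
    nlinarith
  rw [← integral_indicator gp_upperHalf_isOpen.measurableSet]
  exact tendsto_nhds_unique hlim (tendsto_const_nhds.congr' (hev.mono fun j hj => hj.symm))

end Claimed.Open.R278
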