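import Claimed.Open.R278.STDefs

/-!
# Package ST, leaf ST-H: the boundary cost (4.22), by a Riccati argument (no exact solution needed)

`W > 0` on `[0,L)`, `W(L) = 0`, `W' < 0`, `(ν W')' ≤ κ ν W` (1-D SUPERsolution).  Put `σ = -W'/W` and `Φ = ν σ H²` on `[0,L)`.
`(ν σ)' = -(ν W')'/W + ν σ² ≥ -κ ν + ν σ²`, hence
`Φ' ≥ -κ ν H² + ν σ² H² + 2 ν σ H H' = -κ ν H² + ν (σ H + H')² - ν H'² ≥ -ν (H'² + κ H²)`.
So `Ψ(z) = Φ(z) + ∫_{z₀}^z ν (H'² + κ H²)` is nondecreasing on `[z₀, L)` (`monotoneOn_of_deriv_nonneg` or the mean value inequality),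
and `Φ(z) → 0` as `z ↑ L`:  `W' = (ν W')/ν` is continuous on `[0,L]`, so `-W' ≥ c > 0`, `W(z) ≥ c (L - z)`, `ν |W'| ≤ C`, and
`|H(z)| ≤ C' (L - z)` since `H(L) = 0` and `H'` is bounded.

`st_cost_cos`: apply `st_cost` to `H = cos(a z) F`, `a = π/(2L)`, and use the identity
`F'² + a² F² - ((cos(az) F)')² = (sin(az) F' + a cos(az) F)² ≥ 0` and `cos² ≤ 1`.
-/

open MeasureTheory Set
open scoped ContDiff Topology

noncomputable section

namespace Claimed.Open.R278

theorem st_cost {ν W W' w H H' : ℝ → ℝ} {κ : ℝ} (hνc : ContinuousOn ν (Icc 0 stripL))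
    (hν : ∀ z ∈ Icc 0 stripL, 0 < ν z)
    (hW : ∀ z ∈ Icc 0 stripL, HasDerivWithinAt W (W' z) (Icc 0 stripL) z)
    (hw : ∀ z ∈ Icc 0 stripL, HasDerivWithinAt (fun s => ν s * W' s) (w z) (Icc 0 stripL) z)
    (hle : ∀ z ∈ Icc 0 stripL, w z ≤ κ * (ν z * W z))
    (hWpos : ∀ z ∈ Ico 0 stripL, 0 < W z) (hWL : W stripL = 0) (hW' : ∀ z ∈ Icc 0 stripL, W' z < 0)
    (hH : ∀ z ∈ Icc 0 stripL, HasDerivWithinAt H (H' z) (Icc 0 stripL) z)
    (hH'c : ContinuousOn H' (Icc 0 stripL)) (hHL : H stripL = 0) {z₀ : ℝ} (hz₀ : z₀ ∈ Ico 0 stripL) :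
    ν z₀ * (-(W' z₀) / W z₀) * H z₀ ^ 2 ≤ ∫ z in z₀..stripL, ν z * (H' z ^ 2 + κ * H z ^ 2) := by
  have hLpos : (0 : ℝ) < stripL := by unfold stripL; norm_num
  have hLI : stripL ∈ Icc 0 stripL := ⟨hLpos.le, le_rfl⟩
  set F : ℝ → ℝ := fun s => ν s * W' s with hF
  have hFc : ContinuousOn F (Icc 0 stripL) := fun z hz => (hw z hz).continuousWithinAt
  have hWc : ContinuousOn W (Icc 0 stripL) := fun z hz => (hW z hz).continuousWithinAt
  have hHc : ContinuousOn H (Icc 0 stripL) := fun z hz => (hH z hz).continuousWithinAt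
  have hW'c : ContinuousOn W' (Icc 0 stripL) := by
    refine (hFc.div hνc fun z hz => (hν z hz).ne').congr fun z hz => ?_
    have := (hν z hz).ne'
    simp only [hF, Pi.div_apply]
    field_simp
  -- constants
  obtain ⟨B, hB⟩ := isCompact_Icc.exists_bound_of_continuousOn hFc
  obtain ⟨C', hC'⟩ := isCompact_Icc.exists_bound_of_continuousOn hH'c
  obtain ⟨zm, hzm, hmax⟩ := isCompact_Icc.exists_isMaxOn (nonempty_Icc.2 hLpos.le) hW'c
  set c : ℝ := -(W' zm) with hc
  have hcpos : 0 < c := by have := hW' zm hzm; rw [hc]; linarith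
  have hWlow : ∀ z ∈ Icc 0 stripL, c * (stripL - z) ≤ W z := by
    intro z hz
    have := Convex.mul_sub_le_image_sub_of_le_deriv (D := Icc 0 stripL) (f := fun s => -W s) (C := c)
      (convex_Icc _ _) hWc.neg
      (fun x hx => by
        rw [interior_Icc] at hx
        exact ((hW x ⟨hx.1.le, hx.2.le⟩).hasDerivAt (Icc_mem_nhds hx.1 hx.2)).fun_neg.differentiableAt.differentiableWithinAt)
      (fun x hx => by
        rw [interior_Icc] at hx
        rw [((hW x ⟨hx.1.le, hx.2.le⟩).hasDerivAt (Icc_mem_nhds hx.1 hx.2)).fun_neg.deriv]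
        have : W' x ≤ W' zm := hmax ⟨hx.1.le, hx.2.le⟩
        rw [hc]; linarith)
      z hz stripL hLI hz.2
    simp only [hWL, neg_zero] at this
    linarith
  have hHup : ∀ z ∈ Icc 0 stripL, |H z| ≤ C' * (stripL - z) := by
    intro z hz
    have := Convex.norm_image_sub_le_of_norm_hasDerivWithin_le (f := H) (f' := H') (C := C')
      (s := Icc 0 stripL) hH hC' (convex_Icc _ _) hLI hz
    rw [hHL, sub_zero, Real.norm_eq_abs, Real.norm_eq_abs, abs_sub_comm z stripL,
      abs_of_nonneg (by linarith [hz.2] : 0 ≤ stripL - z)] at this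
    exact this
  have hC'0 : 0 ≤ C' := (norm_nonneg _).trans (hC' 0 ⟨le_rfl, hLpos.le⟩)
  have hB0 : 0 ≤ B := (norm_nonneg _).trans (hB 0 ⟨le_rfl, hLpos.le⟩)
  set Φ : ℝ → ℝ := fun z => -(F z) * H z ^ 2 / W z with hΦ
  have hΦL : Φ stripL = 0 := by simp only [hΦ, hWL, div_zero]
  have hΦbd : ∀ z ∈ Icc 0 stripL, |Φ z| ≤ B * C' ^ 2 / c * (stripL - z) := by
    intro z hz
    rcases eq_or_lt_of_le hz.2 with h | h
    · rw [h, hΦL]; simp
    have hd : 0 < stripL - z := by linarith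
    have hWz := hWpos z ⟨hz.1, h⟩
    simp only [hΦ]
    rw [abs_div, abs_of_pos hWz, div_le_iff₀ hWz, abs_mul, abs_neg, abs_pow]
    have h1 : |F z| ≤ B := hB z hz
    have h2 := hHup z hz
    have h3 : |H z| ^ 2 ≤ (C' * (stripL - z)) ^ 2 := pow_le_pow_left₀ (abs_nonneg _) h2 2
    have h4 := hWlow z hz
    calc |F z| * |H z| ^ 2 ≤ B * (C' * (stripL - z)) ^ 2 :=
          mul_le_mul h1 h3 (by positivity) hB0
      _ = B * C' ^ 2 / c * (stripL - z) * (c * (stripL - z)) := by field_simp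
      _ ≤ B * C' ^ 2 / c * (stripL - z) * W z := by
          apply mul_le_mul_of_nonneg_left h4
          positivity
  have hsub : Icc z₀ stripL ⊆ Icc 0 stripL := Icc_subset_Icc_left hz₀.1
  have hΦc : ContinuousOn Φ (Icc z₀ stripL) := by
    intro z hz
    rcases eq_or_lt_of_le hz.2 with h | h
    · -- at the endpoint
      rw [h]
      unfold ContinuousWithinAt
      rw [hΦL]
      have hlim : Filter.Tendsto (fun z => B * C' ^ 2 / c * (stripL - z)) (𝓝[Icc z₀ stripL] stripL) (𝓝 0) := by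
        have : Filter.Tendsto (fun z => B * C' ^ 2 / c * (stripL - z)) (𝓝 stripL)
            (𝓝 (B * C' ^ 2 / c * (stripL - stripL))) := by
          apply Continuous.tendsto
          fun_prop
        rw [sub_self, mul_zero] at this
        exact this.mono_left nhdsWithin_le_nhds
      refine squeeze_zero_norm' ?_ hlim
      filter_upwards [self_mem_nhdsWithin] with y hy
      rw [Real.norm_eq_abs]
      exact hΦbd y (hsub hy)
    · have hzI := hsub hz
      exact (((hFc z hzI).neg.mul ((hHc z hzI).pow 2)).div (hWc z hzI) (hWpos z ⟨hzI.1, h⟩).ne').mono hsub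
  set g : ℝ → ℝ := fun z => ν z * (H' z ^ 2 + κ * H z ^ 2) with hg
  have hgc : ContinuousOn g (Icc 0 stripL) :=
    hνc.mul ((hH'c.pow 2).add (continuousOn_const.mul (hHc.pow 2)))
  have key := intervalIntegral.sub_le_integral_of_hasDeriv_right_of_le (a := z₀) (b := stripL)
    (g := fun z => -Φ z)
    (g' := fun x => -(((-(w x) * H x ^ 2 + -(F x) * (2 * H x * H' x)) * W x - -(F x) * H x ^ 2 * W' x) / W x ^ 2))
    (φ := g) hz₀.2.le hΦc.neg
    (fun x hx => by
      have hx' : x ∈ Ioo 0 stripL := ⟨lt_of_le_of_lt hz₀.1 hx.1, hx.2⟩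
      have hxI : x ∈ Icc 0 stripL := ⟨hx'.1.le, hx'.2.le⟩
      have hn := Icc_mem_nhds hx'.1 hx'.2
      have d1 := (hw x hxI).hasDerivAt hn
      have d2 := (hH x hxI).hasDerivAt hn
      have d3 := (hW x hxI).hasDerivAt hn
      have d4 : HasDerivAt (fun z => H z ^ 2) (2 * H x * H' x) x := by
        have := d2.fun_pow 2
        simpa using this
      have d5 := ((d1.neg.mul d4).div d3 (hWpos x ⟨hx'.1.le, hx'.2⟩).ne').neg
      exact d5.hasDerivWithinAt)
    ((hgc.mono hsub).integrableOn_Icc)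
    (fun x hx => by
      have hx' : x ∈ Ioo 0 stripL := ⟨lt_of_le_of_lt hz₀.1 hx.1, hx.2⟩
      have hxI : x ∈ Icc 0 stripL := ⟨hx'.1.le, hx'.2.le⟩
      have hWx := hWpos x ⟨hx'.1.le, hx'.2⟩
      have hνx := hν x hxI
      have hlex := hle x hxI
      rw [neg_le, ← sub_nonneg]
      have e : ((-(w x) * H x ^ 2 + -(F x) * (2 * H x * H' x)) * W x - -(F x) * H x ^ 2 * W' x) / W x ^ 2 - -g x
          = (H x ^ 2 * W x * (κ * (ν x * W x) - w x) + ν x * (W' x * H x - W x * H' x) ^ 2) / W x ^ 2 := by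
        simp only [hg, hF]
        field_simp
        ring
      rw [e]
      have : 0 ≤ κ * (ν x * W x) - w x := by linarith
      positivity)
  simp only [hΦL, neg_zero, zero_sub, neg_neg] at key
  refine le_trans (le_of_eq ?_) key
  simp only [hΦ, hF]
  ring

/-- (4.22), started at any height `z₀ ∈ [0,L)`. -/
theorem st_cost_cos {ν W W' w F F' : ℝ → ℝ} {κ : ℝ} (hκ : 0 ≤ κ) (hνc : ContinuousOn ν (Icc 0 stripL))
    (hν : ∀ z ∈ Icc 0 stripL, 0 < ν z)
    (hW : ∀ z ∈ Icc 0 stripL, HasDerivWithinAt W (W' z) (Icc 0 stripL) z)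
    (hw : ∀ z ∈ Icc 0 stripL, HasDerivWithinAt (fun s => ν s * W' s) (w z) (Icc 0 stripL) z)
    (hle : ∀ z ∈ Icc 0 stripL, w z ≤ κ * (ν z * W z))
    (hWpos : ∀ z ∈ Ico 0 stripL, 0 < W z) (hWL : W stripL = 0) (hW' : ∀ z ∈ Icc 0 stripL, W' z < 0)
    (hF : ∀ z ∈ Icc 0 stripL, HasDerivWithinAt F (F' z) (Icc 0 stripL) z)
    (hF'c : ContinuousOn F' (Icc 0 stripL)) {z₀ : ℝ} (hz₀ : z₀ ∈ Ico 0 stripL) :
    ν z₀ * (-(W' z₀) / W z₀) * (Real.cos (Real.pi / (2 * stripL) * z₀) * F z₀) ^ 2 ≤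
      ∫ z in z₀..stripL, ν z * (F' z ^ 2 + (κ + (Real.pi / (2 * stripL)) ^ 2) * F z ^ 2) := by
  have hLpos : (0 : ℝ) < stripL := by unfold stripL; norm_num
  set a : ℝ := Real.pi / (2 * stripL) with ha
  have hFc : ContinuousOn F (Icc 0 stripL) := fun z hz => (hF z hz).continuousWithinAt
  have hcos : ∀ z : ℝ, HasDerivAt (fun s => Real.cos (a * s)) (-Real.sin (a * z) * a) z := by
    intro z
    have h1 : HasDerivAt (fun s => a * s) a z := by simpa using (hasDerivAt_id z).const_mul a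
    exact (Real.hasDerivAt_cos (a * z)).comp z h1
  have hH : ∀ z ∈ Icc 0 stripL, HasDerivWithinAt (fun s => Real.cos (a * s) * F s)
      (-Real.sin (a * z) * a * F z + Real.cos (a * z) * F' z) (Icc 0 stripL) z :=
    fun z hz => (hcos z).hasDerivWithinAt.mul (hF z hz)
  have hH'c : ContinuousOn (fun z => -Real.sin (a * z) * a * F z + Real.cos (a * z) * F' z) (Icc 0 stripL) := by
    have c1 : Continuous fun z : ℝ => -Real.sin (a * z) * a := by fun_prop
    have c2 : Continuous fun z : ℝ => Real.cos (a * z) := by fun_prop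
    exact (c1.continuousOn.mul hFc).add (c2.continuousOn.mul hF'c)
  have hHL : (fun s => Real.cos (a * s) * F s) stripL = 0 := by
    have : a * stripL = Real.pi / 2 := by rw [ha]; field_simp
    simp only [this, Real.cos_pi_div_two, zero_mul]
  have key := st_cost hνc hν hW hw hle hWpos hWL hW' hH hH'c hHL hz₀
  refine key.trans ?_
  have hsub : uIcc z₀ stripL ⊆ Icc 0 stripL := by
    rw [uIcc_of_le hz₀.2.le]; exact Icc_subset_Icc_left hz₀.1
  have c2 : Continuous fun z : ℝ => Real.cos (a * z) := by fun_prop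
  refine intervalIntegral.integral_mono_on hz₀.2.le ?_ ?_ fun z hz => ?_
  · exact ((hνc.mul ((hH'c.pow 2).add (continuousOn_const.mul
      ((c2.continuousOn.mul hFc).pow 2)))).mono hsub).intervalIntegrable
  · exact ((hνc.mul ((hF'c.pow 2).add (continuousOn_const.mul (hFc.pow 2)))).mono hsub).intervalIntegrable
  · have hνz := (hν z ⟨hz₀.1.trans hz.1, hz.2⟩).le
    apply mul_le_mul_of_nonneg_left _ hνz
    have hsc := Real.sin_sq_add_cos_sq (a * z)
    set sn := Real.sin (a * z)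
    set cs := Real.cos (a * z)
    have h1 : F' z ^ 2 + a ^ 2 * F z ^ 2 - (-sn * a * F z + cs * F' z) ^ 2
        = (sn * F' z + a * cs * F z) ^ 2 := by
      have : cs ^ 2 = 1 - sn ^ 2 := by linarith
      ring_nf
      rw [this]
      ring
    have h2 : κ * (cs * F z) ^ 2 ≤ κ * F z ^ 2 := by
      apply mul_le_mul_of_nonneg_left _ hκ
      have : cs ^ 2 ≤ 1 := by nlinarith [sq_nonneg sn]
      nlinarith [sq_nonneg (F z)]
    nlinarith [sq_nonneg (sn * F' z + a * cs * F z)]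

end Claimed.Open.R278
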