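import Claimed.Open.R278.STDefs

/-!
# Package ST, leaf ST-B: strict one-dimensional comparison, boundary point lemma, abstract margin

`st_compare`.  Let `z₁` minimise the continuous `v` on `[0,L]`.  If `v ≤ 0` somewhere in `(0,L)` then, because `v(0), v(L) ≥ 0`,
there is an INTERIOR minimiser `z₁` with `v(z₁) ≤ 0`; there `v'(z₁) = 0` and `(ν v')'(z₁) = w(z₁) < κ ν v (z₁) ≤ 0`, so `ν v' < 0`
on some `(z₁, z₁+ε)`, so `v' < 0` there and `v(z) < v(z₁)` by the mean value theorem: contradiction.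
Boundary point: `v ≥ 0 = v(0)` gives `v'(0) ≥ 0`; if `v'(0) = 0` then `w(0) < 0` and the same argument gives `v < 0` near `0`.

`st_margin_abs`.  The set is nonempty and bounded below by `0`, so `α = sInf` is its GLB.  `v(z)/z → v'(0) > 0` as `z ↓ 0`, so
`v(z)/z ≥ v'(0)/2` on some `(0,δ]`, and on `[δ,L]` the continuous positive function `v(z)/z` has a positive minimum.
-/

open MeasureTheory Set
open scoped ContDiff Topology

noncomputable section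

namespace Claimed.Open.R278

theorem st_hasDerivAt_of_within {f : ℝ → ℝ} {f' z : ℝ} (h : HasDerivWithinAt f f' (Icc 0 stripL) z)
    (hz : z ∈ Ioo 0 stripL) : HasDerivAt f f' z :=
  h.hasDerivAt (Icc_mem_nhds hz.1 hz.2)

/-- a function with nonpositive value and negative right derivative is negative just to the right. -/
theorem st_neg_right {F : ℝ → ℝ} {w z₁ : ℝ} (hz₁ : z₁ ∈ Ico 0 stripL)
    (hF : HasDerivWithinAt F w (Icc 0 stripL) z₁) (hw : w < 0) (h0 : F z₁ ≤ 0) :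
    ∃ ε > 0, z₁ + ε ≤ stripL ∧ ∀ s ∈ Ioc z₁ (z₁ + ε), F s < 0 := by
  have h1 : HasDerivWithinAt F w (Ioi z₁) z₁ := by
    have : HasDerivWithinAt F w (Icc z₁ stripL) z₁ := hF.mono (Icc_subset_Icc_left hz₁.1)
    exact (this.mono_of_mem_nhdsWithin (Icc_mem_nhdsGE_of_mem ⟨le_rfl, hz₁.2⟩)).Ioi_of_Ici
  rw [hasDerivWithinAt_iff_tendsto_slope' (by simp)] at h1
  have h2 : ∀ᶠ s in 𝓝[>] z₁, slope F z₁ s < 0 := h1.eventually (gt_mem_nhds hw)
  obtain ⟨u, hu, hus⟩ := (mem_nhdsGT_iff_exists_Ioc_subset).1 h2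
  refine ⟨min (u - z₁) (stripL - z₁), lt_min (by simpa using hu) (by linarith [hz₁.2]), ?_, ?_⟩
  · linarith [min_le_right (u - z₁) (stripL - z₁)]
  · intro s hs
    have hs' : s ∈ Ioc z₁ u := ⟨hs.1, by linarith [hs.2, min_le_left (u - z₁) (stripL - z₁)]⟩
    have h3 : slope F z₁ s < 0 := hus hs'
    rw [slope_def_field] at h3
    have h4 : 0 < s - z₁ := by linarith [hs.1]
    have h5 : F s - F z₁ < 0 := by
      by_contra hcon
      push Not at hcon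
      exact absurd h3 (not_lt.2 (div_nonneg hcon h4.le))
    linarith

theorem st_key {ν v v' w : ℝ → ℝ} (hν : ∀ z ∈ Icc 0 stripL, 0 < ν z)
    (hv : ∀ z ∈ Icc 0 stripL, HasDerivWithinAt v (v' z) (Icc 0 stripL) z)
    (hw : ∀ z ∈ Icc 0 stripL, HasDerivWithinAt (fun s => ν s * v' s) (w z) (Icc 0 stripL) z)
    {z₁ : ℝ} (hz₁ : z₁ ∈ Ico 0 stripL) (hwneg : w z₁ < 0) (hd : v' z₁ ≤ 0) :
    ∃ z₂ ∈ Ioc z₁ stripL, v z₂ < v z₁ := by
  have hz₁' : z₁ ∈ Icc 0 stripL := ⟨hz₁.1, hz₁.2.le⟩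
  obtain ⟨ε, hε, hεL, hneg⟩ := st_neg_right hz₁ (hw z₁ hz₁') hwneg
    (mul_nonpos_of_nonneg_of_nonpos (hν z₁ hz₁').le hd)
  have hsub : Icc z₁ (z₁ + ε) ⊆ Icc 0 stripL := Icc_subset_Icc hz₁.1 hεL
  have hanti : StrictAntiOn v (Icc z₁ (z₁ + ε)) := by
    refine strictAntiOn_of_deriv_neg (convex_Icc _ _)
      (fun z hz => ((hv z (hsub hz)).continuousWithinAt).mono hsub) fun z hz => ?_
    rw [interior_Icc] at hz
    have hz' : z ∈ Ioo 0 stripL := ⟨lt_of_le_of_lt hz₁.1 hz.1, lt_of_lt_of_le hz.2 hεL⟩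
    rw [(st_hasDerivAt_of_within (hv z ⟨hz'.1.le, hz'.2.le⟩) hz').deriv]
    have h1 := hneg z ⟨hz.1, hz.2.le⟩
    have h2 := hν z ⟨hz'.1.le, hz'.2.le⟩
    by_contra hcon
    push Not at hcon
    exact absurd h1 (not_lt.2 (mul_nonneg h2.le hcon))
  exact ⟨z₁ + ε, ⟨by linarith, hεL⟩,
    hanti ⟨le_rfl, by linarith⟩ ⟨by linarith, le_rfl⟩ (by linarith)⟩

theorem st_compare {ν v v' w : ℝ → ℝ} {κ : ℝ} (hκ : 0 ≤ κ) (hν : ∀ z ∈ Icc 0 stripL, 0 < ν z)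
    (hv : ∀ z ∈ Icc 0 stripL, HasDerivWithinAt v (v' z) (Icc 0 stripL) z)
    (hw : ∀ z ∈ Icc 0 stripL, HasDerivWithinAt (fun s => ν s * v' s) (w z) (Icc 0 stripL) z)
    (hlt : ∀ z ∈ Ico 0 stripL, w z < κ * (ν z * v z)) (h0 : 0 ≤ v 0) (hL : 0 ≤ v stripL) :
    (∀ z ∈ Ioo 0 stripL, 0 < v z) ∧ (v 0 = 0 → 0 < v' 0) := by
  have hLpos : (0 : ℝ) < stripL := by unfold stripL; norm_num
  have hcont : ContinuousOn v (Icc 0 stripL) := fun z hz => (hv z hz).continuousWithinAt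
  have hwneg : ∀ z ∈ Ico 0 stripL, v z ≤ 0 → w z < 0 := by
    intro z hz hvz
    refine (hlt z hz).trans_le ?_
    exact mul_nonpos_of_nonneg_of_nonpos hκ
      (mul_nonpos_of_nonneg_of_nonpos (hν z ⟨hz.1, hz.2.le⟩).le hvz)
  have hpos : ∀ z ∈ Ioo 0 stripL, 0 < v z := by
    intro z hz
    by_contra hcon
    push Not at hcon
    obtain ⟨z₁, hz₁, hmin⟩ := isCompact_Icc.exists_isMinOn (nonempty_Icc.2 hLpos.le) hcont
    have hmin' : ∀ y ∈ Icc 0 stripL, v z₁ ≤ v y := fun y hy => hmin hy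
    -- an interior minimiser
    obtain ⟨z₂, hz₂, hmin₂, hle⟩ : ∃ z₂ ∈ Ioo 0 stripL, (∀ y ∈ Icc 0 stripL, v z₂ ≤ v y) ∧ v z₂ ≤ 0 := by
      have hzI : z ∈ Icc 0 stripL := ⟨hz.1.le, hz.2.le⟩
      rcases eq_or_lt_of_le hz₁.1 with h | h
      · refine ⟨z, hz, fun y hy => ?_, hcon⟩
        have := hmin' y hy
        rw [← h] at this
        linarith
      rcases eq_or_lt_of_le hz₁.2 with h' | h'
      · refine ⟨z, hz, fun y hy => ?_, hcon⟩
        have := hmin' y hy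
        rw [h'] at this
        linarith
      · exact ⟨z₁, ⟨h, h'⟩, hmin', (hmin' z hzI).trans hcon⟩
    have hz₂I : z₂ ∈ Icc 0 stripL := ⟨hz₂.1.le, hz₂.2.le⟩
    have hd : v' z₂ = 0 := by
      have hloc : IsLocalMin v z₂ := by
        filter_upwards [Icc_mem_nhds hz₂.1 hz₂.2] with y hy using hmin₂ y hy
      exact hloc.hasDerivAt_eq_zero (st_hasDerivAt_of_within (hv z₂ hz₂I) hz₂)
    obtain ⟨z₃, hz₃, hlt₃⟩ := st_key hν hv hw ⟨hz₂.1.le, hz₂.2⟩ (hwneg z₂ ⟨hz₂.1.le, hz₂.2⟩ hle) hd.le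
    exact absurd (hmin₂ z₃ ⟨hz₂.1.le.trans hz₃.1.le, hz₃.2⟩) (not_le.2 hlt₃)
  refine ⟨hpos, fun hv0 => ?_⟩
  by_contra hcon
  push Not at hcon
  obtain ⟨z₃, hz₃, hlt₃⟩ := st_key hν hv hw ⟨le_rfl, hLpos⟩ (hwneg 0 ⟨le_rfl, hLpos⟩ hv0.le) hcon
  rw [hv0] at hlt₃
  rcases eq_or_lt_of_le hz₃.2 with h | h
  · rw [h] at hlt₃; linarith
  · linarith [hpos z₃ ⟨hz₃.1, h⟩]

theorem st_margin_abs {v v' : ℝ → ℝ}
    (hv : ∀ z ∈ Icc 0 stripL, HasDerivWithinAt v (v' z) (Icc 0 stripL) z) (h0 : v 0 = 0)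
    (hpos : ∀ z ∈ Ioc 0 stripL, 0 < v z) (hd : 0 < v' 0) :
    ∃ α : ℝ, 0 < α ∧ IsGLB ((fun z => v z / z) '' Ioc 0 stripL) α := by
  have hLpos : (0 : ℝ) < stripL := by unfold stripL; norm_num
  have hcont : ContinuousOn v (Icc 0 stripL) := fun z hz => (hv z hz).continuousWithinAt
  -- near zero
  have h1 : HasDerivWithinAt v (v' 0) (Ioi 0) 0 :=
    ((hv 0 ⟨le_rfl, hLpos.le⟩).mono_of_mem_nhdsWithin
      (Icc_mem_nhdsGE_of_mem ⟨le_rfl, hLpos⟩)).Ioi_of_Ici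
  rw [hasDerivWithinAt_iff_tendsto_slope' (by simp)] at h1
  have h2 : ∀ᶠ s in 𝓝[>] (0 : ℝ), v' 0 / 2 < slope v 0 s := h1.eventually (lt_mem_nhds (by linarith))
  obtain ⟨u, hu, hus⟩ := (mem_nhdsGT_iff_exists_Ioc_subset).1 h2
  have hu0 : (0 : ℝ) < u := hu
  set δ := min u stripL with hδ
  have hδpos : 0 < δ := lt_min hu0 hLpos
  have hnear : ∀ z ∈ Ioc 0 δ, v' 0 / 2 ≤ v z / z := by
    intro z hz
    have h3 : v' 0 / 2 < slope v 0 z := hus ⟨hz.1, hz.2.trans (min_le_left _ _)⟩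
    rw [slope_def_field, h0, sub_zero, sub_zero] at h3
    exact h3.le
  -- away from zero
  have hq : ContinuousOn (fun z => v z / z) (Icc δ stripL) := by
    refine (hcont.mono (Icc_subset_Icc_left hδpos.le)).div continuousOn_id fun z hz => ?_
    exact (lt_of_lt_of_le hδpos hz.1).ne'
  obtain ⟨z₁, hz₁, hmin⟩ := isCompact_Icc.exists_isMinOn (nonempty_Icc.2 (min_le_right u stripL)) hq
  have hz₁pos : 0 < z₁ := lt_of_lt_of_le hδpos hz₁.1
  have hc₁ : 0 < v z₁ / z₁ := div_pos (hpos z₁ ⟨hz₁pos, hz₁.2⟩) hz₁pos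
  set c := min (v' 0 / 2) (v z₁ / z₁) with hc
  have hcpos : 0 < c := lt_min (by linarith) hc₁
  have hlow : c ∈ lowerBounds ((fun z => v z / z) '' Ioc 0 stripL) := by
    rintro _ ⟨z, hz, rfl⟩
    rcases le_total z δ with h | h
    · exact (min_le_left _ _).trans (hnear z ⟨hz.1, h⟩)
    · exact (min_le_right _ _).trans (hmin ⟨h, hz.2⟩)
  have hne : ((fun z => v z / z) '' Ioc 0 stripL).Nonempty := ⟨_, stripL, ⟨hLpos, le_rfl⟩, rfl⟩
  have hglb := isGLB_csInf hne ⟨c, hlow⟩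
  exact ⟨_, lt_of_lt_of_le hcpos (hglb.2 hlow), hglb⟩

end Claimed.Open.R278
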