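import Claimed.Open.R278.STCalc
import Claimed.Open.R278.STCompare

/-!
# Package ST, leaf ST-G: the comparison family `stW m p z` (replacement of Lemma 4.4 for `p`-dependence)

`stW m p z = S(p,z)/S(p,0)`, `S = stUsum stKap (m p) stN`, `stKap = 1/50`, `stN = 20`.
* `C²`: finite sum of `stU_contDiff`, quotient by the positive `C²` function `S(p,0) ≥ stU 0 0 > 0`.
* `∂_z S = -stJsum/m` (`stU_hasDerivAt`), `stJsum ≥ j₀ = 1`.
* `∂_z (m ∂_z S) = -∂_z stJsum = κ m ∑_{l<N} u_l = κ m (S - u_N)` (`stJ_succ_hasDerivAt`), and for `p ≥ P`, `z ∈ [0,L]`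
  `0 ≤ u_N ≤ (κ·100·L²)^N/(2N)! · u_0 = 200^20/40! · u_0 ≤ u_0/10 ≤ S/10`  (`stU_le`, `norm_num`).
* horizontal derivatives: `S(·,z) : RelBd (41, 1723)` (`stU_relBd`, `RelBd.mono`, `RelBd.sum`), `1/S(·,0) : (41, 1723 + 2·41²)`, product:
  `(82, 1723 + 1723 + 3362 + 3362) = (82, 10170)`, and `82 + 10170 ≤ 20000`.
-/

open MeasureTheory Set
open scoped ContDiff Topology

noncomputable section

namespace Claimed.Open.R278

variable {m : ℝ → ℝ → ℝ} {P η : ℝ}

/-! ### the partial sums for a fixed weight -/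

section fixed

variable {κ : ℝ} {ν : ℝ → ℝ}

theorem stUsum_hasDerivAt (hc : Continuous ν) (hpos : ∀ z, 0 < ν z) (N : ℕ) (z : ℝ) :
    HasDerivAt (stUsum κ ν N) (-(stJsum κ ν N z / ν z)) z := by
  have h := HasDerivAt.fun_sum (u := Finset.range (N + 1)) (A := fun l => stU κ ν l)
    (A' := fun l => -(stJ κ ν l z / ν z)) (x := z) fun l _ => stU_hasDerivAt hc hpos l z
  have e : (∑ l ∈ Finset.range (N + 1), -(stJ κ ν l z / ν z)) = -(stJsum κ ν N z / ν z) := by
    rw [stJsum, Finset.sum_neg_distrib, Finset.sum_div]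
  rw [e] at h
  exact h

theorem stJsum_hasDerivAt (hc : Continuous ν) (hpos : ∀ z, 0 < ν z) (N : ℕ) (z : ℝ) :
    HasDerivAt (stJsum κ ν N) (-(κ * (ν z * (stUsum κ ν N z - stU κ ν N z)))) z := by
  have e0 : stJsum κ ν N = fun s => (∑ l ∈ Finset.range N, stJ κ ν (l + 1) s) + stJ κ ν 0 s := by
    funext s
    rw [stJsum, Finset.sum_range_succ']
  have h := HasDerivAt.fun_sum (u := Finset.range N) (A := fun l => stJ κ ν (l + 1))
    (A' := fun l => -(κ * (ν z * stU κ ν l z))) (x := z) fun l _ => stJ_succ_hasDerivAt hc hpos l z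
  have h0 : HasDerivAt (stJ κ ν 0) 0 z := hasDerivAt_const _ _
  have h1 := h.add h0
  have e : (∑ l ∈ Finset.range N, -(κ * (ν z * stU κ ν l z))) + 0
      = -(κ * (ν z * (stUsum κ ν N z - stU κ ν N z))) := by
    rw [stUsum, Finset.sum_range_succ, add_sub_cancel_right, add_zero, Finset.sum_neg_distrib,
      Finset.mul_sum, Finset.mul_sum]
  rw [e] at h1
  rw [e0]
  exact h1

theorem stJsum_ge_one (hκ : 0 ≤ κ) (hc : Continuous ν) (hpos : ∀ z, 0 < ν z) (N : ℕ) {z : ℝ}
    (hz : z ≤ stripL) : 1 ≤ stJsum κ ν N z := by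
  rw [stJsum, Finset.sum_range_succ']
  have : 0 ≤ ∑ l ∈ Finset.range N, stJ κ ν (l + 1) z :=
    Finset.sum_nonneg fun l _ => stJ_nonneg hκ hc hpos _ hz
  rw [stJ_zero]
  linarith

theorem stU_zero_le_stUsum (hκ : 0 ≤ κ) (hc : Continuous ν) (hpos : ∀ z, 0 < ν z) (N : ℕ) {z : ℝ}
    (hz : z ≤ stripL) : stU κ ν 0 z ≤ stUsum κ ν N z := by
  rw [stUsum, Finset.sum_range_succ']
  have : 0 ≤ ∑ l ∈ Finset.range N, stU κ ν (l + 1) z :=
    Finset.sum_nonneg fun l _ => stU_nonneg hκ hc hpos _ hz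
  linarith

theorem stUsum_pos (hκ : 0 ≤ κ) (hc : Continuous ν) (hpos : ∀ z, 0 < ν z) (N : ℕ) {z : ℝ}
    (hz : z < stripL) : 0 < stUsum κ ν N z :=
  (stU_zero_pos hc hpos hz).trans_le (stU_zero_le_stUsum hκ hc hpos N hz.le)

end fixed

theorem stKap_nonneg : 0 ≤ stKap := by unfold stKap; norm_num

theorem stripL_pos : 0 < stripL := by unfold stripL; norm_num

theorem StripWeight.cont (h : StripWeight m P η) (p : ℝ) : Continuous (m p) :=
  h.smooth.continuous.comp (by fun_prop : Continuous fun z : ℝ => (p, z))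

theorem StripWeight.sum0_pos (h : StripWeight m P η) (p : ℝ) : 0 < stUsum stKap (m p) stN 0 :=
  stUsum_pos stKap_nonneg (h.cont p) (h.pos p) stN stripL_pos

theorem stUsum_contDiff (h : StripWeight m P η) :
    ContDiff ℝ 2 (fun q : ℝ × ℝ => stUsum stKap (m q.1) stN q.2) := by
  unfold stUsum
  exact ContDiff.sum fun l _ => stU_contDiff h.smooth h.pos stKap l

theorem stW_contDiff (h : StripWeight m P η) : ContDiff ℝ 2 (fun q : ℝ × ℝ => stW m q.1 q.2) := by
  unfold stW
  refine (stUsum_contDiff h).div ?_ fun q => (h.sum0_pos q.1).ne'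
  exact (stUsum_contDiff h).comp (contDiff_fst.prodMk contDiff_const : ContDiff ℝ 2 fun q : ℝ × ℝ => (q.1, (0 : ℝ)))

theorem stW_zero (h : StripWeight m P η) (p : ℝ) : stW m p 0 = 1 :=
  div_self (h.sum0_pos p).ne'

theorem stW_stripL (p : ℝ) : stW m p stripL = 0 := by
  simp [stW, stUsum, stU_stripL]

theorem stW_pos (h : StripWeight m P η) (p : ℝ) {z : ℝ} (hz : z < stripL) : 0 < stW m p z :=
  div_pos (stUsum_pos stKap_nonneg (h.cont p) (h.pos p) stN hz) (h.sum0_pos p)

theorem stW_hasDerivAt (h : StripWeight m P η) (p z : ℝ) :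
    HasDerivAt (stW m p) (-(stJsum stKap (m p) stN z / m p z) / stUsum stKap (m p) stN 0) z :=
  (stUsum_hasDerivAt (h.cont p) (h.pos p) stN z).div_const _

theorem stW_deriv_neg (h : StripWeight m P η) (p : ℝ) {z : ℝ} (hz : z ≤ stripL) :
    deriv (stW m p) z < 0 := by
  rw [(stW_hasDerivAt h p z).deriv]
  have h1 := stJsum_ge_one stKap_nonneg (h.cont p) (h.pos p) stN hz
  have h2 : 0 < stJsum stKap (m p) stN z / m p z := div_pos (by linarith) (h.pos p z)
  exact div_neg_of_neg_of_pos (by linarith) (h.sum0_pos p)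

theorem st_numeric : ((stKap * 100) ^ stN * stripL ^ (2 * stN) / ((2 * stN).factorial : ℝ)) ≤ 1 / 10 := by
  unfold stKap stN stripL
  rw [div_le_iff₀ (by positivity)]
  norm_num [Nat.factorial]

/-- `0.9 κ m 𝒲 ≤ (m 𝒲_z)_z ≤ κ m 𝒲`. -/
theorem stW_flux (h : StripWeight m P η) {p z : ℝ} (hp : P ≤ p) (hz : z ∈ Icc 0 stripL) :
    ∃ w : ℝ, HasDerivAt (fun s => m p s * deriv (stW m p) s) w z ∧
      9 / 10 * stKap * (m p z * stW m p z) ≤ w ∧ w ≤ stKap * (m p z * stW m p z) := by
  set S0 := stUsum stKap (m p) stN 0 with hS0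
  have hS0pos : 0 < S0 := h.sum0_pos p
  have e : (fun s => m p s * deriv (stW m p) s) = fun s => -(stJsum stKap (m p) stN s) / S0 := by
    funext s
    rw [(stW_hasDerivAt h p s).deriv, ← hS0]
    have := (h.pos p s).ne'
    field_simp
  have hd := ((stJsum_hasDerivAt (κ := stKap) (h.cont p) (h.pos p) stN z).neg).div_const S0
  rw [neg_neg] at hd
  refine ⟨_, by rw [e]; exact hd, ?_, ?_⟩
  · have hu : stU stKap (m p) stN z ≤ 1 / 10 * stUsum stKap (m p) stN z := by
      have h1 := stU_le stKap_nonneg (h.cont p) (h.pos p) (C := 100)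
        (fun z₁ z₂ h0 h12 h2 => h.ratio p z₁ z₂ hp h0 h12 h2) stN hz
      have h2 := stU_zero_le_stUsum stKap_nonneg (h.cont p) (h.pos p) stN hz.2
      have h3 : 0 ≤ stU stKap (m p) 0 z := stU_nonneg stKap_nonneg (h.cont p) (h.pos p) 0 hz.2
      calc stU stKap (m p) stN z
          ≤ (stKap * 100) ^ stN * stripL ^ (2 * stN) / ((2 * stN).factorial : ℝ) * stU stKap (m p) 0 z := h1
        _ ≤ 1 / 10 * stU stKap (m p) 0 z := mul_le_mul_of_nonneg_right st_numeric h3
        _ ≤ 1 / 10 * stUsum stKap (m p) stN z := by linarith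
    rw [stW, le_div_iff₀ hS0pos]
    have hm := (h.pos p z).le
    have hk := stKap_nonneg
    have : 9 / 10 * stKap * (m p z * (stUsum stKap (m p) stN z / S0)) * S0
        = stKap * (m p z * (9 / 10 * stUsum stKap (m p) stN z)) := by
      field_simp
    rw [this]
    gcongr
    linarith
  · rw [stW, div_le_iff₀ hS0pos]
    have hm := (h.pos p z).le
    have hk := stKap_nonneg
    have hu : 0 ≤ stU stKap (m p) stN z := stU_nonneg stKap_nonneg (h.cont p) (h.pos p) stN hz.2
    have : stKap * (m p z * (stUsum stKap (m p) stN z / S0)) * S0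
        = stKap * (m p z * stUsum stKap (m p) stN z) := by
      field_simp
    rw [this]
    gcongr
    linarith

theorem stUsum_relBd (h : StripWeight m P η) (hη : 0 ≤ η) (hη1 : η ≤ 1) {p z : ℝ} (hp : P ≤ p)
    (hz : z ∈ Icc 0 stripL) : RelBd (fun p' => stUsum stKap (m p') stN z) p η 41 1723 := by
  unfold stUsum
  refine RelBd.sum _ fun l hl => ?_
  have hl' : (l : ℝ) ≤ 20 := by
    have : l < stN + 1 := Finset.mem_range.1 hl
    have h2 : l ≤ 20 := by unfold stN at this; omega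
    exact_mod_cast h2
  have hl0 : (0 : ℝ) ≤ l := Nat.cast_nonneg l
  refine (stU_relBd h hη hη1 stKap_nonneg l hp hz).mono hη (by linarith) (by nlinarith)

/-- (4.13) with `C₂ = 20000`. -/
theorem stW_horizontal (h : StripWeight m P η) (hη : 0 ≤ η) (hη1 : η ≤ 1) {p z : ℝ} (hp : P ≤ p)
    (hz : z ∈ Icc 0 stripL) :
    |deriv (fun p' => stW m p' z) p| + |iteratedDeriv 2 (fun p' => stW m p' z) p|
      ≤ 20000 * η * stW m p z := by
  have h0 : (0 : ℝ) ∈ Icc 0 stripL := ⟨le_rfl, stripL_pos.le⟩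
  have h1 := stUsum_relBd h hη hη1 hp hz
  have h2 := (stUsum_relBd h hη hη1 hp h0).inv (h.sum0_pos p) hη hη1 (by norm_num)
  have h3 := h1.mul h2 hη hη1 (by norm_num) (by norm_num)
  have e : (fun p' => stW m p' z)
      = fun p' => stUsum stKap (m p') stN z * (stUsum stKap (m p') stN 0)⁻¹ := by
    funext p'
    rw [stW, div_eq_mul_inv]
  have hW : stW m p z = stUsum stKap (m p) stN z * (stUsum stKap (m p) stN 0)⁻¹ := congrFun e p
  rw [e, hW]
  have d1 := h3.d1
  have d2 := h3.d2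
  have hn := h3.nonneg
  have hn' : 0 ≤ η * (stUsum stKap (m p) stN z * (stUsum stKap (m p) stN 0)⁻¹) := mul_nonneg hη hn
  nlinarith

/-- The truncated family lies below the exact strip solution of the weight `m p` (or any positive multiple of it). -/
theorem stW_le_stripSolution (h : StripWeight m P η) {p : ℝ} (hp : P ≤ p) {c : ℝ} (hc : 0 < c)
    {U U' : ℝ → ℝ} (hU : IsStripSolution (fun z => c * m p z) U U') {z : ℝ} (hz : z ∈ Icc 0 stripL) :
    stW m p z ≤ U z := by
  obtain ⟨hU0, hUL, hUd⟩ := hU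
  choose! w hw hw1 hw2 using fun z (hz : z ∈ Icc 0 stripL) => stW_flux h hp hz
  have hcmp := st_compare (ν := fun z => c * m p z) (v := fun z => U z - stW m p z)
    (v' := fun z => U' z - deriv (stW m p) z)
    (w := fun z => c * m p z * (stripMu ^ 2 * U z) - c * w z) (κ := stripMu ^ 2) (by positivity)
    (fun z _ => mul_pos hc (h.pos p z))
    (fun z hz => ((hUd z hz).1).sub
      ((stW_hasDerivAt h p z).differentiableAt.hasDerivAt.hasDerivWithinAt))
    (fun z hz => by
      have h1 := (hUd z hz).2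
      have h2 := ((hw z hz).const_mul c).hasDerivWithinAt (s := Icc 0 stripL)
      have h3 := h1.sub h2
      refine h3.congr_of_eventuallyEq (Filter.Eventually.of_forall fun s => ?_) ?_ <;>
      · simp only [Pi.sub_apply]
        ring)
    (fun z hz => by
      have hz' : z ∈ Icc 0 stripL := ⟨hz.1, hz.2.le⟩
      have h1 := hw1 z hz'
      have h2 : 0 < m p z * stW m p z := mul_pos (h.pos p z) (stW_pos h p hz.2)
      have h3 : stripMu ^ 2 * (m p z * stW m p z) < w z := by
        refine lt_of_lt_of_le ?_ h1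
        unfold stripMu stKap
        nlinarith
      have : c * (stripMu ^ 2 * (m p z * stW m p z)) < c * w z := mul_lt_mul_of_pos_left h3 hc
      nlinarith)
    (by rw [hU0, stW_zero h p, sub_self])
    (by rw [hUL, stW_stripL, sub_self])
  rcases eq_or_lt_of_le hz.1 with h0 | h0
  · rw [← h0, hU0, stW_zero h p]
  rcases eq_or_lt_of_le hz.2 with hL | hL
  · rw [hL, hUL, stW_stripL]
  · have := hcmp.1 z ⟨h0, hL⟩
    linarith

end Claimed.Open.R278
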