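import Claimed.Open.R278.GPOdd
import Claimed.Open.R278.STFamily
import Claimed.Open.R278.STCost

/-!
# Package GP (Lemma 4.8 = `weightedGap_of_tests`): definitions and the plan of the exterior gap

Architect: helper214.  NOTATION: `L = stripL = 10`, `S = 100 M`, `δ = π/2 - θ` (`gpDel`), `w = n cos² θ` (`gpw`), `Ω₊ = upperHalf`, `p = hrad x`, `r = ‖x‖`.

DEVIATIONS FROM THE PAPER (all constants explicit, no Lemma 4.4 with `C₂ < 10³⁰`):
* the `p`-dependent exact strip solutions `U(p,·)` are replaced by the explicit comparison family `𝒲 = gpW n k M`, `𝒲(x) = stW m̃ (hrad x) (x 2)` of package ST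
  (`0.9 κ m 𝒲 ≤ (m 𝒲_z)_z ≤ κ m 𝒲`, `κ = 1/50`, `|𝒲_p| + |𝒲_pp| ≤ 20000 η₀ 𝒲`, `𝒲(M,·) ≤ U(M,·)`);
* `m̃ = gpM n k M`: `m̃(p,z) = e^{2kψ(p)} n(cyl ψ(p) z)` with `ψ = gpPsi M` smooth, `ψ(p) = p` for `p ≥ M/2`, `ψ = M/4` for `p ≤ M/4`: a GLOBAL positive `C²` weight (`StripWeight m̃ M η₀`), and `𝒲` is globally `C²` on `ℝ³`
  (constant in `p` near the axis);
* the vector field is `Y = (x - z (1 - ζ(z)) e_z)/r` (`gpY`), `ζ = gpZeta`: horizontal for `|z| ≤ L`, radial for `|z| ≥ 2L`; `div(nY) ≤ -1.9 n` on `r ≥ S`, `z ≥ 0`;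
* cutoffs are built from the explicit `C¹` smoothstep `gpQ` (`0 ≤ gpQ' ≤ 3/2`) composed with POLYNOMIALS (`z²`, `‖x‖²`), so that they are trivially `C¹`.

CHAIN (files):
  GPStep  `gpQ`;   GPCyl  cylindrical calculus, divergence `gpDiv`, integration by parts;   GPWeight  `StripWeight m̃`, properties of `𝒲`;
  GPSub   `div(n∇𝒲) ≥ 0.017 n 𝒲` in the strip region `gpO M = {p > M, 0 < z < L}`, weak form;
  GPCmp   weak comparison ⇒ `(2/π) δ ≥ 𝒲` on `{p ≥ M, 0 ≤ z ≤ L}` ⇒ flux bound `θ_z(·,0) ≤ -(π/2) 𝒲_z(·,0)`;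
  GPFlux  boundary identity for `∫_{Ω₊} n ∇θ·∇ψ`, boundary cost (4.22) integrated over the plane;
  GPY     `0.9025 ∫_{Ω₊} n F² ≤ ∫_{Ω₊} n ⟪Y,∇F⟫²`;
  GPExt   exterior gap `0.03`;   GPEven  even part (IMS);   GPTop  `gp_weightedGap_of_tests`.
-/

open MeasureTheory
open scoped ContDiff InnerProductSpace ENNReal Topology

noncomputable section

namespace Claimed.Open.R278

/-- `δ = π/2 - θ`. -/
def gpDel (θ : Space → ℝ) (x : Space) : ℝ := Real.pi / 2 - θ x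

/-- The explicit `C¹` smoothstep: `0` for `t ≤ 0`, `1` for `t ≥ 1`, derivative `6 t (1-t)` in between. -/
def gpQ (t : ℝ) : ℝ := ∫ s in (0 : ℝ)..t, 6 * (max s 0 * max (1 - s) 0)

/-- `ψ(p) = M/4` for `p ≤ M/4`, `ψ(p) = p` for `p ≥ M/2`. -/
def gpPsi (M p : ℝ) : ℝ := M / 4 + (p - M / 4) * Real.smoothTransition ((p - M / 4) / (M / 4))

/-- the global weight `m̃`. -/
def gpM (n : Space → ℝ) (k M : ℝ) (p z : ℝ) : ℝ :=
  Real.exp (2 * k * gpPsi M p) * n (cyl (gpPsi M p) z)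

/-- the comparison function `𝒲` on `ℝ³`. -/
def gpW (n : Space → ℝ) (k M : ℝ) (x : Space) : ℝ := stW (gpM n k M) (hrad x) (x 2)

/-- the open strip region `{p > M, 0 < z < L}`. -/
def gpO (M : ℝ) : Set Space := {x | M < hrad x ∧ 0 < x 2 ∧ x 2 < stripL}

/-- the slab `{0 < z < L}`. -/
def gpSlab : Set Space := {x | 0 < x 2 ∧ x 2 < stripL}

/-- the horizontal radial unit vector (`0` on the axis). -/
def epVec (x : Space) : Space := (hrad x)⁻¹ • !₂[x 0, x 1, 0]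

/-- divergence in the standard coordinates. -/
def gpDiv (X : Space → Space) (x : Space) : ℝ :=
  ∑ i : Fin 3, fderiv ℝ (fun y => X y i) x (EuclideanSpace.single i 1)

/-- `ζ(z)`: `0` for `|z| ≤ L`, `1` for `|z| ≥ 2L`. -/
def gpZeta (z : ℝ) : ℝ := gpQ ((z ^ 2 - stripL ^ 2) / (3 * stripL ^ 2))

/-- the vector field `Y`. -/
def gpY (x : Space) : Space := ‖x‖⁻¹ • (x - (x 2 * (1 - gpZeta (x 2))) • ez)

/-- IMS partition: `χ = 1` on `r ≤ S`, `χ = 0` on `r ≥ 2S`. -/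
def gpChi (S : ℝ) (x : Space) : ℝ := Real.cos (Real.pi / 2 * gpQ ((‖x‖ ^ 2 - S ^ 2) / (3 * S ^ 2)))

/-- `ρ = (1 - χ²)^{1/2}`. -/
def gpRho (S : ℝ) (x : Space) : ℝ := Real.sin (Real.pi / 2 * gpQ ((‖x‖ ^ 2 - S ^ 2) / (3 * S ^ 2)))

/-- Test functions of Lipschitz type: continuous, compactly supported, weak gradient in `L²_loc`. -/
structure GpTest (φ : Space → ℝ) (Φ : Space → Space) : Prop where
  wg : IsWeakGrad φ Φ
  cont : Continuous φ
  supp : HasCompactSupport φ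
  l2 : AnL2loc Φ

/-- Everything that the proof of Lemma 4.8 uses. -/
structure GPData (b e : Space → ℝ) (εb εe : ℝ) (M : ℕ) (n θ : Space → ℝ) (k d : ℝ) : Prop where
  tc : TwoCentre b e εb εe
  hM : 10 * bigD < M
  hn : DensityBasic n
  hk : 0.99 < k
  hk' : k < 1.01
  hds : DriftStrip n k M
  hθ : IsFoldedMinimizer n θ
  hd : IsMultiplier n θ d
  d_pos : 0 < d
  d_lt : d < 0.001
  ratio : ∀ x : Space, ‖x‖ ≤ 2 * (100 * M) →
    1 / 2 ≤ n x * Real.cos (θ x) ^ 2 / (2 * b x ^ 2) ∧ n x * Real.cos (θ x) ^ 2 / (2 * b x ^ 2) ≤ 2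
  /-- the inner boundary ordering on the cylinder `p = M`. -/
  inner : ∀ x : Space, hrad x = M → 0 ≤ x 2 → x 2 ≤ stripL → gpW n k M x ≤ 2 / Real.pi * gpDel θ x

end Claimed.Open.R278
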