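import Claimed.Open.R278.TCHyd

/-!
# Result 278, layer TC (Proposition 2.2), file 7: localisation at the two nuclei

`D = bigD`, `c = D e_z` (`tcC`).  `τ = tcTau c` is an explicit `C¹` function, `τ = 0` for `|x - c| ≤ D/4`, `τ = π/2` for `|x - c| ≥ D/2`,
`|∇τ|² ≤ 300/D²`.  With `g₁ = cos τ · g`, `g₂ = sin τ · g` (IMS):  `|∇g₁|² + |∇g₂|² = |∇g|² + |∇τ|² g²`, so

  `q[g] = (q_{H,c}[g₁] - ∫ g₁²/|x + c|) + (q_{H,-c}[g₂] - ∫ g₂²/|x - c|) - ½ ∫ |∇τ|² g²`
        `≥ q_{H,c}[g₁] + q_{H,-c}[g₂] - (4/D + 150/D²) ∫ g²`                                   (`tc_loc`)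

(`|x + c| ≥ D` on `supp g₁`, `|x - c| ≥ D/4` on `supp g₂`).  Consequences: `tc_lower`, `tc_lower_orth`, and the odd trial function.
All sections are proved: this file has no `sorry` of its own.
-/

open MeasureTheory Filter Topology Set
open scoped ContDiff InnerProductSpace

noncomputable section

namespace Claimed.Open.R278

/-! ## TC-L1 (proved): an explicit `C¹` step function -/

section L1

/-- `t₊²`. -/
def tcSq (t : ℝ) : ℝ := (max t 0) ^ 2

theorem tcSq_hasDerivAt (t : ℝ) : HasDerivAt tcSq (2 * max t 0) t := by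
  rcases lt_trichotomy t 0 with h | h | h
  · rw [max_eq_right h.le, mul_zero]
    refine (hasDerivAt_const t (0 : ℝ)).congr_of_eventuallyEq ?_
    filter_upwards [Iio_mem_nhds h] with s hs
    have hs' : s ≤ 0 := le_of_lt hs
    simp only [tcSq, max_eq_right hs']
    norm_num
  · subst h
    rw [max_self, mul_zero, hasDerivAt_iff_isLittleO_nhds_zero]
    have h1 : (fun h : ℝ => tcSq (0 + h) - tcSq 0 - h • (0 : ℝ)) =O[𝓝 0] (fun h : ℝ => h ^ 2) := by
      refine Asymptotics.IsBigO.of_bound 1 (Eventually.of_forall fun h => ?_)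
      simp only [tcSq, zero_add, max_self, smul_zero, sub_zero, one_mul, Real.norm_eq_abs]
      rw [zero_pow (by norm_num), sub_zero, abs_of_nonneg (by positivity), abs_of_nonneg (by positivity), ← sq_abs h]
      exact pow_le_pow_left₀ (le_max_right _ _) (max_le (le_abs_self h) (abs_nonneg h)) 2
    exact h1.trans_isLittleO (Asymptotics.isLittleO_pow_id one_lt_two)
  · rw [max_eq_left h.le]
    have h1 : HasDerivAt (fun s : ℝ => s ^ 2) (2 * t) t := by simpa using hasDerivAt_pow 2 t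
    refine h1.congr_of_eventuallyEq ?_
    filter_upwards [Ioi_mem_nhds h] with s hs
    have hs' : 0 ≤ s := le_of_lt hs
    simp only [tcSq, max_eq_left hs']

theorem tcSq_contDiff : ContDiff ℝ 1 tcSq := by
  rw [contDiff_one_iff_deriv]
  refine ⟨fun t => (tcSq_hasDerivAt t).differentiableAt, ?_⟩
  have : deriv tcSq = fun t => 2 * max t 0 := funext fun t => (tcSq_hasDerivAt t).deriv
  rw [this]
  fun_prop

/-- `0` for `t ≤ 0`, `2t²` on `[0,1/2]`, `1 - 2(1-t)²` on `[1/2,1]`, `1` for `t ≥ 1`. -/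
def tcStep (t : ℝ) : ℝ := 2 * tcSq t - 4 * tcSq (t - 1 / 2) + 2 * tcSq (t - 1)

/-- its derivative. -/
def tcStep' (t : ℝ) : ℝ := 4 * max t 0 - 8 * max (t - 1 / 2) 0 + 4 * max (t - 1) 0

theorem tcStep_hasDerivAt (t : ℝ) : HasDerivAt tcStep (tcStep' t) t := by
  have h1 := (tcSq_hasDerivAt t).const_mul 2
  have h2 := ((tcSq_hasDerivAt (t - 1 / 2)).comp_sub_const t (1 / 2)).const_mul 4
  have h3 := ((tcSq_hasDerivAt (t - 1)).comp_sub_const t 1).const_mul 2
  have h4 := (h1.sub h2).add h3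
  have e : 2 * (2 * max t 0) - 4 * (2 * max (t - 1 / 2) 0) + 2 * (2 * max (t - 1) 0) = tcStep' t := by
    unfold tcStep'
    ring
  rw [e] at h4
  exact h4

theorem tcStep_contDiff : ContDiff ℝ 1 tcStep := by
  unfold tcStep
  exact ((contDiff_const.mul tcSq_contDiff).sub (contDiff_const.mul (tcSq_contDiff.comp (contDiff_id.sub contDiff_const)))).add
    (contDiff_const.mul (tcSq_contDiff.comp (contDiff_id.sub contDiff_const)))

theorem tcStep_of_nonpos {t : ℝ} (h : t ≤ 0) : tcStep t = 0 := by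
  unfold tcStep tcSq
  rw [max_eq_right h, max_eq_right (by linarith), max_eq_right (by linarith)]
  norm_num

theorem tcStep_of_one_le {t : ℝ} (h : 1 ≤ t) : tcStep t = 1 := by
  unfold tcStep tcSq
  rw [max_eq_left (by linarith), max_eq_left (by linarith), max_eq_left (by linarith)]
  ring

theorem tcStep'_of_nonpos {t : ℝ} (h : t ≤ 0) : tcStep' t = 0 := by
  unfold tcStep'
  rw [max_eq_right h, max_eq_right (by linarith), max_eq_right (by linarith)]
  norm_num

theorem tcStep'_of_one_le {t : ℝ} (h : 1 ≤ t) : tcStep' t = 0 := by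
  unfold tcStep'
  rw [max_eq_left (by linarith), max_eq_left (by linarith), max_eq_left (by linarith)]
  ring

theorem abs_tcStep'_le (t : ℝ) : |tcStep' t| ≤ 2 := by
  rcases le_total t 0 with h0 | h0
  · rw [tcStep'_of_nonpos h0]; norm_num
  rcases le_total 1 t with h1 | h1
  · rw [tcStep'_of_one_le h1]; norm_num
  unfold tcStep'
  rw [max_eq_left h0, max_eq_right (by linarith : t - 1 ≤ 0)]
  rcases le_total t (1 / 2) with h2 | h2
  · rw [max_eq_right (by linarith), abs_le]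
    constructor <;> linarith
  · rw [max_eq_left (by linarith), abs_le]
    constructor <;> linarith

end L1

/-! ## TC-L2 (proved): the angle `τ` -/

section L2

/-- `τ_c(x) = (π/2) S((16 |x-c|²/D² - 1)/3)`. -/
def tcTau (c x : Space) : ℝ := Real.pi / 2 * tcStep ((16 * ‖x - c‖ ^ 2 / bigD ^ 2 - 1) / 3)

theorem bigD_pos : 0 < bigD := by
  unfold bigD
  positivity

theorem tcTau_contDiff (c : Space) : ContDiff ℝ 1 (tcTau c) := by
  unfold tcTau
  have h1 : ContDiff ℝ 1 (fun x : Space => ‖x - c‖ ^ 2) := (contDiff_id.sub contDiff_const).norm_sq ℝ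
  exact contDiff_const.mul (tcStep_contDiff.comp ((((contDiff_const.mul h1).div_const _).sub contDiff_const).div_const _))

theorem tc_arg_nonpos {c x : Space} (h : ‖x - c‖ ≤ bigD / 4) : (16 * ‖x - c‖ ^ 2 / bigD ^ 2 - 1) / 3 ≤ 0 := by
  have hD := bigD_pos
  have h1 : ‖x - c‖ ^ 2 ≤ (bigD / 4) ^ 2 := pow_le_pow_left₀ (norm_nonneg _) h 2
  have h2 : 16 * ‖x - c‖ ^ 2 / bigD ^ 2 ≤ 1 := by
    rw [div_le_one (pow_pos hD 2)]
    nlinarith
  linarith

theorem tc_arg_one_le {c x : Space} (h : bigD / 2 ≤ ‖x - c‖) : 1 ≤ (16 * ‖x - c‖ ^ 2 / bigD ^ 2 - 1) / 3 := by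
  have hD := bigD_pos
  have h1 : (bigD / 2) ^ 2 ≤ ‖x - c‖ ^ 2 := pow_le_pow_left₀ (by positivity) h 2
  have h2 : 4 ≤ 16 * ‖x - c‖ ^ 2 / bigD ^ 2 := by
    rw [le_div_iff₀ (pow_pos hD 2)]
    nlinarith
  linarith

theorem tcTau_of_le {c x : Space} (h : ‖x - c‖ ≤ bigD / 4) : tcTau c x = 0 := by
  unfold tcTau
  rw [tcStep_of_nonpos (tc_arg_nonpos h), mul_zero]

theorem tcTau_of_ge {c x : Space} (h : bigD / 2 ≤ ‖x - c‖) : tcTau c x = Real.pi / 2 := by
  unfold tcTau
  rw [tcStep_of_one_le (tc_arg_one_le h), mul_one]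

theorem gradient_tcTau (c x : Space) :
    gradient (tcTau c) x
      = (Real.pi / 2 * tcStep' ((16 * ‖x - c‖ ^ 2 / bigD ^ 2 - 1) / 3) * (32 / (3 * bigD ^ 2))) • (x - c) := by
  have hD := bigD_pos
  set L : Space →L[ℝ] ℝ := 2 • innerSL ℝ (x - c) with hL
  have h1 : HasFDerivAt (fun y : Space => ‖y - c‖ ^ 2) L x := by
    have := ((hasFDerivAt_id x).sub_const c).norm_sq
    simpa [hL] using this
  have h2 : HasFDerivAt (fun y : Space => (16 * ‖y - c‖ ^ 2 / bigD ^ 2 - 1) / 3) ((1 / 3 : ℝ) • ((1 / bigD ^ 2) • ((16 : ℝ) • L))) x := by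
    have := (((h1.const_mul 16).mul_const (1 / bigD ^ 2)).sub_const 1).mul_const (1 / 3)
    simpa only [div_eq_mul_inv, one_mul] using this
  have h3 := ((tcStep_hasDerivAt ((16 * ‖x - c‖ ^ 2 / bigD ^ 2 - 1) / 3)).comp_hasFDerivAt x h2).const_mul (Real.pi / 2)
  refine HasGradientAt.gradient ?_
  rw [hasGradientAt_iff_hasFDerivAt]
  have e : InnerProductSpace.toDual ℝ Space
      ((Real.pi / 2 * tcStep' ((16 * ‖x - c‖ ^ 2 / bigD ^ 2 - 1) / 3) * (32 / (3 * bigD ^ 2))) • (x - c))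
      = (Real.pi / 2) • (tcStep' ((16 * ‖x - c‖ ^ 2 / bigD ^ 2 - 1) / 3) • ((1 / 3 : ℝ) • ((1 / bigD ^ 2) • ((16 : ℝ) • L)))) := by
    ext v
    simp only [hL, InnerProductSpace.toDual_apply_apply, inner_smul_left, smul_apply,
      innerSL_apply_apply, smul_eq_mul, nsmul_eq_mul, RCLike.conj_to_real]
    field_simp
    push_cast
    ring
  rw [e]
  exact h3

theorem gradient_tcTau_of_ge {c x : Space} (h : bigD / 2 ≤ ‖x - c‖) : gradient (tcTau c) x = 0 := by
  rw [gradient_tcTau, tcStep'_of_one_le (tc_arg_one_le h)]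
  simp

/-- `|∇τ| ≤ (π/2) · 2 · 32/(3D²) · D/2 = 16π/(3D)`, `256 π²/9 ≤ 300` (`Real.pi_lt_d2 : π < 3.15`). -/
theorem norm_gradient_tcTau_sq_le (c x : Space) : ‖gradient (tcTau c) x‖ ^ 2 ≤ 300 / bigD ^ 2 := by
  have hD := bigD_pos
  rcases le_total (bigD / 2) ‖x - c‖ with h | h
  · rw [gradient_tcTau_of_ge h]
    rw [norm_zero, zero_pow two_ne_zero]
    exact div_nonneg (by norm_num) (pow_pos hD 2).le
  · rw [gradient_tcTau, norm_smul, Real.norm_eq_abs, abs_mul, abs_mul, abs_of_pos (by positivity : 0 < Real.pi / 2),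
      abs_of_pos (by positivity : 0 < 32 / (3 * bigD ^ 2))]
    have h1 := abs_tcStep'_le ((16 * ‖x - c‖ ^ 2 / bigD ^ 2 - 1) / 3)
    have hpi := Real.pi_lt_d2
    have hpi0 := Real.pi_pos
    have h2 : Real.pi / 2 * |tcStep' ((16 * ‖x - c‖ ^ 2 / bigD ^ 2 - 1) / 3)| * (32 / (3 * bigD ^ 2)) * ‖x - c‖
        ≤ Real.pi / 2 * 2 * (32 / (3 * bigD ^ 2)) * (bigD / 2) := by
      gcongr
    have h3 : Real.pi / 2 * 2 * (32 / (3 * bigD ^ 2)) * (bigD / 2) = 16 * Real.pi / (3 * bigD) := by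
      field_simp
      ring
    rw [h3] at h2
    calc _ ≤ (16 * Real.pi / (3 * bigD)) ^ 2 := pow_le_pow_left₀ (by positivity) h2 2
      _ = (256 * Real.pi ^ 2 / 9) / bigD ^ 2 := by field_simp; ring
      _ ≤ 300 / bigD ^ 2 := by
        gcongr
        nlinarith

theorem tcTau_translate (c x : Space) : tcTau c x = tcTau 0 (x - c) := by
  simp [tcTau]

end L2

/-! ## TC-L3 (proved): the IMS identity with two pieces -/

section L3

theorem tc_gradient_comp {φ : ℝ → ℝ} {φ' : ℝ} {τ : Space → ℝ} {x : Space} (hφ : HasDerivAt φ φ' (τ x))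
    (hτ : DifferentiableAt ℝ τ x) : gradient (fun y => φ (τ y)) x = φ' • gradient τ x := by
  have h1 := hτ.hasGradientAt
  rw [hasGradientAt_iff_hasFDerivAt] at h1
  have h2 := hφ.comp_hasFDerivAt x h1
  refine HasGradientAt.gradient ?_
  rw [hasGradientAt_iff_hasFDerivAt, map_smul]
  exact h2

theorem tc_ims_pointwise (c s g : ℝ) (hcs : c ^ 2 + s ^ 2 = 1) (G T : Space) :
    ‖c • G - (g * s) • T‖ ^ 2 + ‖s • G + (g * c) • T‖ ^ 2 = ‖G‖ ^ 2 + ‖T‖ ^ 2 * g ^ 2 := by
  rw [norm_sub_sq_real, norm_add_sq_real]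
  simp only [norm_smul, mul_pow, Real.norm_eq_abs, sq_abs, real_inner_smul_left, real_inner_smul_right]
  have : ‖G‖ ^ 2 + ‖T‖ ^ 2 * g ^ 2 = (c ^ 2 + s ^ 2) * (‖G‖ ^ 2 + ‖T‖ ^ 2 * g ^ 2) := by rw [hcs, one_mul]
  rw [this]
  ring

/-- `IsH1.mul_contDiff` with `χ = cos ∘ τ`, `sin ∘ τ`; `∇(cos τ) = - sin τ ∇τ`, `∇(sin τ) = cos τ ∇τ`; the cross terms cancel. -/
theorem tc_ims {τ : Space → ℝ} (hτ : ContDiff ℝ 1 τ) {M : ℝ} (hM : ∀ x, ‖gradient τ x‖ ≤ M) {g : Space → ℝ}
    {G : Space → Space} (hg : IsH1 g G) :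
    IsH1 (fun x => Real.cos (τ x) * g x) (fun x => Real.cos (τ x) • G x - (g x * Real.sin (τ x)) • gradient τ x) ∧
    IsH1 (fun x => Real.sin (τ x) * g x) (fun x => Real.sin (τ x) • G x + (g x * Real.cos (τ x)) • gradient τ x) ∧
    ∀ x, ‖Real.cos (τ x) • G x - (g x * Real.sin (τ x)) • gradient τ x‖ ^ 2
        + ‖Real.sin (τ x) • G x + (g x * Real.cos (τ x)) • gradient τ x‖ ^ 2
      = ‖G x‖ ^ 2 + ‖gradient τ x‖ ^ 2 * g x ^ 2 := by
  have hM0 : 0 ≤ M := (norm_nonneg _).trans (hM 0)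
  have hd : ∀ x, DifferentiableAt ℝ τ x := fun x => (hτ.differentiable (by norm_num)).differentiableAt
  have gc : ∀ x, gradient (fun y => Real.cos (τ y)) x = (-Real.sin (τ x)) • gradient τ x := fun x =>
    tc_gradient_comp (Real.hasDerivAt_cos (τ x)) (hd x)
  have gs : ∀ x, gradient (fun y => Real.sin (τ y)) x = Real.cos (τ x) • gradient τ x := fun x =>
    tc_gradient_comp (Real.hasDerivAt_sin (τ x)) (hd x)
  refine ⟨?_, ?_, fun x => tc_ims_pointwise _ _ _ (Real.cos_sq_add_sin_sq (τ x)) _ _⟩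
  · have h1 := hg.mul_contDiff (χ := fun y => Real.cos (τ y)) (Real.contDiff_cos.comp hτ) (C := 1 + M)
      (fun x => (Real.abs_cos_le_one _).trans (by linarith)) (fun x => by
        rw [gc, norm_smul, Real.norm_eq_abs, abs_neg]
        calc |Real.sin (τ x)| * ‖gradient τ x‖ ≤ 1 * M :=
              mul_le_mul (Real.abs_sin_le_one _) (hM x) (norm_nonneg _) zero_le_one
          _ ≤ 1 + M := by linarith)
    have e : (fun x => Real.cos (τ x) • G x + g x • gradient (fun y => Real.cos (τ y)) x)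
        = fun x => Real.cos (τ x) • G x - (g x * Real.sin (τ x)) • gradient τ x := by
      funext x
      rw [gc, smul_smul, mul_neg, neg_smul, sub_eq_add_neg]
    rw [e] at h1
    exact h1
  · have h1 := hg.mul_contDiff (χ := fun y => Real.sin (τ y)) (Real.contDiff_sin.comp hτ) (C := 1 + M)
      (fun x => (Real.abs_sin_le_one _).trans (by linarith)) (fun x => by
        rw [gs, norm_smul, Real.norm_eq_abs]
        calc |Real.cos (τ x)| * ‖gradient τ x‖ ≤ 1 * M :=
              mul_le_mul (Real.abs_cos_le_one _) (hM x) (norm_nonneg _) zero_le_one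
          _ ≤ 1 + M := by linarith)
    have e : (fun x => Real.sin (τ x) • G x + g x • gradient (fun y => Real.sin (τ y)) x)
        = fun x => Real.sin (τ x) • G x + (g x * Real.cos (τ x)) • gradient τ x := by
      funext x
      rw [gs, smul_smul]
    rw [e] at h1
    exact h1

end L3

/-! ## TC-L4 (proved): the localisation inequality -/

section L4

/-- the upper nucleus. -/
def tcC : Space := bigD • ez

variable {g : Space → ℝ} {G : Space → Space}

theorem norm_tcC : ‖tcC‖ = bigD := by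
  unfold tcC ez
  rw [norm_smul, Real.norm_eq_abs, abs_of_pos bigD_pos]
  simp

theorem tc_norm_gradient_tcTau_le (c x : Space) : ‖gradient (tcTau c) x‖ ≤ √(300 / bigD ^ 2) :=
  Real.le_sqrt_of_sq_le (norm_gradient_tcTau_sq_le c x)

/-- see the header. -/
theorem tc_loc (hg : IsH1 g G) :
    ∃ G₁ G₂ : Space → Space, IsH1 (fun x => Real.cos (tcTau tcC x) * g x) G₁ ∧
      IsH1 (fun x => Real.sin (tcTau tcC x) * g x) G₂ ∧
      (∫ x, (Real.cos (tcTau tcC x) * g x) ^ 2) + (∫ x, (Real.sin (tcTau tcC x) * g x) ^ 2) = ∫ x, g x ^ 2 ∧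
      hydQ tcC (fun x => Real.cos (tcTau tcC x) * g x) G₁ + hydQ (-tcC) (fun x => Real.sin (tcTau tcC x) * g x) G₂
        - (4 / bigD + 150 / bigD ^ 2) * (∫ x, g x ^ 2) ≤ orbitalForm g g G G := by
  have hD := bigD_pos
  obtain ⟨h₁, h₂, hpt⟩ := tc_ims (tcTau_contDiff tcC) (tc_norm_gradient_tcTau_le tcC) hg
  refine ⟨_, _, h₁, h₂, ?_, ?_⟩
  · rw [← integral_add (tc_integrable_sq h₁.1) (tc_integrable_sq h₂.1)]
    refine integral_congr_ae (Eventually.of_forall fun x => ?_)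
    simp only
    have := Real.cos_sq_add_sin_sq (tcTau tcC x)
    calc _ = (Real.cos (tcTau tcC x) ^ 2 + Real.sin (tcTau tcC x) ^ 2) * g x ^ 2 := by ring
      _ = g x ^ 2 := by rw [this, one_mul]
  · have hsum : (∫ x, (Real.cos (tcTau tcC x) * g x) ^ 2) + (∫ x, (Real.sin (tcTau tcC x) * g x) ^ 2) = ∫ x, g x ^ 2 := by
      rw [← integral_add (tc_integrable_sq h₁.1) (tc_integrable_sq h₂.1)]
      refine integral_congr_ae (Eventually.of_forall fun x => ?_)
      simp only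
      have := Real.cos_sq_add_sin_sq (tcTau tcC x)
      calc _ = (Real.cos (tcTau tcC x) ^ 2 + Real.sin (tcTau tcC x) ^ 2) * g x ^ 2 := by ring
        _ = g x ^ 2 := by rw [this, one_mul]
    -- kinetic parts
    have iG := tc_integrable_norm_sq hg.2.1
    have iG₁ := tc_integrable_norm_sq h₁.2.1
    have iG₂ := tc_integrable_norm_sq h₂.2.1
    have iT : Integrable (fun x => ‖gradient (tcTau tcC) x‖ ^ 2 * g x ^ 2) := by
      refine ((iG₁.add iG₂).sub iG).congr (Eventually.of_forall fun x => ?_)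
      simp only [Pi.add_apply, Pi.sub_apply]
      rw [hpt x]
      ring
    have hA : (∫ x, ‖Real.cos (tcTau tcC x) • G x - (g x * Real.sin (tcTau tcC x)) • gradient (tcTau tcC) x‖ ^ 2)
        + (∫ x, ‖Real.sin (tcTau tcC x) • G x + (g x * Real.cos (tcTau tcC x)) • gradient (tcTau tcC) x‖ ^ 2)
        = (∫ x, ‖G x‖ ^ 2) + ∫ x, ‖gradient (tcTau tcC) x‖ ^ 2 * g x ^ 2 := by
      rw [← integral_add iG₁ iG₂, ← integral_add iG iT]
      exact integral_congr_ae (Eventually.of_forall fun x => hpt x)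
    have hT : ∫ x, ‖gradient (tcTau tcC) x‖ ^ 2 * g x ^ 2 ≤ 300 / bigD ^ 2 * ∫ x, g x ^ 2 := by
      rw [← integral_const_mul]
      refine integral_mono iT ((tc_integrable_sq hg.1).const_mul _) fun x => ?_
      exact mul_le_mul_of_nonneg_right (norm_gradient_tcTau_sq_le tcC x) (sq_nonneg _)
    -- Coulomb parts
    have iP := (hg.coulomb tcC).1
    have iP₁ := (h₁.coulomb tcC).1
    have iP₂ := (h₂.coulomb tcC).1
    have iQ := (hg.coulomb (-tcC)).1
    have iQ₁ := (h₁.coulomb (-tcC)).1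
    have iQ₂ := (h₂.coulomb (-tcC)).1
    have hP : ∫ x, g x ^ 2 / ‖x - tcC‖ = (∫ x, (Real.cos (tcTau tcC x) * g x) ^ 2 / ‖x - tcC‖)
        + ∫ x, (Real.sin (tcTau tcC x) * g x) ^ 2 / ‖x - tcC‖ := by
      rw [← integral_add iP₁ iP₂]
      refine integral_congr_ae (Eventually.of_forall fun x => ?_)
      simp only
      have := Real.cos_sq_add_sin_sq (tcTau tcC x)
      calc g x ^ 2 / ‖x - tcC‖ = (Real.cos (tcTau tcC x) ^ 2 + Real.sin (tcTau tcC x) ^ 2) * g x ^ 2 / ‖x - tcC‖ := by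
            rw [this, one_mul]
        _ = _ := by ring
    have hQ : ∫ x, g x ^ 2 / ‖x - -tcC‖ = (∫ x, (Real.cos (tcTau tcC x) * g x) ^ 2 / ‖x - -tcC‖)
        + ∫ x, (Real.sin (tcTau tcC x) * g x) ^ 2 / ‖x - -tcC‖ := by
      rw [← integral_add iQ₁ iQ₂]
      refine integral_congr_ae (Eventually.of_forall fun x => ?_)
      simp only
      have := Real.cos_sq_add_sin_sq (tcTau tcC x)
      calc g x ^ 2 / ‖x - -tcC‖ = (Real.cos (tcTau tcC x) ^ 2 + Real.sin (tcTau tcC x) ^ 2) * g x ^ 2 / ‖x - -tcC‖ := by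
            rw [this, one_mul]
        _ = _ := by ring
    have hP₂ : ∫ x, (Real.sin (tcTau tcC x) * g x) ^ 2 / ‖x - tcC‖
        ≤ 4 / bigD * ∫ x, (Real.sin (tcTau tcC x) * g x) ^ 2 := by
      rw [← integral_const_mul]
      refine integral_mono iP₂ ((tc_integrable_sq h₂.1).const_mul _) fun x => ?_
      simp only
      rcases le_total ‖x - tcC‖ (bigD / 4) with h | h
      · rw [tcTau_of_le h]
        simp
      · rw [div_eq_mul_inv, mul_comm]
        refine mul_le_mul_of_nonneg_right ?_ (sq_nonneg _)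
        rw [inv_le_comm₀ (by linarith) (by positivity)]
        rw [inv_div]
        exact h
    have hQ₁ : ∫ x, (Real.cos (tcTau tcC x) * g x) ^ 2 / ‖x - -tcC‖
        ≤ 4 / bigD * ∫ x, (Real.cos (tcTau tcC x) * g x) ^ 2 := by
      rw [← integral_const_mul]
      refine integral_mono iQ₁ ((tc_integrable_sq h₁.1).const_mul _) fun x => ?_
      simp only
      rcases le_total (bigD / 2) ‖x - tcC‖ with h | h
      · rw [tcTau_of_ge h]
        simp
      · have h3 : bigD / 4 ≤ ‖x - -tcC‖ := by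
          have h4 : ‖(2 : ℝ) • tcC‖ ≤ ‖x - -tcC‖ + ‖x - tcC‖ := by
            have : (2 : ℝ) • tcC = (x - -tcC) - (x - tcC) := by
              rw [two_smul]; abel
            rw [this]
            exact norm_sub_le _ _
          rw [norm_smul, norm_tcC, Real.norm_eq_abs, abs_of_pos two_pos] at h4
          linarith
        rw [div_eq_mul_inv, mul_comm]
        refine mul_le_mul_of_nonneg_right ?_ (sq_nonneg _)
        rw [inv_le_comm₀ (by linarith) (by positivity)]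
        rw [inv_div]
        exact h3
    have hform : orbitalForm g g G G = (1 / 2) * (∫ x, ‖G x‖ ^ 2) - (∫ x, g x ^ 2 / ‖x - tcC‖)
        - ∫ x, g x ^ 2 / ‖x - -tcC‖ := by
      rw [orbitalForm_eq_nucForm, nucForm_eq_hydQ_sub hg bigD]
      unfold hydQ tcC
      simp only [sub_neg_eq_add]
    rw [hform, hP, hQ]
    unfold hydQ
    rw [← hsum] at hT ⊢
    have e : (150 : ℝ) / bigD ^ 2 = 300 / bigD ^ 2 / 2 := by ring
    rw [e]
    linarith

end L4

/-! ## Lower bounds (proved from the leaves) -/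

section L5

variable {g : Space → ℝ} {G : Space → Space}

/-- `q ≥ -1/2 - 4/D - 150/D²`. -/
theorem tc_lower (hg : IsH1 g G) :
    (-(1 / 2) - 4 / bigD - 150 / bigD ^ 2) * (∫ x, g x ^ 2) ≤ orbitalForm g g G G := by
  obtain ⟨G₁, G₂, h₁, h₂, hsum, hle⟩ := tc_loc hg
  have e₁ := h₁.hydQ_ge tcC
  have e₂ := h₂.hydQ_ge (-tcC)
  nlinarith

/-- the two reference functions. -/
def tcT1 (x : Space) : ℝ := Real.cos (tcTau tcC x) * hyd (x - tcC)

def tcT2 (x : Space) : ℝ := Real.sin (tcTau tcC x) * hyd (x + tcC)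

/-- `q ≥ -1/8 - 4/D - 150/D²` on `{T₁,T₂}^⊥`. -/
theorem tc_lower_orth (hg : IsH1 g G) (o₁ : ∫ x, g x * tcT1 x = 0) (o₂ : ∫ x, g x * tcT2 x = 0) :
    (-(1 / 8) - 4 / bigD - 150 / bigD ^ 2) * (∫ x, g x ^ 2) ≤ orbitalForm g g G G := by
  obtain ⟨G₁, G₂, h₁, h₂, hsum, hle⟩ := tc_loc hg
  have e₁ := hyd_gap tcC h₁ (by
    rw [← o₁]
    refine integral_congr_ae (Eventually.of_forall fun x => ?_)
    simp only [tcT1]; ring)
  have e₂ := hyd_gap (-tcC) h₂ (by
    rw [← o₂]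
    refine integral_congr_ae (Eventually.of_forall fun x => ?_)
    simp only [tcT2, sub_neg_eq_add]; ring)
  nlinarith

end L5

/-! ## TC-L6 (proved): `T₁, T₂ ∈ L²` -/

section L6

theorem memLp_tcT1 : MemLp tcT1 2 volume := by
  have h1 : MemLp (fun x => hyd (x + -tcC)) 2 volume := fs_memLp_translate memLp_hyd (-tcC)
  refine tc_memLp_of_abs_le h1 ?_ (Eventually.of_forall fun x => ?_)
  · unfold tcT1
    exact ((Real.continuous_cos.comp (tcTau_contDiff tcC).continuous).mul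
      (continuous_hyd.comp (continuous_id.sub continuous_const))).aestronglyMeasurable
  · unfold tcT1
    rw [abs_mul, ← sub_eq_add_neg]
    exact mul_le_of_le_one_left (abs_nonneg _) (Real.abs_cos_le_one _)

theorem memLp_tcT2 : MemLp tcT2 2 volume := by
  have h1 : MemLp (fun x => hyd (x + tcC)) 2 volume := fs_memLp_translate memLp_hyd tcC
  refine tc_memLp_of_abs_le h1 ?_ (Eventually.of_forall fun x => ?_)
  · unfold tcT2
    exact ((Real.continuous_sin.comp (tcTau_contDiff tcC).continuous).mul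
      (continuous_hyd.comp (continuous_id.add continuous_const))).aestronglyMeasurable
  · unfold tcT2
    rw [abs_mul]
    exact mul_le_of_le_one_left (abs_nonneg _) (Real.abs_sin_le_one _)

end L6

/-! ## TC-L7 (proved): a cut-off eigenfunction -/

section L7

theorem tc_form_mul_pointwise (c p : ℝ) (P X : Space) :
    ⟪c • P + p • X, c • P + p • X⟫_ℝ = ⟪c • (c • P + p • X) + (c * p) • X, P⟫_ℝ + ‖X‖ ^ 2 * p ^ 2 := by
  simp only [inner_add_left, inner_add_right, real_inner_smul_left, real_inner_smul_right]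
  rw [real_inner_self_eq_norm_sq, real_inner_self_eq_norm_sq, real_inner_comm P X]
  ring

/-- `q[χψ] = E ∫ (χψ)² + ½ ∫ |∇χ|² ψ²`: test the equation with `χ²ψ = χ (χψ)` (`IsH1.mul_contDiff` twice);
`⟪∇(χ²ψ), ∇ψ⟫ = |∇(χψ)|² - |∇χ|² ψ²` pointwise. -/
theorem IsWeakEig.form_mul {Z R E : ℝ} {ψ : Space → ℝ} {Ψ : Space → Space} (h : IsWeakEig Z R E ψ Ψ) {χ : Space → ℝ}
    (hχ : ContDiff ℝ 1 χ) {C : ℝ} (h0 : ∀ x, |χ x| ≤ C) (h1 : ∀ x, ‖gradient χ x‖ ≤ C) :
    nucForm Z R (fun x => χ x * ψ x) (fun x => χ x * ψ x) (fun x => χ x • Ψ x + ψ x • gradient χ x)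
        (fun x => χ x • Ψ x + ψ x • gradient χ x)
      = E * (∫ x, (χ x * ψ x) ^ 2) + (1 / 2) * ∫ x, ‖gradient χ x‖ ^ 2 * ψ x ^ 2 := by
  have hu := h.1.mul_contDiff hχ h0 h1
  have hw := hu.mul_contDiff hχ h0 h1
  have ht := h.2 _ _ hw
  have e1 : ∫ x, χ x * (χ x * ψ x) * ψ x = ∫ x, (χ x * ψ x) ^ 2 :=
    integral_congr_ae (Eventually.of_forall fun x => by simp only; ring)
  rw [e1] at ht
  rw [← ht]
  unfold nucForm
  have iU := hu.integrable_inner hu
  have iW := hw.integrable_inner h.1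
  have iX : Integrable (fun x => ‖gradient χ x‖ ^ 2 * ψ x ^ 2) := by
    refine (iU.sub iW).congr (Eventually.of_forall fun x => ?_)
    simp only [Pi.sub_apply]
    rw [tc_form_mul_pointwise]
    ring
  have e2 : ∫ x, ⟪χ x • Ψ x + ψ x • gradient χ x, χ x • Ψ x + ψ x • gradient χ x⟫_ℝ
      = (∫ x, ⟪χ x • (χ x • Ψ x + ψ x • gradient χ x) + (χ x * ψ x) • gradient χ x, Ψ x⟫_ℝ)
        + ∫ x, ‖gradient χ x‖ ^ 2 * ψ x ^ 2 := by
    rw [← integral_add iW iX]
    exact integral_congr_ae (Eventually.of_forall fun x => tc_form_mul_pointwise _ _ _ _)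
  have e3 : ∫ x, nuclearPotential Z R x * (χ x * ψ x * (χ x * ψ x))
      = ∫ x, nuclearPotential Z R x * (χ x * (χ x * ψ x) * ψ x) :=
    integral_congr_ae (Eventually.of_forall fun x => by simp only; ring)
  rw [e2, e3]
  ring

end L7

/-! ## TC-L8 (proved): the cut-off hydrogen state -/

section L8

/-- `T⁰ = cos(τ₀) hyd`, gradient `cos τ₀ ∇hyd - hyd sin τ₀ ∇τ₀`. -/
def tcT0 (x : Space) : ℝ := Real.cos (tcTau 0 x) * hyd x

def tcT0Grad (x : Space) : Space :=
  Real.cos (tcTau 0 x) • hydGrad x - (hyd x * Real.sin (tcTau 0 x)) • gradient (tcTau 0) x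

theorem isH1_tcT0 : IsH1 tcT0 tcT0Grad :=
  (tc_ims (tcTau_contDiff 0) (tc_norm_gradient_tcTau_le 0) isH1_hyd).1

theorem ten_le_bigD : 10 ≤ bigD := by
  unfold bigD
  norm_num

/-- `1 - ∫ (T⁰)² = ∫ sin²τ₀ hyd² ≤ ∫_{|x| ≥ D/4} hyd² ≤ (16/D²) ∫ |x|² hyd² = 48/D²`. -/
theorem integral_tcT0_sq_ge : 1 / 2 ≤ ∫ x, tcT0 x ^ 2 := by
  have hD := bigD_pos
  have hD10 := ten_le_bigD
  have h₂ := (tc_ims (tcTau_contDiff 0) (tc_norm_gradient_tcTau_le 0) isH1_hyd).2.1
  have i1 := tc_integrable_sq isH1_tcT0.1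
  have i2 := tc_integrable_sq h₂.1
  have hsum : (∫ x, tcT0 x ^ 2) + (∫ x, (Real.sin (tcTau 0 x) * hyd x) ^ 2) = 1 := by
    rw [← integral_add i1 i2, ← integral_hyd_sq]
    refine integral_congr_ae (Eventually.of_forall fun x => ?_)
    simp only [tcT0]
    have := Real.cos_sq_add_sin_sq (tcTau 0 x)
    calc _ = (Real.cos (tcTau 0 x) ^ 2 + Real.sin (tcTau 0 x) ^ 2) * hyd x ^ 2 := by ring
      _ = hyd x ^ 2 := by rw [this, one_mul]
  have hle : ∫ x, (Real.sin (tcTau 0 x) * hyd x) ^ 2 ≤ 16 / bigD ^ 2 * ∫ x, ‖x‖ ^ 2 * hyd x ^ 2 := by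
    rw [← integral_const_mul]
    refine integral_mono i2 (integrable_norm_sq_mul_hyd_sq.const_mul _) fun x => ?_
    simp only
    rcases le_total ‖x‖ (bigD / 4) with h | h
    · rw [tcTau_of_le (by simpa using h)]
      simp only [Real.sin_zero, zero_mul]
      rw [zero_pow two_ne_zero]
      exact mul_nonneg (div_nonneg (by norm_num) (pow_pos hD 2).le) (by positivity)
    · rw [mul_pow, ← mul_assoc]
      refine mul_le_mul_of_nonneg_right ?_ (sq_nonneg _)
      have h1 : Real.sin (tcTau 0 x) ^ 2 ≤ 1 := Real.sin_sq_le_one _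
      have h2 : (bigD / 4) ^ 2 ≤ ‖x‖ ^ 2 := pow_le_pow_left₀ (by linarith) h 2
      have h3 : 1 ≤ 16 / bigD ^ 2 * ‖x‖ ^ 2 := by
        rw [div_mul_eq_mul_div, le_div_iff₀ (pow_pos hD 2)]
        nlinarith
      linarith
  rw [integral_norm_sq_mul_hyd_sq] at hle
  have h4 : 16 / bigD ^ 2 * 3 ≤ 1 / 2 := by
    rw [div_mul_eq_mul_div, div_le_iff₀ (pow_pos hD 2)]
    nlinarith
  linarith

/-- `IsWeakEig.form_mul` for `hyd` and `χ = cos τ₀`, `|∇χ|² ≤ |∇τ₀|² ≤ 300/D²`, `∫ hyd² = 1 ≤ 2 ∫ (T⁰)²`. -/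
theorem hydQ_tcT0_le : hydQ 0 tcT0 tcT0Grad ≤ (-(1 / 2) + 300 / bigD ^ 2) * ∫ x, tcT0 x ^ 2 := by
  have hD := bigD_pos
  have hτ := tcTau_contDiff 0
  have hd : ∀ x, DifferentiableAt ℝ (tcTau 0) x := fun x => (hτ.differentiable (by norm_num)).differentiableAt
  have gc : ∀ x, gradient (fun y => Real.cos (tcTau 0 y)) x = (-Real.sin (tcTau 0 x)) • gradient (tcTau 0) x := fun x =>
    tc_gradient_comp (Real.hasDerivAt_cos (tcTau 0 x)) (hd x)
  have hn : ∀ x, ‖gradient (fun y => Real.cos (tcTau 0 y)) x‖ ≤ ‖gradient (tcTau 0) x‖ := by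
    intro x
    rw [gc, norm_smul, Real.norm_eq_abs, abs_neg]
    exact mul_le_of_le_one_left (norm_nonneg _) (Real.abs_sin_le_one _)
  have h1 := isWeakEig_hyd.form_mul (χ := fun y => Real.cos (tcTau 0 y)) (Real.contDiff_cos.comp hτ)
    (C := 1 + √(300 / bigD ^ 2)) (fun x => (Real.abs_cos_le_one _).trans (by have := Real.sqrt_nonneg (300 / bigD ^ 2); linarith))
    (fun x => ((hn x).trans (tc_norm_gradient_tcTau_le 0 x)).trans (by linarith))
  have e : (fun x => Real.cos (tcTau 0 x) • hydGrad x + hyd x • gradient (fun y => Real.cos (tcTau 0 y)) x) = tcT0Grad := by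
    funext x
    unfold tcT0Grad
    rw [gc, smul_smul, mul_neg, neg_smul, sub_eq_add_neg]
  rw [e, nucForm_half_zero] at h1
  have e2 : (fun x => Real.cos (tcTau 0 x) * hyd x) = tcT0 := rfl
  rw [e2] at h1
  rw [h1]
  have h2 : ∫ x, ‖gradient (fun y => Real.cos (tcTau 0 y)) x‖ ^ 2 * hyd x ^ 2 ≤ 300 / bigD ^ 2 * ∫ x, hyd x ^ 2 := by
    rw [← integral_const_mul]
    refine integral_mono_of_nonneg (Eventually.of_forall fun x => by positivity)
      ((tc_integrable_sq memLp_hyd).const_mul _) (Eventually.of_forall fun x => ?_)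
    refine mul_le_mul_of_nonneg_right ?_ (sq_nonneg _)
    exact (pow_le_pow_left₀ (norm_nonneg _) (hn x) 2).trans (norm_gradient_tcTau_sq_le 0 x)
  rw [integral_hyd_sq, mul_one] at h2
  have h3 := integral_tcT0_sq_ge
  have h4 : 0 ≤ 300 / bigD ^ 2 := div_nonneg (by norm_num) (pow_pos hD 2).le
  have e3 : ∫ x, (Real.cos (tcTau 0 x) * hyd x) ^ 2 = ∫ x, tcT0 x ^ 2 := rfl
  rw [e3]
  have h5 : 300 / bigD ^ 2 * (1 / 2) ≤ 300 / bigD ^ 2 * ∫ x, tcT0 x ^ 2 := mul_le_mul_of_nonneg_left h3 h4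
  linarith

theorem tcT0_eq_zero {x : Space} (h : bigD / 2 ≤ ‖x‖) : tcT0 x = 0 := by
  unfold tcT0
  rw [tcTau_of_ge (by simpa using h), Real.cos_pi_div_two, zero_mul]

theorem tcT0Grad_eq_zero {x : Space} (h : bigD / 2 ≤ ‖x‖) : tcT0Grad x = 0 := by
  unfold tcT0Grad
  rw [tcTau_of_ge (by simpa using h), Real.cos_pi_div_two, gradient_tcTau_of_ge (by simpa using h)]
  simp

end L8

/-! ## TC-L9 (proved): the odd trial function -/

section L9

/-- `T(x) = T⁰(x - c)`, `g = T - T ∘ reflZ`, `G = ∇T - reflZ (∇T ∘ reflZ)` (`IsH1.translate`, `IsH1.comp_isometry reflZE`,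
`reflZE_symm_apply`).  `T` and `∇T` vanish unless `|x - c| < D/2`, which forces `x 2 > 0`; so `T · T∘reflZ = 0`,
`⟪∇T, reflZ (∇T ∘ reflZ)⟫ = 0` pointwise, `∫ g² = 2 ∫ T²`, `q[g] = 2 q[T]` (`nucForm_comp_isometry`), and
`q[T] = q_{H,c}[T] - ∫ T²/|x + c| ≤ q_{H,c}[T] = q_{H,0}[T⁰]`. -/
theorem tc_exists_trial :
    ∃ (g : Space → ℝ) (G : Space → Space), IsH1 g G ∧ OddZ g ∧ 0 < ∫ x, g x ^ 2 ∧
      orbitalForm g g G G ≤ (-(1 / 2) + 300 / bigD ^ 2) * ∫ x, g x ^ 2 := by
  have hD := bigD_pos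
  set T : Space → ℝ := fun x => tcT0 (x + -tcC) with hTdef
  set TG : Space → Space := fun x => tcT0Grad (x + -tcC) with hTGdef
  have hT : IsH1 T TG := isH1_tcT0.translate (-tcC)
  have hT' := hT.comp_isometry reflZE
  -- supports
  have hsupp : ∀ x : Space, x 2 ≤ 0 → T x = 0 ∧ TG x = 0 := by
    intro x hx
    have h1 : bigD / 2 ≤ ‖x + -tcC‖ := by
      have h2 : |(x + -tcC) 2| ≤ ‖x + -tcC‖ := tc_abs_coord_le _ 2
      have h3 : (x + -tcC) 2 = x 2 - bigD := by
        simp [tcC, ez]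
        ring
      rw [h3, abs_of_nonpos (by linarith)] at h2
      linarith
    exact ⟨tcT0_eq_zero h1, tcT0Grad_eq_zero h1⟩
  have hrefl : ∀ x : Space, 0 ≤ x 2 → (reflZE x) 2 ≤ 0 := by
    intro x hx
    simp [reflZ]
    exact hx
  have hprod : ∀ x, T x * T (reflZE x) = 0 := by
    intro x
    rcases le_total (x 2) 0 with h | h
    · rw [(hsupp x h).1, zero_mul]
    · rw [(hsupp (reflZE x) (hrefl x h)).1, mul_zero]
  have hinner : ∀ x, ⟪TG x, reflZE.symm (TG (reflZE x))⟫_ℝ = 0 := by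
    intro x
    rcases le_total (x 2) 0 with h | h
    · rw [(hsupp x h).2, inner_zero_left]
    · rw [(hsupp (reflZE x) (hrefl x h)).2, map_zero, inner_zero_right]
  have c1 : nucForm 1 bigD T (fun x => T (reflZE x)) TG (fun x => reflZE.symm (TG (reflZE x))) = 0 := by
    unfold nucForm
    simp only [hprod, hinner, mul_zero, integral_zero, add_zero]
  have c2 : ∫ x, T x * T (reflZE x) = 0 := by simp only [hprod, integral_zero]
  have s1 : nucForm 1 bigD (fun x => T (reflZE x)) (fun x => T (reflZE x)) (fun x => reflZE.symm (TG (reflZE x)))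
      (fun x => reflZE.symm (TG (reflZE x))) = nucForm 1 bigD T T TG TG :=
    nucForm_comp_isometry reflZE nuclearPotential_reflZE T T TG TG
  have s2 : ∫ x, T (reflZE x) * T (reflZE x) = ∫ x, T x * T x := tc_integral_comp_isometry reflZE (fun x => T x * T x)
  have e : (hT.sub hT').mk = hT.mk - hT'.mk := rfl
  have q : nucForm 1 bigD (fun x => T x - T (reflZE x)) (fun x => T x - T (reflZE x))
      (fun x => TG x - reflZE.symm (TG (reflZE x))) (fun x => TG x - reflZE.symm (TG (reflZE x)))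
      = 2 * nucForm 1 bigD T T TG TG := by
    have : nucB 1 bigD (hT.sub hT').mk (hT.sub hT').mk = 2 * nucForm 1 bigD T T TG TG := by
      rw [e, map_sub, map_sub, LinearMap.sub_apply, LinearMap.sub_apply, nucB_mk, nucB_mk, nucB_mk, nucB_mk,
        nucForm_comm 1 bigD (fun x => T (reflZE x)) T, c1, s1]
      ring
    exact this
  have n : ∫ x, (T x - T (reflZE x)) ^ 2 = 2 * ∫ x, T x ^ 2 := by
    have : l2B (hT.sub hT').mk (hT.sub hT').mk = 2 * ∫ x, T x * T x := by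
      rw [e, map_sub, map_sub, LinearMap.sub_apply, LinearMap.sub_apply, l2B_mk, l2B_mk, l2B_mk, l2B_mk, s2, c2]
      have : ∫ x, T (reflZE x) * T x = 0 := by
        rw [← c2]
        exact integral_congr_ae (Eventually.of_forall fun x => mul_comm _ _)
      rw [this]
      ring
    simp only [sq]
    exact this
  have nT : ∫ x, T x ^ 2 = ∫ x, tcT0 x ^ 2 := integral_add_right_eq_self (fun x => tcT0 x ^ 2) (-tcC)
  have qT : nucForm 1 bigD T T TG TG ≤ hydQ 0 tcT0 tcT0Grad := by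
    rw [nucForm_eq_hydQ_sub hT bigD]
    have h1 : hydQ (bigD • ez) T TG = hydQ 0 tcT0 tcT0Grad := by
      rw [← hydQ_translate (bigD • ez) T TG]
      simp only [hTdef, hTGdef, tcC, add_neg_cancel_right]
    rw [h1]
    have h2 : 0 ≤ ∫ x, T x ^ 2 / ‖x + bigD • ez‖ := integral_nonneg fun x => by positivity
    linarith
  have h3 := integral_tcT0_sq_ge
  have h4 := hydQ_tcT0_le
  refine ⟨_, _, hT.sub hT', ?_, ?_, ?_⟩
  · refine Eventually.of_forall fun x => ?_
    simp only [reflZE_apply, reflZ_reflZ]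
    ring
  · rw [n, nT]
    linarith
  · rw [orbitalForm_eq_nucForm, q, n, nT]
    linarith

end L9

end Claimed.Open.R278
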