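import Claimed.Open.R278.GPExt
import Claimed.Open.R278.TCLoc

/-!
# Package GP, leaves GP-E1, GP-E2, GP-E3: the even part of the weighted gap (proof of Lemma 4.8, second half)

`w = gpw n θ`, `w₀ = 2 b²`, `S = 100 M`, `χ = gpChi S`, `ρ = gpRho S`.

GP-E1 (zero coupling, (4.28)).  `gp_ground_transform`: `b η ∈ H¹` (`IsH1.mul`-type product rule with the `C¹_c` function `η`; also `b η² ∈ H¹`), and
  `|∇(bη)|² = ⟪∇(b η²), ∇b⟫ + b² |∇η|²`; the orbital equation tested with `b η²` gives `q(bη) = ε_b ∫ b² η² + (1/2) ∫ b² |∇η|²`.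
  `gp_even_ref_gap`: `g = b η ⟂ b` (`hmean`), `g ⟂ e` (`b η e` is odd: `tk_integral_odd`), `TwoCentre.third`: `(ε_e + 0.2) ∫ g² ≤ q(g)`, and `ε_b < ε_e`.
GP-E2.  `gp_var_le`: `∫ w (ξ-c)² - [∫ w ξ² - (∫ w ξ)²/∫ w] = (∫ w) (c - ∫ w ξ/∫ w)² ≥ 0`.
  `gp_inner_part`: `η = χ f`, `C¹_c`, even, `∫ b² η = 0`.  On `‖x‖ ≤ 2S`: `b² ≤ w ≤ 4 b²` (`GPData.ratio`); `η = 0`, `∇η = 0` on `‖x‖ > 2S`.  `(1/2) ∫ w |∇η|² ≥ (1/2) ∫ b² |∇η|² ≥ 0.2 ∫ b² η² ≥ 0.05 ∫ w η²`.
  `gp_outer_part`: `gp_ext_gap_even` with `u = ρ f` (bounded, bounded gradient: `f = ξ - c`, `ξ ∈ C¹_c`; `|∇ρ|² ≤ 10/S²`).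
GP-E3 (`gp_even_gap`).  `c = ∫ b² χ ξ / ∫ b² χ` (`∫ b² χ > 0`), `f = ξ - c`, `∇f = ∇ξ`.  Integrate `w ·` the pointwise IMS formula `gp_ims`:
  `(1/2) ∫ w |∇ξ|² = (1/2) ∫ w |∇(χf)|² + (1/2) ∫ w |∇(ρf)|² - (1/2) ∫ w (|∇χ|² + |∇ρ|²) f² ≥ 0.05 ∫ w χ² f² + 0.03 ∫ w ρ² f² - (5/S²) ∫ w f² ≥ (0.03 - 5/S²) ∫ w f² ≥ d ∫ w f² ≥ d Var_w(ξ)`.
-/

open MeasureTheory
open scoped ContDiff InnerProductSpace ENNReal Topology

noncomputable section

namespace Claimed.Open.R278

variable {b e : Space → ℝ} {εb εe : ℝ} {M : ℕ} {n θ : Space → ℝ} {k d : ℝ}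

/-! ### GP-E1 -/

/-- a `C¹_c` function and its gradient are bounded. -/
theorem gpe_bounds {η : Space → ℝ} (hη : ContDiff ℝ 1 η) (hc : HasCompactSupport η) :
    ∃ C : ℝ, 0 ≤ C ∧ (∀ x, |η x| ≤ C) ∧ ∀ x, ‖gradient η x‖ ≤ C := by
  obtain ⟨C0, hC0⟩ := hc.exists_bound_of_continuous hη.continuous
  obtain ⟨C1, hC1⟩ := (Claimed.Agent.R259.ws_gradient_hasCompactSupport hc).exists_bound_of_continuous
    (continuous_gradient hη)
  refine ⟨max C0 C1, (norm_nonneg _).trans ((hC0 0).trans (le_max_left _ _)),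
    fun x => (hC0 x).trans (le_max_left _ _), fun x => (hC1 x).trans (le_max_right _ _)⟩

theorem gp_ground_transform (h : TwoCentre b e εb εe) {Fb : Space → Space} (hb : IsH1 b Fb)
    (hbe : ∀ g G, IsH1 g G → orbitalForm g b G Fb = εb * ∫ x, g x * b x) {η : Space → ℝ} (hη : ContDiff ℝ 1 η)
    (hc : HasCompactSupport η) :
    IsH1 (fun x => b x * η x) (fun x => η x • Fb x + b x • gradient η x) ∧
      orbitalForm (fun x => b x * η x) (fun x => b x * η x) (fun x => η x • Fb x + b x • gradient η x)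
          (fun x => η x • Fb x + b x • gradient η x)
        = εb * (∫ x, (b x * η x) ^ 2) + (1 / 2) * ∫ x, b x ^ 2 * ‖gradient η x‖ ^ 2 := by
  obtain ⟨C, _, h0, h1⟩ := gpe_bounds hη hc
  have hE : IsWeakEig 1 bigD εb b Fb := ⟨hb, hbe⟩
  have e1 : (fun x => b x * η x) = fun x => η x * b x := funext fun x => mul_comm _ _
  have e2 : (fun x => b x ^ 2 * ‖gradient η x‖ ^ 2) = fun x => ‖gradient η x‖ ^ 2 * b x ^ 2 :=
    funext fun x => mul_comm _ _
  have e3 : (fun x => (b x * η x) ^ 2) = fun x => (η x * b x) ^ 2 := funext fun x => by rw [mul_comm]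
  rw [e1, e2, e3]
  exact ⟨hb.mul_contDiff hη h0 h1, hE.form_mul hη h0 h1⟩

/-- (4.28). -/
theorem gp_even_ref_gap (h : TwoCentre b e εb εe) {η : Space → ℝ} (hη : ContDiff ℝ 1 η)
    (hc : HasCompactSupport η) (hev : ∀ x, η (reflZ x) = η x) (hmean : (∫ x, b x ^ 2 * η x) = 0) :
    0.2 * (∫ x, b x ^ 2 * η x ^ 2) ≤ (1 / 2) * ∫ x, b x ^ 2 * ‖gradient η x‖ ^ 2 := by
  obtain ⟨_, _, Fb, hb, hbe⟩ := h.data.orbital_b
  obtain ⟨hH, hq⟩ := gp_ground_transform h hb hbe hη hc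
  have o1 : (∫ x, b x * η x * b x) = 0 := by
    rw [← hmean]
    exact integral_congr_ae (Filter.Eventually.of_forall fun x => by simp only; ring)
  have o2 : (∫ x, b x * η x * e x) = 0 := tk_integral_odd (Filter.Eventually.of_forall fun x => by
    rw [h.data.even_b, hev, h.data.odd_e]; ring)
  have h3 := h.third _ _ hH o1 o2
  rw [hq] at h3
  have e1 : (∫ x, b x ^ 2 * η x ^ 2) = ∫ x, (b x * η x) ^ 2 :=
    integral_congr_ae (Filter.Eventually.of_forall fun x => by simp only; ring)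
  have p : 0 ≤ ∫ x, (b x * η x) ^ 2 := integral_nonneg fun x => sq_nonneg _
  have hlt := h.data.lt
  rw [e1]
  nlinarith

/-! ### GP-E2 -/

theorem gpw_continuous (hn : DensityBasic n) (hθ : Continuous θ) : Continuous (gpw n θ) :=
  hn.continuous.mul ((Real.continuous_cos.comp hθ).pow 2)

theorem gpw_integrable (hn : DensityBasic n) (hθ : Continuous θ) : Integrable (gpw n θ) := by
  refine hn.integrable.mono (gpw_continuous hn hθ).aestronglyMeasurable (Filter.Eventually.of_forall fun x => ?_)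
  rw [Real.norm_eq_abs, Real.norm_eq_abs, gpw, abs_mul, abs_of_nonneg (sq_nonneg (Real.cos (θ x)))]
  have := Real.cos_sq_le_one (θ x)
  nlinarith [abs_nonneg (n x)]

/-- integrable weight times a bounded continuous function. -/
theorem gpe_integrable_mul {w g : Space → ℝ} (hw : Integrable w) (hg : Continuous g) {C : ℝ}
    (hb : ∀ x, |g x| ≤ C) : Integrable (fun x => w x * g x) :=
  hw.mul_bdd hg.aestronglyMeasurable (Filter.Eventually.of_forall hb)

theorem gp_var_le {w ξ : Space → ℝ} (hw : Integrable w) (hw0 : ∀ x, 0 < w x) (hξ : Continuous ξ) {C : ℝ}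
    (hb : ∀ x, |ξ x| ≤ C) (c : ℝ) :
    (∫ x, w x * ξ x ^ 2) - (∫ x, w x * ξ x) ^ 2 / (∫ x, w x) ≤ ∫ x, w x * (ξ x - c) ^ 2 := by
  have hC : 0 ≤ C := (abs_nonneg _).trans (hb 0)
  have hW : 0 < ∫ x, w x := by
    rw [integral_pos_iff_support_of_nonneg (fun x => (hw0 x).le) hw]
    have : Function.support w = Set.univ := Set.eq_univ_of_forall fun x => (hw0 x).ne'
    rw [this]
    simp
  have i1 : Integrable (fun x => w x * ξ x) := gpe_integrable_mul hw hξ hb
  have i2 : Integrable (fun x => w x * ξ x ^ 2) := gpe_integrable_mul hw (hξ.pow 2) (C := C ^ 2) fun x => by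
    rw [abs_pow]; exact pow_le_pow_left₀ (abs_nonneg _) (hb x) 2
  have e : (∫ x, w x * (ξ x - c) ^ 2)
      = (∫ x, w x * ξ x ^ 2) - 2 * c * (∫ x, w x * ξ x) + c ^ 2 * ∫ x, w x := by
    have h1 : (∫ x, (w x * ξ x ^ 2 - 2 * c * (w x * ξ x)) + c ^ 2 * w x)
        = (∫ x, w x * ξ x ^ 2 - 2 * c * (w x * ξ x)) + ∫ x, c ^ 2 * w x :=
      integral_add (i2.sub (i1.const_mul _)) (hw.const_mul _)
    have h2 : (∫ x, w x * ξ x ^ 2 - 2 * c * (w x * ξ x))
        = (∫ x, w x * ξ x ^ 2) - ∫ x, 2 * c * (w x * ξ x) := integral_sub i2 (i1.const_mul _)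
    rw [← integral_const_mul, ← integral_const_mul, ← h2, ← h1]
    exact integral_congr_ae (Filter.Eventually.of_forall fun x => by simp only; ring)
  rw [e]
  set W := ∫ x, w x
  set A := ∫ x, w x * ξ x
  have : A ^ 2 / W - 2 * c * A + c ^ 2 * W = (A - c * W) ^ 2 / W := by
    field_simp
    ring
  have p : 0 ≤ (A - c * W) ^ 2 / W := by positivity
  linarith

theorem gpe_S_pos (D : GPData b e εb εe M n θ k d) : (0 : ℝ) < 100 * M := by
  have h1 := D.hM
  have h2 : (0 : ℝ) < bigD := by unfold bigD; positivity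
  linarith

/-- `b² ≤ w ≤ 4 b²` on the ball of radius `2S`. -/
theorem gpe_ratio (D : GPData b e εb εe M n θ k d) {x : Space} (hx : ‖x‖ ≤ 2 * (100 * M)) :
    b x ^ 2 ≤ gpw n θ x ∧ gpw n θ x ≤ 4 * b x ^ 2 := by
  obtain ⟨h1, h2⟩ := D.ratio x hx
  have hb : 0 < 2 * b x ^ 2 := by have := D.tc.data.pos_b x; positivity
  rw [le_div_iff₀ hb] at h1
  rw [div_le_iff₀ hb] at h2
  unfold gpw
  constructor <;> linarith

theorem gpe_gradient_eq_zero {η : Space → ℝ} {x : Space} (hx : x ∉ tsupport η) : gradient η x = 0 := by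
  have h0 : fderiv ℝ η x = 0 := image_eq_zero_of_notMem_tsupport fun h => hx (tsupport_fderiv_subset ℝ h)
  simp [gradient, h0]

theorem gpe_integrable_cs {u g : Space → ℝ} (hu : Continuous u) (hg : Continuous g) (hc : HasCompactSupport g) :
    Integrable (fun x => u x * g x) :=
  (hu.mul hg).integrable_of_hasCompactSupport hc.mul_left

theorem gp_inner_part (D : GPData b e εb εe M n θ k d) {f : Space → ℝ} (hf : ContDiff ℝ 1 f)
    (hev : ∀ x, f (reflZ x) = f x) (hmean : (∫ x, b x ^ 2 * (gpChi (100 * M) x * f x)) = 0) :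
    0.05 * (∫ x, gpw n θ x * (gpChi (100 * M) x * f x) ^ 2)
      ≤ (1 / 2) * ∫ x, gpw n θ x * ‖gradient (fun y => gpChi (100 * M) y * f y) x‖ ^ 2 := by
  have hS := gpe_S_pos D
  have hratio := fun x => gpe_ratio D (x := x)
  set S : ℝ := 100 * M with hSdef
  set η : Space → ℝ := fun y => gpChi S y * f y with hηdef
  have hη : ContDiff ℝ 1 η := (gpChi_contDiff S).mul hf
  have hc : HasCompactSupport η := (gpChi_hasCompactSupport hS).mul_right
  have hevη : ∀ x, η (reflZ x) = η x := fun x => by simp only [hηdef, gpChi_reflZ, hev]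
  have hgap := gp_even_ref_gap D.tc hη hc hevη hmean
  have hwc := gpw_continuous D.hn D.hθ.1.continuous
  have hbc : Continuous b := D.tc.data.orbital_b.1
  have hη0 : ∀ x, 2 * S < ‖x‖ → η x = 0 := fun x hx => by
    simp only [hηdef, gpChi_eq_zero hS hx.le, zero_mul]
  have hts : ∀ x, 2 * S < ‖x‖ → x ∉ tsupport η := fun x hx hxt => by
    have hsub : tsupport η ⊆ {y : Space | ‖y‖ ≤ 2 * S} :=
      closure_minimal (fun y hy => by
        by_contra hcon
        exact hy (hη0 y (not_le.1 hcon))) (isClosed_le continuous_norm continuous_const)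
    exact absurd (hsub hxt) (not_le.2 hx)
  have c2 : HasCompactSupport (fun x => η x ^ 2) := hc.comp_left (g := fun t : ℝ => t ^ 2) (by simp)
  have cg : HasCompactSupport (fun x => ‖gradient η x‖ ^ 2) :=
    (Claimed.Agent.R259.ws_gradient_hasCompactSupport hc).comp_left (g := fun v : Space => ‖v‖ ^ 2) (by simp)
  have k2 : Continuous (fun x => η x ^ 2) := hη.continuous.pow 2
  have kg : Continuous (fun x => ‖gradient η x‖ ^ 2) := (continuous_gradient hη).norm.pow 2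
  have s1 : (∫ x, gpw n θ x * η x ^ 2) ≤ ∫ x, 4 * (b x ^ 2 * η x ^ 2) := by
    refine integral_mono (gpe_integrable_cs hwc k2 c2) ((gpe_integrable_cs (hbc.pow 2) k2 c2).const_mul 4)
      fun x => ?_
    by_cases hx : ‖x‖ ≤ 2 * S
    · have := (hratio x hx).2
      have p := sq_nonneg (η x)
      simp only
      nlinarith
    · simp [hη0 x (not_le.1 hx)]
  have s2 : (∫ x, b x ^ 2 * ‖gradient η x‖ ^ 2) ≤ ∫ x, gpw n θ x * ‖gradient η x‖ ^ 2 := by
    refine integral_mono (gpe_integrable_cs (hbc.pow 2) kg cg) (gpe_integrable_cs hwc kg cg) fun x => ?_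
    by_cases hx : ‖x‖ ≤ 2 * S
    · exact mul_le_mul_of_nonneg_right (hratio x hx).1 (sq_nonneg _)
    · simp [gpe_gradient_eq_zero (hts x (not_le.1 hx))]
  rw [integral_const_mul] at s1
  linarith

/-- bound of the gradients of the two IMS pieces. -/
theorem gpe_ims_bound {S : ℝ} (hS : 0 < S) {f : Space → ℝ} (hf : ContDiff ℝ 1 f) {C : ℝ}
    (hb : ∀ x, |f x| ≤ C) (hg : ∀ x, ‖gradient f x‖ ≤ C) (x : Space) :
    ‖gradient (fun y => gpChi S y * f y) x‖ ^ 2 + ‖gradient (fun y => gpRho S y * f y) x‖ ^ 2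
      ≤ C ^ 2 + 10 / S ^ 2 * C ^ 2 := by
  rw [gp_ims S (hf.differentiable (by simp) x)]
  have h1 := gp_ims_grad_bound hS x
  have h2 : ‖gradient f x‖ ^ 2 ≤ C ^ 2 := pow_le_pow_left₀ (norm_nonneg _) (hg x) 2
  have h3 : f x ^ 2 ≤ C ^ 2 := by rw [← sq_abs]; exact pow_le_pow_left₀ (abs_nonneg _) (hb x) 2
  have h4 : 0 ≤ ‖gradient (gpChi S) x‖ ^ 2 + ‖gradient (gpRho S) x‖ ^ 2 := by positivity
  have h5 : (‖gradient (gpChi S) x‖ ^ 2 + ‖gradient (gpRho S) x‖ ^ 2) * f x ^ 2 ≤ 10 / S ^ 2 * C ^ 2 :=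
    mul_le_mul h1 h3 (sq_nonneg _) (by positivity)
  linarith

theorem gp_outer_part (D : GPData b e εb εe M n θ k d) {f : Space → ℝ} (hf : ContDiff ℝ 1 f) {C : ℝ}
    (hb : ∀ x, |f x| ≤ C) (hg : ∀ x, ‖gradient f x‖ ≤ C) (hev : ∀ x, f (reflZ x) = f x) :
    0.03 * (∫ x, gpw n θ x * (gpRho (100 * M) x * f x) ^ 2)
      ≤ (1 / 2) * ∫ x, gpw n θ x * ‖gradient (fun y => gpRho (100 * M) y * f y) x‖ ^ 2 := by
  have hS := gpe_S_pos D
  have hC0 : 0 ≤ C := (abs_nonneg _).trans (hb 0)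
  have hK : 0 ≤ 10 / (100 * (M : ℝ)) ^ 2 * C ^ 2 := by positivity
  refine gp_ext_gap_even D (u := fun y => gpRho (100 * M) y * f y) ((gpRho_contDiff _).mul hf)
    (C := C ^ 2 + 10 / (100 * (M : ℝ)) ^ 2 * C ^ 2 + 1) (fun x => ?_) (fun x => ?_) (fun x hx => ?_) (fun x => ?_)
  · rw [abs_mul, abs_of_nonneg (gpRho_nonneg _ _)]
    have h1 : gpRho (100 * M) x * |f x| ≤ 1 * C :=
      mul_le_mul (gpRho_le_one _ _) (hb x) (abs_nonneg _) zero_le_one
    nlinarith [sq_nonneg (C - 1)]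
  · have h1 := gpe_ims_bound hS hf hb hg x
    have h2 := sq_nonneg ‖gradient (fun y => gpChi (100 * M) y * f y) x‖
    nlinarith [sq_nonneg (‖gradient (fun y => gpRho (100 * M) y * f y) x‖ - 1)]
  · simp only [gpRho_eq_zero hS hx.le, zero_mul]
  · simp only [gpRho_reflZ, hev]

/-! ### GP-E3 -/

/-- the even part of the gap. -/
theorem gp_even_gap (D : GPData b e εb εe M n θ k d) (hg : ∀ x, 0 < Real.cos (θ x)) {ξ : Space → ℝ}
    (hξ : ContDiff ℝ 1 ξ) (hc : HasCompactSupport ξ) (hev : ∀ x, ξ (reflZ x) = ξ x) :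
    d * ((∫ x, gpw n θ x * ξ x ^ 2) - (∫ x, gpw n θ x * ξ x) ^ 2 / (∫ x, gpw n θ x))
      ≤ (1 / 2) * ∫ x, gpw n θ x * ‖gradient ξ x‖ ^ 2 := by
  have hS := gpe_S_pos D
  have hSbig : (1000 : ℝ) ≤ 100 * M := by
    have h1 := D.hM
    have h2 : (1 : ℝ) ≤ bigD := by unfold bigD; exact one_le_pow₀ (by norm_num)
    linarith
  have inner := fun f hf hev hmean => gp_inner_part D (f := f) hf hev hmean
  have outer := fun f hf C hb hg hev => gp_outer_part D (f := f) hf (C := C) hb hg hev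
  set S : ℝ := 100 * M with hSdef
  have hwc := gpw_continuous D.hn D.hθ.1.continuous
  have hwi := gpw_integrable D.hn D.hθ.1.continuous
  have hw0 : ∀ x, 0 < gpw n θ x := fun x => mul_pos (D.hn.pos x) (pow_pos (hg x) 2)
  set w := gpw n θ with hwdef
  have hbc : Continuous b := D.tc.data.orbital_b.1
  obtain ⟨Cξ, hCξ0, hξb, hξg⟩ := gpe_bounds hξ hc
  -- the constant
  have hχc := (gpChi_contDiff S).continuous
  have hχs := gpChi_hasCompactSupport hS
  have iχ : Integrable (fun x => b x ^ 2 * gpChi S x) := gpe_integrable_cs (hbc.pow 2) hχc hχs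
  have iχξ : Integrable (fun x => b x ^ 2 * (gpChi S x * ξ x)) :=
    gpe_integrable_cs (hbc.pow 2) (hχc.mul hξ.continuous) hχs.mul_right
  have hpos : 0 < ∫ x, b x ^ 2 * gpChi S x := by
    refine Continuous.integral_pos_of_hasCompactSupport_nonneg_nonzero (x := 0) ((hbc.pow 2).mul hχc)
      hχs.mul_left (fun x => mul_nonneg (sq_nonneg _) (gpChi_nonneg S x)) ?_
    rw [gpChi_eq_one hS (by simpa using hS.le), mul_one]
    exact (pow_pos (D.tc.data.pos_b 0) 2).ne'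
  set c : ℝ := (∫ x, b x ^ 2 * (gpChi S x * ξ x)) / ∫ x, b x ^ 2 * gpChi S x with hcdef
  set f : Space → ℝ := fun x => ξ x - c with hfdef
  have hf : ContDiff ℝ 1 f := hξ.sub contDiff_const
  have hfev : ∀ x, f (reflZ x) = f x := fun x => by simp only [hfdef, hev]
  have hgrad : ∀ x, gradient f x = gradient ξ x := fun x => by
    simp only [gradient, hfdef]
    rw [fderiv_sub_const]
  have hfb : ∀ x, |f x| ≤ Cξ + |c| := fun x => (abs_sub _ _).trans (by gcongr; exact hξb x)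
  have hfg : ∀ x, ‖gradient f x‖ ≤ Cξ + |c| := fun x => by
    rw [hgrad]; exact (hξg x).trans (le_add_of_nonneg_right (abs_nonneg _))
  have hmean : (∫ x, b x ^ 2 * (gpChi S x * f x)) = 0 := by
    have e : (∫ x, b x ^ 2 * (gpChi S x * f x))
        = (∫ x, b x ^ 2 * (gpChi S x * ξ x)) - c * ∫ x, b x ^ 2 * gpChi S x := by
      rw [← integral_const_mul, ← integral_sub iχξ (iχ.const_mul c)]
      exact integral_congr_ae (Filter.Eventually.of_forall fun x => by simp only [hfdef]; ring)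
    rw [e, hcdef, div_mul_cancel₀ _ hpos.ne', sub_self]
  have hin := inner f hf hfev hmean
  have hout := outer f hf _ hfb hfg hfev
  set C := Cξ + |c| with hCdef
  have hC0 : 0 ≤ C := by positivity
  have hK := fun x => gpe_ims_bound hS hf hfb hfg x
  -- integrability
  have kχ : Continuous (fun x => ‖gradient (fun y => gpChi S y * f y) x‖ ^ 2) :=
    (continuous_gradient ((gpChi_contDiff S).mul hf)).norm.pow 2
  have kρ : Continuous (fun x => ‖gradient (fun y => gpRho S y * f y) x‖ ^ 2) :=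
    (continuous_gradient ((gpRho_contDiff S).mul hf)).norm.pow 2
  have i1 : Integrable (fun x => w x * ‖gradient (fun y => gpChi S y * f y) x‖ ^ 2) :=
    gpe_integrable_mul hwi kχ (C := C ^ 2 + 10 / S ^ 2 * C ^ 2) fun x => by
      rw [abs_of_nonneg (sq_nonneg _)]
      have := hK x
      have := sq_nonneg ‖gradient (fun y => gpRho S y * f y) x‖
      linarith
  have i2 : Integrable (fun x => w x * ‖gradient (fun y => gpRho S y * f y) x‖ ^ 2) :=
    gpe_integrable_mul hwi kρ (C := C ^ 2 + 10 / S ^ 2 * C ^ 2) fun x => by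
      rw [abs_of_nonneg (sq_nonneg _)]
      have := hK x
      have := sq_nonneg ‖gradient (fun y => gpChi S y * f y) x‖
      linarith
  have i3 : Integrable (fun x => w x * ‖gradient ξ x‖ ^ 2) :=
    gpe_integrable_mul hwi ((continuous_gradient hξ).norm.pow 2) (C := Cξ ^ 2) fun x => by
      rw [abs_of_nonneg (sq_nonneg _)]; exact pow_le_pow_left₀ (norm_nonneg _) (hξg x) 2
  have hf2 : ∀ x, f x ^ 2 ≤ C ^ 2 := fun x => by
    rw [← sq_abs]; exact pow_le_pow_left₀ (abs_nonneg _) (hfb x) 2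
  have i4 : Integrable (fun x => w x * f x ^ 2) :=
    gpe_integrable_mul hwi (hf.continuous.pow 2) (C := C ^ 2) fun x => by
      rw [abs_of_nonneg (sq_nonneg _)]; exact hf2 x
  have i5 : Integrable (fun x => w x * (gpChi S x * f x) ^ 2) :=
    gpe_integrable_mul hwi ((hχc.mul hf.continuous).pow 2) (C := C ^ 2) fun x => by
      rw [abs_of_nonneg (sq_nonneg _), mul_pow]
      have h1 : gpChi S x ^ 2 ≤ 1 := by
        have := gpChi_sq_add_gpRho_sq S x
        nlinarith [sq_nonneg (gpRho S x)]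
      nlinarith [hf2 x, sq_nonneg (f x), sq_nonneg (gpChi S x)]
  have i6 : Integrable (fun x => w x * (gpRho S x * f x) ^ 2) :=
    gpe_integrable_mul hwi (((gpRho_contDiff S).continuous.mul hf.continuous).pow 2) (C := C ^ 2) fun x => by
      rw [abs_of_nonneg (sq_nonneg _), mul_pow]
      have h1 : gpRho S x ^ 2 ≤ 1 := by
        have := gpChi_sq_add_gpRho_sq S x
        nlinarith [sq_nonneg (gpChi S x)]
      nlinarith [hf2 x, sq_nonneg (f x), sq_nonneg (gpRho S x)]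
  -- IMS, integrated
  have hims : (∫ x, w x * ‖gradient (fun y => gpChi S y * f y) x‖ ^ 2)
      + (∫ x, w x * ‖gradient (fun y => gpRho S y * f y) x‖ ^ 2)
      ≤ (∫ x, w x * ‖gradient ξ x‖ ^ 2) + 10 / S ^ 2 * ∫ x, w x * f x ^ 2 := by
    rw [← integral_add i1 i2, ← integral_const_mul, ← integral_add i3 (i4.const_mul _)]
    refine integral_mono (i1.add i2) (i3.add (i4.const_mul _)) fun x => ?_
    have h1 := gp_ims S (hf.differentiable (by simp) x)
    have h2 := gp_ims_grad_bound hS x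
    rw [hgrad] at h1
    have h3 : (‖gradient (gpChi S) x‖ ^ 2 + ‖gradient (gpRho S) x‖ ^ 2) * f x ^ 2 ≤ 10 / S ^ 2 * f x ^ 2 :=
      mul_le_mul_of_nonneg_right h2 (sq_nonneg _)
    have h4 := (hw0 x).le
    simp only [Pi.add_apply]
    calc w x * ‖gradient (fun y => gpChi S y * f y) x‖ ^ 2 + w x * ‖gradient (fun y => gpRho S y * f y) x‖ ^ 2
        = w x * (‖gradient ξ x‖ ^ 2 + (‖gradient (gpChi S) x‖ ^ 2 + ‖gradient (gpRho S) x‖ ^ 2) * f x ^ 2) := by
          rw [← h1]; ring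
      _ ≤ w x * (‖gradient ξ x‖ ^ 2 + 10 / S ^ 2 * f x ^ 2) := by gcongr
      _ = _ := by ring
  have hsplit : (∫ x, w x * f x ^ 2) = (∫ x, w x * (gpChi S x * f x) ^ 2) + ∫ x, w x * (gpRho S x * f x) ^ 2 := by
    rw [← integral_add i5 i6]
    refine integral_congr_ae (Filter.Eventually.of_forall fun x => ?_)
    have := gpChi_sq_add_gpRho_sq S x
    simp only
    calc w x * f x ^ 2 = w x * ((gpChi S x ^ 2 + gpRho S x ^ 2) * f x ^ 2) := by rw [this, one_mul]
      _ = _ := by ring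
  have hvar := gp_var_le hwi hw0 hξ.continuous hξb c
  have p5 : 0 ≤ ∫ x, w x * (gpChi S x * f x) ^ 2 := integral_nonneg fun x => mul_nonneg (hw0 x).le (sq_nonneg _)
  have p4 : 0 ≤ ∫ x, w x * f x ^ 2 := integral_nonneg fun x => mul_nonneg (hw0 x).le (sq_nonneg _)
  have hsmall : 10 / S ^ 2 ≤ 0.00001 := by
    rw [div_le_iff₀ (by positivity)]
    nlinarith
  have hd := D.d_lt
  have hd0 := D.d_pos
  have key : d * (∫ x, w x * f x ^ 2) ≤ (1 / 2) * ∫ x, w x * ‖gradient ξ x‖ ^ 2 := by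
    have h1 : 10 / S ^ 2 * (∫ x, w x * f x ^ 2) ≤ 0.00001 * ∫ x, w x * f x ^ 2 :=
      mul_le_mul_of_nonneg_right hsmall p4
    have h2 : d * (∫ x, w x * f x ^ 2) ≤ 0.001 * ∫ x, w x * f x ^ 2 :=
      mul_le_mul_of_nonneg_right hd.le p4
    linarith
  exact (mul_le_mul_of_nonneg_left hvar hd0.le).trans key

end Claimed.Open.R278
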