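import Claimed.Open.R278.GPStep
import Claimed.Open.R278.GPCmp

/-!
# Package GP, leaves GP-Y1, GP-Y2, GP-Y3: the outward vector field (4.23)

`Y = gpY`, `Y x = r⁻¹ (x₀, x₁, z ζ(z))`, `ζ = gpZeta`, `r = ‖x‖`, `p = hrad x`, `z = x 2`.

GP-Y1 (Mathlib + GPStep): `‖Y x‖ ≤ 1` (`0 ≤ ζ ≤ 1`), `(Y x) 2 = 0` for `|z| ≤ L`, `C¹` off the origin, decomposition `Y = ζ (x/r) + (1-ζ)(p/r) e_p`, and
  `div Y = 2/r - p²/r³ + (ζ + z ζ')/r - z² ζ/r³`, so `|div Y| ≤ 10/r` (`gpZeta_deriv_bound`).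
  `gp_grad_split`: `‖∇F‖² ≥ 1_{slab} F_z² + ⟪Y,∇F⟫²`: in the slab `Y ⟂ e_z`, so `⟪Y,∇F⟫ = ⟪Y, ∇F - F_z e_z⟫`, `‖∇F - F_z e_z‖² = ‖∇F‖² - F_z²`; elsewhere Cauchy-Schwarz.
GP-Y2 (`gp_Y_div`): `div (nY) = ⟪∇n,Y⟫ + n div Y` (`gpDiv_smul`), `⟪∇n,Y⟫ = n · fderiv (log n) x (Y x) = n [ζ ∂_r log n + (1-ζ)(p/r) ∂_p log n]`.
  `∂_r log n ≤ -2k + η₀` (`DriftStrip.radial`).  If `ζ < 1` then `z < 2L = 20`, `p² = r² - z² ≥ S² - 400`, so `p ≥ 40 ≥ 2z` and `∂_p log n ≤ -2kp/r + η₀` (`DriftStrip.horizontal`, `gp_axi_fderiv_ep` for `log n`), `p²/r² ≥ 1 - 400/S²`.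
  Total: `≤ n (-2k (1 - 400/S²) + η₀ + 10/S) ≤ -1.9 n`  (`k > 0.99`, `S = 100 M ≥ 10⁴`).
GP-Y3 (`gp_Y_ineq`): `Z = (n F²) • Y` is `C¹_c` (`gp_contDiff_of_tsupport` on `O = {‖x‖ > M}`: `n ∈ C²`, `Y ∈ C¹` there; `tsupport F ⊆ {‖x‖ ≥ S}`), `Z 2 = 0` for `|z| < L`.  `gp_gauss_half`:
  `0 = ∫_{Ω₊} F² div(nY) + 2 ∫_{Ω₊} n F ⟪Y,∇F⟫ ≤ -1.9 ∫ n F² + ∫ n (0.95 F² + ⟪Y,∇F⟫²/0.95)`.
-/

open MeasureTheory
open scoped ContDiff InnerProductSpace ENNReal Topology

noncomputable section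

namespace Claimed.Open.R278

/-! ### GP-Y1 -/

theorem gpY_apply_zero (x : Space) : gpY x 0 = ‖x‖⁻¹ * x 0 := by
  simp [gpY, ez]

theorem gpY_apply_one (x : Space) : gpY x 1 = ‖x‖⁻¹ * x 1 := by
  simp [gpY, ez]

theorem gpY_apply_two (x : Space) : gpY x 2 = ‖x‖⁻¹ * (x 2 * gpZeta (x 2)) := by
  simp [gpY, ez]
  left
  ring

theorem gpy_norm_sq (x : Space) : ‖x‖ ^ 2 = x 0 ^ 2 + x 1 ^ 2 + x 2 ^ 2 := by
  rw [EuclideanSpace.norm_sq_eq]; simp [Fin.sum_univ_three]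

theorem gpy_inner (x y : Space) : ⟪x, y⟫_ℝ = x 0 * y 0 + x 1 * y 1 + x 2 * y 2 := by
  simp [PiLp.inner_apply, Fin.sum_univ_three, mul_comm]

theorem gpY_norm_sq_le (x : Space) : gpY x 0 ^ 2 + gpY x 1 ^ 2 + gpY x 2 ^ 2 ≤ 1 := by
  rw [gpY_apply_zero, gpY_apply_one, gpY_apply_two]
  rcases eq_or_ne x 0 with rfl | hx
  · simp
  have hr : 0 < ‖x‖ := norm_pos_iff.2 hx
  have h0 := gpZeta_nonneg (x 2)
  have h1 := gpZeta_le_one (x 2)
  have hz : (x 2 * gpZeta (x 2)) ^ 2 ≤ x 2 ^ 2 := by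
    rw [mul_pow]
    have : gpZeta (x 2) ^ 2 ≤ 1 := by nlinarith
    nlinarith [sq_nonneg (x 2)]
  have e : (‖x‖⁻¹ * x 0) ^ 2 + (‖x‖⁻¹ * x 1) ^ 2 + (‖x‖⁻¹ * (x 2 * gpZeta (x 2))) ^ 2
      = (x 0 ^ 2 + x 1 ^ 2 + (x 2 * gpZeta (x 2)) ^ 2) / ‖x‖ ^ 2 := by
    field_simp
  rw [e, div_le_one (by positivity), gpy_norm_sq]
  linarith

theorem gpY_norm_le (x : Space) : ‖gpY x‖ ≤ 1 := by
  have h := gpY_norm_sq_le x
  rw [← gpy_norm_sq] at h
  exact (sq_le_one_iff₀ (norm_nonneg _)).1 h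

theorem gpY_two {x : Space} (hx : |x 2| ≤ stripL) : gpY x 2 = 0 := by
  rw [gpY_apply_two, gpZeta_eq_zero hx]; simp

theorem gpy_X_contDiff : ContDiff ℝ 1 (fun x : Space => x - (x 2 * (1 - gpZeta (x 2))) • ez) := by
  have c2 : ContDiff ℝ 1 (fun x : Space => x 2) := (gp_coord_contDiff 2).of_le (by norm_cast)
  exact contDiff_id.sub ((c2.mul (contDiff_const.sub (gpZeta_contDiff.comp c2))).smul contDiff_const)

theorem gpY_contDiffOn : ContDiffOn ℝ 1 gpY {0}ᶜ := by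
  intro x hx
  have hx0 : x ≠ 0 := hx
  have h1 : ContDiffAt ℝ 1 (fun y : Space => ‖y‖⁻¹) x :=
    (contDiffAt_norm ℝ hx0).inv (norm_ne_zero_iff.2 hx0)
  exact (h1.smul gpy_X_contDiff.contDiffAt).contDiffWithinAt

theorem gpY_decomp (x : Space) :
    gpY x = gpZeta (x 2) • (‖x‖⁻¹ • x) + ((1 - gpZeta (x 2)) * (hrad x / ‖x‖)) • epVec x := by
  have hp : hrad x = 0 ∨ hrad x ≠ 0 := eq_or_ne _ _
  have hsq := hrad_sq x
  apply space_ext
  · rw [gpY_apply_zero]
    simp only [epVec, PiLp.add_apply, PiLp.smul_apply, smul_eq_mul]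
    rcases hp with hp | hp
    · have : x 0 = 0 := by rw [hp] at hsq; nlinarith [sq_nonneg (x 0), sq_nonneg (x 1)]
      simp [this]
    · simp
      field_simp
      ring
  · rw [gpY_apply_one]
    simp only [epVec, PiLp.add_apply, PiLp.smul_apply, smul_eq_mul]
    rcases hp with hp | hp
    · have : x 1 = 0 := by rw [hp] at hsq; nlinarith [sq_nonneg (x 0), sq_nonneg (x 1)]
      simp [this]
    · simp
      field_simp
      ring
  · rw [gpY_apply_two]
    simp only [epVec, PiLp.add_apply, PiLp.smul_apply, smul_eq_mul]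
    simp
    ring

theorem gpy_inv_norm_differentiableAt {x : Space} (hx : x ≠ 0) :
    DifferentiableAt ℝ (fun y : Space => ‖y‖⁻¹) x :=
  ((contDiffAt_norm ℝ hx).inv (norm_ne_zero_iff.2 hx)).differentiableAt (n := ∞) (by simp)

theorem gpy_inv_norm_gradient {x : Space} (hx : x ≠ 0) :
    gradient (fun y : Space => ‖y‖⁻¹) x = (-(‖x‖ ^ 3)⁻¹) • x := by
  have hr : 0 < ‖x‖ := norm_pos_iff.2 hx
  have h2 : 0 < ‖x‖ ^ 2 := by positivity
  have hΘ : HasDerivAt (fun t : ℝ => (√t)⁻¹) (-(1 / (2 * √(‖x‖ ^ 2))) / √(‖x‖ ^ 2) ^ 2) (‖x‖ ^ 2) :=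
    (Real.hasDerivAt_sqrt h2.ne').inv (Real.sqrt_ne_zero'.2 h2)
  have e : (fun y : Space => ‖y‖⁻¹) = fun y : Space => (fun t : ℝ => (√t)⁻¹) (‖y‖ ^ 2) := by
    funext y
    simp [Real.sqrt_sq (norm_nonneg y)]
  rw [e, ob_gradient_comp hΘ.differentiableAt (ob_normsq_hasFDerivAt x).differentiableAt, hΘ.deriv,
    ob_normsq_gradient, Real.sqrt_sq hr.le, smul_smul]
  congr 1
  field_simp

theorem gpy_X_div (x : Space) :
    gpDiv (fun y : Space => y - (y 2 * (1 - gpZeta (y 2))) • ez) x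
      = 2 + gpZeta (x 2) + x 2 * deriv gpZeta (x 2) := by
  unfold gpDiv
  rw [Fin.sum_univ_three]
  have e0 : (fun y : Space => (y - (y 2 * (1 - gpZeta (y 2))) • ez) 0) = fun y => y 0 := by
    funext y; simp [ez]
  have e1 : (fun y : Space => (y - (y 2 * (1 - gpZeta (y 2))) • ez) 1) = fun y => y 1 := by
    funext y; simp [ez]
  have e2 : (fun y : Space => (y - (y 2 * (1 - gpZeta (y 2))) • ez) 2)
      = fun y => (fun z : ℝ => z * gpZeta z) (y 2) := by
    funext y; simp [ez]; ring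
  have hg : HasDerivAt (fun z : ℝ => z * gpZeta z) (1 * gpZeta (x 2) + x 2 * deriv gpZeta (x 2)) (x 2) :=
    (hasDerivAt_id (x 2)).mul (gpZeta_hasDerivAt (x 2)).differentiableAt.hasDerivAt
  have h2 := hg.comp_hasFDerivAt x (gp_coord_hasFDerivAt 2 x)
  have e3 : ((fun z : ℝ => z * gpZeta z) ∘ fun y : Space => y 2)
      = fun y : Space => (fun z : ℝ => z * gpZeta z) (y 2) := rfl
  rw [e3] at h2
  rw [e0, e1, e2, (gp_coord_hasFDerivAt 0 x).fderiv, (gp_coord_hasFDerivAt 1 x).fderiv, h2.fderiv]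
  simp
  ring

theorem gpY_div_eq {x : Space} (hx : x ≠ 0) :
    gpDiv gpY x = (2 + gpZeta (x 2) + x 2 * deriv gpZeta (x 2)) / ‖x‖
      - (x 0 ^ 2 + x 1 ^ 2 + x 2 ^ 2 * gpZeta (x 2)) / ‖x‖ ^ 3 := by
  have e : gpY = fun y : Space => ‖y‖⁻¹ • (y - (y 2 * (1 - gpZeta (y 2))) • ez) := rfl
  rw [e, gpDiv_smul (gpy_inv_norm_differentiableAt hx) (gpy_X_contDiff.differentiable (by simp) x),
    gpy_inv_norm_gradient hx, gpy_X_div, inner_smul_left, gpy_inner]
  simp [ez]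
  ring

theorem gpY_div_le {x : Space} (hx : x ≠ 0) : |gpDiv gpY x| ≤ 10 / ‖x‖ := by
  have hr : 0 < ‖x‖ := norm_pos_iff.2 hx
  rw [gpY_div_eq hx]
  have h0 := gpZeta_nonneg (x 2)
  have h1 := gpZeta_le_one (x 2)
  have h4 := abs_le.1 (gpZeta_deriv_bound (x 2))
  have hn := gpy_norm_sq x
  have a1 : |(2 + gpZeta (x 2) + x 2 * deriv gpZeta (x 2)) / ‖x‖| ≤ 7 / ‖x‖ := by
    rw [abs_div, abs_of_pos hr]
    apply div_le_div_of_nonneg_right _ hr.le
    rw [abs_le]; constructor <;> linarith [h4.1, h4.2]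
  have a2 : |(x 0 ^ 2 + x 1 ^ 2 + x 2 ^ 2 * gpZeta (x 2)) / ‖x‖ ^ 3| ≤ 1 / ‖x‖ := by
    have hnum0 : 0 ≤ x 0 ^ 2 + x 1 ^ 2 + x 2 ^ 2 * gpZeta (x 2) := by positivity
    have hnum1 : x 0 ^ 2 + x 1 ^ 2 + x 2 ^ 2 * gpZeta (x 2) ≤ ‖x‖ ^ 2 := by
      rw [hn]; nlinarith [sq_nonneg (x 2)]
    rw [abs_of_nonneg (by positivity), div_le_div_iff₀ (by positivity) hr]
    calc _ ≤ ‖x‖ ^ 2 * ‖x‖ := mul_le_mul_of_nonneg_right hnum1 hr.le
      _ = 1 * ‖x‖ ^ 3 := by ring
  calc _ ≤ _ := abs_sub _ _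
    _ ≤ 7 / ‖x‖ + 1 / ‖x‖ := add_le_add a1 a2
    _ ≤ 10 / ‖x‖ := by
      rw [← add_div]
      exact div_le_div_of_nonneg_right (by norm_num) hr.le

theorem gp_grad_split {F : Space → ℝ} (x : Space) :
    gpSlab.indicator (fun y => fderiv ℝ F y ez ^ 2) x + ⟪gpY x, gradient F x⟫_ℝ ^ 2 ≤ ‖gradient F x‖ ^ 2 := by
  have hY := gpY_norm_sq_le x
  set G := gradient F x with hG
  have hz : fderiv ℝ F x ez = G 2 := by
    rw [← inner_gradient_left, ← hG, gpy_inner]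
    simp [ez]
  rw [gpy_norm_sq G, gpy_inner]
  by_cases hx : x ∈ gpSlab
  · rw [Set.indicator_of_mem hx, hz]
    have hx2 : |x 2| ≤ stripL := by
      rw [abs_of_pos hx.1]; exact hx.2.le
    have h2 := gpY_two hx2
    rw [h2] at hY ⊢
    have cs : (gpY x 0 * G 0 + gpY x 1 * G 1) ^ 2 ≤ (gpY x 0 ^ 2 + gpY x 1 ^ 2) * (G 0 ^ 2 + G 1 ^ 2) := by
      nlinarith [sq_nonneg (gpY x 0 * G 1 - gpY x 1 * G 0)]
    have : (gpY x 0 ^ 2 + gpY x 1 ^ 2) * (G 0 ^ 2 + G 1 ^ 2) ≤ 1 * (G 0 ^ 2 + G 1 ^ 2) :=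
      mul_le_mul_of_nonneg_right (by linarith) (by positivity)
    have e : gpY x 0 * G 0 + gpY x 1 * G 1 + 0 * G 2 = gpY x 0 * G 0 + gpY x 1 * G 1 := by ring
    rw [e]
    linarith
  · rw [Set.indicator_of_notMem hx, zero_add]
    have cs : (gpY x 0 * G 0 + gpY x 1 * G 1 + gpY x 2 * G 2) ^ 2
        ≤ (gpY x 0 ^ 2 + gpY x 1 ^ 2 + gpY x 2 ^ 2) * (G 0 ^ 2 + G 1 ^ 2 + G 2 ^ 2) := by
      nlinarith [sq_nonneg (gpY x 0 * G 1 - gpY x 1 * G 0), sq_nonneg (gpY x 0 * G 2 - gpY x 2 * G 0),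
        sq_nonneg (gpY x 1 * G 2 - gpY x 2 * G 1)]
    have : (gpY x 0 ^ 2 + gpY x 1 ^ 2 + gpY x 2 ^ 2) * (G 0 ^ 2 + G 1 ^ 2 + G 2 ^ 2)
        ≤ 1 * (G 0 ^ 2 + G 1 ^ 2 + G 2 ^ 2) := mul_le_mul_of_nonneg_right hY (by positivity)
    linarith

/-! ### GP-Y2 -/

variable {n : Space → ℝ} {k M : ℝ}

theorem gpy_isOpen_nuclei_compl : IsOpen (nucleiᶜ : Set Space) :=
  ((Set.finite_singleton _).insert _).isClosed.isOpen_compl

theorem gpy_n_differentiableAt (hn : DensityBasic n) {x : Space} (hx : x ∉ nuclei) :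
    DifferentiableAt ℝ n x :=
  (hn.smooth.contDiffAt (gpy_isOpen_nuclei_compl.mem_nhds hx)).differentiableAt (by norm_num)

theorem gpY_differentiableAt {x : Space} (hx : x ≠ 0) : DifferentiableAt ℝ gpY x :=
  (gpY_contDiffOn.contDiffAt (isOpen_compl_singleton.mem_nhds hx)).differentiableAt (by norm_num)

theorem gpy_bigD_ge : (10 : ℝ) ≤ bigD := by
  unfold bigD
  calc (10 : ℝ) = 10 ^ 1 := by norm_num
    _ ≤ 10 ^ 200 := pow_le_pow_right₀ (by norm_num) (by norm_num)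

theorem gpy_alg {ζ q k η a b ε : ℝ} (h0 : 0 ≤ ζ) (h1 : ζ ≤ 1) (hq0 : 0 ≤ q) (hq1 : q ≤ 1)
    (hq2 : 1 - ε ≤ q ^ 2) (hk : 0 < k) (hη : 0 ≤ η) (ha : a ≤ -(2 * k) + η)
    (hb : b ≤ -(2 * k * q) + η) :
    ζ * a + (1 - ζ) * q * b ≤ -(2 * k) * (1 - ε) + η := by
  have a1 : ζ * a ≤ ζ * (-(2 * k) + η) := mul_le_mul_of_nonneg_left ha h0
  have a2 : (1 - ζ) * q * b ≤ (1 - ζ) * q * (-(2 * k * q) + η) :=
    mul_le_mul_of_nonneg_left hb (mul_nonneg (by linarith) hq0)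
  have a3 : (1 - ζ) * q * (-(2 * k * q) + η) ≤ (1 - ζ) * (-(2 * k) * q ^ 2 + η) := by
    have t1 : q * η ≤ η := by nlinarith
    have t2 : q * (-(2 * k * q) + η) ≤ -(2 * k) * q ^ 2 + η := by nlinarith
    have := mul_le_mul_of_nonneg_left t2 (by linarith : 0 ≤ 1 - ζ)
    linarith
  have a4 : ζ * (-(2 * k) + η) + (1 - ζ) * (-(2 * k) * q ^ 2 + η) ≤ -(2 * k) * q ^ 2 + η := by
    have t : q ^ 2 ≤ 1 := by nlinarith
    nlinarith [mul_nonneg h0 (mul_nonneg hk.le (sub_nonneg.2 t))]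
  have a5 : -(2 * k) * q ^ 2 ≤ -(2 * k) * (1 - ε) := by nlinarith
  linarith

/-- the logarithmic derivative of `n` along `Y`. -/
theorem gpy_log_Y (hn : DensityBasic n) (hM : 10 * bigD < M) (hk : 0.99 < k) (hds : DriftStrip n k M)
    {x : Space} (hx : 100 * M ≤ ‖x‖) (hz : 0 ≤ x 2) :
    fderiv ℝ (fun y => Real.log (n y)) x (gpY x) ≤ -(2 * k) * (1 - 400 / ‖x‖ ^ 2) + eta0 := by
  have hD := gpy_bigD_ge
  have hr4 : (10000 : ℝ) ≤ ‖x‖ := by linarith
  have hr : 0 < ‖x‖ := by linarith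
  have hη : 0 ≤ eta0 := by unfold eta0; positivity
  set l := fderiv ℝ (fun y => Real.log (n y)) x with hl
  set ζ := gpZeta (x 2) with hζ
  have h0 : 0 ≤ ζ := gpZeta_nonneg _
  have h1 : ζ ≤ 1 := gpZeta_le_one _
  have hradb := (abs_le.1 (hds.radial x (by linarith))).2
  rw [← hl] at hradb
  have hε0 : 0 ≤ 400 / ‖x‖ ^ 2 := by positivity
  have hlin : ∀ (a b : ℝ) (v w : Space), l (a • v + b • w) = a * l v + b * l w := by
    intro a b v w
    rw [map_add, map_smul, map_smul, smul_eq_mul, smul_eq_mul]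
  rw [gpY_decomp, hlin, ← hζ]
  rcases eq_or_lt_of_le h1 with h1' | h1'
  · rw [h1']
    have : 0 ≤ 2 * k * (400 / ‖x‖ ^ 2) := by positivity
    nlinarith
  · -- `z < 2 L`
    have hz20 : x 2 < 20 := by
      by_contra hcon
      rw [not_lt] at hcon
      have : gpZeta (x 2) = 1 := gpZeta_eq_one (by
        rw [abs_of_nonneg hz]; unfold stripL; linarith)
      rw [← hζ] at this
      linarith
    set p := hrad x with hp
    have hp0 : 0 ≤ p := hrad_nonneg x
    have hpr := norm_sq_eq_hrad x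
    rw [← hp] at hpr
    have hp40 : 40 ≤ p := by
      by_contra hcon
      rw [not_le] at hcon
      nlinarith
    have hppos : 0 < p := by linarith
    have hcyl : ‖cyl p (x 2)‖ = ‖x‖ := by
      rw [norm_cyl, ← hpr, Real.sqrt_sq hr.le]
    have hhor := (abs_le.1 (hds.horizontal p (x 2) (by rw [hcyl]; linarith) hz (by linarith))).2
    rw [hcyl] at hhor
    have hnuc : cyl p (x 2) ∉ nuclei := gp_not_mem_nuclei_of_norm (by rw [hcyl]; linarith)
    have hdiff : DifferentiableAt ℝ (fun y => Real.log (n y)) (cyl p (x 2)) :=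
      (gpy_n_differentiableAt hn hnuc).log (hn.pos _).ne'
    have hep := gp_axi_fderiv_ep (f := fun y => Real.log (n y))
      (fun a y => by simp only [hn.axisymmetric]) (x := x) hppos hdiff
    rw [← hl, ← hp] at hep
    rw [hep]
    set dp := deriv (fun p' => Real.log (n (cyl p' (x 2)))) p with hdp
    set q := p / ‖x‖ with hq
    have hq0 : 0 ≤ q := by positivity
    have hq1 : q ≤ 1 := by
      rw [hq, div_le_one hr]
      exact hrad_le_norm x
    have hq2 : 1 - 400 / ‖x‖ ^ 2 ≤ q ^ 2 := by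
      rw [hq, div_pow, ← sub_nonneg]
      have : p ^ 2 / ‖x‖ ^ 2 - (1 - 400 / ‖x‖ ^ 2) = (400 - x 2 ^ 2) / ‖x‖ ^ 2 := by
        rw [hpr]; field_simp; ring
      rw [this]
      apply div_nonneg _ (by positivity)
      nlinarith
    have e : 2 * k * p / ‖x‖ = 2 * k * q := by rw [hq]; ring
    rw [e] at hhor
    have hk0 : 0 < k := by linarith
    exact gpy_alg h0 h1 hq0 hq1 hq2 hk0 hη (by linarith) (by linarith)

theorem gp_Y_div (hn : DensityBasic n) (hM : 10 * bigD < M) (hk : 0.99 < k) (hds : DriftStrip n k M) {x : Space}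
    (hx : 100 * M ≤ ‖x‖) (hz : 0 ≤ x 2) : gpDiv (fun y => n y • gpY y) x ≤ -(1.9 * n x) := by
  have hD := gpy_bigD_ge
  have hr4 : (10000 : ℝ) ≤ ‖x‖ := by linarith
  have hr : 0 < ‖x‖ := by linarith
  have hx0 : x ≠ 0 := norm_pos_iff.1 hr
  have hnuc : x ∉ nuclei := gp_not_mem_nuclei_of_norm (by linarith)
  have hnd := gpy_n_differentiableAt hn hnuc
  have hnpos := hn.pos x
  rw [gpDiv_smul hnd (gpY_differentiableAt hx0), inner_gradient_left]
  have hlog : fderiv ℝ (fun y => Real.log (n y)) x (gpY x) = (n x)⁻¹ * fderiv ℝ n x (gpY x) := by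
    rw [fderiv.log hnd hnpos.ne']
    simp
  have h1 := gpy_log_Y hn hM hk hds hx hz
  rw [hlog] at h1
  have h2 : fderiv ℝ n x (gpY x) ≤ n x * (-(2 * k) * (1 - 400 / ‖x‖ ^ 2) + eta0) := by
    have := mul_le_mul_of_nonneg_left h1 hnpos.le
    rwa [← mul_assoc, mul_inv_cancel₀ hnpos.ne', one_mul] at this
  have h3 : gpDiv gpY x ≤ 10 / ‖x‖ := (le_abs_self _).trans (gpY_div_le hx0)
  have h4 : n x * gpDiv gpY x ≤ n x * (10 / ‖x‖) := mul_le_mul_of_nonneg_left h3 hnpos.le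
  have b1 : 10 / ‖x‖ ≤ 0.001 := by
    rw [div_le_iff₀ hr]; linarith
  have b2 : 400 / ‖x‖ ^ 2 ≤ 0.001 := by
    rw [div_le_iff₀ (by positivity)]; nlinarith
  have b3 : eta0 ≤ 0.001 := by
    unfold eta0
    rw [inv_le_comm₀ (by positivity) (by norm_num)]
    norm_num
  have b4 : -(2 * k) * (1 - 400 / ‖x‖ ^ 2) + eta0 + 10 / ‖x‖ ≤ -1.9 := by nlinarith
  have := mul_le_mul_of_nonneg_left b4 hnpos.le
  linarith

/-! ### GP-Y3 -/

theorem gpY_measurable : Measurable gpY := by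
  unfold gpY
  have c2 : Measurable (fun x : Space => x 2) := (gp_coord_contDiff 2).continuous.measurable
  exact measurable_norm.inv.smul (measurable_id.sub
    ((c2.mul (measurable_const.sub (gpZeta_contDiff.continuous.measurable.comp c2))).smul_const ez))

theorem gp_Y_ineq (hn : DensityBasic n) (hM : 10 * bigD < M) (hk : 0.99 < k) (hds : DriftStrip n k M)
    {F : Space → ℝ} (hF : ContDiff ℝ 1 F) (hc : HasCompactSupport F) (hS : ∀ x : Space, ‖x‖ < 100 * M → F x = 0) :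
    0.9025 * (∫ x in upperHalf, n x * F x ^ 2) ≤ ∫ x in upperHalf, n x * ⟪gpY x, gradient F x⟫_ℝ ^ 2 := by
  have hD := gpy_bigD_ge
  have hM0 : 0 < M := by linarith
  set O : Set Space := {x | M < ‖x‖} with hOdef
  have hO : IsOpen O := isOpen_lt continuous_const continuous_norm
  have hOnuc : ∀ x ∈ O, x ∉ nuclei := fun x hx => gp_not_mem_nuclei_of_norm (by
    have : M < ‖x‖ := hx
    linarith)
  have hO0 : ∀ x ∈ O, x ≠ 0 := fun x hx => norm_pos_iff.1 (by
    have : M < ‖x‖ := hx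
    linarith)
  have hX : ContDiffOn ℝ 1 (fun x => n x • gpY x) O :=
    ((hn.smooth.of_le (by norm_num)).mono hOnuc).smul (gpY_contDiffOn.mono hO0)
  have ha : ContDiff ℝ 1 (fun x => F x ^ 2) := hF.pow 2
  have hts : tsupport (fun x => F x ^ 2) ⊆ O := by
    have h1 : tsupport (fun x => F x ^ 2) ⊆ {x : Space | 100 * M ≤ ‖x‖} := by
      apply closure_minimal _ (isClosed_le continuous_const continuous_norm)
      intro x hx
      by_contra hcon
      exact hx (by simp [hS x (not_le.1 hcon)])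
    intro x hx
    have : 100 * M ≤ ‖x‖ := h1 hx
    show M < ‖x‖
    linarith
  set Z : Space → Space := fun x => F x ^ 2 • (n x • gpY x) with hZdef
  have hZ : ContDiff ℝ 1 Z := gp_contDiff_of_tsupport hO hX ha hts
  have hac : HasCompactSupport (fun x => F x ^ 2) := by
    have : (fun x => F x ^ 2) = fun x => F x * F x := by funext x; ring
    rw [this]
    exact hc.mul_left
  have hZc : HasCompactSupport Z := hac.smul_right
  have hZ2 : ∀ x : Space, |x 2| < stripL → Z x 2 = 0 := by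
    intro x hx
    simp only [hZdef, PiLp.smul_apply, gpY_two hx.le, smul_eq_mul, mul_zero]
  have hgauss := gp_gauss_half hZ hZc gpq_L_pos hZ2
  set W : Space → ℝ := fun x => ⟪gpY x, gradient F x⟫_ℝ with hW
  have hgradc : Continuous (gradient F) := by
    have : gradient F = fun x => (InnerProductSpace.toDual ℝ Space).symm (fderiv ℝ F x) := rfl
    rw [this]
    exact (LinearIsometryEquiv.continuous _).comp (hF.continuous_fderiv (by simp))
  have hgradcs : HasCompactSupport (gradient F) := by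
    have : gradient F = fun x => (InnerProductSpace.toDual ℝ Space).symm (fderiv ℝ F x) := rfl
    rw [this]
    exact (hc.fderiv (𝕜 := ℝ)).comp_left (map_zero _)
  -- pointwise inequality
  have hpt : ∀ x ∈ upperHalf, gpDiv Z x ≤ -(0.95 * (n x * F x ^ 2)) + (1 / 0.95) * (n x * W x ^ 2) := by
    intro x hx
    have hz : 0 < x 2 := hx
    have hnpos := hn.pos x
    by_cases hxS : ‖x‖ < 100 * M
    · have hev : Z =ᶠ[𝓝 x] fun _ => (0 : Space) := by
        filter_upwards [(isOpen_lt continuous_norm continuous_const).mem_nhds hxS] with y hy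
        simp only [hZdef, hS y hy]
        simp
      rw [gpDiv_congr hev, gpDiv_const, hS x hxS]
      have : 0 ≤ n x * W x ^ 2 := by positivity
      simp only [ne_eq, OfNat.ofNat_ne_zero, not_false_eq_true, zero_pow, mul_zero, neg_zero, zero_add]
      positivity
    · rw [not_lt] at hxS
      have hxO : x ∈ O := by show M < ‖x‖; linarith
      have hXd : DifferentiableAt ℝ (fun y => n y • gpY y) x :=
        (gpy_n_differentiableAt hn (hOnuc x hxO)).smul (gpY_differentiableAt (hO0 x hxO))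
      have hFd : DifferentiableAt ℝ F x := hF.differentiable (by simp) x
      have e1 : gpDiv Z x = ⟪gradient (fun y => F y ^ 2) x, n x • gpY x⟫_ℝ
          + F x ^ 2 * gpDiv (fun y => n y • gpY y) x := gpDiv_smul (hFd.pow 2) hXd
      have e2 : gradient (fun y => F y ^ 2) x = (2 * F x) • gradient F x := by
        have : (fun y => F y ^ 2) = fun y => F y * F y := by funext y; ring
        rw [this, ob_gradient_mul hFd hFd, ← add_smul]
        congr 1; ring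
      have e3 : ⟪(2 * F x) • gradient F x, n x • gpY x⟫_ℝ = 2 * F x * n x * W x := by
        rw [inner_smul_left, inner_smul_right, real_inner_comm]
        simp only [hW, conj_trivial]
        ring
      rw [e1, e2, e3]
      have h1 := gp_Y_div hn hM hk hds hxS hz.le
      have h2 : F x ^ 2 * gpDiv (fun y => n y • gpY y) x ≤ F x ^ 2 * (-(1.9 * n x)) :=
        mul_le_mul_of_nonneg_left h1 (by positivity)
      have h3 : 2 * F x * W x ≤ 0.95 * F x ^ 2 + (1 / 0.95) * W x ^ 2 := by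
        have := sq_nonneg (0.95 * F x - W x)
        have e : (1 / 0.95 : ℝ) * W x ^ 2 = (W x ^ 2) / 0.95 := by ring
        rw [e, ← sub_nonneg]
        have : 0.95 * F x ^ 2 + W x ^ 2 / 0.95 - 2 * F x * W x = (0.95 * F x - W x) ^ 2 / 0.95 := by
          field_simp; ring
        rw [this]; positivity
      have h4 := mul_le_mul_of_nonneg_left h3 hnpos.le
      nlinarith
  -- integrability
  have i1 : Integrable (fun x => n x * F x ^ 2) :=
    (hn.continuous.mul (hF.continuous.pow 2)).integrable_of_hasCompactSupport hac.mul_left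
  have i2 : Integrable (fun x => n x * W x ^ 2) := by
    have ib : Integrable (fun x => n x * ‖gradient F x‖ ^ 2) := by
      refine (hn.continuous.mul (hgradc.norm.pow 2)).integrable_of_hasCompactSupport ?_
      have : HasCompactSupport (fun x => ‖gradient F x‖ ^ 2) := by
        refine hgradcs.comp_left (g := fun v : Space => ‖v‖ ^ 2) (by simp)
      exact this.mul_left
    refine ib.mono' ?_ (Filter.Eventually.of_forall fun x => ?_)
    · have hWm : Measurable W := gpY_measurable.inner hgradc.measurable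
      exact (hn.continuous.measurable.mul (hWm.pow_const 2)).aestronglyMeasurable
    · have hnpos := hn.pos x
      have hWle : |W x| ≤ ‖gradient F x‖ := by
        have := abs_real_inner_le_norm (gpY x) (gradient F x)
        calc |W x| ≤ ‖gpY x‖ * ‖gradient F x‖ := this
          _ ≤ 1 * ‖gradient F x‖ := mul_le_mul_of_nonneg_right (gpY_norm_le x) (norm_nonneg _)
          _ = _ := one_mul _
      rw [Real.norm_of_nonneg (by positivity)]
      apply mul_le_mul_of_nonneg_left _ hnpos.le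
      rw [← sq_abs (W x)]
      exact pow_le_pow_left₀ (abs_nonneg _) hWle 2
  have i3 : Integrable (gpDiv Z) :=
    (gpDiv_continuous hZ).integrable_of_hasCompactSupport (gpDiv_hasCompactSupport hZc)
  have j1 : Integrable (fun x => -(0.95 * (n x * F x ^ 2))) := (i1.const_mul 0.95).neg
  have j2 : Integrable (fun x => (1 / 0.95) * (n x * W x ^ 2)) := i2.const_mul (1 / 0.95)
  have hmono := setIntegral_mono_on i3.integrableOn (j1.add j2).integrableOn
    gp_upperHalf_isOpen.measurableSet hpt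
  rw [hgauss] at hmono
  have e : ∫ x in upperHalf, (-(0.95 * (n x * F x ^ 2)) + (1 / 0.95) * (n x * W x ^ 2))
      = -(0.95 * ∫ x in upperHalf, n x * F x ^ 2) + (1 / 0.95) * ∫ x in upperHalf, n x * W x ^ 2 := by
    rw [integral_add j1.integrableOn j2.integrableOn, integral_neg, integral_const_mul,
      integral_const_mul]
  simp only [Pi.add_apply] at hmono
  rw [e] at hmono
  have : (0.9025 : ℝ) = 0.95 * 0.95 := by norm_num
  rw [this]
  have h5 : 0.95 * (∫ x in upperHalf, n x * F x ^ 2) ≤ (1 / 0.95) * ∫ x in upperHalf, n x * W x ^ 2 := by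
    linarith
  have h6 := mul_le_mul_of_nonneg_left h5 (by norm_num : (0 : ℝ) ≤ 0.95)
  calc _ = 0.95 * (0.95 * ∫ x in upperHalf, n x * F x ^ 2) := by ring
    _ ≤ 0.95 * ((1 / 0.95) * ∫ x in upperHalf, n x * W x ^ 2) := h6
    _ = ∫ x in upperHalf, n x * W x ^ 2 := by
        rw [← mul_assoc, show (0.95 : ℝ) * (1 / 0.95) = 1 by norm_num, one_mul]

end Claimed.Open.R278
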