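import Claimed.Open.R278.GPFlux
import Claimed.Open.R278.GPY

/-!
# Package GP, leaves GP-X1, GP-X2, GP-X3: the exterior gap (4.16) with constant `0.03` from the radius `S = 100 M`

GP-X1 (`gp_transform_identity`, `gp_ext_delta`).  `F = δ ξ`.  Pointwise: `δ² |∇ξ|² = |∇F|² - ⟪∇δ, ∇(δ ξ²)⟫` (expand `∇F = ξ∇δ + δ∇ξ`, `∇(δξ²) = ξ²∇δ + 2δξ∇ξ`).  Integrate `n ·` over `Ω₊` (all functions continuous with compact support):
  `∫_{Ω₊} n δ² |∇ξ|² = ∫_{Ω₊} n |∇F|² - T`,  `T ≤ ∫_{slab} n (F_z² + (κ + a²) F²)` (`gp_T_bound`),  `|∇F|² ≥ 1_{slab} F_z² + ⟪Y,∇F⟫²` (`gp_grad_split`),  `∫_{Ω₊} n ⟪Y,∇F⟫² ≥ 0.9025 ∫_{Ω₊} n F²` (`gp_Y_ineq`),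
  `gpSlab ⊆ upperHalf`, `κ + a² = 1/50 + π²/400 ≤ 0.045` (`Real.pi_lt_d2`): constant `0.9025 - 0.045 ≥ 0.85`.
GP-X2 (`gp_ext_gap_core`).  On `Ω₊`: `cos θ = sin δ`, `0 ≤ δ ≤ π/2`, `(2/π) δ ≤ sin δ ≤ δ` (`Real.mul_le_sin`, `Real.sin_le`).  `(1/2)(4/π²)(0.85) ≥ 0.03`.
GP-X3 (`gp_ext_gap_bdd`, `gp_ext_gap_even`).  Apply the core to `acCut j · u`, `j → ∞`, dominated convergence (`gpw ≤ n` integrable; `|∇(χ_j u)|² ≤ 2 C² (1 + C'²)`; `χ_j = 1`, `∇χ_j = 0` on `‖x‖ < j+1`).  Even `u`: `tk_integral_even`.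
-/

open MeasureTheory
open scoped ContDiff InnerProductSpace ENNReal Topology

noncomputable section

namespace Claimed.Open.R278

variable {b e : Space → ℝ} {εb εe : ℝ} {M : ℕ} {n θ : Space → ℝ} {k d : ℝ}

/-! ### GP-X1 -/

theorem gp_transform_identity {δ ξ : Space → ℝ} {x : Space} (hδ : DifferentiableAt ℝ δ x)
    (hξ : DifferentiableAt ℝ ξ x) :
    δ x ^ 2 * ‖gradient ξ x‖ ^ 2 = ‖gradient (fun y => δ y * ξ y) x‖ ^ 2
      - ⟪gradient δ x, gradient (fun y => δ y * ξ y ^ 2) x⟫_ℝ := by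
  have h2 : DifferentiableAt ℝ (fun y => ξ y ^ 2) x := hξ.fun_pow 2
  rw [gp_gradient_mul hδ hξ, gp_gradient_mul hδ h2, gpd_gradient_sq hξ, norm_add_sq_real,
    inner_add_right, norm_smul, norm_smul, real_inner_smul_left, real_inner_smul_right, real_inner_smul_right,
    real_inner_smul_right, real_inner_smul_right, real_inner_self_eq_norm_sq, mul_pow, mul_pow, Real.norm_eq_abs,
    Real.norm_eq_abs, sq_abs, sq_abs, real_inner_comm (gradient δ x) (gradient ξ x)]
  ring

theorem gpx_slab_subset : gpSlab ⊆ upperHalf := fun _ hx => hx.1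

theorem gpx_const_le : stKap + (Real.pi / (2 * stripL)) ^ 2 ≤ 0.045 := by
  unfold stKap stripL
  have h1 := Real.pi_lt_d2
  have h2 := Real.pi_pos
  have : Real.pi ^ 2 ≤ 3.15 ^ 2 := pow_le_pow_left₀ h2.le h1.le 2
  have e : (Real.pi / (2 * 10)) ^ 2 = Real.pi ^ 2 / 400 := by ring
  rw [e]
  norm_num at this ⊢
  linarith

theorem gp_ext_delta (D : GPData b e εb εe M n θ k d) {ξ : Space → ℝ} (hξ : ContDiff ℝ 1 ξ)
    (hc : HasCompactSupport ξ) (hS : ∀ x : Space, ‖x‖ < 100 * M → ξ x = 0) :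
    0.85 * (∫ x in upperHalf, n x * (gpDel θ x * ξ x) ^ 2)
      ≤ ∫ x in upperHalf, n x * (gpDel θ x ^ 2 * ‖gradient ξ x‖ ^ 2) := by
  have hδ := gpDel_contDiff D.hθ.1
  have hnc := D.hn.continuous
  have hmU : MeasurableSet upperHalf := gp_upperHalf_isOpen.measurableSet
  set F : Space → ℝ := fun y => gpDel θ y * ξ y with hF
  have hFd : ContDiff ℝ 1 F := hδ.mul hξ
  have hFc : HasCompactSupport F := hc.mul_left
  have hFS : ∀ x : Space, ‖x‖ < 100 * M → F x = 0 := fun x hx => by simp only [hF, hS x hx, mul_zero]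
  have hgF : Continuous (gradient F) := gpf_gradient_continuous hFd
  have hgFc : HasCompactSupport (gradient F) := gpf_gradient_hasCompactSupport hFc
  have hFz : Continuous fun x => fderiv ℝ F x ez := (hFd.continuous_fderiv (by simp)).clm_apply continuous_const
  have hFzs : ∀ x, x ∉ tsupport F → fderiv ℝ F x ez = 0 := by
    intro x hx
    have h0 : F =ᶠ[𝓝 x] fun _ => (0:ℝ) := notMem_tsupport_iff_eventuallyEq.1 hx
    rw [h0.fderiv_eq]; simp
  set ψ : Space → ℝ := fun y => gpDel θ y * ξ y ^ 2 with hψ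
  have hψd : ContDiff ℝ 1 ψ := hδ.mul (hξ.pow 2)
  have hψc : HasCompactSupport ψ := HasCompactSupport.intro hc fun x hx => by
    simp only [hψ, image_eq_zero_of_notMem_tsupport hx]; ring
  -- integrability
  have i1 : Integrable fun x => n x * ‖gradient F x‖ ^ 2 :=
    (hnc.mul (hgF.norm.pow 2)).integrable_of_hasCompactSupport
      (HasCompactSupport.intro hgFc fun x hx => by
        show n x * ‖gradient F x‖ ^ 2 = 0
        rw [image_eq_zero_of_notMem_tsupport hx, norm_zero]; ring)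
  have i2 : Integrable fun x => n x * ⟪gradient (gpDel θ) x, gradient ψ x⟫_ℝ :=
    (hnc.mul ((gpf_gradient_continuous hδ).inner (gpf_gradient_continuous hψd))).integrable_of_hasCompactSupport
      (HasCompactSupport.intro (gpf_gradient_hasCompactSupport hψc) fun x hx => by
        show n x * ⟪gradient (gpDel θ) x, gradient ψ x⟫_ℝ = 0
        rw [image_eq_zero_of_notMem_tsupport hx, inner_zero_right, mul_zero])
  have i3 : Integrable fun x => n x * F x ^ 2 :=
    (hnc.mul (hFd.continuous.pow 2)).integrable_of_hasCompactSupport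
      (HasCompactSupport.intro hFc fun x hx => by
        show n x * F x ^ 2 = 0
        rw [image_eq_zero_of_notMem_tsupport hx]; ring)
  have i4 : Integrable fun x => n x * fderiv ℝ F x ez ^ 2 :=
    (hnc.mul (hFz.pow 2)).integrable_of_hasCompactSupport
      (HasCompactSupport.intro hFc fun x hx => by
        show n x * fderiv ℝ F x ez ^ 2 = 0
        rw [hFzs x hx]; ring)
  have i5 : Integrable fun x => n x * ⟪gpY x, gradient F x⟫_ℝ ^ 2 := by
    refine i1.mono' ?_ (Filter.Eventually.of_forall fun x => ?_)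
    · exact (hnc.measurable.mul ((gpY_measurable.inner hgF.measurable).pow_const 2)).aestronglyMeasurable
    · have hn0 := (D.hn.pos x).le
      rw [Real.norm_eq_abs, abs_of_nonneg (by positivity)]
      refine mul_le_mul_of_nonneg_left ?_ hn0
      have h1 : |⟪gpY x, gradient F x⟫_ℝ| ≤ ‖gradient F x‖ := by
        calc |⟪gpY x, gradient F x⟫_ℝ| ≤ ‖gpY x‖ * ‖gradient F x‖ := abs_real_inner_le_norm _ _
          _ ≤ 1 * ‖gradient F x‖ := by gcongr; exact gpY_norm_le x
          _ = _ := one_mul _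
      rw [← sq_abs]
      exact pow_le_pow_left₀ (abs_nonneg _) h1 2
  -- the identity
  have E1 : (∫ x in upperHalf, n x * (gpDel θ x ^ 2 * ‖gradient ξ x‖ ^ 2))
      = (∫ x in upperHalf, n x * ‖gradient F x‖ ^ 2)
        - ∫ x in upperHalf, n x * ⟪gradient (gpDel θ) x, gradient ψ x⟫_ℝ := by
    rw [← integral_sub i1.integrableOn i2.integrableOn]
    refine integral_congr_ae (Filter.Eventually.of_forall fun x => ?_)
    show n x * (gpDel θ x ^ 2 * ‖gradient ξ x‖ ^ 2) = _
    rw [gp_transform_identity (hδ.differentiable (by simp) x) (hξ.differentiable (by simp) x)]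
    ring
  have hT := gp_T_bound D hξ hc hS
  have hY := gp_Y_ineq D.hn D.hM D.hk D.hds hFd hFc hFS
  -- the splitting of the gradient
  have E2 : (∫ x in gpSlab, n x * fderiv ℝ F x ez ^ 2) + (∫ x in upperHalf, n x * ⟪gpY x, gradient F x⟫_ℝ ^ 2)
      ≤ ∫ x in upperHalf, n x * ‖gradient F x‖ ^ 2 := by
    have e : (∫ x in gpSlab, n x * fderiv ℝ F x ez ^ 2)
        = ∫ x in upperHalf, gpSlab.indicator (fun x => n x * fderiv ℝ F x ez ^ 2) x := by
      rw [setIntegral_indicator gpf_slab_measurable, Set.inter_eq_self_of_subset_right gpx_slab_subset]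
    rw [e, ← integral_add (i4.indicator gpf_slab_measurable).integrableOn i5.integrableOn]
    refine setIntegral_mono_on ((i4.indicator gpf_slab_measurable).add i5).integrableOn i1.integrableOn hmU
      fun x _ => ?_
    have h := gp_grad_split (F := F) x
    have hn0 := (D.hn.pos x).le
    have h2 := mul_le_mul_of_nonneg_left h hn0
    have e2 : gpSlab.indicator (fun x => n x * fderiv ℝ F x ez ^ 2) x
        = n x * gpSlab.indicator (fun y => fderiv ℝ F y ez ^ 2) x := by
      by_cases hx : x ∈ gpSlab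
      · rw [Set.indicator_of_mem hx, Set.indicator_of_mem hx]
      · rw [Set.indicator_of_notMem hx, Set.indicator_of_notMem hx, mul_zero]
    show gpSlab.indicator (fun x => n x * fderiv ℝ F x ez ^ 2) x + n x * ⟪gpY x, gradient F x⟫_ℝ ^ 2 ≤ _
    rw [e2]
    linarith
  -- the right side of the T bound
  have E3 : (∫ x in gpSlab, n x * (fderiv ℝ F x ez ^ 2 + (stKap + (Real.pi / (2 * stripL)) ^ 2) * F x ^ 2))
      ≤ (∫ x in gpSlab, n x * fderiv ℝ F x ez ^ 2) + 0.045 * ∫ x in upperHalf, n x * F x ^ 2 := by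
    have e : (fun x => n x * (fderiv ℝ F x ez ^ 2 + (stKap + (Real.pi / (2 * stripL)) ^ 2) * F x ^ 2))
        = fun x => n x * fderiv ℝ F x ez ^ 2 + (stKap + (Real.pi / (2 * stripL)) ^ 2) * (n x * F x ^ 2) := by
      funext x; ring
    rw [e, integral_add i4.integrableOn (i3.const_mul _).integrableOn, integral_const_mul]
    have hnn : ∀ x, 0 ≤ n x * F x ^ 2 := fun x => by have := (D.hn.pos x).le; positivity
    have h1 : (∫ x in gpSlab, n x * F x ^ 2) ≤ ∫ x in upperHalf, n x * F x ^ 2 :=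
      setIntegral_mono_set i3.integrableOn (Filter.Eventually.of_forall hnn)
        (Filter.Eventually.of_forall gpx_slab_subset)
    have h0 : 0 ≤ ∫ x in gpSlab, n x * F x ^ 2 := integral_nonneg hnn
    have h2 : 0 ≤ stKap + (Real.pi / (2 * stripL)) ^ 2 := by have := stKap_nonneg; positivity
    have := gpx_const_le
    nlinarith
  have hnn : 0 ≤ ∫ x in upperHalf, n x * F x ^ 2 :=
    integral_nonneg fun x => by have := (D.hn.pos x).le; positivity
  rw [E1]
  show 0.85 * (∫ x in upperHalf, n x * F x ^ 2) ≤ _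
  linarith

/-! ### GP-X2 -/

theorem gpx_del_mem (hθ : IsFoldedMinimizer n θ) {x : Space} (hx : x ∈ upperHalf) :
    0 ≤ gpDel θ x ∧ gpDel θ x ≤ Real.pi / 2 := by
  obtain ⟨h1, h2⟩ := hθ.2.2.1 x hx
  unfold gpDel
  constructor <;> linarith

theorem gpx_cos_eq (θ : Space → ℝ) (x : Space) : Real.cos (θ x) = Real.sin (gpDel θ x) := by
  unfold gpDel
  rw [Real.sin_pi_div_two_sub]

theorem gp_ext_gap_core (D : GPData b e εb εe M n θ k d) {ξ : Space → ℝ} (hξ : ContDiff ℝ 1 ξ)
    (hc : HasCompactSupport ξ) (hS : ∀ x : Space, ‖x‖ < 100 * M → ξ x = 0) :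
    0.03 * (∫ x in upperHalf, gpw n θ x * ξ x ^ 2)
      ≤ (1 / 2) * ∫ x in upperHalf, gpw n θ x * ‖gradient ξ x‖ ^ 2 := by
  have hδ := gpDel_contDiff D.hθ.1
  have hnc := D.hn.continuous
  have hmU : MeasurableSet upperHalf := gp_upperHalf_isOpen.measurableSet
  have hgξ := gpf_gradient_continuous hξ
  have h1 := gp_ext_delta D hξ hc hS
  have i1 := gpd_integrable_sq hnc D.hθ.1.continuous hξ.continuous hc
  have i2 := gpd_integrable_grad hnc D.hθ.1.continuous hξ hc
  have i3 : Integrable fun x => n x * (gpDel θ x * ξ x) ^ 2 :=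
    (hnc.mul ((hδ.continuous.mul hξ.continuous).pow 2)).integrable_of_hasCompactSupport
      (HasCompactSupport.intro hc fun x hx => by
        show n x * (gpDel θ x * ξ x) ^ 2 = 0
        rw [image_eq_zero_of_notMem_tsupport hx]; ring)
  have i4 : Integrable fun x => n x * (gpDel θ x ^ 2 * ‖gradient ξ x‖ ^ 2) :=
    (hnc.mul ((hδ.continuous.pow 2).mul (hgξ.norm.pow 2))).integrable_of_hasCompactSupport
      (HasCompactSupport.intro (gpf_gradient_hasCompactSupport hc) fun x hx => by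
        show n x * (gpDel θ x ^ 2 * ‖gradient ξ x‖ ^ 2) = 0
        rw [image_eq_zero_of_notMem_tsupport hx, norm_zero]; ring)
  have a1 : (∫ x in upperHalf, gpw n θ x * ξ x ^ 2) ≤ ∫ x in upperHalf, n x * (gpDel θ x * ξ x) ^ 2 := by
    refine setIntegral_mono_on i1.integrableOn i3.integrableOn hmU fun x hx => ?_
    obtain ⟨d0, d1⟩ := gpx_del_mem D.hθ hx
    have hs0 : 0 ≤ Real.sin (gpDel θ x) := Real.sin_nonneg_of_nonneg_of_le_pi d0 (by linarith [Real.pi_pos])
    have hs : Real.sin (gpDel θ x) ^ 2 ≤ gpDel θ x ^ 2 := pow_le_pow_left₀ hs0 (Real.sin_le d0) 2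
    have hn0 := (D.hn.pos x).le
    unfold gpw
    rw [gpx_cos_eq, mul_pow, mul_assoc]
    exact mul_le_mul_of_nonneg_left (mul_le_mul_of_nonneg_right hs (by positivity)) hn0
  have a2 : (2 / Real.pi) ^ 2 * (∫ x in upperHalf, n x * (gpDel θ x ^ 2 * ‖gradient ξ x‖ ^ 2))
      ≤ ∫ x in upperHalf, gpw n θ x * ‖gradient ξ x‖ ^ 2 := by
    rw [← integral_const_mul]
    refine setIntegral_mono_on (i4.const_mul _).integrableOn i2.integrableOn hmU fun x hx => ?_
    obtain ⟨d0, d1⟩ := gpx_del_mem D.hθ hx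
    have hπ := Real.pi_pos
    have hs : (2 / Real.pi * gpDel θ x) ^ 2 ≤ Real.sin (gpDel θ x) ^ 2 :=
      pow_le_pow_left₀ (by positivity) (Real.mul_le_sin d0 d1) 2
    have hn0 := (D.hn.pos x).le
    unfold gpw
    rw [gpx_cos_eq]
    have := mul_le_mul_of_nonneg_left (mul_le_mul_of_nonneg_right hs (by positivity : 0 ≤ ‖gradient ξ x‖ ^ 2)) hn0
    calc _ = n x * ((2 / Real.pi * gpDel θ x) ^ 2 * ‖gradient ξ x‖ ^ 2) := by ring
      _ ≤ _ := this
      _ = _ := by ring
  have hπ2 : (0.4 : ℝ) ≤ (2 / Real.pi) ^ 2 := by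
    have h1 := Real.pi_lt_d2
    have h2 := Real.pi_pos
    have h3 : Real.pi ^ 2 ≤ 3.15 ^ 2 := pow_le_pow_left₀ h2.le h1.le 2
    rw [div_pow, le_div_iff₀ (by positivity)]
    norm_num at h3 ⊢
    linarith
  have n1 : 0 ≤ ∫ x in upperHalf, gpw n θ x * ξ x ^ 2 :=
    integral_nonneg fun x => mul_nonneg (gpd_gpw_nonneg D.hn.pos x) (by positivity)
  have n2 : 0 ≤ ∫ x in upperHalf, n x * (gpDel θ x ^ 2 * ‖gradient ξ x‖ ^ 2) :=
    integral_nonneg fun x => by have := (D.hn.pos x).le; positivity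
  nlinarith

/-! ### GP-X3 -/

theorem gpx_gpw_le (hn : ∀ x, 0 < n x) (x : Space) : gpw n θ x ≤ n x := by
  unfold gpw
  have h1 : Real.cos (θ x) ^ 2 ≤ 1 := Real.cos_sq_le_one _
  exact mul_le_of_le_one_right (hn x).le h1

/-- domination: `w f` is integrable if `f` is continuous and bounded. -/
theorem gpx_integrable_bdd (hn : DensityBasic n) (hθ : Continuous θ) {f : Space → ℝ} (hf : Continuous f) {B : ℝ}
    (hB : ∀ x, |f x| ≤ B) : Integrable fun x => gpw n θ x * f x := by
  refine (hn.integrable.mul_const B).mono' ((gpd_continuous_gpw hn.continuous hθ).mul hf).aestronglyMeasurable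
    (Filter.Eventually.of_forall fun x => ?_)
  rw [norm_mul, Real.norm_eq_abs, Real.norm_eq_abs, abs_of_nonneg (gpd_gpw_nonneg hn.pos x)]
  exact mul_le_mul (gpx_gpw_le hn.pos x) (hB x) (abs_nonneg _) (hn.pos x).le

theorem gp_ext_gap_bdd (D : GPData b e εb εe M n θ k d) {u : Space → ℝ} (hu : ContDiff ℝ 1 u) {C : ℝ}
    (hb : ∀ x, |u x| ≤ C) (hg : ∀ x, ‖gradient u x‖ ≤ C) (hS : ∀ x : Space, ‖x‖ < 100 * M → u x = 0) :
    0.03 * (∫ x in upperHalf, gpw n θ x * u x ^ 2)
      ≤ (1 / 2) * ∫ x in upperHalf, gpw n θ x * ‖gradient u x‖ ^ 2 := by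
  obtain ⟨C', hC'⟩ := acCut_grad_le
  have hC0 : 0 ≤ C := (abs_nonneg _).trans (hb 0)
  have hC'0 : 0 ≤ C' := by
    have := (norm_nonneg _).trans (hC' 0 0)
    simpa using this
  have hθc := D.hθ.1.continuous
  have hwc := gpd_continuous_gpw D.hn.continuous hθc
  have hχ : ∀ j, ContDiff ℝ 1 (acCut j) := fun j => (acCut_contDiff j).of_le (by exact_mod_cast le_top)
  have hv : ∀ j, ContDiff ℝ 1 (fun x => acCut j x * u x) := fun j => (hχ j).mul hu
  have hgrad : ∀ j x, gradient (fun y => acCut j y * u y) x = acCut j x • gradient u x + u x • gradient (acCut j) x :=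
    fun j x => gp_gradient_mul ((hχ j).differentiable (by simp) x) (hu.differentiable (by simp) x)
  have hcore : ∀ j : ℕ, 0.03 * (∫ x in upperHalf, gpw n θ x * (acCut j x * u x) ^ 2)
      ≤ (1 / 2) * ∫ x in upperHalf, gpw n θ x * ‖gradient (fun y => acCut j y * u y) x‖ ^ 2 := fun j =>
    gp_ext_gap_core D (hv j) (acCut_hasCompactSupport j).mul_right (fun x hx => by rw [hS x hx, mul_zero])
  have hev : ∀ x : Space, ∀ᶠ j : ℕ in Filter.atTop, ‖x‖ < (j : ℝ) + 1 := by
    intro x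
    obtain ⟨N, hN⟩ := exists_nat_gt ‖x‖
    filter_upwards [Filter.eventually_ge_atTop N] with j hj
    have : (N : ℝ) ≤ j := by exact_mod_cast hj
    linarith
  have l1 : Filter.Tendsto (fun j : ℕ => ∫ x in upperHalf, gpw n θ x * (acCut j x * u x) ^ 2) Filter.atTop
      (𝓝 (∫ x in upperHalf, gpw n θ x * u x ^ 2)) := by
    refine tendsto_integral_of_dominated_convergence (fun x => n x * C ^ 2) (fun j => ?_)
      (D.hn.integrable.mul_const _).integrableOn (fun j => Filter.Eventually.of_forall fun x => ?_)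
      (Filter.Eventually.of_forall fun x => ?_)
    · exact (hwc.mul ((hv j).continuous.pow 2)).aestronglyMeasurable
    · rw [norm_mul, Real.norm_eq_abs, Real.norm_eq_abs, abs_of_nonneg (gpd_gpw_nonneg D.hn.pos x),
        abs_of_nonneg (by positivity)]
      refine mul_le_mul (gpx_gpw_le D.hn.pos x) ?_ (by positivity) (D.hn.pos x).le
      rw [← sq_abs]
      refine pow_le_pow_left₀ (abs_nonneg _) ?_ 2
      rw [abs_mul, abs_of_nonneg (acCut_nonneg j x)]
      calc acCut j x * |u x| ≤ 1 * C := mul_le_mul (acCut_le_one j x) (hb x) (abs_nonneg _) zero_le_one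
        _ = C := one_mul _
    · refine tendsto_const_nhds.congr' ?_
      filter_upwards [hev x] with j hj
      rw [acCut_eq_one hj.le, one_mul]
  have l2 : Filter.Tendsto (fun j : ℕ => ∫ x in upperHalf, gpw n θ x * ‖gradient (fun y => acCut j y * u y) x‖ ^ 2)
      Filter.atTop (𝓝 (∫ x in upperHalf, gpw n θ x * ‖gradient u x‖ ^ 2)) := by
    refine tendsto_integral_of_dominated_convergence (fun x => n x * (C + C * C') ^ 2) (fun j => ?_)
      (D.hn.integrable.mul_const _).integrableOn (fun j => Filter.Eventually.of_forall fun x => ?_)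
      (Filter.Eventually.of_forall fun x => ?_)
    · exact (hwc.mul ((gpf_gradient_continuous (hv j)).norm.pow 2)).aestronglyMeasurable
    · rw [norm_mul, Real.norm_eq_abs, Real.norm_eq_abs, abs_of_nonneg (gpd_gpw_nonneg D.hn.pos x),
        abs_of_nonneg (by positivity)]
      refine mul_le_mul (gpx_gpw_le D.hn.pos x) ?_ (by positivity) (D.hn.pos x).le
      refine pow_le_pow_left₀ (norm_nonneg _) ?_ 2
      rw [hgrad]
      have hj : C' / ((j : ℝ) + 1) ≤ C' := div_le_self hC'0 (by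
        have : (0 : ℝ) ≤ (j : ℝ) := Nat.cast_nonneg j
        linarith)
      calc ‖acCut j x • gradient u x + u x • gradient (acCut j) x‖
          ≤ ‖acCut j x • gradient u x‖ + ‖u x • gradient (acCut j) x‖ := norm_add_le _ _
        _ = acCut j x * ‖gradient u x‖ + |u x| * ‖gradient (acCut j) x‖ := by
            rw [norm_smul, norm_smul, Real.norm_eq_abs, Real.norm_eq_abs, abs_of_nonneg (acCut_nonneg j x)]
        _ ≤ 1 * C + C * C' := by
            refine add_le_add (mul_le_mul (acCut_le_one j x) (hg x) (norm_nonneg _) zero_le_one)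
              (mul_le_mul (hb x) ((hC' j x).trans hj) (norm_nonneg _) hC0)
        _ = C + C * C' := by ring
    · refine tendsto_const_nhds.congr' ?_
      filter_upwards [hev x] with j hj
      rw [hgrad, acCut_eq_one hj.le, acCut_grad_eq_zero hj, one_smul, smul_zero, add_zero]
  exact le_of_tendsto_of_tendsto' (l1.const_mul 0.03) (l2.const_mul (1 / 2)) hcore

theorem gp_ext_gap_even (D : GPData b e εb εe M n θ k d) {u : Space → ℝ} (hu : ContDiff ℝ 1 u) {C : ℝ}
    (hb : ∀ x, |u x| ≤ C) (hg : ∀ x, ‖gradient u x‖ ≤ C) (hS : ∀ x : Space, ‖x‖ < 100 * M → u x = 0)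
    (hev : ∀ x, u (reflZ x) = u x) :
    0.03 * (∫ x, gpw n θ x * u x ^ 2) ≤ (1 / 2) * ∫ x, gpw n θ x * ‖gradient u x‖ ^ 2 := by
  have hC0 : 0 ≤ C := (abs_nonneg _).trans (hb 0)
  have hθc := D.hθ.1.continuous
  have hw : ∀ x, gpw n θ (reflZ x) = gpw n θ x := by
    intro x
    unfold gpw
    rw [D.hn.even, D.hθ.odd, Real.cos_neg]
  have i1 : Integrable fun x => gpw n θ x * u x ^ 2 :=
    gpx_integrable_bdd D.hn hθc (hu.continuous.pow 2) (B := C ^ 2) fun x => by
      rw [abs_pow]; exact pow_le_pow_left₀ (abs_nonneg _) (hb x) 2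
  have i2 : Integrable fun x => gpw n θ x * ‖gradient u x‖ ^ 2 :=
    gpx_integrable_bdd D.hn hθc ((gpf_gradient_continuous hu).norm.pow 2) (B := C ^ 2) fun x => by
      rw [abs_pow, abs_norm]; exact pow_le_pow_left₀ (norm_nonneg _) (hg x) 2
  rw [tk_integral_even i1 (Filter.Eventually.of_forall fun x => by rw [hw, hev]),
    tk_integral_even i2 (Filter.Eventually.of_forall fun x => by
      rw [hw, gpd_norm_gradient_reflZ (c := 1) (by norm_num) (fun y => by rw [hev]; ring)])]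
  have := gp_ext_gap_bdd D hu hb hg hS
  linarith

end Claimed.Open.R278
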