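import Claimed.Open.R278.GPDefs
import Claimed.Open.R278.OBCalc
import Claimed.Open.R278.OBCmp

/-!
# Package GP, leaves GP-Q1, GP-Q2: the explicit smoothstep and the cutoffs built from it (Mathlib only)

GP-Q1.  `gpQ t = ∫_0^t 6 max(s,0) max(1-s,0) ds`: continuous integrand, so `HasDerivAt` by the fundamental theorem of calculus (`intervalIntegral.integral_hasDerivAt_right`), `C¹` by `contDiff_one_iff_deriv`.
`6 max(t,0) max(1-t,0) ∈ [0, 3/2]` (`t(1-t) ≤ 1/4`).  `gpQ = 0` on `t ≤ 0` (integrand `0` there), `gpQ 1 = ∫_0^1 6 s (1-s) = 1`, constant on `t ≥ 1`, monotone.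
`gpZeta z = gpQ ((z² - L²)/(3L²))`, `gpZeta' z = gpQ'(·) 2z/(3L²)`, and `gpQ'(·) ≠ 0` only if `z² < 4 L²`: `|z gpZeta' z| ≤ (3/2)(2 z²/(3 L²)) ≤ 4`.

GP-Q2.  `χ = cos (π/2 q)`, `ρ = sin (π/2 q)`, `q = gpQ ((‖x‖² - S²)/(3S²))`.  `∇q = gpQ'(·) (2/(3S²)) x`, nonzero only if `‖x‖ < 2S`: `‖∇q‖ ≤ (3/2)(4S/(3S²)) = 2/S`.
`‖∇χ‖² + ‖∇ρ‖² = (π/2)² ‖∇q‖² ≤ π²/S² ≤ 10/S²`.  IMS: expand; `χ ∇χ + ρ ∇ρ = 0`.
-/

open MeasureTheory
open scoped ContDiff InnerProductSpace ENNReal Topology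

noncomputable section

namespace Claimed.Open.R278

/-! ### GP-Q1 -/

theorem gpq_cont : Continuous fun s : ℝ => 6 * (max s 0 * max (1 - s) 0) := by fun_prop

theorem gpQ_hasDerivAt (t : ℝ) : HasDerivAt gpQ (6 * (max t 0 * max (1 - t) 0)) t :=
  intervalIntegral.integral_hasDerivAt_right (gpq_cont.intervalIntegrable _ _)
    (gpq_cont.stronglyMeasurableAtFilter _ _) gpq_cont.continuousAt

theorem gpQ_deriv : deriv gpQ = fun t => 6 * (max t 0 * max (1 - t) 0) :=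
  funext fun t => (gpQ_hasDerivAt t).deriv

theorem gpQ_contDiff : ContDiff ℝ 1 gpQ := by
  rw [contDiff_one_iff_deriv]
  exact ⟨fun t => (gpQ_hasDerivAt t).differentiableAt, by rw [gpQ_deriv]; exact gpq_cont⟩

theorem gpQ_of_nonpos {t : ℝ} (ht : t ≤ 0) : gpQ t = 0 := by
  unfold gpQ
  have : ∀ s ∈ Set.uIcc 0 t, 6 * (max s 0 * max (1 - s) 0) = (fun _ : ℝ => (0:ℝ)) s := by
    intro s hs
    rw [Set.uIcc_of_ge ht] at hs
    simp [max_eq_right hs.2]
  rw [intervalIntegral.integral_congr this]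
  simp

theorem gpQ_one : gpQ 1 = 1 := by
  unfold gpQ
  have h1 : ∀ s ∈ Set.uIcc (0:ℝ) 1, 6 * (max s 0 * max (1 - s) 0) = (fun s : ℝ => 6 * s - 6 * s ^ 2) s := by
    intro s hs
    rw [Set.uIcc_of_le zero_le_one] at hs
    rw [max_eq_left hs.1, max_eq_left (by linarith [hs.2])]
    ring
  rw [intervalIntegral.integral_congr h1]
  have h2 : ∀ s ∈ Set.uIcc (0:ℝ) 1, HasDerivAt (fun s : ℝ => 3 * s ^ 2 - 2 * s ^ 3) (6 * s - 6 * s ^ 2) s := by
    intro s _
    have := ((hasDerivAt_pow 2 s).const_mul 3).sub ((hasDerivAt_pow 3 s).const_mul 2)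
    have e : 6 * s - 6 * s ^ 2 = 3 * (↑2 * s ^ (2 - 1)) - 2 * (↑3 * s ^ (3 - 1)) := by
      norm_num
      ring
    rw [e]
    exact this
  rw [intervalIntegral.integral_eq_sub_of_hasDerivAt h2 ((by fun_prop : Continuous fun s : ℝ => 6 * s - 6 * s ^ 2).intervalIntegrable _ _)]
  norm_num

theorem gpQ_of_one_le {t : ℝ} (ht : 1 ≤ t) : gpQ t = 1 := by
  have h : gpQ t = gpQ 1 + ∫ s in (1:ℝ)..t, 6 * (max s 0 * max (1 - s) 0) := by
    unfold gpQ
    rw [intervalIntegral.integral_add_adjacent_intervals (gpq_cont.intervalIntegrable _ _)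
      (gpq_cont.intervalIntegrable _ _)]
  have : ∀ s ∈ Set.uIcc 1 t, 6 * (max s 0 * max (1 - s) 0) = (fun _ : ℝ => (0:ℝ)) s := by
    intro s hs
    rw [Set.uIcc_of_le ht] at hs
    simp [max_eq_right (by linarith [hs.1] : 1 - s ≤ 0)]
  rw [h, intervalIntegral.integral_congr this, gpQ_one]
  simp

theorem gpQ_deriv_nonneg (t : ℝ) : 0 ≤ deriv gpQ t := by
  rw [gpQ_deriv]; positivity

theorem gpQ_monotone : Monotone gpQ :=
  monotone_of_deriv_nonneg (fun t => (gpQ_hasDerivAt t).differentiableAt) gpQ_deriv_nonneg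

theorem gpQ_nonneg (t : ℝ) : 0 ≤ gpQ t := by
  rw [← gpQ_of_nonpos (min_le_right t 0)]
  exact gpQ_monotone (min_le_left t 0)

theorem gpQ_le_one (t : ℝ) : gpQ t ≤ 1 := by
  rw [← gpQ_of_one_le (le_max_right t 1)]
  exact gpQ_monotone (le_max_left t 1)

theorem gpQ_deriv_le (t : ℝ) : deriv gpQ t ≤ 3 / 2 := by
  rw [gpQ_deriv]
  show 6 * (max t 0 * max (1 - t) 0) ≤ 3 / 2
  rcases le_total t 0 with h | h
  · rw [max_eq_right h]; norm_num
  · rcases le_total (1 - t) 0 with h' | h'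
    · rw [max_eq_right h']; norm_num
    · rw [max_eq_left h, max_eq_left h']
      nlinarith [sq_nonneg (t - 1 / 2)]

theorem gpQ_deriv_eq_zero {t : ℝ} (ht : t ≤ 0 ∨ 1 ≤ t) : deriv gpQ t = 0 := by
  rw [gpQ_deriv]
  show 6 * (max t 0 * max (1 - t) 0) = 0
  rcases ht with h | h
  · rw [max_eq_right h]; norm_num
  · rw [max_eq_right (by linarith : 1 - t ≤ 0)]; norm_num

theorem gpq_L_pos : 0 < stripL := by unfold stripL; norm_num

theorem gpZeta_contDiff : ContDiff ℝ 1 gpZeta := by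
  unfold gpZeta
  exact gpQ_contDiff.comp (by fun_prop)

theorem gpZeta_eq_zero {z : ℝ} (hz : |z| ≤ stripL) : gpZeta z = 0 := by
  unfold gpZeta
  apply gpQ_of_nonpos
  have hL := gpq_L_pos
  have : z ^ 2 ≤ stripL ^ 2 := sq_le_sq' (by linarith [neg_abs_le z]) (by linarith [le_abs_self z])
  exact div_nonpos_of_nonpos_of_nonneg (by linarith) (by positivity)

theorem gpZeta_eq_one {z : ℝ} (hz : 2 * stripL ≤ |z|) : gpZeta z = 1 := by
  unfold gpZeta
  apply gpQ_of_one_le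
  have hL := gpq_L_pos
  have : (2 * stripL) ^ 2 ≤ z ^ 2 := by
    rw [← sq_abs z]
    exact pow_le_pow_left₀ (by positivity) hz 2
  rw [le_div_iff₀ (by positivity)]
  nlinarith

theorem gpZeta_nonneg (z : ℝ) : 0 ≤ gpZeta z := gpQ_nonneg _

theorem gpZeta_le_one (z : ℝ) : gpZeta z ≤ 1 := gpQ_le_one _

theorem gpZeta_hasDerivAt (z : ℝ) :
    HasDerivAt gpZeta (deriv gpQ ((z ^ 2 - stripL ^ 2) / (3 * stripL ^ 2)) * (2 * z / (3 * stripL ^ 2))) z := by
  have h1 : HasDerivAt (fun z : ℝ => (z ^ 2 - stripL ^ 2) / (3 * stripL ^ 2)) (2 * z / (3 * stripL ^ 2)) z := by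
    have := ((hasDerivAt_pow 2 z).sub_const (stripL ^ 2)).div_const (3 * stripL ^ 2)
    simpa using this
  have h2 := (gpQ_hasDerivAt ((z ^ 2 - stripL ^ 2) / (3 * stripL ^ 2))).comp z h1
  rw [← (gpQ_hasDerivAt _).deriv] at h2
  exact h2

theorem gpZeta_deriv_bound (z : ℝ) : |z * deriv gpZeta z| ≤ 4 := by
  rw [(gpZeta_hasDerivAt z).deriv]
  have hL := gpq_L_pos
  set a := (z ^ 2 - stripL ^ 2) / (3 * stripL ^ 2) with ha
  have e : z * (deriv gpQ a * (2 * z / (3 * stripL ^ 2))) = deriv gpQ a * (2 * z ^ 2 / (3 * stripL ^ 2)) := by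
    ring
  rw [e, abs_of_nonneg (mul_nonneg (gpQ_deriv_nonneg a) (by positivity))]
  rcases le_total 1 a with h | h
  · rw [gpQ_deriv_eq_zero (Or.inr h)]; norm_num
  · have h1 : z ^ 2 ≤ 4 * stripL ^ 2 := by
      rw [ha, div_le_iff₀ (by positivity)] at h
      linarith
    have h2 : 2 * z ^ 2 / (3 * stripL ^ 2) ≤ 8 / 3 := by
      rw [div_le_iff₀ (by positivity)]
      linarith
    calc deriv gpQ a * (2 * z ^ 2 / (3 * stripL ^ 2)) ≤ 3 / 2 * (8 / 3) :=
          mul_le_mul (gpQ_deriv_le a) h2 (by positivity) (by norm_num)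
      _ = 4 := by norm_num

/-! ### GP-Q2 -/

variable {S : ℝ}

/-- the radial profile `q = gpQ ((‖x‖² - S²)/(3S²))`. -/
def gpqR (S : ℝ) (x : Space) : ℝ := gpQ ((‖x‖ ^ 2 - S ^ 2) / (3 * S ^ 2))

theorem gpqR_contDiff (S : ℝ) : ContDiff ℝ 1 (gpqR S) := by
  unfold gpqR
  exact gpQ_contDiff.comp (((contDiff_norm_sq ℝ).sub contDiff_const).div_const _)

theorem gpqR_nonneg (S : ℝ) (x : Space) : 0 ≤ gpqR S x := gpQ_nonneg _

theorem gpqR_le_one (S : ℝ) (x : Space) : gpqR S x ≤ 1 := gpQ_le_one _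

theorem gpqR_differentiableAt (S : ℝ) (x : Space) : DifferentiableAt ℝ (gpqR S) x :=
  (gpqR_contDiff S).differentiable (by simp) x

theorem gpqR_gradient (S : ℝ) (x : Space) :
    gradient (gpqR S) x = (deriv gpQ ((‖x‖ ^ 2 - S ^ 2) / (3 * S ^ 2)) * (2 / (3 * S ^ 2))) • x := by
  have h1 : DifferentiableAt ℝ (fun y : Space => ‖y‖ ^ 2) x := (ob_normsq_hasFDerivAt x).differentiableAt
  have h2 : gradient (fun y : Space => (‖y‖ ^ 2 - S ^ 2) / (3 * S ^ 2)) x = (2 / (3 * S ^ 2)) • x := by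
    have e : (fun y : Space => (‖y‖ ^ 2 - S ^ 2) / (3 * S ^ 2))
        = fun y : Space => (3 * S ^ 2)⁻¹ * (‖y‖ ^ 2 - S ^ 2) := by
      funext y; rw [div_eq_inv_mul]
    rw [e, ob_gradient_const_mul _ (h1.sub_const _), ob_gradient_sub h1 (differentiableAt_const _),
      ob_normsq_gradient, ob_gradient_const, sub_zero, smul_smul]
    congr 1
    ring
  have h3 : DifferentiableAt ℝ (fun y : Space => (‖y‖ ^ 2 - S ^ 2) / (3 * S ^ 2)) x := by
    have := (h1.sub_const (S ^ 2)).mul_const (3 * S ^ 2)⁻¹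
    simpa only [div_eq_mul_inv] using this
  unfold gpqR
  rw [ob_gradient_comp (gpQ_hasDerivAt _).differentiableAt h3, h2, smul_smul]

theorem gpqR_gradient_norm_le (hS : 0 < S) (x : Space) : ‖gradient (gpqR S) x‖ ≤ 2 / S := by
  rw [gpqR_gradient, norm_smul]
  set a := (‖x‖ ^ 2 - S ^ 2) / (3 * S ^ 2) with ha
  rw [Real.norm_of_nonneg (mul_nonneg (gpQ_deriv_nonneg a) (by positivity))]
  rcases le_total 1 a with h | h
  · rw [gpQ_deriv_eq_zero (Or.inr h)]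
    simp only [zero_mul]
    positivity
  · have h1 : ‖x‖ ^ 2 ≤ (2 * S) ^ 2 := by
      rw [ha, div_le_iff₀ (by positivity)] at h
      nlinarith
    have h2 : ‖x‖ ≤ 2 * S := abs_le_of_sq_le_sq' h1 (by positivity) |>.2
    calc deriv gpQ a * (2 / (3 * S ^ 2)) * ‖x‖ ≤ 3 / 2 * (2 / (3 * S ^ 2)) * (2 * S) := by
          have := gpQ_deriv_le a
          have := gpQ_deriv_nonneg a
          gcongr
      _ = 2 / S := by field_simp

theorem gpChi_eq (S : ℝ) : gpChi S = fun x => Real.cos (Real.pi / 2 * gpqR S x) := rfl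

theorem gpRho_eq (S : ℝ) : gpRho S = fun x => Real.sin (Real.pi / 2 * gpqR S x) := rfl

theorem gpChi_contDiff (S : ℝ) : ContDiff ℝ 1 (gpChi S) := by
  rw [gpChi_eq]
  exact Real.contDiff_cos.comp (contDiff_const.mul (gpqR_contDiff S))

theorem gpRho_contDiff (S : ℝ) : ContDiff ℝ 1 (gpRho S) := by
  rw [gpRho_eq]
  exact Real.contDiff_sin.comp (contDiff_const.mul (gpqR_contDiff S))

theorem gpChi_sq_add_gpRho_sq (S : ℝ) (x : Space) : gpChi S x ^ 2 + gpRho S x ^ 2 = 1 := by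
  simp only [gpChi, gpRho]
  exact Real.cos_sq_add_sin_sq _

theorem gpq_arg_mem (S : ℝ) (x : Space) :
    0 ≤ Real.pi / 2 * gpqR S x ∧ Real.pi / 2 * gpqR S x ≤ Real.pi / 2 := by
  have h0 := gpqR_nonneg S x
  have h1 := gpqR_le_one S x
  have hπ := Real.pi_pos
  constructor
  · positivity
  · nlinarith

theorem gpChi_nonneg (S : ℝ) (x : Space) : 0 ≤ gpChi S x := by
  obtain ⟨h0, h1⟩ := gpq_arg_mem S x
  rw [gpChi_eq]
  exact Real.cos_nonneg_of_neg_pi_div_two_le_of_le (by linarith [Real.pi_pos]) h1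

theorem gpChi_le_one (S : ℝ) (x : Space) : gpChi S x ≤ 1 := Real.cos_le_one _

theorem gpRho_nonneg (S : ℝ) (x : Space) : 0 ≤ gpRho S x := by
  obtain ⟨h0, h1⟩ := gpq_arg_mem S x
  rw [gpRho_eq]
  exact Real.sin_nonneg_of_nonneg_of_le_pi h0 (by linarith [Real.pi_pos])

theorem gpRho_le_one (S : ℝ) (x : Space) : gpRho S x ≤ 1 := Real.sin_le_one _

theorem gpqR_eq_zero (hS : 0 < S) {x : Space} (hx : ‖x‖ ≤ S) : gpqR S x = 0 := by
  apply gpQ_of_nonpos
  have : ‖x‖ ^ 2 ≤ S ^ 2 := pow_le_pow_left₀ (norm_nonneg _) hx 2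
  exact div_nonpos_of_nonpos_of_nonneg (by linarith) (by positivity)

theorem gpqR_eq_one (hS : 0 < S) {x : Space} (hx : 2 * S ≤ ‖x‖) : gpqR S x = 1 := by
  apply gpQ_of_one_le
  have : (2 * S) ^ 2 ≤ ‖x‖ ^ 2 := pow_le_pow_left₀ (by positivity) hx 2
  rw [le_div_iff₀ (by positivity)]
  nlinarith

theorem gpChi_eq_one (hS : 0 < S) {x : Space} (hx : ‖x‖ ≤ S) : gpChi S x = 1 := by
  rw [gpChi_eq]; simp [gpqR_eq_zero hS hx]

theorem gpRho_eq_zero (hS : 0 < S) {x : Space} (hx : ‖x‖ ≤ S) : gpRho S x = 0 := by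
  rw [gpRho_eq]; simp [gpqR_eq_zero hS hx]

theorem gpChi_eq_zero (hS : 0 < S) {x : Space} (hx : 2 * S ≤ ‖x‖) : gpChi S x = 0 := by
  rw [gpChi_eq]; simp [gpqR_eq_one hS hx]

theorem gpChi_hasCompactSupport (hS : 0 < S) : HasCompactSupport (gpChi S) := by
  refine HasCompactSupport.intro (isCompact_closedBall (0 : Space) (2 * S)) fun x hx => ?_
  apply gpChi_eq_zero hS
  rw [Metric.mem_closedBall, dist_zero_right, not_le] at hx
  exact hx.le

theorem gpChi_reflZ (S : ℝ) (x : Space) : gpChi S (reflZ x) = gpChi S x := by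
  simp only [gpChi, norm_reflZ]

theorem gpRho_reflZ (S : ℝ) (x : Space) : gpRho S (reflZ x) = gpRho S x := by
  simp only [gpRho, norm_reflZ]

theorem gpChi_gradient (S : ℝ) (x : Space) :
    gradient (gpChi S) x = (-(gpRho S x) * (Real.pi / 2)) • gradient (gpqR S) x := by
  have h1 : DifferentiableAt ℝ (fun y => Real.pi / 2 * gpqR S y) x := (gpqR_differentiableAt S x).const_mul _
  rw [gpChi_eq, ob_gradient_comp Real.differentiableAt_cos h1,
    ob_gradient_const_mul _ (gpqR_differentiableAt S x), smul_smul, Real.deriv_cos]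
  rfl

theorem gpRho_gradient (S : ℝ) (x : Space) :
    gradient (gpRho S) x = (gpChi S x * (Real.pi / 2)) • gradient (gpqR S) x := by
  have h1 : DifferentiableAt ℝ (fun y => Real.pi / 2 * gpqR S y) x := (gpqR_differentiableAt S x).const_mul _
  rw [gpRho_eq, ob_gradient_comp Real.differentiableAt_sin h1,
    ob_gradient_const_mul _ (gpqR_differentiableAt S x), smul_smul, Real.deriv_sin]
  rfl

theorem gp_ims_grad_bound (hS : 0 < S) (x : Space) :
    ‖gradient (gpChi S) x‖ ^ 2 + ‖gradient (gpRho S) x‖ ^ 2 ≤ 10 / S ^ 2 := by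
  rw [gpChi_gradient, gpRho_gradient, norm_smul, norm_smul, mul_pow, mul_pow, Real.norm_eq_abs,
    Real.norm_eq_abs, sq_abs, sq_abs]
  have h1 := gpChi_sq_add_gpRho_sq S x
  have h2 := gpqR_gradient_norm_le hS x
  have h3 : ‖gradient (gpqR S) x‖ ^ 2 ≤ (2 / S) ^ 2 := pow_le_pow_left₀ (norm_nonneg _) h2 2
  have e : (-gpRho S x * (Real.pi / 2)) ^ 2 * ‖gradient (gpqR S) x‖ ^ 2
      + (gpChi S x * (Real.pi / 2)) ^ 2 * ‖gradient (gpqR S) x‖ ^ 2
      = (gpChi S x ^ 2 + gpRho S x ^ 2) * ((Real.pi / 2) ^ 2 * ‖gradient (gpqR S) x‖ ^ 2) := by ring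
  rw [e, h1, one_mul]
  have hπ : Real.pi ^ 2 ≤ 10 := by
    have := Real.pi_lt_d2
    have := Real.pi_pos
    nlinarith
  calc (Real.pi / 2) ^ 2 * ‖gradient (gpqR S) x‖ ^ 2 ≤ (Real.pi / 2) ^ 2 * (2 / S) ^ 2 := by gcongr
    _ = Real.pi ^ 2 / S ^ 2 := by field_simp
    _ ≤ 10 / S ^ 2 := by gcongr

/-- pointwise IMS localisation formula. -/
theorem gp_ims (S : ℝ) {f : Space → ℝ} {x : Space} (hf : DifferentiableAt ℝ f x) :
    ‖gradient (fun y => gpChi S y * f y) x‖ ^ 2 + ‖gradient (fun y => gpRho S y * f y) x‖ ^ 2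
      = ‖gradient f x‖ ^ 2 + (‖gradient (gpChi S) x‖ ^ 2 + ‖gradient (gpRho S) x‖ ^ 2) * f x ^ 2 := by
  have hχ : DifferentiableAt ℝ (gpChi S) x := (gpChi_contDiff S).differentiable (by simp) x
  have hρ : DifferentiableAt ℝ (gpRho S) x := (gpRho_contDiff S).differentiable (by simp) x
  rw [ob_gradient_mul hχ hf, ob_gradient_mul hρ hf, gpChi_gradient, gpRho_gradient]
  set G := gradient (gpqR S) x
  set F := gradient f x
  have h1 := gpChi_sq_add_gpRho_sq S x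
  simp only [← real_inner_self_eq_norm_sq, inner_add_left, inner_add_right, inner_smul_left, inner_smul_right,
    RCLike.conj_to_real]
  rw [real_inner_comm F G]
  have e : gpChi S x ^ 2 = 1 - gpRho S x ^ 2 := by linarith
  ring_nf
  rw [e]
  ring

end Claimed.Open.R278
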