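import Claimed.Open.R278.GPCmp
import Claimed.Open.R278.GPStep

/-!
# Package GP, leaves GP-F1, GP-F2, GP-F3: the boundary term (4.21), (4.22)

GP-F1 (`gp_flux_identity`; weak normal derivative of a `C¹` solution).  `H_j(z) = Real.smoothTransition ((j+1) z)`: smooth, monotone, `0` for `z ≤ 0`, `1` for `z ≥ 1/(j+1)`.
Test the Euler-Lagrange equation (`DriftEq.test`, or `IsMultiplier` extended to `C¹_c`) with `H_j(x 2) ψ`:
   `∫ n H_j ⟪∇θ,∇ψ⟫ + ∫ n H_j'(x 2) θ_z ψ = d ∫ n sin 2θ H_j ψ`.
First and last term: dominated convergence (`H_j → 1_{z>0}`).  Middle term: by Fubini (`integral_space_eq_plane`, `integral_prod`) it is `∫ H_j'(z) B(z) dz`, `B(z) = ∫_{ℝ²} (n θ_z ψ)(planePt q z) dq` continuous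
(continuous compactly supported integrand), `H_j' ≥ 0`, `∫ H_j' = 1`, `supp H_j' ⊆ [0, 1/(j+1)]`: it tends to `B(0)`.

GP-F2 (`gp_boundary_cost`).  Fix `q`, `p = hrad (planePt q 0)`.  If `p < M` then `F (planePt q z) = 0` for `z ∈ [0,L]` (`‖·‖ ≤ p + L < 100 M`).  If `p ≥ M`: `st_cost_cos` at `z₀ = 0` with `ν z = n (planePt q z) = n (cyl p z) = e^{-2kp} m̃ p z`
(`gp_axi`, `gpM_eq`), `W = stW m̃ p`, `W' = deriv W`, `w` from `stW_flux` times `e^{-2kp}`, `κ = stKap`, `F z = F (planePt q z)`; `W 0 = 1`, `cos 0 = 1`.  Integrate over `q`; Fubini for the slab.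

GP-F3 (`gp_T_bound`).  `ψ = δ ξ²`, `∇δ = -∇θ`:  `T = -∫_{Ω₊} n ⟪∇θ,∇ψ⟫ = -d ∫_{Ω₊} n sin 2θ ψ + ∫ n θ_z ψ (q,0) dq`; the first term is `≤ 0` (`d > 0`, `0 ≤ θ ≤ π/2`, `δ ≥ 0` on `Ω₊`);
on the plane `δ = π/2`, `ψ = (π/2) ξ²`, `F² = (π/2)² ξ²`, `θ_z ≤ -(π/2) W_z` where `p ≥ M` (`gp_flux_bound`), and `ξ = 0` where `p < M`.
-/

open MeasureTheory
open scoped ContDiff InnerProductSpace ENNReal Topology

noncomputable section

namespace Claimed.Open.R278

/-! ### tools: the smoothstep as an approximation of the Heaviside function -/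

theorem gpf_g0_continuous : Continuous (deriv gpQ) := by rw [gpQ_deriv]; exact gpq_cont

theorem gpf_g0_hasCompactSupport : HasCompactSupport (deriv gpQ) := by
  refine HasCompactSupport.intro (isCompact_Icc (a := (0:ℝ)) (b := 1)) fun t ht => ?_
  apply gpQ_deriv_eq_zero
  by_contra hno
  push Not at hno
  exact ht ⟨hno.1.le, hno.2.le⟩

theorem gpf_g0_integrable : Integrable (deriv gpQ) :=
  gpf_g0_continuous.integrable_of_hasCompactSupport gpf_g0_hasCompactSupport

theorem gpf_g0_integral : (∫ t, deriv gpQ t) = 1 := by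
  have h1 : (∫ t in Set.Ioc (0:ℝ) 1, deriv gpQ t) = ∫ t, deriv gpQ t :=
    setIntegral_eq_integral_of_forall_compl_eq_zero fun t ht => by
      apply gpQ_deriv_eq_zero
      by_contra hno
      push Not at hno
      exact ht ⟨hno.1, hno.2.le⟩
  rw [← h1, ← intervalIntegral.integral_of_le zero_le_one, gpQ_deriv]
  exact gpQ_one

/-- substitution `s = a z`. -/
theorem gpf_subst {a : ℝ} (ha : 0 < a) (g : ℝ → ℝ) :
    (∫ z, (a * deriv gpQ (a * z)) * g z) = ∫ s, deriv gpQ s * g (s / a) := by
  have h := Measure.integral_comp_mul_left (fun s => deriv gpQ s * g (s / a)) a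
  have e : (fun z => (a * deriv gpQ (a * z)) * g z) = fun z => a * (deriv gpQ (a * z) * g (a * z / a)) := by
    funext z
    rw [mul_div_cancel_left₀ _ ha.ne']
    ring
  rw [e, integral_const_mul, h, abs_of_pos (inv_pos.2 ha), smul_eq_mul, ← mul_assoc, mul_inv_cancel₀ ha.ne',
    one_mul]

/-- one-dimensional approximate identity. -/
theorem gpf_approx_one {g : ℝ → ℝ} (hg : Continuous g) :
    Filter.Tendsto (fun j : ℕ => ∫ z, (((j:ℝ) + 1) * deriv gpQ (((j:ℝ) + 1) * z)) * g z) Filter.atTop
      (𝓝 (g 0)) := by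
  obtain ⟨C, hC⟩ := (isCompact_Icc (a := (0:ℝ)) (b := 1)).exists_bound_of_continuousOn hg.continuousOn
  have e : ∀ j : ℕ, (∫ z, (((j:ℝ) + 1) * deriv gpQ (((j:ℝ) + 1) * z)) * g z)
      = ∫ s, deriv gpQ s * g (s / ((j:ℝ) + 1)) := fun j => gpf_subst (by positivity) g
  simp only [e]
  have hlim : (∫ s, deriv gpQ s * g 0) = g 0 := by
    rw [integral_mul_const, gpf_g0_integral, one_mul]
  rw [← hlim]
  refine tendsto_integral_of_dominated_convergence (fun s => deriv gpQ s * C) (fun j => ?_)
    (gpf_g0_integrable.mul_const C) (fun j => Filter.Eventually.of_forall fun s => ?_)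
    (Filter.Eventually.of_forall fun s => ?_)
  · exact (gpf_g0_continuous.mul (hg.comp (continuous_id.div_const _))).aestronglyMeasurable
  · rw [norm_mul, Real.norm_of_nonneg (gpQ_deriv_nonneg s)]
    by_cases hs : s ∈ Set.Icc (0:ℝ) 1
    · have hj : (1:ℝ) ≤ (j:ℝ) + 1 := by
        have : (0:ℝ) ≤ (j:ℝ) := Nat.cast_nonneg j
        linarith
      have : s / ((j:ℝ) + 1) ∈ Set.Icc (0:ℝ) 1 :=
        ⟨div_nonneg hs.1 (by positivity), (div_le_self hs.1 hj).trans hs.2⟩
      exact mul_le_mul_of_nonneg_left (hC _ this) (gpQ_deriv_nonneg s)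
    · have : deriv gpQ s = 0 := by
        apply gpQ_deriv_eq_zero
        by_contra hno
        push Not at hno
        exact hs ⟨hno.1.le, hno.2.le⟩
      simp [this]
  · refine Filter.Tendsto.const_mul _ ?_
    have h1 : Filter.Tendsto (fun j : ℕ => s / ((j:ℝ) + 1)) Filter.atTop (𝓝 0) :=
      tendsto_const_div_atTop_nhds_zero_nat s |>.comp (Filter.tendsto_add_atTop_nat 1) |>.congr fun j => by
        simp
    exact (hg.tendsto 0).comp h1

/-- uniform bound for the approximate identity. -/
theorem gpf_approx_bound {g : ℝ → ℝ} {C : ℝ} (hC : ∀ z, |g z| ≤ C) (j : ℕ) :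
    |∫ z, (((j:ℝ) + 1) * deriv gpQ (((j:ℝ) + 1) * z)) * g z| ≤ C := by
  rw [gpf_subst (by positivity) g]
  calc |∫ s, deriv gpQ s * g (s / ((j:ℝ) + 1))| ≤ ∫ s, ‖deriv gpQ s * g (s / ((j:ℝ) + 1))‖ := by
        rw [← Real.norm_eq_abs]
        exact norm_integral_le_integral_norm _
    _ ≤ ∫ s, deriv gpQ s * C := by
        refine integral_mono_of_nonneg (Filter.Eventually.of_forall fun s => norm_nonneg _)
          (gpf_g0_integrable.mul_const C) (Filter.Eventually.of_forall fun s => ?_)
        show ‖deriv gpQ s * g (s / ((j:ℝ) + 1))‖ ≤ deriv gpQ s * C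
        rw [norm_mul, Real.norm_of_nonneg (gpQ_deriv_nonneg s)]
        exact mul_le_mul_of_nonneg_left (hC _) (gpQ_deriv_nonneg s)
    _ = C := by rw [integral_mul_const, gpf_g0_integral, one_mul]

/-- `gpQ ((j+1) z) → 1_{z>0}`. -/
theorem gpf_tendsto_half {f : Space → ℝ} (hf : Integrable f) :
    Filter.Tendsto (fun j : ℕ => ∫ x, gpQ (((j:ℝ) + 1) * x 2) * f x) Filter.atTop
      (𝓝 (∫ x in upperHalf, f x)) := by
  rw [← integral_indicator gp_upperHalf_isOpen.measurableSet]
  have hHc : ∀ j : ℕ, Continuous fun x : Space => gpQ (((j:ℝ) + 1) * x 2) := fun j =>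
    gpQ_contDiff.continuous.comp (continuous_const.mul (gp_coord_contDiff 2).continuous)
  refine tendsto_integral_of_dominated_convergence (fun x => ‖f x‖) (fun j => ?_) hf.norm
    (fun j => Filter.Eventually.of_forall fun x => ?_) (Filter.Eventually.of_forall fun x => ?_)
  · exact (hHc j).aestronglyMeasurable.mul hf.aestronglyMeasurable
  · rw [norm_mul]
    have h1 : ‖gpQ (((j:ℝ) + 1) * x 2)‖ ≤ 1 := by
      rw [Real.norm_of_nonneg (gpQ_nonneg _)]
      exact gpQ_le_one _
    calc _ ≤ 1 * ‖f x‖ := by gcongr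
      _ = _ := one_mul _
  · by_cases hx : x ∈ upperHalf
    · rw [Set.indicator_of_mem hx]
      have hx' : 0 < x 2 := hx
      obtain ⟨N, hN⟩ := exists_nat_gt (1 / x 2)
      refine tendsto_const_nhds.congr' ?_
      filter_upwards [Filter.eventually_ge_atTop N] with j hj
      have hjN : (N:ℝ) ≤ j := by exact_mod_cast hj
      have : 1 ≤ ((j:ℝ) + 1) * x 2 := by
        rw [div_lt_iff₀ hx'] at hN
        nlinarith
      simp only [gpQ_of_one_le this, one_mul]
    · rw [Set.indicator_of_notMem hx]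
      have hx' : x 2 ≤ 0 := not_lt.1 hx
      refine tendsto_const_nhds.congr fun j => ?_
      have : ((j:ℝ) + 1) * x 2 ≤ 0 := mul_nonpos_of_nonneg_of_nonpos (by positivity) hx'
      simp only [gpQ_of_nonpos this, zero_mul]

theorem gpf_planePt_two (q : ℝ × ℝ) (z : ℝ) : planePt q z 2 = z := rfl

/-- Fubini `ℝ³ = ℝ² × ℝ` as an iterated integral. -/
theorem gpf_fubini {f : Space → ℝ} (hf : Integrable f) :
    (∫ x, f x) = ∫ q : ℝ × ℝ, ∫ z : ℝ, f (planePt q z) := by
  rw [integral_space_eq_plane]
  have hint : Integrable (fun p : (ℝ × ℝ) × ℝ => f (planePt p.1 p.2)) (volume : Measure ((ℝ × ℝ) × ℝ)) :=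
    measurePreserving_planePt.integrable_comp_of_integrable hf
  exact integral_prod _ hint

theorem gpf_fubini_integrable {f : Space → ℝ} (hf : Integrable f) :
    Integrable (fun q : ℝ × ℝ => ∫ z : ℝ, f (planePt q z)) := by
  have hint : Integrable (fun p : (ℝ × ℝ) × ℝ => f (planePt p.1 p.2)) (volume : Measure ((ℝ × ℝ) × ℝ)) :=
    measurePreserving_planePt.integrable_comp_of_integrable hf
  exact hint.integral_prod_left

theorem gpf_line_continuous (q : ℝ × ℝ) : Continuous fun z : ℝ => planePt q z :=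
  fst_continuous_planePt.comp (continuous_const.prodMk continuous_id)

theorem gpf_plane_continuous (z : ℝ) : Continuous fun q : ℝ × ℝ => planePt q z :=
  fst_continuous_planePt.comp (continuous_id.prodMk continuous_const)

/-- the trace on the plane as a limit of concentrating layers. -/
theorem gpf_tendsto_plane {B : Space → ℝ} (hB : Continuous B) (hc : HasCompactSupport B) :
    Filter.Tendsto (fun j : ℕ => ∫ x : Space, (((j:ℝ) + 1) * deriv gpQ (((j:ℝ) + 1) * x 2)) * B x) Filter.atTop
      (𝓝 (∫ q : ℝ × ℝ, B (planePt q 0))) := by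
  obtain ⟨C, hC⟩ := hB.bounded_above_of_compact_support hc
  obtain ⟨R, hR⟩ := hc.isCompact.isBounded.subset_closedBall (0 : Space)
  have hzero : ∀ q : ℝ × ℝ, R < ‖q‖ → ∀ z, B (planePt q z) = 0 := by
    intro q hq z
    apply image_eq_zero_of_notMem_tsupport
    intro hmem
    have := hR hmem
    rw [Metric.mem_closedBall, dist_zero_right] at this
    linarith [fst_norm_le_norm q z]
  have hhc : ∀ j : ℕ, Continuous fun x : Space => ((j:ℝ) + 1) * deriv gpQ (((j:ℝ) + 1) * x 2) := fun j =>
    continuous_const.mul (gpf_g0_continuous.comp (continuous_const.mul (gp_coord_contDiff 2).continuous))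
  have hint : ∀ j : ℕ, Integrable fun x : Space => (((j:ℝ) + 1) * deriv gpQ (((j:ℝ) + 1) * x 2)) * B x :=
    fun j => ((hhc j).mul hB).integrable_of_hasCompactSupport hc.mul_left
  have e : ∀ j : ℕ, (∫ x : Space, (((j:ℝ) + 1) * deriv gpQ (((j:ℝ) + 1) * x 2)) * B x)
      = ∫ q : ℝ × ℝ, ∫ z : ℝ, (((j:ℝ) + 1) * deriv gpQ (((j:ℝ) + 1) * z)) * B (planePt q z) := fun j => by
    rw [gpf_fubini (hint j)]
    rfl
  simp only [e]
  have hC0 : 0 ≤ C := (norm_nonneg _).trans (hC 0)
  refine tendsto_integral_of_dominated_convergence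
    (fun q => (Metric.closedBall (0 : ℝ × ℝ) R).indicator (fun _ => C) q) (fun j => ?_) ?_
    (fun j => Filter.Eventually.of_forall fun q => ?_) (Filter.Eventually.of_forall fun q => ?_)
  · exact (gpf_fubini_integrable (hint j)).aestronglyMeasurable
  · exact (integrable_indicator_iff Metric.isClosed_closedBall.measurableSet).2
      (integrableOn_const (isCompact_closedBall (0 : ℝ × ℝ) R).measure_lt_top.ne)
  · by_cases hq : q ∈ Metric.closedBall (0 : ℝ × ℝ) R
    · rw [Set.indicator_of_mem hq, Real.norm_eq_abs]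
      exact gpf_approx_bound (g := fun z => B (planePt q z)) (fun z => hC _) j
    · rw [Set.indicator_of_notMem hq]
      rw [Metric.mem_closedBall, dist_zero_right, not_le] at hq
      simp [hzero q hq]
  · exact gpf_approx_one (g := fun z => B (planePt q z)) (hB.comp (gpf_line_continuous q))

variable {b e : Space → ℝ} {εb εe : ℝ} {M : ℕ} {n θ : Space → ℝ} {k d : ℝ}

theorem gpf_gradient_continuous {f : Space → ℝ} (hf : ContDiff ℝ 1 f) : Continuous (gradient f) := by
  have h1 : Continuous (fderiv ℝ f) := hf.continuous_fderiv (by simp)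
  exact (InnerProductSpace.toDual ℝ Space).symm.continuous.comp h1

theorem gpf_gradient_hasCompactSupport {f : Space → ℝ} (hc : HasCompactSupport f) :
    HasCompactSupport (gradient f) := by
  refine HasCompactSupport.intro hc fun x hx => ?_
  have h0 : f =ᶠ[𝓝 x] fun _ => (0:ℝ) := notMem_tsupport_iff_eventuallyEq.1 hx
  have : gradient f x = gradient (fun _ : Space => (0:ℝ)) x := by
    unfold gradient
    rw [h0.fderiv_eq]
  rw [this, ob_gradient_const]

/-! ### GP-F1 -/

theorem gp_flux_identity (hn : DensityBasic n) (hθ : IsFoldedMinimizer n θ) (hd : IsMultiplier n θ d)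
    {ψ : Space → ℝ} (hψ : ContDiff ℝ 1 ψ) (hc : HasCompactSupport ψ) :
    (∫ x in upperHalf, n x * ⟪gradient θ x, gradient ψ x⟫_ℝ)
      = d * (∫ x in upperHalf, n x * Real.sin (2 * θ x) * ψ x)
        - ∫ q : ℝ × ℝ, n (planePt q 0) * fderiv ℝ θ (planePt q 0) ez * ψ (planePt q 0) := by
  have hθc : Continuous θ := hθ.1.continuous
  have hgθ : Continuous (gradient θ) := gpf_gradient_continuous hθ.1
  have hgψ : Continuous (gradient ψ) := gpf_gradient_continuous hψ
  have hgψc : HasCompactSupport (gradient ψ) := gpf_gradient_hasCompactSupport hc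
  set A : Space → ℝ := fun x => n x * ⟪gradient θ x, gradient ψ x⟫_ℝ with hA
  set B : Space → ℝ := fun x => n x * fderiv ℝ θ x ez * ψ x with hB
  set Cf : Space → ℝ := fun x => n x * Real.sin (2 * θ x) * ψ x with hCf
  have hAc : Continuous A := hn.continuous.mul (hgθ.inner hgψ)
  have hAs : HasCompactSupport A := HasCompactSupport.intro hgψc fun x hx => by
    simp only [hA, image_eq_zero_of_notMem_tsupport hx, inner_zero_right, mul_zero]
  have hθz : Continuous fun x => fderiv ℝ θ x ez := (hθ.1.continuous_fderiv (by simp)).clm_apply continuous_const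
  have hBc : Continuous B := (hn.continuous.mul hθz).mul hψ.continuous
  have hBs : HasCompactSupport B := hc.mul_left
  have hCc : Continuous Cf :=
    (hn.continuous.mul (Real.continuous_sin.comp (continuous_const.mul hθc))).mul hψ.continuous
  have hCs : HasCompactSupport Cf := hc.mul_left
  have hAi : Integrable A := hAc.integrable_of_hasCompactSupport hAs
  have hCi : Integrable Cf := hCc.integrable_of_hasCompactSupport hCs
  -- the tested equation
  have hHd : ∀ j : ℕ, ContDiff ℝ 1 fun x : Space => gpQ (((j:ℝ) + 1) * x 2) := fun j =>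
    gpQ_contDiff.comp (contDiff_const.mul ((gp_coord_contDiff 2).of_le (by simp)))
  have hkey : ∀ j : ℕ, (∫ x, gpQ (((j:ℝ) + 1) * x 2) * A x)
      + (∫ x : Space, (((j:ℝ) + 1) * deriv gpQ (((j:ℝ) + 1) * x 2)) * B x)
      = d * ∫ x, gpQ (((j:ℝ) + 1) * x 2) * Cf x := by
    intro j
    set φ : Space → ℝ := fun x => gpQ (((j:ℝ) + 1) * x 2) * ψ x with hφ
    have hφd : ContDiff ℝ 1 φ := (hHd j).mul hψ
    have hφc : HasCompactSupport φ := hc.mul_left
    have htest := DriftEq.test hn.continuous (hθ.driftEq hn hd) (F := |d|)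
      (Filter.Eventually.of_forall fun x => by
        rw [abs_mul]
        exact mul_le_of_le_one_right (abs_nonneg _) (Real.abs_sin_le_one _))
      (Claimed.Agent.R259.ws_weakGrad_of_contDiff hφd) (anL2loc_of_continuous hφd.continuous)
      (anL2loc_of_continuous (gpf_gradient_continuous hφd)) hφc
    have hgrad : ∀ x, gradient φ x = gpQ (((j:ℝ) + 1) * x 2) • gradient ψ x
        + ψ x • ((deriv gpQ (((j:ℝ) + 1) * x 2) * ((j:ℝ) + 1)) • ez) := by
      intro x
      have h1 : DifferentiableAt ℝ (fun y : Space => y 2) x := (ob_coord_hasFDerivAt x).differentiableAt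
      have h2 : DifferentiableAt ℝ (fun y : Space => ((j:ℝ) + 1) * y 2) x := h1.const_mul _
      have h3 : DifferentiableAt ℝ gpQ (((j:ℝ) + 1) * x 2) := (gpQ_hasDerivAt _).differentiableAt
      rw [hφ, ob_gradient_mul ((hHd j).differentiable (by simp) x) (hψ.differentiable (by simp) x),
        ob_gradient_comp h3 h2, ob_gradient_const_mul _ h1, ob_coord_gradient]
      simp only [smul_smul]
    have e1 : (fun x => n x * ⟪gradient θ x, gradient φ x⟫_ℝ)
        = fun x => gpQ (((j:ℝ) + 1) * x 2) * A x + (((j:ℝ) + 1) * deriv gpQ (((j:ℝ) + 1) * x 2)) * B x := by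
      funext x
      have hz : ⟪gradient θ x, ez⟫_ℝ = fderiv ℝ θ x ez := inner_gradient_left
      rw [hgrad, inner_add_right, inner_smul_right, inner_smul_right, inner_smul_right, hz]
      simp only [hA, hB]
      ring
    have e2 : (fun x => n x * (d * Real.sin (2 * θ x)) * φ x)
        = fun x => d * (gpQ (((j:ℝ) + 1) * x 2) * Cf x) := by
      funext x
      simp only [hφ, hCf]
      ring
    rw [e1, e2, integral_const_mul] at htest
    rw [← htest, integral_add]
    · exact ((hHd j).continuous.mul hAc).integrable_of_hasCompactSupport hAs.mul_left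
    · have hhc : Continuous fun x : Space => ((j:ℝ) + 1) * deriv gpQ (((j:ℝ) + 1) * x 2) :=
        continuous_const.mul (gpf_g0_continuous.comp (continuous_const.mul (gp_coord_contDiff 2).continuous))
      exact (hhc.mul hBc).integrable_of_hasCompactSupport hBs.mul_left
  have l1 := gpf_tendsto_half hAi
  have l2 := gpf_tendsto_plane hBc hBs
  have l3 := (gpf_tendsto_half hCi).const_mul d
  have := tendsto_nhds_unique (l1.add l2) (l3.congr fun j => (hkey j).symm)
  linarith

/-! ### GP-F2 -/

theorem gpf_hrad_planePt (q : ℝ × ℝ) (z : ℝ) : hrad (planePt q z) = hrad (planePt q 0) := rfl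

theorem gpf_norm_planePt_zero (q : ℝ × ℝ) : ‖planePt q 0‖ = hrad (planePt q 0) := by
  have h := norm_sq_eq_hrad (planePt q 0)
  rw [gpf_planePt_two] at h
  have : ‖planePt q 0‖ ^ 2 = hrad (planePt q 0) ^ 2 := by rw [h]; ring
  exact (sq_eq_sq₀ (norm_nonneg _) (hrad_nonneg _)).mp this

theorem gpf_plane_hasCompactSupport {f : Space → ℝ} (hc : HasCompactSupport f) (z : ℝ) :
    HasCompactSupport fun q : ℝ × ℝ => f (planePt q z) := by
  obtain ⟨R, hR⟩ := hc.isCompact.isBounded.subset_closedBall (0 : Space)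
  refine HasCompactSupport.intro (isCompact_closedBall (0 : ℝ × ℝ) R) fun q hq => ?_
  rw [Metric.mem_closedBall, dist_zero_right, not_le] at hq
  apply image_eq_zero_of_notMem_tsupport
  intro hmem
  have := hR hmem
  rw [Metric.mem_closedBall, dist_zero_right] at this
  linarith [fst_norm_le_norm q z]

theorem gpf_slab_measurable : MeasurableSet gpSlab := by
  have h2 : Continuous fun x : Space => x 2 := (gp_coord_contDiff 2).continuous
  exact ((isOpen_lt continuous_const h2).inter (isOpen_lt h2 continuous_const)).measurableSet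

/-- Fubini for the slab. -/
theorem gpf_slab_fubini {G : Space → ℝ} (hG : Integrable G) :
    (∫ x in gpSlab, G x) = ∫ q : ℝ × ℝ, ∫ z in (0:ℝ)..stripL, G (planePt q z) := by
  rw [← integral_indicator gpf_slab_measurable, gpf_fubini (hG.indicator gpf_slab_measurable)]
  refine integral_congr_ae (Filter.Eventually.of_forall fun q => ?_)
  show (∫ z : ℝ, gpSlab.indicator G (planePt q z)) = ∫ z in (0:ℝ)..stripL, G (planePt q z)
  have e : (fun z : ℝ => gpSlab.indicator G (planePt q z))
      = (Set.Ioo 0 stripL).indicator fun z => G (planePt q z) := by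
    funext z
    by_cases hz : z ∈ Set.Ioo 0 stripL
    · rw [Set.indicator_of_mem hz, Set.indicator_of_mem (show planePt q z ∈ gpSlab from hz)]
    · rw [Set.indicator_of_notMem hz, Set.indicator_of_notMem (show planePt q z ∉ gpSlab from hz)]
  rw [e, integral_indicator measurableSet_Ioo, intervalIntegral.integral_of_le stripL_pos.le,
    integral_Ioc_eq_integral_Ioo]

theorem gpf_slab_fubini_integrable {G : Space → ℝ} (hG : Integrable G) :
    Integrable fun q : ℝ × ℝ => ∫ z in (0:ℝ)..stripL, G (planePt q z) := by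
  have h := gpf_fubini_integrable (hG.indicator gpf_slab_measurable)
  refine h.congr (Filter.Eventually.of_forall fun q => ?_)
  show (∫ z : ℝ, gpSlab.indicator G (planePt q z)) = ∫ z in (0:ℝ)..stripL, G (planePt q z)
  have e : (fun z : ℝ => gpSlab.indicator G (planePt q z))
      = (Set.Ioo 0 stripL).indicator fun z => G (planePt q z) := by
    funext z
    by_cases hz : z ∈ Set.Ioo 0 stripL
    · rw [Set.indicator_of_mem hz, Set.indicator_of_mem (show planePt q z ∈ gpSlab from hz)]
    · rw [Set.indicator_of_notMem hz, Set.indicator_of_notMem (show planePt q z ∉ gpSlab from hz)]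
  rw [e, integral_indicator measurableSet_Ioo, intervalIntegral.integral_of_le stripL_pos.le,
    integral_Ioc_eq_integral_Ioo]

/-- the one-dimensional boundary cost on the vertical line through `q`. -/
theorem gpf_line_cost (D : GPData b e εb εe M n θ k d) {F : Space → ℝ} (hF : ContDiff ℝ 1 F) (q : ℝ × ℝ)
    (hp : (M : ℝ) ≤ hrad (planePt q 0)) :
    n (planePt q 0) * (-(deriv (stW (gpM n k M) (hrad (planePt q 0))) 0)) * F (planePt q 0) ^ 2
      ≤ ∫ z in (0:ℝ)..stripL, n (planePt q z) * (fderiv ℝ F (planePt q z) ez ^ 2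
          + (stKap + (Real.pi / (2 * stripL)) ^ 2) * F (planePt q z) ^ 2) := by
  have hM0 := D.M_pos
  have hS := gp_stripWeight D.hn hM0 D.hds
  set p := hrad (planePt q 0) with hpdef
  have hE := Real.exp_pos (2 * k * p)
  have hν : ∀ s, n (planePt q s) = (Real.exp (2 * k * p))⁻¹ * gpM n k M p s := by
    intro s
    rw [gpM_eq hM0 (by linarith) s, gp_axi D.hn.axisymmetric (planePt q s), gpf_hrad_planePt, gpf_planePt_two,
      ← hpdef]
    field_simp
  have hflux : ∀ z ∈ Set.Icc 0 stripL, ∃ w : ℝ,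
      HasDerivAt (fun s => n (planePt q s) * deriv (stW (gpM n k M) p) s) w z ∧
        w ≤ stKap * (n (planePt q z) * stW (gpM n k M) p z) := by
    intro z hz
    obtain ⟨w, hw, -, hle⟩ := stW_flux hS hp hz
    refine ⟨(Real.exp (2 * k * p))⁻¹ * w, ?_, ?_⟩
    · have := hw.const_mul (Real.exp (2 * k * p))⁻¹
      refine this.congr_of_eventuallyEq (Filter.Eventually.of_forall fun s => ?_)
      show n (planePt q s) * deriv (stW (gpM n k M) p) s = _
      rw [hν s]; ring
    · rw [hν z]
      have := mul_le_mul_of_nonneg_left hle (inv_pos.2 hE).le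
      calc _ ≤ _ := this
        _ = _ := by ring
  have h := st_cost_cos (ν := fun z => n (planePt q z)) (W := stW (gpM n k M) p)
    (W' := deriv (stW (gpM n k M) p))
    (w := fun z => deriv (fun s => n (planePt q s) * deriv (stW (gpM n k M) p) s) z)
    (F := fun z => F (planePt q z)) (F' := fun z => fderiv ℝ F (planePt q z) ez) (κ := stKap) stKap_nonneg
    (D.hn.continuous.comp (gpf_line_continuous q)).continuousOn (fun z _ => D.hn.pos _)
    (fun z _ => (stW_hasDerivAt hS p z).differentiableAt.hasDerivAt.hasDerivWithinAt)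
    (fun z hz => by
      obtain ⟨w, hw, -⟩ := hflux z hz
      exact hw.differentiableAt.hasDerivAt.hasDerivWithinAt)
    (fun z hz => by
      obtain ⟨w, hw, hle⟩ := hflux z hz
      rw [hw.deriv]; exact hle)
    (fun z hz => stW_pos hS p hz.2) (stW_stripL p) (fun z hz => stW_deriv_neg hS p hz.2)
    (fun z _ => ((hF.differentiable (by simp) (planePt q z)).hasFDerivAt.comp_hasDerivAt z
      (fst_hasDerivAt_planePt q z)).hasDerivWithinAt)
    (((hF.continuous_fderiv (by simp)).comp (gpf_line_continuous q)).clm_apply continuous_const).continuousOn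
    (z₀ := 0) ⟨le_rfl, stripL_pos⟩
  simp only [mul_zero, Real.cos_zero, one_mul, stW_zero hS p, div_one] at h
  exact h

theorem gp_boundary_cost (D : GPData b e εb εe M n θ k d) {F : Space → ℝ} (hF : ContDiff ℝ 1 F)
    (hc : HasCompactSupport F) (hS : ∀ x : Space, ‖x‖ < 100 * M → F x = 0) :
    (∫ q : ℝ × ℝ, n (planePt q 0) * (-(deriv (stW (gpM n k M) (hrad (planePt q 0))) 0)) * F (planePt q 0) ^ 2)
      ≤ ∫ x in gpSlab, n x * (fderiv ℝ F x ez ^ 2 + (stKap + (Real.pi / (2 * stripL)) ^ 2) * F x ^ 2) := by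
  have hM0 := D.M_pos
  set G : Space → ℝ := fun x => n x * (fderiv ℝ F x ez ^ 2 + (stKap + (Real.pi / (2 * stripL)) ^ 2) * F x ^ 2)
    with hG
  have hFz : Continuous fun x => fderiv ℝ F x ez := (hF.continuous_fderiv (by simp)).clm_apply continuous_const
  have hFzs : ∀ x, x ∉ tsupport F → fderiv ℝ F x ez = 0 := by
    intro x hx
    have h0 : F =ᶠ[𝓝 x] fun _ => (0:ℝ) := notMem_tsupport_iff_eventuallyEq.1 hx
    rw [h0.fderiv_eq]; simp
  have hGc : Continuous G := D.hn.continuous.mul ((hFz.pow 2).add (continuous_const.mul (hF.continuous.pow 2)))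
  have hGs : HasCompactSupport G := HasCompactSupport.intro hc fun x hx => by
    simp only [hG, hFzs x hx, image_eq_zero_of_notMem_tsupport hx]
    ring
  have hGi : Integrable G := hGc.integrable_of_hasCompactSupport hGs
  rw [gpf_slab_fubini hGi]
  have hWc : ContDiff ℝ 2 (gpW n k M) := gpW_contDiff D.hn hM0 D.hds
  have hWz : Continuous fun x => fderiv ℝ (gpW n k M) x ez :=
    (hWc.continuous_fderiv (by norm_num)).clm_apply continuous_const
  have eL : (fun q : ℝ × ℝ =>
      n (planePt q 0) * (-(deriv (stW (gpM n k M) (hrad (planePt q 0))) 0)) * F (planePt q 0) ^ 2)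
      = fun q : ℝ × ℝ => (fun x => n x * (-(fderiv ℝ (gpW n k M) x ez)) * F x ^ 2) (planePt q 0) := by
    funext q
    show _ = n (planePt q 0) * (-(fderiv ℝ (gpW n k M) (planePt q 0) ez)) * F (planePt q 0) ^ 2
    rw [gpW_fderiv_ez D.hn hM0 D.hds, gpf_planePt_two]
  refine integral_mono ?_ (gpf_slab_fubini_integrable hGi) fun q => ?_
  · rw [eL]
    have hcont : Continuous fun x => n x * (-(fderiv ℝ (gpW n k M) x ez)) * F x ^ 2 :=
      (D.hn.continuous.mul hWz.neg).mul (hF.continuous.pow 2)
    have hsupp : HasCompactSupport fun x => n x * (-(fderiv ℝ (gpW n k M) x ez)) * F x ^ 2 :=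
      HasCompactSupport.intro hc fun x hx => by
        simp only [image_eq_zero_of_notMem_tsupport hx]; ring
    exact (hcont.comp (gpf_plane_continuous 0)).integrable_of_hasCompactSupport
      (gpf_plane_hasCompactSupport hsupp 0)
  · by_cases hp : (M : ℝ) ≤ hrad (planePt q 0)
    · exact gpf_line_cost D hF q hp
    · have h0 : F (planePt q 0) = 0 := by
        apply hS
        rw [gpf_norm_planePt_zero]
        push Not at hp
        linarith
      show n (planePt q 0) * (-(deriv (stW (gpM n k M) (hrad (planePt q 0))) 0)) * F (planePt q 0) ^ 2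
        ≤ ∫ z in (0:ℝ)..stripL, G (planePt q z)
      rw [h0]
      simp only [ne_eq, OfNat.ofNat_ne_zero, not_false_eq_true, zero_pow, mul_zero]
      refine intervalIntegral.integral_nonneg stripL_pos.le fun z _ => ?_
      have := D.hn.pos (planePt q z)
      have := stKap_nonneg
      simp only [hG]
      positivity

/-! ### GP-F3 -/

theorem gpDel_contDiff (hθ : ContDiff ℝ 1 θ) : ContDiff ℝ 1 (gpDel θ) := contDiff_const.sub hθ

theorem gpDel_gradient (hθ : ContDiff ℝ 1 θ) (x : Space) : gradient (gpDel θ) x = -gradient θ x := by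
  have : gpDel θ = fun y => Real.pi / 2 - θ y := rfl
  rw [this, ob_gradient_sub (differentiableAt_const _) (hθ.differentiable (by simp) x), ob_gradient_const,
    zero_sub]

theorem gp_T_bound (D : GPData b e εb εe M n θ k d) {ξ : Space → ℝ} (hξ : ContDiff ℝ 1 ξ)
    (hc : HasCompactSupport ξ) (hS : ∀ x : Space, ‖x‖ < 100 * M → ξ x = 0) :
    (∫ x in upperHalf, n x * ⟪gradient (gpDel θ) x, gradient (fun y => gpDel θ y * ξ y ^ 2) x⟫_ℝ)
      ≤ ∫ x in gpSlab, n x * (fderiv ℝ (fun y => gpDel θ y * ξ y) x ez ^ 2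
          + (stKap + (Real.pi / (2 * stripL)) ^ 2) * (gpDel θ x * ξ x) ^ 2) := by
  have hM0 := D.M_pos
  have hθ1 := D.hθ.1
  have hδ := gpDel_contDiff hθ1
  set ψ : Space → ℝ := fun y => gpDel θ y * ξ y ^ 2 with hψ
  have hψd : ContDiff ℝ 1 ψ := hδ.mul (hξ.pow 2)
  have hψc : HasCompactSupport ψ := HasCompactSupport.intro hc fun x hx => by
    simp only [hψ, image_eq_zero_of_notMem_tsupport hx]; ring
  have hid := gp_flux_identity D.hn D.hθ D.hd hψd hψc
  have e1 : (fun x => n x * ⟪gradient (gpDel θ) x, gradient ψ x⟫_ℝ)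
      = fun x => -(n x * ⟪gradient θ x, gradient ψ x⟫_ℝ) := by
    funext x
    rw [gpDel_gradient hθ1, inner_neg_left]; ring
  rw [e1, integral_neg, hid]
  -- the bulk term has a sign
  have hbulk : 0 ≤ ∫ x in upperHalf, n x * Real.sin (2 * θ x) * ψ x := by
    refine setIntegral_nonneg gp_upperHalf_isOpen.measurableSet fun x hx => ?_
    obtain ⟨h0, h1⟩ := D.hθ.2.2.1 x hx
    have hs : 0 ≤ Real.sin (2 * θ x) := Real.sin_nonneg_of_nonneg_of_le_pi (by linarith) (by linarith)
    have hδ0 : 0 ≤ gpDel θ x := by unfold gpDel; linarith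
    have := (D.hn.pos x).le
    simp only [hψ]
    positivity
  -- the boundary term
  set F : Space → ℝ := fun y => gpDel θ y * ξ y with hF
  have hFd : ContDiff ℝ 1 F := hδ.mul hξ
  have hFc : HasCompactSupport F := hc.mul_left
  have hFS : ∀ x : Space, ‖x‖ < 100 * M → F x = 0 := fun x hx => by simp only [hF, hS x hx, mul_zero]
  have hcost := gp_boundary_cost D hFd hFc hFS
  have hWc : ContDiff ℝ 2 (gpW n k M) := gpW_contDiff D.hn hM0 D.hds
  have hWz : Continuous fun x => fderiv ℝ (gpW n k M) x ez :=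
    (hWc.continuous_fderiv (by norm_num)).clm_apply continuous_const
  have hθz : Continuous fun x => fderiv ℝ θ x ez := (hθ1.continuous_fderiv (by simp)).clm_apply continuous_const
  have hbdry : (∫ q : ℝ × ℝ, n (planePt q 0) * fderiv ℝ θ (planePt q 0) ez * ψ (planePt q 0))
      ≤ ∫ q : ℝ × ℝ, n (planePt q 0) * (-(deriv (stW (gpM n k M) (hrad (planePt q 0))) 0)) * F (planePt q 0) ^ 2 := by
    have eL : (fun q : ℝ × ℝ =>
        n (planePt q 0) * (-(deriv (stW (gpM n k M) (hrad (planePt q 0))) 0)) * F (planePt q 0) ^ 2)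
        = fun q : ℝ × ℝ => (fun x => n x * (-(fderiv ℝ (gpW n k M) x ez)) * F x ^ 2) (planePt q 0) := by
      funext q
      show _ = n (planePt q 0) * (-(fderiv ℝ (gpW n k M) (planePt q 0) ez)) * F (planePt q 0) ^ 2
      rw [gpW_fderiv_ez D.hn hM0 D.hds, gpf_planePt_two]
    refine integral_mono ?_ ?_ fun q => ?_
    · have hcont : Continuous fun x => n x * fderiv ℝ θ x ez * ψ x := (D.hn.continuous.mul hθz).mul hψd.continuous
      exact (hcont.comp (gpf_plane_continuous 0)).integrable_of_hasCompactSupport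
        (gpf_plane_hasCompactSupport (f := fun x => n x * fderiv ℝ θ x ez * ψ x) hψc.mul_left 0)
    · rw [eL]
      have hcont : Continuous fun x => n x * (-(fderiv ℝ (gpW n k M) x ez)) * F x ^ 2 :=
        (D.hn.continuous.mul hWz.neg).mul (hFd.continuous.pow 2)
      have hsupp : HasCompactSupport fun x => n x * (-(fderiv ℝ (gpW n k M) x ez)) * F x ^ 2 :=
        HasCompactSupport.intro hFc fun x hx => by
          simp only [image_eq_zero_of_notMem_tsupport hx]; ring
      exact (hcont.comp (gpf_plane_continuous 0)).integrable_of_hasCompactSupport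
        (gpf_plane_hasCompactSupport hsupp 0)
    · show n (planePt q 0) * fderiv ℝ θ (planePt q 0) ez * ψ (planePt q 0)
        ≤ n (planePt q 0) * (-(deriv (stW (gpM n k M) (hrad (planePt q 0))) 0)) * F (planePt q 0) ^ 2
      have hθ0 : θ (planePt q 0) = 0 := D.hθ.eq_zero_of_plane (gpf_planePt_two q 0)
      have hδ0 : gpDel θ (planePt q 0) = Real.pi / 2 := by unfold gpDel; rw [hθ0]; ring
      simp only [hψ, hF, hδ0]
      by_cases hp : (M : ℝ) ≤ hrad (planePt q 0)
      · have hfl := gp_flux_bound D hp (gpf_planePt_two q 0)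
        have hn0 := (D.hn.pos (planePt q 0)).le
        have hπ := Real.pi_pos
        have h1 : 0 ≤ n (planePt q 0) * (Real.pi / 2 * ξ (planePt q 0) ^ 2) := by positivity
        have h2 := mul_le_mul_of_nonneg_right hfl h1
        nlinarith
      · have h0 : ξ (planePt q 0) = 0 := by
          apply hS
          rw [gpf_norm_planePt_zero]
          push Not at hp
          linarith
        rw [h0]; simp
  have hd0 := D.d_pos
  have : 0 ≤ d * ∫ x in upperHalf, n x * Real.sin (2 * θ x) * ψ x := mul_nonneg hd0.le hbulk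
  linarith

end Claimed.Open.R278
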