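import Claimed.Open.R278.TCForm
import Claimed.Agent.R259.RegBoot

/-!
# Result 278, layer TC (Proposition 2.2), file 4: regularity and strong positivity of weak eigenfunctions

Tools: the kit `Reg` of row 259 (sorry-free, `Claimed/Agent/R259/Reg*.lean`):
* `RegVW u G`: `-Δ u = G` in the very weak sense; `regAvg κ G s x = ∫ G (x - s z) κ z dz`;
* `regRho`, `regPsi`: smooth kernels supported in `|z|² < 2`, `0 ≤ regPsi ≤ regRho`, `regPsi > 0` on `|z|² < 2`, `∫ regRho = 1`;
* `reg_avg_hasDerivAt`: `d/ds regAvg regRho u s x = - s regAvg regPsi G s x` for EVERY `x` and `s > 0`;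
* `reg_repr`: `u = regAvg regRho u 1 + regT G` a.e.; `reg_avg_rho_contDiff`; `reg_T_contDiff_succ : C^k → C^{k+1}`.

This file has no `sorry` of its own.
-/

open MeasureTheory Filter Topology Set
open scoped ContDiff InnerProductSpace
open Claimed.Agent.R259 (RegVW regAvg regRho regPsi regT regScale)

noncomputable section

namespace Claimed.Open.R278

variable {Z R E : ℝ} {f : Space → ℝ} {F : Space → Space}

/-! ## TC-R1 (proved): the very weak equation, the continuous representative -/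

section R1

theorem IsWeakEig.memLp_rhs (h : IsWeakEig Z R E f F) :
    MemLp (fun x => 2 * (E - nuclearPotential Z R x) * f x) 2 volume := by
  have h1 := (h.1.1.const_mul (2 * E)).sub ((h.1.memLp_nuclear_mul Z R).const_mul 2)
  refine h1.ae_eq (Eventually.of_forall fun x => ?_)
  simp only [Pi.sub_apply]
  ring

/-- the weak equation tested with a test function. -/
theorem IsWeakEig.integral_inner_gradient (h : IsWeakEig Z R E f F) {φ : Space → ℝ} (hφ : ContDiff ℝ ∞ φ)
    (hc : HasCompactSupport φ) :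
    ∫ x, ⟪F x, gradient φ x⟫_ℝ = ∫ x, 2 * (E - nuclearPotential Z R x) * f x * φ x := by
  have hφ1 : IsH1 φ (gradient φ) := isH1_of_contDiff (hφ.of_le (by exact_mod_cast le_top)) hc
  have h1 := h.2 φ (gradient φ) hφ1
  unfold nucForm at h1
  have i1 : Integrable (fun x => φ x * f x) := hφ1.integrable_mul h.1
  have i2 : Integrable (fun x => nuclearPotential Z R x * (φ x * f x)) := hφ1.integrable_nuclear h.1 Z R
  have h2 : ∫ x, 2 * (E - nuclearPotential Z R x) * f x * φ x
      = 2 * (E * ∫ x, φ x * f x) - 2 * ∫ x, nuclearPotential Z R x * (φ x * f x) := by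
    rw [← integral_const_mul, ← integral_const_mul, ← integral_const_mul, ← integral_sub (by exact (i1.const_mul E).const_mul 2)
      (i2.const_mul 2)]
    refine integral_congr_ae (Eventually.of_forall fun x => ?_)
    ring
  rw [h2]
  have h3 : ∫ x, ⟪F x, gradient φ x⟫_ℝ = ∫ x, ⟪gradient φ x, F x⟫_ℝ := by
    simp only [real_inner_comm]
  rw [h3]
  linarith

/-- `∫ f Δξ = - ∫ ⟪F, ∇ξ⟫` (definition of the weak gradient with `φ = ∂ₐ ξ`, `Claimed.Agent.R259.reg_laplacian_eq_sum`), and the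
weak equation tested with `g = ξ` (`isH1_of_contDiff`) gives `∫ ⟪∇ξ, F⟫ = ∫ 2 (E - V) f ξ`.  Local integrability of `V f`:
`IsH1.memLp_nuclear_mul`. -/
theorem IsWeakEig.regVW (h : IsWeakEig Z R E f F) :
    RegVW f (fun x => 2 * (E - nuclearPotential Z R x) * f x) := by
  refine ⟨h.1.2.2.1, h.memLp_rhs.locallyIntegrable (by norm_num), ?_⟩
  intro ξ hξ
  rw [← h.integral_inner_gradient hξ.1 hξ.2]
  have h2 : ∀ x, Laplacian.laplacian ξ x = ∑ i, fderiv ℝ (fun y => fderiv ℝ ξ y (stdOrthonormalBasis ℝ Space i)) x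
      (stdOrthonormalBasis ℝ Space i) := fun x =>
    Claimed.Agent.R259.reg_laplacian_eq_sum (hξ.1.of_le Claimed.Agent.R259.reg_two_le_infty).contDiffAt
  have hφ : ∀ v : Space, ContDiff ℝ ∞ (fun y => fderiv ℝ ξ y v) := fun v =>
    (hξ.1.fderiv_right (m := ∞) (by simp)).clm_apply contDiff_const
  have hφc : ∀ v : Space, HasCompactSupport (fun y => fderiv ℝ ξ y v) := fun v => hξ.2.fderiv_apply ℝ v
  have hint : ∀ v : Space, Integrable (fun x => f x * fderiv ℝ (fun y => fderiv ℝ ξ y v) x v) := by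
    intro v
    have c1 : Continuous (fun x => fderiv ℝ (fun y => fderiv ℝ ξ y v) x v) :=
      (((hφ v).fderiv_right (m := ∞) (by simp)).clm_apply contDiff_const).continuous
    exact h.1.2.2.1.integrable_smul_right_of_hasCompactSupport c1 ((hφc v).fderiv_apply ℝ v)
  have hint2 : ∀ v : Space, Integrable (fun x => ⟪F x, v⟫_ℝ * fderiv ℝ ξ x v) := by
    intro v
    have l1 : LocallyIntegrable (fun x => ⟪F x, v⟫_ℝ) volume := by
      intro x
      obtain ⟨s, hs, hi⟩ := h.1.2.2.2.1 x
      refine ⟨s, hs, ?_⟩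
      have := (innerSL ℝ v).integrable_comp hi
      simpa only [innerSL_apply_apply, real_inner_comm, IntegrableOn] using this
    exact l1.integrable_smul_right_of_hasCompactSupport (hφ v).continuous (hφc v)
  calc ∫ x, f x * Laplacian.laplacian ξ x
      = ∫ x, ∑ i, f x * fderiv ℝ (fun y => fderiv ℝ ξ y (stdOrthonormalBasis ℝ Space i)) x
          (stdOrthonormalBasis ℝ Space i) := by
        refine integral_congr_ae (Eventually.of_forall fun x => ?_)
        simp only [h2 x, Finset.mul_sum]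
    _ = ∑ i, ∫ x, f x * fderiv ℝ (fun y => fderiv ℝ ξ y (stdOrthonormalBasis ℝ Space i)) x
          (stdOrthonormalBasis ℝ Space i) := integral_finsetSum _ fun i _ => hint _
    _ = ∑ i, -∫ x, ⟪F x, stdOrthonormalBasis ℝ Space i⟫_ℝ * fderiv ℝ ξ x (stdOrthonormalBasis ℝ Space i) :=
        Finset.sum_congr rfl fun i _ => h.1.2.2.2.2 _ (hφ _) (hφc _) _
    _ = -∫ x, ∑ i, ⟪F x, stdOrthonormalBasis ℝ Space i⟫_ℝ * fderiv ℝ ξ x (stdOrthonormalBasis ℝ Space i) := by
        rw [integral_finsetSum _ fun i _ => hint2 _, Finset.sum_neg_distrib]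
    _ = -∫ x, ⟪F x, gradient ξ x⟫_ℝ := by
        congr 1
        refine integral_congr_ae (Eventually.of_forall fun x => ?_)
        simp only
        rw [← (stdOrthonormalBasis ℝ Space).sum_inner_mul_inner]
        refine Finset.sum_congr rfl fun i _ => ?_
        rw [real_inner_comm (gradient ξ x), inner_gradient_left]

/-- `IsH1.exists_continuous_rep` (kit SL) with `w = 2 (E - V) f ∈ L²`. -/
theorem IsWeakEig.exists_continuous_rep (h : IsWeakEig Z R E f F) :
    ∃ f' : Space → ℝ, Continuous f' ∧ f' =ᵐ[volume] f ∧ Tendsto f' (cocompact Space) (𝓝 0) ∧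
      IsWeakEig Z R E f' F := by
  obtain ⟨f', h1, h2, -, -, h3⟩ := h.1.exists_continuous_rep h.memLp_rhs
    (fun φ hφ hc => h.integral_inner_gradient hφ hc)
  exact ⟨f', h1, h2, h3, h.congr_ae h2.symm (EventuallyEq.refl _ _)⟩

end R1

/-! ## TC-R2 (proved): strong positivity for very weak supersolutions -/

section R2

/-- the average in convolution form. -/
theorem tc_avg_eq (κ G : Space → ℝ) {s : ℝ} (hs : 0 < s) (x : Space) :
    regAvg κ G s x = ∫ t, G t * regScale κ s (x - t) := by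
  rw [Claimed.Agent.R259.regAvg_eq_conv κ G hs x, convolution_def]
  rfl

theorem tc_scale_cont {κ : Space → ℝ} (hκ : Claimed.Agent.R259.IsTest κ) {s : ℝ} (hs : 0 < s) (x : Space) :
    Continuous (fun t => regScale κ s (x - t)) ∧ HasCompactSupport (fun t => regScale κ s (x - t)) := by
  have h := Claimed.Agent.R259.reg_scale_test hκ hs
  exact ⟨h.1.continuous.comp (by fun_prop), h.2.comp_homeomorph (Homeomorph.subLeft x)⟩

theorem tc_avg_integrable {κ G : Space → ℝ} (hκ : Claimed.Agent.R259.IsTest κ) (hG : LocallyIntegrable G volume)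
    {s : ℝ} (hs : 0 < s) (x : Space) : Integrable (fun t => G t * regScale κ s (x - t)) := by
  obtain ⟨h1, h2⟩ := tc_scale_cont hκ hs x
  exact hG.integrable_smul_right_of_hasCompactSupport h1 h2

theorem tc_scale_nonneg {κ : Space → ℝ} (hκ : ∀ z, 0 ≤ κ z) {s : ℝ} (hs : 0 < s) (w : Space) :
    0 ≤ regScale κ s w := by
  unfold regScale
  exact smul_nonneg (by positivity) (hκ _)

theorem tc_rho_nonneg (z : Space) : 0 ≤ regRho z :=
  (Claimed.Agent.R259.reg_psi_nonneg z).trans (Claimed.Agent.R259.reg_psi_le_rho z)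

theorem tc_scale_psi_le_rho {s : ℝ} (hs : 0 < s) (w : Space) : regScale regPsi s w ≤ regScale regRho s w := by
  unfold regScale
  exact smul_le_smul_of_nonneg_left (Claimed.Agent.R259.reg_psi_le_rho _) (by positivity)

theorem nuclearPotential_nonpos {Z : ℝ} (hZ : 0 ≤ Z) (R : ℝ) (x : Space) : nuclearPotential Z R x ≤ 0 := by
  unfold nuclearPotential
  have h1 : 0 ≤ Z / ‖x - R • ez‖ := by positivity
  have h2 : 0 ≤ Z / ‖x + R • ez‖ := by positivity
  linarith

/-- Put `m(s) = regAvg regRho u s x₀`, `0 < s ≤ s₀` (it only sees `u` on `ball x₀ (√2 s)`).  Then `m ≥ 0`,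
`m'(s) = - s regAvg regPsi G s x₀ ≤ c s regAvg regPsi u s x₀ ≤ c s m(s)`, and `m(s) → u x₀ = 0` as `s ↓ 0` (continuity at `x₀`).
So `e^{-c s²/2} m(s)` is nonincreasing, nonnegative and tends to `0` at `0`: `m ≡ 0`.  With `s = s₀`:
`∫ u (x₀ - s₀ z) regRho z dz = 0`, the integrand is continuous and `≥ 0`, `regRho z ≥ regPsi z > 0` for `|z| < 1`. -/
theorem tc_reg_zero_ball {u G : Space → ℝ} (h : RegVW u G) {x₀ : Space} {s₀ c : ℝ} (hs₀ : 0 < s₀) (hc : 0 ≤ c)
    (hcont : ContinuousOn u (Metric.ball x₀ (2 * s₀))) (hnn : ∀ x ∈ Metric.ball x₀ (2 * s₀), 0 ≤ u x)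
    (hG : ∀ᵐ x, x ∈ Metric.ball x₀ (2 * s₀) → -c * u x ≤ G x) (h0 : u x₀ = 0) :
    ∀ x ∈ Metric.ball x₀ s₀, u x = 0 := by
  set m : ℝ → ℝ := fun s => regAvg regRho u s x₀ with hm
  have hρ : Claimed.Agent.R259.IsTest (regRho : Space → ℝ) := Claimed.Agent.R259.reg_rho_test
  have hψ : Claimed.Agent.R259.IsTest (regPsi : Space → ℝ) := Claimed.Agent.R259.reg_psi_test
  have hρ0 : ∀ z : Space, 2 ≤ ‖z‖ ^ 2 → regRho z = 0 := fun z hz => Claimed.Agent.R259.reg_rho_zero hz
  have hψ0 : ∀ z : Space, 2 ≤ ‖z‖ ^ 2 → regPsi z = 0 := fun z hz => Claimed.Agent.R259.reg_psi_zero hz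
  have hsupp : ∀ (κ : Space → ℝ), (∀ z, 2 ≤ ‖z‖ ^ 2 → κ z = 0) → ∀ s r : ℝ, 0 < s → s ≤ r → ∀ t,
      t ∉ Metric.ball x₀ (2 * r) → regScale κ s (x₀ - t) = 0 := by
    intro κ hκ0 s r hs hs' t ht
    apply Claimed.Agent.R259.reg_scale_zero hκ0 hs
    rw [Metric.mem_ball, not_lt, dist_comm, dist_eq_norm] at ht
    linarith
  have hmeq : ∀ s, 0 < s → m s = ∫ t, u t * regScale regRho s (x₀ - t) := fun s hs => tc_avg_eq _ _ hs _
  have hm0 : ∀ s, 0 < s → s ≤ s₀ → 0 ≤ m s := by
    intro s hs hs'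
    rw [hmeq s hs]
    apply integral_nonneg
    intro t
    by_cases ht : t ∈ Metric.ball x₀ (2 * s₀)
    · exact mul_nonneg (hnn t ht) (tc_scale_nonneg tc_rho_nonneg hs _)
    · simp only [hsupp regRho hρ0 s s₀ hs hs' t ht, mul_zero, Pi.zero_apply, le_refl]
  have hkey : ∀ s, 0 < s → s ≤ s₀ → -c * m s ≤ regAvg regPsi G s x₀ := by
    intro s hs hs'
    rw [tc_avg_eq _ _ hs, hmeq s hs, ← integral_const_mul]
    apply integral_mono_ae ((tc_avg_integrable hρ h.1 hs x₀).const_mul _) (tc_avg_integrable hψ h.2.1 hs x₀)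
    filter_upwards [hG] with t ht
    by_cases hb : t ∈ Metric.ball x₀ (2 * s₀)
    · have h1 := ht hb
      have h2 := hnn t hb
      have h3 := tc_scale_psi_le_rho hs (x₀ - t)
      have h4 := tc_scale_nonneg Claimed.Agent.R259.reg_psi_nonneg hs (x₀ - t)
      nlinarith [mul_nonneg (mul_nonneg hc h2) (sub_nonneg.2 h3), mul_nonneg (sub_nonneg.2 h1) h4]
    · simp only [hsupp regRho hρ0 s s₀ hs hs' t hb, hsupp regPsi hψ0 s s₀ hs hs' t hb, mul_zero, le_refl]
  have hint1 : ∀ s, 0 < s → ∫ t, regScale regRho s (x₀ - t) = 1 := by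
    intro s hs
    rw [integral_sub_left_eq_self (fun w => regScale regRho s w) volume x₀,
      Claimed.Agent.R259.reg_scale_integral _ hs, Claimed.Agent.R259.reg_rho_integral]
  have hx₀ : x₀ ∈ Metric.ball x₀ (2 * s₀) := Metric.mem_ball_self (by positivity)
  have hlim : Tendsto m (𝓝[>] 0) (𝓝 0) := by
    rw [Metric.tendsto_nhdsWithin_nhds]
    intro ε hε
    have hca : ContinuousAt u x₀ := hcont.continuousAt (Metric.isOpen_ball.mem_nhds hx₀)
    obtain ⟨δ, hδ, hδ'⟩ := Metric.continuousAt_iff.1 hca (ε / 2) (half_pos hε)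
    refine ⟨min (δ / 2) s₀, by positivity, fun s hs hsd => ?_⟩
    have hs0 : 0 < s := hs
    rw [Real.dist_eq, sub_zero, abs_of_pos hs0, lt_min_iff] at hsd
    have h1 := hm0 s hs0 hsd.2.le
    have h2 : m s ≤ ε / 2 := by
      rw [hmeq s hs0]
      have h3 : ∫ t, ε / 2 * regScale regRho s (x₀ - t) = ε / 2 := by
        rw [integral_const_mul, hint1 s hs0, mul_one]
      rw [← h3]
      obtain ⟨k1, k2⟩ := tc_scale_cont hρ hs0 x₀
      apply integral_mono (tc_avg_integrable hρ h.1 hs0 x₀) ((k1.integrable_of_hasCompactSupport k2).const_mul _)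
      intro t
      by_cases hb : t ∈ Metric.ball x₀ (2 * s)
      · have h4 : dist t x₀ < δ := by
          rw [Metric.mem_ball] at hb
          linarith
        have h5 := hδ' h4
        rw [h0, Real.dist_eq, sub_zero] at h5
        have h6 := (le_abs_self _).trans h5.le
        exact mul_le_mul_of_nonneg_right h6 (tc_scale_nonneg tc_rho_nonneg hs0 _)
      · simp only [hsupp regRho hρ0 s s hs0 le_rfl t hb, mul_zero, le_refl]
    rw [Real.dist_eq, sub_zero, abs_of_nonneg h1]
    linarith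
  have hanti : ∀ σ s, 0 < σ → σ ≤ s → s ≤ s₀ →
      Real.exp (-(c * s ^ 2 / 2)) * m s ≤ Real.exp (-(c * σ ^ 2 / 2)) * m σ := by
    intro σ s hσ hσs hs
    have hder : ∀ t ∈ Icc σ s, HasDerivAt (fun t => Real.exp (-(c * t ^ 2 / 2)) * m t)
        (Real.exp (-(c * t ^ 2 / 2)) * (-(c * t)) * m t
          + Real.exp (-(c * t ^ 2 / 2)) * (-(t * regAvg regPsi G t x₀))) t := by
      intro t ht
      have ht0 : 0 < t := lt_of_lt_of_le hσ ht.1
      have h1 : HasDerivAt (fun t : ℝ => -(c * t ^ 2 / 2)) (-(c * t)) t := by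
        have h2 := (((hasDerivAt_pow 2 t).const_mul c).div_const 2).neg
        have e : -(c * (((2 : ℕ) : ℝ) * t ^ (2 - 1)) / 2) = -(c * t) := by
          norm_num
          ring
        rw [e] at h2
        exact h2
      exact h1.exp.mul (Claimed.Agent.R259.reg_avg_hasDerivAt h ht0 x₀)
    have := antitoneOn_of_deriv_nonpos (convex_Icc σ s)
      (fun t ht => (hder t ht).continuousAt.continuousWithinAt)
      (fun t ht => (hder t (interior_subset ht)).differentiableAt.differentiableWithinAt)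
      (fun t ht => by
        have ht' := interior_subset ht
        rw [(hder t ht').deriv]
        have ht0 : 0 < t := lt_of_lt_of_le hσ ht'.1
        have h1 := hkey t ht0 (ht'.2.trans hs)
        have h2 : 0 < Real.exp (-(c * t ^ 2 / 2)) := Real.exp_pos _
        have h3 : -(c * t) * m t + -(t * regAvg regPsi G t x₀) ≤ 0 := by nlinarith
        nlinarith)
    exact this (left_mem_Icc.2 hσs) (right_mem_Icc.2 hσs) hσs
  have hms₀ : m s₀ = 0 := by
    have h1 : Real.exp (-(c * s₀ ^ 2 / 2)) * m s₀ ≤ 0 := by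
      refine ge_of_tendsto hlim ?_
      filter_upwards [Ioc_mem_nhdsGT hs₀] with σ hσ
      have h2 := hanti σ s₀ hσ.1 hσ.2 le_rfl
      have h3 := hm0 σ hσ.1 hσ.2
      have h4 : Real.exp (-(c * σ ^ 2 / 2)) ≤ 1 := by
        rw [Real.exp_le_one_iff]
        have : 0 ≤ c * σ ^ 2 / 2 := by positivity
        linarith
      nlinarith
    have h2 := hm0 s₀ hs₀ le_rfl
    have h3 : 0 < Real.exp (-(c * s₀ ^ 2 / 2)) := Real.exp_pos _
    nlinarith
  rw [hmeq s₀ hs₀] at hms₀
  have hnn' : 0 ≤ fun t => u t * regScale regRho s₀ (x₀ - t) := by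
    intro t
    by_cases ht : t ∈ Metric.ball x₀ (2 * s₀)
    · exact mul_nonneg (hnn t ht) (tc_scale_nonneg tc_rho_nonneg hs₀ _)
    · simp only [hsupp regRho hρ0 s₀ s₀ hs₀ le_rfl t ht, mul_zero, Pi.zero_apply, le_refl]
  have hae := (integral_eq_zero_iff_of_nonneg hnn' (tc_avg_integrable hρ h.1 hs₀ x₀)).1 hms₀
  have heq := Measure.eqOn_open_of_ae_eq (ae_restrict_of_ae hae) Metric.isOpen_ball
    (hcont.mul (tc_scale_cont hρ hs₀ x₀).1.continuousOn) continuousOn_const
  intro x hx
  have hx2 : x ∈ Metric.ball x₀ (2 * s₀) := Metric.ball_subset_ball (by linarith) hx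
  have h1 := heq hx2
  simp only [Pi.zero_apply] at h1
  have h2 : 0 < regScale regRho s₀ (x₀ - x) := by
    unfold regScale
    refine smul_pos (by positivity) ?_
    refine lt_of_lt_of_le (Claimed.Agent.R259.reg_psi_pos ?_) (Claimed.Agent.R259.reg_psi_le_rho _)
    rw [norm_smul, Real.norm_eq_abs, abs_of_pos (inv_pos.2 hs₀)]
    rw [Metric.mem_ball, dist_comm, dist_eq_norm] at hx
    have h3 : s₀⁻¹ * ‖x₀ - x‖ < 1 := by
      rw [inv_mul_eq_div, div_lt_one hs₀]
      exact hx
    have h4 : 0 ≤ s₀⁻¹ * ‖x₀ - x‖ := by positivity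
    nlinarith
  rcases mul_eq_zero.1 h1 with h | h
  · exact h
  · exact absurd h h2.ne'

/-- the zero set is open (previous lemma) and relatively closed (`isPreconnected_iff_subset_of_disjoint`). -/
theorem tc_reg_zero_of_connected {u G : Space → ℝ} (h : RegVW u G) {U : Set Space} (hU : IsOpen U)
    (hconn : IsPreconnected U) {c : ℝ} (hc : 0 ≤ c) (hcont : ContinuousOn u U) (hnn : ∀ x ∈ U, 0 ≤ u x)
    (hG : ∀ᵐ x, x ∈ U → -c * u x ≤ G x) {x₀ : Space} (hx₀ : x₀ ∈ U) (h0 : u x₀ = 0) : ∀ x ∈ U, u x = 0 := by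
  have hZ : IsOpen {x | x ∈ U ∧ u x = 0} := by
    rw [Metric.isOpen_iff]
    rintro x ⟨hxU, hx0⟩
    obtain ⟨r, hr, hball⟩ := Metric.isOpen_iff.1 hU x hxU
    refine ⟨r / 2, by positivity, fun y hy => ?_⟩
    have hsub : Metric.ball x (2 * (r / 2)) ⊆ U := by
      rw [show 2 * (r / 2) = r by ring]
      exact hball
    exact ⟨hsub (Metric.ball_subset_ball (by linarith) hy),
      tc_reg_zero_ball h (half_pos hr) hc (hcont.mono hsub) (fun z hz => hnn z (hsub hz))
        (hG.mono fun z hz hzb => hz (hsub hzb)) hx0 y hy⟩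
  have hP : IsOpen {x | x ∈ U ∧ u x ≠ 0} := hcont.isOpen_inter_preimage hU (isOpen_ne (x := (0 : ℝ)))
  by_contra hcon
  push Not at hcon
  obtain ⟨x₁, hx₁, hne⟩ := hcon
  obtain ⟨y, -, hy1, hy2⟩ := hconn _ _ hZ hP
    (fun x hx => by
      by_cases h : u x = 0
      · exact Or.inl ⟨hx, h⟩
      · exact Or.inr ⟨hx, h⟩) ⟨x₀, hx₀, hx₀, h0⟩ ⟨x₁, hx₁, hx₁, hne⟩
  exact hy2.2 hy1.2

/-- `G = 2 (E - V) f ≥ - 2 |E| f` where `f ≥ 0`, because `-V ≥ 0` (also near the nuclei). -/
theorem IsWeakEig.eq_zero_of_nonneg (hZ : 0 ≤ Z) (h : IsWeakEig Z R E f F) {U : Set Space} (hU : IsOpen U)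
    (hconn : IsPreconnected U) (hcont : ContinuousOn f U) (hnn : ∀ x ∈ U, 0 ≤ f x) {x₀ : Space} (hx₀ : x₀ ∈ U)
    (h0 : f x₀ = 0) : ∀ x ∈ U, f x = 0 := by
  refine tc_reg_zero_of_connected h.regVW hU hconn (c := 2 * |E|) (by positivity) hcont hnn
    (Eventually.of_forall fun x hx => ?_) hx₀ h0
  have h1 := hnn x hx
  have h2 := nuclearPotential_nonpos hZ R x
  have h3 := neg_abs_le E
  nlinarith [mul_nonneg h1 (neg_nonneg.2 h2), mul_nonneg h1 (by linarith : 0 ≤ E + |E|)]

end R2

/-! ## TC-R3 (proved): the nodal lemmas -/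

section R3

theorem continuous_reflZ : Continuous reflZ := reflZE.continuous

theorem isOpen_upper : IsOpen {x : Space | 0 < x 2} :=
  isOpen_lt continuous_const (by fun_prop)

theorem isPreconnected_upper : IsPreconnected {x : Space | 0 < x 2} := by
  have : Convex ℝ {x : Space | 0 < x 2} :=
    convex_halfSpace_gt (f := fun x : Space => x 2) ⟨fun _ _ => rfl, fun _ _ => rfl⟩ 0
  exact this.isPreconnected

/-- `|f|` is again an eigenfunction at the bottom. -/
theorem IsWeakEig.abs_of_bottom (h : IsWeakEig Z R E f F) (hmin : IsBelow Z R E (fun _ => True)) :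
    IsWeakEig Z R E (fun x => |f x|) (fun x => Real.sign (f x) • F x) := by
  have habs := h.1.abs
  have hle := nucForm_abs_le (Z := Z) (R := R) h.1
  have hge := hmin _ _ habs trivial
  have hsq : ∫ x, |f x| ^ 2 = ∫ x, f x ^ 2 := by simp only [sq_abs]
  have hE : nucForm Z R (fun x => |f x|) (fun x => |f x|) (fun x => Real.sign (f x) • F x)
      (fun x => Real.sign (f x) • F x) = E * ∫ x, |f x| ^ 2 :=
    le_antisymm (by rw [hsq, ← h.form_self]; exact hle) hge
  exact ⟨habs, fun g G hg => tc_euler_lagrange (S := fun _ => True) trivial (fun _ _ _ _ => trivial)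
    (fun _ _ _ => trivial) habs trivial hE hmin g G hg trivial⟩

/-- `sign(z)|f|` is again an eigenfunction at the bottom of the odd class. -/
theorem IsWeakEig.oddAbs_of_bottom (h : IsWeakEig Z R E f F) (hodd : OddZ f) (hmin : IsBelow Z R E OddZ) :
    ∃ W, IsWeakEig Z R E (oddAbs f) W := by
  obtain ⟨W, hW, hle⟩ := exists_nucForm_oddAbs_le (Z := Z) (R := R) h.1 hodd
  have ho := oddZ_oddAbs hodd
  have hge := hmin _ _ hW ho
  have hsq : ∫ x, oddAbs f x ^ 2 = ∫ x, f x ^ 2 := integral_congr_ae (oddAbs_sq_ae f)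
  have hE : nucForm Z R (oddAbs f) (oddAbs f) W W = E * ∫ x, oddAbs f x ^ 2 :=
    le_antisymm (by rw [hsq, ← h.form_self]; exact hle) hge
  exact ⟨W, IsWeakEig.of_odd hW ho (tc_euler_lagrange OddZ.zero (fun _ _ a b => a.add b)
    (fun c _ a => a.const_mul c) hW ho hE hmin)⟩

/-- a continuous a.e. odd function is odd. -/
theorem OddZ.pointwise (h : OddZ f) (hc : Continuous f) : ∀ x, f (reflZ x) = - f x := by
  have h1 : Continuous (fun x => f (reflZ x)) := hc.comp continuous_reflZ
  have := (h1.ae_eq_iff_eq (μ := (volume : Measure Space)) hc.neg).1 h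
  exact fun x => congrFun this x

/-- **Nodal lemma.**  `|f|` has `q[|f|] ≤ q[f] = E ∫ f²` (`nucForm_abs_le`), so it is a minimiser, hence a weak eigenfunction
(`tc_euler_lagrange` with the trivial class); it is continuous, `≥ 0`, and vanishes at `x₀`: `IsWeakEig.eq_zero_of_nonneg` on
`U = univ`. -/
theorem IsWeakEig.eq_zero_of_bottom (hZ : 0 ≤ Z) (h : IsWeakEig Z R E f F) (hmin : IsBelow Z R E (fun _ => True))
    (hc : Continuous f) {x₀ : Space} (h0 : f x₀ = 0) : ∀ x, f x = 0 := by
  have h1 := h.abs_of_bottom hmin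
  have h2 := h1.eq_zero_of_nonneg hZ isOpen_univ isPreconnected_univ hc.abs.continuousOn
    (fun x _ => abs_nonneg _) (mem_univ x₀) (by simp [h0])
  intro x
  exact abs_eq_zero.1 (h2 x trivial)

/-- **Nodal lemma, odd class.**  `w = oddAbs f` is odd, `q[w] ≤ q[f] = E ∫ w²` (`exists_nucForm_oddAbs_le`, `oddAbs_sq_ae`), so it is a
minimiser of the odd class, hence a weak eigenfunction (`tc_euler_lagrange`, `IsWeakEig.of_odd`); on `U = {z > 0}` (convex) it is
`|f|`: continuous, `≥ 0`, zero at `x₀`.  So `f = 0` on `z > 0`, and everywhere by oddness. -/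
theorem IsWeakEig.eq_zero_of_bottom_odd (hZ : 0 ≤ Z) (h : IsWeakEig Z R E f F) (hodd : OddZ f)
    (hmin : IsBelow Z R E OddZ) (hc : Continuous f) {x₀ : Space} (hx₀ : 0 < x₀ 2) (h0 : f x₀ = 0) :
    ∀ x, f x = 0 := by
  obtain ⟨W, hW⟩ := h.oddAbs_of_bottom hodd hmin
  have hval : ∀ x : Space, 0 < x 2 → oddAbs f x = |f x| := by
    intro x hx
    simp [oddAbs, Real.sign_of_pos hx]
  have hcont : ContinuousOn (oddAbs f) {x : Space | 0 < x 2} := hc.abs.continuousOn.congr hval
  have h2 := hW.eq_zero_of_nonneg hZ isOpen_upper isPreconnected_upper hcont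
    (fun x hx => by rw [hval x hx]; exact abs_nonneg _) hx₀ (by rw [hval x₀ hx₀, h0, abs_zero])
  have hup : ∀ x : Space, 0 < x 2 → f x = 0 := by
    intro x hx
    have := h2 x hx
    rw [hval x hx] at this
    exact abs_eq_zero.1 this
  have hp := hodd.pointwise hc
  intro x
  rcases lt_trichotomy (x 2) 0 with hx | hx | hx
  · have h3 : 0 < (reflZ x) 2 := by
      simp only [reflZ]
      simpa using hx
    have h4 := hup _ h3
    rw [hp x] at h4
    linarith
  · have h3 : reflZ x = x := by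
      apply space_ext <;> simp [reflZ, hx]
    have h4 := hp x
    rw [h3] at h4
    linarith
  · exact hup x hx

end R3

/-! ## TC-R4 (proved): tools for the local bootstrap -/

section R4

theorem tc_integral_affine (F : Space → ℝ) (x₀ : Space) {s : ℝ} (hs : 0 < s) :
    ∫ y, F (x₀ + s • y) = (s ^ 3)⁻¹ * ∫ x, F x := by
  have h1 := Measure.integral_comp_smul (volume : Measure Space) (fun w => F (x₀ + w)) s
  rw [h1, integral_add_left_eq_self (fun w => F w) x₀]
  have h3 : Module.finrank ℝ Space = 3 := by simp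
  rw [h3, abs_of_pos (by positivity), smul_eq_mul]

theorem tc_affine_injective (x₀ : Space) {s : ℝ} (hs : 0 < s) : Function.Injective (fun y : Space => x₀ + s • y) := by
  intro y z hyz
  have h1 : s • y = s • z := add_left_cancel hyz
  exact smul_right_injective Space hs.ne' h1

theorem tc_locallyIntegrable_affine {u : Space → ℝ} (hu : LocallyIntegrable u volume) (x₀ : Space) {s : ℝ}
    (hs : 0 < s) : LocallyIntegrable (fun y => u (x₀ + s • y)) volume := by
  rw [locallyIntegrable_iff]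
  intro K hK
  have hK' : IsCompact ((fun y : Space => x₀ + s • y) '' K) := hK.image (by fun_prop)
  have h1 : Integrable (((fun y : Space => x₀ + s • y) '' K).indicator u) :=
    (integrable_indicator_iff hK'.measurableSet).2 (hu.integrableOn_isCompact hK')
  have h2 := (h1.comp_add_left x₀).comp_smul hs.ne'
  rw [← integrable_indicator_iff hK.measurableSet]
  refine h2.congr (Eventually.of_forall fun y => ?_)
  by_cases hy : y ∈ K
  · have : x₀ + s • y ∈ (fun y : Space => x₀ + s • y) '' K := mem_image_of_mem _ hy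
    simp only [indicator_of_mem this, indicator_of_mem hy]
  · have : x₀ + s • y ∉ (fun y : Space => x₀ + s • y) '' K := by
      rintro ⟨z, hz, hzy⟩
      exact hy (tc_affine_injective x₀ hs hzy ▸ hz)
    simp only [indicator_of_notMem this, indicator_of_notMem hy]

/-- translation and dilation of a very weak solution (`integral_comp_smul`-type change of variables, the test function
`y ↦ ξ (s⁻¹ (y - x₀))`, `Claimed.Agent.R259.reg_laplacian_comp_sub`, `reg_laplacian_comp_smul`). -/
theorem tc_regVW_rescale {u G : Space → ℝ} (h : RegVW u G) (x₀ : Space) {s : ℝ} (hs : 0 < s) :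
    RegVW (fun y => u (x₀ + s • y)) (fun y => s ^ 2 * G (x₀ + s • y)) := by
  refine ⟨tc_locallyIntegrable_affine h.1 x₀ hs, ?_, ?_⟩
  · have := (tc_locallyIntegrable_affine h.2.1 x₀ hs).smul (s ^ 2)
    exact this
  intro ξ hξ
  -- the test function `η x = ξ (s⁻¹ (x - x₀))`
  set p : Space := -(s⁻¹ • x₀) with hp
  set η : Space → ℝ := fun x => ξ (p + s⁻¹ • x) with hη
  have hs' : s⁻¹ ≠ 0 := inv_ne_zero hs.ne'
  have hηt : Claimed.Agent.R259.IsTest η := by
    refine ⟨hξ.1.comp (contDiff_const.add (contDiff_const_smul s⁻¹)), ?_⟩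
    exact hξ.2.comp_homeomorph ((Homeomorph.smulOfNeZero s⁻¹ hs').trans (Homeomorph.addLeft p))
  have hback : ∀ y : Space, p + s⁻¹ • (x₀ + s • y) = y := by
    intro y
    rw [hp, smul_add, inv_smul_smul₀ hs.ne']
    abel
  have hlap : ∀ x, Laplacian.laplacian η x = (s⁻¹) ^ 2 * Laplacian.laplacian ξ (p + s⁻¹ • x) := fun x =>
    Claimed.Agent.R259.regl_laplacian_affine (hξ.1.of_le Claimed.Agent.R259.reg_two_le_infty) p s⁻¹ x
  have h1 := h.2.2 η hηt
  have h2 := tc_integral_affine (fun x => u x * Laplacian.laplacian η x) x₀ hs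
  have h3 := tc_integral_affine (fun x => G x * η x) x₀ hs
  simp only [hlap, hback] at h2
  simp only [hη, hback] at h3
  have h4 : ∫ y, u (x₀ + s • y) * ((s⁻¹) ^ 2 * Laplacian.laplacian ξ y)
      = (s⁻¹) ^ 2 * ∫ y, u (x₀ + s • y) * Laplacian.laplacian ξ y := by
    rw [← integral_const_mul]
    refine integral_congr_ae (Eventually.of_forall fun y => ?_)
    ring
  have h5 : ∫ y, s ^ 2 * G (x₀ + s • y) * ξ y = s ^ 2 * ∫ y, G (x₀ + s • y) * ξ y := by
    rw [← integral_const_mul]
    refine integral_congr_ae (Eventually.of_forall fun y => ?_)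
    ring
  rw [h5, h3]
  rw [h4] at h2
  have h6 : ∫ y, u (x₀ + s • y) * Laplacian.laplacian ξ y
      = s ^ 2 * ((s ^ 3)⁻¹ * ∫ x, u x * ((s⁻¹) ^ 2 * Laplacian.laplacian ξ (p + s⁻¹ • x))) := by
    rw [← h2]
    field_simp
  rw [h6]
  simp only [hlap] at h1
  rw [h1]
  ring

/-- locality of `regT` (`regPsi z = 0` for `|z|² ≥ 2`, `0 < s ≤ 1`). -/
theorem tc_regT_congr_ball {G G' : Space → ℝ} {x : Space} (h : ∀ y ∈ Metric.ball x 2, G y = G' y) :
    regT G x = regT G' x := by
  unfold Claimed.Agent.R259.regT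
  refine setIntegral_congr_fun measurableSet_Ioc (fun s hs => ?_)
  simp only
  congr 1
  unfold Claimed.Agent.R259.regAvg
  refine integral_congr_ae (Eventually.of_forall fun z => ?_)
  simp only
  by_cases hz : 2 ≤ ‖z‖ ^ 2
  · rw [Claimed.Agent.R259.reg_psi_zero hz]
    simp
  · rw [h]
    rw [Metric.mem_ball, dist_eq_norm]
    have h1 : ‖x - s • z - x‖ = s * ‖z‖ := by
      rw [show x - s • z - x = -(s • z) by abel, norm_neg, norm_smul, Real.norm_eq_abs, abs_of_pos hs.1]
    rw [h1]
    push Not at hz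
    have h2 : ‖z‖ < 2 := by nlinarith [norm_nonneg z]
    have h3 : s * ‖z‖ ≤ 1 * ‖z‖ := mul_le_mul_of_nonneg_right hs.2 (norm_nonneg z)
    linarith

/-- a function which is `C^k` on an open set, times a smooth function with `tsupport` in this set, is `C^k`. -/
theorem tc_contDiff_mul_of_tsupport {k : ℕ} {G χ : Space → ℝ} {U : Set Space} (hU : IsOpen U)
    (hG : ContDiffOn ℝ k G U) (hχ : ContDiff ℝ ∞ χ) (hs : tsupport χ ⊆ U) : ContDiff ℝ k (fun x => χ x * G x) := by
  rw [contDiff_iff_contDiffAt]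
  intro x
  by_cases hx : x ∈ U
  · exact (hχ.of_le (by exact_mod_cast le_top)).contDiffAt.mul (hG.contDiffAt (hU.mem_nhds hx))
  · have hx' : x ∉ tsupport χ := fun h => hx (hs h)
    have h1 : (fun x => χ x * G x) =ᶠ[𝓝 x] fun _ => 0 := by
      have := notMem_tsupport_iff_eventuallyEq.1 hx'
      filter_upwards [this] with y hy
      rw [hy]
      simp
    exact contDiffAt_const.congr_of_eventuallyEq h1

/-- one step at unit scale: `χ` = `ContDiffBump` with radii `3, 4`; on `ball 0 1`: `regT G = regT (χ G)`; `u = regAvg regRho u 1 + regT G`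
a.e. (`reg_repr`), both sides are continuous on the ball (`Measure.eqOn_open_of_ae_eq`-type argument). -/
theorem tc_reg_step {k : ℕ} {u G : Space → ℝ} (h : RegVW u G) (hu : ContinuousOn u (Metric.ball 0 1))
    (hG : ContDiffOn ℝ k G (Metric.ball 0 4)) : ContDiffOn ℝ (k + 1) u (Metric.ball 0 1) := by
  let χ : ContDiffBump (0 : Space) := ⟨3, 7 / 2, by norm_num, by norm_num⟩
  have hχ : ContDiff ℝ ∞ (χ : Space → ℝ) := χ.contDiff
  have hts : tsupport (χ : Space → ℝ) ⊆ Metric.ball 0 4 := by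
    rw [χ.tsupport_eq]
    exact Metric.closedBall_subset_ball (by norm_num)
  have hG' : ContDiff ℝ k (fun x => χ x * G x) := tc_contDiff_mul_of_tsupport Metric.isOpen_ball hG hχ hts
  have hw : ContDiff ℝ (k + 1) (fun x => regAvg regRho u 1 x + regT (fun x => χ x * G x) x) :=
    ((Claimed.Agent.R259.reg_avg_rho_contDiff h.1).of_le (by exact_mod_cast le_top)).add
      (Claimed.Agent.R259.reg_T_contDiff_succ hG')
  have hT : ∀ x ∈ Metric.ball (0 : Space) 1, regT G x = regT (fun x => χ x * G x) x := by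
    intro x hx
    apply tc_regT_congr_ball
    intro y hy
    have hy3 : y ∈ Metric.closedBall (0 : Space) 3 := by
      rw [Metric.mem_ball, dist_zero_right] at hx
      rw [Metric.mem_ball, dist_eq_norm] at hy
      rw [Metric.mem_closedBall, dist_zero_right]
      have := norm_le_norm_add_norm_sub' y x
      linarith
    have : χ y = 1 := χ.one_of_mem_closedBall hy3
    rw [this, one_mul]
  have hae : u =ᵐ[volume.restrict (Metric.ball 0 1)]
      fun x => regAvg regRho u 1 x + regT (fun x => χ x * G x) x := by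
    rw [EventuallyEq, ae_restrict_iff' Metric.isOpen_ball.measurableSet]
    filter_upwards [Claimed.Agent.R259.reg_repr h] with x hx hxb
    rw [hx, hT x hxb]
  have heq := Measure.eqOn_open_of_ae_eq hae Metric.isOpen_ball hu hw.continuous.continuousOn
  exact hw.contDiffOn.congr heq

end R4

/-! ## TC-R5 (proved): smoothness off the nuclei -/

section R5

/-- induction on `k`: `u ∈ C^k(U)` ⇒ for `x₀ ∈ U`, `closedBall x₀ (4 s) ⊆ U`, `v y = u (x₀ + s y)` solves
`-Δ v = s² c(x₀ + s y) v`, right side `C^k` on `ball 0 4` ⇒ `v ∈ C^{k+1}(ball 0 1)` ⇒ `u ∈ C^{k+1}(ball x₀ s)`. -/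
theorem tc_reg_smooth_on {u c : Space → ℝ} {U : Set Space} (hU : IsOpen U) (hu : Continuous u)
    (hc : ContDiffOn ℝ ∞ c U) (h : RegVW u (fun x => c x * u x)) : ContDiffOn ℝ ∞ u U := by
  have hind : ∀ k : ℕ, ContDiffOn ℝ k u U := by
    intro k
    induction k with
    | zero => simpa using (contDiffOn_zero (𝕜 := ℝ)).2 hu.continuousOn
    | succ k ih =>
      intro x₀ hx₀
      obtain ⟨r, hr, hball⟩ := Metric.isOpen_iff.1 hU x₀ hx₀
      obtain ⟨s, hsr⟩ : ∃ s : ℝ, s = r / 4 := ⟨_, rfl⟩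
      have hs : 0 < s := by rw [hsr]; positivity
      have hmap : ∀ y ∈ Metric.ball (0 : Space) 4, x₀ + s • y ∈ U := by
        intro y hy
        apply hball
        rw [Metric.mem_ball, dist_zero_right] at hy
        rw [Metric.mem_ball, dist_eq_norm, add_sub_cancel_left, norm_smul, Real.norm_eq_abs, abs_of_pos hs, hsr]
        nlinarith
      have hv := tc_regVW_rescale h x₀ hs
      have hGk : ContDiffOn ℝ k (fun y => s ^ 2 * (c (x₀ + s • y) * u (x₀ + s • y))) (Metric.ball 0 4) := by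
        have h1 : ContDiffOn ℝ k (fun x => c x * u x) U := (hc.of_le (by exact_mod_cast le_top)).mul ih
        have h2 : ContDiffOn ℝ k (fun y : Space => x₀ + s • y) (Metric.ball 0 4) :=
          (contDiff_const.add (contDiff_const_smul s)).contDiffOn
        exact contDiffOn_const.mul (h1.comp h2 hmap)
      have hstep := tc_reg_step hv (hu.comp (by fun_prop : Continuous fun y : Space => x₀ + s • y)).continuousOn hGk
      have h3 : ContDiffOn ℝ (k + 1) (fun x => u (x₀ + s • (s⁻¹ • (x - x₀)))) (Metric.ball x₀ s) := by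
        have h2 : ContDiffOn ℝ (k + 1) (fun x : Space => s⁻¹ • (x - x₀)) (Metric.ball x₀ s) :=
          ((contDiff_const_smul s⁻¹).comp (contDiff_id.sub contDiff_const)).contDiffOn
        refine hstep.comp h2 ?_
        intro x hx
        rw [Metric.mem_ball, dist_eq_norm] at hx
        rw [Metric.mem_ball, dist_zero_right, norm_smul, Real.norm_eq_abs, abs_of_pos (inv_pos.2 hs),
          inv_mul_eq_div, div_lt_one hs]
        exact hx
      have h4 : ContDiffOn ℝ (k + 1) u (Metric.ball x₀ s) := by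
        refine h3.congr fun x _ => ?_
        rw [smul_inv_smul₀ hs.ne', add_sub_cancel]
      have h5 := (h4.contDiffAt (Metric.isOpen_ball.mem_nhds (Metric.mem_ball_self hs))).contDiffWithinAt (s := U)
      exact_mod_cast h5
  exact contDiffOn_infty.2 hind

theorem contDiffOn_nuclearPotential (Z R : ℝ) :
    ContDiffOn ℝ ∞ (nuclearPotential Z R) ({R • ez, -(R • ez)} : Set Space)ᶜ := by
  intro x hx
  simp only [mem_compl_iff, mem_insert_iff, mem_singleton_iff, not_or] at hx
  apply ContDiffAt.contDiffWithinAt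
  unfold nuclearPotential
  have h1 : x - R • ez ≠ 0 := sub_ne_zero.2 hx.1
  have h2 : x + R • ez ≠ 0 := by
    intro h
    exact hx.2 (eq_neg_of_add_eq_zero_left h)
  have n1 : ContDiffAt ℝ ∞ (fun r : Space => ‖r - R • ez‖) x := (contDiffAt_id.sub contDiffAt_const).norm ℝ h1
  have n2 : ContDiffAt ℝ ∞ (fun r : Space => ‖r + R • ez‖) x := (contDiffAt_id.add contDiffAt_const).norm ℝ h2
  exact ((contDiffAt_const.div n1 (norm_ne_zero_iff.2 h1)).neg).sub (contDiffAt_const.div n2 (norm_ne_zero_iff.2 h2))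

theorem IsWeakEig.contDiffOn (h : IsWeakEig Z R E f F) (hc : Continuous f) :
    ContDiffOn ℝ ∞ f ({R • ez, -(R • ez)} : Set Space)ᶜ := by
  have hU : IsOpen (({R • ez, -(R • ez)} : Set Space)ᶜ) :=
    ((Set.finite_singleton _).insert _).isClosed.isOpen_compl
  exact tc_reg_smooth_on hU hc ((contDiffOn_const.sub (contDiffOn_nuclearPotential Z R)).const_smul (2 : ℝ))
    (by simpa [smul_eq_mul] using h.regVW)

end R5

end Claimed.Open.R278
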