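import Claimed.Open.R278.GPOrbB
import Claimed.Open.R278.TCReg
import Claimed.Agent.R259.Pos

/-!
# Package GP, leaves GP-P1, GP-P2, GP-P3: strong minimum principle (replaces the Harnack inequality of Prop. 4.1) and strict positivity of `cos θ`, `θ`

GP-P1 (abstract; base: kit POS/REG of `Claimed.Agent.R259`, sorry-free).  `RegVW v G` means `-Δ v = G` very weakly ON ALL OF `ℝ³`.
`gp_zero_open`: `M(r) = regAvg regRho v r x₀`.  `reg_avg_hasDerivAt`: `M'(r) = -(r * regAvg regPsi (c v) r x₀)`.  The kernels `regRho, regPsi` vanish for `‖z‖² ≥ 2` (`reg_rho_zero`, same for `regPsi`), and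
`0 ≤ regPsi ≤ regRho` (`reg_psi_nonneg`, `reg_psi_le_rho`); so for `2 r < δ` only the values on `ball x₀ δ` matter: `M(r) ≥ 0`, `M'(r) ≤ r C M(r)`.  `M` is continuous on `[0,r₁]` (`pos_avg_continuous`), `M(0) = v x₀ = 0`
(`pos_avg_zero_scale`).  Gronwall (`M e^{-C r²/2}` is nonincreasing, or `le_gronwallBound_of_liminf_deriv_right_le`) gives `M ≡ 0`.  Then `pos_zero_of_avg` applied to `max v 0` (which coincides with `v` on the ball;
`regAvg` only sees the ball).  If `(c v)(x₀ - r ·) regPsi` were not integrable its integral is `0` by convention and the bound is trivial; it is integrable because `c v` is locally integrable.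
`gp_min_principle`: `U = {x | ∃ r > 0, ∀ y ∈ ball x r, v y = 0}` and `{x | v x ≠ 0}` are open, disjoint and cover `Ω`; `IsPreconnected.subset_left_of_subset_union`.

GP-P2 (inputs).  `gp_formalV_continuousOn`: `Δ √n` is continuous off the nuclei (`gp_sqrt_contDiffOn`; `Δ f = ∑ iteratedFDeriv 2`), `∇θ` continuous.
`gp_regVW_g/h`: `gp_g_eq`, `gp_h_eq` with smooth `φ`, and `∫ ⟪∇g,∇φ⟫ = -∫ g Δφ` (`wsg_div_ibp` with `W = ∇φ`, or the definition of `IsWeakGrad` summed over the coordinate directions; `orbG_isH1`).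
Local integrability of `V g`: `V ∈ L²_loc` (`gp_formalV_L2loc`), `g` continuous.
Connectedness: `nucleiᶜ` by `Set.Countable.isConnected_compl_of_one_lt_rank`; `upperHalf \ nuclei = upperHalf \ {D e_z}` is the image of `{(0,0,log D)}ᶜ` under the continuous map `(x₀,x₁,w) ↦ (x₀,x₁,e^w)`.

GP-P3 (conclusions).  `g ≥ 0` everywhere (`IsFoldedMinimizer.cos_nonneg`); if `g x₀ = 0`, `x₀ ∉ nuclei`, then `g = 0` off the nuclei; but `g = √n > 0` at the origin (`θ = 0` on the plane, `0 ∉ nuclei`).
`h ≥ 0` on `upperHalf`; if `θ x₀ = 0` then `h x₀ = 0`, so `h = 0` on `upperHalf \ nuclei`, so `sin θ = 0` a.e. on `upperHalf`, by oddness a.e.: `∫ n sin² θ = 0 ≠ 1`.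
-/

open MeasureTheory
open Claimed.Agent.R259 (RegVW)
open scoped ContDiff InnerProductSpace ENNReal Topology Laplacian

noncomputable section

namespace Claimed.Open.R278

/-! ### GP-P1 -/

theorem gp_zero_open {v c : Space → ℝ} (hv : Continuous v) (h : RegVW v (fun x => c x * v x)) {x₀ : Space}
    {δ C : ℝ} (hδ : 0 < δ) (h0 : ∀ y ∈ Metric.ball x₀ δ, 0 ≤ v y) (hc : ∀ y ∈ Metric.ball x₀ δ, |c y| ≤ C)
    (hx₀ : v x₀ = 0) : ∃ r > 0, ∀ y ∈ Metric.ball x₀ r, v y = 0 := by
  have hC : 0 ≤ C := (abs_nonneg _).trans (hc x₀ (Metric.mem_ball_self hδ))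
  have e : 2 * (δ / 2) = δ := by ring
  refine ⟨δ / 2, half_pos hδ, tc_reg_zero_ball h (half_pos hδ) hC hv.continuousOn (by rw [e]; exact h0)
    (Filter.Eventually.of_forall fun x hx => ?_) hx₀⟩
  rw [e] at hx
  have h1 := h0 x hx
  have h2 := (abs_le.1 (hc x hx)).1
  nlinarith

theorem gp_min_principle {v c : Space → ℝ} (hv : Continuous v) (h : RegVW v (fun x => c x * v x))
    {Ω : Set Space} (hΩ : IsOpen Ω) (hpc : IsPreconnected Ω) (h0 : ∀ y ∈ Ω, 0 ≤ v y)
    (hc : ∀ x ∈ Ω, ∃ δ > 0, ∃ C : ℝ, ∀ y ∈ Metric.ball x δ, |c y| ≤ C) {x₀ : Space} (hx₀ : x₀ ∈ Ω)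
    (hz : v x₀ = 0) : ∀ y ∈ Ω, v y = 0 := by
  have hZ : IsOpen {x | x ∈ Ω ∧ v x = 0} := by
    rw [Metric.isOpen_iff]
    rintro x ⟨hxU, hx0⟩
    obtain ⟨r, hr, hball⟩ := Metric.isOpen_iff.1 hΩ x hxU
    obtain ⟨δ, hδ, C, hC⟩ := hc x hxU
    obtain ⟨ρ, hρ, hρ0⟩ := gp_zero_open hv h (x₀ := x) (δ := min r δ) (C := C) (lt_min hr hδ)
      (fun y hy => h0 y (hball (Metric.ball_subset_ball (min_le_left _ _) hy)))
      (fun y hy => hC y (Metric.ball_subset_ball (min_le_right _ _) hy)) hx0
    refine ⟨min ρ r, lt_min hρ hr, fun y hy => ?_⟩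
    exact ⟨hball (Metric.ball_subset_ball (min_le_right _ _) hy), hρ0 y (Metric.ball_subset_ball (min_le_left _ _) hy)⟩
  have hP : IsOpen {x | x ∈ Ω ∧ v x ≠ 0} := hv.continuousOn.isOpen_inter_preimage hΩ (isOpen_ne (x := (0 : ℝ)))
  by_contra hcon
  push Not at hcon
  obtain ⟨x₁, hx₁, hne⟩ := hcon
  obtain ⟨y, -, hy1, hy2⟩ := hpc _ _ hZ hP
    (fun x hx => by
      by_cases h : v x = 0
      · exact Or.inl ⟨hx, h⟩
      · exact Or.inr ⟨hx, h⟩) ⟨x₀, hx₀, hx₀, hz⟩ ⟨x₁, hx₁, hx₁, hne⟩
  exact hy2.2 hy1.2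

/-! ### GP-P2 -/

variable {n θ : Space → ℝ} {d : ℝ}

theorem gp_continuousOn_laplacian {f : Space → ℝ} {U : Set Space} (hU : IsOpen U) (hf : ContDiffOn ℝ 2 f U) :
    ContinuousOn (Δ f) U := by
  rw [InnerProductSpace.laplacian_eq_iteratedFDeriv_stdOrthonormalBasis]
  refine continuousOn_finsetSum _ fun i _ => ?_
  have h1 : ContinuousOn (iteratedFDeriv ℝ 2 f) U := by
    have := hf.continuousOn_iteratedFDerivWithin (m := 2) le_rfl hU.uniqueDiffOn
    exact this.congr fun x hx => (iteratedFDerivWithin_of_isOpen 2 hU hx).symm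
  exact (ContinuousMultilinearMap.apply ℝ (fun _ : Fin 2 => Space) ℝ
    ![stdOrthonormalBasis ℝ Space i, stdOrthonormalBasis ℝ Space i]).continuous.comp_continuousOn h1

theorem gp_formalV_continuousOn (hn : DensityBasic n) (hθ : ContDiff ℝ 1 θ) (d : ℝ) :
    ContinuousOn (formalV n θ d) nucleiᶜ := by
  unfold formalV
  have h1 := gp_continuousOn_laplacian gp_isOpen_nuclei_compl (gp_sqrt_contDiffOn hn)
  have h2 : Continuous (fun x => 2 * √(n x)) := continuous_const.mul (gp_continuous_sqrt hn)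
  have h3 : Continuous (fun x => ‖gradient θ x‖ ^ 2 / 2) := ((continuous_gradient hθ).norm.pow 2).div_const 2
  have h4 : Continuous (fun x => d * Real.sin (θ x) ^ 2) :=
    continuous_const.mul ((Real.continuous_sin.comp hθ.continuous).pow 2)
  exact ((h1.div h2.continuousOn fun x _ => (mul_pos two_pos (gp_sqrt_pos hn x)).ne').sub h3.continuousOn).add
    h4.continuousOn

theorem gp_formalV_L2loc (hn : DensityBasic n) (hθ : ContDiff ℝ 1 θ) (d R : ℝ) :
    MemLp (formalV n θ d) 2 (volume.restrict (Metric.ball 0 R)) := by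
  have h2 : Continuous (fun x => (2 * √(n x))⁻¹) :=
    (continuous_const.mul (gp_continuous_sqrt hn)).inv₀ fun x => (mul_pos two_pos (gp_sqrt_pos hn x)).ne'
  have h3 : Continuous (fun x => ‖gradient θ x‖ ^ 2 / 2) := ((continuous_gradient hθ).norm.pow 2).div_const 2
  have h4 : Continuous (fun x => d * Real.sin (θ x) ^ 2) :=
    continuous_const.mul ((Real.continuous_sin.comp hθ.continuous).pow 2)
  have a1 := tk1_memLp_smul (hn.sqrt_lap_L2 R) h2
  have a := (a1.sub (anL2loc_of_continuous h3 R)).add (anL2loc_of_continuous h4 R)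
  have e : formalV n θ d = fun x => (2 * √(n x))⁻¹ • Δ (fun y => √(n y)) x - ‖gradient θ x‖ ^ 2 / 2
      + d * Real.sin (θ x) ^ 2 := by
    funext x
    unfold formalV
    rw [smul_eq_mul, div_eq_mul_inv, mul_comm]
  rw [e]
  exact a

/-- `∫ f Δξ = - ∫ ⟪F, ∇ξ⟫` for a weak gradient and a test function. -/
theorem gp_integral_mul_laplacian {f : Space → ℝ} {F : Space → Space} (h : IsWeakGrad f F) {ξ : Space → ℝ}
    (hξ : Claimed.Agent.R259.IsTest ξ) : ∫ x, f x * Δ ξ x = -∫ x, ⟪F x, gradient ξ x⟫_ℝ := by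
  have h2 : ∀ x, Laplacian.laplacian ξ x = ∑ i, fderiv ℝ (fun y => fderiv ℝ ξ y (stdOrthonormalBasis ℝ Space i)) x
      (stdOrthonormalBasis ℝ Space i) := fun x =>
    Claimed.Agent.R259.reg_laplacian_eq_sum (hξ.1.of_le Claimed.Agent.R259.reg_two_le_infty).contDiffAt
  have hφ : ∀ v : Space, ContDiff ℝ ∞ (fun y => fderiv ℝ ξ y v) := fun v =>
    (hξ.1.fderiv_right (m := ∞) (by simp)).clm_apply contDiff_const
  have hφc : ∀ v : Space, HasCompactSupport (fun y => fderiv ℝ ξ y v) := fun v => hξ.2.fderiv_apply ℝ v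
  have hint : ∀ v : Space, Integrable (fun x => f x * fderiv ℝ (fun y => fderiv ℝ ξ y v) x v) := by
    intro v
    have c1 : Continuous (fun x => fderiv ℝ (fun y => fderiv ℝ ξ y v) x v) :=
      (((hφ v).fderiv_right (m := ∞) (by simp)).clm_apply contDiff_const).continuous
    exact h.1.integrable_smul_right_of_hasCompactSupport c1 ((hφc v).fderiv_apply ℝ v)
  have hint2 : ∀ v : Space, Integrable (fun x => ⟪F x, v⟫_ℝ * fderiv ℝ ξ x v) := by
    intro v
    have l1 : LocallyIntegrable (fun x => ⟪F x, v⟫_ℝ) volume := by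
      intro x
      obtain ⟨s, hs, hi⟩ := h.2.1 x
      refine ⟨s, hs, ?_⟩
      have := (innerSL ℝ v).integrable_comp hi
      simpa only [innerSL_apply_apply, real_inner_comm, IntegrableOn] using this
    exact l1.integrable_smul_right_of_hasCompactSupport (hφ v).continuous (hφc v)
  calc ∫ x, f x * Laplacian.laplacian ξ x
      = ∫ x, ∑ i, f x * fderiv ℝ (fun y => fderiv ℝ ξ y (stdOrthonormalBasis ℝ Space i)) x
          (stdOrthonormalBasis ℝ Space i) := by
        refine integral_congr_ae (Filter.Eventually.of_forall fun x => ?_)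
        simp only [h2 x, Finset.mul_sum]
    _ = ∑ i, ∫ x, f x * fderiv ℝ (fun y => fderiv ℝ ξ y (stdOrthonormalBasis ℝ Space i)) x
          (stdOrthonormalBasis ℝ Space i) := integral_finsetSum _ fun i _ => hint _
    _ = ∑ i, -∫ x, ⟪F x, stdOrthonormalBasis ℝ Space i⟫_ℝ * fderiv ℝ ξ x (stdOrthonormalBasis ℝ Space i) :=
        Finset.sum_congr rfl fun i _ => h.2.2 _ (hφ _) (hφc _) _
    _ = -∫ x, ∑ i, ⟪F x, stdOrthonormalBasis ℝ Space i⟫_ℝ * fderiv ℝ ξ x (stdOrthonormalBasis ℝ Space i) := by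
        rw [integral_finsetSum _ fun i _ => hint2 _, Finset.sum_neg_distrib]
    _ = -∫ x, ⟪F x, gradient ξ x⟫_ℝ := by
        congr 1
        refine integral_congr_ae (Filter.Eventually.of_forall fun x => ?_)
        simp only
        rw [← (stdOrthonormalBasis ℝ Space).sum_inner_mul_inner]
        refine Finset.sum_congr rfl fun i _ => ?_
        rw [real_inner_comm (gradient ξ x), inner_gradient_left]

theorem gp_locallyIntegrable_formalV_mul (hn : DensityBasic n) (hθ : ContDiff ℝ 1 θ) (d : ℝ) {u : Space → ℝ}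
    (hu : Continuous u) : LocallyIntegrable (fun x => formalV n θ d x * u x) volume := by
  have h1 : AnL2loc (fun x => u x • formalV n θ d x) :=
    AnL2loc.smul_continuous (fun R => gp_formalV_L2loc hn hθ d R) hu
  have h2 := (anL2loc_iff_l2Loc.1 h1).locallyIntegrable
  simpa only [smul_eq_mul, mul_comm] using h2

theorem gp_continuous_orbG (hn : DensityBasic n) (hθ : Continuous θ) : Continuous (orbG n θ) :=
  (gp_continuous_sqrt hn).mul (Real.continuous_cos.comp hθ)

theorem gp_continuous_orbH (hn : DensityBasic n) (hθ : Continuous θ) : Continuous (orbH n θ) :=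
  (gp_continuous_sqrt hn).mul (Real.continuous_sin.comp hθ)

theorem gp_regVW_g (hn : DensityBasic n) (hθ : IsFoldedMinimizer n θ) (hd : IsMultiplier n θ d) :
    RegVW (orbG n θ) (fun x => (-2 * formalV n θ d x) * orbG n θ x) := by
  have hc := gp_continuous_orbG hn hθ.1.continuous
  have hE := hθ.2.1.integrable_energy hn
  have hW := (orbG_isH1 hn hθ.2.1.1 hE).2.2
  have hl := gp_locallyIntegrable_formalV_mul hn hθ.1 d hc
  refine ⟨hc.locallyIntegrable, ?_, fun ξ hξ => ?_⟩
  · refine (hl.smul (-2 : ℝ)).congr (Filter.Eventually.of_forall fun x => ?_)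
    simp only [Pi.smul_apply, smul_eq_mul]
    ring
  · rw [gp_integral_mul_laplacian hW hξ]
    have h1 := gp_g_eq hn hθ hd (hξ.1.of_le (by norm_cast)) hξ.2
    have e : ∫ x, -2 * formalV n θ d x * orbG n θ x * ξ x = -2 * ∫ x, formalV n θ d x * orbG n θ x * ξ x := by
      rw [← integral_const_mul]
      refine integral_congr_ae (Filter.Eventually.of_forall fun x => ?_)
      simp only
      ring
    rw [e]
    linarith

theorem gp_regVW_h (hn : DensityBasic n) (hθ : IsFoldedMinimizer n θ) (hd : IsMultiplier n θ d) :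
    RegVW (orbH n θ) (fun x => (2 * (d - formalV n θ d x)) * orbH n θ x) := by
  have hc := gp_continuous_orbH hn hθ.1.continuous
  have hE := hθ.2.1.integrable_energy hn
  have hW := (orbH_isH1 hn hθ.2.1.1 hE).2.2
  have hl := gp_locallyIntegrable_formalV_mul hn hθ.1 d hc
  have hl2 : LocallyIntegrable (fun x => (2 * (d - formalV n θ d x)) * orbH n θ x) volume := by
    have := (hc.locallyIntegrable.smul (2 * d)).sub (hl.smul (2 : ℝ))
    refine this.congr (Filter.Eventually.of_forall fun x => ?_)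
    simp only [Pi.sub_apply, Pi.smul_apply, smul_eq_mul]
    ring
  refine ⟨hc.locallyIntegrable, hl2, fun ξ hξ => ?_⟩
  rw [gp_integral_mul_laplacian hW hξ]
  have h1 := gp_h_eq hn hθ hd (hξ.1.of_le (by norm_cast)) hξ.2
  have i1 : Integrable (fun x => orbH n θ x * ξ x) :=
    hc.locallyIntegrable.integrable_smul_right_of_hasCompactSupport hξ.1.continuous hξ.2
  have i2 : Integrable (fun x => formalV n θ d x * orbH n θ x * ξ x) :=
    hl.integrable_smul_right_of_hasCompactSupport hξ.1.continuous hξ.2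
  have e : ∫ x, 2 * (d - formalV n θ d x) * orbH n θ x * ξ x
      = 2 * (d * ∫ x, orbH n θ x * ξ x) - 2 * ∫ x, formalV n θ d x * orbH n θ x * ξ x := by
    rw [← integral_const_mul, ← integral_const_mul, ← integral_const_mul,
      ← integral_sub ((i1.const_mul d).const_mul 2) (i2.const_mul 2)]
    refine integral_congr_ae (Filter.Eventually.of_forall fun x => ?_)
    simp only
    ring
  rw [e]
  linarith

theorem gp_one_lt_rank : 1 < Module.rank ℝ Space := by
  rw [← Module.finrank_eq_rank]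
  simp

theorem gp_nuclei_finite : nuclei.Finite := by
  unfold nuclei
  exact Set.toFinite _

theorem gp_isPreconnected_nuclei_compl : IsPreconnected nucleiᶜ :=
  (Set.Countable.isConnected_compl_of_one_lt_rank gp_one_lt_rank gp_nuclei_finite.countable).isPreconnected

theorem gp_bigD_pos : 0 < bigD := by
  unfold bigD
  positivity

theorem gp_isPreconnected_upper : IsPreconnected (upperHalf \ nuclei) := by
  have hD := gp_bigD_pos
  set Φ : Space → Space := fun y => !₂[y 0, y 1, Real.exp (y 2)] with hΦ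
  have hΦc : Continuous Φ := by
    rw [hΦ]
    refine (PiLp.continuous_toLp 2 _).comp (continuous_pi fun i => ?_)
    fin_cases i
    · exact (EuclideanSpace.proj (0 : Fin 3) : Space →L[ℝ] ℝ).continuous
    · exact (EuclideanSpace.proj (1 : Fin 3) : Space →L[ℝ] ℝ).continuous
    · exact Real.continuous_exp.comp (EuclideanSpace.proj (2 : Fin 3) : Space →L[ℝ] ℝ).continuous
  set p : Space := !₂[0, 0, Real.log bigD] with hp
  have hconn : IsPreconnected ({p}ᶜ : Set Space) :=
    (isConnected_compl_singleton_of_one_lt_rank gp_one_lt_rank p).isPreconnected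
  have himg : Φ '' {p}ᶜ = upperHalf \ nuclei := by
    ext x
    constructor
    · rintro ⟨y, hy, rfl⟩
      refine ⟨?_, ?_⟩
      · show 0 < (Φ y) 2
        simp only [hΦ]
        exact Real.exp_pos _
      · intro hmem
        rcases hmem with h | h
        · apply hy
          have h0 := congrArg (fun z : Space => z 0) h
          have h1 := congrArg (fun z : Space => z 1) h
          have h2 := congrArg (fun z : Space => z 2) h
          simp [hΦ, ez] at h0 h1 h2
          show y = p
          apply space_ext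
          · simpa [hp] using h0
          · simpa [hp] using h1
          · simp [hp, ← h2]
        · have h2 := congrArg (fun z : Space => z 2) h
          simp [hΦ, ez] at h2
          have := Real.exp_pos (y 2)
          linarith
    · rintro ⟨hx, hxn⟩
      have hx2 : 0 < x 2 := hx
      refine ⟨!₂[x 0, x 1, Real.log (x 2)], ?_, ?_⟩
      · intro hmem
        apply hxn
        left
        have hmem' : (!₂[x 0, x 1, Real.log (x 2)] : Space) = p := hmem
        have h0 := congrArg (fun z : Space => z 0) hmem'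
        have h1 := congrArg (fun z : Space => z 1) hmem'
        have h2 := congrArg (fun z : Space => z 2) hmem'
        simp [hp] at h0 h1 h2
        apply space_ext
        · simpa [ez] using h0
        · simpa [ez] using h1
        · have := Real.log_injOn_pos (Set.mem_Ioi.2 hx2) (Set.mem_Ioi.2 hD) h2
          simpa [ez] using this
      · apply space_ext
        · simp [hΦ]
        · simp [hΦ]
        · simp [hΦ, Real.exp_log hx2]
  rw [← himg]
  exact hconn.image Φ hΦc.continuousOn

/-! ### GP-P3 -/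

theorem gp_locally_bdd {c : Space → ℝ} {Ω : Set Space} (hΩ : IsOpen Ω) (hc : ContinuousOn c Ω) :
    ∀ x ∈ Ω, ∃ δ > 0, ∃ C : ℝ, ∀ y ∈ Metric.ball x δ, |c y| ≤ C := by
  intro x hx
  have hca : ContinuousAt c x := hc.continuousAt (hΩ.mem_nhds hx)
  obtain ⟨δ, hδ, h⟩ := Metric.continuousAt_iff.1 hca 1 one_pos
  refine ⟨δ, hδ, |c x| + 1, fun y hy => ?_⟩
  have h1 := h hy
  rw [Real.dist_eq] at h1
  have h2 := abs_sub_abs_le_abs_sub (c y) (c x)
  linarith

theorem gp_zero_notMem_nuclei : (0 : Space) ∉ nuclei := by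
  have hD := gp_bigD_pos
  intro h
  have key : ∀ z : Space, z ∈ nuclei → z 2 ≠ 0 := by
    intro z hz
    rcases hz with h | h
    · rw [h]; simp [ez, hD.ne']
    · rw [h]; simp [ez, hD.ne']
  exact key 0 h (by simp)

theorem gp_cos_pos_off_nuclei (hn : DensityBasic n) (hθ : IsFoldedMinimizer n θ) (hd : IsMultiplier n θ d)
    {x : Space} (hx : x ∉ nuclei) : 0 < Real.cos (θ x) := by
  by_contra hcon
  have h0 : Real.cos (θ x) = 0 := le_antisymm (not_lt.1 hcon) (hθ.cos_nonneg x)
  have hz : orbG n θ x = 0 := by unfold orbG; rw [h0, mul_zero]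
  have hcV : ContinuousOn (fun y => -2 * formalV n θ d y) nucleiᶜ :=
    continuousOn_const.mul (gp_formalV_continuousOn hn hθ.1 d)
  have := gp_min_principle (gp_continuous_orbG hn hθ.1.continuous) (gp_regVW_g hn hθ hd) gp_isOpen_nuclei_compl
    gp_isPreconnected_nuclei_compl (fun y _ => mul_nonneg (Real.sqrt_nonneg _) (hθ.cos_nonneg y))
    (gp_locally_bdd gp_isOpen_nuclei_compl hcV) (x₀ := x) hx hz 0 gp_zero_notMem_nuclei
  unfold orbG at this
  rw [hθ.eq_zero_of_plane (x := 0) (by simp), Real.cos_zero, mul_one] at this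
  exact (gp_sqrt_pos hn 0).ne' this

theorem gp_isOpen_upperHalf : IsOpen upperHalf :=
  isOpen_lt continuous_const (EuclideanSpace.proj (2 : Fin 3) : Space →L[ℝ] ℝ).continuous

theorem gp_theta_pos (hn : DensityBasic n) (hθ : IsFoldedMinimizer n θ) (hd : IsMultiplier n θ d)
    {x : Space} (hx : 0 < x 2) (hx' : x ∉ nuclei) : 0 < θ x := by
  by_contra hcon
  have h0 : θ x = 0 := le_antisymm (not_lt.1 hcon) (hθ.2.2.1 x hx).1
  have hz : orbH n θ x = 0 := by unfold orbH; rw [h0, Real.sin_zero, mul_zero]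
  have hΩ : IsOpen (upperHalf \ nuclei) := gp_isOpen_upperHalf.inter gp_isOpen_nuclei_compl
  have hcV : ContinuousOn (fun y => 2 * (d - formalV n θ d y)) (upperHalf \ nuclei) :=
    (continuousOn_const.mul (continuousOn_const.sub (gp_formalV_continuousOn hn hθ.1 d))).mono fun y hy => hy.2
  have hzero := gp_min_principle (gp_continuous_orbH hn hθ.1.continuous) (gp_regVW_h hn hθ hd) hΩ
    gp_isPreconnected_upper (fun y hy => by
      have h1 := hθ.2.2.1 y hy.1
      exact mul_nonneg (Real.sqrt_nonneg _) (Real.sin_nonneg_of_nonneg_of_le_pi h1.1 (by linarith [Real.pi_pos])))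
    (gp_locally_bdd hΩ hcV) (x₀ := x) ⟨hx, hx'⟩ hz
  have hnorm := (orb_norms hn hθ.2.1).2
  have hE := hθ.2.1.integrable_energy hn
  have hi := (orbH_isH1 hn hθ.2.1.1 hE).1.integrable_sq
  have hpar := (orb_parity hn hθ.2.1).2
  rw [tk_integral_even hi (hpar.mono fun y hy => by rw [hy, neg_sq])] at hnorm
  have h1 : ∫ y in upperHalf, orbH n θ y ^ 2 = 0 := by
    have : ∀ᵐ y ∂(volume.restrict upperHalf), orbH n θ y ^ 2 = 0 := by
      rw [ae_restrict_iff' gp_isOpen_upperHalf.measurableSet]
      have hnull : ∀ᵐ y : Space, y ∉ nuclei := by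
        rw [ae_iff]
        simpa using gp_nuclei_null
      filter_upwards [hnull] with y hy hyu
      rw [hzero y ⟨hyu, hy⟩]
      norm_num
    rw [integral_congr_ae this, integral_zero]
  rw [h1] at hnorm
  norm_num at hnorm

end Claimed.Open.R278
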