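import Claimed.Open.R278.GPMin

/-!
# Package GP, leaves GP-D1, GP-D2: the odd part of the weighted gap (4.27), by Picone's inequality

`w = n cos² θ`, `f = tan θ ≥ 0` on `Ω₊ = upperHalf`, `w ∇f = n ∇θ`.  Let `ξ ∈ C¹_c` vanish on the plane `z = 0`.  For `ε > 0` the test function
`ψ_ε = 1_{Ω₊} ξ²/(tan θ + ε)`  (`gpPic`)  has the weak gradient  `1_{Ω₊} [ 2 ξ/(tan θ+ε) ∇ξ - ξ²/((tan θ+ε)² cos² θ) ∇θ ]`  (`gpPicGrad`).

GP-D1 (`gp_pic_test`).  `θ₊ = 1_{Ω₊} θ` is continuous (θ = 0 on the plane), has values in `[0, π/2) ⊆ I_ε = (-arctan ε, π/2)` (`hg`: `cos θ > 0`), and weak gradient `1_{Ω₊} ∇θ`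
(`isWeakGrad_indicator_upper_of_contDiff`, `IsFoldedMinimizer.eq_zero_of_plane`).  `Θ_ε(t) = 1/(tan t + ε)` is `C¹` on `I_ε` (`tan t + ε > 0` there), `Θ_ε' = -1/((tan t+ε)² cos² t)`: `tk_weakGrad_comp_loc`.
`1_{Ω₊} ξ²` has weak gradient `1_{Ω₊} 2 ξ ∇ξ` (same indicator lemma for the `C¹` function `ξ²`).  Product rule (`IsWeakGrad.mul` / `IsWeakGrad.mul_bdd`; everything is continuous/bounded on compact sets).
Bridge `isWeakGrad_iff_weakGrad`.  `ψ_ε` is continuous with compact support; its gradient is bounded with compact support.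

GP-D2.  `gp_pic_pointwise`: with `a = ξ/((tan θ+ε) cos² θ) ∇θ`:  `n ⟪∇θ, gpPicGrad⟫ = w (2 ⟪a,∇ξ⟫ - |a|²) ≤ w |∇ξ|²`  (`n = w / cos² θ`).
`gp_odd_eps`: `DriftEq.test` with `ψ_ε`; `n sin 2θ ψ_ε = 2 w ξ² tan θ/(tan θ+ε)` on `Ω₊`.
`gp_odd_gap_half`: `ε = 1/(j+1) → 0`, dominated convergence (`0 ≤ tan θ/(tan θ+ε) ≤ 1`, `→ 1` where `θ > 0`, i.e. a.e. on `Ω₊` by `gp_theta_pos`, `gp_nuclei_null`).
`gp_odd_gap`: both integrands are even (`n` even, `θ` odd, `ξ` odd, `‖∇ξ (reflZ x)‖ = ‖∇ξ x‖`): `tk_integral_even`.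
-/

open MeasureTheory
open scoped ContDiff InnerProductSpace ENNReal Topology

noncomputable section

namespace Claimed.Open.R278

/-- the weight `w = g² = n cos² θ`. -/
def gpw (n θ : Space → ℝ) (x : Space) : ℝ := n x * Real.cos (θ x) ^ 2

/-- Picone test function. -/
def gpPic (θ ξ : Space → ℝ) (ε : ℝ) (x : Space) : ℝ :=
  if 0 < x 2 then ξ x ^ 2 / (Real.tan (θ x) + ε) else 0

/-- its weak gradient. -/
def gpPicGrad (θ ξ : Space → ℝ) (ε : ℝ) (x : Space) : Space :=
  if 0 < x 2 then (2 * ξ x / (Real.tan (θ x) + ε)) • gradient ξ x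
    - (ξ x ^ 2 / ((Real.tan (θ x) + ε) ^ 2 * Real.cos (θ x) ^ 2)) • gradient θ x else 0

variable {n θ ξ : Space → ℝ} {d : ℝ}

theorem gpd_measurableSet_upper : MeasurableSet {x : Space | 0 < x 2} :=
  (isOpen_lt continuous_const (by fun_prop : Continuous fun x : Space => x 2)).measurableSet

theorem gpd_l2loc_ite {F : Type*} [NormedAddCommGroup F] {H : Space → F} (hH : AnL2loc H) :
    AnL2loc (fun x => if 0 < x 2 then H x else 0) := by
  intro R
  exact (hH R).indicator gpd_measurableSet_upper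

theorem gpd_continuous_ite {f : Space → ℝ} (hf : Continuous f) (h0 : ∀ x : Space, x 2 = 0 → f x = 0) :
    Continuous (fun x : Space => if 0 < x 2 then f x else 0) := by
  have h : (fun x : Space => if 0 < x 2 then f x else 0) = fun x : Space => if x 2 ≤ 0 then 0 else f x := by
    funext x
    by_cases hx : 0 < x 2
    · rw [if_pos hx, if_neg (not_le.2 hx)]
    · rw [if_neg hx, if_pos (not_lt.1 hx)]
  rw [h]
  exact Continuous.if_le continuous_const hf (by fun_prop) continuous_const (fun x hx => (h0 x hx).symm)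

/-- `Θ_ε`. -/
def gpdTh (ε t : ℝ) : ℝ := (Real.tan t + ε)⁻¹

theorem gpd_I_cos {ε t : ℝ} (ht : t ∈ Set.Ioo (-Real.arctan ε) (Real.pi / 2)) : 0 < Real.cos t :=
  Real.cos_pos_of_mem_Ioo ⟨by linarith [ht.1, Real.arctan_lt_pi_div_two ε], ht.2⟩

theorem gpd_I_tan {ε t : ℝ} (ht : t ∈ Set.Ioo (-Real.arctan ε) (Real.pi / 2)) : 0 < Real.tan t + ε := by
  have h1 : Real.tan (-Real.arctan ε) < Real.tan t :=
    Real.tan_lt_tan_of_lt_of_lt_pi_div_two (by linarith [Real.arctan_lt_pi_div_two ε]) ht.2 ht.1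
  rw [Real.tan_neg, Real.tan_arctan] at h1
  linarith

theorem gpdTh_hasDerivAt {ε t : ℝ} (ht : t ∈ Set.Ioo (-Real.arctan ε) (Real.pi / 2)) :
    HasDerivAt (gpdTh ε) (-(1 / ((Real.tan t + ε) ^ 2 * Real.cos t ^ 2))) t := by
  have h1 := ((Real.hasDerivAt_tan (gpd_I_cos ht).ne').add_const ε).inv (gpd_I_tan ht).ne'
  have e : -(1 / ((Real.tan t + ε) ^ 2 * Real.cos t ^ 2)) = -(1 / Real.cos t ^ 2) / (Real.tan t + ε) ^ 2 := by
    have := (gpd_I_cos ht).ne'
    have := (gpd_I_tan ht).ne'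
    field_simp
  rw [e]
  exact h1

theorem gpdTh_contDiffOn (ε : ℝ) :
    ContDiffOn ℝ 1 (gpdTh ε) (Set.Ioo (-Real.arctan ε) (Real.pi / 2)) := by
  intro t ht
  refine ContDiffAt.contDiffWithinAt ?_
  exact ((Real.contDiffAt_tan.2 (gpd_I_cos ht).ne').add contDiffAt_const).inv (gpd_I_tan ht).ne'

/-- on the upper half space `0 ≤ θ < π/2`. -/
theorem gpd_theta_mem (hθ : IsFoldedMinimizer n θ) (hg : ∀ x, 0 < Real.cos (θ x)) {x : Space} (hx : 0 < x 2) :
    0 ≤ θ x ∧ θ x < Real.pi / 2 := by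
  obtain ⟨h1, h2⟩ := hθ.2.2.1 x hx
  refine ⟨h1, lt_of_le_of_ne h2 fun h => ?_⟩
  have := hg x
  rw [h, Real.cos_pi_div_two] at this
  exact lt_irrefl _ this

theorem gpd_tan_nonneg (hθ : IsFoldedMinimizer n θ) (hg : ∀ x, 0 < Real.cos (θ x)) {x : Space} (hx : 0 < x 2) :
    0 ≤ Real.tan (θ x) :=
  Real.tan_nonneg_of_nonneg_of_le_pi_div_two (gpd_theta_mem hθ hg hx).1 (gpd_theta_mem hθ hg hx).2.le

theorem gpd_gradient_sq {ξ : Space → ℝ} {x : Space} (hξ : DifferentiableAt ℝ ξ x) :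
    gradient (fun y => ξ y ^ 2) x = (2 * ξ x) • gradient ξ x := by
  have := gp_gradient_mul hξ hξ
  have e : (fun y => ξ y ^ 2) = fun y => ξ y * ξ y := by funext y; ring
  rw [e, this, ← add_smul]
  ring_nf

/-! ### GP-D1 -/

theorem gp_pic_test (hθ : IsFoldedMinimizer n θ) (hg : ∀ x, 0 < Real.cos (θ x)) (hξ : ContDiff ℝ 1 ξ)
    (hc : HasCompactSupport ξ) (h0 : ∀ x : Space, x 2 = 0 → ξ x = 0) {ε : ℝ} (hε : 0 < ε) :
    Claimed.Agent.R259.WeakGrad (gpPic θ ξ ε) (gpPicGrad θ ξ ε) ∧ AnL2loc (gpPic θ ξ ε) ∧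
      AnL2loc (gpPicGrad θ ξ ε) ∧ HasCompactSupport (gpPic θ ξ ε) := by
  set I : Set ℝ := Set.Ioo (-Real.arctan ε) (Real.pi / 2) with hI
  set θp : Space → ℝ := fun x => if 0 < x 2 then θ x else 0 with hθp
  set Gp : Space → Space := fun x => if 0 < x 2 then gradient θ x else 0 with hGp
  have hat : 0 < Real.arctan ε := Real.arctan_pos.2 hε
  have w1 : IsWeakGrad θp Gp := isWeakGrad_indicator_upper_of_contDiff hθ.1 (fun x hx => hθ.eq_zero_of_plane hx)
  have c1 : Continuous θp := gpd_continuous_ite hθ.1.continuous (fun x hx => hθ.eq_zero_of_plane hx)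
  have m1 : ∀ x, θp x ∈ I := by
    intro x
    by_cases hx : 0 < x 2
    · simp only [hθp, if_pos hx]
      exact ⟨by linarith [(gpd_theta_mem hθ hg hx).1], (gpd_theta_mem hθ hg hx).2⟩
    · simp only [hθp, if_neg hx]
      exact ⟨by linarith, by positivity⟩
  have w2 := tk_weakGrad_comp_loc w1 c1 isOpen_Ioo m1 (gpdTh_contDiffOn ε)
  have hsq : ContDiff ℝ 1 (fun x => ξ x ^ 2) := hξ.pow 2
  have w3 := isWeakGrad_indicator_upper_of_contDiff hsq (fun x hx => by rw [h0 x hx]; ring)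
  have c2 : Continuous (fun x => gpdTh ε (θp x)) := (gpdTh_contDiffOn ε).continuousOn.comp_continuous c1 m1
  have c2' : Continuous (fun x => deriv (gpdTh ε) (θp x)) :=
    ((gpdTh_contDiffOn ε).continuousOn_deriv_of_isOpen isOpen_Ioo le_rfl).comp_continuous c1 m1
  have c3 : Continuous (fun x : Space => if 0 < x 2 then ξ x ^ 2 else 0) :=
    gpd_continuous_ite hsq.continuous (fun x hx => by rw [h0 x hx]; ring)
  have l1 : AnL2loc Gp := gpd_l2loc_ite (anL2loc_of_continuous (continuous_gradient hθ.1))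
  have l2 : AnL2loc (fun x => deriv (gpdTh ε) (θp x) • Gp x) := l1.smul_continuous c2'
  have l3 : AnL2loc (fun x : Space => if 0 < x 2 then gradient (fun y => ξ y ^ 2) x else 0) :=
    gpd_l2loc_ite (anL2loc_of_continuous (continuous_gradient hsq))
  have w4 := w3.mul w2 (anL2loc_iff_l2Loc.1 (anL2loc_of_continuous c3)) (anL2loc_iff_l2Loc.1 l3)
    (anL2loc_iff_l2Loc.1 (anL2loc_of_continuous c2)) (anL2loc_iff_l2Loc.1 l2)
  have e1 : (fun x : Space => (if 0 < x 2 then ξ x ^ 2 else 0) * gpdTh ε (θp x)) = gpPic θ ξ ε := by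
    funext x
    by_cases hx : 0 < x 2
    · simp only [hθp, gpPic, if_pos hx, gpdTh]; rfl
    · simp only [gpPic, if_neg hx, zero_mul]
  have e2 : (fun x : Space => gpdTh ε (θp x) • (if 0 < x 2 then gradient (fun y => ξ y ^ 2) x else 0)
      + (if 0 < x 2 then ξ x ^ 2 else 0) • (deriv (gpdTh ε) (θp x) • Gp x)) = gpPicGrad θ ξ ε := by
    funext x
    by_cases hx : 0 < x 2
    · have hm := m1 x
      simp only [hθp, if_pos hx] at hm
      simp only [hθp, hGp, gpPicGrad, if_pos hx, (gpdTh_hasDerivAt hm).deriv,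
        gpd_gradient_sq (hξ.differentiable one_ne_zero x), gpdTh, smul_smul, sub_eq_add_neg, ← neg_smul]
      congr 2 <;> ring
    · simp only [gpPicGrad, if_neg hx, smul_zero, zero_smul, add_zero]
  rw [e1, e2] at w4
  refine ⟨w4.ws, ?_, ?_, ?_⟩
  · rw [← e1]; exact anL2loc_of_continuous (c3.mul c2)
  · rw [← e2]
    intro R
    exact ((l3.smul_continuous c2) R).add ((l2.smul_continuous c3) R)
  · refine hc.mono fun x hx => ?_
    intro h
    apply hx
    simp only [gpPic, h]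
    split_ifs <;> simp

/-! ### GP-D2 -/

theorem gp_pic_pointwise (hn : ∀ x, 0 < n x) (hθ : IsFoldedMinimizer n θ) (hg : ∀ x, 0 < Real.cos (θ x)) {ε : ℝ}
    (hε : 0 < ε) (x : Space) (hx : 0 < x 2) :
    n x * ⟪gradient θ x, gpPicGrad θ ξ ε x⟫_ℝ ≤ gpw n θ x * ‖gradient ξ x‖ ^ 2 := by
  have hT : 0 < Real.tan (θ x) + ε := by linarith [gpd_tan_nonneg hθ hg hx]
  have hc := hg x
  set T := Real.tan (θ x) + ε with hTdef
  set c := Real.cos (θ x) with hcdef
  set a : Space := (ξ x / (T * c ^ 2)) • gradient θ x with ha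
  have key : 0 ≤ ‖a - gradient ξ x‖ ^ 2 := by positivity
  rw [norm_sub_sq_real] at key
  have e1 : ⟪a, gradient ξ x⟫_ℝ = ξ x / (T * c ^ 2) * ⟪gradient θ x, gradient ξ x⟫_ℝ := by
    rw [ha, real_inner_smul_left]
  have e2 : ‖a‖ ^ 2 = (ξ x / (T * c ^ 2)) ^ 2 * ‖gradient θ x‖ ^ 2 := by
    rw [ha, norm_smul, mul_pow, Real.norm_eq_abs, sq_abs]
  have e3 : n x * ⟪gradient θ x, gpPicGrad θ ξ ε x⟫_ℝ
      = n x * c ^ 2 * (2 * ⟪a, gradient ξ x⟫_ℝ - ‖a‖ ^ 2) := by
    rw [e1, e2]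
    simp only [gpPicGrad, if_pos hx, inner_sub_right, real_inner_smul_right, real_inner_self_eq_norm_sq]
    rw [← hTdef, ← hcdef]
    field_simp
  rw [e3]
  unfold gpw
  have : 0 ≤ n x * c ^ 2 := by have := hn x; positivity
  exact mul_le_mul_of_nonneg_left (by linarith) this

theorem gpd_continuous_gpw (hn : Continuous n) (hθ : Continuous θ) : Continuous (gpw n θ) := by
  unfold gpw
  fun_prop

theorem gpd_gpw_nonneg (hn : ∀ x, 0 < n x) (x : Space) : 0 ≤ gpw n θ x := by
  unfold gpw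
  have := hn x
  positivity

theorem gpd_integrable_grad (hn : Continuous n) (hθ : Continuous θ) (hξ : ContDiff ℝ 1 ξ) (hc : HasCompactSupport ξ) :
    Integrable (fun x => gpw n θ x * ‖gradient ξ x‖ ^ 2) := by
  refine Continuous.integrable_of_hasCompactSupport ?_ ?_
  · exact (gpd_continuous_gpw hn hθ).mul ((continuous_gradient hξ).norm.pow 2)
  · refine HasCompactSupport.mul_left ?_
    refine hc.mono' fun x hx => ?_
    by_contra h
    apply hx
    simp only [tk2_gradient_zero h, norm_zero]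
    norm_num

theorem gpd_integrable_sq (hn : Continuous n) (hθ : Continuous θ) (hξ : Continuous ξ) (hc : HasCompactSupport ξ) :
    Integrable (fun x => gpw n θ x * ξ x ^ 2) := by
  refine Continuous.integrable_of_hasCompactSupport ?_ ?_
  · exact (gpd_continuous_gpw hn hθ).mul (hξ.pow 2)
  · refine HasCompactSupport.mul_left ?_
    refine hc.mono fun x hx => ?_
    intro h
    apply hx
    simp only [h]
    norm_num

theorem gp_odd_eps (hn : DensityBasic n) (hθ : IsFoldedMinimizer n θ) (hd : IsMultiplier n θ d)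
    (hg : ∀ x, 0 < Real.cos (θ x)) (hξ : ContDiff ℝ 1 ξ) (hc : HasCompactSupport ξ)
    (h0 : ∀ x : Space, x 2 = 0 → ξ x = 0) {ε : ℝ} (hε : 0 < ε) :
    2 * d * (∫ x in upperHalf, gpw n θ x * ξ x ^ 2 * (Real.tan (θ x) / (Real.tan (θ x) + ε)))
      ≤ ∫ x in upperHalf, gpw n θ x * ‖gradient ξ x‖ ^ 2 := by
  obtain ⟨t1, t2, t3, t4⟩ := gp_pic_test hθ hg hξ hc h0 hε
  have E := (hθ.driftEq hn hd).test hn.continuous (F := |d|) (Filter.Eventually.of_forall fun x => by
    rw [abs_mul]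
    exact mul_le_of_le_one_right (abs_nonneg _) (Real.abs_sin_le_one _)) t1 t2 t3 t4
  have hm : MeasurableSet upperHalf := gpd_measurableSet_upper
  have r1 : (∫ x, n x * (d * Real.sin (2 * θ x)) * gpPic θ ξ ε x)
      = 2 * d * (∫ x in upperHalf, gpw n θ x * ξ x ^ 2 * (Real.tan (θ x) / (Real.tan (θ x) + ε))) := by
    rw [← integral_const_mul, ← integral_indicator hm]
    refine integral_congr_ae (Filter.Eventually.of_forall fun x => ?_)
    by_cases hx : 0 < x 2
    · have hx' : x ∈ upperHalf := hx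
      simp only [Set.indicator_of_mem hx', gpPic, if_pos hx, gpw]
      have hT : 0 < Real.tan (θ x) + ε := by linarith [gpd_tan_nonneg hθ hg hx]
      have hs : Real.sin (θ x) = Real.tan (θ x) * Real.cos (θ x) := (Real.tan_mul_cos (hg x).ne').symm
      rw [Real.sin_two_mul, hs]
      field_simp
    · have hx' : x ∉ upperHalf := hx
      simp only [Set.indicator_of_notMem hx', gpPic, if_neg hx, mul_zero]
  have r2 : (∫ x, n x * ⟪gradient θ x, gpPicGrad θ ξ ε x⟫_ℝ)
      = ∫ x in upperHalf, n x * ⟪gradient θ x, gpPicGrad θ ξ ε x⟫_ℝ := by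
    rw [← integral_indicator hm]
    refine integral_congr_ae (Filter.Eventually.of_forall fun x => ?_)
    by_cases hx : 0 < x 2
    · have hx' : x ∈ upperHalf := hx
      simp only [Set.indicator_of_mem hx']
    · have hx' : x ∉ upperHalf := hx
      simp only [Set.indicator_of_notMem hx', gpPicGrad, if_neg hx, inner_zero_right, mul_zero]
  rw [← r1, ← E, r2]
  have hi := (gpd_integrable_grad hn.continuous hθ.1.continuous hξ hc).integrableOn (s := upperHalf)
  by_cases hint : IntegrableOn (fun x => n x * ⟪gradient θ x, gpPicGrad θ ξ ε x⟫_ℝ) upperHalf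
  · exact setIntegral_mono_on hint hi hm fun x hx => gp_pic_pointwise hn.pos hθ hg hε x hx
  · rw [integral_undef hint]
    exact integral_nonneg fun x => mul_nonneg (gpd_gpw_nonneg hn.pos x) (by positivity)

theorem gpd_continuous_tan (hθ : Continuous θ) (hg : ∀ x, 0 < Real.cos (θ x)) :
    Continuous fun x => Real.tan (θ x) := by
  simp only [Real.tan_eq_sin_div_cos]
  exact (Real.continuous_sin.comp hθ).div (Real.continuous_cos.comp hθ) fun x => (hg x).ne'

/-- (4.27) on the upper half space, for `C¹_c` functions vanishing on the plane. -/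
theorem gp_odd_gap_half (hn : DensityBasic n) (hθ : IsFoldedMinimizer n θ) (hd : IsMultiplier n θ d)
    (hg : ∀ x, 0 < Real.cos (θ x)) (hξ : ContDiff ℝ 1 ξ) (hc : HasCompactSupport ξ)
    (h0 : ∀ x : Space, x 2 = 0 → ξ x = 0) :
    d * (∫ x in upperHalf, gpw n θ x * ξ x ^ 2)
      ≤ (1 / 2) * ∫ x in upperHalf, gpw n θ x * ‖gradient ξ x‖ ^ 2 := by
  have hm : MeasurableSet upperHalf := gpd_measurableSet_upper
  have hct := gpd_continuous_tan hθ.1.continuous hg
  have hcw : Continuous fun x => gpw n θ x * ξ x ^ 2 :=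
    (gpd_continuous_gpw hn.continuous hθ.1.continuous).mul (hξ.continuous.pow 2)
  have hlim : Filter.Tendsto (fun j : ℕ => ∫ x in upperHalf, gpw n θ x * ξ x ^ 2 *
      (Real.tan (θ x) / (Real.tan (θ x) + 1 / ((j : ℝ) + 1)))) Filter.atTop
      (𝓝 (∫ x in upperHalf, gpw n θ x * ξ x ^ 2)) := by
    refine tendsto_integral_of_dominated_convergence (fun x => gpw n θ x * ξ x ^ 2) ?_ ?_ ?_ ?_
    · intro j
      exact (hcw.measurable.mul (hct.measurable.div (hct.measurable.add_const _))).aestronglyMeasurable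
    · exact (gpd_integrable_sq hn.continuous hθ.1.continuous hξ.continuous hc).integrableOn
    · intro j
      refine ae_restrict_of_forall_mem hm fun x hx => ?_
      have hT := gpd_tan_nonneg hθ hg hx
      have hj : (0 : ℝ) < 1 / ((j : ℝ) + 1) := by positivity
      have hw : 0 ≤ gpw n θ x * ξ x ^ 2 := mul_nonneg (gpd_gpw_nonneg hn.pos x) (by positivity)
      have h1 : Real.tan (θ x) / (Real.tan (θ x) + 1 / ((j : ℝ) + 1)) ≤ 1 := by
        rw [div_le_one (by linarith)]; linarith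
      have h2 : 0 ≤ Real.tan (θ x) / (Real.tan (θ x) + 1 / ((j : ℝ) + 1)) := div_nonneg hT (by linarith)
      rw [Real.norm_eq_abs, abs_of_nonneg (mul_nonneg hw h2)]
      exact mul_le_of_le_one_right hw h1
    · have hnull : ∀ᵐ x : Space, x ∉ nuclei := measure_eq_zero_iff_ae_notMem.1 gp_nuclei_null
      rw [ae_restrict_iff' hm]
      filter_upwards [hnull] with x hx hx2
      have hpos : 0 < Real.tan (θ x) :=
        Real.tan_pos_of_pos_of_lt_pi_div_two (gp_theta_pos hn hθ hd hx2 hx) (gpd_theta_mem hθ hg hx2).2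
      have h1 : Filter.Tendsto (fun j : ℕ => Real.tan (θ x) / (Real.tan (θ x) + 1 / ((j : ℝ) + 1))) Filter.atTop
          (𝓝 (Real.tan (θ x) / (Real.tan (θ x) + 0))) :=
        tendsto_const_nhds.div (tendsto_const_nhds.add tendsto_one_div_add_atTop_nhds_zero_nat)
          (by rw [add_zero]; exact hpos.ne')
      rw [add_zero, div_self hpos.ne'] at h1
      simpa using h1.const_mul (gpw n θ x * ξ x ^ 2)
  have hle : 2 * d * (∫ x in upperHalf, gpw n θ x * ξ x ^ 2)
      ≤ ∫ x in upperHalf, gpw n θ x * ‖gradient ξ x‖ ^ 2 :=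
    le_of_tendsto' (hlim.const_mul (2 * d)) fun j => gp_odd_eps hn hθ hd hg hξ hc h0 (by positivity)
  linarith

/-- norm of the gradient of a function with a reflection parity. -/
theorem gpd_norm_gradient_reflZ {u : Space → ℝ} {c : ℝ} (hc : |c| = 1) (hu : ∀ x, u (reflZ x) = c * u x)
    (x : Space) : ‖gradient u (reflZ x)‖ = ‖gradient u x‖ := by
  have hn : ∀ y, ‖gradient u y‖ = ‖fderiv ℝ u y‖ := fun y => by
    unfold gradient
    exact LinearIsometryEquiv.norm_map _ _
  rw [hn, hn]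
  have e1 : fderiv ℝ (fun y => u (reflZ y)) x = c • fderiv ℝ u x := by
    have : (fun y => u (reflZ y)) = c • u := funext hu
    rw [this]
    rw [fderiv_const_smul_field c]; rfl
  have e2 : fderiv ℝ (fun y => u (reflZ y)) x
      = (fderiv ℝ u (reflZ x)).comp (fstRefl.toContinuousLinearEquiv : Space →L[ℝ] Space) := by
    have e : (fun y => u (reflZ y)) = u ∘ fstRefl.toContinuousLinearEquiv := rfl
    rw [e, ContinuousLinearEquiv.comp_right_fderiv]; rfl
  have e3 : ‖(fderiv ℝ u (reflZ x)).comp (fstRefl.toContinuousLinearEquiv : Space →L[ℝ] Space)‖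
      = ‖fderiv ℝ u (reflZ x)‖ := ContinuousLinearMap.opNorm_comp_linearIsometryEquiv _ fstRefl
  rw [← e3, ← e2, e1, norm_smul, Real.norm_eq_abs, hc, one_mul]

/-- the odd part of the gap. -/
theorem gp_odd_gap (hn : DensityBasic n) (hθ : IsFoldedMinimizer n θ) (hd : IsMultiplier n θ d)
    (hg : ∀ x, 0 < Real.cos (θ x)) (hξ : ContDiff ℝ 1 ξ) (hc : HasCompactSupport ξ)
    (hodd : ∀ x, ξ (reflZ x) = -ξ x) :
    d * (∫ x, gpw n θ x * ξ x ^ 2) ≤ (1 / 2) * ∫ x, gpw n θ x * ‖gradient ξ x‖ ^ 2 := by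
  have h0 : ∀ x : Space, x 2 = 0 → ξ x = 0 := by
    intro x hx
    have e : reflZ x = x := by
      apply space_ext <;> simp [hx]
    have := hodd x
    rw [e] at this
    linarith
  have hw : ∀ x, gpw n θ (reflZ x) = gpw n θ x := by
    intro x
    unfold gpw
    rw [hn.even, hθ.odd, Real.cos_neg]
  rw [tk_integral_even (gpd_integrable_sq hn.continuous hθ.1.continuous hξ.continuous hc)
      (Filter.Eventually.of_forall fun x => by rw [hw, hodd]; ring),
    tk_integral_even (gpd_integrable_grad hn.continuous hθ.1.continuous hξ hc)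
      (Filter.Eventually.of_forall fun x => by
        rw [hw, gpd_norm_gradient_reflZ (c := -1) (by norm_num) (fun y => by rw [hodd]; ring)])]
  have := gp_odd_gap_half hn hθ hd hg hξ hc h0
  linarith

end Claimed.Open.R278
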