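import Claimed.Open.R278.TKCalc

/-!
# Packages GP/AC, leaf GP-O1: the orbitals `g = √n cos ϑ`, `h = √n sin ϑ` of an angle in the energy space are in `H¹`; kinetic identity (4.10)

Here `(ϑ, G)` is ANY pair with `IsWeakGrad ϑ G` and `∫ n |G|² < ∞` (no regularity, no folding): used for competitors at zero coupling (package AC) and for folded minimizers (GP).

ROUTE.  `s = √n` is continuous, positive, `IsH1 s (gradient s)` (`DensityBasic.sqrt_h1`).  `cos ϑ`, `sin ϑ` have weak gradients `-sin ϑ • G`, `cos ϑ • G` (`IsWeakGrad.comp`, derivative bounded by 1).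
`G ∈ L²_loc` because `n ≥ c_R > 0` on balls.  Product rule `IsWeakGrad.mul` (all four functions in `L²_loc`).  `L²` bounds: `g² + h² = n`, and pointwise
`‖∇g‖² + ‖∇h‖² = ‖∇s‖² + n ‖G‖²` (expand; the cross terms cancel, `cos² + sin² = 1`, `s² = n`).
-/

open MeasureTheory
open scoped ContDiff InnerProductSpace ENNReal Topology

noncomputable section

namespace Claimed.Open.R278

/-- the weak gradient of `orbG n ϑ`. -/
def orbGgrad (n ϑ : Space → ℝ) (G : Space → Space) (x : Space) : Space :=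
  Real.cos (ϑ x) • gradient (fun y => √(n y)) x - (√(n x) * Real.sin (ϑ x)) • G x

/-- the weak gradient of `orbH n ϑ`. -/
def orbHgrad (n ϑ : Space → ℝ) (G : Space → Space) (x : Space) : Space :=
  Real.sin (ϑ x) • gradient (fun y => √(n y)) x + (√(n x) * Real.cos (ϑ x)) • G x

variable {n ϑ : Space → ℝ} {G : Space → Space}

theorem orb_sq_add (hn : ∀ x, 0 < n x) (x : Space) : orbG n ϑ x ^ 2 + orbH n ϑ x ^ 2 = n x := by
  unfold orbG orbH
  have h1 := Real.sq_sqrt (hn x).le
  have h2 := Real.cos_sq_add_sin_sq (ϑ x)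
  calc _ = √(n x) ^ 2 * (Real.cos (ϑ x) ^ 2 + Real.sin (ϑ x) ^ 2) := by ring
    _ = n x := by rw [h1, h2, mul_one]

theorem gp_rot_pointwise (c s g : ℝ) (hcs : c ^ 2 + s ^ 2 = 1) (S T : Space) :
    ‖c • S - (g * s) • T‖ ^ 2 + ‖s • S + (g * c) • T‖ ^ 2 = ‖S‖ ^ 2 + g ^ 2 * ‖T‖ ^ 2 := by
  rw [norm_sub_sq_real, norm_add_sq_real]
  simp only [norm_smul, mul_pow, Real.norm_eq_abs, sq_abs, real_inner_smul_left, real_inner_smul_right]
  have : ‖S‖ ^ 2 + g ^ 2 * ‖T‖ ^ 2 = (c ^ 2 + s ^ 2) * (‖S‖ ^ 2 + g ^ 2 * ‖T‖ ^ 2) := by rw [hcs, one_mul]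
  rw [this]
  ring

/-- (4.10). -/
theorem orb_kinetic (hn : ∀ x, 0 < n x) (x : Space) :
    ‖orbGgrad n ϑ G x‖ ^ 2 + ‖orbHgrad n ϑ G x‖ ^ 2
      = ‖gradient (fun y => √(n y)) x‖ ^ 2 + n x * ‖G x‖ ^ 2 := by
  unfold orbGgrad orbHgrad
  rw [gp_rot_pointwise _ _ _ (Real.cos_sq_add_sin_sq (ϑ x)), Real.sq_sqrt (hn x).le]

theorem gp_l2Loc_of_bdd {f : Space → ℝ} (hm : AEStronglyMeasurable f volume) {C : ℝ} (hC : ∀ x, |f x| ≤ C) :
    L2Loc volume f := by
  intro K hK
  have : IsFiniteMeasure (volume.restrict K) := ⟨by rw [Measure.restrict_apply_univ]; exact hK.measure_lt_top⟩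
  exact MemLp.of_bound hm.restrict C (Filter.Eventually.of_forall fun x => by rw [Real.norm_eq_abs]; exact hC x)

theorem gp_l2Loc_grad (hn : DensityBasic n) (hw : IsWeakGrad ϑ G) (hE : Integrable (fun x => n x * ‖G x‖ ^ 2)) :
    L2Loc volume G :=
  anL2loc_iff_l2Loc.1 (anL2loc_of_memLp_dm hn.continuous hn.pos
    ((memLp_dm_iff hn.continuous hn.pos hw.2.1.aestronglyMeasurable).2 hE))

theorem gp_l2Loc_smul_of_bdd {f : Space → ℝ} {F : Space → Space} (hF : L2Loc volume F)
    (hm : AEStronglyMeasurable f volume) (hC : ∀ x, |f x| ≤ 1) : L2Loc volume (fun x => f x • F x) := by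
  intro K hK
  refine (hF K hK).mono (hm.restrict.smul (hF K hK).1) (Filter.Eventually.of_forall fun x => ?_)
  rw [norm_smul, Real.norm_eq_abs]
  exact mul_le_of_le_one_left (norm_nonneg _) (hC x)

theorem gp_weakGrad_cos (hw : IsWeakGrad ϑ G) :
    IsWeakGrad (fun x => Real.cos (ϑ x)) (fun x => (-Real.sin (ϑ x)) • G x) := by
  have := hw.comp Real.contDiff_cos (C := 1) (fun z => by
    rw [Real.deriv_cos, abs_neg]; exact Real.abs_sin_le_one z)
  simpa only [Real.deriv_cos] using this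

theorem gp_weakGrad_sin (hw : IsWeakGrad ϑ G) :
    IsWeakGrad (fun x => Real.sin (ϑ x)) (fun x => Real.cos (ϑ x) • G x) := by
  have := hw.comp Real.contDiff_sin (C := 1) (fun z => by
    rw [Real.deriv_sin]; exact Real.abs_cos_le_one z)
  simpa only [Real.deriv_sin] using this

theorem gp_orbG_weakGrad (hn : DensityBasic n) (hw : IsWeakGrad ϑ G) (hE : Integrable (fun x => n x * ‖G x‖ ^ 2)) :
    IsWeakGrad (orbG n ϑ) (orbGgrad n ϑ G) := by
  have hm : AEStronglyMeasurable ϑ volume := hw.1.aestronglyMeasurable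
  have hms : AEStronglyMeasurable (fun x => -Real.sin (ϑ x)) volume :=
    (Real.continuous_sin.comp_aestronglyMeasurable hm).neg
  have hmc : AEStronglyMeasurable (fun x => Real.cos (ϑ x)) volume := Real.continuous_cos.comp_aestronglyMeasurable hm
  have h1 := hn.sqrt_h1.2.2.mul (gp_weakGrad_cos hw) (MemLp.l2Loc hn.sqrt_h1.1) (MemLp.l2Loc hn.sqrt_h1.2.1)
    (gp_l2Loc_of_bdd hmc (C := 1) fun x => Real.abs_cos_le_one _)
    (gp_l2Loc_smul_of_bdd (gp_l2Loc_grad hn hw hE) hms fun x => by rw [abs_neg]; exact Real.abs_sin_le_one _)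
  have e : (fun x => Real.cos (ϑ x) • gradient (fun y => √(n y)) x + √(n x) • ((-Real.sin (ϑ x)) • G x))
      = orbGgrad n ϑ G := by
    funext x
    unfold orbGgrad
    rw [smul_smul, mul_neg, neg_smul, sub_eq_add_neg]
  rw [e] at h1
  exact h1

theorem gp_orbH_weakGrad (hn : DensityBasic n) (hw : IsWeakGrad ϑ G) (hE : Integrable (fun x => n x * ‖G x‖ ^ 2)) :
    IsWeakGrad (orbH n ϑ) (orbHgrad n ϑ G) := by
  have hm : AEStronglyMeasurable ϑ volume := hw.1.aestronglyMeasurable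
  have hms : AEStronglyMeasurable (fun x => Real.sin (ϑ x)) volume := Real.continuous_sin.comp_aestronglyMeasurable hm
  have hmc : AEStronglyMeasurable (fun x => Real.cos (ϑ x)) volume := Real.continuous_cos.comp_aestronglyMeasurable hm
  have h1 := hn.sqrt_h1.2.2.mul (gp_weakGrad_sin hw) (MemLp.l2Loc hn.sqrt_h1.1) (MemLp.l2Loc hn.sqrt_h1.2.1)
    (gp_l2Loc_of_bdd hms (C := 1) fun x => Real.abs_sin_le_one _)
    (gp_l2Loc_smul_of_bdd (gp_l2Loc_grad hn hw hE) hmc fun x => Real.abs_cos_le_one _)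
  have e : (fun x => Real.sin (ϑ x) • gradient (fun y => √(n y)) x + √(n x) • (Real.cos (ϑ x) • G x))
      = orbHgrad n ϑ G := by
    funext x
    unfold orbHgrad
    rw [smul_smul]
  rw [e] at h1
  exact h1

theorem gp_integrable_kinetic (hn : DensityBasic n) (hE : Integrable (fun x => n x * ‖G x‖ ^ 2)) :
    Integrable (fun x => ‖gradient (fun y => √(n y)) x‖ ^ 2 + n x * ‖G x‖ ^ 2) :=
  (hn.sqrt_h1.2.1.norm.integrable_sq).add hE

theorem orbG_isH1 (hn : DensityBasic n) (hw : IsWeakGrad ϑ G) (hE : Integrable (fun x => n x * ‖G x‖ ^ 2)) :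
    IsH1 (orbG n ϑ) (orbGgrad n ϑ G) := by
  have hW := gp_orbG_weakGrad hn hw hE
  refine ⟨?_, ?_, hW⟩
  · refine hn.sqrt_h1.1.mono hW.1.aestronglyMeasurable (Filter.Eventually.of_forall fun x => ?_)
    unfold orbG
    rw [norm_mul]
    exact mul_le_of_le_one_right (norm_nonneg _) (Real.abs_cos_le_one _)
  · rw [memLp_two_iff_integrable_sq_norm hW.2.1.aestronglyMeasurable]
    refine (gp_integrable_kinetic hn hE).mono' (hW.2.1.aestronglyMeasurable.norm.pow 2)
      (Filter.Eventually.of_forall fun x => ?_)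
    rw [Real.norm_of_nonneg (by positivity), ← orb_kinetic (ϑ := ϑ) hn.pos x]
    exact le_add_of_nonneg_right (by positivity)

theorem orbH_isH1 (hn : DensityBasic n) (hw : IsWeakGrad ϑ G) (hE : Integrable (fun x => n x * ‖G x‖ ^ 2)) :
    IsH1 (orbH n ϑ) (orbHgrad n ϑ G) := by
  have hW := gp_orbH_weakGrad hn hw hE
  refine ⟨?_, ?_, hW⟩
  · refine hn.sqrt_h1.1.mono hW.1.aestronglyMeasurable (Filter.Eventually.of_forall fun x => ?_)
    unfold orbH
    rw [norm_mul]
    exact mul_le_of_le_one_right (norm_nonneg _) (Real.abs_sin_le_one _)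
  · rw [memLp_two_iff_integrable_sq_norm hW.2.1.aestronglyMeasurable]
    refine (gp_integrable_kinetic hn hE).mono' (hW.2.1.aestronglyMeasurable.norm.pow 2)
      (Filter.Eventually.of_forall fun x => ?_)
    rw [Real.norm_of_nonneg (by positivity), ← orb_kinetic (ϑ := ϑ) hn.pos x]
    exact le_add_of_nonneg_left (by positivity)

theorem IsAdmissibleAngle.integrable_energy (hn : DensityBasic n) (h : IsAdmissibleAngle n ϑ G) :
    Integrable (fun x => n x * ‖G x‖ ^ 2) := by
  refine h.2.1.mono' (hn.continuous.aestronglyMeasurable.mul (h.1.2.1.aestronglyMeasurable.norm.pow 2))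
    (Filter.Eventually.of_forall fun x => ?_)
  have h0 := (hn.pos x).le
  rw [Real.norm_of_nonneg (by positivity)]
  exact mul_le_mul_of_nonneg_left (le_add_of_nonneg_left (by positivity)) h0

/-- norms of the orbitals of an admissible angle. -/
theorem orb_norms (hn : DensityBasic n) (h : IsAdmissibleAngle n ϑ G) :
    (∫ x, orbG n ϑ x ^ 2) = 2 ∧ (∫ x, orbH n ϑ x ^ 2) = 1 := by
  have hE := h.integrable_energy hn
  have iG := (orbG_isH1 hn h.1 hE).1.integrable_sq
  have iH := (orbH_isH1 hn h.1 hE).1.integrable_sq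
  have e1 : (∫ x, orbH n ϑ x ^ 2) = 1 := by
    rw [← h.2.2.2]
    refine integral_congr_ae (Filter.Eventually.of_forall fun x => ?_)
    simp only [orbH]
    rw [mul_pow, Real.sq_sqrt (hn.pos x).le]
  have e2 : (∫ x, orbG n ϑ x ^ 2) + (∫ x, orbH n ϑ x ^ 2) = 3 := by
    rw [← integral_add iG iH, ← hn.integral_eq]
    exact integral_congr_ae (Filter.Eventually.of_forall fun x => orb_sq_add hn.pos x)
  exact ⟨by linarith, e1⟩

/-- parity of the orbitals of an admissible angle (a.e.). -/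
theorem orb_parity (hn : DensityBasic n) (h : IsAdmissibleAngle n ϑ G) :
    (∀ᵐ x, orbG n ϑ (reflZ x) = orbG n ϑ x) ∧ (∀ᵐ x, orbH n ϑ (reflZ x) = -orbH n ϑ x) := by
  constructor
  · filter_upwards [h.2.2.1] with x hx
    unfold orbG
    rw [hn.even, hx, Real.cos_neg]
  · filter_upwards [h.2.2.1] with x hx
    unfold orbH
    rw [hn.even, hx, Real.sin_neg, mul_neg]

/-- the sum of the two one-body energies. -/
theorem orb_energy (hn : DensityBasic n) (h : IsAdmissibleAngle n ϑ G) :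
    orbitalForm (orbG n ϑ) (orbG n ϑ) (orbGgrad n ϑ G) (orbGgrad n ϑ G)
      + orbitalForm (orbH n ϑ) (orbH n ϑ) (orbHgrad n ϑ G) (orbHgrad n ϑ G)
    = (1 / 2) * (∫ x, ‖gradient (fun y => √(n y)) x‖ ^ 2) + (1 / 2) * angleEnergy n G
      + ∫ x, nuclearPotential 1 bigD x * n x := by
  have hE := h.integrable_energy hn
  have hG := orbG_isH1 hn h.1 hE
  have hH := orbH_isH1 hn h.1 hE
  unfold orbitalForm angleEnergy
  simp only [real_inner_self_eq_norm_sq]
  have e1 : (∫ x, ‖orbGgrad n ϑ G x‖ ^ 2) + (∫ x, ‖orbHgrad n ϑ G x‖ ^ 2)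
      = (∫ x, ‖gradient (fun y => √(n y)) x‖ ^ 2) + ∫ x, n x * ‖G x‖ ^ 2 := by
    rw [← integral_add hG.2.1.norm.integrable_sq hH.2.1.norm.integrable_sq,
      ← integral_add hn.sqrt_h1.2.1.norm.integrable_sq hE]
    exact integral_congr_ae (Filter.Eventually.of_forall fun x => orb_kinetic hn.pos x)
  have e2 : (∫ x, nuclearPotential 1 bigD x * (orbG n ϑ x * orbG n ϑ x))
      + (∫ x, nuclearPotential 1 bigD x * (orbH n ϑ x * orbH n ϑ x)) = ∫ x, nuclearPotential 1 bigD x * n x := by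
    rw [← integral_add (hG.integrable_nuclear hG 1 bigD) (hH.integrable_nuclear hH 1 bigD)]
    refine integral_congr_ae (Filter.Eventually.of_forall fun x => ?_)
    simp only
    rw [← orb_sq_add (ϑ := ϑ) hn.pos x]
    ring
  linarith

end Claimed.Open.R278
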