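import Claimed.Open.R278.GPOrbA
import Claimed.Open.R278.ANTop

/-!
# Package GP, leaves GP-O2, GP-O3: the two orbital equations (4.9) for a folded minimizer, WITHOUT assuming `cos θ > 0`

`s = √n`, `g = s cos θ`, `h = s sin θ`, `V = formalV n θ d = Δs/(2s) - |∇θ|²/2 + d sin² θ`.  `∇g = orbGgrad n θ ∇θ = cos θ ∇s - s sin θ ∇θ`, `∇h = orbHgrad n θ ∇θ = sin θ ∇s + s cos θ ∇θ`.

GP-O2 (tools).
* `gp_nuclei_null`, `gp_sqrt_contDiffOn` (`√n` is `C²` off the nuclei: `Real.sqrt` is smooth on `(0,∞)`), `gp_orbG_gradient`, `gp_orbH_gradient` (classical product/chain rule off the nuclei).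
* `gp_inv_sqrt_weakGrad`: `1/s` has the weak gradient `-s⁻² ∇s` (`tk_weakGrad_comp_loc`, `Θ t = t⁻¹` on `(0,∞)`; `DensityBasic.sqrt_h1`).
* `gp_test_div_sqrt`: for `η ∈ C¹_c`, `ψ = η / s` is a legitimate test function of `DriftEq.test`: weak gradient `s⁻¹ ∇η - η s⁻² ∇s`, continuous, compactly supported, gradient in `L²_loc` (`IsWeakGrad.mul`,
  `1/s` continuous hence locally bounded, `∇s ∈ L²`).

GP-O3 (the equations).  For `φ ∈ C¹_c`:
 (1) `sqrt_lap_weak` with the `C¹_c` test `φ cos θ`:  `∫ cos θ ⟪∇s,∇φ⟫ = -∫ Δs φ cos θ + ∫ φ sin θ ⟪∇s,∇θ⟫`;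
 (2) `DriftEq.test` (`IsFoldedMinimizer.driftEq`) with `ψ = (φ sin θ)/s`:  `n ⟪∇θ,∇ψ⟫ = s sin θ ⟪∇θ,∇φ⟫ + s φ cos θ |∇θ|² - φ sin θ ⟪∇θ,∇s⟫` and `n sin 2θ ψ = 2 s sin² θ cos θ φ`;
 subtract: `∫ ⟪∇g,∇φ⟫ = -∫ (Δs/s - |∇θ|² + 2 d sin² θ) g φ = -2 ∫ V g φ`.
 For `h`: tests `φ sin θ` and `(φ cos θ)/s`:  `∫ ⟪∇h,∇φ⟫ = -∫ Δs φ sin θ + ∫ s φ sin θ |∇θ|² + 2 d ∫ s sin θ cos² θ φ = -2 ∫ V h φ + 2 d ∫ h φ` (`sin² + cos² = 1`).
 All integrands are (continuous or `L²_loc`) × (continuous compactly supported): integrability is routine.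
-/

open MeasureTheory
open scoped ContDiff InnerProductSpace ENNReal Topology Laplacian

noncomputable section

namespace Claimed.Open.R278

variable {n θ : Space → ℝ} {d : ℝ}

/-! ### GP-O2 -/

theorem gp_nuclei_null : volume nuclei = 0 := by
  unfold nuclei
  exact (Set.toFinite _).measure_zero _

theorem gp_isOpen_nuclei_compl : IsOpen nucleiᶜ := by
  unfold nuclei
  exact (Set.toFinite _).isClosed.isOpen_compl

theorem gp_sqrt_contDiffOn (hn : DensityBasic n) : ContDiffOn ℝ 2 (fun x => √(n x)) nucleiᶜ :=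
  hn.smooth.sqrt fun x _ => (hn.pos x).ne'

theorem gp_gradient_comp {φ : ℝ → ℝ} {φ' : ℝ} {τ : Space → ℝ} {x : Space} (hφ : HasDerivAt φ φ' (τ x))
    (hτ : DifferentiableAt ℝ τ x) : gradient (fun y => φ (τ y)) x = φ' • gradient τ x := by
  have h1 := hτ.hasGradientAt
  rw [hasGradientAt_iff_hasFDerivAt] at h1
  have h2 := hφ.comp_hasFDerivAt x h1
  refine HasGradientAt.gradient ?_
  rw [hasGradientAt_iff_hasFDerivAt, map_smul]
  exact h2

theorem gp_gradient_mul {f g : Space → ℝ} {x : Space} (hf : DifferentiableAt ℝ f x) (hg : DifferentiableAt ℝ g x) :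
    gradient (fun y => f y * g y) x = f x • gradient g x + g x • gradient f x := by
  have h1 := hf.hasGradientAt
  have h2 := hg.hasGradientAt
  rw [hasGradientAt_iff_hasFDerivAt] at h1 h2
  have h3 := h1.mul h2
  refine HasGradientAt.gradient ?_
  rw [hasGradientAt_iff_hasFDerivAt, map_add, map_smul, map_smul]
  exact h3

theorem gp_sqrt_differentiableAt (hn : DensityBasic n) {x : Space} (hx : x ∉ nuclei) :
    DifferentiableAt ℝ (fun y => √(n y)) x :=
  ((gp_sqrt_contDiffOn hn).contDiffAt (gp_isOpen_nuclei_compl.mem_nhds hx)).differentiableAt (by norm_num)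

theorem gp_orbG_gradient (hn : DensityBasic n) (hθ : ContDiff ℝ 1 θ) {x : Space} (hx : x ∉ nuclei) :
    gradient (orbG n θ) x = orbGgrad n θ (gradient θ) x := by
  have hd : DifferentiableAt ℝ θ x := (hθ.differentiable (by norm_num)).differentiableAt
  have hc : DifferentiableAt ℝ (fun y => Real.cos (θ y)) x := Real.differentiableAt_cos.comp x hd
  have h1 := gp_gradient_mul (gp_sqrt_differentiableAt hn hx) hc
  rw [gp_gradient_comp (Real.hasDerivAt_cos (θ x)) hd] at h1
  unfold orbGgrad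
  have e : orbG n θ = fun y => √(n y) * Real.cos (θ y) := rfl
  rw [e, h1, smul_smul, mul_neg, neg_smul]
  abel

theorem gp_orbH_gradient (hn : DensityBasic n) (hθ : ContDiff ℝ 1 θ) {x : Space} (hx : x ∉ nuclei) :
    gradient (orbH n θ) x = orbHgrad n θ (gradient θ) x := by
  have hd : DifferentiableAt ℝ θ x := (hθ.differentiable (by norm_num)).differentiableAt
  have hc : DifferentiableAt ℝ (fun y => Real.sin (θ y)) x := Real.differentiableAt_sin.comp x hd
  have h1 := gp_gradient_mul (gp_sqrt_differentiableAt hn hx) hc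
  rw [gp_gradient_comp (Real.hasDerivAt_sin (θ x)) hd] at h1
  unfold orbHgrad
  have e : orbH n θ = fun y => √(n y) * Real.sin (θ y) := rfl
  rw [e, h1, smul_smul]
  abel

theorem gp_sqrt_pos (hn : DensityBasic n) (x : Space) : 0 < √(n x) := Real.sqrt_pos.2 (hn.pos x)

theorem gp_continuous_sqrt (hn : DensityBasic n) : Continuous (fun x => √(n x)) := hn.continuous.sqrt

theorem gp_inv_sqrt_weakGrad (hn : DensityBasic n) :
    IsWeakGrad (fun x => (√(n x))⁻¹) (fun x => -((n x)⁻¹) • gradient (fun y => √(n y)) x) := by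
  have h1 := tk_weakGrad_comp_loc hn.sqrt_h1.2.2 (gp_continuous_sqrt hn) (I := Set.Ioi 0) isOpen_Ioi
    (fun x => gp_sqrt_pos hn x) (Θ := fun t => t⁻¹)
    ((contDiffOn_inv ℝ).mono fun t ht => (ne_of_gt ht : t ≠ 0))
  have e : (fun x => deriv (fun t : ℝ => t⁻¹) (√(n x)) • gradient (fun y => √(n y)) x)
      = fun x => -((n x)⁻¹) • gradient (fun y => √(n y)) x := by
    funext x
    rw [deriv_inv, Real.sq_sqrt (hn.pos x).le]
  rw [e] at h1
  exact h1

theorem gp_anL2loc_of_memLp {F : Type*} [NormedAddCommGroup F] {f : Space → F} (hf : MemLp f 2 volume) : AnL2loc f :=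
  fun _ => hf.restrict _

theorem gp_test_div_sqrt (hn : DensityBasic n) {η : Space → ℝ} (hη : ContDiff ℝ 1 η) (hc : HasCompactSupport η) :
    Claimed.Agent.R259.WeakGrad (fun x => η x / √(n x))
        (fun x => (√(n x))⁻¹ • gradient η x - (η x / n x) • gradient (fun y => √(n y)) x) ∧
      AnL2loc (fun x => η x / √(n x)) ∧
      AnL2loc (fun x => (√(n x))⁻¹ • gradient η x - (η x / n x) • gradient (fun y => √(n y)) x) ∧
      HasCompactSupport (fun x => η x / √(n x)) := by
  have hs := gp_continuous_sqrt hn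
  have hsi : Continuous (fun x => (√(n x))⁻¹) := hs.inv₀ fun x => (gp_sqrt_pos hn x).ne'
  refine ⟨?_, ?_, ?_, ?_⟩
  · rw [← isWeakGrad_iff_weakGrad]
    have h1 := (gp_inv_sqrt_weakGrad hn).mul_contDiff hη
    refine h1.congr_ae (Filter.Eventually.of_forall fun x => ?_) (Filter.Eventually.of_forall fun x => ?_)
    · simp only [div_eq_mul_inv]
    · simp only [div_eq_mul_inv]
      module
  · exact anL2loc_of_continuous (hη.continuous.div hs fun x => (gp_sqrt_pos hn x).ne')
  · intro R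
    have a1 : AnL2loc (fun x => (√(n x))⁻¹ • gradient η x) :=
      anL2loc_of_continuous (hsi.smul (continuous_gradient hη))
    have a2 : AnL2loc (fun x => (η x / n x) • gradient (fun y => √(n y)) x) :=
      (gp_anL2loc_of_memLp hn.sqrt_h1.2.1).smul_continuous
        (hη.continuous.div hn.continuous fun x => (hn.pos x).ne')
    exact (a1 R).sub (a2 R)
  · simp only [div_eq_mul_inv]
    exact hc.mul_right

/-! ### GP-O3 -/

theorem gp_integrable_inner_cpt (hn : DensityBasic n) {W : Space → Space} (hW : Continuous W)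
    (hc : HasCompactSupport W) : Integrable (fun x => ⟪gradient (fun y => √(n y)) x, W x⟫_ℝ) :=
  fs_integrable_inner hn.sqrt_h1.2.1 (hW.memLp_of_hasCompactSupport hc)

theorem gp_hcs_smul_left {a : Space → ℝ} {W : Space → Space} (h : HasCompactSupport W) :
    HasCompactSupport (fun x => a x • W x) :=
  h.mono fun x hx h0 => hx (by simp only [h0, smul_zero])

theorem gp_hcs_smul_right {a : Space → ℝ} {W : Space → Space} (h : HasCompactSupport a) :
    HasCompactSupport (fun x => a x • W x) :=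
  h.mono fun x hx h0 => hx (by simp only [h0, zero_smul])

/-- the common computation behind the two orbital equations: `A'' = -A`, `u = √n A(θ)`. -/
theorem gp_orb_eq (hn : DensityBasic n) (hθ : IsFoldedMinimizer n θ) (hd : IsMultiplier n θ d) {A B : ℝ → ℝ}
    (hA : ContDiff ℝ 1 A) (hB : ContDiff ℝ 1 B) (hA' : ∀ t, HasDerivAt A (B t) t) (hB' : ∀ t, HasDerivAt B (-A t) t)
    {φ : Space → ℝ} (hφ : ContDiff ℝ 1 φ) (hc : HasCompactSupport φ) :
    (1 / 2) * (∫ x, ⟪A (θ x) • gradient (fun y => √(n y)) x + (√(n x) * B (θ x)) • gradient θ x, gradient φ x⟫_ℝ)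
      + (∫ x, formalV n θ d x * (√(n x) * A (θ x)) * φ x)
    = d * ∫ x, √(n x) * φ x * (1 / 2 * Real.sin (2 * θ x) * B (θ x) + Real.sin (θ x) ^ 2 * A (θ x)) := by
  have hθ1 : ContDiff ℝ 1 θ := hθ.1
  have hθd : ∀ x, DifferentiableAt ℝ θ x := fun x => (hθ1.differentiable (by norm_num)).differentiableAt
  have hφd : ∀ x, DifferentiableAt ℝ φ x := fun x => (hφ.differentiable (by norm_num)).differentiableAt
  have hαC : ContDiff ℝ 1 (fun x => A (θ x)) := hA.comp hθ1
  have hβC : ContDiff ℝ 1 (fun x => B (θ x)) := hB.comp hθ1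
  have hαd : ∀ x, DifferentiableAt ℝ (fun x => A (θ x)) x := fun x => (hαC.differentiable (by norm_num)).differentiableAt
  have hβd : ∀ x, DifferentiableAt ℝ (fun x => B (θ x)) x := fun x => (hβC.differentiable (by norm_num)).differentiableAt
  have cs := gp_continuous_sqrt hn
  have cT : Continuous (gradient θ) := continuous_gradient hθ1
  have cP : Continuous (gradient φ) := continuous_gradient hφ
  have cα := hαC.continuous
  have cβ := hβC.continuous
  have cφ := hφ.continuous
  have cθ := hθ1.continuous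
  have hPc : HasCompactSupport (gradient φ) := Claimed.Agent.R259.ws_gradient_hasCompactSupport hc
  -- the two tests
  have hη₁ : ContDiff ℝ 1 (fun x => φ x * A (θ x)) := hφ.mul hαC
  have hη₁c : HasCompactSupport (fun x => φ x * A (θ x)) := hc.mul_right
  have hη₂ : ContDiff ℝ 1 (fun x => φ x * B (θ x)) := hφ.mul hβC
  have hη₂c : HasCompactSupport (fun x => φ x * B (θ x)) := hc.mul_right
  have g₁ : ∀ x, gradient (fun x => φ x * A (θ x)) x = φ x • (B (θ x) • gradient θ x) + A (θ x) • gradient φ x := by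
    intro x
    rw [gp_gradient_mul (hφd x) (hαd x), gp_gradient_comp (hA' (θ x)) (hθd x)]
  have g₂ : ∀ x, gradient (fun x => φ x * B (θ x)) x = φ x • ((-A (θ x)) • gradient θ x) + B (θ x) • gradient φ x := by
    intro x
    rw [gp_gradient_mul (hφd x) (hβd x), gp_gradient_comp (hB' (θ x)) (hθd x)]
  have E1 := hn.sqrt_lap_weak _ hη₁ hη₁c
  obtain ⟨w1, w2, w3, w4⟩ := gp_test_div_sqrt hn hη₂ hη₂c
  have E2 := (hθ.driftEq hn hd).test hn.continuous (F := |d|) (Filter.Eventually.of_forall fun x => by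
    rw [abs_mul]
    exact mul_le_of_le_one_right (abs_nonneg _) (Real.abs_sin_le_one _)) w1 w2 w3 w4
  -- the pieces
  have iC1 : Integrable (fun x => ⟪gradient (fun y => √(n y)) x, A (θ x) • gradient φ x⟫_ℝ) :=
    gp_integrable_inner_cpt hn (cα.smul cP) (gp_hcs_smul_left hPc)
  have iB1 : Integrable (fun x => ⟪gradient (fun y => √(n y)) x, (φ x * B (θ x)) • gradient θ x⟫_ℝ) :=
    gp_integrable_inner_cpt hn ((cφ.mul cβ).smul cT) (gp_hcs_smul_right hη₂c)
  have iA1 : Integrable (fun x => √(n x) * B (θ x) * ⟪gradient θ x, gradient φ x⟫_ℝ) := by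
    refine ((cs.mul cβ).mul (cT.inner cP)).integrable_of_hasCompactSupport (hPc.mono fun x hx => ?_)
    intro h0
    apply hx
    show √(n x) * B (θ x) * ⟪gradient θ x, gradient φ x⟫_ℝ = 0
    rw [h0, inner_zero_right, mul_zero]
  have iK : Integrable (fun x => φ x * (√(n x) * A (θ x) * ‖gradient θ x‖ ^ 2)) :=
    (cφ.mul ((cs.mul cα).mul (cT.norm.pow 2))).integrable_of_hasCompactSupport hc.mul_right
  have iJ1 : Integrable (fun x => Δ (fun y => √(n y)) x * (φ x * A (θ x))) :=
    (anL2loc_iff_l2Loc.1 hn.sqrt_lap_L2).locallyIntegrable.integrable_smul_right_of_hasCompactSupport hη₁.continuous hη₁c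
  have iJ2 : Integrable (fun x => φ x * (√(n x) * Real.sin (2 * θ x) * B (θ x))) :=
    (cφ.mul ((cs.mul (Real.continuous_sin.comp (continuous_const.mul cθ))).mul cβ)).integrable_of_hasCompactSupport
      hc.mul_right
  have iM : Integrable (fun x => φ x * (√(n x) * Real.sin (θ x) ^ 2 * A (θ x))) :=
    (cφ.mul ((cs.mul ((Real.continuous_sin.comp cθ).pow 2)).mul cα)).integrable_of_hasCompactSupport hc.mul_right
  -- rewriting of the two identities
  have F1 : (∫ x, ⟪gradient (fun y => √(n y)) x, (φ x * B (θ x)) • gradient θ x⟫_ℝ)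
      + (∫ x, ⟪gradient (fun y => √(n y)) x, A (θ x) • gradient φ x⟫_ℝ)
      = -∫ x, Δ (fun y => √(n y)) x * (φ x * A (θ x)) := by
    rw [← E1, ← integral_add iB1 iC1]
    refine integral_congr_ae (Filter.Eventually.of_forall fun x => ?_)
    simp only
    rw [g₁ x, inner_add_right, smul_smul]
  have F2 : (∫ x, √(n x) * B (θ x) * ⟪gradient θ x, gradient φ x⟫_ℝ)
      - (∫ x, φ x * (√(n x) * A (θ x) * ‖gradient θ x‖ ^ 2))
      - (∫ x, ⟪gradient (fun y => √(n y)) x, (φ x * B (θ x)) • gradient θ x⟫_ℝ)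
      = d * ∫ x, φ x * (√(n x) * Real.sin (2 * θ x) * B (θ x)) := by
    have iAK : Integrable (fun x => √(n x) * B (θ x) * ⟪gradient θ x, gradient φ x⟫_ℝ
        - φ x * (√(n x) * A (θ x) * ‖gradient θ x‖ ^ 2)) := iA1.sub iK
    rw [← integral_sub iA1 iK, ← integral_sub iAK iB1, ← integral_const_mul]
    have e1 : ∫ x, n x * ⟪gradient θ x, (√(n x))⁻¹ • gradient (fun x => φ x * B (θ x)) x
          - (φ x * B (θ x) / n x) • gradient (fun y => √(n y)) x⟫_ℝ
        = ∫ x, (√(n x) * B (θ x) * ⟪gradient θ x, gradient φ x⟫_ℝ - φ x * (√(n x) * A (θ x) * ‖gradient θ x‖ ^ 2)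
          - ⟪gradient (fun y => √(n y)) x, (φ x * B (θ x)) • gradient θ x⟫_ℝ) := by
      refine integral_congr_ae (Filter.Eventually.of_forall fun x => ?_)
      simp only
      have hs := gp_sqrt_pos hn x
      have hn' : n x = √(n x) ^ 2 := (Real.sq_sqrt (hn.pos x).le).symm
      rw [g₂ x]
      simp only [inner_sub_right, inner_add_right, real_inner_smul_right, real_inner_self_eq_norm_sq]
      rw [real_inner_comm (gradient θ x) (gradient (fun y => √(n y)) x)]
      generalize ⟪gradient θ x, gradient (fun y => √(n y)) x⟫_ℝ = u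
      generalize ⟪gradient θ x, gradient φ x⟫_ℝ = v
      generalize √(n x) = s at hs hn' ⊢
      rw [hn']
      field_simp
      ring
    have e2 : ∫ x, n x * (d * Real.sin (2 * θ x)) * (φ x * B (θ x) / √(n x))
        = ∫ x, d * (φ x * (√(n x) * Real.sin (2 * θ x) * B (θ x))) := by
      refine integral_congr_ae (Filter.Eventually.of_forall fun x => ?_)
      simp only
      have hs := gp_sqrt_pos hn x
      have hn' : n x = √(n x) ^ 2 := (Real.sq_sqrt (hn.pos x).le).symm
      generalize √(n x) = s at hs hn' ⊢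
      rw [hn']
      field_simp
    rw [← e1, ← e2]
    exact E2
  have G1 : ∫ x, ⟪A (θ x) • gradient (fun y => √(n y)) x + (√(n x) * B (θ x)) • gradient θ x, gradient φ x⟫_ℝ
      = (∫ x, ⟪gradient (fun y => √(n y)) x, A (θ x) • gradient φ x⟫_ℝ)
        + ∫ x, √(n x) * B (θ x) * ⟪gradient θ x, gradient φ x⟫_ℝ := by
    rw [← integral_add iC1 iA1]
    refine integral_congr_ae (Filter.Eventually.of_forall fun x => ?_)
    simp only [inner_add_left, real_inner_smul_left, real_inner_smul_right]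
  have G2 : ∫ x, formalV n θ d x * (√(n x) * A (θ x)) * φ x
      = 1 / 2 * (∫ x, Δ (fun y => √(n y)) x * (φ x * A (θ x)))
        - 1 / 2 * (∫ x, φ x * (√(n x) * A (θ x) * ‖gradient θ x‖ ^ 2))
        + d * ∫ x, φ x * (√(n x) * Real.sin (θ x) ^ 2 * A (θ x)) := by
    have iJK : Integrable (fun x => 1 / 2 * (Δ (fun y => √(n y)) x * (φ x * A (θ x)))
        - 1 / 2 * (φ x * (√(n x) * A (θ x) * ‖gradient θ x‖ ^ 2))) := (iJ1.const_mul _).sub (iK.const_mul _)
    rw [← integral_const_mul, ← integral_const_mul, ← integral_const_mul,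
      ← integral_sub (iJ1.const_mul _) (iK.const_mul _), ← integral_add iJK (iM.const_mul _)]
    refine integral_congr_ae (Filter.Eventually.of_forall fun x => ?_)
    simp only [formalV]
    have hs := gp_sqrt_pos hn x
    generalize Δ (fun y => √(n y)) x = L
    generalize √(n x) = s at hs
    field_simp
  have G3 : ∫ x, √(n x) * φ x * (1 / 2 * Real.sin (2 * θ x) * B (θ x) + Real.sin (θ x) ^ 2 * A (θ x))
      = 1 / 2 * (∫ x, φ x * (√(n x) * Real.sin (2 * θ x) * B (θ x)))
        + ∫ x, φ x * (√(n x) * Real.sin (θ x) ^ 2 * A (θ x)) := by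
    rw [← integral_const_mul, ← integral_add (iJ2.const_mul _) iM]
    refine integral_congr_ae (Filter.Eventually.of_forall fun x => ?_)
    simp only
    ring
  rw [G1, G2, G3]
  linarith

theorem gp_g_eq (hn : DensityBasic n) (hθ : IsFoldedMinimizer n θ) (hd : IsMultiplier n θ d) {φ : Space → ℝ}
    (hφ : ContDiff ℝ 1 φ) (hc : HasCompactSupport φ) :
    (1 / 2) * (∫ x, ⟪orbGgrad n θ (gradient θ) x, gradient φ x⟫_ℝ)
      + (∫ x, formalV n θ d x * orbG n θ x * φ x) = 0 := by
  have h := gp_orb_eq hn hθ hd (A := Real.cos) (B := fun t => -Real.sin t) Real.contDiff_cos Real.contDiff_sin.neg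
    (fun t => Real.hasDerivAt_cos t) (fun t => (Real.hasDerivAt_sin t).neg) hφ hc
  have e1 : ∀ x, Real.cos (θ x) • gradient (fun y => √(n y)) x + (√(n x) * -Real.sin (θ x)) • gradient θ x
      = orbGgrad n θ (gradient θ) x := by
    intro x
    unfold orbGgrad
    rw [mul_neg, neg_smul, sub_eq_add_neg]
  have e2 : ∀ x, √(n x) * φ x * (1 / 2 * Real.sin (2 * θ x) * -Real.sin (θ x) + Real.sin (θ x) ^ 2 * Real.cos (θ x)) = 0 := by
    intro x
    rw [Real.sin_two_mul]
    ring
  simp only [e1, e2, integral_zero, mul_zero] at h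
  exact h

theorem gp_h_eq (hn : DensityBasic n) (hθ : IsFoldedMinimizer n θ) (hd : IsMultiplier n θ d) {φ : Space → ℝ}
    (hφ : ContDiff ℝ 1 φ) (hc : HasCompactSupport φ) :
    (1 / 2) * (∫ x, ⟪orbHgrad n θ (gradient θ) x, gradient φ x⟫_ℝ)
      + (∫ x, formalV n θ d x * orbH n θ x * φ x) = d * ∫ x, orbH n θ x * φ x := by
  have h := gp_orb_eq hn hθ hd (A := Real.sin) (B := Real.cos) Real.contDiff_sin Real.contDiff_cos
    (fun t => Real.hasDerivAt_sin t) (fun t => Real.hasDerivAt_cos t) hφ hc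
  have e2 : ∀ x, √(n x) * φ x * (1 / 2 * Real.sin (2 * θ x) * Real.cos (θ x) + Real.sin (θ x) ^ 2 * Real.sin (θ x))
      = orbH n θ x * φ x := by
    intro x
    unfold orbH
    rw [Real.sin_two_mul]
    have := Real.cos_sq_add_sin_sq (θ x)
    calc _ = √(n x) * φ x * Real.sin (θ x) * (Real.cos (θ x) ^ 2 + Real.sin (θ x) ^ 2) := by ring
      _ = _ := by rw [this]; ring
  simp only [e2] at h
  exact h

end Claimed.Open.R278
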