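import Claimed.Open.R278.GPMin
import Claimed.Open.R278.CHTB
import Claimed.Agent.R259.OpCalc

/-!
# Package GP: Proposition 4.4, `gp_orbitalFacts` (= `orbitalFacts` of `Top.lean`)

Leaf GP-O4 (proved): this file has no `sorry` of its own.
* `gp_isH1_congr`: `IsH1` only depends on the a.e. class of the gradient (and `IsWeakGrad`: all integrals agree; `LocallyIntegrable.congr`, `MemLp.ae_eq`).
* `gp_orbG_h1`, `gp_orbH_h1`: `orbG_isH1`/`orbH_isH1` (GPOrbA; finite energy from admissibility) + `gp_orbG_gradient` off the null set `nuclei`.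
* `gp_laplacian_reflZ`: `Δ (f ∘ reflZ) x = Δ f (reflZ x)` for EVERY `f` (no regularity): `ContinuousLinearEquiv.iteratedFDeriv_comp_right` for the linear isometric equivalence `reflZ`, and
  `Δ f = ∑ iteratedFDeriv ℝ 2 f x ![b i, b i]` for every orthonormal basis (`InnerProductSpace.laplacian_eq_iteratedFDeriv_orthonormalBasis`), applied to the basis `reflZ ∘ b`.
* `gp_formalV_even`: previous lemma with `√n ∘ reflZ = √n`; `‖∇θ (reflZ x)‖ = ‖∇θ x‖` from `θ ∘ reflZ = -θ` and the chain rule; `sin² ` even.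
* `gp_formalV_int`: off the nuclei `Δ n = 2 √n Δ√n + 2 |∇√n|²` (classical, `n = (√n)²`), so `√n Δ√n = Δn/2 - |∇√n|² ∈ L¹` (`lap_L1`, `sqrt_h1`);
  `n |V| ≤ |√n Δ√n|/2 + n |∇θ|²/2 + |d| n`.
-/

open MeasureTheory
open scoped ContDiff InnerProductSpace ENNReal Topology Laplacian

noncomputable section

namespace Claimed.Open.R278

variable {n θ : Space → ℝ} {d : ℝ}

theorem gp_isH1_congr {f : Space → ℝ} {F F' : Space → Space} (h : IsH1 f F) (he : F =ᵐ[volume] F') :
    IsH1 f F' :=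
  h.congr_ae (Filter.EventuallyEq.refl _ f) he

theorem gp_ae_notMem_nuclei : ∀ᵐ y : Space, y ∉ nuclei := by
  rw [ae_iff]
  simpa using gp_nuclei_null

theorem gp_grad_ae (hn : DensityBasic n) (hθ : ContDiff ℝ 1 θ) :
    (gradient (orbG n θ) =ᵐ[volume] orbGgrad n θ (gradient θ)) ∧
      (gradient (orbH n θ) =ᵐ[volume] orbHgrad n θ (gradient θ)) :=
  ⟨gp_ae_notMem_nuclei.mono fun _ hx => gp_orbG_gradient hn hθ hx,
    gp_ae_notMem_nuclei.mono fun _ hx => gp_orbH_gradient hn hθ hx⟩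

theorem gp_orbG_h1 (hn : DensityBasic n) (hθ : IsFoldedMinimizer n θ) :
    IsH1 (orbG n θ) (gradient (orbG n θ)) :=
  gp_isH1_congr (orbG_isH1 hn hθ.2.1.1 (hθ.2.1.integrable_energy hn)) (gp_grad_ae hn hθ.1).1.symm

theorem gp_orbH_h1 (hn : DensityBasic n) (hθ : IsFoldedMinimizer n θ) :
    IsH1 (orbH n θ) (gradient (orbH n θ)) :=
  gp_isH1_congr (orbH_isH1 hn hθ.2.1.1 (hθ.2.1.integrable_energy hn)) (gp_grad_ae hn hθ.1).2.symm

theorem gp_laplacian_reflZ (f : Space → ℝ) (x : Space) : Δ (fun y => f (reflZ y)) x = Δ f (reflZ x) :=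
  laplacian_comp_reflZ' f x

theorem gp_norm_gradient (g : Space → ℝ) (x : Space) : ‖gradient g x‖ = ‖fderiv ℝ g x‖ := by
  unfold gradient
  exact LinearIsometryEquiv.norm_map _ _

theorem gp_norm_gradient_comp_isometry (A : Space ≃ₗᵢ[ℝ] Space) {f : Space → ℝ} {x : Space}
    (hf : DifferentiableAt ℝ f (A x)) : ‖gradient (fun y => f (A y)) x‖ = ‖gradient f (A x)‖ := by
  rw [gp_norm_gradient, gp_norm_gradient]
  have h1 : HasFDerivAt (fun y => f (A y)) ((fderiv ℝ f (A x)).comp (A.toLinearIsometry.toContinuousLinearMap)) x :=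
    hf.hasFDerivAt.comp x (A.toLinearIsometry.toContinuousLinearMap.hasFDerivAt)
  rw [h1.fderiv]
  exact ContinuousLinearMap.opNorm_comp_linearIsometryEquiv _ A

theorem gp_formalV_even (hn : DensityBasic n) (hθ : IsFoldedMinimizer n θ) (d : ℝ) (x : Space) :
    formalV n θ d (reflZ x) = formalV n θ d x := by
  unfold formalV
  have e1 : Δ (fun y => √(n y)) (reflZ x) = Δ (fun y => √(n y)) x := by
    rw [← gp_laplacian_reflZ (fun y => √(n y)) x]
    simp only [hn.even]
  have e2 : ‖gradient θ (reflZ x)‖ = ‖gradient θ x‖ := by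
    have h1 := gp_norm_gradient_comp_isometry reflZE (f := θ) (x := x)
      (hθ.1.differentiable (by norm_num)).differentiableAt
    simp only [reflZE_apply, hθ.odd] at h1
    rw [← h1, gp_norm_gradient, gp_norm_gradient, fderiv_fun_neg, norm_neg]
  rw [e1, e2, hn.even, hθ.odd, Real.sin_neg, neg_sq]

theorem gp_laplacian_sq (hn : DensityBasic n) {x : Space} (hx : x ∉ nuclei) :
    Δ n x = 2 * √(n x) * Δ (fun y => √(n y)) x + 2 * ‖gradient (fun y => √(n y)) x‖ ^ 2 := by
  have hs : ContDiffAt ℝ 2 (fun y => √(n y)) x := (gp_sqrt_contDiffOn hn).contDiffAt (gp_isOpen_nuclei_compl.mem_nhds hx)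
  have h1 := Claimed.Agent.R259.opc_laplacian_comp (Θ := fun t : ℝ => t ^ 2) (f := fun y => √(n y)) (x := x)
    (contDiff_id.pow 2).contDiffAt hs
  have e : (fun y => (√(n y)) ^ 2) = n := funext fun y => Real.sq_sqrt (hn.pos y).le
  have d1 : deriv (fun t : ℝ => t ^ 2) = fun t => 2 * t := by
    funext t
    simp
  rw [e, d1] at h1
  rw [h1]
  have d2 : deriv (fun t : ℝ => 2 * t) (√(n x)) = 2 := by
    simp
  rw [d2]

theorem gp_formalV_int (hn : DensityBasic n) (hθ : IsFoldedMinimizer n θ) (d : ℝ) :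
    Integrable (fun x => n x * |formalV n θ d x|) := by
  have hVm : AEStronglyMeasurable (formalV n θ d) volume :=
    (anL2loc_iff_l2Loc.1 (fun R => gp_formalV_L2loc hn hθ.1 d R)).locallyIntegrable.aestronglyMeasurable
  have i1 : Integrable (fun x => |Δ n x / 2 - ‖gradient (fun y => √(n y)) x‖ ^ 2| / 2) :=
    (((hn.lap_L1.div_const 2).sub hn.sqrt_h1.2.1.norm.integrable_sq).abs).div_const 2
  have i2 : Integrable (fun x => n x * ‖gradient θ x‖ ^ 2 / 2) := (hθ.2.1.integrable_energy hn).div_const 2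
  have i3 : Integrable (fun x => |d| * n x) := hn.integrable.const_mul _
  refine ((i1.add i2).add i3).mono' (hn.continuous.aestronglyMeasurable.mul hVm.norm) ?_
  filter_upwards [gp_ae_notMem_nuclei] with x hx
  have hnx := hn.pos x
  have hs := gp_sqrt_pos hn x
  have hn' : n x = √(n x) ^ 2 := (Real.sq_sqrt hnx.le).symm
  rw [Real.norm_of_nonneg (by positivity)]
  simp only [Pi.add_apply]
  have hL := gp_laplacian_sq hn hx
  have e1 : Δ n x / 2 - ‖gradient (fun y => √(n y)) x‖ ^ 2 = √(n x) * Δ (fun y => √(n y)) x := by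
    rw [hL]; ring
  rw [e1]
  unfold formalV
  have a1 : |Δ (fun y => √(n y)) x / (2 * √(n x)) - ‖gradient θ x‖ ^ 2 / 2 + d * Real.sin (θ x) ^ 2|
      ≤ |Δ (fun y => √(n y)) x| / (2 * √(n x)) + ‖gradient θ x‖ ^ 2 / 2 + |d| := by
    have b1 := abs_add_le (Δ (fun y => √(n y)) x / (2 * √(n x)) - ‖gradient θ x‖ ^ 2 / 2) (d * Real.sin (θ x) ^ 2)
    have b2 := abs_sub (Δ (fun y => √(n y)) x / (2 * √(n x))) (‖gradient θ x‖ ^ 2 / 2)
    have b3 : |Δ (fun y => √(n y)) x / (2 * √(n x))| = |Δ (fun y => √(n y)) x| / (2 * √(n x)) := by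
      rw [abs_div, abs_of_pos (by positivity : 0 < 2 * √(n x))]
    have b4 : |‖gradient θ x‖ ^ 2 / 2| = ‖gradient θ x‖ ^ 2 / 2 := abs_of_nonneg (by positivity)
    have b5 : |d * Real.sin (θ x) ^ 2| ≤ |d| := by
      rw [abs_mul, abs_of_nonneg (sq_nonneg (Real.sin (θ x)))]
      exact mul_le_of_le_one_right (abs_nonneg _) (Real.sin_sq_le_one _)
    linarith
  calc n x * |Δ (fun y => √(n y)) x / (2 * √(n x)) - ‖gradient θ x‖ ^ 2 / 2 + d * Real.sin (θ x) ^ 2|
      ≤ n x * (|Δ (fun y => √(n y)) x| / (2 * √(n x)) + ‖gradient θ x‖ ^ 2 / 2 + |d|) :=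
        mul_le_mul_of_nonneg_left a1 hnx.le
    _ = |√(n x) * Δ (fun y => √(n y)) x| / 2 + n x * ‖gradient θ x‖ ^ 2 / 2 + |d| * n x := by
        rw [abs_mul, abs_of_pos hs]
        have : n x * (|Δ (fun y => √(n y)) x| / (2 * √(n x))) = √(n x) * |Δ (fun y => √(n y)) x| / 2 := by
          generalize |Δ (fun y => √(n y)) x| = L
          generalize √(n x) = s at hs hn'
          rw [hn']
          field_simp
        rw [mul_add, mul_add, this]
        ring

theorem gp_orth (hn : DensityBasic n) (hθ : IsFoldedMinimizer n θ) :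
    (∫ x, orbG n θ x * orbH n θ x) = 0 := by
  refine tk_integral_odd (Filter.Eventually.of_forall fun x => ?_)
  simp only [orbG, orbH, hn.even, hθ.odd, Real.cos_neg, Real.sin_neg]
  ring

/-- **Proposition 4.4.** -/
theorem gp_orbitalFacts {n θ : Space → ℝ} {dθ : ℝ} (hn : DensityBasic n)
    (hθ : IsFoldedMinimizer n θ) (hd : IsMultiplier n θ dθ) (hdpos : 0 < dθ)
    (hg : ∀ x, 0 < Real.cos (θ x)) : OrbitalFacts n θ dθ where
  g_pos x := mul_pos (Real.sqrt_pos.2 (hn.pos x)) (hg x)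
  g_cont := (hn.continuous.sqrt).mul (Real.continuous_cos.comp hθ.1.continuous)
  h_cont := (hn.continuous.sqrt).mul (Real.continuous_sin.comp hθ.1.continuous)
  g_h1 := gp_orbG_h1 hn hθ
  h_h1 := gp_orbH_h1 hn hθ
  g_norm := (orb_norms hn hθ.2.1).1
  h_norm := (orb_norms hn hθ.2.1).2
  orth := gp_orth hn hθ
  g_even x := by simp only [orbG, hn.even, hθ.odd, Real.cos_neg]
  h_odd x := by simp only [orbH, hn.even, hθ.odd, Real.sin_neg, mul_neg]
  h_nonneg x hx := by
    have h1 := hθ.2.2.1 x hx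
    exact mul_nonneg (Real.sqrt_nonneg _)
      (Real.sin_nonneg_of_nonneg_of_le_pi h1.1 (h1.2.trans (by linarith [Real.pi_pos])))
  θ_pos x hx hx' := gp_theta_pos hn hθ hd hx hx'
  V_even := gp_formalV_even hn hθ dθ
  V_L2loc := gp_formalV_L2loc hn hθ.1 dθ
  V_int := gp_formalV_int hn hθ dθ
  g_eq φ hφ hc := by
    have h1 := gp_g_eq hn hθ hd hφ hc
    have h2 : (∫ x, ⟪gradient (orbG n θ) x, gradient φ x⟫_ℝ)
        = ∫ x, ⟪orbGgrad n θ (gradient θ) x, gradient φ x⟫_ℝ := by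
      refine integral_congr_ae ?_
      filter_upwards [(gp_grad_ae hn hθ.1).1] with x hx
      rw [hx]
    rw [h2]; exact h1
  h_eq φ hφ hc := by
    have h1 := gp_h_eq hn hθ hd hφ hc
    have h2 : (∫ x, ⟪gradient (orbH n θ) x, gradient φ x⟫_ℝ)
        = ∫ x, ⟪orbHgrad n θ (gradient θ) x, gradient φ x⟫_ℝ := by
      refine integral_congr_ae ?_
      filter_upwards [(gp_grad_ae hn hθ.1).2] with x hx
      rw [hx]
    rw [h2]; exact h1

end Claimed.Open.R278
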