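import Claimed.Open.R278.GPWeight

/-!
# Package GP, leaves GP-S1, GP-S2: `𝒲` is a strict subsolution in the strip region (4.17)

Write `N(p,z) = n (cyl p z)`, `W(p,z) = stW m̃ p z`, `m̃ = gpM n k M` (`= e^{2kp} N` for `p ≥ M/2`), `η₀ = eta0 = 10⁻⁶⁰`, `κ = stKap = 1/50`.

GP-S1 (`gp_sub_div`).  Near a point `x` with `hrad x > M`:  `n y • ∇𝒲 y = a(hrad y, y 2) • epVec y + c(hrad y, y 2) • ez`,  `a = N W_p`, `c = N W_z`  (`gp_axi`, `gp_cyl_gradient`), so by `gp_cyl_div`
   `div (n ∇𝒲) = N_p W_p + N W_pp + N W_p / p + (N W_z)_z`.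
 * `(N W_z)_z = e^{-2kp} (m̃ W_z)_z ≥ 0.9 κ N W = 0.018 N W`  (`stW_flux`);
 * `|W_p| + |W_pp| ≤ 20000 η₀ W`  (`stW_horizontal`; `W_pp = iteratedDeriv 2`);
 * `|N_p| ≤ 3 N`:  `N_p/N = ∂_p log N`, `|∂_p log N + 2 k p/r| ≤ η₀` (`DriftStrip.horizontal`: `r ≥ p ≥ M`, `0 ≤ z ≤ L = 10 ≤ p/2`), `2 k p / r ≤ 2.02`;   * `1/p ≤ 1`.
 Hence `div (n∇𝒲) ≥ (0.018 - 5·20000·10⁻⁶⁰) N W ≥ 0.017 n 𝒲`.
 Regularity: `(p,z) ↦ W_p = fderiv W (p,z) (1,0)` and `W_z` are `C¹` because `W` is `C²` (`stW_contDiff`); `N` is `C²` near `(p,z)`.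
GP-S2 (`gp_sub_weak`): `gp_div_ibp_local` with `O = gpO M` and `X = n ∇𝒲` (`C¹` there: `n ∈ C²` off the nuclei, `𝒲 ∈ C²`), then `gp_sub_div` and `φ ≥ 0`.
-/

open MeasureTheory
open scoped ContDiff InnerProductSpace ENNReal Topology

noncomputable section

namespace Claimed.Open.R278

theorem gps_partial_fst_contDiff {W : ℝ → ℝ → ℝ} (hW : ContDiff ℝ 2 (fun q : ℝ × ℝ => W q.1 q.2)) :
    ContDiff ℝ 1 (fun q : ℝ × ℝ => deriv (fun p' => W p' q.2) q.1) := by
  have e : (fun q : ℝ × ℝ => deriv (fun p' => W p' q.2) q.1)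
      = fun q => fderiv ℝ (fun q : ℝ × ℝ => W q.1 q.2) q (1, 0) :=
    funext fun q => (gp_partial_fst (p := q.1) (z := q.2) (hW.differentiable (by simp) q)).deriv
  rw [e]
  exact (hW.fderiv_right (m := 1) (by norm_num)).clm_apply contDiff_const

theorem gps_partial_snd_contDiff {W : ℝ → ℝ → ℝ} (hW : ContDiff ℝ 2 (fun q : ℝ × ℝ => W q.1 q.2)) :
    ContDiff ℝ 1 (fun q : ℝ × ℝ => deriv (W q.1) q.2) := by
  have e : (fun q : ℝ × ℝ => deriv (W q.1) q.2)
      = fun q => fderiv ℝ (fun q : ℝ × ℝ => W q.1 q.2) q (0, 1) :=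
    funext fun q => (gp_partial_snd (p := q.1) (z := q.2) (hW.differentiable (by simp) q)).deriv
  rw [e]
  exact (hW.fderiv_right (m := 1) (by norm_num)).clm_apply contDiff_const

theorem gps_gradient {W : ℝ → ℝ → ℝ} (hW : ContDiff ℝ 2 (fun q : ℝ × ℝ => W q.1 q.2)) {y : Space}
    (hy : 0 < hrad y) :
    gradient (fun y' : Space => W (hrad y') (y' 2)) y
      = deriv (fun p => W p (y 2)) (hrad y) • epVec y + deriv (W (hrad y)) (y 2) • ez :=
  gp_cyl_gradient hy (hW.differentiable (by simp) _)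

theorem gps_gradient_eventually {W : ℝ → ℝ → ℝ} (hW : ContDiff ℝ 2 (fun q : ℝ × ℝ => W q.1 q.2)) {x : Space}
    (hx : 0 < hrad x) :
    gradient (fun y' : Space => W (hrad y') (y' 2)) =ᶠ[𝓝 x] fun y =>
      (fun p z => deriv (fun p' => W p' z) p) (hrad y) (y 2) • epVec y
        + (fun p z => deriv (W p) z) (hrad y) (y 2) • ez := by
  filter_upwards [hrad_continuous.continuousAt.eventually (lt_mem_nhds hx)] with y hy
  exact gps_gradient hW hy

/-- the divergence of `n ∇𝒲` in cylindrical coordinates. -/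
theorem gps_div_formula {n : Space → ℝ} {W : ℝ → ℝ → ℝ} (hax : ∀ a x, n (rotZ a x) = n x)
    (hW : ContDiff ℝ 2 (fun q : ℝ × ℝ => W q.1 q.2)) {x : Space} (hx : 0 < hrad x)
    (hnx : DifferentiableAt ℝ n x) (hn : DifferentiableAt ℝ n (cyl (hrad x) (x 2))) :
    gpDiv (fun y => n y • gradient (fun y' : Space => W (hrad y') (y' 2)) y) x =
      deriv (fun p => n (cyl p (x 2))) (hrad x) * deriv (fun p => W p (x 2)) (hrad x)
      + n x * (iteratedDeriv 2 (fun p => W p (x 2)) (hrad x) + deriv (fun p => W p (x 2)) (hrad x) / hrad x)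
      + deriv (fun s => n (cyl (hrad x) s) * deriv (W (hrad x)) s) (x 2) := by
  have hWp := (gps_partial_fst_contDiff hW).differentiable (by simp) (hrad x, x 2)
  have hWz := (gps_partial_snd_contDiff hW).differentiable (by simp) (hrad x, x 2)
  have hev := gps_gradient_eventually hW hx
  have hep := epVec_differentiableAt hx
  have hA := gp_cyl_differentiableAt (f := fun p z => deriv (fun p' => W p' z) p) hx hWp
  have hC := gp_cyl_differentiableAt (f := fun p z => deriv (W p) z) hx hWz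
  have hrhs : DifferentiableAt ℝ (fun y : Space =>
      (fun p z => deriv (fun p' => W p' z) p) (hrad y) (y 2) • epVec y
        + (fun p z => deriv (W p) z) (hrad y) (y 2) • ez) x :=
    (hA.smul hep).add (hC.smul (differentiableAt_const _))
  have hgd : DifferentiableAt ℝ (gradient (fun y' : Space => W (hrad y') (y' 2))) x :=
    hrhs.congr_of_eventuallyEq hev
  rw [gpDiv_smul hnx hgd, gpDiv_congr hev,
    gp_cyl_div (a := fun p z => deriv (fun p' => W p' z) p) (c := fun p z => deriv (W p) z) hx hWp hWz,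
    gps_gradient hW hx, gp_axi_gradient hax hx hn]
  -- the vertical product rule
  have hNz : DifferentiableAt ℝ (fun s => n (cyl (hrad x) s)) (x 2) := by
    have h1 : DifferentiableAt ℝ (fun q : ℝ × ℝ => n (cyl q.1 q.2)) (hrad x, x 2) :=
      DifferentiableAt.comp (hrad x, x 2) (g := n) (f := fun q : ℝ × ℝ => cyl q.1 q.2) hn
        (gp_cylpt_contDiff.differentiable (by simp) _)
    exact (gp_partial_snd (f := fun p z => n (cyl p z)) h1).differentiableAt
  have hWzz : DifferentiableAt ℝ (fun s => deriv (W (hrad x)) s) (x 2) :=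
    (gp_partial_snd (f := fun p z => deriv (W p) z) hWz).differentiableAt
  rw [deriv_fun_mul hNz hWzz]
  have hit : iteratedDeriv 2 (fun p => W p (x 2)) (hrad x)
      = deriv (fun p => deriv (fun p' => W p' (x 2)) p) (hrad x) := by
    rw [iteratedDeriv_succ, iteratedDeriv_one]
  rw [hit, ← gp_axi hax x]
  simp only [inner_add_left, inner_add_right, inner_smul_left, inner_smul_right, RCLike.conj_to_real,
    real_inner_self_eq_norm_sq, epVec_norm hx, epVec_inner_ez, ob_norm_ez]
  rw [real_inner_comm, epVec_inner_ez]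
  ring

variable {n : Space → ℝ} {k M : ℝ}

theorem gpO_isOpen (M : ℝ) : IsOpen (gpO M) := by
  have h2 : Continuous fun x : Space => x 2 := (gp_coord_contDiff 2).continuous
  exact (isOpen_lt continuous_const hrad_continuous).inter
    ((isOpen_lt continuous_const h2).inter (isOpen_lt h2 continuous_const))

theorem gps_gradient_contDiff {f : Space → ℝ} (hf : ContDiff ℝ 2 f) : ContDiff ℝ 1 (gradient f) := by
  have h1 : ContDiff ℝ 1 (fderiv ℝ f) := hf.fderiv_right (m := 1) (by norm_num)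
  exact ((InnerProductSpace.toDual ℝ Space).symm.toContinuousLinearEquiv.toContinuousLinearMap.contDiff).comp h1

theorem gp_field_contDiffOn (hn : DensityBasic n) (hM : 0 < M) (hds : DriftStrip n k M) :
    ContDiffOn ℝ 1 (fun y => n y • gradient (gpW n k M) y) (gpO M) := by
  have h1 : ContDiffOn ℝ 1 n (gpO M) :=
    (hn.smooth.of_le (by norm_num)).mono fun x hx => gp_not_mem_nuclei_of_hrad (hM.trans hx.1)
  exact h1.smul (gps_gradient_contDiff (gpW_contDiff hn hM hds)).contDiffOn

theorem gps_eta0_small : 100000 * eta0 ≤ 0.001 := by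
  unfold eta0
  rw [← div_eq_mul_inv, div_le_iff₀ (by positivity)]
  norm_num

theorem gps_eta0_nonneg : 0 ≤ eta0 := by unfold eta0; positivity

/-- (4.17), pointwise. -/
theorem gp_sub_div (hn : DensityBasic n) (hM : 100 ≤ M) (hk : 0.99 < k) (hk' : k < 1.01) (hds : DriftStrip n k M)
    {x : Space} (hx : x ∈ gpO M) :
    0.017 * (n x * gpW n k M x) ≤ gpDiv (fun y => n y • gradient (gpW n k M) y) x := by
  have hM0 : 0 < M := by linarith
  obtain ⟨hp, hz0, hzL⟩ := hx
  have hp0 : 0 < hrad x := hM0.trans hp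
  have hS := gp_stripWeight hn hM0 hds
  have hW := stW_contDiff hS
  set p := hrad x with hpdef
  set z := x 2 with hzdef
  have hL10 : stripL = 10 := rfl
  have hopen : IsOpen (nucleiᶜ : Set Space) := by
    have : (nuclei : Set Space).Finite := by unfold nuclei; simp
    exact this.isClosed.isOpen_compl
  have hnx : DifferentiableAt ℝ n x :=
    (hn.smooth.contDiffAt (hopen.mem_nhds (gp_not_mem_nuclei_of_hrad hp0))).differentiableAt (by norm_num)
  have hcylp : hrad (cyl p z) = p := hrad_cyl hp0.le z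
  have hnc : DifferentiableAt ℝ n (cyl p z) :=
    (hn.smooth.contDiffAt (hopen.mem_nhds (gp_not_mem_nuclei_of_hrad (by rw [hcylp]; exact hp0)))).differentiableAt
      (by norm_num)
  have hform := gps_div_formula (W := stW (gpM n k M)) hn.axisymmetric hW hp0 hnx hnc
  have eW : gpW n k M = fun y' : Space => stW (gpM n k M) (hrad y') (y' 2) := by
    funext y; simp only [gpW]
  rw [eW, hform]
  have hzI : z ∈ Set.Icc 0 stripL := ⟨hz0.le, hzL.le⟩
  -- horizontal bounds on W
  have hη := gps_eta0_small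
  have hη0 := gps_eta0_nonneg
  have hhor := stW_horizontal hS hη0 (by linarith) hp.le hzI
  have hWpos : 0 < stW (gpM n k M) p z := stW_pos hS p hzL
  set Wp := deriv (fun p' => stW (gpM n k M) p' z) p with hWp
  set Wpp := iteratedDeriv 2 (fun p' => stW (gpM n k M) p' z) p with hWpp
  set Wv := stW (gpM n k M) p z with hWv
  -- flux
  obtain ⟨w, hw, hwlo, -⟩ := stW_flux hS hp.le hzI
  have hE := Real.exp_pos (2 * k * p)
  have hflux : deriv (fun s => n (cyl p s) * deriv (stW (gpM n k M) p) s) z = (Real.exp (2 * k * p))⁻¹ * w := by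
    have e : (fun s => n (cyl p s) * deriv (stW (gpM n k M) p) s)
        = fun s => (Real.exp (2 * k * p))⁻¹ * (gpM n k M p s * deriv (stW (gpM n k M) p) s) := by
      funext s
      rw [gpM_eq hM0 (by linarith) s]
      field_simp
    rw [e]
    exact (hw.const_mul _).deriv
  rw [hflux]
  have hnxN : n x = n (cyl p z) := gp_axi hn.axisymmetric x
  have hNpos : 0 < n x := hn.pos x
  have hwlo' : 9 / 10 * stKap * (n x * Wv) ≤ (Real.exp (2 * k * p))⁻¹ * w := by
    rw [gpM_eq hM0 (by linarith) z, ← hnxN] at hwlo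
    have : 9 / 10 * stKap * (n x * Wv) = (Real.exp (2 * k * p))⁻¹ * (9 / 10 * stKap * (Real.exp (2 * k * p) * n x * Wv)) := by
      field_simp
    rw [this]
    exact mul_le_mul_of_nonneg_left hwlo (by positivity)
  -- horizontal log-derivative of n
  have hnorm : p ≤ ‖cyl p z‖ := by
    have := hrad_le_norm (cyl p z)
    rwa [hcylp] at this
  have hh := hds.horizontal p z (by linarith) hz0.le (by rw [hL10] at hzL; linarith)
  have hNd : DifferentiableAt ℝ (fun p' => n (cyl p' z)) p := by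
    have h1 : DifferentiableAt ℝ (fun q : ℝ × ℝ => n (cyl q.1 q.2)) (p, z) :=
      DifferentiableAt.comp (p, z) (g := n) (f := fun q : ℝ × ℝ => cyl q.1 q.2) hnc
        (gp_cylpt_contDiff.differentiable (by simp) _)
    exact (gp_partial_fst (f := fun p z => n (cyl p z)) h1).differentiableAt
  have hlog : deriv (fun p' => Real.log (n (cyl p' z))) p = deriv (fun p' => n (cyl p' z)) p / n (cyl p z) :=
    deriv.log hNd (hn.pos _).ne'
  rw [hlog, ← hnxN] at hh
  set Np := deriv (fun p' => n (cyl p' z)) p with hNp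
  have hratio : 0 ≤ 2 * k * p / ‖cyl p z‖ ∧ 2 * k * p / ‖cyl p z‖ ≤ 2.02 := by
    have hr : 0 < ‖cyl p z‖ := hp0.trans_le hnorm
    constructor
    · have : 0 < k := by linarith
      positivity
    · rw [div_le_iff₀ hr]
      nlinarith
  have hNpb : |Np| ≤ 3 * n x := by
    have h1 := abs_le.1 hh
    have h2 : |Np / n x| ≤ 3 := by
      rw [abs_le]
      constructor <;> linarith [hratio.1, hratio.2, h1.1, h1.2]
    rwa [abs_div, abs_of_pos hNpos, div_le_iff₀ hNpos] at h2
  have hWp_b : |Wp| ≤ 20000 * eta0 * Wv := le_trans (le_add_of_nonneg_right (abs_nonneg _)) hhor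
  have hWpp_b : |Wpp| ≤ 20000 * eta0 * Wv := le_trans (le_add_of_nonneg_left (abs_nonneg _)) hhor
  have hK : stKap = 1 / 50 := rfl
  -- estimates of the three error terms
  have hB : 0 ≤ 20000 * eta0 * Wv := by positivity
  have t1 : -(3 * n x * (20000 * eta0 * Wv)) ≤ Np * Wp := by
    have : |Np * Wp| ≤ 3 * n x * (20000 * eta0 * Wv) := by
      rw [abs_mul]
      exact mul_le_mul hNpb hWp_b (abs_nonneg _) (by positivity)
    exact (abs_le.1 this).1
  have t2 : -(20000 * eta0 * Wv) ≤ Wpp := (abs_le.1 hWpp_b).1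
  have t3 : -(20000 * eta0 * Wv) ≤ Wp / p := by
    have : |Wp / p| ≤ 20000 * eta0 * Wv := by
      rw [abs_div, abs_of_pos hp0, div_le_iff₀ hp0]
      calc |Wp| ≤ 20000 * eta0 * Wv := hWp_b
        _ ≤ 20000 * eta0 * Wv * p := le_mul_of_one_le_right hB (by linarith)
    exact (abs_le.1 this).1
  have t4 : -(n x * (2 * (20000 * eta0 * Wv))) ≤ n x * (Wpp + Wp / p) := by
    have : -(2 * (20000 * eta0 * Wv)) ≤ Wpp + Wp / p := by linarith
    nlinarith
  have hNW : 0 < n x * Wv := mul_pos hNpos hWpos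
  have t5 : 100000 * eta0 * (n x * Wv) ≤ 0.001 * (n x * Wv) := mul_le_mul_of_nonneg_right hη hNW.le
  rw [hK] at hwlo'
  nlinarith

theorem gps_div_integrable_local {φ : Space → ℝ} (hφ : Continuous φ) (hc : HasCompactSupport φ)
    {O : Set Space} (hO : IsOpen O) (hs : tsupport φ ⊆ O) {X : Space → Space} (hX : ContDiffOn ℝ 1 X O) :
    Integrable (fun x => φ x * gpDiv X x) := by
  obtain ⟨κ, hκ, hκc, hκO, hκ1, -⟩ := gp_exists_cutoff hc hO hs
  have hκX : ContDiff ℝ 1 (fun x => κ x • X x) := gp_contDiff_of_tsupport hO hX (hκ.of_le (by simp)) hκO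
  have hnear : ∀ x ∈ tsupport φ, ∀ᶠ y in 𝓝 x, κ y = 1 := fun x hx =>
    Filter.Eventually.filter_mono (nhds_le_nhdsSet hx) hκ1
  have e2 : (fun x => φ x * gpDiv X x) = fun x => φ x * gpDiv (fun x => κ x • X x) x := by
    funext x
    by_cases hx : x ∈ tsupport φ
    · have : (fun x => κ x • X x) =ᶠ[𝓝 x] X := (hnear x hx).mono fun y hy => by simp only [hy, one_smul]
      rw [gpDiv_congr this]
    · have : φ x = 0 := image_eq_zero_of_notMem_tsupport hx
      simp [this]
  rw [e2]
  exact (hφ.mul (gpDiv_continuous hκX)).integrable_of_hasCompactSupport hc.mul_right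

/-- (4.17), weak form. -/
theorem gp_sub_weak (hn : DensityBasic n) (hM : 100 ≤ M) (hk : 0.99 < k) (hk' : k < 1.01) (hds : DriftStrip n k M)
    {φ : Space → ℝ} {Φ : Space → Space} (h : GpTest φ Φ) (hs : tsupport φ ⊆ gpO M) (h0 : ∀ x, 0 ≤ φ x) :
    (∫ x, n x * ⟪gradient (gpW n k M) x, Φ x⟫_ℝ) ≤ -(0.017 * ∫ x, n x * gpW n k M x * φ x) := by
  have hM0 : 0 < M := by linarith
  have hX := gp_field_contDiffOn hn hM0 hds
  have h1 := gp_div_ibp_local h.wg h.supp (gpO_isOpen M) hs hX
  have e1 : (fun x => n x * ⟪gradient (gpW n k M) x, Φ x⟫_ℝ)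
      = fun x => ⟪Φ x, n x • gradient (gpW n k M) x⟫_ℝ := by
    funext x
    rw [inner_smul_right, real_inner_comm]
  rw [e1, h1, neg_le_neg_iff, ← integral_const_mul]
  have hWc : Continuous (gpW n k M) := (gpW_contDiff hn hM0 hds).continuous
  refine integral_mono ?_ (gps_div_integrable_local h.cont h.supp (gpO_isOpen M) hs hX) fun x => ?_
  · exact (continuous_const.mul ((hn.continuous.mul hWc).mul h.cont)).integrable_of_hasCompactSupport
      (h.supp.mul_left.mul_left)
  · by_cases hx : x ∈ gpO M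
    · have := gp_sub_div hn hM hk hk' hds hx
      have h2 := mul_le_mul_of_nonneg_left this (h0 x)
      show 0.017 * (n x * gpW n k M x * φ x) ≤ φ x * gpDiv (fun y => n y • gradient (gpW n k M) y) x
      linarith
    · have : φ x = 0 := image_eq_zero_of_notMem_tsupport fun hh => hx (hs hh)
      simp [this]

end Claimed.Open.R278
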