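import Claimed.Open.R278.GPEven

/-!
# Package GP: Lemma 4.8, `gp_weightedGap_of_tests` (= `weightedGap_of_tests` of `Top.lean`)

Leaves:
* GP-T1 (`gp_gap_test`): even/odd splitting.  `ξ_e = (ξ + ξ∘reflZ)/2`, `ξ_o = (ξ - ξ∘reflZ)/2` are smooth with compact support.  `w` is even.  The cross terms `w ξ_e ξ_o`, `w ⟪∇ξ_e,∇ξ_o⟫`, and `w ξ_o` are odd
  (`∇ξ_e (reflZ x) = reflZ (∇ξ_e x)`, `∇ξ_o (reflZ x) = -reflZ (∇ξ_o x)`, `reflZ` is an isometry): `tk_integral_odd`.  Then `gp_even_gap` + `gp_odd_gap`.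
* GP-T2 (`gp_gap_dense`): `h1_dm_iff` (TKBridge) for the continuous positive weight `w`; `ws_dense`; `integral_dm_eq`; the three integrals `∫ w φ_k²`, `∫ w φ_k`, `∫ w |∇φ_k|²` converge
  (`|‖a‖² - ‖b‖²| ≤ ‖a-b‖² + 2‖b‖‖a-b‖`, Cauchy-Schwarz in `L²(w)`, `∫ w < ∞`); `le_of_tendsto_of_tendsto'`.
* GP-T3 (`gp_inner_boundary`).  Fix `x` with `hrad x = M`, put `x_z = (x₀,x₁,z)`.  `f(z) = (2/π) δ(x_z) - U z - [(2/π) δ_*(x_z) - U₀ z]`; `f(0) = 0` (`θ = θ_* = 0` on the plane, `U 0 = U₀ 0 = 1`);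
  `f'(z) = -(2/π) ∂_z(θ - θ_*)(x_z) - (U' z - U₀' z)`, `|f'| < α/2` by the third test (`le_iSup₂`, `ENNReal.ofReal_lt_ofReal_iff`; `2/π < 1`); `θ_*` is differentiable at `x_z ∉ nuclei` (`TwoCentre.smooth_b/e`, `b > 0`).
  Mean value inequality on `[0,z]` (`Convex.norm_image_sub_le_of_norm_hasDerivWithin_le`): `|f z| ≤ (α/2) z`.  `δ_*(x_z) = δ_*(cyl M z)` (`gp_axi`, axisymmetry of `b, e`), `(2/π) δ_*(cyl M z) - U₀ z ≥ α z` (`IsMargin`: lower bound).
  So `(2/π) δ(x_z) ≥ U z ≥ stW m̃ M z` (`stW_le_stripSolution` with `c = e^{-2kM}`, `gpM_eq`).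
* GP-T4 (`gp_cos_pos`): off the nuclei `gp_cos_pos_off_nuclei`; at a nucleus `‖x‖ = D ≤ 200 M`, the second test gives `n cos² θ/(2 b²) ≥ 1/2`, so `cos θ ≠ 0`; `IsFoldedMinimizer.cos_nonneg`.
-/

open MeasureTheory
open scoped ContDiff InnerProductSpace ENNReal Topology

noncomputable section

namespace Claimed.Open.R278

variable {b e : Space → ℝ} {εb εe : ℝ} {M : ℕ} {n θ : Space → ℝ} {k d : ℝ}

/-! ### GP-T1 -/

theorem gpt_norm_gradient_comp_reflZ (u : Space → ℝ) (x : Space) :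
    ‖gradient (fun y => u (reflZ y)) x‖ = ‖gradient u (reflZ x)‖ := by
  have hn : ∀ (v : Space → ℝ) y, ‖gradient v y‖ = ‖fderiv ℝ v y‖ := fun v y => by
    unfold gradient
    exact LinearIsometryEquiv.norm_map _ _
  rw [hn, hn]
  have e2 : fderiv ℝ (fun y => u (reflZ y)) x
      = (fderiv ℝ u (reflZ x)).comp (fstRefl.toContinuousLinearEquiv : Space →L[ℝ] Space) := by
    have e : (fun y => u (reflZ y)) = u ∘ fstRefl.toContinuousLinearEquiv := rfl
    rw [e, ContinuousLinearEquiv.comp_right_fderiv]; rfl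
  have e3 : ‖(fderiv ℝ u (reflZ x)).comp (fstRefl.toContinuousLinearEquiv : Space →L[ℝ] Space)‖
      = ‖fderiv ℝ u (reflZ x)‖ := ContinuousLinearMap.opNorm_comp_linearIsometryEquiv _ fstRefl
  rw [e2, e3]

theorem gpt_integral_comp_reflZ (f : Space → ℝ) : ∫ x, f (reflZ x) = ∫ x, f x :=
  measurePreserving_reflZ.integral_comp tk3_measurableEmbedding_reflZ f

theorem gp_gap_test (D : GPData b e εb εe M n θ k d) (hg : ∀ x, 0 < Real.cos (θ x)) {ξ : Space → ℝ}
    (hξ : ContDiff ℝ ∞ ξ) (hc : HasCompactSupport ξ) :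
    d * ((∫ x, gpw n θ x * ξ x ^ 2) - (∫ x, gpw n θ x * ξ x) ^ 2 / (∫ x, gpw n θ x))
      ≤ (1 / 2) * ∫ x, gpw n θ x * ‖gradient ξ x‖ ^ 2 := by
  have hnc := D.hn.continuous
  have hθc := D.hθ.1.continuous
  have hw : ∀ x, gpw n θ (reflZ x) = gpw n θ x := by
    intro x
    unfold gpw
    rw [D.hn.even, D.hθ.odd, Real.cos_neg]
  have hwc := gpd_continuous_gpw hnc hθc
  set ξr : Space → ℝ := fun x => ξ (reflZ x) with hξr
  have hr : ContDiff ℝ ∞ ξr := hξ.comp anm_contDiff_reflZ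
  have hrc : HasCompactSupport ξr := anm_hasCompactSupport_comp_reflZ hc
  set ξe : Space → ℝ := fun x => (1 / 2 : ℝ) * (ξ x + ξr x) with hξe
  set ξo : Space → ℝ := fun x => (1 / 2 : ℝ) * (ξ x - ξr x) with hξo
  have he : ContDiff ℝ ∞ ξe := contDiff_const.mul (hξ.add hr)
  have ho : ContDiff ℝ ∞ ξo := contDiff_const.mul (hξ.sub hr)
  have hec : HasCompactSupport ξe := (hc.add hrc).mul_left
  have hoc : HasCompactSupport ξo := (hc.sub hrc).mul_left
  have h1le : (1 : WithTop ℕ∞) ≤ ((⊤ : ℕ∞) : WithTop ℕ∞) := WithTop.coe_le_coe.2 le_top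
  have hev : ∀ x, ξe (reflZ x) = ξe x := fun x => by
    simp only [hξe, hξr, reflZ_reflZ]; ring
  have hodd : ∀ x, ξo (reflZ x) = -ξo x := fun x => by
    simp only [hξo, hξr, reflZ_reflZ]; ring
  have E := gp_even_gap D hg (he.of_le h1le) hec hev
  have O := gp_odd_gap D.hn D.hθ D.hd hg (ho.of_le h1le) hoc hodd
  -- integrability
  have i1 := gpd_integrable_sq hnc hθc hξ.continuous hc
  have i1r := gpd_integrable_sq hnc hθc hr.continuous hrc
  have i1e := gpd_integrable_sq hnc hθc he.continuous hec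
  have i1o := gpd_integrable_sq hnc hθc ho.continuous hoc
  have i2 := gpd_integrable_grad hnc hθc (hξ.of_le h1le) hc
  have i2r := gpd_integrable_grad hnc hθc (hr.of_le h1le) hrc
  have i2e := gpd_integrable_grad hnc hθc (he.of_le h1le) hec
  have i2o := gpd_integrable_grad hnc hθc (ho.of_le h1le) hoc
  have i3 : Integrable fun x => gpw n θ x * ξ x :=
    (hwc.mul hξ.continuous).integrable_of_hasCompactSupport hc.mul_left
  have i3r : Integrable fun x => gpw n θ x * ξr x :=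
    (hwc.mul hr.continuous).integrable_of_hasCompactSupport hrc.mul_left
  -- reflected integrals
  have r1 : (∫ x, gpw n θ x * ξr x ^ 2) = ∫ x, gpw n θ x * ξ x ^ 2 := by
    rw [← gpt_integral_comp_reflZ fun x => gpw n θ x * ξ x ^ 2]
    simp only [hw, hξr]
  have r2 : (∫ x, gpw n θ x * ‖gradient ξr x‖ ^ 2) = ∫ x, gpw n θ x * ‖gradient ξ x‖ ^ 2 := by
    rw [← gpt_integral_comp_reflZ fun x => gpw n θ x * ‖gradient ξ x‖ ^ 2]
    simp only [hw, hξr, gpt_norm_gradient_comp_reflZ]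
  have r3 : (∫ x, gpw n θ x * ξr x) = ∫ x, gpw n θ x * ξ x := by
    rw [← gpt_integral_comp_reflZ fun x => gpw n θ x * ξ x]
    simp only [hw, hξr]
  -- sums
  have s1 : (∫ x, gpw n θ x * ξe x ^ 2) + (∫ x, gpw n θ x * ξo x ^ 2) = ∫ x, gpw n θ x * ξ x ^ 2 := by
    rw [← integral_add i1e i1o]
    have : (fun x => gpw n θ x * ξe x ^ 2 + gpw n θ x * ξo x ^ 2)
        = fun x => (1 / 2 : ℝ) * (gpw n θ x * ξ x ^ 2 + gpw n θ x * ξr x ^ 2) := by
      funext x
      simp only [hξe, hξo]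
      ring
    rw [this, integral_const_mul, integral_add i1 i1r, r1]
    ring
  have s3 : (∫ x, gpw n θ x * ξe x) = ∫ x, gpw n θ x * ξ x := by
    have : (fun x => gpw n θ x * ξe x)
        = fun x => (1 / 2 : ℝ) * (gpw n θ x * ξ x + gpw n θ x * ξr x) := by
      funext x
      simp only [hξe]
      ring
    rw [this, integral_const_mul, integral_add i3 i3r, r3]
    ring
  have dξ : ∀ x, DifferentiableAt ℝ ξ x := fun x => (hξ.differentiable (by simp)) x
  have dr : ∀ x, DifferentiableAt ℝ ξr x := fun x => (hr.differentiable (by simp)) x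
  have ge : ∀ x, gradient ξe x = (1 / 2 : ℝ) • (gradient ξ x + gradient ξr x) := by
    intro x
    have h1 : HasGradientAt ξe ((1 / 2 : ℝ) • (gradient ξ x + gradient ξr x)) x := by
      rw [hasGradientAt_iff_hasFDerivAt, map_smul, map_add]
      exact ((dξ x).hasGradientAt.hasFDerivAt.add (dr x).hasGradientAt.hasFDerivAt).const_smul (1 / 2 : ℝ)
    exact h1.gradient
  have go : ∀ x, gradient ξo x = (1 / 2 : ℝ) • (gradient ξ x - gradient ξr x) := by
    intro x
    have h1 : HasGradientAt ξo ((1 / 2 : ℝ) • (gradient ξ x - gradient ξr x)) x := by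
      rw [hasGradientAt_iff_hasFDerivAt, map_smul, map_sub]
      exact ((dξ x).hasGradientAt.hasFDerivAt.sub (dr x).hasGradientAt.hasFDerivAt).const_smul (1 / 2 : ℝ)
    exact h1.gradient
  have s2 : (∫ x, gpw n θ x * ‖gradient ξe x‖ ^ 2) + (∫ x, gpw n θ x * ‖gradient ξo x‖ ^ 2)
      = ∫ x, gpw n θ x * ‖gradient ξ x‖ ^ 2 := by
    rw [← integral_add i2e i2o]
    have : (fun x => gpw n θ x * ‖gradient ξe x‖ ^ 2 + gpw n θ x * ‖gradient ξo x‖ ^ 2)
        = fun x => (1 / 2 : ℝ) * (gpw n θ x * ‖gradient ξ x‖ ^ 2 + gpw n θ x * ‖gradient ξr x‖ ^ 2) := by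
      funext x
      rw [ge, go, norm_smul, norm_smul]
      have := parallelogram_law_with_norm ℝ (gradient ξ x) (gradient ξr x)
      have h2 : ‖(1 / 2 : ℝ)‖ = 1 / 2 := by norm_num
      rw [h2]
      linear_combination (gpw n θ x / 4) * this
    rw [this, integral_const_mul, integral_add i2 i2r, r2]
    ring
  rw [← s1, ← s2, ← s3]
  linarith

/-! ### GP-T2 -/

theorem gp_gap_dense (hn : DensityBasic n) (hθ : Continuous θ) (hg : ∀ x, 0 < Real.cos (θ x))
    (h : ∀ ξ : Space → ℝ, ContDiff ℝ ∞ ξ → HasCompactSupport ξ →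
      d * ((∫ x, gpw n θ x * ξ x ^ 2) - (∫ x, gpw n θ x * ξ x) ^ 2 / (∫ x, gpw n θ x))
        ≤ (1 / 2) * ∫ x, gpw n θ x * ‖gradient ξ x‖ ^ 2) :
    WeightedGap n θ d := by
  intro ξ G hw hi
  have hwc : Continuous (gpw n θ) := by
    unfold gpw
    exact hn.continuous.mul ((Real.continuous_cos.comp hθ).pow 2)
  have hwpos : ∀ x, 0 < gpw n θ x := fun x => by
    unfold gpw
    have := hn.pos x
    have := hg x
    positivity
  have hH : Claimed.Agent.R259.H1 (Claimed.Agent.R259.dm (gpw n θ)) ξ G :=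
    (h1_dm_iff hwc hwpos).1 ⟨hw, hi⟩
  obtain ⟨φ, hφ, h1, h2⟩ := Claimed.Agent.R259.ws_dense hwc hwpos hH
  have hφH := fun j => Claimed.Agent.R259.ws_H1_of_test hwc hwpos (hφ j)
  have hwi : Integrable (gpw n θ) := by
    refine hn.integrable.mono' hwc.aestronglyMeasurable (Filter.Eventually.of_forall fun x => ?_)
    rw [Real.norm_of_nonneg (hwpos x).le]
    unfold gpw
    have h0 := (hn.pos x).le
    have h1 : Real.cos (θ x) ^ 2 ≤ 1 := by
      have := Real.cos_sq_le_one (θ x)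
      exact this
    nlinarith
  have hone : MemLp (fun _ : Space => (1 : ℝ)) 2 (Claimed.Agent.R259.dm (gpw n θ)) := by
    refine (memLp_dm_iff hwc hwpos aestronglyMeasurable_const).2 ?_
    simpa using hwi
  have t1 := Claimed.Agent.R259.ws_tendsto_sq (fun j => (hφH j).2.1) hH.2.1 h1
  have t2 := Claimed.Agent.R259.ws_tendsto_mul (fun j => (hφH j).2.1) hH.2.1 (fun _ => hone) hone h1
    (by simp)
  have t3 := Claimed.Agent.R259.ws_tendsto_norm_sq (fun j => (hφH j).2.2) hH.2.2 h2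
  simp only [integral_dm_eq hwc hwpos, mul_one] at t1 t2 t3
  have key := le_of_tendsto_of_tendsto'
    (((t1.sub ((t2.pow 2).div_const (∫ x, gpw n θ x))).const_mul d)) (t3.const_mul (1 / 2))
    (fun j => h (φ j) (hφ j).1 (hφ j).2)
  exact key

/-! ### GP-T3 -/

theorem gpt_refTheta_differentiableAt (h : TwoCentre b e εb εe) {y : Space} (hy : y ∉ nuclei) :
    DifferentiableAt ℝ (refTheta b e) y := by
  have hop : IsOpen (nucleiᶜ : Set Space) := gp_isOpen_nuclei_compl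
  have hb : DifferentiableAt ℝ b y := (h.smooth_b.contDiffAt (hop.mem_nhds hy)).differentiableAt (by simp)
  have he : DifferentiableAt ℝ e y := (h.smooth_e.contDiffAt (hop.mem_nhds hy)).differentiableAt (by simp)
  have hne : √2 * b y ≠ 0 := (mul_pos (by positivity) (h.data.pos_b y)).ne'
  have h0 : DifferentiableAt ℝ (fun x => √2 * b x) y := hb.const_mul _
  have h1 : DifferentiableAt ℝ (fun x => e x / (√2 * b x)) y := by
    simp only [div_eq_mul_inv]
    exact he.mul (h0.fun_inv hne)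
  have h2 : DifferentiableAt ℝ (fun x => Real.arctan (e x / (√2 * b x))) y := h1.arctan
  exact h2

theorem gpt_refTheta_plane (h : TwoCentre b e εb εe) {y : Space} (hy : y 2 = 0) : refTheta b e y = 0 := by
  have hr : reflZ y = y := by apply space_ext <;> simp [hy]
  have h1 := h.data.odd_e y
  rw [hr] at h1
  have h2 : e y = 0 := by linarith
  unfold refTheta
  rw [h2, zero_div, Real.arctan_zero]

theorem gpt_refDelta_axi (h : TwoCentre b e εb εe) (y : Space) :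
    refDelta b e y = refDelta b e (cyl (hrad y) (y 2)) :=
  gp_axi (f := refDelta b e) (fun a x => by
    unfold refDelta refTheta
    rw [h.data.axisymmetric_b, h.data.axisymmetric_e]) y

theorem gp_inner_boundary (h : TwoCentre b e εb εe) (hM : 10 * bigD < M) {U₀ U₀' : ℝ → ℝ}
    (hU₀ : IsStripSolution (fun z => refDensity b e (cyl M z)) U₀ U₀') {α : ℝ} (hα : 0 < α)
    (hαM : IsMargin b e M U₀ α) {U U' : ℝ → ℝ} (hn : DensityBasic n) (hds : DriftStrip n k M)
    (hθ : IsFoldedMinimizer n θ) (hU : IsStripSolution (fun z => n (cyl M z)) U U')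
    (htest : (⨆ x ∈ {x : Space | √(x 0 ^ 2 + x 1 ^ 2) = M ∧ 0 ≤ x 2 ∧ x 2 ≤ stripL},
      ENNReal.ofReal (|fderiv ℝ (fun y => θ y - refTheta b e y) x ez| + |U' (x 2) - U₀' (x 2)|))
      < ENNReal.ofReal (α / 2))
    (x : Space) (hx : hrad x = M) (h0 : 0 ≤ x 2) (hL : x 2 ≤ stripL) :
    gpW n k M x ≤ 2 / Real.pi * gpDel θ x := by
  have hpi := Real.pi_pos
  have hD : (0 : ℝ) < bigD := by unfold bigD; positivity
  have hMpos : (0 : ℝ) < M := by linarith
  rcases h0.eq_or_lt with h0 | h0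
  · rw [gpW_plane hn hMpos hds h0.symm, gpDel, hθ.eq_zero_of_plane h0.symm, sub_zero]
    apply le_of_eq
    field_simp
  -- the vertical segment
  obtain ⟨γ, hγ⟩ : ∃ γ : ℝ → Space, γ = fun z => x + (z - x 2) • ez := ⟨_, rfl⟩
  have γ0 : ∀ z, (γ z) 0 = x 0 := fun z => by rw [hγ]; simp [ez]
  have γ1 : ∀ z, (γ z) 1 = x 1 := fun z => by rw [hγ]; simp [ez]
  have γ2 : ∀ z, (γ z) 2 = z := fun z => by rw [hγ]; simp [ez]
  have γx : γ (x 2) = x := by rw [hγ]; simp
  have γh : ∀ z, hrad (γ z) = M := fun z => by rw [← hx]; unfold hrad; rw [γ0, γ1]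
  have γd : ∀ z, HasDerivAt γ ez z := fun z => by
    rw [hγ]
    simpa using (((hasDerivAt_id z).sub_const (x 2)).smul_const ez).const_add x
  have γn : ∀ z, γ z ∉ nuclei := fun z => gp_not_mem_nuclei_of_hrad (by rw [γh]; exact hMpos)
  obtain ⟨g, hg⟩ : ∃ g : Space → ℝ, g = fun y => θ y - refTheta b e y := ⟨_, rfl⟩
  have gd : ∀ z, DifferentiableAt ℝ g (γ z) := fun z => by
    rw [hg]
    exact ((hθ.1.differentiable one_ne_zero) _).sub (gpt_refTheta_differentiableAt h (γn z))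
  have gγ : ∀ z, HasDerivAt (fun s => g (γ s)) (fderiv ℝ g (γ z) ez) z := fun z =>
    (gd z).hasFDerivAt.comp_hasDerivAt z (γd z)
  -- the test
  have hbound : ∀ z ∈ Set.Icc 0 stripL, |fderiv ℝ g (γ z) ez| + |U' z - U₀' z| < α / 2 := by
    intro z hz
    have hmem : γ z ∈ {x : Space | √(x 0 ^ 2 + x 1 ^ 2) = M ∧ 0 ≤ x 2 ∧ x 2 ≤ stripL} :=
      ⟨γh z, by rw [γ2]; exact hz.1, by rw [γ2]; exact hz.2⟩
    have h1 := le_iSup₂ (f := fun (x : Space)
      (_ : x ∈ {x : Space | √(x 0 ^ 2 + x 1 ^ 2) = M ∧ 0 ≤ x 2 ∧ x 2 ≤ stripL}) =>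
      ENNReal.ofReal (|fderiv ℝ (fun y => θ y - refTheta b e y) x ez| + |U' (x 2) - U₀' (x 2)|)) (γ z) hmem
    have h2 := lt_of_le_of_lt h1 htest
    rw [ENNReal.ofReal_lt_ofReal_iff (by positivity), γ2, ← hg] at h2
    exact h2
  -- the function `f`
  have hc1 : 2 / Real.pi ≤ 1 := by
    rw [div_le_one hpi]; exact Real.two_le_pi
  have hc0 : 0 ≤ 2 / Real.pi := by positivity
  have fd : ∀ z ∈ Set.Icc 0 stripL, HasDerivWithinAt (fun s => -(2 / Real.pi) * g (γ s) - (U s - U₀ s))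
      (-(2 / Real.pi) * fderiv ℝ g (γ z) ez - (U' z - U₀' z)) (Set.Icc 0 stripL) z := fun z hz =>
    ((gγ z).const_mul _).hasDerivWithinAt.sub (((hU.2.2 z hz).1).sub ((hU₀.2.2 z hz).1))
  have fb : ∀ z ∈ Set.Icc 0 stripL, ‖-(2 / Real.pi) * fderiv ℝ g (γ z) ez - (U' z - U₀' z)‖ ≤ α / 2 := by
    intro z hz
    have h1 := hbound z hz
    rw [Real.norm_eq_abs]
    have h2 : |-(2 / Real.pi) * fderiv ℝ g (γ z) ez - (U' z - U₀' z)|
        ≤ |-(2 / Real.pi) * fderiv ℝ g (γ z) ez| + |U' z - U₀' z| := abs_sub _ _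
    have h3 : |-(2 / Real.pi) * fderiv ℝ g (γ z) ez| ≤ |fderiv ℝ g (γ z) ez| := by
      rw [abs_mul, abs_neg, abs_of_nonneg hc0]
      exact mul_le_of_le_one_left (abs_nonneg _) hc1
    linarith
  have hmv := Convex.norm_image_sub_le_of_norm_hasDerivWithin_le fd fb (convex_Icc 0 stripL)
    (Set.left_mem_Icc.2 stripL_pos.le) (⟨h0.le, hL⟩ : x 2 ∈ Set.Icc 0 stripL)
  have g0 : g (γ 0) = 0 := by
    rw [hg]
    simp only [hθ.eq_zero_of_plane (γ2 0), gpt_refTheta_plane h (γ2 0), sub_zero]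
  simp only [g0, hU.1, hU₀.1, γx, mul_zero, sub_self, sub_zero, Real.norm_eq_abs, abs_of_pos h0] at hmv
  have hlow := (abs_le.1 hmv).1
  -- the margin
  have hmar : α * x 2 ≤ 2 / Real.pi * refDelta b e x - U₀ (x 2) := by
    have h1 : α ≤ (2 / Real.pi * refDelta b e (cyl M (x 2)) - U₀ (x 2)) / x 2 :=
      hαM.1 ⟨x 2, ⟨h0, hL⟩, rfl⟩
    rw [le_div_iff₀ h0] at h1
    rw [gpt_refDelta_axi h x, hx]
    exact h1
  -- comparison with the truncated family
  have hW : gpW n k M x ≤ U (x 2) := by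
    unfold gpW
    rw [hx]
    refine stW_le_stripSolution (gp_stripWeight hn hMpos hds) le_rfl (c := Real.exp (-(2 * k * M)))
      (Real.exp_pos _) (U' := U') ?_ ⟨h0.le, hL⟩
    have e1 : (fun z => Real.exp (-(2 * k * M)) * gpM n k M M z) = fun z => n (cyl M z) := by
      funext z
      rw [gpM_eq hMpos (by linarith), ← mul_assoc, ← Real.exp_add]
      simp
    rw [e1]
    exact hU
  have e2 : g x = θ x - refTheta b e x := by rw [hg]
  rw [e2] at hlow
  unfold gpDel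
  unfold refDelta at hmar
  have hαz : 0 ≤ α * x 2 := by positivity
  nlinarith

/-! ### GP-T4 -/

theorem gp_cos_pos (h : TwoCentre b e εb εe) (hM : 10 * bigD < M) (hn : DensityBasic n)
    (hθ : IsFoldedMinimizer n θ) (hd : IsMultiplier n θ d)
    (hratio : ∀ x : Space, ‖x‖ ≤ 2 * (100 * M) →
      1 / 2 ≤ n x * Real.cos (θ x) ^ 2 / (2 * b x ^ 2) ∧ n x * Real.cos (θ x) ^ 2 / (2 * b x ^ 2) ≤ 2)
    (x : Space) : 0 < Real.cos (θ x) := by
  by_cases hx : x ∈ nuclei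
  · have hD := gp_bigD_pos
    have hez : ‖ez‖ = 1 := by simp [ez]
    have hnorm : ‖x‖ = bigD := by
      rcases hx with hx | hx
      · rw [hx, norm_smul, hez, mul_one, Real.norm_of_nonneg hD.le]
      · rw [Set.mem_singleton_iff] at hx
        rw [hx, norm_neg, norm_smul, hez, mul_one, Real.norm_of_nonneg hD.le]
    have h1 := (hratio x (by rw [hnorm]; linarith)).1
    rcases (hθ.cos_nonneg x).lt_or_eq with h3 | h3
    · exact h3
    · rw [← h3] at h1
      norm_num at h1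
  · exact gp_cos_pos_off_nuclei hn hθ hd hx

/-! ### Top theorem -/

/-- **Lemma 4.8.** -/
theorem gp_weightedGap_of_tests {b e : Space → ℝ} {εb εe : ℝ} (h : TwoCentre b e εb εe) {M : ℕ}
    (hM : 10 * bigD < M) {U₀ U₀' : ℝ → ℝ}
    (hU₀ : IsStripSolution (fun z => refDensity b e (cyl M z)) U₀ U₀') {α : ℝ} (hα : 0 < α)
    (hαM : IsMargin b e M U₀ α)
    {n θ : Space → ℝ} {k dθ : ℝ} {U U' : ℝ → ℝ} (hn : DensityBasic n)
    (hk : 0.99 < k) (hk' : k < 1.01) (hds : DriftStrip n k M)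
    (hθ : IsFoldedMinimizer n θ) (hd : IsMultiplier n θ dθ)
    (hU : IsStripSolution (fun z => n (cyl M z)) U U')
    (htests : PassesAngleTests b e M α U₀' n θ dθ U') :
    (∀ x, 0 < Real.cos (θ x)) ∧ WeightedGap n θ dθ := by
  obtain ⟨⟨hd0, hd1⟩, hratio, hcyl⟩ := htests
  have hg : ∀ x, 0 < Real.cos (θ x) := gp_cos_pos h hM hn hθ hd hratio
  have D : GPData b e εb εe M n θ k dθ :=
    { tc := h, hM := hM, hn := hn, hk := hk, hk' := hk', hds := hds, hθ := hθ, hd := hd, d_pos := hd0,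
      d_lt := hd1, ratio := hratio
      inner := gp_inner_boundary h hM hU₀ hα hαM hn hds hθ hU hcyl }
  exact ⟨hg, gp_gap_dense hn hθ.1.continuous hg fun ξ hξ hc => gp_gap_test D hg hξ hc⟩

end Claimed.Open.R278
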