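import Claimed.Open.R278.GPCyl

/-!
# Package GP, leaves GP-W1, GP-W2: the global weight `m̃ = gpM n k M` is a `StripWeight`; basic properties of `𝒲 = gpW n k M`

GP-W1.  `gpPsi M p = c + (p - c) σ((p-c)/c)`, `c = M/4 > 0`, `σ = Real.smoothTransition` (`σ = 0` on `(-∞,0]`, `σ = 1` on `[1,∞)`, `0 ≤ σ ≤ 1`).
`cyl (gpPsi M p) z ∉ nuclei` because its `hrad` is `≥ M/4 > 0`; `n` is `C²` off the nuclei; `(p,z) ↦ cyl (gpPsi M p) z` is smooth.  For `p > M/2`: `gpM n k M p' z = e^{2kp'} n (cyl p' z)` for `p'` near `p`, so `deriv`, `iteratedDeriv 2`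
agree with those in `DriftStrip.strip` (`Filter.EventuallyEq.deriv_eq`, `Filter.EventuallyEq.iteratedDeriv_eq`).  `ratio` from `DriftStrip.ratio`.

GP-W2.  `gpW_contDiff`: on `{hrad > 0}` compose `stW_contDiff` with the smooth map `x ↦ (hrad x, x 2)`; on `{hrad < M/4}` the function `gpM n k M p` does not depend on `p` (`gpPsi_eq_const`), hence
`gpW n k M x = stW (gpM n k M) (M/4) (x 2)` there (unfold `stW`: it depends on `p` only through the function `gpM n k M p`).  The two open sets cover `ℝ³`.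
`gpW_le_one`: `stW_deriv_neg` ⇒ antitone on `(-∞, L]`; `stW_zero`.
-/

open MeasureTheory
open scoped ContDiff InnerProductSpace ENNReal Topology

noncomputable section

namespace Claimed.Open.R278

/-! ### GP-W1 -/

variable {M : ℝ}

theorem gpPsi_contDiff (M : ℝ) : ContDiff ℝ ∞ (gpPsi M) := by
  unfold gpPsi
  exact contDiff_const.add ((contDiff_id.sub contDiff_const).mul
    (Real.smoothTransition.contDiff.comp ((contDiff_id.sub contDiff_const).div_const _)))

theorem gpPsi_ge (hM : 0 < M) (p : ℝ) : M / 4 ≤ gpPsi M p := by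
  unfold gpPsi
  rcases le_total p (M / 4) with h | h
  · have : (p - M / 4) / (M / 4) ≤ 0 := div_nonpos_of_nonpos_of_nonneg (by linarith) (by positivity)
    rw [Real.smoothTransition.zero_of_nonpos this]
    simp
  · have := Real.smoothTransition.nonneg ((p - M / 4) / (M / 4))
    have : 0 ≤ (p - M / 4) * Real.smoothTransition ((p - M / 4) / (M / 4)) :=
      mul_nonneg (by linarith) this
    linarith

theorem gpPsi_eq_self (hM : 0 < M) {p : ℝ} (hp : M / 2 ≤ p) : gpPsi M p = p := by
  unfold gpPsi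
  have : 1 ≤ (p - M / 4) / (M / 4) := by
    rw [le_div_iff₀ (by positivity)]
    linarith
  rw [Real.smoothTransition.one_of_one_le this]
  ring

theorem gpPsi_eq_const (hM : 0 < M) {p : ℝ} (hp : p ≤ M / 4) : gpPsi M p = M / 4 := by
  unfold gpPsi
  have : (p - M / 4) / (M / 4) ≤ 0 := div_nonpos_of_nonpos_of_nonneg (by linarith) (by positivity)
  rw [Real.smoothTransition.zero_of_nonpos this]
  simp

variable {n : Space → ℝ} {k : ℝ}

theorem gpM_eq (hM : 0 < M) {p : ℝ} (hp : M / 2 ≤ p) (z : ℝ) :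
    gpM n k M p z = Real.exp (2 * k * p) * n (cyl p z) := by
  simp only [gpM, gpPsi_eq_self hM hp]

theorem gp_stripWeight (hn : DensityBasic n) (hM : 0 < M) (hds : DriftStrip n k M) :
    StripWeight (gpM n k M) M eta0 := by
  refine ⟨?_, fun p z => ?_, fun p z hp h0 hL => ?_, fun p z₁ z₂ hp h0 h12 hL => ?_⟩
  · unfold gpM
    have hψ : ContDiff ℝ 2 (fun q : ℝ × ℝ => gpPsi M q.1) :=
      ((gpPsi_contDiff M).comp contDiff_fst).of_le Claimed.Agent.R259.reg_two_le_infty
    have hmap : ContDiff ℝ 2 (fun q : ℝ × ℝ => cyl (gpPsi M q.1) q.2) :=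
      (gp_cylpt_contDiff.of_le Claimed.Agent.R259.reg_two_le_infty).comp (hψ.prodMk contDiff_snd)
    have hmaps : Set.MapsTo (fun q : ℝ × ℝ => cyl (gpPsi M q.1) q.2) Set.univ nucleiᶜ := fun q _ => by
      apply gp_not_mem_nuclei_of_hrad
      have := gpPsi_ge hM q.1
      rw [hrad_cyl (by linarith)]
      linarith
    have hncomp : ContDiff ℝ 2 (fun q : ℝ × ℝ => n (cyl (gpPsi M q.1) q.2)) :=
      contDiffOn_univ.1 (hn.smooth.comp hmap.contDiffOn hmaps)
    exact (Real.contDiff_exp.comp (contDiff_const.mul hψ)).mul hncomp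
  · exact mul_pos (Real.exp_pos _) (hn.pos _)
  · have hev : (fun p' => gpM n k M p' z) =ᶠ[𝓝 p] fun p' => Real.exp (2 * k * p') * n (cyl p' z) :=
      (lt_mem_nhds (by linarith : M / 2 < p)).mono fun p' hp' => gpM_eq hM (le_of_lt hp') z
    rw [hev.deriv_eq, hev.iteratedDeriv_eq, gpM_eq hM (by linarith)]
    exact hds.strip p z hp h0 hL
  · rw [gpM_eq hM (by linarith), gpM_eq hM (by linarith)]
    have := hds.ratio p z₁ z₂ hp h0 h12 hL
    have he := Real.exp_pos (2 * k * p)
    nlinarith

/-! ### GP-W2 -/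

theorem gpW_contDiff (hn : DensityBasic n) (hM : 0 < M) (hds : DriftStrip n k M) :
    ContDiff ℝ 2 (gpW n k M) := by
  have hW := stW_contDiff (gp_stripWeight hn hM hds)
  rw [contDiff_iff_contDiffAt]
  intro x
  by_cases hx : 0 < hrad x
  · have h1 : ContDiffAt ℝ 2 (fun y : Space => (hrad y, y 2)) x :=
      ((hrad_contDiffAt hx).of_le Claimed.Agent.R259.reg_two_le_infty).prodMk
        ((gp_coord_contDiff 2).contDiffAt.of_le Claimed.Agent.R259.reg_two_le_infty)
    have h3 := ContDiffAt.comp (g := fun q : ℝ × ℝ => stW (gpM n k M) q.1 q.2) x hW.contDiffAt h1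
    have e : gpW n k M = (fun q : ℝ × ℝ => stW (gpM n k M) q.1 q.2) ∘ fun y : Space => (hrad y, y 2) := by
      funext y; simp only [gpW, Function.comp]
    rw [e]
    exact h3
  · have hx0 : hrad x < M / 4 := by
      have : hrad x = 0 := le_antisymm (not_lt.1 hx) (hrad_nonneg x)
      rw [this]; positivity
    have hev : gpW n k M =ᶠ[𝓝 x] fun y => stW (gpM n k M) (M / 4) (y 2) := by
      filter_upwards [hrad_continuous.continuousAt.eventually (gt_mem_nhds hx0)] with y hy
      have e : gpM n k M (hrad y) = gpM n k M (M / 4) := by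
        funext z
        simp only [gpM, gpPsi_eq_const hM (le_of_lt hy), gpPsi_eq_const hM le_rfl]
      simp only [gpW, stW, e]
    have h4 : ContDiff ℝ 2 (fun y : Space => ((M / 4 : ℝ), y 2)) :=
      contDiff_const.prodMk ((gp_coord_contDiff 2).of_le Claimed.Agent.R259.reg_two_le_infty)
    have h2 : ContDiff ℝ 2 (fun y : Space => stW (gpM n k M) (M / 4) (y 2)) := by
      have h3 := ContDiff.comp (g := fun q : ℝ × ℝ => stW (gpM n k M) q.1 q.2) hW h4
      have e : (fun y : Space => stW (gpM n k M) (M / 4) (y 2))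
          = (fun q : ℝ × ℝ => stW (gpM n k M) q.1 q.2) ∘ fun y : Space => ((M / 4 : ℝ), y 2) := by
        funext y; simp only [Function.comp]
      rw [e]
      exact h3
    exact h2.contDiffAt.congr_of_eventuallyEq hev

theorem gpW_plane (hn : DensityBasic n) (hM : 0 < M) (hds : DriftStrip n k M) {x : Space} (hx : x 2 = 0) :
    gpW n k M x = 1 := by
  rw [gpW, hx]; exact stW_zero (gp_stripWeight hn hM hds) _

theorem gpW_top {x : Space} (hx : x 2 = stripL) : gpW n k M x = 0 := by
  rw [gpW, hx]; exact stW_stripL _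

theorem gpW_pos (hn : DensityBasic n) (hM : 0 < M) (hds : DriftStrip n k M) {x : Space} (hx : x 2 < stripL) :
    0 < gpW n k M x :=
  stW_pos (gp_stripWeight hn hM hds) _ hx

theorem gpW_le_one (hn : DensityBasic n) (hM : 0 < M) (hds : DriftStrip n k M) {x : Space} (hx : 0 ≤ x 2)
    (hx' : x 2 ≤ stripL) : gpW n k M x ≤ 1 := by
  have hS := gp_stripWeight hn hM hds
  rw [gpW, ← stW_zero hS (hrad x)]
  have hanti : AntitoneOn (stW (gpM n k M) (hrad x)) (Set.Icc 0 stripL) := by
    refine antitoneOn_of_deriv_nonpos (convex_Icc _ _)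
      (fun z _ => (stW_hasDerivAt hS _ z).continuousAt.continuousWithinAt)
      (fun z _ => (stW_hasDerivAt hS _ z).differentiableAt.differentiableWithinAt) fun z hz => ?_
    rw [interior_Icc] at hz
    exact (stW_deriv_neg hS _ hz.2.le).le
  exact hanti ⟨le_rfl, stripL_pos.le⟩ ⟨hx, hx'⟩ hx

/-- the vertical derivative of `𝒲`. -/
theorem gpW_fderiv_ez (hn : DensityBasic n) (hM : 0 < M) (hds : DriftStrip n k M) (x : Space) :
    fderiv ℝ (gpW n k M) x ez = deriv (stW (gpM n k M) (hrad x)) (x 2) := by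
  have hd : DifferentiableAt ℝ (gpW n k M) x := (gpW_contDiff hn hM hds).differentiable (by simp) x
  have hline : HasDerivAt (fun t : ℝ => x + t • ez) ez 0 := by
    have := ((hasDerivAt_id (0:ℝ)).smul_const ez).const_add x
    simpa using this
  have h1 : HasDerivAt (fun t : ℝ => gpW n k M (x + t • ez)) (fderiv ℝ (gpW n k M) x ez) 0 := by
    have hd' : HasFDerivAt (gpW n k M) (fderiv ℝ (gpW n k M) x) (x + (0:ℝ) • ez) := by
      simpa using hd.hasFDerivAt
    exact hd'.comp_hasDerivAt 0 hline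
  have e : (fun t : ℝ => gpW n k M (x + t • ez)) = fun t => stW (gpM n k M) (hrad x) (x 2 + t) := by
    funext t
    have h0 : hrad (x + t • ez) = hrad x := by simp [hrad, ez]
    have h2 : (x + t • ez) 2 = x 2 + t := by simp [ez]
    simp only [gpW, h0, h2]
  rw [e] at h1
  have h2 : HasDerivAt (fun t => stW (gpM n k M) (hrad x) (x 2 + t))
      (deriv (stW (gpM n k M) (hrad x)) (x 2)) 0 := by
    have hS := gp_stripWeight hn hM hds
    have h3 : HasDerivAt (stW (gpM n k M) (hrad x)) (deriv (stW (gpM n k M) (hrad x)) (x 2)) (x 2 + 0) := by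
      rw [add_zero]
      exact (stW_hasDerivAt hS _ _).differentiableAt.hasDerivAt
    exact h3.comp_const_add (x 2) 0
  exact h1.unique h2

end Claimed.Open.R278
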