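import Claimed.Open.R278.Excited
import Claimed.Open.R278.ChargeLemmas

/-!
# A noninteracting three-electron ground state

For the bounded potential `v(r) = -3 (sech² r₁ + sech² r₂ + sech² r₃) ∈ L^{3/2} + L^∞` the
noninteracting Hamiltonian `H_s(v)` of `Statement.lean` has the ground energy `-33/2`, attained by
the Slater determinant of the spin orbitals `φ₁↑, φ₁↓, φ₂↑`, where
`φ₁(r) = ∏ₐ sech² rₐ` and `φ₂(r) = φ₁(r) sinh r₃` are the two lowest orbitals.
So the class of Kohn–Sham ground-state ensembles, over which `Statement` quantifies, is not empty.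
-/

open MeasureTheory Filter Topology Set InnerProductSpace
open scoped ContDiff InnerProductSpace ENNReal

noncomputable section

set_option linter.unusedSectionVars false

namespace Claimed.Open.R278

/-! ### Classical gradients of `L²` functions are weak gradients -/

theorem isWeakGradient_of_differentiable {F : Config 3 → SpinSpace 3}
    {D : Fin 3 × Fin 3 → Config 3 → SpinSpace 3} (hF : Differentiable ℝ F)
    (hD : ∀ j x, fderiv ℝ F x (dir j) = D j x) (cD : ∀ j, Continuous (D j))
    (mF : MemLp F 2 volume) (mD : ∀ j, MemLp (D j) 2 volume) :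
    IsWeakGradient (mF.toLp F) (fun j => (mD j).toLp (D j)) := by
  intro j φ hφ hφc
  have hφd : Differentiable ℝ φ := hφ.differentiable (by simp)
  have hd := continuous_fderiv_dir hφ (dir j)
  have h1 : Integrable (fun x => fderiv ℝ φ x (dir j) • F x) :=
    (hd.smul hF.continuous).integrable_of_hasCompactSupport
      (hasCompactSupport_fderiv_dir hφc (dir j)).smul_right
  have h2 : Integrable (fun x => φ x • fderiv ℝ F x (dir j)) := by
    simp only [hD]
    exact (hφ.continuous.smul (cD j)).integrable_of_hasCompactSupport hφc.smul_right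
  have h3 : Integrable (fun x => φ x • F x) :=
    (hφ.continuous.smul hF.continuous).integrable_of_hasCompactSupport hφc.smul_right
  have key := integral_smul_fderiv_eq_neg_fderiv_smul_of_integrable
    (μ := (volume : Measure (Config 3))) (v := dir j) h1 h2 h3 (fun x _ => hφd x) (fun x _ => hF x)
  have e1 : ∫ x, fderiv ℝ φ x (dir j) • (mF.toLp F) x = ∫ x, fderiv ℝ φ x (dir j) • F x := by
    apply integral_congr_ae
    filter_upwards [mF.coeFn_toLp] with x hx
    rw [hx]
  have e2 : ∫ x, φ x • ((mD j).toLp (D j)) x = ∫ x, φ x • fderiv ℝ F x (dir j) := by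
    apply integral_congr_ae
    filter_upwards [(mD j).coeFn_toLp] with x hx
    rw [hx, hD]
  rw [e1, e2, key, neg_neg]

/-! ### The spin coefficients -/

/-- The coefficient of `sinh (xᵢ)₃` in the Slater determinant of `φ₁↑, φ₁↓, φ₂↑`, divided by the
product ground state: `↑` for electron `i`, a singlet for the other two. -/
def cZ (i : Fin 3) (s : SpinConfig 3) : ℤ :=
  if s i = 0 ∧ s (i + 1) = 0 ∧ s (i + 2) = 1 then 1
  else if s i = 0 ∧ s (i + 1) = 1 ∧ s (i + 2) = 0 then -1 else 0

theorem cZ_perm : ∀ (π : Equiv.Perm (Fin 3)) (i : Fin 3) (s : SpinConfig 3),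
    cZ i (s ∘ π) = (Equiv.Perm.sign π : ℤ) * cZ (π i) s := by decide

theorem cZ_support : ∀ (i : Fin 3) (s : SpinConfig 3), cZ i s ≠ 0 →
    s = ![0, 0, 1] ∨ s = ![0, 1, 0] ∨ s = ![1, 0, 0] := by decide

theorem cZ_sector (i : Fin 3) (s : SpinConfig 3) (h : cZ i s ≠ 0) : spinZ s = 1 / 2 := by
  rcases cZ_support i s h with rfl | rfl | rfl <;> simp [spinZ, Fin.sum_univ_three]

theorem cZ_example : cZ 2 ![0, 1, 0] = 1 := by decide

/-- The spin vectors. -/
def cvec (i : Fin 3) : SpinSpace 3 := WithLp.toLp 2 fun s => ((cZ i s : ℤ) : ℂ)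

/-- The coefficient family on the nine coordinates. -/
def coeff9 (k : Fin 9) : SpinSpace 3 := if (idx.symm k).2 = 2 then cvec (idx.symm k).1 else 0

/-- The (unnormalised) ground state wave function. -/
def gsWave (x : Config 3) : SpinSpace 3 := exc coeff9 (flatL x)

theorem gsWave_eq (x : Config 3) :
    gsWave x = ∑ i, (gsFun x * Real.sinh (x i 2)) • cvec i := by
  rw [gsWave, exc, ← Equiv.sum_comp idx, Fintype.sum_prod_type]
  refine Finset.sum_congr rfl fun i _ => ?_
  simp [coeff9, bS, gsFun, flatL_apply_idx]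

theorem gsWave_apply (x : Config 3) (s : SpinConfig 3) :
    gsWave x s = ∑ i, ((gsFun x * Real.sinh (x i 2) : ℝ) : ℂ) * ((cZ i s : ℤ) : ℂ) := by
  rw [gsWave_eq]
  simp [cvec, Fin.sum_univ_three]

theorem gsWave_perm (π : Equiv.Perm (Fin 3)) (x : Config 3) (s : SpinConfig 3) :
    gsWave (x ∘ π) (s ∘ π) = ((Equiv.Perm.sign π : ℤ) : ℂ) * gsWave x s := by
  rw [gsWave_apply, gsWave_apply, Finset.mul_sum,
    ← Equiv.sum_comp π (fun i => ((Equiv.Perm.sign π : ℤ) : ℂ) *
      (((gsFun x * Real.sinh (x i 2) : ℝ) : ℂ) * ((cZ i s : ℤ) : ℂ)))]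
  refine Finset.sum_congr rfl fun i _ => ?_
  rw [cZ_perm, gsFun_comp_perm]
  simp only [Function.comp_apply]
  push_cast
  ring

/-! ### Regularity and integrability -/

theorem integral_comp_flatL {M : Type*} [NormedAddCommGroup M] [NormedSpace ℝ M]
    (h : (Fin 9 → ℝ) → M) : ∫ x, h (flatL x) = ∫ y, h y :=
  measurePreserving_flatL.integral_comp flatL.toHomeomorph.measurableEmbedding h

theorem Dec.memLp_comp_flatL {a : (Fin 9 → ℝ) → SpinSpace 3} (ha : Dec a) :
    MemLp (fun x => a (flatL x)) 2 volume := by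
  have c : Continuous fun x => a (flatL x) := ha.1.comp flatL.continuous
  exact (memLp_two_iff_integrable_sq_norm c.aestronglyMeasurable).2
    (integrable_comp_flatL ha.integrable_norm_sq)

/-- The classical partial derivatives of the wave function. -/
def gsGrad (j : Fin 3 × Fin 3) (x : Config 3) : SpinSpace 3 := excD coeff9 (idx j) (flatL x)

theorem differentiable_gsWave : Differentiable ℝ gsWave :=
  ((contDiff_exc coeff9).differentiable (by simp)).comp flatL.differentiable

theorem fderiv_gsWave (j : Fin 3 × Fin 3) (x : Config 3) :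
    fderiv ℝ gsWave x (dir j) = gsGrad j x := by
  have h1 := ((contDiff_exc coeff9).differentiable (by simp) (flatL x)).hasFDerivAt.comp x
    flatL.hasFDerivAt
  have h3 : fderiv ℝ gsWave x = _ := h1.fderiv
  rw [h3]
  simp [flatL_dir, fderiv_exc, gsGrad]

theorem memLp_gsWave : MemLp gsWave 2 volume := (dec_exc coeff9).memLp_comp_flatL

theorem memLp_gsGrad (j : Fin 3 × Fin 3) : MemLp (gsGrad j) 2 volume :=
  (dec_excD coeff9 (idx j)).memLp_comp_flatL

theorem continuous_gsWave : Continuous gsWave := differentiable_gsWave.continuous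

/-- The unnormalised ground state as an element of `L²`. -/
def gsVec : L2 3 := memLp_gsWave.toLp gsWave

theorem coeFn_gsVec : (gsVec : Config 3 → SpinSpace 3) =ᵐ[volume] gsWave := memLp_gsWave.coeFn_toLp

theorem isWeakGradient_gsVec :
    IsWeakGradient gsVec (fun j => (memLp_gsGrad j).toLp (gsGrad j)) :=
  isWeakGradient_of_differentiable differentiable_gsWave fderiv_gsWave
    (fun j => (dec_excD coeff9 (idx j)).1.comp flatL.continuous) memLp_gsWave memLp_gsGrad

theorem isAntisymmetric_gsVec : IsAntisymmetric gsVec := by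
  intro π
  have h1 := (measurePreserving_comp_perm π).quasiMeasurePreserving.ae coeFn_gsVec
  filter_upwards [coeFn_gsVec, h1] with x hx hx1 s
  rw [hx, hx1, gsWave_perm]

theorem inSpinSector_gsVec : InSpinSector (1 / 2) gsVec := by
  filter_upwards [coeFn_gsVec] with x hx s hs
  rw [hx, gsWave_apply]
  refine Finset.sum_eq_zero fun i _ => ?_
  have : cZ i s = 0 := by
    by_contra h
    exact hs (cZ_sector i s h)
  simp [this]

theorem gsVec_ne_zero : gsVec ≠ 0 := by
  intro h
  have h1 : gsWave =ᵐ[volume] (fun _ => (0 : SpinSpace 3)) := by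
    have h0 : ∀ᵐ x : Config 3, (0 : L2 3) x = 0 := Lp.coeFn_zero _ _ _
    rw [← h] at h0
    filter_upwards [coeFn_gsVec, h0] with x hx hx0
    rw [← hx, hx0]
  have h2 := (continuous_gsWave.ae_eq_iff_eq volume continuous_const).1 h1
  have h3 : gsWave (flatL.symm (Pi.single (idx (2, 2)) 1)) = 0 := by rw [h2]
  rw [gsWave, ContinuousLinearEquiv.apply_symm_apply, exc_single] at h3
  have h4 : coeff9 (idx (2, 2)) = cvec 2 := by simp [coeff9]
  rw [h4] at h3
  have h5 := congrArg (fun w : SpinSpace 3 => w ![0, 1, 0]) h3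
  simp only [PiLp.smul_apply, cvec, cZ_example, PiLp.zero_apply] at h5
  have h6 : (0 : ℝ) < prodSech (Pi.single (idx (2, 2)) 1 : Fin 9 → ℝ) ^ 2 * Real.sinh 1 :=
    mul_pos (pow_pos (prodSech_pos _) 2) (Real.sinh_pos_iff.2 one_pos)
  rw [Int.cast_one, Complex.real_smul, mul_one, Complex.ofReal_eq_zero] at h5
  exact h6.ne' h5

theorem gsVec_mem_formDomain : gsVec ∈ FormDomain ptW := by
  refine ⟨isAntisymmetric_gsVec, ⟨_, isWeakGradient_gsVec⟩, ?_⟩
  exact (integrable_norm_sq gsVec).bdd_mul (c := 27) continuous_ptW.aestronglyMeasurable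
    (ae_of_all _ abs_ptW_le)

/-- The energy of the Slater determinant is `-33/2`. -/
theorem energy_gsVec : energy ptW gsVec = -(33 / 2) * ‖gsVec‖ ^ 2 := by
  rw [energy_eq, isWeakGradient_gsVec.weakGrad_eq]
  simp only [norm_sq_toLp, gsVec]
  have hE := exc_energy coeff9
  have hdec := dec_exc coeff9
  have hN := hdec.integrable_norm_sq
  have i3 : ∀ m : Fin 9, Integrable fun y : Fin 9 → ℝ => (-3 * sech (y m) ^ 2) * ‖exc coeff9 y‖ ^ 2 :=
    fun m => hdec.integrable_mul_norm_sq
      (continuous_const.mul ((continuous_sech_coord m).pow 2)) (B := 3) fun y => by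
        have := sech_sq_mem (y m)
        rw [abs_le]; constructor <;> linarith [this.1, this.2]
  have e1 : ∀ m : Fin 9, ∫ y : Fin 9 → ℝ, (2 - 3 * sech (y m) ^ 2) * ‖exc coeff9 y‖ ^ 2 =
      2 * (∫ y, ‖exc coeff9 y‖ ^ 2) + ∫ y : Fin 9 → ℝ, (-3 * sech (y m) ^ 2) * ‖exc coeff9 y‖ ^ 2 := by
    intro m
    rw [← integral_const_mul, ← integral_add (hN.const_mul 2) (i3 m)]
    congr 1; funext y; ring
  have a1 : ∫ x, ‖gsWave x‖ ^ 2 = ∫ y, ‖exc coeff9 y‖ ^ 2 :=
    integral_comp_flatL fun y => ‖exc coeff9 y‖ ^ 2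
  have a2 : ∀ j, ∫ x, ‖gsGrad j x‖ ^ 2 = ∫ y, ‖excD coeff9 (idx j) y‖ ^ 2 := fun j =>
    integral_comp_flatL fun y => ‖excD coeff9 (idx j) y‖ ^ 2
  have a3 : ∫ x, ptW x * ‖(memLp_gsWave.toLp gsWave) x‖ ^ 2 =
      ∑ m : Fin 9, ∫ y : Fin 9 → ℝ, (-3 * sech (y m) ^ 2) * ‖exc coeff9 y‖ ^ 2 := by
    rw [← integral_finsetSum _ fun m _ => i3 m,
      ← integral_comp_flatL fun y => ∑ m : Fin 9, (-3 * sech (y m) ^ 2) * ‖exc coeff9 y‖ ^ 2]
    refine integral_congr_ae ?_
    filter_upwards [memLp_gsWave.coeFn_toLp] with x hx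
    rw [hx, ptW_eq, ← Equiv.sum_comp idx, Finset.sum_mul]
    simp only [flatL_apply_idx]
    rfl
  rw [a1, a3]
  simp only [a2]
  rw [Equiv.sum_comp idx fun m => ∫ y, ‖excD coeff9 m y‖ ^ 2]
  simp only [e1, Finset.sum_add_distrib, ← Finset.mul_sum, Finset.sum_const, Finset.card_univ,
    Fintype.card_fin, nsmul_eq_mul] at hE
  push_cast at hE
  linarith

/-! ### The ground state -/

/-- The normalized ground state. -/
def gsState : L2 3 := ((‖gsVec‖⁻¹ : ℝ) : ℂ) • gsVec

theorem norm_gsState : ‖gsState‖ = 1 := by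
  have hn : 0 < ‖gsVec‖ := norm_pos_iff.mpr gsVec_ne_zero
  rw [gsState, norm_smul, Complex.norm_real, Real.norm_eq_abs, abs_of_pos (inv_pos.mpr hn)]
  field_simp

theorem gsState_mem_formDomain : gsState ∈ FormDomain ptW :=
  smul_mem_formDomain _ gsVec_mem_formDomain

theorem energy_gsState : energy ptW gsState = -(33 / 2) := by
  have hn : 0 < ‖gsVec‖ := norm_pos_iff.mpr gsVec_ne_zero
  rw [gsState, energy_smul _ gsVec_mem_formDomain, energy_gsVec, Complex.norm_real,
    Real.norm_eq_abs, abs_of_pos (inv_pos.mpr hn)]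
  field_simp

/-- **`H_s(v)` has a ground state.** -/
theorem isGroundState_gsState : IsGroundState ptW gsState :=
  (isGroundState_iff_minimizer continuous_ptW.aestronglyMeasurable).2
    ⟨gsState_mem_formDomain, norm_gsState, fun Φ hΦ hn => by
      have := le_energy_ptW hΦ
      rw [hn] at this
      rw [energy_gsState]
      linarith⟩

/-- The ground energy is `2 ε₀ + ε₁ = 2·(-6) + (-9/2) = -33/2`. -/
theorem isSpectrumBottom_ptW : IsSpectrumBottom ptW (-(33 / 2)) := by
  apply IsLeast.isGLB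
  refine ⟨⟨gsState, ⟨gsState_mem_formDomain, norm_gsState⟩, energy_gsState⟩, ?_⟩
  rintro _ ⟨Φ, ⟨hΦ, hΦ1⟩, rfl⟩
  have := le_energy_ptW hΦ
  rw [hΦ1] at this
  linarith

theorem inSpinSector_gsState : InSpinSector (1 / 2) gsState := inSpinSector_gsVec.smul _

/-- **The class of Kohn–Sham ground-state ensembles is not empty**: the existential statement that
is negated in `HasUnrepresentableGroundState` (without the last clause, which fixes the density) is
satisfiable. -/
theorem exists_groundStateEnsemble :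
    ∃ (v : Space → ℝ) (Γ : L2 3 →L[ℂ] L2 3) (n : Space → ℝ),
      v ∈ PotentialClass ∧ IsGroundStateEnsemble (oneBodyPotential v) Γ ∧ IsDensityOf Γ n ∧
        n =ᵐ[volume] density gsState :=
  ⟨ptPotential, rankOne ℂ gsState gsState, density gsState, ptPotential_mem_potentialClass,
    isGroundState_gsState.isGroundStateEnsemble_rankOne,
    isDensityOf_rankOne gsState_mem_formDomain.1, Filter.EventuallyEq.rfl⟩

end Claimed.Open.R278
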