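import Claimed.Open.R278.MBAbs

/-!
# Result 278, package BP-ION (ionic toolkit), file 1: ABSTRACT reduced resolvent, abstract Agmon estimate, lower bounds

Architect: helper24.  PURE HILBERT SPACE on top of `MBAbs.lean` (`HermForm`, `ClosedForm`); no paper needed, Mathlib only.
SORRY-FREE (helper24).  Helper lemmas: prefix `iona_`.

Setting: `H` complex inner product space, `V` the form domain, `q` Hermitian form on `V` (LINEAR IN THE SECOND variable), `φ ∈ V` a normalised eigenvector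
at `E`, gap `c` on `V ∩ φ^⊥` (`GapData`).  `N(x,y) := q x y - E ⟪x,y⟫`, `N[x] := (N x x).re`, `Q v := v - ⟪φ,v⟫ φ`.

`IsRedRes V q E φ R`: `R : H →L[ℂ] H` is the reduced resolvent `B_Q⁻¹ Q` (extended by `0` to `V^⊥`): `R v ∈ V ∩ φ^⊥` and `N(Ξ, R v) = ⟪Ξ, Q v⟫` for ALL `Ξ ∈ V`.

## ION-A1 (`ClosedForm.exists_redRes`).  HAND PROOF (no Lax-Milgram, same technique as MBA-GROUND).
 Fix `v`.  `V₀ := {ζ ∈ V : ⟪φ,ζ⟫ = 0}`, `J(ζ) := N[ζ] - 2 Re ⟪ζ,v⟫` on `V₀`.  `N[ζ] ≥ c‖ζ‖²`, so `J ≥ -‖v‖²/c`; `m := inf J`.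
 Parallelogram: `N[(ζ-ζ')/2] = (J ζ + J ζ')/2 - J((ζ+ζ')/2) ≤ (J ζ + J ζ')/2 - m`.  A minimising sequence is Cauchy for `N`, hence for the form norm
 (`q[η] + K‖η‖² = N[η] + (E+K)‖η‖² ≤ (1 + |E+K|/c) N[η]` on `V₀`); `complete` gives the limit `w ∈ V`, `ζ_n → w` in `H`, so `⟪φ,w⟫ = 0`, and `J w = m`.
 First variation (`J(w + s η) ≥ J w`, `s ∈ ℂ`): `N(η,w) = ⟪η,v⟫` for `η ∈ V₀`.  For `Ξ ∈ V` write `Ξ = Ξ₀ + ⟪φ,Ξ⟫ φ`; `N(φ,w) = conj N(w,φ) = 0`.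
 Uniqueness of `w` (gap) gives additivity and homogeneity of `v ↦ w`; `c‖w‖² ≤ N[w] = Re⟪w,v⟫ ≤ ‖w‖‖v‖` gives the bound `1/c` (`LinearMap.mkContinuous`).
-/

open Filter
open scoped InnerProductSpace ComplexConjugate Topology

noncomputable section

namespace Claimed.Open.R278

variable {H : Type*} [NormedAddCommGroup H] [InnerProductSpace ℂ H]

/-- a normalised eigenvector `φ` of the form `q` at `E`, with gap `c` on `V ∩ φ^⊥`. -/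
structure GapData (V : Submodule ℂ H) (q : H → H → ℂ) (E c : ℝ) (φ : H) : Prop where
  c_pos : 0 < c
  mem : φ ∈ V
  norm : ‖φ‖ = 1
  eig : ∀ Ξ ∈ V, q Ξ φ = (E : ℂ) * ⟪Ξ, φ⟫_ℂ
  gap : ∀ Ξ ∈ V, ⟪φ, Ξ⟫_ℂ = 0 → (E + c) * ‖Ξ‖ ^ 2 ≤ (q Ξ Ξ).re

/-- `R` is the reduced resolvent of `q - E` at the eigenvector `φ`. -/
structure IsRedRes (V : Submodule ℂ H) (q : H → H → ℂ) (E : ℝ) (φ : H) (R : H →L[ℂ] H) : Prop where
  mem : ∀ v, R v ∈ V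
  perp : ∀ v, ⟪φ, R v⟫_ℂ = 0
  eq : ∀ v, ∀ Ξ ∈ V, q Ξ (R v) - (E : ℂ) * ⟪Ξ, R v⟫_ℂ = ⟪Ξ, v - ⟪φ, v⟫_ℂ • φ⟫_ℂ

variable {V : Submodule ℂ H} {q : H → H → ℂ} {E c : ℝ} {φ : H}

/-! ## LEAF ION-A0: the shifted form -/

section A0

theorem iona_add_left (hq : HermForm V q) {x y z : H} (hx : x ∈ V) (hy : y ∈ V) (hz : z ∈ V) :
    q (x + y) z = q x z + q y z := by
  rw [hq.conj_symm z hz (x + y) (V.add_mem hx hy), hq.add_right z hz x hx y hy, map_add,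
    ← hq.conj_symm z hz x hx, ← hq.conj_symm z hz y hy]

theorem iona_smul_left (hq : HermForm V q) (a : ℂ) {x y : H} (hx : x ∈ V) (hy : y ∈ V) :
    q (a • x) y = conj a * q x y := by
  rw [hq.conj_symm y hy (a • x) (V.smul_mem a hx), hq.smul_right a y hy x hx, map_mul,
    ← hq.conj_symm y hy x hx]

theorem iona_sub_right (hq : HermForm V q) {x y z : H} (hx : x ∈ V) (hy : y ∈ V) (hz : z ∈ V) :
    q x (y - z) = q x y - q x z := by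
  have : y - z = y + (-1 : ℂ) • z := by rw [neg_one_smul, sub_eq_add_neg]
  rw [this, hq.add_right x hx y hy _ (V.smul_mem _ hz), hq.smul_right _ x hx z hz]
  ring

theorem iona_sub_left (hq : HermForm V q) {x y z : H} (hx : x ∈ V) (hy : y ∈ V) (hz : z ∈ V) :
    q (x - y) z = q x z - q y z := by
  have : x - y = x + (-1 : ℂ) • y := by rw [neg_one_smul, sub_eq_add_neg]
  rw [this, iona_add_left hq hx (V.smul_mem _ hy) hz, iona_smul_left hq _ hy hz]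
  simp
  ring

theorem iona_zero_right (hq : HermForm V q) {x : H} (hx : x ∈ V) : q x 0 = 0 := by
  have := hq.smul_right 0 x hx x hx
  simpa using this

/-- the shifted form `N = q - E` is Hermitian. -/
theorem HermForm.shift (hq : HermForm V q) (E : ℝ) : HermForm V (fun x y => q x y - (E : ℂ) * ⟪x, y⟫_ℂ) where
  add_right := fun x hx y hy z hz => by
    simp only [hq.add_right x hx y hy z hz, inner_add_right]; ring
  smul_right := fun a x hx y hy => by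
    simp only [hq.smul_right a x hx y hy, inner_smul_right]; ring
  conj_symm := fun x hx y hy => by
    simp only [hq.conj_symm x hx y hy, map_sub, map_mul, Complex.conj_ofReal, inner_conj_symm]

/-- `N(x, φ) = 0`. -/
theorem GapData.shift_right (hg : GapData V q E c φ) {x : H} (hx : x ∈ V) :
    q x φ - (E : ℂ) * ⟪x, φ⟫_ℂ = 0 := by rw [hg.eig x hx, sub_self]

/-- `N(φ, x) = 0`. -/
theorem GapData.shift_left (hq : HermForm V q) (hg : GapData V q E c φ) {x : H} (hx : x ∈ V) :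
    q φ x - (E : ℂ) * ⟪φ, x⟫_ℂ = 0 := by
  have h := (hq.shift E).conj_symm x hx φ hg.mem
  rw [h, hg.shift_right hx, map_zero]

theorem iona_re_shift (E : ℝ) (u : H) :
    (q u u - (E : ℂ) * ⟪u, u⟫_ℂ).re = (q u u).re - E * ‖u‖ ^ 2 := by
  rw [Complex.sub_re, Complex.re_ofReal_mul, inner_self_eq_norm_sq_to_K]
  norm_cast

theorem iona_norm_sub_sq (hφ : ‖φ‖ = 1) (u : H) :
    ‖u - ⟪φ, u⟫_ℂ • φ‖ ^ 2 = ‖u‖ ^ 2 - ‖⟪φ, u⟫_ℂ‖ ^ 2 := by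
  have h1 := norm_sub_sq (𝕜 := ℂ) u (⟪φ, u⟫_ℂ • φ)
  rw [inner_smul_right, norm_smul, hφ, mul_one] at h1
  have h2 : (⟪φ, u⟫_ℂ * ⟪u, φ⟫_ℂ) = ((‖⟪φ, u⟫_ℂ‖ ^ 2 : ℝ) : ℂ) := by
    rw [← inner_conj_symm u φ, Complex.mul_conj, Complex.normSq_eq_norm_sq]
  rw [h2] at h1
  have h3 : RCLike.re ((‖⟪φ, u⟫_ℂ‖ ^ 2 : ℝ) : ℂ) = ‖⟪φ, u⟫_ℂ‖ ^ 2 := Complex.ofReal_re _
  rw [h3] at h1
  linarith

theorem iona_inner_sub (hφ : ‖φ‖ = 1) (u : H) : ⟪φ, u - ⟪φ, u⟫_ℂ • φ⟫_ℂ = 0 := by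
  rw [inner_sub_right, inner_smul_right, inner_self_eq_norm_sq_to_K, hφ]
  simp

/-- `N[u - αφ] = N[u]`. -/
theorem GapData.shift_sub (hq : HermForm V q) (hg : GapData V q E c φ) {u : H} (hu : u ∈ V) (α : ℂ) :
    q (u - α • φ) (u - α • φ) - (E : ℂ) * ⟪u - α • φ, u - α • φ⟫_ℂ = q u u - (E : ℂ) * ⟪u, u⟫_ℂ := by
  have hN := hq.shift E
  have hαφ : α • φ ∈ V := V.smul_mem α hg.mem
  have h1 := iona_sub_right hN (V.sub_mem hu hαφ) hu hαφ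
  have h2 := iona_sub_left hN hu hαφ hu
  have h3 := hN.smul_right α (u - α • φ) (V.sub_mem hu hαφ) φ hg.mem
  have h4 := iona_smul_left hN α hg.mem hu
  rw [h1, h3, hg.shift_right (V.sub_mem hu hαφ), h2, h4, hg.shift_left hq hu]
  ring

theorem GapData.ge (hq : HermForm V q) (hg : GapData V q E c φ) {u : H} (hu : u ∈ V) :
    (E + c) * ‖u‖ ^ 2 - c * ‖⟪φ, u⟫_ℂ‖ ^ 2 ≤ (q u u).re := by
  set α := ⟪φ, u⟫_ℂ with hα
  have hξ : u - α • φ ∈ V := V.sub_mem hu (V.smul_mem α hg.mem)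
  have h1 := hg.gap _ hξ (iona_inner_sub hg.norm u)
  have h2 := congrArg Complex.re (hg.shift_sub hq hu α)
  rw [iona_re_shift, iona_re_shift] at h2
  rw [iona_norm_sub_sq hg.norm u] at h1 h2
  nlinarith

theorem GapData.shift_nonneg (hq : HermForm V q) (hg : GapData V q E c φ) {u : H} (hu : u ∈ V) :
    0 ≤ (q u u - (E : ℂ) * ⟪u, u⟫_ℂ).re := by
  rw [iona_re_shift]
  have h1 := hg.ge hq hu
  have h2 : ‖⟪φ, u⟫_ℂ‖ ^ 2 ≤ ‖u‖ ^ 2 := by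
    have := norm_inner_le_norm (𝕜 := ℂ) φ u
    rw [hg.norm, one_mul] at this
    exact pow_le_pow_left₀ (norm_nonneg _) this 2
  nlinarith [hg.c_pos]

/-- a vector of `V ∩ φ^⊥` which is `N`-orthogonal to itself vanishes. -/
theorem GapData.eq_zero (hg : GapData V q E c φ) {d : H} (hd : d ∈ V) (hφd : ⟪φ, d⟫_ℂ = 0)
    (h : q d d - (E : ℂ) * ⟪d, d⟫_ℂ = 0) : d = 0 := by
  have h1 := congrArg Complex.re h
  rw [iona_re_shift, Complex.zero_re] at h1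
  have h2 := hg.gap d hd hφd
  have h3 : ‖d‖ ^ 2 ≤ 0 := by nlinarith [hg.c_pos, sq_nonneg ‖d‖]
  have h4 : ‖d‖ = 0 := pow_eq_zero_iff two_ne_zero |>.mp (le_antisymm h3 (sq_nonneg _))
  exact norm_eq_zero.mp h4

end A0

/-! ## LEAF ION-A1: existence -/

section A1

/-- if `0 ≤ A|s|² + 2 Re (s z)` for all `s`, then `z = 0`. -/
theorem iona_first_variation {A : ℝ} {z : ℂ} (h : ∀ s : ℂ, 0 ≤ ‖s‖ ^ 2 * A + 2 * (s * z).re) : z = 0 := by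
  set r : ℝ := 1 / (|A| + 1) with hr
  have hr0 : 0 < r := by positivity
  have h1 := h ((-r : ℝ) • conj z)
  have h2 : (((-r : ℝ) • conj z) * z).re = -r * ‖z‖ ^ 2 := by
    rw [Complex.real_smul, mul_assoc, mul_comm (conj z), Complex.mul_conj, Complex.normSq_eq_norm_sq,
      ← Complex.ofReal_mul, Complex.ofReal_re]
  have h3 : ‖(-r : ℝ) • conj z‖ ^ 2 = r ^ 2 * ‖z‖ ^ 2 := by
    rw [norm_smul, Complex.norm_conj, Real.norm_eq_abs, abs_neg, mul_pow, sq_abs]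
  rw [h2, h3] at h1
  have h4 : r * A ≤ 1 := by
    have : r * (|A| + 1) = 1 := by rw [hr]; field_simp
    nlinarith [le_abs_self A]
  have h5 : 0 ≤ ‖z‖ ^ 2 := sq_nonneg _
  have h6 : r * ‖z‖ ^ 2 ≤ 0 := by
    have : r ^ 2 * ‖z‖ ^ 2 * A = (r * ‖z‖ ^ 2) * (r * A) := by ring
    have h7 : (r * ‖z‖ ^ 2) * (r * A) ≤ (r * ‖z‖ ^ 2) * 1 :=
      mul_le_mul_of_nonneg_left h4 (by positivity)
    nlinarith
  have h8 : ‖z‖ ^ 2 ≤ 0 := by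
    by_contra hh
    have := mul_pos hr0 (not_le.1 hh)
    linarith
  exact norm_eq_zero.1 (pow_eq_zero_iff two_ne_zero |>.1 (le_antisymm h8 h5))

/-- minimisation of `J ζ = N[ζ] - 2 Re ⟪ζ,v⟫` over `V ∩ φ^⊥`. -/
theorem ClosedForm.iona_exists_min {K : ℝ} (hq : ClosedForm V q K) (hg : GapData V q E c φ) (v : H) :
    ∃ w ∈ V, ⟪φ, w⟫_ℂ = 0 ∧ ∀ ζ ∈ V, ⟪φ, ζ⟫_ℂ = 0 →
      (q w w).re - E * ‖w‖ ^ 2 - 2 * (⟪w, v⟫_ℂ).re ≤ (q ζ ζ).re - E * ‖ζ‖ ^ 2 - 2 * (⟪ζ, v⟫_ℂ).re := by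
  have hc := hg.c_pos
  have hn : HermForm V (fun x y => q x y - (E : ℂ) * ⟪x, y⟫_ℂ) := hq.toHermForm.shift E
  obtain ⟨NQ, hNQ⟩ : ∃ NQ : H → ℝ, ∀ x, NQ x = (q x x).re - E * ‖x‖ ^ 2 := ⟨_, fun _ => rfl⟩
  obtain ⟨J, hJ⟩ : ∃ J : H → ℝ, ∀ x, J x = NQ x - 2 * (⟪x, v⟫_ℂ).re := ⟨_, fun _ => rfl⟩
  have hnre : ∀ x, (q x x - (E : ℂ) * ⟪x, x⟫_ℂ).re = NQ x := fun x => by
    rw [iona_re_shift, hNQ]
  have hnpos : ∀ x ∈ V, 0 ≤ (q x x - (E : ℂ) * ⟪x, x⟫_ℂ).re := fun x hx =>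
    hg.shift_nonneg hq.toHermForm hx
  have hNQpos : ∀ x ∈ V, 0 ≤ NQ x := fun x hx => hnre x ▸ hnpos x hx
  have hgapN : ∀ η ∈ V, ⟪φ, η⟫_ℂ = 0 → c * ‖η‖ ^ 2 ≤ NQ η := fun η hη ho => by
    rw [hNQ]; linarith [hg.gap η hη ho]
  simp only [← hNQ, ← hJ]
  set S : Set ℝ := {r | ∃ ζ ∈ V, ⟪φ, ζ⟫_ℂ = 0 ∧ r = J ζ} with hS
  have hne : S.Nonempty := ⟨_, 0, V.zero_mem, inner_zero_right _, rfl⟩
  have hbdd : BddBelow S := by
    refine ⟨-(‖v‖ ^ 2 / c), ?_⟩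
    rintro _ ⟨ζ, hζ, ho, rfl⟩
    have h1 := hgapN ζ hζ ho
    have h2 : (⟪ζ, v⟫_ℂ).re ≤ ‖ζ‖ * ‖v‖ := (Complex.re_le_norm _).trans (norm_inner_le_norm _ _)
    have h3 : 2 * (‖ζ‖ * ‖v‖) ≤ c * ‖ζ‖ ^ 2 + ‖v‖ ^ 2 / c := by
      have h4 : 0 ≤ (c * ‖ζ‖ - ‖v‖) ^ 2 / c := by positivity
      have h5 : (c * ‖ζ‖ - ‖v‖) ^ 2 / c = c * ‖ζ‖ ^ 2 + ‖v‖ ^ 2 / c - 2 * (‖ζ‖ * ‖v‖) := by
        field_simp; ring
      linarith
    rw [hJ]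
    linarith
  obtain ⟨m, hm⟩ : ∃ m, m = sInf S := ⟨_, rfl⟩
  have hmle : ∀ ζ ∈ V, ⟪φ, ζ⟫_ℂ = 0 → m ≤ J ζ := fun ζ hζ ho => hm ▸ csInf_le hbdd ⟨ζ, hζ, ho, rfl⟩
  have hseq : ∀ n : ℕ, ∃ ζ ∈ V, ⟪φ, ζ⟫_ℂ = 0 ∧ J ζ < m + 1 / ((n : ℝ) + 1) := fun n => by
    obtain ⟨r, ⟨ζ, hζ, ho, rfl⟩, hr⟩ :=
      exists_lt_of_csInf_lt hne (lt_add_of_pos_right (sInf S) (by positivity : (0 : ℝ) < 1 / ((n : ℝ) + 1)))
    exact ⟨ζ, hζ, ho, hm ▸ hr⟩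
  choose ζs hζV hζo hζJ using hseq
  -- parallelogram law
  have hpar : ∀ n k, NQ (ζs n - ζs k) ≤ 2 * (J (ζs n) - m) + 2 * (J (ζs k) - m) := by
    intro n k
    have hx := hζV n
    have hy := hζV k
    have e1 := hn.mba_re_add hx hy
    have e2 := hn.mba_re_sub hx hy
    simp only [hnre] at e1 e2
    have hmid : (1 / 2 : ℂ) • (ζs n + ζs k) ∈ V := V.smul_mem _ (V.add_mem hx hy)
    have e3 : ζs n + ζs k = (2 : ℂ) • ((1 / 2 : ℂ) • (ζs n + ζs k)) := by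
      rw [smul_smul]; norm_num
    have e4 : NQ (ζs n + ζs k) = 4 * NQ ((1 / 2 : ℂ) • (ζs n + ζs k)) := by
      conv_lhs => rw [e3]
      rw [← hnre, hn.mba_re_smul _ hmid, hnre]; norm_num
    have e5 : m ≤ J ((1 / 2 : ℂ) • (ζs n + ζs k)) :=
      hmle _ hmid (by rw [inner_smul_right, inner_add_right, hζo n, hζo k]; simp)
    have e6 : (⟪(1 / 2 : ℂ) • (ζs n + ζs k), v⟫_ℂ).re = ((⟪ζs n, v⟫_ℂ).re + (⟪ζs k, v⟫_ℂ).re) / 2 := by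
      rw [inner_smul_left, inner_add_left]
      simp
      ring
    rw [hJ, e6] at e5
    rw [hJ, hJ]
    linarith
  -- comparison of the form norm with `NQ` on the orthogonal complement
  obtain ⟨c₁, hc₁⟩ : ∃ c₁, c₁ = 1 + |E + K| / c := ⟨_, rfl⟩
  have hc₁0 : 0 < c₁ := by rw [hc₁]; positivity
  have hF : ∀ η ∈ V, ⟪φ, η⟫_ℂ = 0 → (q η η).re + K * ‖η‖ ^ 2 ≤ c₁ * NQ η := by
    intro η hη ho
    have h2 := hgapN η hη ho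
    have h3 : (E + K) * ‖η‖ ^ 2 ≤ |E + K| * ‖η‖ ^ 2 := mul_le_mul_of_nonneg_right (le_abs_self _) (sq_nonneg _)
    have h4 : |E + K| * ‖η‖ ^ 2 ≤ |E + K| / c * NQ η := by
      rw [div_mul_eq_mul_div, le_div_iff₀ hc]
      calc |E + K| * ‖η‖ ^ 2 * c = |E + K| * (c * ‖η‖ ^ 2) := by ring
        _ ≤ |E + K| * NQ η := mul_le_mul_of_nonneg_left h2 (abs_nonneg _)
    have h5 : (q η η).re + K * ‖η‖ ^ 2 = NQ η + (E + K) * ‖η‖ ^ 2 := by rw [hNQ]; ring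
    rw [h5, hc₁]
    linarith
  -- Cauchy
  have hcauchy : ∀ ε > 0, ∃ N, ∀ n ≥ N, ∀ k ≥ N,
      (q (ζs n - ζs k) (ζs n - ζs k)).re + K * ‖ζs n - ζs k‖ ^ 2 < ε := by
    intro ε hε
    obtain ⟨N, hN⟩ := exists_nat_gt (4 * c₁ / ε)
    refine ⟨N, fun n hn' k hk' => ?_⟩
    have hN0 : (0 : ℝ) < (N : ℝ) + 1 := by positivity
    have hinv : ∀ j : ℕ, N ≤ j → 1 / ((j : ℝ) + 1) ≤ 1 / ((N : ℝ) + 1) := fun j hj =>
      one_div_le_one_div_of_le hN0 (by exact_mod_cast Nat.succ_le_succ hj)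
    have h2 := hF _ (V.sub_mem (hζV n) (hζV k)) (by rw [inner_sub_right, hζo n, hζo k]; simp)
    have h3 := hpar n k
    have h4 : NQ (ζs n - ζs k) ≤ 4 * (1 / ((N : ℝ) + 1)) := by
      linarith [hζJ n, hζJ k, hinv n hn', hinv k hk']
    have h5 : c₁ * (4 * (1 / ((N : ℝ) + 1))) < ε := by
      have : 4 * c₁ / ε < (N : ℝ) + 1 := by linarith
      rw [div_lt_iff₀ hε] at this
      rw [mul_one_div, mul_div_assoc', div_lt_iff₀ hN0]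
      linarith
    calc _ ≤ c₁ * NQ (ζs n - ζs k) := h2
      _ ≤ c₁ * (4 * (1 / ((N : ℝ) + 1))) := mul_le_mul_of_nonneg_left h4 hc₁0.le
      _ < ε := h5
  obtain ⟨ζ, hζ, hlim⟩ := hq.complete ζs hζV hcauchy
  have hnorm2 : Tendsto (fun n => ‖ζs n - ζ‖ ^ 2) atTop (𝓝 0) :=
    squeeze_zero (fun _ => sq_nonneg _) (fun n => hq.pos _ (V.sub_mem (hζV n) hζ)) hlim
  have hnorm : Tendsto (fun n => ‖ζs n - ζ‖) atTop (𝓝 0) := by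
    have := (Real.continuous_sqrt.tendsto 0).comp hnorm2
    rw [Real.sqrt_zero] at this
    refine this.congr fun n => ?_
    simp only [Function.comp]
    exact Real.sqrt_sq (norm_nonneg _)
  have hconv : Tendsto ζs atTop (𝓝 ζ) := tendsto_iff_norm_sub_tendsto_zero.2 hnorm
  have hζo' : ⟪φ, ζ⟫_ℂ = 0 := by
    have h2 : Tendsto (fun n => ⟪φ, ζs n⟫_ℂ) atTop (𝓝 ⟪φ, ζ⟫_ℂ) :=
      ((continuous_const.inner continuous_id).tendsto ζ).comp hconv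
    simp only [hζo] at h2
    exact tendsto_nhds_unique h2 tendsto_const_nhds
  refine ⟨ζ, hζ, hζo', fun ζ' hζ' ho' => le_trans ?_ (hmle ζ' hζ' ho')⟩
  -- `J ζ ≤ m`
  have hJlim : Tendsto (fun n => J (ζs n)) atTop (𝓝 m) := by
    have h2 : Tendsto (fun n : ℕ => m + 1 / ((n : ℝ) + 1)) atTop (𝓝 (m + 0)) :=
      tendsto_const_nhds.add tendsto_one_div_add_atTop_nhds_zero_nat
    rw [add_zero] at h2
    exact tendsto_of_tendsto_of_tendsto_of_le_of_le tendsto_const_nhds h2 (fun n => hmle _ (hζV n) (hζo n))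
      (fun n => (hζJ n).le)
  have hvlim : Tendsto (fun n => (⟪ζs n, v⟫_ℂ).re) atTop (𝓝 (⟪ζ, v⟫_ℂ).re) :=
    (Complex.continuous_re.tendsto _).comp (((continuous_id.inner continuous_const).tendsto ζ).comp hconv)
  have hNlim : Tendsto (fun n => NQ (ζs n)) atTop (𝓝 (m + 2 * (⟪ζ, v⟫_ℂ).re)) := by
    have h2 := hJlim.add (hvlim.const_mul 2)
    refine h2.congr fun n => ?_
    rw [hJ]; ring
  have hulim : Tendsto (fun n => NQ (ζs n - ζ)) atTop (𝓝 0) := by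
    have h2 : ∀ n, NQ (ζs n - ζ) = ((q (ζs n - ζ) (ζs n - ζ)).re + K * ‖ζs n - ζ‖ ^ 2) - (E + K) * ‖ζs n - ζ‖ ^ 2 :=
      fun n => by rw [hNQ]; ring
    simp only [h2]
    simpa using hlim.sub (hnorm2.const_mul (E + K))
  have hbound : ∀ n, NQ ζ ≤ NQ (ζs n) + NQ (ζs n - ζ) + 2 * √(NQ (ζs n) * NQ (ζs n - ζ)) := by
    intro n
    have hx := hζV n
    have hu := V.sub_mem (hζV n) hζ
    have e1 := hn.mba_re_sub hx hu
    have e2 := hn.cauchy_schwarz hnpos hx hu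
    simp only [hnre] at e1 e2
    have e3 : ζs n - (ζs n - ζ) = ζ := by abel
    rw [e3] at e1
    have e4 : ‖q (ζs n) (ζs n - ζ) - (E : ℂ) * ⟪ζs n, ζs n - ζ⟫_ℂ‖ ≤ √(NQ (ζs n) * NQ (ζs n - ζ)) :=
      Real.le_sqrt_of_sq_le e2
    have e5 : -(q (ζs n) (ζs n - ζ) - (E : ℂ) * ⟪ζs n, ζs n - ζ⟫_ℂ).re ≤
        ‖q (ζs n) (ζs n - ζ) - (E : ℂ) * ⟪ζs n, ζs n - ζ⟫_ℂ‖ :=
      (neg_le_abs _).trans (Complex.abs_re_le_norm _)
    linarith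
  have hlimit : Tendsto (fun n => NQ (ζs n) + NQ (ζs n - ζ) + 2 * √(NQ (ζs n) * NQ (ζs n - ζ)))
      atTop (𝓝 (m + 2 * (⟪ζ, v⟫_ℂ).re)) := by
    have h2 := (Real.continuous_sqrt.tendsto _).comp (hNlim.mul hulim)
    have h3 := (hNlim.add hulim).add (h2.const_mul 2)
    simpa using h3
  have := ge_of_tendsto' hlimit hbound
  rw [hJ]
  linarith

/-- pointwise existence. -/
theorem ClosedForm.iona_exists_sol {K : ℝ} (hq : ClosedForm V q K) (hg : GapData V q E c φ) (v : H) :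
    ∃ w ∈ V, ⟪φ, w⟫_ℂ = 0 ∧ ∀ Ξ ∈ V, q Ξ w - (E : ℂ) * ⟪Ξ, w⟫_ℂ = ⟪Ξ, v - ⟪φ, v⟫_ℂ • φ⟫_ℂ := by
  obtain ⟨w, hw, hwo, hmin⟩ := hq.iona_exists_min hg v
  have hq' := hq.toHermForm
  have hn : HermForm V (fun x y => q x y - (E : ℂ) * ⟪x, y⟫_ℂ) := hq'.shift E
  refine ⟨w, hw, hwo, ?_⟩
  -- first variation
  have hfv : ∀ η ∈ V, ⟪φ, η⟫_ℂ = 0 → q w η - (E : ℂ) * ⟪w, η⟫_ℂ - ⟪v, η⟫_ℂ = 0 := by
    intro η hη ho
    apply iona_first_variation (A := (q η η).re - E * ‖η‖ ^ 2)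
    intro s
    have h1 := hmin (w + s • η) (V.add_mem hw (V.smul_mem s hη))
      (by rw [inner_add_right, inner_smul_right, hwo, ho]; simp)
    have h2 := hn.mba_re_add_smul s hw hη
    simp only [iona_re_shift] at h2
    have h3 : (⟪w + s • η, v⟫_ℂ).re = (⟪w, v⟫_ℂ).re + (s * ⟪v, η⟫_ℂ).re := by
      rw [inner_add_left, Complex.add_re, inner_smul_left, ← inner_conj_symm η v, ← map_mul, Complex.conj_re]
    rw [h2, h3] at h1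
    have h4 : (s * (q w η - (E : ℂ) * ⟪w, η⟫_ℂ - ⟪v, η⟫_ℂ)).re =
        (s * (q w η - (E : ℂ) * ⟪w, η⟫_ℂ)).re - (s * ⟪v, η⟫_ℂ).re := by
      rw [mul_sub s, Complex.sub_re]
    rw [h4]
    linarith
  intro Ξ hΞ
  set α := ⟪φ, Ξ⟫_ℂ with hα
  have hαφ : α • φ ∈ V := V.smul_mem α hg.mem
  have hΞ0 : Ξ - α • φ ∈ V := V.sub_mem hΞ hαφ
  have h1 := hfv _ hΞ0 (iona_inner_sub hg.norm Ξ)
  have h2 := hn.conj_symm w hw _ hΞ0
  have h3 := iona_sub_left hn hΞ hαφ hw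
  have h4 := iona_smul_left hn α hg.mem hw
  rw [hg.shift_left hq' hw, mul_zero] at h4
  rw [h4, sub_zero] at h3
  rw [← h3, h2, sub_eq_zero.mp h1, inner_conj_symm, inner_sub_left, inner_sub_right, inner_smul_left,
    inner_smul_right, hα, inner_conj_symm]
  ring

theorem ClosedForm.exists_redRes {K : ℝ} (hq : ClosedForm V q K) (hg : GapData V q E c φ) :
    ∃ R : H →L[ℂ] H, IsRedRes V q E φ R := by
  have hq' := hq.toHermForm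
  have hn : HermForm V (fun x y => q x y - (E : ℂ) * ⟪x, y⟫_ℂ) := hq'.shift E
  choose w hw hwo hweq using hq.iona_exists_sol hg
  -- uniqueness
  have huniq : ∀ (v x : H), x ∈ V → ⟪φ, x⟫_ℂ = 0 →
      (∀ Ξ ∈ V, q Ξ x - (E : ℂ) * ⟪Ξ, x⟫_ℂ = ⟪Ξ, v - ⟪φ, v⟫_ℂ • φ⟫_ℂ) → w v = x := by
    intro v x hx hxo hxeq
    have hd : w v - x ∈ V := V.sub_mem (hw v) hx
    refine sub_eq_zero.mp (hg.eq_zero hd (by rw [inner_sub_right, hwo, hxo, sub_zero]) ?_)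
    have h1 := iona_sub_right hn hd (hw v) hx
    rw [h1, hweq v _ hd, hxeq _ hd, sub_self]
  let L : H →ₗ[ℂ] H :=
    { toFun := w
      map_add' := fun v v' => by
        refine huniq _ _ (V.add_mem (hw v) (hw v')) (by rw [inner_add_right, hwo, hwo, add_zero]) ?_
        intro Ξ hΞ
        have h1 := hn.add_right Ξ hΞ _ (hw v) _ (hw v')
        rw [h1, hweq v Ξ hΞ, hweq v' Ξ hΞ, ← inner_add_right, inner_add_right φ, add_smul]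
        congr 1
        abel
      map_smul' := fun a v => by
        refine huniq _ _ (V.smul_mem a (hw v)) (by rw [inner_smul_right, hwo, mul_zero]) ?_
        intro Ξ hΞ
        have h1 := hn.smul_right a Ξ hΞ _ (hw v)
        simp only [RingHom.id_apply] at h1 ⊢
        rw [h1, hweq v Ξ hΞ, ← inner_smul_right, inner_smul_right φ, smul_sub, smul_smul] }
  have hbound : ∀ v, ‖L v‖ ≤ 1 / c * ‖v‖ := by
    intro v
    change ‖w v‖ ≤ 1 / c * ‖v‖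
    have h1 := congrArg Complex.re (hweq v (w v) (hw v))
    rw [iona_re_shift, inner_sub_right, inner_smul_right, ← inner_conj_symm (w v) φ, hwo v] at h1
    simp only [map_zero, mul_zero, sub_zero] at h1
    have h2 := hg.gap (w v) (hw v) (hwo v)
    have h3 : (⟪w v, v⟫_ℂ).re ≤ ‖w v‖ * ‖v‖ := (Complex.re_le_norm _).trans (norm_inner_le_norm _ _)
    rw [one_div, inv_mul_eq_div, le_div_iff₀ hg.c_pos]
    rcases (norm_nonneg (w v)).eq_or_lt with h0 | h0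
    · rw [← h0, zero_mul]; exact norm_nonneg _
    · have h4 : ‖w v‖ * (‖w v‖ * c) ≤ ‖w v‖ * ‖v‖ := by nlinarith
      exact le_of_mul_le_mul_left h4 h0
  exact ⟨L.mkContinuous (1 / c) hbound, ⟨hw, hwo, hweq⟩⟩

end A1

/-! ## LEAF ION-A2: consequences of the definition -/

section A2

variable {R : H →L[ℂ] H}

theorem IsRedRes.inner_Q (hR : IsRedRes V q E φ R) (w v : H) :
    ⟪R w, v - ⟪φ, v⟫_ℂ • φ⟫_ℂ = ⟪R w, v⟫_ℂ := by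
  rw [inner_sub_right, inner_smul_right, ← inner_conj_symm (R w) φ, hR.perp w]
  simp

/-- `N[R v] = ⟪R v, v⟫`. -/
theorem IsRedRes.form_self (hR : IsRedRes V q E φ R) (v : H) :
    q (R v) (R v) - (E : ℂ) * ⟪R v, R v⟫_ℂ = ⟪R v, v⟫_ℂ := by
  rw [hR.eq v (R v) (hR.mem v), hR.inner_Q]

theorem IsRedRes.symm (hq : HermForm V q) (hR : IsRedRes V q E φ R) (v w : H) :
    ⟪R v, w⟫_ℂ = ⟪v, R w⟫_ℂ := by
  have h1 := hR.eq w (R v) (hR.mem v)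
  have h2 := hR.eq v (R w) (hR.mem w)
  rw [hR.inner_Q] at h1 h2
  have h3 := (hq.shift E).conj_symm (R v) (hR.mem v) (R w) (hR.mem w)
  rw [h1, h2] at h3
  rw [← inner_conj_symm v (R w), h3, Complex.conj_conj]

theorem IsRedRes.gap (hg : GapData V q E c φ) (hR : IsRedRes V q E φ R) (v : H) :
    c * ‖R v‖ ^ 2 ≤ (⟪R v, v⟫_ℂ).re := by
  have h1 := congrArg Complex.re (hR.form_self v)
  rw [iona_re_shift] at h1
  have h2 := hg.gap (R v) (hR.mem v) (hR.perp v)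
  linarith

theorem IsRedRes.apply_phi (hg : GapData V q E c φ) (hR : IsRedRes V q E φ R) : R φ = 0 := by
  have h1 := hR.gap hg φ
  rw [← inner_conj_symm (R φ) φ, hR.perp φ] at h1
  simp only [map_zero, Complex.zero_re] at h1
  have h2 : ‖R φ‖ ^ 2 ≤ 0 := by nlinarith [hg.c_pos, sq_nonneg ‖R φ‖]
  have h3 : ‖R φ‖ = 0 := pow_eq_zero_iff two_ne_zero |>.mp (le_antisymm h2 (sq_nonneg _))
  exact norm_eq_zero.mp h3

theorem IsRedRes.norm_le (hg : GapData V q E c φ) (hR : IsRedRes V q E φ R) (v : H) :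
    ‖R v‖ ≤ ‖v‖ / c := by
  have h1 := hR.gap hg v
  have h2 : (⟪R v, v⟫_ℂ).re ≤ ‖R v‖ * ‖v‖ :=
    (Complex.re_le_norm _).trans (norm_inner_le_norm _ _)
  rw [le_div_iff₀ hg.c_pos]
  rcases (norm_nonneg (R v)).eq_or_lt with h0 | h0
  · rw [← h0, zero_mul]; exact norm_nonneg _
  · have h3 : ‖R v‖ * (‖R v‖ * c) ≤ ‖R v‖ * ‖v‖ := by nlinarith
    exact le_of_mul_le_mul_left h3 h0

/-- **the bridge**: a form-sense solution of `(q - E) u = g` satisfies the `P`- and the `Q`-equation. -/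
theorem IsRedRes.bridge (hq : HermForm V q) (hg : GapData V q E c φ) (hR : IsRedRes V q E φ R) {u g : H}
    (hu : u ∈ V) (h : ∀ Ξ ∈ V, q Ξ u - (E : ℂ) * ⟪Ξ, u⟫_ℂ = ⟪Ξ, g⟫_ℂ) :
    ⟪φ, g⟫_ℂ = 0 ∧ u - ⟪φ, u⟫_ℂ • φ = R g := by
  have hφg : ⟪φ, g⟫_ℂ = 0 := by rw [← h φ hg.mem, hg.shift_left hq hu]
  refine ⟨hφg, ?_⟩
  have hN := hq.shift E
  set α := ⟪φ, u⟫_ℂ with hα
  have hαφ : α • φ ∈ V := V.smul_mem α hg.mem
  have hu0 : u - α • φ ∈ V := V.sub_mem hu hαφ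
  have hd : u - α • φ - R g ∈ V := V.sub_mem hu0 (hR.mem g)
  have hφd : ⟪φ, u - α • φ - R g⟫_ℂ = 0 := by
    rw [inner_sub_right, iona_inner_sub hg.norm u, hR.perp g, sub_zero]
  have key : ∀ Ξ ∈ V, q Ξ (u - α • φ - R g) - (E : ℂ) * ⟪Ξ, u - α • φ - R g⟫_ℂ = 0 := by
    intro Ξ hΞ
    have h1 := iona_sub_right hN hΞ hu0 (hR.mem g)
    have h2 := iona_sub_right hN hΞ hu hαφ
    have h3 := hN.smul_right α Ξ hΞ φ hg.mem
    rw [h1, h2, h3, hg.shift_right hΞ, h Ξ hΞ, hR.eq g Ξ hΞ, hφg]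
    simp
  exact sub_eq_zero.mp (hg.eq_zero hd hφd (key _ hd))

theorem IsRedRes.unique (hq : HermForm V q) (hg : GapData V q E c φ) {R' : H →L[ℂ] H}
    (hR : IsRedRes V q E φ R) (hR' : IsRedRes V q E φ R') : R = R' := by
  ext v
  have h := hR'.bridge hq hg (u := R v) (g := v - ⟪φ, v⟫_ℂ • φ) (hR.mem v) (hR.eq v)
  have h2 := h.2
  rw [hR.perp v, zero_smul, sub_zero, map_sub, map_smul, hR'.apply_phi hg, smul_zero, sub_zero] at h2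
  exact h2

end A2

/-! ## LEAF ION-A3: the abstract Agmon estimate

`M : H → H` plays the role of the multiplication by a bounded weight `e^f`; `a = sup |∇f|²/2`.  Only three properties are used: symmetry (it implies
linearity: `⟪M(x+y),z⟫ = ⟪x+y,Mz⟫`), `M V ⊆ V`, and the IMS inequality `q[Mu] - a‖Mu‖² ≤ Re q(M²u, u)`. -/

section A3

variable {R : H →L[ℂ] H} {M : H → H} {a : ℝ}

/-- a symmetric map is linear. -/
theorem iona_symm_linear (hMs : ∀ x y, ⟪M x, y⟫_ℂ = ⟪x, M y⟫_ℂ) (α : ℂ) (x y : H) :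
    M (x - α • y) = M x - α • M y := by
  refine ext_inner_left ℂ fun z => ?_
  rw [← hMs, inner_sub_right, inner_smul_right, inner_sub_right, inner_smul_right, hMs, hMs]

theorem iona_inner_MM (hMs : ∀ x y, ⟪M x, y⟫_ℂ = ⟪x, M y⟫_ℂ) (u : H) :
    ⟪M (M u), u⟫_ℂ = ((‖M u‖ ^ 2 : ℝ) : ℂ) := by
  rw [hMs, inner_self_eq_norm_sq_to_K]
  norm_cast

/-- `(c - a)‖Mφ‖² ≤ c |⟪φ,Mφ⟫|²`.  (`q(M²φ,φ) = E‖Mφ‖²`, IMS, `GapData.ge` for `u = Mφ`.) -/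
theorem GapData.agmon_phi (hq : HermForm V q) (hg : GapData V q E c φ)
    (hMs : ∀ x y, ⟪M x, y⟫_ℂ = ⟪x, M y⟫_ℂ) (hMV : ∀ x ∈ V, M x ∈ V)
    (hIMS : ∀ u ∈ V, (q (M u) (M u)).re - a * ‖M u‖ ^ 2 ≤ (q (M (M u)) u).re) :
    (c - a) * ‖M φ‖ ^ 2 ≤ c * ‖⟪φ, M φ⟫_ℂ‖ ^ 2 := by
  have h1 := hIMS φ hg.mem
  rw [hg.eig _ (hMV _ (hMV _ hg.mem)), iona_inner_MM hMs, ← Complex.ofReal_mul, Complex.ofReal_re] at h1
  have h2 := hg.ge hq (hMV _ hg.mem)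
  linarith

/-- quantitative form: `a ≤ c/2`, `|⟪φ,Mφ⟫| ≤ A + ε‖Mφ‖`, `ε² ≤ 1/8` give `‖Mφ‖² ≤ 8A²`. -/
theorem GapData.agmon_phi' (hq : HermForm V q) (hg : GapData V q E c φ)
    (hMs : ∀ x y, ⟪M x, y⟫_ℂ = ⟪x, M y⟫_ℂ) (hMV : ∀ x ∈ V, M x ∈ V)
    (hIMS : ∀ u ∈ V, (q (M u) (M u)).re - a * ‖M u‖ ^ 2 ≤ (q (M (M u)) u).re) (ha : a ≤ c / 2)
    {A ε : ℝ} (hA : 0 ≤ A) (hε : 0 ≤ ε) (hε' : ε ^ 2 ≤ 1 / 8) (h : ‖⟪φ, M φ⟫_ℂ‖ ≤ A + ε * ‖M φ‖) :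
    ‖M φ‖ ^ 2 ≤ 8 * A ^ 2 := by
  have h1 := GapData.agmon_phi hq hg hMs hMV hIMS
  have hc := hg.c_pos
  set X := ‖M φ‖ with hX
  have hX0 : 0 ≤ X := norm_nonneg _
  have h2 : ‖⟪φ, M φ⟫_ℂ‖ ^ 2 ≤ (A + ε * X) ^ 2 := pow_le_pow_left₀ (norm_nonneg _) h 2
  have h3 : (A + ε * X) ^ 2 ≤ 2 * A ^ 2 + 2 * (ε ^ 2 * X ^ 2) := by nlinarith [sq_nonneg (A - ε * X)]
  have h4 : ε ^ 2 * X ^ 2 ≤ 1 / 8 * X ^ 2 := mul_le_mul_of_nonneg_right hε' (sq_nonneg _)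
  have h5 : c / 2 * X ^ 2 ≤ (c - a) * X ^ 2 := mul_le_mul_of_nonneg_right (by linarith) (sq_nonneg _)
  have h6 : c * ‖⟪φ, M φ⟫_ℂ‖ ^ 2 ≤ c * (2 * A ^ 2 + 1 / 4 * X ^ 2) :=
    mul_le_mul_of_nonneg_left (by linarith) hc.le
  have h7 : c * (X ^ 2 / 2) ≤ c * (2 * A ^ 2 + 1 / 4 * X ^ 2) := by linarith
  have h8 := le_of_mul_le_mul_left h7 hc
  linarith

/-- `(c - a)‖M R v‖² ≤ c |⟪φ, M R v⟫|² + Re ⟪M² R v, Q v⟫`. -/
theorem IsRedRes.agmon (hq : HermForm V q) (hg : GapData V q E c φ) (hR : IsRedRes V q E φ R)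
    (hMs : ∀ x y, ⟪M x, y⟫_ℂ = ⟪x, M y⟫_ℂ) (hMV : ∀ x ∈ V, M x ∈ V)
    (hIMS : ∀ u ∈ V, (q (M u) (M u)).re - a * ‖M u‖ ^ 2 ≤ (q (M (M u)) u).re) (v : H) :
    (c - a) * ‖M (R v)‖ ^ 2 ≤
      c * ‖⟪φ, M (R v)⟫_ℂ‖ ^ 2 + (⟪M (M (R v)), v - ⟪φ, v⟫_ℂ • φ⟫_ℂ).re := by
  have h1 := hIMS (R v) (hR.mem v)
  have h2 := congrArg Complex.re (hR.eq v _ (hMV _ (hMV _ (hR.mem v))))
  rw [iona_inner_MM hMs, Complex.sub_re, ← Complex.ofReal_mul, Complex.ofReal_re] at h2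
  have h3 := hg.ge hq (hMV _ (hR.mem v))
  linarith

/-- quantitative form: `a ≤ c/2` gives `‖M R v‖ ≤ (2/c)(‖Mv‖ + 2‖Mφ‖‖v‖)`. -/
theorem IsRedRes.agmon' (hq : HermForm V q) (hg : GapData V q E c φ) (hR : IsRedRes V q E φ R)
    (hMs : ∀ x y, ⟪M x, y⟫_ℂ = ⟪x, M y⟫_ℂ) (hMV : ∀ x ∈ V, M x ∈ V)
    (hIMS : ∀ u ∈ V, (q (M u) (M u)).re - a * ‖M u‖ ^ 2 ≤ (q (M (M u)) u).re) (ha : a ≤ c / 2) (v : H) :
    ‖M (R v)‖ ≤ 2 / c * (‖M v‖ + 2 * ‖M φ‖ * ‖v‖) := by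
  have h1 := IsRedRes.agmon hq hg hR hMs hMV hIMS v
  have hc := hg.c_pos
  set X := ‖M (R v)‖ with hX
  set B := ‖M v‖ with hB
  set P := ‖M φ‖ * ‖v‖ with hP
  have hX0 : 0 ≤ X := norm_nonneg _
  have hB0 : 0 ≤ B := norm_nonneg _
  have hP0 : 0 ≤ P := by positivity
  have h2 : ‖⟪φ, M (R v)⟫_ℂ‖ ≤ P / c := by
    rw [← hMs]
    calc ‖⟪M φ, R v⟫_ℂ‖ ≤ ‖M φ‖ * ‖R v‖ := norm_inner_le_norm _ _
      _ ≤ ‖M φ‖ * (‖v‖ / c) := mul_le_mul_of_nonneg_left (hR.norm_le hg v) (norm_nonneg _)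
      _ = P / c := by rw [hP]; ring
  have h3 : (⟪M (M (R v)), v - ⟪φ, v⟫_ℂ • φ⟫_ℂ).re ≤ X * (B + P) := by
    rw [hMs, iona_symm_linear hMs]
    refine (Complex.re_le_norm _).trans ((norm_inner_le_norm _ _).trans ?_)
    refine mul_le_mul_of_nonneg_left ?_ hX0
    refine (norm_sub_le _ _).trans ?_
    rw [norm_smul]
    have h4 : ‖⟪φ, v⟫_ℂ‖ ≤ ‖v‖ := by
      have := norm_inner_le_norm (𝕜 := ℂ) φ v
      rwa [hg.norm, one_mul] at this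
    have h5 : ‖⟪φ, v⟫_ℂ‖ * ‖M φ‖ ≤ ‖v‖ * ‖M φ‖ := mul_le_mul_of_nonneg_right h4 (norm_nonneg _)
    rw [hP]
    linarith
  have h4 : ‖⟪φ, M (R v)⟫_ℂ‖ ^ 2 ≤ (P / c) ^ 2 := pow_le_pow_left₀ (norm_nonneg _) h2 2
  have h5 : c / 2 * X ^ 2 ≤ (c - a) * X ^ 2 := mul_le_mul_of_nonneg_right (by linarith) (sq_nonneg _)
  have h6 : c * ‖⟪φ, M (R v)⟫_ℂ‖ ^ 2 ≤ P ^ 2 / c := by
    calc c * ‖⟪φ, M (R v)⟫_ℂ‖ ^ 2 ≤ c * (P / c) ^ 2 := mul_le_mul_of_nonneg_left h4 hc.le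
      _ = P ^ 2 / c := by field_simp
  have h7 : c / 2 * X ^ 2 ≤ P ^ 2 / c + X * (B + P) := by linarith
  have hgoal : X ≤ 2 / c * (B + 2 * P) := by
    by_contra hcon
    have hlt : 2 / c * (B + 2 * P) < X := not_le.mp hcon
    have hY0 : 0 ≤ 2 / c * (B + 2 * P) := by positivity
    have hXpos : 0 < X := lt_of_le_of_lt hY0 hlt
    have e1 : B + 2 * P < c / 2 * X := by
      have := mul_lt_mul_of_pos_left hlt (by positivity : 0 < c / 2)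
      have e : c / 2 * (2 / c * (B + 2 * P)) = B + 2 * P := by field_simp
      linarith
    have e2 : X * (B + 2 * P) < X * (c / 2 * X) := mul_lt_mul_of_pos_left e1 hXpos
    have e3 : P ^ 2 / c ≤ X * P := by
      have e4 : P / c ≤ X := by
        have : P / c ≤ 2 / c * (B + 2 * P) := by
          rw [div_mul_eq_mul_div, div_le_div_iff_of_pos_right hc]
          linarith
        linarith
      calc P ^ 2 / c = P / c * P := by ring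
        _ ≤ X * P := mul_le_mul_of_nonneg_right e4 hP0
    nlinarith
  have : 2 * ‖M φ‖ * ‖v‖ = 2 * P := by rw [hP]; ring
  rw [this]
  exact hgoal

end A3

/-! ## LEAF ION-A4: lower bounds for `R v`, `R² v` -/

section A4

variable {R : H →L[ℂ] H}

theorem IsRedRes.inner_sq_le (hq : HermForm V q) (hg : GapData V q E c φ) (hR : IsRedRes V q E φ R) {y : H}
    (hy : y ∈ V) (hyφ : ⟪φ, y⟫_ℂ = 0) (v : H) :
    ‖⟪y, v⟫_ℂ‖ ^ 2 ≤ ((q y y).re - E * ‖y‖ ^ 2) * (⟪R v, v⟫_ℂ).re := by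
  have hn := hq.shift E
  have h1 := hn.cauchy_schwarz (fun x hx => hg.shift_nonneg hq hx) hy (hR.mem v)
  rw [hR.eq v y hy, hR.form_self, iona_re_shift, inner_sub_right, inner_smul_right, ← inner_conj_symm y φ,
    hyφ] at h1
  simpa using h1

theorem IsRedRes.norm_sq_le (hq : HermForm V q) (hg : GapData V q E c φ) (hR : IsRedRes V q E φ R) (v : H) :
    ‖R v‖ ^ 2 ≤ ‖v‖ * ‖R (R v)‖ := by
  have h1 : ((‖R v‖ ^ 2 : ℝ) : ℂ) = ⟪v, R (R v)⟫_ℂ := by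
    rw [← hR.symm hq, inner_self_eq_norm_sq_to_K]
    norm_cast
  have h2 := norm_inner_le_norm (𝕜 := ℂ) v (R (R v))
  rw [← h1, Complex.norm_real, Real.norm_eq_abs, abs_of_nonneg (sq_nonneg _)] at h2
  exact h2

theorem IsRedRes.lower (hq : HermForm V q) (hg : GapData V q E c φ) (hR : IsRedRes V q E φ R) {y : H}
    (hy : y ∈ V) (hyφ : ⟪φ, y⟫_ℂ = 0) (v : H) :
    ‖⟪y, v⟫_ℂ‖ ^ 4 ≤ ((q y y).re - E * ‖y‖ ^ 2) ^ 2 * ‖v‖ ^ 3 * ‖R (R v)‖ := by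
  have h1 := IsRedRes.inner_sq_le hq hg hR hy hyφ v
  have h2 := IsRedRes.norm_sq_le hq hg hR v
  have h3 : 0 ≤ (⟪R v, v⟫_ℂ).re := le_trans (by have := hg.c_pos; positivity) (hR.gap hg v)
  have h4 : (⟪R v, v⟫_ℂ).re ≤ ‖R v‖ * ‖v‖ := (Complex.re_le_norm _).trans (norm_inner_le_norm _ _)
  set Ny := (q y y).re - E * ‖y‖ ^ 2 with hNy
  have h5 : (‖⟪y, v⟫_ℂ‖ ^ 2) ^ 2 ≤ (Ny * (⟪R v, v⟫_ℂ).re) ^ 2 := pow_le_pow_left₀ (sq_nonneg _) h1 2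
  have h6 : (⟪R v, v⟫_ℂ).re ^ 2 ≤ (‖R v‖ * ‖v‖) ^ 2 := pow_le_pow_left₀ h3 h4 2
  calc ‖⟪y, v⟫_ℂ‖ ^ 4 = (‖⟪y, v⟫_ℂ‖ ^ 2) ^ 2 := by ring
    _ ≤ (Ny * (⟪R v, v⟫_ℂ).re) ^ 2 := h5
    _ = Ny ^ 2 * (⟪R v, v⟫_ℂ).re ^ 2 := by ring
    _ ≤ Ny ^ 2 * (‖R v‖ * ‖v‖) ^ 2 := mul_le_mul_of_nonneg_left h6 (sq_nonneg _)
    _ = Ny ^ 2 * ‖v‖ ^ 2 * ‖R v‖ ^ 2 := by ring
    _ ≤ Ny ^ 2 * ‖v‖ ^ 2 * (‖v‖ * ‖R (R v)‖) := mul_le_mul_of_nonneg_left h2 (by positivity)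
    _ = Ny ^ 2 * ‖v‖ ^ 3 * ‖R (R v)‖ := by ring

end A4

end Claimed.Open.R278
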