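import Claimed.Open.R278.IONLoc
import Claimed.Open.R278.IONSpin

/-!
# Result 278, package BP-ION (ionic toolkit), file 4: the dipole vectors `Y_i φ`, moments of `φ, Rr Y_zφ, Rr² Y_zφ`, the lower bound for `Rr² Y_z φ`

Architect: helper24.  Paper: 02-channels.tex, (3.31) `T_eq = -a₀'(0) B_Q⁻² Q Y_z φ ≠ 0`.  SORRY-FREE (helper24).  Helper lemmas: prefix `iond_`.

Everything on `L2 2`, then lifted by `fibEmb 0` (`ionPhi φ = ↑ ⊗ φ`, `ionY φ i = ↑ ⊗ (y_{1i}+y_{2i})φ`, `ionRr = 1 ⊗ ionR`).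

LOWER BOUND (replaces "`≠ 0` and stable under small `t`"; no unbounded multiplier enters a form).  `T(s) = s/√(1+s²)`, `ionT = T ∘ dipC 2` (smooth, `|ionT| ≤ 1`, odd under the
reflection, permutation symmetric, `∑_j (∂_j ionT)² = 2 T'(Y_z)² ≤ 2`).  `y' := ionT·φ ∈ H1A 2`, `⟪φ,y'⟫ = 0` (parity), and by `ims_agmon` + eigen-equation
`N[y'] = q[y'] - E₂‖y'‖² = ½∫|∇ionT|²|φ|² ≤ 1` (Thomas-Reiche-Kuhn).  With `v := Y_zφ`: `⟪y',v⟫ = ∫ T(Y_z)Y_z|φ|² ≥ ∫ T(Y_z)²|φ|² = ‖y'‖²`.  `IsRedRes.lower`: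
`‖y'‖⁸ ≤ |⟪y',v⟫|⁴ ≤ ‖v‖³ ‖R²v‖`.   `‖y'‖ = ‖ionT·φ‖ > 0` (`ionT ≠ 0` a.e.), and `|‖ionT·φ‖ - ‖ionT·φ₀‖| ≤ ‖φ-φ₀‖`: stability in `t`.
-/

open MeasureTheory Filter
open scoped ContDiff InnerProductSpace ComplexConjugate ENNReal Topology

noncomputable section

namespace Claimed.Open.R278

open AG (Fib)

/-! ## Definitions -/

/-- the coordinate `y_{1,i} + y_{2,i}` of the ionic dipole. -/
def dipC (i : Fin 3) (y : Config 2) : ℝ := y 0 i + y 1 i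

/-- `↑ ⊗ φ` (`= tensK 0 φ` by `rfl`). -/
def ionPhi (φ : L2 2) : Fib := fibEmb 0 φ

/-- the dipole vectors `Y_i φ = ↑ ⊗ (y_{1i} + y_{2i}) φ`. -/
def ionY (φ : L2 2) (i : Fin 3) : Fib := fibEmb 0 (mulL2 (dipC i) φ)

/-- the reduced resolvent on the fibre space. -/
def ionRr (t E₂ : ℝ) (φ : L2 2) : Fib →L[ℂ] Fib := liftOp (ionR t E₂ φ)

/-- the bounded odd multiplier `Y_z/√(1+Y_z²)`. -/
def ionT (y : Config 2) : ℝ := dipC 2 y / √(1 + dipC 2 y ^ 2)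

variable {t c E₂ : ℝ} {φ : L2 2}

/-! ## The resolvent on the fibre space (glue, proved) -/

theorem norm_ionPhi (h : IonData t c E₂ φ) : ‖ionPhi φ‖ = 1 := by rw [ionPhi, norm_fibEmb, h.norm]

theorem ionRr_symm (h : IonData t c E₂ φ) (v w : Fib) : ⟪ionRr t E₂ φ v, w⟫_ℂ = ⟪v, ionRr t E₂ φ w⟫_ℂ :=
  liftOp_symm _ (h.isRedRes.symm (ion_hermForm t)) v w

theorem ionRr_phi (h : IonData t c E₂ φ) : ionRr t E₂ φ (ionPhi φ) = 0 := by
  rw [ionRr, ionPhi, liftOp_fibEmb, h.isRedRes.apply_phi h.gapData, map_zero]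

theorem ionRr_gap (h : IonData t c E₂ φ) (v : Fib) :
    c * ‖ionRr t E₂ φ v‖ ^ 2 ≤ (⟪ionRr t E₂ φ v, v⟫_ℂ).re :=
  liftOp_gap _ (h.isRedRes.gap h.gapData) v

theorem ionRr_ionY (i : Fin 3) : ionRr t E₂ φ (ionY φ i) = fibEmb 0 (ionR t E₂ φ (mulL2 (dipC i) φ)) := by
  rw [ionRr, ionY, liftOp_fibEmb]

theorem ionRr_ionRr_ionY (i : Fin 3) :
    ionRr t E₂ φ (ionRr t E₂ φ (ionY φ i)) = fibEmb 0 (ionR t E₂ φ (ionR t E₂ φ (mulL2 (dipC i) φ))) := by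
  rw [ionRr_ionY, ionRr, liftOp_fibEmb]

theorem PdK_ionRr (v : Fib) : PdK (ionRr t E₂ φ v) = ionRr t E₂ φ (PdK v) := PdK_liftOp _ v

/-! ## LEAF ION-D1: parity -/

section D1

/-- the simultaneous reflection as a measurable equivalence. -/
def iondRefl (m : ℕ) : Config m ≃ᵐ Config m where
  toFun x i := reflZ (x i)
  invFun x i := reflZ (x i)
  left_inv x := by funext i; exact reflZ_reflZ _
  right_inv x := by funext i; exact reflZ_reflZ _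
  measurable_toFun := measurePreserving_config_reflZ.measurable
  measurable_invFun := measurePreserving_config_reflZ.measurable

/-- vectors of opposite reflection parity are orthogonal. -/
theorem inner_eq_zero_of_parity {m : ℕ} {Φ Ξ : L2 m} (h : HasReflectionParity 1 Φ)
    (h' : HasReflectionParity (-1) Ξ) : ⟪Φ, Ξ⟫_ℂ = 0 := by
  have h1 : ∫ x : Config m, ⟪Φ (iondRefl m x), Ξ (iondRefl m x)⟫_ℂ = ∫ x : Config m, ⟪Φ x, Ξ x⟫_ℂ :=
    MeasurePreserving.integral_comp' (f := iondRefl m) measurePreserving_config_reflZ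
      (fun x => ⟪Φ x, Ξ x⟫_ℂ)
  have h2 : ∫ x : Config m, ⟪Φ (iondRefl m x), Ξ (iondRefl m x)⟫_ℂ = -∫ x : Config m, ⟪Φ x, Ξ x⟫_ℂ := by
    rw [← integral_neg]
    refine integral_congr_ae ?_
    filter_upwards [h, h'] with x e1 e2
    have e1' : Φ (iondRefl m x) = (1 : ℂ) • Φ x := e1
    have e2' : Ξ (iondRefl m x) = (-1 : ℂ) • Ξ x := e2
    rw [e1', e2', one_smul, inner_smul_right]
    ring
  rw [L2.inner_eq]
  have h3 : (2 : ℂ) * ∫ x : Config m, ⟪Φ x, Ξ x⟫_ℂ = 0 := by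
    have := h1.symm.trans h2
    linear_combination this
  simpa using h3

/-- an odd multiplier flips the parity. -/
theorem HasReflectionParity.mulL2_odd {Φ : L2 2} (h : HasReflectionParity 1 Φ) {χ : Config 2 → ℝ}
    (hχ : ∀ y, χ (fun i => reflZ (y i)) = -χ y)
    (hm : MemLp (fun y => χ y • (Φ y : SpinSpace 2)) 2 volume) : HasReflectionParity (-1) (mulL2 χ Φ) := by
  have h0 := coeFn_mulL2' hm
  have h1 := (measurePreserving_config_reflZ (m := 2)).quasiMeasurePreserving.ae h0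
  filter_upwards [h0, h1, h] with y e0 e1 e2
  rw [e1, e0, e2, hχ]
  simp

theorem abs_dipC_le (i : Fin 3) (y : Config 2) : |dipC i y| ≤ 2 * AG.rho y := by
  have h0 : |y 0 i| ≤ ‖y 0‖ := by
    have := PiLp.norm_apply_le (y 0) i
    rwa [Real.norm_eq_abs] at this
  have h1 : |y 1 i| ≤ ‖y 1‖ := by
    have := PiLp.norm_apply_le (y 1) i
    rwa [Real.norm_eq_abs] at this
  have := abs_add_le (y 0 i) (y 1 i)
  have := AG.norm_le_rho y 0
  have := AG.norm_le_rho y 1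
  unfold dipC
  linarith

theorem dipC_two_reflZ (y : Config 2) : dipC 2 (fun i => reflZ (y i)) = -dipC 2 y := by
  simp only [dipC, reflZ_apply_two]
  ring

theorem ionT_reflZ (y : Config 2) : ionT (fun i => reflZ (y i)) = -ionT y := by
  unfold ionT
  rw [dipC_two_reflZ, neg_sq, neg_div]

end D1

/-! ## LEAF ION-D2: the multiplier `ionT` -/

section D2

/-- `dipC 2` as a continuous linear map. -/
def iondL : Config 2 →L[ℝ] ℝ :=
  (EuclideanSpace.proj (2 : Fin 3) : Space →L[ℝ] ℝ) ∘L (ContinuousLinearMap.proj 0 : Config 2 →L[ℝ] Space) +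
    (EuclideanSpace.proj (2 : Fin 3) : Space →L[ℝ] ℝ) ∘L (ContinuousLinearMap.proj 1 : Config 2 →L[ℝ] Space)

theorem iondL_apply (y : Config 2) : iondL y = dipC 2 y := rfl

theorem iond_dipC_eq : dipC 2 = fun y => iondL y := rfl

theorem iond_sum_dir : ∑ j : Fin 2 × Fin 3, iondL (dir j) ^ 2 = 2 := by
  simp [iondL_apply, dipC, dir, Fintype.sum_prod_type, Fin.sum_univ_succ, Pi.single_apply]
  norm_num

/-- the scalar profile `T(s) = s/√(1+s²)`. -/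
theorem iond_hasDerivAt_T (s : ℝ) :
    HasDerivAt (fun s : ℝ => s / √(1 + s ^ 2)) (1 / √(1 + s ^ 2) ^ 3) s := by
  have hpos : 0 < 1 + s ^ 2 := by positivity
  have hr : 0 < √(1 + s ^ 2) := Real.sqrt_pos.2 hpos
  have h1 : HasDerivAt (fun s : ℝ => 1 + s ^ 2) (2 * s) s := by
    have := ((hasDerivAt_id s).pow 2).const_add 1
    simpa using this
  have h2 := h1.sqrt hpos.ne'
  have h3 := (hasDerivAt_id s).div h2 hr.ne'
  have hsq : √(1 + s ^ 2) ^ 2 = 1 + s ^ 2 := Real.sq_sqrt hpos.le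
  have e : (1 * √(1 + s ^ 2) - id s * (2 * s / (2 * √(1 + s ^ 2)))) / √(1 + s ^ 2) ^ 2 = 1 / √(1 + s ^ 2) ^ 3 := by
    simp only [id]
    set r := √(1 + s ^ 2) with hrdef
    have hs2 : s ^ 2 = r ^ 2 - 1 := by linarith
    field_simp
    linarith
  rw [e] at h3
  exact h3

theorem iond_T_deriv_le (s : ℝ) : |1 / √(1 + s ^ 2) ^ 3| ≤ 1 := by
  have h1 : 1 ≤ √(1 + s ^ 2) := by
    rw [Real.one_le_sqrt]
    nlinarith [sq_nonneg s]
  have h2 : 1 ≤ √(1 + s ^ 2) ^ 3 := one_le_pow₀ h1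
  rw [abs_of_nonneg (by positivity)]
  exact (div_le_one (by positivity)).2 h2

theorem ionT_props : ContDiff ℝ ∞ ionT ∧ (∀ y, |ionT y| ≤ 2) ∧ (∀ y j, |fderiv ℝ ionT y (dir j)| ≤ 2) ∧
    (∀ y, ∑ j, fderiv ℝ ionT y (dir j) ^ 2 ≤ 2) ∧
    (∀ (π : Equiv.Perm (Fin 2)) y, ionT (y ∘ π) = ionT y) ∧ (∀ y, |ionT y| ≤ 1) ∧
    (∀ y, ionT y ^ 2 ≤ ionT y * dipC 2 y) := by
  have hsm : ContDiff ℝ ∞ ionT := by
    have hd : ContDiff ℝ ∞ (dipC 2) := iondL.contDiff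
    unfold ionT
    refine hd.div ((contDiff_const.add (hd.pow 2)).sqrt fun y => ?_) fun y => ?_
    · positivity
    · exact (Real.sqrt_pos.2 (by positivity)).ne'
  have hle1 : ∀ y, |ionT y| ≤ 1 := by
    intro y
    unfold ionT
    rw [abs_div, abs_of_nonneg (Real.sqrt_nonneg _), div_le_one (Real.sqrt_pos.2 (by positivity)), ← Real.sqrt_sq_eq_abs]
    exact Real.sqrt_le_sqrt (by linarith)
  have hfd : ∀ y j, fderiv ℝ ionT y (dir j) = 1 / √(1 + dipC 2 y ^ 2) ^ 3 * iondL (dir j) := by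
    intro y j
    have h1 := AG.dd_comp (ϱ := dipC 2) (x := y) (iond_hasDerivAt_T (dipC 2 y)) iondL.differentiableAt (dir j)
    have h2 : AG.dd (dir j) (dipC 2) y = iondL (dir j) := by
      unfold AG.dd
      rw [iond_dipC_eq, iondL.fderiv]
    rw [h2] at h1
    exact h1
  have hsum : ∀ y, ∑ j, fderiv ℝ ionT y (dir j) ^ 2 ≤ 2 := by
    intro y
    simp only [hfd, mul_pow, ← Finset.mul_sum, iond_sum_dir]
    have h1 := iond_T_deriv_le (dipC 2 y)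
    have h2 : (1 / √(1 + dipC 2 y ^ 2) ^ 3) ^ 2 ≤ 1 := by
      rw [← sq_abs]
      exact pow_le_one₀ (abs_nonneg _) h1
    linarith
  refine ⟨hsm, fun y => (hle1 y).trans one_le_two, fun y j => ?_, hsum, fun π y => ?_, hle1, fun y => ?_⟩
  · have e1 : fderiv ℝ ionT y (dir j) ^ 2 ≤ ∑ j, fderiv ℝ ionT y (dir j) ^ 2 :=
      Finset.single_le_sum (f := fun j => fderiv ℝ ionT y (dir j) ^ 2) (fun _ _ => sq_nonneg _) (Finset.mem_univ j)
    have e2 : fderiv ℝ ionT y (dir j) ^ 2 ≤ 2 ^ 2 := by linarith [hsum y]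
    exact abs_le_of_sq_le_sq e2 (by norm_num)
  · have : dipC 2 (y ∘ π) = dipC 2 y := by
      have e1 : ∀ z : Config 2, dipC 2 z = ∑ k : Fin 2, z k 2 := fun z => by
        rw [Fin.sum_univ_two]; rfl
      rw [e1, e1]
      exact Equiv.sum_comp π (fun k => y k 2)
    unfold ionT
    rw [this]
  · unfold ionT
    set d := dipC 2 y with hd
    have hpos : 0 < 1 + d ^ 2 := by positivity
    have hr : 0 < √(1 + d ^ 2) := Real.sqrt_pos.2 hpos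
    have hsq : √(1 + d ^ 2) ^ 2 = 1 + d ^ 2 := Real.sq_sqrt hpos.le
    have h1 : 1 ≤ √(1 + d ^ 2) := by
      rw [Real.one_le_sqrt]
      nlinarith [sq_nonneg d]
    rw [div_pow, hsq, div_mul_eq_mul_div, div_le_div_iff₀ hpos hr]
    have : √(1 + d ^ 2) ≤ 1 + d ^ 2 := by nlinarith
    nlinarith [sq_nonneg d, mul_le_mul_of_nonneg_left this (sq_nonneg d)]

/-- `ionT ≠ 0` almost everywhere. -/
theorem ionT_ne_zero_ae : ∀ᵐ y : Config 2, ionT y ≠ 0 := by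
  have hne : LinearMap.ker (iondL : Config 2 →ₗ[ℝ] ℝ) ≠ ⊤ := by
    intro htop
    have h1 : dir ((0, 2) : Fin 2 × Fin 3) ∈ LinearMap.ker (iondL : Config 2 →ₗ[ℝ] ℝ) := by
      rw [htop]; trivial
    have h2 : iondL (dir ((0, 2) : Fin 2 × Fin 3)) = 0 := h1
    simp [iondL_apply, dipC, dir] at h2
  have h0 := Measure.addHaar_submodule (volume : Measure (Config 2)) _ hne
  rw [ae_iff]
  refine measure_mono_null (fun y hy => ?_) h0
  simp only [Set.mem_ofPred_eq, not_not] at hy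
  show iondL y = 0
  rw [iondL_apply]
  unfold ionT at hy
  rcases div_eq_zero_iff.mp hy with h | h
  · exact h
  · exact absurd h (Real.sqrt_pos.2 (by positivity)).ne'

theorem iond_ionT_meas : AEStronglyMeasurable ionT (volume : Measure (Config 2)) :=
  ionT_props.1.continuous.aestronglyMeasurable

theorem norm_mulL2_ionT_pos {Φ : L2 2} (h : Φ ≠ 0) : 0 < ‖mulL2 ionT Φ‖ := by
  rw [norm_pos_iff]
  intro h0
  apply h
  refine Lp.ext ?_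
  have h1 := coeFn_mulL2 iond_ionT_meas ionT_props.2.1 Φ
  rw [h0] at h1
  filter_upwards [h1, ionT_ne_zero_ae, Lp.coeFn_zero (SpinSpace 2) 2 (volume : Measure (Config 2))] with y e1 e2 e3
  rw [e3] at e1 ⊢
  exact ((smul_eq_zero.mp e1.symm).resolve_left e2)

/-- stability. -/
theorem norm_mulL2_ionT_sub_le (Φ Φ₀ : L2 2) : ‖mulL2 ionT Φ₀‖ - ‖Φ - Φ₀‖ ≤ ‖mulL2 ionT Φ‖ := by
  have hm := iond_ionT_meas
  have hb := ionT_props.2.1
  have h1 : mulL2 ionT Φ₀ = mulL2 ionT Φ - mulL2 ionT (Φ - Φ₀) := by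
    refine Lp.ext ?_
    filter_upwards [Lp.coeFn_sub (mulL2 ionT Φ) (mulL2 ionT (Φ - Φ₀)), coeFn_mulL2 hm hb Φ, coeFn_mulL2 hm hb Φ₀,
      coeFn_mulL2 hm hb (Φ - Φ₀), Lp.coeFn_sub Φ Φ₀] with y e1 e2 e3 e4 e5
    rw [e1, Pi.sub_apply, e2, e3, e4, e5, Pi.sub_apply, smul_sub]
    abel
  have h2 : ‖mulL2 ionT (Φ - Φ₀)‖ ≤ ‖Φ - Φ₀‖ := by
    refine (pow_le_pow_iff_left₀ (norm_nonneg _) (norm_nonneg _) two_ne_zero).mp ?_
    rw [ionl_norm_mulL2_sq hm hb, L2.norm_sq_eq]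
    refine integral_mono (ionl_integrable_sq_mul hm hb _) (L2.integrable_norm_sq _) fun y => ?_
    have e1 : ionT y ^ 2 ≤ 1 := by
      rw [← sq_abs]
      exact pow_le_one₀ (abs_nonneg _) (ionT_props.2.2.2.2.2.1 y)
    have := mul_le_mul_of_nonneg_right e1 (sq_nonneg ‖(Φ - Φ₀ : L2 2) y‖)
    simpa using this
  have h3 := norm_sub_le (mulL2 ionT Φ) (mulL2 ionT (Φ - Φ₀))
  rw [← h1] at h3
  linarith

end D2

/-! ## LEAF ION-D3: the lower bound -/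

section D3

/-- the test vector `y' = ionT·φ`. -/
theorem IonData.test_vector (h : IonData t c E₂ φ) :
    mulL2 ionT φ ∈ H1A 2 ∧ ⟪φ, mulL2 ionT φ⟫_ℂ = 0 ∧
      (sesqForm (scaledPotential 2 t) (mulL2 ionT φ) (mulL2 ionT φ)).re - E₂ * ‖mulL2 ionT φ‖ ^ 2 ≤ 1 ∧
      0 ≤ (sesqForm (scaledPotential 2 t) (mulL2 ionT φ) (mulL2 ionT φ)).re - E₂ * ‖mulL2 ionT φ‖ ^ 2 := by
  obtain ⟨p1, p2, p3, p4, p5, -, -⟩ := ionT_props
  have p1' : ContDiff ℝ 1 ionT := p1.of_le (by exact_mod_cast le_top)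
  have hm := iond_ionT_meas
  have hφ := h.eig.1
  have hy : mulL2 ionT φ ∈ FormDomain (scaledPotential 2 t) := mulL2_mem_formDomain hφ p1' p2 p3 p5
  have hyy : mulL2 ionT (mulL2 ionT φ) ∈ FormDomain (scaledPotential 2 t) := mulL2_mem_formDomain hy p1' p2 p3 p5
  have h1 := ims_agmon hφ p1' p2 p3
  have h2 : (sesqForm (scaledPotential 2 t) (mulL2 ionT (mulL2 ionT φ)) φ).re = E₂ * ‖mulL2 ionT φ‖ ^ 2 := by
    rw [h.eig.2 _ hyy, mulL2_symm hm p2, inner_self_eq_norm_sq_to_K, Complex.re_ofReal_mul]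
    norm_cast
  have hint : Integrable (fun x => (∑ j, fderiv ℝ ionT x (dir j) ^ 2) * ‖φ x‖ ^ 2) volume := by
    simp only [Finset.sum_mul]
    exact integrable_finsetSum _ fun j _ =>
      ionl_integrable_sq_mul (fs_cont_d p1' _).aestronglyMeasurable (fun x => p3 x j) φ
  have h3 : ∫ x, (∑ j, fderiv ℝ ionT x (dir j) ^ 2) * ‖φ x‖ ^ 2 ≤ 2 := by
    have hφ1 : ∫ y, ‖φ y‖ ^ 2 = 1 := by rw [← L2.norm_sq_eq, h.norm]; norm_num
    calc ∫ x, (∑ j, fderiv ℝ ionT x (dir j) ^ 2) * ‖φ x‖ ^ 2 ≤ ∫ x, 2 * ‖φ x‖ ^ 2 :=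
          integral_mono hint ((L2.integrable_norm_sq φ).const_mul 2) fun x =>
            mul_le_mul_of_nonneg_right (p4 x) (sq_nonneg _)
      _ = 2 := by rw [integral_const_mul, hφ1, mul_one]
  have h4 : 0 ≤ ∫ x, (∑ j, fderiv ℝ ionT x (dir j) ^ 2) * ‖φ x‖ ^ 2 :=
    integral_nonneg fun x => mul_nonneg (Finset.sum_nonneg fun _ _ => sq_nonneg _) (sq_nonneg _)
  have h5 : (sesqForm (scaledPotential 2 t) (mulL2 ionT φ) (mulL2 ionT φ)).re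
      = energy (scaledPotential 2 t) (mulL2 ionT φ) := rfl
  refine ⟨(mem_H1A_iff_formDomain t).2 hy, ?_, ?_, ?_⟩
  · exact inner_eq_zero_of_parity h.even (h.even.mulL2_odd ionT_reflZ (memLp_smul_of_bdd hm p2 φ))
  · rw [h5]; linarith
  · rw [h5]; linarith

theorem IonData.norm_sq_le_inner (h : IonData t c E₂ φ)
    (hm : MemLp (fun y => dipC 2 y • (φ y : SpinSpace 2)) 2 volume) :
    ‖mulL2 ionT φ‖ ^ 2 ≤ ‖⟪mulL2 ionT φ, mulL2 (dipC 2) φ⟫_ℂ‖ := by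
  have hTm := iond_ionT_meas
  have p2 := ionT_props.2.1
  have p7 := ionT_props.2.2.2.2.2.2
  have hae : (fun y => ⟪mulL2 ionT φ y, mulL2 (dipC 2) φ y⟫_ℂ)
      =ᵐ[volume] fun y => (((ionT y * dipC 2 y) * ‖φ y‖ ^ 2 : ℝ) : ℂ) := by
    filter_upwards [coeFn_mulL2 hTm p2 φ, coeFn_mulL2' hm] with y e1 e2
    have e3 : ⟪φ y, φ y⟫_ℂ = ((‖φ y‖ ^ 2 : ℝ) : ℂ) := by
      rw [inner_self_eq_norm_sq_to_K]; norm_cast
    rw [e1, e2, fs_inner_smul_left, fs_inner_smul_right, e3]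
    simp only [Complex.real_smul]
    push_cast
    ring
  have hint : Integrable (fun y => (ionT y * dipC 2 y) * ‖φ y‖ ^ 2) volume := by
    have h1 := (L2.integrable_inner (mulL2 ionT φ) (mulL2 (dipC 2) φ)).congr hae
    exact h1.re
  have h1 : ⟪mulL2 ionT φ, mulL2 (dipC 2) φ⟫_ℂ = ((∫ y, (ionT y * dipC 2 y) * ‖φ y‖ ^ 2 : ℝ) : ℂ) := by
    rw [L2.inner_eq, integral_congr_ae hae, integral_complex_ofReal]
  rw [h1, Complex.norm_real, ionl_norm_mulL2_sq hTm p2]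
  refine le_trans ?_ (le_abs_self _)
  exact integral_mono (ionl_integrable_sq_mul hTm p2 φ) hint fun y =>
    mul_le_mul_of_nonneg_right (p7 y) (sq_nonneg _)

/-- **the lower bound** `‖ionT·φ‖⁸ ≤ ‖Y_zφ‖³ ‖R²Y_zφ‖`. -/
theorem IonData.lower (h : IonData t c E₂ φ) (hm : MemLp (fun y => dipC 2 y • (φ y : SpinSpace 2)) 2 volume) :
    ‖mulL2 ionT φ‖ ^ 8 ≤
      ‖mulL2 (dipC 2) φ‖ ^ 3 * ‖ionR t E₂ φ (ionR t E₂ φ (mulL2 (dipC 2) φ))‖ := by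
  obtain ⟨h1, h2, h3, h4⟩ := h.test_vector
  have h5 := h.isRedRes.lower (ion_hermForm t) h.gapData h1 h2 (mulL2 (dipC 2) φ)
  have h6 := h.norm_sq_le_inner hm
  set N := (sesqForm (scaledPotential 2 t) (mulL2 ionT φ) (mulL2 ionT φ)).re - E₂ * ‖mulL2 ionT φ‖ ^ 2
  set A := ‖mulL2 (dipC 2) φ‖ ^ 3 * ‖ionR t E₂ φ (ionR t E₂ φ (mulL2 (dipC 2) φ))‖ with hA
  have hA0 : 0 ≤ A := by positivity
  have hN : N ^ 2 ≤ 1 := by nlinarith
  calc ‖mulL2 ionT φ‖ ^ 8 = (‖mulL2 ionT φ‖ ^ 2) ^ 4 := by ring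
    _ ≤ ‖⟪mulL2 ionT φ, mulL2 (dipC 2) φ⟫_ℂ‖ ^ 4 := pow_le_pow_left₀ (by positivity) h6 4
    _ ≤ N ^ 2 * ‖mulL2 (dipC 2) φ‖ ^ 3 * ‖ionR t E₂ φ (ionR t E₂ φ (mulL2 (dipC 2) φ))‖ := h5
    _ = N ^ 2 * A := by rw [hA]; ring
    _ ≤ 1 * A := mul_le_mul_of_nonneg_right hN hA0
    _ = A := one_mul A

/-- `⟪φ, Y_zφ⟫ = 0`. -/
theorem IonData.inner_dip (h : IonData t c E₂ φ) (hm : MemLp (fun y => dipC 2 y • (φ y : SpinSpace 2)) 2 volume) :
    ⟪φ, mulL2 (dipC 2) φ⟫_ℂ = 0 :=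
  inner_eq_zero_of_parity h.even (h.even.mulL2_odd dipC_two_reflZ hm)

end D3

/-! ## LEAF ION-D4: moments -/

section D4

/-- one moment. -/
theorem iond_moment {s M B : ℝ} {a : ℕ} (hs : 0 < s) (hM : 0 ≤ M) (hB : 0 ≤ B) {u : L2 2}
    (hu : ExpBdd s M (u : Config 2 → SpinSpace 2)) {χ : Config 2 → ℝ} (hχm : AEStronglyMeasurable χ volume)
    (hχ : ∀ y, |χ y| ≤ B * AG.rho y ^ a) :
    MemLp (fun y => χ y • (u y : SpinSpace 2)) 2 volume ∧ ‖mulL2 χ u‖ ≤ B * (a.factorial / s ^ a) * M := by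
  have h := (hu.mul (s' := 0) hs hχm hχ).memLp
  rw [sub_zero] at h
  refine ⟨h.1, ?_⟩
  refine (pow_le_pow_iff_left₀ (norm_nonneg _) (by positivity) two_ne_zero).mp ?_
  rw [norm_mulL2_sq h.1]
  exact h.2

/-- smaller exponent. -/
theorem iond_expBdd_anti {s s' M : ℝ} (hs : s' < s) {u : L2 2} (hu : ExpBdd s M (u : Config 2 → SpinSpace 2)) :
    ExpBdd s' M (u : Config 2 → SpinSpace 2) := by
  have h := hu.mul (a := 0) (B := 1) (χ := fun _ => 1) hs aestronglyMeasurable_const (fun y => by simp)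
  simpa using h

theorem iond_rho_pow_meas (a : ℕ) : AEStronglyMeasurable (fun y : Config 2 => AG.rho y ^ a) volume :=
  (ionl_continuous_rho.pow a).aestronglyMeasurable

theorem iond_rho_pow_le (a : ℕ) (y : Config 2) : |AG.rho y ^ a| ≤ 1 * AG.rho y ^ a := by
  rw [one_mul, abs_of_nonneg (pow_nonneg (ionl_rho_nonneg y) a)]

theorem iond_dipC_meas (i : Fin 3) : AEStronglyMeasurable (dipC i) (volume : Measure (Config 2)) := by
  have : Continuous (dipC i) := by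
    unfold dipC
    fun_prop
  exact this.aestronglyMeasurable

theorem iond_dipC_le (i : Fin 3) (y : Config 2) : |dipC i y| ≤ 2 * AG.rho y ^ 1 := by
  rw [pow_one]; exact abs_dipC_le i y

theorem exists_moments {c s M₀ : ℝ} (hc : 0 < c) (hs : 0 < s) (hsc : s ^ 2 ≤ c) (hM₀ : 0 ≤ M₀) :
    ∃ C : ℝ, 0 ≤ C ∧ ∀ (t E₂ : ℝ) (φ : L2 2), IonData t c E₂ φ → ExpBdd s M₀ (φ : Config 2 → SpinSpace 2) →
      (∀ u ∈ ({φ, ionR t E₂ φ (mulL2 (dipC 2) φ), ionR t E₂ φ (ionR t E₂ φ (mulL2 (dipC 2) φ))} : Set (L2 2)),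
        ∀ a ∈ ({1, 2} : Set ℕ), MemLp (fun y => AG.rho y ^ a • (u y : SpinSpace 2)) 2 volume ∧
          ‖mulL2 (fun y => AG.rho y ^ a) u‖ ≤ C) ∧
      ∀ i, MemLp (fun y => dipC i y • (φ y : SpinSpace 2)) 2 volume ∧ ‖mulL2 (dipC i) φ‖ ≤ C := by
  have hs2 : 0 < s / 2 := by positivity
  have hs2' : s / 2 < s := by linarith
  have hsc2 : (s / 2) ^ 2 ≤ c := by nlinarith
  -- the constants
  obtain ⟨k, hk⟩ : ∃ k : ℕ → ℝ → ℝ, ∀ a δ, k a δ = (a.factorial : ℝ) / δ ^ a := ⟨_, fun _ _ => rfl⟩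
  have hk0 : ∀ a δ, 0 < δ → 0 ≤ k a δ := fun a δ hδ => by rw [hk]; positivity
  obtain ⟨V, hV⟩ : ∃ V, V = 2 * k 1 s * M₀ := ⟨_, rfl⟩
  obtain ⟨M₁, hM₁⟩ : ∃ M₁, M₁ = 2 * k 1 (s - s / 2) * M₀ := ⟨_, rfl⟩
  obtain ⟨M₂, hM₂⟩ : ∃ M₂, M₂ = 2 / c * (M₁ + 2 * M₀ * V) := ⟨_, rfl⟩
  obtain ⟨M₃, hM₃⟩ : ∃ M₃, M₃ = 2 / c * (M₂ + 2 * M₀ * (V / c)) := ⟨_, rfl⟩
  have hV0 : 0 ≤ V := by rw [hV]; have := hk0 1 s hs; positivity
  have hM₁0 : 0 ≤ M₁ := by rw [hM₁]; have := hk0 1 (s - s / 2) (by linarith); positivity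
  have hM₂0 : 0 ≤ M₂ := by rw [hM₂]; positivity
  have hM₃0 : 0 ≤ M₃ := by rw [hM₃]; positivity
  have a1 := mul_nonneg (hk0 1 s hs) hM₀
  have a2 := mul_nonneg (hk0 2 s hs) hM₀
  have a3 := mul_nonneg (hk0 1 (s / 2) hs2) hM₂0
  have a4 := mul_nonneg (hk0 2 (s / 2) hs2) hM₂0
  have a5 := mul_nonneg (hk0 1 (s / 2) hs2) hM₃0
  have a6 := mul_nonneg (hk0 2 (s / 2) hs2) hM₃0
  refine ⟨k 1 s * M₀ + k 2 s * M₀ + k 1 (s / 2) * M₂ + k 2 (s / 2) * M₂ + k 1 (s / 2) * M₃ + k 2 (s / 2) * M₃ + V,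
    by positivity, fun t E₂ φ h hφ => ?_⟩
  -- the dipole vector
  have hd : ∀ i, MemLp (fun y => dipC i y • (φ y : SpinSpace 2)) 2 volume ∧ ‖mulL2 (dipC i) φ‖ ≤ V := fun i => by
    have := iond_moment hs hM₀ zero_le_two hφ (iond_dipC_meas i) (iond_dipC_le i)
    rwa [← hk, ← hV] at this
  set v := mulL2 (dipC 2) φ with hv
  have hφ2 : ExpBdd (s / 2) M₀ (φ : Config 2 → SpinSpace 2) := iond_expBdd_anti hs2' hφ
  have hv1 : ExpBdd (s / 2) M₁ (v : Config 2 → SpinSpace 2) := by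
    have := hφ.mul hs2' (iond_dipC_meas 2) (iond_dipC_le 2)
    rw [← hk, ← hM₁] at this
    exact this.congr_ae (coeFn_mulL2' (hd 2).1).symm
  have hRv : ExpBdd (s / 2) M₂ (ionR t E₂ φ v : Config 2 → SpinSpace 2) := by
    refine (h.expBdd_R hs2.le hsc2 hM₀ hM₁0 hφ2 hv1).mono (by positivity) ?_
    rw [hM₂]
    refine mul_le_mul_of_nonneg_left ?_ (by positivity)
    have := mul_le_mul_of_nonneg_left (hd 2).2 (by positivity : 0 ≤ 2 * M₀)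
    linarith
  have hnRv : ‖ionR t E₂ φ v‖ ≤ V / c :=
    (h.isRedRes.norm_le h.gapData v).trans (div_le_div_of_nonneg_right (hd 2).2 hc.le)
  have hRRv : ExpBdd (s / 2) M₃ (ionR t E₂ φ (ionR t E₂ φ v) : Config 2 → SpinSpace 2) := by
    refine (h.expBdd_R hs2.le hsc2 hM₀ hM₂0 hφ2 hRv).mono (by positivity) ?_
    rw [hM₃]
    refine mul_le_mul_of_nonneg_left ?_ (by positivity)
    have := mul_le_mul_of_nonneg_left hnRv (by positivity : 0 ≤ 2 * M₀)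
    linarith
  have key : ∀ {σ M : ℝ} (_ : 0 < σ) (_ : 0 ≤ M) {u : L2 2} (_ : ExpBdd σ M (u : Config 2 → SpinSpace 2)) (a : ℕ),
      MemLp (fun y => AG.rho y ^ a • (u y : SpinSpace 2)) 2 volume ∧
        ‖mulL2 (fun y => AG.rho y ^ a) u‖ ≤ k a σ * M := by
    intro σ M hσ hM u hu a
    have := iond_moment hσ hM zero_le_one hu (iond_rho_pow_meas a) (iond_rho_pow_le a)
    rwa [← hk, one_mul] at this
  refine ⟨?_, fun i => ⟨(hd i).1, (hd i).2.trans (by linarith)⟩⟩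
  rintro u (rfl | rfl | rfl) a (rfl | rfl)
  · exact ⟨(key hs hM₀ hφ 1).1, (key hs hM₀ hφ 1).2.trans (by linarith)⟩
  · exact ⟨(key hs hM₀ hφ 2).1, (key hs hM₀ hφ 2).2.trans (by linarith)⟩
  · exact ⟨(key hs2 hM₂0 hRv 1).1, (key hs2 hM₂0 hRv 1).2.trans (by linarith)⟩
  · exact ⟨(key hs2 hM₂0 hRv 2).1, (key hs2 hM₂0 hRv 2).2.trans (by linarith)⟩
  · exact ⟨(key hs2 hM₃0 hRRv 1).1, (key hs2 hM₃0 hRRv 1).2.trans (by linarith)⟩
  · exact ⟨(key hs2 hM₃0 hRRv 2).1, (key hs2 hM₃0 hRRv 2).2.trans (by linarith)⟩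

end D4

end Claimed.Open.R278
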