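import Claimed.Open.R278.IONDip

/-!
# Result 278, package BP-ION (ionic toolkit), file 5: the retained fast vector `G = gK b e` and `G♯ = B G`

Architect: helper24.  Paper: 02-channels.tex (3.6), (3.7) (`eq:unperturbed-fibers`, `eq:core-spin-components`), (3.36).  SORRY-FREE (helper24).  Helper lemmas: prefix `ionf_`.

`fastU b e σ` (`σ = ![1,0]` or `![0,0]`) `= sdet ![b, e] σ = Φ_{bσ₀, eσ₁}`;  `gK b e = ↑ ⊗ Φ_{b↓,e↑} - ↓ ⊗ Φ_{b↑,e↑}` (`CHXDefs.lean`).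

## ION-F2 (`fastU_eig`): NO FUBINI.  `u = fastU b e σ ∈ H1A 2`, `⟪φ₀,u⟫ = 0` (parity), `q₀[u] = (ε_b+ε_e)‖u‖²` (`energy_zero_sdet`) and `q₀ ≥ ε_b+ε_e` on `H1A 2 ∩ φ₀^⊥`
 (`TwoCentre.gap2`).  So `N' = q₀ - (ε_b+ε_e)` is a nonnegative Hermitian form on the subspace `V₀ = H1A 2 ∩ φ₀^⊥` with `N'[u] = 0`: `N'(Ξ,u) = 0` on `V₀`
 (`HermForm.cauchy_schwarz` on `V₀`, or `sesq_eq_zero_of_self_eq_zero` of `FormLemmas.lean`).  For `Ξ = φ₀`: `q₀(φ₀,u) = conj q₀(u,φ₀) = conj (2ε_b⟪u,φ₀⟫) = 0` (`TwoCentre.phiZero_eig`).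
## ION-F3: `q_t = q₀ + t·repForm` (`sesqForm_scaled`), `repForm Ξ u = ⟪Ξ, repulsion·u⟫` with `repulsion·u ∈ L²` (Hardy, `hardy_pair`); `IsRedRes.bridge`; `⟪φ_t,u⟫ = 0` by parity.
-/

open MeasureTheory Filter
open scoped ContDiff InnerProductSpace ComplexConjugate ENNReal Topology

noncomputable section

namespace Claimed.Open.R278

open AG (Fib)

/-! ## Definitions -/

/-- the two-electron determinant `Φ_{bσ₀, eσ₁}`. -/
def fastU (b e : Space → ℝ) (σ : SpinConfig 2) : L2 2 := sdet ![toOrb b, toOrb e] σ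

/-- `|y₁-y₂|⁻¹ G`. -/
def ionRepG (b e : Space → ℝ) : Fib :=
  fibEmb 0 (mulL2 repulsion (fastU b e ![1, 0])) - fibEmb 1 (mulL2 repulsion (fastU b e ![0, 0]))

/-- `G♯ = B G = (ε_b + ε_e - E₂) G + t |y₁-y₂|⁻¹ G`. -/
def ionGs (b e : Space → ℝ) (εb εe t E₂ : ℝ) : Fib := (εb + εe - E₂) • gK b e + t • ionRepG b e

theorem gK_eq (b e : Space → ℝ) : gK b e = fibEmb 0 (fastU b e ![1, 0]) - fibEmb 1 (fastU b e ![0, 0]) := rfl

variable {b e : Space → ℝ} {εb εe : ℝ}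

/-! ## LEAF ION-F1: elementary properties of the determinants -/

section F1

theorem fastU_mem (h : TwoCentre b e εb εe) (σ : SpinConfig 2) : fastU b e σ ∈ H1A 2 := by
  obtain ⟨Gb, hb⟩ := h.data.orbital_b.exists_isOrbEig
  obtain ⟨Ge, he⟩ := h.data.orbital_e.exists_isOrbEig
  refine ⟨isAntisymmetric_sdet _ _, memH1_sdet (G := ![Gb, Ge]) (fun i => ?_) _⟩
  fin_cases i
  · exact hb.1
  · exact he.1

theorem fastU_odd (h : TwoCentre b e εb εe) (σ : SpinConfig 2) : HasReflectionParity (-1) (fastU b e σ) := by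
  have := hasReflectionParity_sdet (f := ![toOrb b, toOrb e]) (ε := ![1, -1])
    (fun i => by
      fin_cases i
      · exact h.mbz_refl_b
      · exact h.mbz_refl_e) σ
  simp only [Fin.prod_univ_two, Matrix.cons_val_zero, Matrix.cons_val_one, Matrix.cons_val_fin_one, one_mul,
    Complex.ofReal_neg, Complex.ofReal_one] at this
  exact this

theorem energy_fastU (h : TwoCentre b e εb εe) (σ : SpinConfig 2) :
    energy (scaledPotential 2 0) (fastU b e σ) = (εb + εe) * ‖fastU b e σ‖ ^ 2 := by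
  obtain ⟨Gb, hb⟩ := h.data.orbital_b.exists_isOrbEig
  obtain ⟨Ge, he⟩ := h.data.orbital_e.exists_isOrbEig
  have := energy_zero_sdet (g := ![toOrb b, toOrb e]) (G := ![Gb, Ge]) (ε := ![εb, εe])
    (fun i => by
      fin_cases i
      · exact hb
      · exact he) σ
  unfold fastU
  rw [this, Fin.sum_univ_two]
  simp

end F1

/-! ## LEAF ION-F2: the eigen-equation of the excited determinants -/

section F2

/-- abstract: a vector of `V ∩ φ^⊥` whose energy sits exactly at the gap is an eigenvector. -/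
theorem ionf_eig_of_gap {H : Type*} [NormedAddCommGroup H] [InnerProductSpace ℂ H] {V : Submodule ℂ H}
    {q : H → H → ℂ} {E c : ℝ} {φ u : H} (hq : HermForm V q) (hg : GapData V q E c φ) (hu : u ∈ V)
    (ho : ⟪φ, u⟫_ℂ = 0) (he : (q u u).re = (E + c) * ‖u‖ ^ 2) {Ξ : H} (hΞ : Ξ ∈ V) :
    q Ξ u = ((E + c : ℝ) : ℂ) * ⟪Ξ, u⟫_ℂ := by
  have hn : HermForm V (fun x y => q x y - ((E + c : ℝ) : ℂ) * ⟪x, y⟫_ℂ + (c : ℂ) * (⟪x, φ⟫_ℂ * ⟪φ, y⟫_ℂ)) :=
    { add_right := fun x hx y hy z hz => by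
        simp only [hq.add_right x hx y hy z hz, inner_add_right]; ring
      smul_right := fun a x hx y hy => by
        simp only [hq.smul_right a x hx y hy, inner_smul_right]; ring
      conj_symm := fun x hx y hy => by
        simp only [hq.conj_symm x hx y hy, map_sub, map_add, map_mul, Complex.conj_ofReal, inner_conj_symm]
        ring }
  have hre : ∀ x, (q x x - ((E + c : ℝ) : ℂ) * ⟪x, x⟫_ℂ + (c : ℂ) * (⟪x, φ⟫_ℂ * ⟪φ, x⟫_ℂ)).re
      = (q x x).re - (E + c) * ‖x‖ ^ 2 + c * ‖⟪φ, x⟫_ℂ‖ ^ 2 := by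
    intro x
    have e1 : ⟪x, φ⟫_ℂ * ⟪φ, x⟫_ℂ = ((‖⟪φ, x⟫_ℂ‖ ^ 2 : ℝ) : ℂ) := by
      rw [← inner_conj_symm x φ, mul_comm, Complex.mul_conj, Complex.normSq_eq_norm_sq]
    rw [Complex.add_re, iona_re_shift, e1, ← Complex.ofReal_mul, Complex.ofReal_re]
  have hpos : ∀ x ∈ V, 0 ≤ (q x x - ((E + c : ℝ) : ℂ) * ⟪x, x⟫_ℂ + (c : ℂ) * (⟪x, φ⟫_ℂ * ⟪φ, x⟫_ℂ)).re := by
    intro x hx
    rw [hre]
    linarith [hg.ge hq hx]
  have hcs := hn.cauchy_schwarz hpos hΞ hu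
  rw [hre u, he, ho] at hcs
  simp only [norm_zero, mul_zero, sub_self, add_zero] at hcs
  have h0 : ‖q Ξ u - ((E + c : ℝ) : ℂ) * ⟪Ξ, u⟫_ℂ‖ ^ 2 ≤ 0 := by
    refine hcs.trans (le_of_eq ?_)
    norm_num
  have h1 : ‖q Ξ u - ((E + c : ℝ) : ℂ) * ⟪Ξ, u⟫_ℂ‖ = 0 :=
    pow_eq_zero_iff two_ne_zero |>.mp (le_antisymm h0 (sq_nonneg _))
  exact sub_eq_zero.mp (norm_eq_zero.mp h1)

theorem ionf_gapData (h : TwoCentre b e εb εe) :
    GapData (H1A 2) (sesqForm (scaledPotential 2 0)) (2 * εb) (εe - εb) (phiZero b) where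
  c_pos := sub_pos.2 h.data.lt
  mem := h.phiZero_mem
  norm := h.norm_phiZero
  eig := fun Ξ hΞ => by
    have := h.phiZero_eig.2 Ξ ((mem_H1A_iff_formDomain 0).1 hΞ)
    exact_mod_cast this
  gap := fun Ξ hΞ ho => h.gap2 hΞ ho

theorem fastU_eig (h : TwoCentre b e εb εe) (σ : SpinConfig 2) {Ξ : L2 2} (hΞ : Ξ ∈ H1A 2) :
    sesqForm (scaledPotential 2 0) Ξ (fastU b e σ) = ((εb + εe : ℝ) : ℂ) * ⟪Ξ, fastU b e σ⟫_ℂ := by
  have h1 := ionf_eig_of_gap (ion_hermForm 0) (ionf_gapData h) (fastU_mem h σ)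
    (inner_eq_zero_of_parity h.phiZero_even (fastU_odd h σ))
    (by
      have := energy_fastU h σ
      unfold energy at this
      rw [this]; ring) hΞ
  rw [h1]
  congr 2
  ring

end F2

/-! ## LEAF ION-F3: `G = Rr G♯` -/

section F3

theorem ionf_repulsion_two (y : Config 2) : repulsion y = 1 / ‖y 0 - y 1‖ := by
  simp [repulsion, Fin.sum_univ_two]

/-- the repulsion maps `H¹` to `L²`. -/
theorem memLp_repulsion_smul {u : L2 2} (hu : MemH1 u) :
    MemLp (fun y => repulsion y • (u y : SpinSpace 2)) 2 volume := by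
  have hm : AEStronglyMeasurable (fun y => repulsion y • (u y : SpinSpace 2)) volume :=
    measurable_repulsion.aestronglyMeasurable.smul (L2.memLp u).1
  rw [memLp_two_iff_integrable_sq_norm hm]
  refine (hardy_pair hu (i := 0) (j := 1) (by decide)).1.congr (Eventually.of_forall fun y => ?_)
  show ‖u y‖ ^ 2 / ‖y 0 - y 1‖ ^ 2 = ‖repulsion y • (u y : SpinSpace 2)‖ ^ 2
  rw [norm_smul, ionf_repulsion_two, Real.norm_eq_abs, abs_of_nonneg (by positivity), mul_pow, div_pow]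
  ring

theorem repForm_eq_inner {Ξ u : L2 2} (hu : MemH1 u) : repForm Ξ u = ⟪Ξ, mulL2 repulsion u⟫_ℂ := by
  rw [L2.inner_eq]
  unfold repForm
  refine integral_congr_ae ?_
  filter_upwards [coeFn_mulL2' (memLp_repulsion_smul hu)] with y hy
  rw [hy, fs_inner_smul_right, Complex.real_smul]

theorem fastU_eq_ionR (h : TwoCentre b e εb εe) {t c E₂ : ℝ} {φ : L2 2} (hd : IonData t c E₂ φ)
    (σ : SpinConfig 2) :
    fastU b e σ = ionR t E₂ φ ((εb + εe - E₂) • fastU b e σ + t • mulL2 repulsion (fastU b e σ)) := by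
  have hu := fastU_mem h σ
  have hb := hd.isRedRes.bridge (ion_hermForm t) hd.gapData (u := fastU b e σ)
    (g := (εb + εe - E₂) • fastU b e σ + t • mulL2 repulsion (fastU b e σ)) hu (fun Ξ hΞ => by
      rw [sesqForm_scaled t hΞ.2 hu.2, fastU_eig h σ hΞ, repForm_eq_inner hu.2, inner_add_right,
        fs_inner_smul_right, fs_inner_smul_right, Complex.real_smul, Complex.real_smul]
      push_cast
      ring)
  have ho : ⟪φ, fastU b e σ⟫_ℂ = 0 := inner_eq_zero_of_parity hd.even (fastU_odd h σ)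
  rw [← hb.2, ho, zero_smul, sub_zero]

end F3

/-! ## Consequences for `G` (glue, proved) -/

theorem gK_eq_ionRr (h : TwoCentre b e εb εe) {t c E₂ : ℝ} {φ : L2 2} (hd : IonData t c E₂ φ) :
    gK b e = ionRr t E₂ φ (ionGs b e εb εe t E₂) := by
  have e1 : ionGs b e εb εe t E₂ =
      fibEmb 0 ((εb + εe - E₂) • fastU b e ![1, 0] + t • mulL2 repulsion (fastU b e ![1, 0]))
        - fibEmb 1 ((εb + εe - E₂) • fastU b e ![0, 0] + t • mulL2 repulsion (fastU b e ![0, 0])) := by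
    have hr : ∀ (σ : Fin 2) (r : ℝ) (u : L2 2), fibEmb σ (r • u) = r • fibEmb σ u := fun σ r u =>
      (fibEmb σ).map_smul_of_tower r u
    simp only [ionGs, gK_eq, ionRepG, map_add, hr, smul_sub]
    abel
  rw [e1, map_sub, ionRr, liftOp_fibEmb, liftOp_fibEmb, ← fastU_eq_ionR h hd, ← fastU_eq_ionR h hd, gK_eq]

theorem ionGs_close (b e : Space → ℝ) (εb εe : ℝ) {t : ℝ} (ht : 0 ≤ t) (E₂ : ℝ) :
    ‖(εb + εe - E₂) • gK b e - ionGs b e εb εe t E₂‖ ≤ ‖ionRepG b e‖ * t := by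
  rw [ionGs, sub_add_cancel_left, norm_neg, norm_smul, Real.norm_eq_abs, abs_of_nonneg ht, mul_comm]

/-- `G ⟂ φ_t` at every coupling. -/
theorem inner_ionPhi_gK (h : TwoCentre b e εb εe) {t c E₂ : ℝ} {φ : L2 2} (hd : IonData t c E₂ φ) :
    ⟪ionPhi φ, gK b e⟫_ℂ = 0 := by
  rw [ionPhi, gK_eq, inner_sub_right, inner_fibEmb_fibEmb, inner_fibEmb_fibEmb_of_ne (by decide), sub_zero]
  exact inner_eq_zero_of_parity hd.even (fastU_odd h _)

end Claimed.Open.R278
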