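import Claimed.Open.R278.MBAbs
import Claimed.Open.R278.TopDefs
import Claimed.Open.R278.FSHardy

/-!
# Result 278, layer L2a (BP-MB1): the Coulomb forms on `L2 m` as closed forms

Architect: helper51.  No paper needed.  Built on the FS kit (`FSBridge.lean`: `kin`, `IsWeakGradient.of_tendsto`; `FSHardy.lean`: `coulomb_particle`,
`integral_repulsion_le`, `integral_nuclear_le`, `integrable_scaledPotential_inner`, `mem_formDomain_scaledPotential_iff`).
Helper lemmas: prefix `mbf_`.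

Contents: `h1sq`, `repForm`, form bounds with explicit constants, closedness of antisymmetry / sectors, `H1A`, `sectorSub`, `H1S`,
`hermForm_scaled`, `hermForm_rep`, `sesqForm_scaled` (`q_t = q_0 + t v`), `le_formNorm`, `formNorm_le`, **`closedForm_scaled`** (`K = 16 m + 1`).
-/

open MeasureTheory Filter
open scoped ContDiff InnerProductSpace ComplexConjugate ENNReal Topology

noncomputable section

namespace Claimed.Open.R278

variable {m : ℕ}

/-- the nuclear attraction of the scaled problem (`CHDefs.lean` has the same abbreviation as a global name). -/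
local notation "uD" => nuclearPotential 1 bigD

/-! ## BOUNDS -/

/-- the squared `H¹` norm. -/
def h1sq (Ψ : L2 m) : ℝ := ‖Ψ‖ ^ 2 + kin Ψ

/-- the form of the electron repulsion. -/
def repForm (Ξ Φ : L2 m) : ℂ := ∫ x, (repulsion x : ℂ) * ⟪Ξ x, Φ x⟫_ℂ

theorem measurable_uD : Measurable uD := measurable_nuclearPotential 1 bigD

theorem uD_nonpos (x : Space) : uD x ≤ 0 := by
  unfold nuclearPotential
  have h1 : 0 ≤ 1 / ‖x - bigD • ez‖ := by positivity
  have h2 : 0 ≤ 1 / ‖x + bigD • ez‖ := by positivity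
  linarith

theorem mbf_uD_mul (x : Space) (a : ℝ) :
    uD x * a = -(a / ‖x - bigD • ez‖) - a / ‖x - -(bigD • ez)‖ := by
  unfold nuclearPotential
  rw [sub_neg_eq_add]
  ring

theorem integrable_uD_mul {Ψ : L2 m} (h : MemH1 Ψ) (i : Fin m) :
    Integrable (fun x : Config m => uD (x i) * ‖Ψ x‖ ^ 2) := by
  simp only [mbf_uD_mul]
  exact (coulomb_particle h i (bigD • ez)).1.neg.sub (coulomb_particle h i (-(bigD • ez))).1

theorem integrable_repulsion_mul {Ψ : L2 m} (h : MemH1 Ψ) :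
    Integrable (fun x : Config m => repulsion x * ‖Ψ x‖ ^ 2) :=
  (integral_repulsion_le h one_pos).1

/-- infinitesimal form bound of the nuclear attraction, one particle. -/
theorem uD_bound_one {Ψ : L2 m} (h : MemH1 Ψ) (i : Fin m) :
    -((1 / 4) * ∑ c : Fin 3, ‖weakGrad Ψ (i, c)‖ ^ 2 + 16 * ‖Ψ‖ ^ 2) ≤ ∫ x : Config m, uD (x i) * ‖Ψ x‖ ^ 2 := by
  obtain ⟨hi1, hb1⟩ := coulomb_particle h i (bigD • ez)
  obtain ⟨hi2, hb2⟩ := coulomb_particle h i (-(bigD • ez))
  have e : (∫ x : Config m, uD (x i) * ‖Ψ x‖ ^ 2) =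
      -(∫ x : Config m, ‖Ψ x‖ ^ 2 / ‖x i - bigD • ez‖) - ∫ x : Config m, ‖Ψ x‖ ^ 2 / ‖x i - -(bigD • ez)‖ := by
    simp only [mbf_uD_mul]
    rw [← integral_neg]
    exact integral_sub hi1.neg hi2
  rw [e]
  have hk : (∑ c : Fin 3, ‖weakGrad Ψ (i, c)‖ ^ 2) = kinOf Ψ i := rfl
  rw [hk]
  have hs : √(kinOf Ψ i) ^ 2 = kinOf Ψ i := Real.sq_sqrt (kinOf_nonneg Ψ i)
  have h3 : ‖Ψ‖ * √(kinOf Ψ i) ≤ (1 / 8) * kinOf Ψ i + 2 * ‖Ψ‖ ^ 2 := by
    nlinarith [sq_nonneg (√(kinOf Ψ i) - 4 * ‖Ψ‖)]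
  have h4 : 0 ≤ ‖Ψ‖ ^ 2 := by positivity
  linarith

/-- infinitesimal form bound of the nuclear attraction. -/
theorem uD_bound {Ψ : L2 m} (h : MemH1 Ψ) :
    -((1 / 4) * kin Ψ + 16 * m * ‖Ψ‖ ^ 2) ≤ ∫ x : Config m, oneBodyPotential uD x * ‖Ψ x‖ ^ 2 := by
  obtain ⟨hi, hb⟩ := integral_nuclear_le 1 bigD h (δ := 1 / 4) (by norm_num)
  have e : (fun x : Config m => |oneBodyPotential uD x| * ‖Ψ x‖ ^ 2) =
      fun x : Config m => ‖oneBodyPotential uD x * ‖Ψ x‖ ^ 2‖ := by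
    funext x
    rw [Real.norm_eq_abs, abs_mul, abs_of_nonneg (sq_nonneg ‖Ψ x‖)]
  have h1 : -(∫ x : Config m, |oneBodyPotential uD x| * ‖Ψ x‖ ^ 2) ≤
      ∫ x : Config m, oneBodyPotential uD x * ‖Ψ x‖ ^ 2 := by
    rw [e]
    have := norm_integral_le_integral_norm (μ := volume) (fun x : Config m => oneBodyPotential uD x * ‖Ψ x‖ ^ 2)
    rw [Real.norm_eq_abs] at this
    linarith [neg_abs_le (∫ x : Config m, oneBodyPotential uD x * ‖Ψ x‖ ^ 2)]
  have h4 : 0 ≤ (m : ℝ) * ‖Ψ‖ ^ 2 := by positivity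
  have h5 : (m : ℝ) * 1 ^ 2 / (1 / 4) * ‖Ψ‖ ^ 2 = 4 * ((m : ℝ) * ‖Ψ‖ ^ 2) := by ring
  rw [h5] at hb
  linarith

theorem repForm_self (Ψ : L2 m) : repForm Ψ Ψ = ((∫ x : Config m, repulsion x * ‖Ψ x‖ ^ 2 : ℝ) : ℂ) := by
  unfold repForm
  rw [← integral_complex_ofReal]
  refine integral_congr_ae (Eventually.of_forall fun x => ?_)
  simp only
  rw [inner_self_eq_norm_sq_to_K]
  push_cast
  rfl

theorem repForm_nonneg (Ψ : L2 m) : 0 ≤ (repForm Ψ Ψ).re := by
  rw [repForm_self, Complex.ofReal_re]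
  exact integral_nonneg fun x => mul_nonneg (repulsion_nonneg x) (sq_nonneg _)

theorem h1sq_nonneg (Ψ : L2 m) : 0 ≤ h1sq Ψ := add_nonneg (sq_nonneg _) (kin_nonneg Ψ)

/-- form bound of the repulsion. -/
theorem repForm_le {Ψ : L2 m} (h : MemH1 Ψ) : (repForm Ψ Ψ).re ≤ ((m : ℝ) ^ 3 + 1) * h1sq Ψ := by
  rw [repForm_self, Complex.ofReal_re]
  have hb := (integral_repulsion_le h one_pos).2
  unfold h1sq
  have h1 : 0 ≤ (m : ℝ) ^ 3 * kin Ψ := mul_nonneg (by positivity) (kin_nonneg Ψ)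
  have h2 : 0 ≤ ‖Ψ‖ ^ 2 := sq_nonneg _
  nlinarith

/-! ## LIMITS -/

theorem mbf_exists_ae_subseq {u : ℕ → L2 m} {x : L2 m} (hu : Tendsto u atTop (𝓝 x)) :
    ∃ ns : ℕ → ℕ, StrictMono ns ∧
      ∀ᵐ y : Config m, Tendsto (fun k => (u (ns k) : Config m → SpinSpace m) y) atTop (𝓝 (x y)) :=
  (tendstoInMeasure_of_tendsto_Lp hu).exists_seq_tendsto_ae

theorem isClosed_antisymmetric : IsClosed {Ψ : L2 m | IsAntisymmetric Ψ} := by
  refine IsSeqClosed.isClosed fun u x hu hx π => ?_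
  obtain ⟨ns, -, hns⟩ := mbf_exists_ae_subseq hx
  have h1 : ∀ᵐ y : Config m, ∀ k, ∀ s : SpinConfig m,
      u (ns k) (y ∘ π) (s ∘ π) = ((Equiv.Perm.sign π : ℤ) : ℂ) * u (ns k) y s :=
    ae_all_iff.2 fun k => hu (ns k) π
  have h2 : ∀ᵐ y : Config m,
      Tendsto (fun k => (u (ns k) : Config m → SpinSpace m) (y ∘ π)) atTop (𝓝 (x (y ∘ π))) :=
    (measurePreserving_comp_perm π).quasiMeasurePreserving.ae hns
  filter_upwards [hns, h1, h2] with y hy h1y h2y s
  have c1 : Tendsto (fun k => (u (ns k) : Config m → SpinSpace m) (y ∘ π) (s ∘ π)) atTop (𝓝 (x (y ∘ π) (s ∘ π))) :=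
    ((EuclideanSpace.proj (𝕜 := ℂ) (s ∘ π)).continuous.tendsto _).comp h2y
  have c2 : Tendsto (fun k => ((Equiv.Perm.sign π : ℤ) : ℂ) * (u (ns k) : Config m → SpinSpace m) y s) atTop
      (𝓝 (((Equiv.Perm.sign π : ℤ) : ℂ) * x y s)) :=
    (((EuclideanSpace.proj (𝕜 := ℂ) s).continuous.tendsto _).comp hy).const_mul _
  refine tendsto_nhds_unique c1 (c2.congr fun k => (h1y k s).symm)

theorem isClosed_sector (μ : ℚ) : IsClosed {Ψ : L2 m | InSpinSector μ Ψ} := by
  refine IsSeqClosed.isClosed fun u x hu hx => ?_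
  obtain ⟨ns, -, hns⟩ := mbf_exists_ae_subseq hx
  have h1 : ∀ᵐ y : Config m, ∀ k, ∀ s : SpinConfig m, spinZ s ≠ μ → u (ns k) y s = 0 :=
    ae_all_iff.2 fun k => hu (ns k)
  filter_upwards [hns, h1] with y hy h1y s hs
  have c1 : Tendsto (fun k => (u (ns k) : Config m → SpinSpace m) y s) atTop (𝓝 (x y s)) :=
    ((EuclideanSpace.proj (𝕜 := ℂ) s).continuous.tendsto _).comp hy
  exact tendsto_nhds_unique c1 (tendsto_const_nhds.congr fun k => (h1y k s hs).symm)

/-! ## The closed forms -/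

/-- the antisymmetric part of `H¹`. -/
def H1A (m : ℕ) : Submodule ℂ (L2 m) where
  carrier := {Ψ | IsAntisymmetric Ψ ∧ MemH1 Ψ}
  add_mem' := fun h h' => ⟨h.1.add h'.1, h.2.add h'.2⟩
  zero_mem' := ⟨IsAntisymmetric.zero, MemH1.zero⟩
  smul_mem' := fun c _ h => ⟨h.1.smul c, h.2.smul c⟩

/-- the sector `S_z = μ`. -/
def sectorSub (m : ℕ) (μ : ℚ) : Submodule ℂ (L2 m) where
  carrier := {Ψ | InSpinSector μ Ψ}
  add_mem' := fun h h' => h.add h'
  zero_mem' := by
    show InSpinSector μ (0 : L2 m)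
    filter_upwards [Lp.coeFn_zero (SpinSpace m) 2 (volume : Measure (Config m))] with x hx s _
    rw [hx]; rfl
  smul_mem' := fun c _ h => InSpinSector.smul c h

theorem mem_H1A {Ψ : L2 m} : Ψ ∈ H1A m ↔ IsAntisymmetric Ψ ∧ MemH1 Ψ := Iff.rfl

theorem mem_sectorSub {μ : ℚ} {Ψ : L2 m} : Ψ ∈ sectorSub m μ ↔ InSpinSector μ Ψ := Iff.rfl

/-- all of `H¹` (no antisymmetry). -/
def H1S (m : ℕ) : Submodule ℂ (L2 m) where
  carrier := {Ψ | MemH1 Ψ}
  add_mem' := fun h h' => h.add h'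
  zero_mem' := MemH1.zero
  smul_mem' := fun c _ h => h.smul c

theorem mem_H1S {Ψ : L2 m} : Ψ ∈ H1S m ↔ MemH1 Ψ := Iff.rfl

theorem H1A_le_H1S : H1A m ≤ H1S m := fun _ h => h.2

theorem mem_H1A_iff_formDomain (t : ℝ) {Ψ : L2 m} : Ψ ∈ H1A m ↔ Ψ ∈ FormDomain (scaledPotential m t) :=
  mem_formDomain_scaledPotential_iff.symm

theorem HermForm.mono {H : Type*} [NormedAddCommGroup H] [InnerProductSpace ℂ H] {V V' : Submodule ℂ H}
    {q : H → H → ℂ} (h : HermForm V q) (hV : V' ≤ V) : HermForm V' q :=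
  ⟨fun x hx y hy z hz => h.add_right x (hV hx) y (hV hy) z (hV hz),
    fun c x hx y hy => h.smul_right c x (hV hx) y (hV hy),
    fun x hx y hy => h.conj_symm x (hV hx) y (hV hy)⟩

theorem HermForm.add {H : Type*} [NormedAddCommGroup H] [InnerProductSpace ℂ H] {V : Submodule ℂ H}
    {q q' : H → H → ℂ} (h : HermForm V q) (h' : HermForm V q') : HermForm V (fun x y => q x y + q' x y) :=
  ⟨fun x hx y hy z hz => by
      simp only [h.add_right x hx y hy z hz, h'.add_right x hx y hy z hz]; ring,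
    fun c x hx y hy => by simp only [h.smul_right c x hx y hy, h'.smul_right c x hx y hy]; ring,
    fun x hx y hy => by simp only [h.conj_symm x hx y hy, h'.conj_symm x hx y hy, map_add]⟩

theorem mbf_hermForm_pot {W : Config m → ℝ} (hW : AEStronglyMeasurable W volume)
    (hi : ∀ Ψ : L2 m, MemH1 Ψ → Integrable (fun x => W x * ‖Ψ x‖ ^ 2)) :
    HermForm (H1S m) (fun Ξ Φ : L2 m => ∫ x, (W x : ℂ) * ⟪Ξ x, Φ x⟫_ℂ) where
  add_right := fun Ξ hΞ Φ₁ h₁ Φ₂ h₂ => by
    show ∫ x, (W x : ℂ) * ⟪Ξ x, (Φ₁ + Φ₂ : L2 m) x⟫_ℂ = _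
    rw [← integral_add (integrable_W_inner hW (hi _ hΞ) (hi _ h₁)) (integrable_W_inner hW (hi _ hΞ) (hi _ h₂))]
    apply integral_congr_ae
    filter_upwards [Lp.coeFn_add Φ₁ Φ₂] with x hx
    rw [hx, Pi.add_apply, inner_add_right, mul_add]
  smul_right := fun c Ξ _ Φ _ => by
    show ∫ x, (W x : ℂ) * ⟪Ξ x, (c • Φ : L2 m) x⟫_ℂ = _
    rw [← integral_const_mul]
    apply integral_congr_ae
    filter_upwards [Lp.coeFn_smul c Φ] with x hx
    rw [hx, Pi.smul_apply, inner_smul_right]; ring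
  conj_symm := fun Ξ _ Φ _ => by
    show ∫ x, (W x : ℂ) * ⟪Φ x, Ξ x⟫_ℂ = conj (∫ x, (W x : ℂ) * ⟪Ξ x, Φ x⟫_ℂ)
    rw [← integral_conj]
    apply integral_congr_ae
    refine Filter.Eventually.of_forall fun x => ?_
    simp only [map_mul, Complex.conj_ofReal, inner_conj_symm]

theorem mbf_hermForm_kin :
    HermForm (H1S m) (fun Ξ Φ : L2 m => (1 / 2 : ℂ) * ∑ j, ⟪weakGrad Ξ j, weakGrad Φ j⟫_ℂ) where
  add_right := fun Ξ _ Φ₁ h₁ Φ₂ h₂ => by
    simp only [weakGrad_add h₁ h₂, Pi.add_apply, inner_add_right, Finset.sum_add_distrib]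
    ring
  smul_right := fun c Ξ _ Φ hΦ => by
    simp only [weakGrad_smul c hΦ, Pi.smul_apply, inner_smul_right, ← Finset.mul_sum]
    ring
  conj_symm := fun Ξ _ Φ _ => by
    have h2 : conj (1 / 2 : ℂ) = 1 / 2 := by
      rw [show (1 / 2 : ℂ) = ((1 / 2 : ℝ) : ℂ) by norm_num, Complex.conj_ofReal]
    simp only [map_mul, map_sum, inner_conj_symm, h2]

/-- sesquilinearity on all of `H¹` (the lemmas of `FormLemmas.lean` assume antisymmetry, which their proofs do not use). -/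
theorem hermForm_scaled_H1S (t : ℝ) : HermForm (H1S m) (sesqForm (scaledPotential m t)) :=
  mbf_hermForm_kin.add (mbf_hermForm_pot (measurable_scaledPotential t).aestronglyMeasurable
    fun _ h => integrable_scaledPotential t h)

theorem hermForm_rep_H1S : HermForm (H1S m) (repForm (m := m)) :=
  mbf_hermForm_pot measurable_repulsion.aestronglyMeasurable fun _ h => integrable_repulsion_mul h

theorem hermForm_scaled (t : ℝ) (S : Submodule ℂ (L2 m)) :
    HermForm (H1A m ⊓ S) (sesqForm (scaledPotential m t)) :=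
  (hermForm_scaled_H1S t).mono (inf_le_left.trans H1A_le_H1S)

theorem hermForm_rep (S : Submodule ℂ (L2 m)) : HermForm (H1A m ⊓ S) (repForm (m := m)) :=
  hermForm_rep_H1S.mono (inf_le_left.trans H1A_le_H1S)

theorem mbf_integrable_rep_inner {Ξ Φ : L2 m} (hΞ : MemH1 Ξ) (hΦ : MemH1 Φ) :
    Integrable (fun x => (repulsion x : ℂ) * ⟪Ξ x, Φ x⟫_ℂ) :=
  integrable_W_inner measurable_repulsion.aestronglyMeasurable (integrable_repulsion_mul hΞ)
    (integrable_repulsion_mul hΦ)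

/-- `q_t = q_0 + t v`. -/
theorem sesqForm_scaled (t : ℝ) {Ξ Φ : L2 m} (hΞ : MemH1 Ξ) (hΦ : MemH1 Φ) :
    sesqForm (scaledPotential m t) Ξ Φ = sesqForm (scaledPotential m 0) Ξ Φ + (t : ℂ) * repForm Ξ Φ := by
  have e : ∫ x, (scaledPotential m t x : ℂ) * ⟪Ξ x, Φ x⟫_ℂ =
      (∫ x, (scaledPotential m 0 x : ℂ) * ⟪Ξ x, Φ x⟫_ℂ) + (t : ℂ) * ∫ x, (repulsion x : ℂ) * ⟪Ξ x, Φ x⟫_ℂ := by
    rw [← integral_const_mul, ← integral_add (integrable_scaledPotential_inner 0 hΞ hΦ)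
      ((mbf_integrable_rep_inner hΞ hΦ).const_mul _)]
    refine integral_congr_ae (Eventually.of_forall fun x => ?_)
    simp only [scaledPotential]
    push_cast
    ring
  unfold sesqForm repForm
  rw [e]
  ring

theorem mbf_energy_scaled_eq (t : ℝ) {Ψ : L2 m} (h : MemH1 Ψ) :
    energy (scaledPotential m t) Ψ =
      (1 / 2) * kin Ψ + (∫ x, oneBodyPotential uD x * ‖Ψ x‖ ^ 2) + t * (repForm Ψ Ψ).re := by
  rw [energy_eq_kin, repForm_self, Complex.ofReal_re, ← integral_const_mul, add_assoc,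
    ← integral_add (integral_nuclear_le 1 bigD h one_pos).1 ((integrable_repulsion_mul h).const_mul _)]
  congr 1
  refine integral_congr_ae (Eventually.of_forall fun x => ?_)
  simp only [scaledPotential]
  ring

/-- lower comparison of the form norm with the `H¹` norm. -/
theorem le_formNorm {t : ℝ} (ht : 0 ≤ t) {Ψ : L2 m} (h : MemH1 Ψ) :
    (1 / 4) * kin Ψ + ‖Ψ‖ ^ 2 ≤ energy (scaledPotential m t) Ψ + (16 * m + 1) * ‖Ψ‖ ^ 2 := by
  rw [mbf_energy_scaled_eq t h]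
  have h1 := uD_bound h
  have h2 := mul_nonneg ht (repForm_nonneg Ψ)
  linarith

/-- upper comparison of the form norm with the `H¹` norm. -/
theorem formNorm_le {t : ℝ} (ht : 0 ≤ t) {Ψ : L2 m} (h : MemH1 Ψ) :
    energy (scaledPotential m t) Ψ + (16 * m + 1) * ‖Ψ‖ ^ 2 ≤ (16 * m + 1 + t * ((m : ℝ) ^ 3 + 1)) * h1sq Ψ := by
  rw [mbf_energy_scaled_eq t h]
  have h1 : (∫ x, oneBodyPotential uD x * ‖Ψ x‖ ^ 2) ≤ 0 :=
    integral_nonpos fun x => mul_nonpos_of_nonpos_of_nonneg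
      (Finset.sum_nonpos fun i _ => uD_nonpos (x i)) (sq_nonneg _)
  have h2 := mul_le_mul_of_nonneg_left (repForm_le h) ht
  have h3 := kin_nonneg Ψ
  have h4 : 0 ≤ (m : ℝ) * kin Ψ := mul_nonneg (by positivity) h3
  unfold h1sq at h2 ⊢
  nlinarith

theorem mbf_weakGrad_sub {Ψ Φ : L2 m} (h : MemH1 Ψ) (h' : MemH1 Φ) :
    weakGrad (Ψ - Φ) = weakGrad Ψ - weakGrad Φ := by
  rw [sub_eq_add_neg, ← neg_one_smul ℂ Φ, weakGrad_add h (h'.smul _), weakGrad_smul _ h', neg_one_smul,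
    ← sub_eq_add_neg]

theorem mbf_memH1_sub {Ψ Φ : L2 m} (h : MemH1 Ψ) (h' : MemH1 Φ) : MemH1 (Ψ - Φ) := by
  rw [sub_eq_add_neg, ← neg_one_smul ℂ Φ]
  exact h.add (h'.smul _)

/-- **the scaled Coulomb forms are closed** on `H¹_a ∩ S` for every closed subspace `S`. -/
theorem closedForm_scaled {t : ℝ} (ht : 0 ≤ t) (S : Submodule ℂ (L2 m)) (hS : IsClosed (S : Set (L2 m))) :
    ClosedForm (H1A m ⊓ S) (sesqForm (scaledPotential m t)) (16 * m + 1) where
  toHermForm := hermForm_scaled t S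
  pos := fun x hx => by
    have := le_formNorm ht hx.1.2
    have h2 := kin_nonneg x
    unfold energy at this
    linarith
  complete := fun u hu hC => by
    have hH : ∀ n, MemH1 (u n) := fun n => (hu n).1.2
    have hlow : ∀ n k, (1 / 4) * kin (u n - u k) + ‖u n - u k‖ ^ 2 ≤
        (sesqForm (scaledPotential m t) (u n - u k) (u n - u k)).re + (16 * m + 1) * ‖u n - u k‖ ^ 2 :=
      fun n k => le_formNorm ht (mbf_memH1_sub (hH n) (hH k))
    -- Cauchy in `L²`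
    have hcu : CauchySeq u := by
      refine Metric.cauchySeq_iff.2 fun ε hε => ?_
      obtain ⟨N, hN⟩ := hC (ε ^ 2) (by positivity)
      refine ⟨N, fun n hn k hk => ?_⟩
      have h1 := hN n hn k hk
      have h2 := hlow n k
      have h3 := kin_nonneg (u n - u k)
      rw [dist_eq_norm]
      exact lt_of_pow_lt_pow_left₀ 2 hε.le (by linarith)
    have hcG : ∀ j, CauchySeq (fun n => weakGrad (u n) j) := by
      intro j
      refine Metric.cauchySeq_iff.2 fun ε hε => ?_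
      obtain ⟨N, hN⟩ := hC (ε ^ 2 / 4) (by positivity)
      refine ⟨N, fun n hn k hk => ?_⟩
      have h1 := hN n hn k hk
      have h2 := hlow n k
      have h3 : ‖weakGrad (u n) j - weakGrad (u k) j‖ ^ 2 ≤ kin (u n - u k) := by
        unfold kin
        rw [mbf_weakGrad_sub (hH n) (hH k)]
        exact Finset.single_le_sum (f := fun j => ‖(weakGrad (u n) - weakGrad (u k)) j‖ ^ 2)
          (fun _ _ => sq_nonneg _) (Finset.mem_univ j)
      have h4 : 0 ≤ ‖u n - u k‖ ^ 2 := sq_nonneg _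
      rw [dist_eq_norm]
      exact lt_of_pow_lt_pow_left₀ 2 hε.le (by linarith)
    obtain ⟨x, hx⟩ := cauchySeq_tendsto_of_complete hcu
    choose G hG using fun j => cauchySeq_tendsto_of_complete (hcG j)
    have hxG : IsWeakGradient x G := IsWeakGradient.of_tendsto (fun n => (hH n).isWeakGradient) hx hG
    have hxH : MemH1 x := ⟨G, hxG⟩
    have hxa : IsAntisymmetric x :=
      isClosed_antisymmetric.mem_of_tendsto hx (Eventually.of_forall fun n => (hu n).1.1)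
    have hxS : x ∈ S := hS.mem_of_tendsto hx (Eventually.of_forall fun n => (hu n).2)
    refine ⟨x, ⟨⟨hxa, hxH⟩, hxS⟩, ?_⟩
    have hlim : Tendsto (fun n => (16 * m + 1 + t * ((m : ℝ) ^ 3 + 1)) * h1sq (u n - x)) atTop (𝓝 0) := by
      have h1 : Tendsto (fun n => ‖u n - x‖ ^ 2) atTop (𝓝 0) := by
        have := (tendsto_iff_norm_sub_tendsto_zero.1 hx).pow 2
        simpa using this
      have h2 : Tendsto (fun n => kin (u n - x)) atTop (𝓝 0) := by
        have : ∀ n, kin (u n - x) = ∑ j, ‖weakGrad (u n) j - G j‖ ^ 2 := fun n => by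
          unfold kin
          rw [mbf_weakGrad_sub (hH n) hxH, hxG.weakGrad_eq]
          rfl
        simp only [this]
        have h3 : ∀ j ∈ (Finset.univ : Finset (Fin m × Fin 3)),
            Tendsto (fun n => ‖weakGrad (u n) j - G j‖ ^ 2) atTop (𝓝 0) := fun j _ => by
          have := (tendsto_iff_norm_sub_tendsto_zero.1 (hG j)).pow 2
          simpa using this
        simpa using tendsto_finsetSum _ h3
      have := (h1.add h2).const_mul (16 * m + 1 + t * ((m : ℝ) ^ 3 + 1))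
      simpa [h1sq] using this
    refine squeeze_zero (fun n => ?_) (fun n => formNorm_le ht (mbf_memH1_sub (hH n) hxH)) hlim
    have h1 := le_formNorm ht (mbf_memH1_sub (hH n) hxH)
    have h2 := kin_nonneg (u n - x)
    have h3 : 0 ≤ ‖u n - x‖ ^ 2 := sq_nonneg _
    unfold energy at h1
    linarith

end Claimed.Open.R278
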