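import Claimed.Open.R278.IONAbs
import Claimed.Open.R278.MBForm
import Claimed.Open.R278.AGKernel

/-!
# Result 278, package BP-ION (ionic toolkit), file 3: the ionic reduced resolvent on `L2 2` and exponential localisation FROM THE GAP ONLY

Architect: helper24.  Paper: 02-channels.tex l. 328-353 (`eq:weighted-ionic-inverse`); the contour / Combes-Thomas argument of the paper is REPLACED by the elementary
argument below (no spectral theory, no HVZ, no exterior bound for the ion).  SORRY-FREE (helper24).  Helper lemmas: prefix `ionl_`.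

* `IonData t c E₂ φ`: what we use about the ionic ground state (items of `IsRegular` / `SmallCoupling`, with an EXPLICIT gap `c`).
* `ionR t E₂ φ : L2 2 →L[ℂ] L2 2`: the reduced resolvent of the closed form `sesqForm (scaledPotential 2 t)` on `H1A 2` (`IONAbs`, `closedForm_scaled`).
* `ExpBdd s M u`: `e^{sϱ} u ∈ L²` with norm `≤ M`, `ϱ = AG.rho`.
* `IonData.expBdd_phi`: if `s² ≤ c` and `∫_{ϱ>R} |φ|² ≤ 1/8` then `‖e^{sϱ}φ‖ ≤ 3 e^{sR}`.
* `IonData.expBdd_R`: `‖e^{sϱ} R v‖ ≤ (2/c)(‖e^{sϱ}v‖ + 2‖e^{sϱ}φ‖‖v‖)` (same exponent, no loss).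

PROOFS.  `χ_n = ionWt s n = exp (s · AG.trunc (n+1) ϱ)` is smooth, bounded, permutation symmetric and `∑_j (∂_jχ_n)² ≤ s² χ_n²` (`AG.truncWeight_props`, `AG.contDiff_rho`,
`AG.sum_dd_rho_sq_le`).  `M_n = mulL2 χ_n` is symmetric, preserves `H1A 2` (`mulL2_mem_formDomain`), and `ims_agmon` gives the IMS inequality with `a = s²/2 ≤ c/2`.
 φ: `⟪φ,M_nφ⟫ = ∫ χ_n|φ|² ≤ e^{sR} ∫_{ϱ≤R}|φ|² + (∫_{ϱ>R}|φ|²)^{1/2} ‖χ_nφ‖`; `GapData.agmon_phi'` with `A = e^{sR}`: `‖χ_nφ‖² ≤ 8e^{2sR}` for all `n`; `AG.memLp_of_trunc_bound`.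
 R v: `IsRedRes.agmon'`, `‖χ_n v‖ ≤ ‖e^{sϱ}v‖`, `‖χ_nφ‖ ≤ ‖e^{sϱ}φ‖` (`AG.trunc_le_self`); `AG.memLp_of_trunc_bound`.
-/

open MeasureTheory Filter
open scoped ContDiff InnerProductSpace ComplexConjugate ENNReal Topology

noncomputable section

namespace Claimed.Open.R278

/-! ## Definitions -/

/-- the ionic ground state at coupling `t`, with explicit gap `c`. -/
structure IonData (t c E₂ : ℝ) (φ : L2 2) : Prop where
  t_nonneg : 0 ≤ t
  t_le : t ≤ 1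
  c_pos : 0 < c
  norm : ‖φ‖ = 1
  eig : φ ∈ Eigenspace (scaledPotential 2 t) E₂
  gap : ∀ Ξ ∈ FormDomain (scaledPotential 2 t), ⟪φ, Ξ⟫_ℂ = 0 →
    (E₂ + c) * ‖Ξ‖ ^ 2 ≤ energy (scaledPotential 2 t) Ξ
  singlet : IsSinglet φ
  even : HasReflectionParity 1 φ

open Classical in
/-- the ionic reduced resolvent `B_Q⁻¹ Q` on `L2 2` (extended by `0` to the non-antisymmetric vectors). -/
def ionR (t E₂ : ℝ) (φ : L2 2) : L2 2 →L[ℂ] L2 2 :=
  if h : ∃ R : L2 2 →L[ℂ] L2 2, IsRedRes (H1A 2) (sesqForm (scaledPotential 2 t)) E₂ φ R then h.choose else 0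

/-- `e^{sϱ} u ∈ L²` with norm `≤ M`. -/
def ExpBdd {E : Type*} [NormedAddCommGroup E] [InnerProductSpace ℂ E] [CompleteSpace E] (s M : ℝ)
    (u : Config 2 → E) : Prop :=
  MemLp (fun y => Real.exp (s * AG.rho y) • u y) 2 volume ∧
    AG.nsq volume (fun y => Real.exp (s * AG.rho y) • u y) ≤ M ^ 2

/-- the truncated exponential weights. -/
def ionWt (s : ℝ) (n : ℕ) (y : Config 2) : ℝ := Real.exp (s * AG.trunc ((n : ℝ) + 1) (AG.rho y))

/-! ## The abstract data (glue, proved) -/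

theorem ion_closedForm {t : ℝ} (ht : 0 ≤ t) :
    ClosedForm (H1A 2) (sesqForm (scaledPotential 2 t)) (16 * (2 : ℕ) + 1) := by
  have h := closedForm_scaled (m := 2) ht ⊤ isClosed_univ
  rwa [inf_top_eq] at h

theorem ion_hermForm (t : ℝ) : HermForm (H1A 2) (sesqForm (scaledPotential 2 t)) := by
  have h := hermForm_scaled (m := 2) t ⊤
  rwa [inf_top_eq] at h

theorem IonData.gapData {t c E₂ : ℝ} {φ : L2 2} (h : IonData t c E₂ φ) :
    GapData (H1A 2) (sesqForm (scaledPotential 2 t)) E₂ c φ where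
  c_pos := h.c_pos
  mem := (mem_H1A_iff_formDomain t).2 h.eig.1
  norm := h.norm
  eig := fun Ξ hΞ => h.eig.2 Ξ ((mem_H1A_iff_formDomain t).1 hΞ)
  gap := fun Ξ hΞ ho => h.gap Ξ ((mem_H1A_iff_formDomain t).1 hΞ) ho

theorem IonData.isRedRes {t c E₂ : ℝ} {φ : L2 2} (h : IonData t c E₂ φ) :
    IsRedRes (H1A 2) (sesqForm (scaledPotential 2 t)) E₂ φ (ionR t E₂ φ) := by
  have hex := (ion_closedForm h.t_nonneg).exists_redRes h.gapData
  rw [ionR, dif_pos hex]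
  exact hex.choose_spec

/-- `IsSimpleIsolatedGround` provides `IonData` for some gap. -/
theorem exists_ionData {t E₂ : ℝ} {φ : L2 2} (h0 : 0 ≤ t) (h1 : t ≤ 1)
    (hg : IsSimpleIsolatedGround (scaledPotential 2 t) Set.univ E₂ φ) (hs : IsSinglet φ)
    (he : HasReflectionParity 1 φ) : ∃ c, IonData t c E₂ φ := by
  obtain ⟨hn, -, heig, c, hc, hgap⟩ := hg
  exact ⟨c, h0, h1, hc, hn, heig, fun Ξ hΞ ho => hgap Ξ hΞ trivial ho, hs, he⟩

/-! ## LEAF ION-L1: multiplication operators on `L2 m` and the IMS identity in Agmon's form -/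

section L1

variable {m : ℕ}

/-- the analogue of `coeFn_mulL2` without boundedness. -/
theorem coeFn_mulL2' {χ : Config m → ℝ} {u : L2 m} (h : MemLp (fun y => χ y • (u y : SpinSpace m)) 2 volume) :
    (mulL2 χ u : Config m → SpinSpace m) =ᵐ[volume] fun y => χ y • u y := by
  rw [mulL2, dif_pos h]
  exact h.coeFn_toLp

theorem norm_mulL2_sq {χ : Config m → ℝ} {u : L2 m} (h : MemLp (fun y => χ y • (u y : SpinSpace m)) 2 volume) :
    ‖mulL2 χ u‖ ^ 2 = AG.nsq volume (fun y => χ y • (u y : SpinSpace m)) := by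
  rw [L2.norm_sq_eq]
  refine integral_congr_ae ?_
  filter_upwards [coeFn_mulL2' h] with y hy
  rw [hy]

theorem mulL2_symm {χ : Config m → ℝ} (hm : AEStronglyMeasurable χ volume) {C : ℝ} (hC : ∀ x, |χ x| ≤ C)
    (Ξ Φ : L2 m) : ⟪mulL2 χ Ξ, Φ⟫_ℂ = ⟪Ξ, mulL2 χ Φ⟫_ℂ := by
  rw [L2.inner_eq, L2.inner_eq]
  refine integral_congr_ae ?_
  filter_upwards [coeFn_mulL2 hm hC Ξ, coeFn_mulL2 hm hC Φ] with x h1 h2
  rw [h1, h2, fs_inner_smul_left, fs_inner_smul_right]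

/-- bounded multiplications commute. -/
theorem ionl_mulL2_comm {χ η : Config m → ℝ} (hm : AEStronglyMeasurable χ volume) {C : ℝ} (hC : ∀ x, |χ x| ≤ C)
    (hm' : AEStronglyMeasurable η volume) {C' : ℝ} (hC' : ∀ x, |η x| ≤ C') (Ψ : L2 m) :
    mulL2 χ (mulL2 η Ψ) = mulL2 η (mulL2 χ Ψ) := by
  refine Lp.ext ?_
  filter_upwards [coeFn_mulL2 hm hC (mulL2 η Ψ), coeFn_mulL2 hm' hC' Ψ, coeFn_mulL2 hm' hC' (mulL2 χ Ψ),
    coeFn_mulL2 hm hC Ψ] with x h1 h2 h3 h4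
  rw [h1, h2, h3, h4, smul_comm]

theorem ionl_norm_mulL2_sq {χ : Config m → ℝ} (hm : AEStronglyMeasurable χ volume) {C : ℝ} (hC : ∀ x, |χ x| ≤ C)
    (Ψ : L2 m) : ‖mulL2 χ Ψ‖ ^ 2 = ∫ x, χ x ^ 2 * ‖Ψ x‖ ^ 2 := by
  rw [L2.norm_sq_eq]
  refine integral_congr_ae ?_
  filter_upwards [coeFn_mulL2 hm hC Ψ] with x hx
  rw [hx, norm_smul, mul_pow, Real.norm_eq_abs, sq_abs]

theorem ionl_integrable_sq_mul {χ : Config m → ℝ} (hm : AEStronglyMeasurable χ volume) {C : ℝ} (hC : ∀ x, |χ x| ≤ C)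
    (Ψ : L2 m) : Integrable (fun x => χ x ^ 2 * ‖Ψ x‖ ^ 2) volume :=
  (L2.integrable_norm_sq Ψ).bdd_mul (c := C ^ 2) (hm.pow 2)
    (Eventually.of_forall fun x => by
      rw [Real.norm_eq_abs, abs_pow]
      exact pow_le_pow_left₀ (abs_nonneg _) (hC x) 2)

theorem ims_agmon {W : Config m → ℝ} {Ψ : L2 m} (hΨ : Ψ ∈ FormDomain W) {χ : Config m → ℝ}
    (hχ : ContDiff ℝ 1 χ) {C : ℝ} (h0 : ∀ x, |χ x| ≤ C) (h1 : ∀ x j, |fderiv ℝ χ x (dir j)| ≤ C) :
    (sesqForm W (mulL2 χ (mulL2 χ Ψ)) Ψ).re =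
      energy W (mulL2 χ Ψ) - (1 / 2) * ∫ x, (∑ j, fderiv ℝ χ x (dir j) ^ 2) * ‖Ψ x‖ ^ 2 := by
  have hH := hΨ.2.1
  have hcm : AEStronglyMeasurable χ (volume : Measure (Config m)) := hχ.continuous.aestronglyMeasurable
  have hdm : ∀ j, AEStronglyMeasurable (fun x => fderiv ℝ χ x (dir j)) (volume : Measure (Config m)) :=
    fun j => (fs_cont_d hχ _).aestronglyMeasurable
  set Φ := mulL2 χ Ψ with hΦ
  have hw1 := hH.isWeakGradient_mulL2 hχ h0 h1
  have hH1 : MemH1 Φ := ⟨_, hw1⟩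
  have hg1 : ∀ j, weakGrad Φ j = mulL2 (fun x => fderiv ℝ χ x (dir j)) Ψ + mulL2 χ (weakGrad Ψ j) :=
    fun j => congrFun hw1.weakGrad_eq j
  have hg2 : ∀ j, weakGrad (mulL2 χ Φ) j = mulL2 (fun x => fderiv ℝ χ x (dir j)) Φ + mulL2 χ (weakGrad Φ j) :=
    fun j => congrFun (hH1.isWeakGradient_mulL2 hχ h0 h1).weakGrad_eq j
  -- the kinetic terms
  have hkin : ∀ j, (⟪weakGrad (mulL2 χ Φ) j, weakGrad Ψ j⟫_ℂ).re
      = ‖weakGrad Φ j‖ ^ 2 - ‖mulL2 (fun x => fderiv ℝ χ x (dir j)) Ψ‖ ^ 2 := by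
    intro j
    set D := mulL2 (fun x => fderiv ℝ χ x (dir j)) Ψ with hD
    set G := weakGrad Ψ j with hG
    set Z := mulL2 (fun x => fderiv ℝ χ x (dir j)) Φ with hZ
    have e1 : mulL2 χ G = weakGrad Φ j - D := by rw [hg1 j]; abel
    have e2 : mulL2 χ D = Z := ionl_mulL2_comm hcm h0 (hdm j) (fun x => h1 x j) Ψ
    have e3 : ⟪mulL2 χ (weakGrad Φ j), G⟫_ℂ = ⟪weakGrad Φ j, weakGrad Φ j⟫_ℂ - ⟪weakGrad Φ j, D⟫_ℂ := by
      rw [mulL2_symm hcm h0, e1, inner_sub_right]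
    have e4 : ⟪weakGrad Φ j, D⟫_ℂ = ⟪D, D⟫_ℂ + ⟪G, Z⟫_ℂ := by
      rw [hg1 j, inner_add_left, mulL2_symm hcm h0, e2]
    have e5 : (⟪G, Z⟫_ℂ).re = (⟪Z, G⟫_ℂ).re := by rw [← inner_conj_symm G Z, Complex.conj_re]
    have e6 : ∀ u : L2 m, (⟪u, u⟫_ℂ).re = ‖u‖ ^ 2 := fun u => by
      have := @inner_self_eq_norm_sq ℂ _ _ _ _ u
      simpa using this
    rw [hg2 j, inner_add_left, e3, e4]
    simp only [Complex.add_re, Complex.sub_re, e5, e6]
    ring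
  -- the potential term
  have hpot : (∫ x, (W x : ℂ) * ⟪mulL2 χ Φ x, Ψ x⟫_ℂ) = ((∫ x, W x * ‖Φ x‖ ^ 2 : ℝ) : ℂ) := by
    rw [← integral_complex_ofReal]
    refine integral_congr_ae ?_
    filter_upwards [coeFn_mulL2 hcm h0 Φ, coeFn_mulL2 hcm h0 Ψ] with x e1 e2
    have e3 : ⟪Ψ x, Ψ x⟫_ℂ = ((‖Ψ x‖ ^ 2 : ℝ) : ℂ) := by
      rw [inner_self_eq_norm_sq_to_K]; norm_cast
    rw [e1, e2, fs_inner_smul_left, fs_inner_smul_left, e3, norm_smul, mul_pow,
      Real.norm_eq_abs, sq_abs]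
    simp only [Complex.real_smul]
    push_cast
    ring
  have hsum : ∫ x, (∑ j, fderiv ℝ χ x (dir j) ^ 2) * ‖Ψ x‖ ^ 2
      = ∑ j, ‖mulL2 (fun x => fderiv ℝ χ x (dir j)) Ψ‖ ^ 2 := by
    simp only [Finset.sum_mul]
    rw [integral_finsetSum _ fun j _ => ionl_integrable_sq_mul (hdm j) (fun x => h1 x j) Ψ]
    exact Finset.sum_congr rfl fun j _ => (ionl_norm_mulL2_sq (hdm j) (fun x => h1 x j) Ψ).symm
  rw [energy_eq_kin, kin, hsum]
  unfold sesqForm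
  rw [hpot, Complex.add_re, Complex.ofReal_re]
  have : ((1 / 2 : ℂ) * ∑ j, ⟪weakGrad (mulL2 χ Φ) j, weakGrad Ψ j⟫_ℂ).re
      = (1 / 2) * ∑ j, (⟪weakGrad (mulL2 χ Φ) j, weakGrad Ψ j⟫_ℂ).re := by
    rw [← Complex.re_sum]
    have : (1 / 2 : ℂ) = ((1 / 2 : ℝ) : ℂ) := by push_cast; rfl
    rw [this, Complex.re_ofReal_mul]
  rw [this]
  simp only [hkin, Finset.sum_sub_distrib]
  ring

theorem ims_agmon_le {W : Config m → ℝ} {Ψ : L2 m} (hΨ : Ψ ∈ FormDomain W) {χ : Config m → ℝ}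
    (hχ : ContDiff ℝ 1 χ) {C : ℝ} (h0 : ∀ x, |χ x| ≤ C) (h1 : ∀ x j, |fderiv ℝ χ x (dir j)| ≤ C) {a : ℝ}
    (ha : ∀ x, ∑ j, fderiv ℝ χ x (dir j) ^ 2 ≤ 2 * a * χ x ^ 2) :
    energy W (mulL2 χ Ψ) - a * ‖mulL2 χ Ψ‖ ^ 2 ≤ (sesqForm W (mulL2 χ (mulL2 χ Ψ)) Ψ).re := by
  have hcm : AEStronglyMeasurable χ (volume : Measure (Config m)) := hχ.continuous.aestronglyMeasurable
  have hdm : ∀ j, AEStronglyMeasurable (fun x => fderiv ℝ χ x (dir j)) (volume : Measure (Config m)) :=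
    fun j => (fs_cont_d hχ _).aestronglyMeasurable
  rw [ims_agmon hΨ hχ h0 h1, ionl_norm_mulL2_sq hcm h0]
  have hle : ∫ x, (∑ j, fderiv ℝ χ x (dir j) ^ 2) * ‖Ψ x‖ ^ 2 ≤ ∫ x, 2 * a * (χ x ^ 2 * ‖Ψ x‖ ^ 2) := by
    refine integral_mono ?_ ((ionl_integrable_sq_mul hcm h0 Ψ).const_mul _) fun x => ?_
    · simp only [Finset.sum_mul]
      exact integrable_finsetSum _ fun j _ => ionl_integrable_sq_mul (hdm j) (fun x => h1 x j) Ψ
    · have := mul_le_mul_of_nonneg_right (ha x) (sq_nonneg ‖Ψ x‖)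
      simpa [mul_assoc] using this
  rw [integral_const_mul] at hle
  linarith

end L1

/-! ## LEAF ION-L2: the weights -/

section L2

theorem rho_comp_perm {m : ℕ} (π : Equiv.Perm (Fin m)) (y : Config m) : AG.rho (y ∘ π) = AG.rho y := by
  unfold AG.rho
  congr 2
  exact Equiv.sum_comp π (fun i => ‖y i‖ ^ 2)

theorem ionl_rho_nonneg {m : ℕ} (y : Config m) : 0 ≤ AG.rho y := zero_le_one.trans (AG.one_le_rho y)

theorem ionl_continuous_rho {m : ℕ} : Continuous (AG.rho : Config m → ℝ) := AG.contDiff_rho.continuous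

/-- all the properties of the truncated weights (`AG.truncWeight_props` with `v = dir`, `ϱ = AG.rho`). -/
theorem ionWt_props {s : ℝ} (hs : 0 ≤ s) (n : ℕ) :
    ContDiff ℝ ∞ (ionWt s n) ∧ (∀ y, |ionWt s n y| ≤ Real.exp (s * ((n : ℝ) + 1)) + s * Real.exp (s * ((n : ℝ) + 1))) ∧
    (∀ y j, |fderiv ℝ (ionWt s n) y (dir j)| ≤ Real.exp (s * ((n : ℝ) + 1)) + s * Real.exp (s * ((n : ℝ) + 1))) ∧
    (∀ y, ∑ j, fderiv ℝ (ionWt s n) y (dir j) ^ 2 ≤ 2 * (s ^ 2 / 2) * ionWt s n y ^ 2) ∧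
    (∀ (π : Equiv.Perm (Fin 2)) y, ionWt s n (y ∘ π) = ionWt s n y) ∧
    (∀ y, 0 < ionWt s n y ∧ ionWt s n y ≤ Real.exp (s * AG.rho y)) := by
  have hM : (0 : ℝ) < (n : ℝ) + 1 := by positivity
  obtain ⟨h1, h2, h3⟩ := AG.truncWeight_props (v := (dir : Fin 2 × Fin 3 → Config 2)) AG.contDiff_rho
    ionl_rho_nonneg AG.sum_dd_rho_sq_le hs hM
  have he : (0 : ℝ) < Real.exp (s * ((n : ℝ) + 1)) := Real.exp_pos _
  have hse : 0 ≤ s * Real.exp (s * ((n : ℝ) + 1)) := by positivity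
  refine ⟨h1, fun y => (h2 y).trans (by linarith), fun y j => ?_, fun y => ?_, fun π y => ?_, fun y => ⟨Real.exp_pos _, ?_⟩⟩
  · have e1 : fderiv ℝ (ionWt s n) y (dir j) ^ 2 ≤ ∑ j, fderiv ℝ (ionWt s n) y (dir j) ^ 2 :=
      Finset.single_le_sum (f := fun j => fderiv ℝ (ionWt s n) y (dir j) ^ 2) (fun _ _ => sq_nonneg _)
        (Finset.mem_univ j)
    have e2 : ∑ j, fderiv ℝ (ionWt s n) y (dir j) ^ 2 ≤ s ^ 2 * ionWt s n y ^ 2 := h3 y
    have e3 : ionWt s n y ^ 2 ≤ Real.exp (s * ((n : ℝ) + 1)) ^ 2 := by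
      rw [← sq_abs (ionWt s n y)]
      exact pow_le_pow_left₀ (abs_nonneg _) (h2 y) 2
    have e4 : fderiv ℝ (ionWt s n) y (dir j) ^ 2 ≤ (s * Real.exp (s * ((n : ℝ) + 1))) ^ 2 := by
      rw [mul_pow]
      exact e1.trans (e2.trans (mul_le_mul_of_nonneg_left e3 (sq_nonneg _)))
    have e5 := abs_le_of_sq_le_sq e4 hse
    linarith
  · have e2 : ∑ j, fderiv ℝ (ionWt s n) y (dir j) ^ 2 ≤ s ^ 2 * ionWt s n y ^ 2 := h3 y
    linarith
  · unfold ionWt
    rw [rho_comp_perm]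
  · exact Real.exp_le_exp.2 (mul_le_mul_of_nonneg_left (AG.trunc_le_self hM (ionl_rho_nonneg y)) hs)

variable {E : Type*} [NormedAddCommGroup E] [InnerProductSpace ℂ E] [CompleteSpace E]

/-- removal of the truncation (`AG.memLp_of_trunc_bound`). -/
theorem expBdd_of_ionWt {s M : ℝ} (hs : 0 ≤ s) {u : Config 2 → E} (hu : MemLp u 2 volume)
    (h : ∀ n, AG.nsq volume (fun y => ionWt s n y • u y) ≤ M ^ 2) : ExpBdd s M u :=
  AG.memLp_of_trunc_bound ionl_continuous_rho ionl_rho_nonneg hs hu h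

theorem ExpBdd.nsq_ionWt_le {s M : ℝ} (hs : 0 ≤ s) {u : Config 2 → E} (hu : ExpBdd s M u) (n : ℕ) :
    AG.nsq volume (fun y => ionWt s n y • u y) ≤ M ^ 2 := by
  refine le_trans ?_ hu.2
  refine integral_mono_of_nonneg (Eventually.of_forall fun y => sq_nonneg _) (AG.integrable_norm_sq hu.1)
    (Eventually.of_forall fun y => ?_)
  obtain ⟨h1, h2⟩ := (ionWt_props hs n).2.2.2.2.2 y
  show ‖ionWt s n y • u y‖ ^ 2 ≤ ‖Real.exp (s * AG.rho y) • u y‖ ^ 2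
  rw [norm_smul, norm_smul, Real.norm_eq_abs, Real.norm_eq_abs, abs_of_pos h1, abs_of_pos (Real.exp_pos _)]
  exact pow_le_pow_left₀ (by positivity) (mul_le_mul_of_nonneg_right h2 (norm_nonneg _)) 2

theorem ExpBdd.mono {s M M' : ℝ} {u : Config 2 → E} (hu : ExpBdd s M u) (h0 : 0 ≤ M) (hM : M ≤ M') :
    ExpBdd s M' u :=
  ⟨hu.1, hu.2.trans (pow_le_pow_left₀ h0 hM 2)⟩

theorem ExpBdd.congr_ae {s M : ℝ} {u u' : Config 2 → E} (hu : ExpBdd s M u) (h : u =ᵐ[volume] u') :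
    ExpBdd s M u' := by
  have h' : (fun y => Real.exp (s * AG.rho y) • u y) =ᵐ[volume] fun y => Real.exp (s * AG.rho y) • u' y :=
    h.mono fun y hy => by simp only [hy]
  exact ⟨hu.1.ae_eq h', (AG.nsq_congr h').symm ▸ hu.2⟩

theorem ExpBdd.aestronglyMeasurable {s M : ℝ} {u : Config 2 → E} (hu : ExpBdd s M u) :
    AEStronglyMeasurable u volume := by
  have h1 : AEStronglyMeasurable (fun y => Real.exp (-(s * AG.rho y)) • (Real.exp (s * AG.rho y) • u y)) volume :=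
    (Real.continuous_exp.comp (continuous_const.mul ionl_continuous_rho).neg).aestronglyMeasurable.smul hu.1.1
  refine h1.congr (Eventually.of_forall fun y => ?_)
  show Real.exp (-(s * AG.rho y)) • (Real.exp (s * AG.rho y) • u y) = u y
  rw [smul_smul, ← Real.exp_add, neg_add_cancel, Real.exp_zero, one_smul]

/-- polynomial factors cost an arbitrarily small part of the exponent. -/
theorem ExpBdd.mul {s s' M B : ℝ} {a : ℕ} (hs : s' < s) {u : Config 2 → E} (hu : ExpBdd s M u)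
    {χ : Config 2 → ℝ} (hχm : AEStronglyMeasurable χ volume) (hχ : ∀ y, |χ y| ≤ B * AG.rho y ^ a) :
    ExpBdd s' (B * (a.factorial / (s - s') ^ a) * M) (fun y => χ y • u y) := by
  have hδ : 0 < s - s' := sub_pos.2 hs
  have hB : 0 ≤ B := by
    have h1 := (abs_nonneg _).trans (hχ 0)
    have h2 : 0 < AG.rho (0 : Config 2) ^ a := pow_pos (zero_lt_one.trans_le (AG.one_le_rho _)) a
    exact nonneg_of_mul_nonneg_left h1 h2
  set k : ℝ := B * (a.factorial / (s - s') ^ a) with hk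
  have hk0 : 0 ≤ k := by positivity
  have hpt : ∀ y, ‖Real.exp (s' * AG.rho y) • (χ y • u y)‖ ≤ k * ‖Real.exp (s * AG.rho y) • u y‖ := by
    intro y
    have hρ := ionl_rho_nonneg y
    have h1 := Real.pow_div_factorial_le_exp ((s - s') * AG.rho y) (by positivity) a
    have h2 : AG.rho y ^ a ≤ a.factorial / (s - s') ^ a * Real.exp ((s - s') * AG.rho y) := by
      rw [div_le_iff₀ (by positivity), mul_pow] at h1
      rw [div_mul_eq_mul_div, le_div_iff₀ (by positivity)]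
      linarith
    rw [norm_smul, norm_smul, norm_smul, Real.norm_eq_abs, Real.norm_eq_abs, Real.norm_eq_abs,
      abs_of_pos (Real.exp_pos _), abs_of_pos (Real.exp_pos _)]
    have h3 : |χ y| ≤ k * Real.exp ((s - s') * AG.rho y) := by
      calc |χ y| ≤ B * AG.rho y ^ a := hχ y
        _ ≤ B * (a.factorial / (s - s') ^ a * Real.exp ((s - s') * AG.rho y)) := mul_le_mul_of_nonneg_left h2 hB
        _ = k * Real.exp ((s - s') * AG.rho y) := by rw [hk]; ring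
    have h4 : Real.exp (s * AG.rho y) = Real.exp (s' * AG.rho y) * Real.exp ((s - s') * AG.rho y) := by
      rw [← Real.exp_add]; congr 1; ring
    rw [h4]
    calc Real.exp (s' * AG.rho y) * (|χ y| * ‖u y‖)
        ≤ Real.exp (s' * AG.rho y) * ((k * Real.exp ((s - s') * AG.rho y)) * ‖u y‖) :=
          mul_le_mul_of_nonneg_left (mul_le_mul_of_nonneg_right h3 (norm_nonneg _)) (Real.exp_pos _).le
      _ = _ := by ring
  have hmeas : AEStronglyMeasurable (fun y => Real.exp (s' * AG.rho y) • (χ y • u y)) volume :=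
    (Real.continuous_exp.comp (continuous_const.mul ionl_continuous_rho)).aestronglyMeasurable.smul
      (hχm.smul (ExpBdd.aestronglyMeasurable hu))
  refine ⟨hu.1.of_le_mul hmeas (Eventually.of_forall hpt), ?_⟩
  calc AG.nsq volume (fun y => Real.exp (s' * AG.rho y) • (χ y • u y))
      ≤ ∫ y, k ^ 2 * ‖Real.exp (s * AG.rho y) • u y‖ ^ 2 := by
        refine integral_mono_of_nonneg (Eventually.of_forall fun y => sq_nonneg _)
          ((AG.integrable_norm_sq hu.1).const_mul _) (Eventually.of_forall fun y => ?_)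
        show ‖Real.exp (s' * AG.rho y) • (χ y • u y)‖ ^ 2 ≤ k ^ 2 * ‖Real.exp (s * AG.rho y) • u y‖ ^ 2
        rw [← mul_pow]
        exact pow_le_pow_left₀ (norm_nonneg _) (hpt y) 2
    _ = k ^ 2 * AG.nsq volume (fun y => Real.exp (s * AG.rho y) • u y) := integral_const_mul _ _
    _ ≤ k ^ 2 * M ^ 2 := mul_le_mul_of_nonneg_left hu.2 (sq_nonneg _)
    _ = (k * M) ^ 2 := by ring

/-- exponent `0`. -/
theorem ExpBdd.memLp {M : ℝ} {u : Config 2 → E} (hu : ExpBdd 0 M u) :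
    MemLp u 2 volume ∧ AG.nsq volume u ≤ M ^ 2 := by
  have h := hu
  unfold ExpBdd at h
  simpa using h

end L2

/-! ## LEAF ION-L3: localisation of the ground state -/

section L3

/-- the three abstract hypotheses of `IONAbs`, section A3, for `M = mulL2 (ionWt s n)`, `a = s²/2`. -/
theorem ionl_agmon_hyp (t : ℝ) {s : ℝ} (hs : 0 ≤ s) (n : ℕ) :
    (∀ x y : L2 2, ⟪mulL2 (ionWt s n) x, y⟫_ℂ = ⟪x, mulL2 (ionWt s n) y⟫_ℂ) ∧
    (∀ x ∈ H1A 2, mulL2 (ionWt s n) x ∈ H1A 2) ∧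
    (∀ u ∈ H1A 2, (sesqForm (scaledPotential 2 t) (mulL2 (ionWt s n) u) (mulL2 (ionWt s n) u)).re
        - s ^ 2 / 2 * ‖mulL2 (ionWt s n) u‖ ^ 2
      ≤ (sesqForm (scaledPotential 2 t) (mulL2 (ionWt s n) (mulL2 (ionWt s n) u)) u).re) := by
  obtain ⟨h1, h2, h3, h4, h5, -⟩ := ionWt_props hs n
  have h1' : ContDiff ℝ 1 (ionWt s n) := h1.of_le (by exact_mod_cast le_top)
  refine ⟨fun x y => mulL2_symm h1.continuous.aestronglyMeasurable h2 x y, fun x hx => ?_, fun u hu => ?_⟩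
  · exact (mem_H1A_iff_formDomain t).2 (mulL2_mem_formDomain ((mem_H1A_iff_formDomain t).1 hx) h1' h2 h3 h5)
  · exact ims_agmon_le ((mem_H1A_iff_formDomain t).1 hu) h1' h2 h3 h4

theorem ionl_norm_ionWt_sq {s : ℝ} (hs : 0 ≤ s) (n : ℕ) (u : L2 2) :
    ‖mulL2 (ionWt s n) u‖ ^ 2 = AG.nsq volume (fun y => ionWt s n y • (u y : SpinSpace 2)) := by
  obtain ⟨h1, h2, -⟩ := ionWt_props hs n
  exact norm_mulL2_sq (memLp_smul_of_bdd h1.continuous.aestronglyMeasurable h2 u)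

theorem ionl_measurableSet_tail (R : ℝ) : MeasurableSet {y : Config 2 | R < AG.rho y} :=
  (isOpen_lt continuous_const ionl_continuous_rho).measurableSet

theorem IonData.expBdd_phi {t c E₂ : ℝ} {φ : L2 2} (h : IonData t c E₂ φ) {s R : ℝ} (hs : 0 ≤ s)
    (hsc : s ^ 2 ≤ c) (hR : ∫ y in {y : Config 2 | R < AG.rho y}, ‖φ y‖ ^ 2 ≤ 1 / 8) :
    ExpBdd s (3 * Real.exp (s * R)) (φ : Config 2 → SpinSpace 2) := by
  refine expBdd_of_ionWt hs (L2.memLp φ) fun n => ?_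
  obtain ⟨hMs, hMV, hIMS⟩ := ionl_agmon_hyp t hs n
  obtain ⟨w1, w2, -, -, -, w6⟩ := ionWt_props hs n
  have wm : AEStronglyMeasurable (ionWt s n) (volume : Measure (Config 2)) := w1.continuous.aestronglyMeasurable
  set S : Set (Config 2) := {y : Config 2 | R < AG.rho y} with hS
  have hSm : MeasurableSet S := ionl_measurableSet_tail R
  set T : ℝ := ∫ y in S, ‖φ y‖ ^ 2 with hT
  have hT0 : 0 ≤ T := integral_nonneg fun _ => sq_nonneg _
  -- the two indicator functions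
  set η : Config 2 → ℝ := S.indicator fun _ => 1 with hη
  set η' : Config 2 → ℝ := Sᶜ.indicator fun _ => 1 with hη'
  have ηm : AEStronglyMeasurable η (volume : Measure (Config 2)) :=
    (measurable_const.indicator hSm).aestronglyMeasurable
  have ηm' : AEStronglyMeasurable η' (volume : Measure (Config 2)) :=
    (measurable_const.indicator hSm.compl).aestronglyMeasurable
  have ηb : ∀ y, |η y| ≤ 1 := fun y => by
    by_cases hy : y ∈ S <;> simp [hη, hy]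
  have ηb' : ∀ y, |η' y| ≤ 1 := fun y => by
    by_cases hy : y ∈ S <;> simp [hη', hy]
  have hsplit : φ = mulL2 η' φ + mulL2 η φ := by
    refine Lp.ext ?_
    filter_upwards [Lp.coeFn_add (mulL2 η' φ) (mulL2 η φ), coeFn_mulL2 ηm ηb φ, coeFn_mulL2 ηm' ηb' φ]
      with y e1 e2 e3
    rw [e1, Pi.add_apply, e2, e3]
    by_cases hy : y ∈ S <;> simp [hη, hη', hy]
  have hn1 : ‖mulL2 η φ‖ ^ 2 = T := by
    rw [ionl_norm_mulL2_sq ηm ηb, hT, ← integral_indicator hSm]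
    refine integral_congr_ae (Eventually.of_forall fun y => ?_)
    by_cases hy : y ∈ S <;> simp [hη, hy]
  have hn2 : ‖mulL2 (ionWt s n) (mulL2 η' φ)‖ ^ 2 ≤ Real.exp (s * R) ^ 2 := by
    rw [ionl_norm_mulL2_sq wm w2]
    have hφ1 : ∫ y, ‖φ y‖ ^ 2 = 1 := by rw [← L2.norm_sq_eq, h.norm]; norm_num
    calc ∫ y, ionWt s n y ^ 2 * ‖mulL2 η' φ y‖ ^ 2 ≤ ∫ y, Real.exp (s * R) ^ 2 * ‖φ y‖ ^ 2 := by
          refine integral_mono_of_nonneg (Eventually.of_forall fun y => by positivity)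
            ((L2.integrable_norm_sq φ).const_mul _) ?_
          filter_upwards [coeFn_mulL2 ηm' ηb' φ] with y e3
          rw [e3]
          by_cases hy : y ∈ S
          · simp only [hη', Set.indicator, Set.mem_compl_iff, hy, not_true_eq_false, if_false, zero_smul,
              norm_zero]
            have : 0 ≤ Real.exp (s * R) ^ 2 * ‖φ y‖ ^ 2 := by positivity
            simpa using this
          · have hy' : AG.rho y ≤ R := not_lt.mp hy
            have e4 : ionWt s n y ≤ Real.exp (s * R) :=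
              (w6 y).2.trans (Real.exp_le_exp.2 (mul_le_mul_of_nonneg_left hy' hs))
            simp only [hη', Set.indicator, Set.mem_compl_iff, hy, not_false_eq_true, if_true, one_smul]
            exact mul_le_mul_of_nonneg_right (pow_le_pow_left₀ (w6 y).1.le e4 2) (sq_nonneg _)
      _ = Real.exp (s * R) ^ 2 := by rw [integral_const_mul, hφ1, mul_one]
  have hn2' : ‖mulL2 (ionWt s n) (mulL2 η' φ)‖ ≤ Real.exp (s * R) :=
    (pow_le_pow_iff_left₀ (norm_nonneg _) (Real.exp_pos _).le two_ne_zero).mp hn2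
  have hn1' : ‖mulL2 η φ‖ = √T := by
    rw [← hn1, Real.sqrt_sq (norm_nonneg _)]
  have hkey : ‖⟪φ, mulL2 (ionWt s n) φ⟫_ℂ‖ ≤ Real.exp (s * R) + √T * ‖mulL2 (ionWt s n) φ‖ := by
    have e1 : ⟪φ, mulL2 (ionWt s n) φ⟫_ℂ
        = ⟪mulL2 (ionWt s n) (mulL2 η' φ), φ⟫_ℂ + ⟪mulL2 η φ, mulL2 (ionWt s n) φ⟫_ℂ := by
      conv_lhs => rw [hsplit, inner_add_left]
      rw [hMs, ← hsplit]
    rw [e1]
    refine (norm_add_le _ _).trans (add_le_add ?_ ?_)
    · refine (norm_inner_le_norm _ _).trans ?_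
      rw [h.norm, mul_one]
      exact hn2'
    · refine (norm_inner_le_norm _ _).trans ?_
      rw [hn1']
  have hfin := GapData.agmon_phi' (ion_hermForm t) h.gapData hMs hMV hIMS (by linarith) (Real.exp_pos _).le
    (Real.sqrt_nonneg T) (by rw [Real.sq_sqrt hT0]; exact hR) hkey
  rw [← ionl_norm_ionWt_sq hs n φ]
  nlinarith [sq_nonneg (Real.exp (s * R))]

/-- the tails of an `L²` function tend to `0` (dominated convergence). -/
theorem exists_tail_le (φ : L2 2) {ε : ℝ} (hε : 0 < ε) :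
    ∃ R : ℝ, ∫ y in {y : Config 2 | R < AG.rho y}, ‖φ y‖ ^ 2 ≤ ε := by
  have h1 := tendsto_setIntegral_of_antitone (μ := (volume : Measure (Config 2)))
    (s := fun n : ℕ => {y : Config 2 | (n : ℝ) < AG.rho y}) (f := fun y => ‖φ y‖ ^ 2)
    (fun n => ionl_measurableSet_tail n)
    (fun n k hnk y hy => lt_of_le_of_lt (Nat.cast_le.mpr hnk : (n : ℝ) ≤ (k : ℝ)) hy)
    ⟨0, (L2.integrable_norm_sq φ).integrableOn⟩
  have h2 : (⋂ n : ℕ, {y : Config 2 | (n : ℝ) < AG.rho y}) = ∅ := by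
    ext y
    simp only [Set.mem_iInter, Set.mem_ofPred_eq, Set.mem_empty_iff_false, iff_false, not_forall, not_lt]
    exact exists_nat_ge _
  rw [h2, Measure.restrict_empty, integral_zero_measure] at h1
  obtain ⟨n, hn⟩ := (h1.eventually (gt_mem_nhds hε)).exists
  exact ⟨n, hn.le⟩

/-- stability of the tails: `∫_A |φ|² ≤ 2∫_A |φ₀|² + 2‖φ-φ₀‖²`. -/
theorem tail_le_of_close (φ φ₀ : L2 2) (A : Set (Config 2)) :
    (∫ y in A, ‖φ y‖ ^ 2) ≤ 2 * (∫ y in A, ‖φ₀ y‖ ^ 2) + 2 * ‖φ - φ₀‖ ^ 2 := by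
  have h1 : (∫ y in A, ‖(φ - φ₀ : L2 2) y‖ ^ 2) ≤ ‖φ - φ₀‖ ^ 2 := by
    rw [L2.norm_sq_eq]
    exact setIntegral_le_integral (L2.integrable_norm_sq _) (Eventually.of_forall fun _ => sq_nonneg _)
  have h2 : (∫ y in A, ‖φ y‖ ^ 2) ≤ ∫ y in A, (2 * ‖φ₀ y‖ ^ 2 + 2 * ‖(φ - φ₀ : L2 2) y‖ ^ 2) := by
    refine integral_mono_ae (L2.integrable_norm_sq φ).integrableOn
      (((L2.integrable_norm_sq φ₀).const_mul 2).add ((L2.integrable_norm_sq (φ - φ₀)).const_mul 2)).integrableOn ?_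
    refine ae_restrict_of_ae ?_
    filter_upwards [Lp.coeFn_sub φ φ₀] with y hy
    rw [hy, Pi.sub_apply]
    have e1 : ‖φ y‖ ≤ ‖φ₀ y‖ + ‖φ y - φ₀ y‖ := by
      have := norm_add_le (φ₀ y) (φ y - φ₀ y)
      rwa [add_sub_cancel] at this
    have e2 : ‖φ y‖ ^ 2 ≤ (‖φ₀ y‖ + ‖φ y - φ₀ y‖) ^ 2 := pow_le_pow_left₀ (norm_nonneg _) e1 2
    nlinarith [sq_nonneg (‖φ₀ y‖ - ‖φ y - φ₀ y‖)]
  rw [integral_add ((L2.integrable_norm_sq φ₀).const_mul 2).integrableOn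
    ((L2.integrable_norm_sq (φ - φ₀)).const_mul 2).integrableOn, integral_const_mul, integral_const_mul] at h2
  linarith

end L3

/-! ## LEAF ION-L4: the weighted reduced resolvent -/

section L4

theorem IonData.expBdd_R {t c E₂ : ℝ} {φ : L2 2} (h : IonData t c E₂ φ) {s M₀ M : ℝ} (hs : 0 ≤ s)
    (hsc : s ^ 2 ≤ c) (hM₀ : 0 ≤ M₀) (hM : 0 ≤ M) (hφ : ExpBdd s M₀ (φ : Config 2 → SpinSpace 2)) {v : L2 2}
    (hv : ExpBdd s M (v : Config 2 → SpinSpace 2)) :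
    ExpBdd s (2 / c * (M + 2 * M₀ * ‖v‖)) (ionR t E₂ φ v : Config 2 → SpinSpace 2) := by
  refine expBdd_of_ionWt hs (L2.memLp _) fun n => ?_
  obtain ⟨hMs, hMV, hIMS⟩ := ionl_agmon_hyp t hs n
  have h1 := IsRedRes.agmon' (ion_hermForm t) h.gapData h.isRedRes hMs hMV hIMS (by linarith) v
  have h2 : ‖mulL2 (ionWt s n) v‖ ≤ M := by
    refine (pow_le_pow_iff_left₀ (norm_nonneg _) hM two_ne_zero).mp ?_
    rw [ionl_norm_ionWt_sq hs n v]
    exact hv.nsq_ionWt_le hs n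
  have h3 : ‖mulL2 (ionWt s n) φ‖ ≤ M₀ := by
    refine (pow_le_pow_iff_left₀ (norm_nonneg _) hM₀ two_ne_zero).mp ?_
    rw [ionl_norm_ionWt_sq hs n φ]
    exact hφ.nsq_ionWt_le hs n
  have hc := h.c_pos
  have h4 : ‖mulL2 (ionWt s n) (ionR t E₂ φ v)‖ ≤ 2 / c * (M + 2 * M₀ * ‖v‖) := by
    refine h1.trans (mul_le_mul_of_nonneg_left ?_ (by positivity))
    have := mul_le_mul_of_nonneg_right h3 (norm_nonneg v)
    linarith
  rw [← ionl_norm_ionWt_sq hs n]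
  exact pow_le_pow_left₀ (norm_nonneg _) h4 2

end L4

end Claimed.Open.R278
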