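import Mathlib

/-!
# Result 278, layer L2a (package BP-MB1, prefix `MB`): ABSTRACT perturbation of a simple isolated ground level of a closed form

Architect and prover: helper51.  PURE HILBERT SPACE, no paper needed, Mathlib only.  SORRY-FREE.  Helper lemmas: prefix `mba_`.

Setting: `H` complex inner product space, `V` a subspace (the form domain, intersected with a symmetry sector),
`q : H → H → ℂ` a Hermitian sesquilinear form on `V`, LINEAR IN THE SECOND variable (as `sesqForm` of `Statement.lean`),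
total function with junk values outside `V`.  `q[x] = (q x x).re`.  "Closed": `q[x] + K ‖x‖² ≥ ‖x‖²` is a complete norm² on `V`.

## MBA-CS  (`HermForm.cauchy_schwarz`)  usual proof: `0 ≤ q[x + s y]` for `s = - conj(q x y)·r`, `r` real; or discriminant.
## MBA-GROUND (`ClosedForm.exists_ground`).  HAND PROOF.
 `E := inf { q[x] : x ∈ V, ‖x‖ = 1 }` (bounded below by `1 - K`, nonempty, `E ≤ q[Φ₀] ≤ A < B`).  `N(x,y) := q x y - E ⟪x,y⟫` is Hermitian, `N[x] ≥ 0` on `V`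
 (scaling), and `N[η] ≥ (B - E) ‖η‖²` on `V⊥ := {η ∈ V : ⟪Φ₀,η⟫ = 0}`.
 (1) `J(ζ) := N[Φ₀ + ζ] ≥ 0` on `V⊥`, `m := inf J`.  Parallelogram law: `N[(ζ-ζ')/2] = (J ζ + J ζ')/2 - J((ζ+ζ')/2) ≤ (J ζ + J ζ')/2 - m`.
     So a minimising sequence `ζ_n` satisfies `N[ζ_n - ζ_k] → 0`; on `V⊥`: `‖η‖² ≤ N[η]/(B-E)` and `q[η] + K‖η‖² = N[η] + (E+K)‖η‖² ≤ (1 + |E+K|/(B-E)) N[η]`:
     Cauchy in the form norm; `complete` gives `ζ ∈ V` with `q[ζ_n - ζ] + K ‖ζ_n - ζ‖² → 0`, hence `ζ_n → ζ` in `H`, `⟪Φ₀,ζ⟫ = 0`,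
     and `J ζ = m` (`|N[x]^{1/2} - N[y]^{1/2}| ≤ N[x-y]^{1/2}` from Cauchy-Schwarz, or `N[x] ≤ (1+δ) N[y] + (1+1/δ) N[x-y]`).
 (2) `w := Φ₀ + ζ`.  First variation: `N(η, w) = 0` for all `η ∈ V⊥` (`J(ζ + s η) ≥ J ζ` for all `s ∈ ℂ`).
 (3) `m = 0`: every `x ∈ V` is `x = a w + η'`, `a = ⟪Φ₀,x⟫`, `η' = x - a w ∈ V⊥`, `N[x] = |a|² m + N[η'] ≥ |a|² m + (B-E) ‖η'‖²`; as `‖x‖² ≤ 2|a|²‖w‖² + 2‖η'‖²`,
     `m > 0` would give `N[x] ≥ c' ‖x‖²` with `c' = min (m/(2‖w‖²)) ((B-E)/2) > 0`, contradicting the definition of `E`.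
 (4) `Φ := w/‖w‖` (`‖w‖ ≥ 1`), `α = 1/‖w‖`, `N[Φ] = 0`, so `N(Ξ,Φ) = 0` for all `Ξ ∈ V` (Cauchy-Schwarz).
 (5) gap on `Φ^⊥`: for `Ξ ∈ V`, `⟪Φ,Ξ⟫ = 0` put `y := a Φ + α Ξ`, `a = -⟪Φ₀,Ξ⟫`: `⟪Φ₀,y⟫ = 0`, `q[y] = |a|² E + α² q[Ξ]` (cross terms vanish by the eigen-equation),
     `‖y‖² = |a|² + α² ‖Ξ‖²`, `q[y] ≥ B ‖y‖²`, so `α² (q[Ξ] - B‖Ξ‖²) ≥ |a|² (B - E) ≥ 0`.
## MBA-CLOSE (`ground_close`).  `η := Φ - α Φ₀ ∈ V`, `⟪Φ₀,η⟫ = 0`, `1 = α² + ‖η‖²`.  Test the equation with `Ξ = η`: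
 `q₀[η] + t α v(η,Φ₀) + t v[η] = E ‖η‖²`; so `q₀[η] - E‖η‖² ≤ t (v[η] v[Φ₀])^{1/2}`.  With `N₀[x] = q₀[x] + K‖x‖²`, `θ = c/(2(E₀+c+K))` (`E₀ + K = N₀[Φ₀] ≥ 1`, `θ ≤ 1`):
 `q₀[η] - E‖η‖² ≥ θ N₀[η] + ((E₀+c-E) - θ(E₀+c+K)) ‖η‖² ≥ θ N₀[η]`.  So `N₀[η] ≤ t² Cv v[Φ₀]/θ²`.
 `Φ - Φ₀ = (α-1) Φ₀ + η`, `(1-α)² ≤ ‖η‖⁴ ≤ ‖η‖² ≤ N₀[η]`, `N₀[x+y] ≤ 2N₀[x] + 2N₀[y]`: `N₀[Φ-Φ₀] ≤ 2 (E₀+K+1) N₀[η]`.
## MBA-SYMM (`ground_symm`).  `y := U Φ`, `β := ⟪Φ,y⟫`, `y' := y - β Φ`: `E = q[y] = |β|² E + q[y'] ≥ |β|²E + B‖y'‖²`, `1 = |β|² + ‖y'‖²`: `y' = 0`.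
 `α = ⟪Φ₀,Φ⟫ = ⟪UΦ₀,UΦ⟫ = conj c₀ · β · α`, `|c₀| = 1`: `β = c₀`.
-/

open Filter
open scoped InnerProductSpace ComplexConjugate Topology

noncomputable section

namespace Claimed.Open.R278

variable {H : Type*} [NormedAddCommGroup H] [InnerProductSpace ℂ H]

/-- A Hermitian sesquilinear form on the subspace `V` (linear in the second variable). -/
structure HermForm (V : Submodule ℂ H) (q : H → H → ℂ) : Prop where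
  add_right : ∀ x ∈ V, ∀ y ∈ V, ∀ z ∈ V, q x (y + z) = q x y + q x z
  smul_right : ∀ (c : ℂ), ∀ x ∈ V, ∀ y ∈ V, q x (c • y) = c * q x y
  conj_symm : ∀ x ∈ V, ∀ y ∈ V, q y x = conj (q x y)

/-- A closed form: `q[x] + K ‖x‖² ≥ ‖x‖²` and `V` is complete for this norm². -/
structure ClosedForm (V : Submodule ℂ H) (q : H → H → ℂ) (K : ℝ) : Prop extends HermForm V q where
  pos : ∀ x ∈ V, ‖x‖ ^ 2 ≤ (q x x).re + K * ‖x‖ ^ 2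
  complete : ∀ u : ℕ → H, (∀ n, u n ∈ V) →
    (∀ ε > 0, ∃ N, ∀ n ≥ N, ∀ k ≥ N, (q (u n - u k) (u n - u k)).re + K * ‖u n - u k‖ ^ 2 < ε) →
    ∃ x ∈ V, Tendsto (fun n => (q (u n - x) (u n - x)).re + K * ‖u n - x‖ ^ 2) atTop (𝓝 0)

namespace HermForm

variable {V : Submodule ℂ H} {q : H → H → ℂ} {x y z : H}

theorem mba_add_left (hq : HermForm V q) (hx : x ∈ V) (hy : y ∈ V) (hz : z ∈ V) :
    q (x + y) z = q x z + q y z := by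
  rw [hq.conj_symm z hz (x + y) (V.add_mem hx hy), hq.add_right z hz x hx y hy, map_add,
    ← hq.conj_symm z hz x hx, ← hq.conj_symm z hz y hy]

theorem mba_smul_left (hq : HermForm V q) (c : ℂ) (hx : x ∈ V) (hy : y ∈ V) :
    q (c • x) y = conj c * q x y := by
  rw [hq.conj_symm y hy (c • x) (V.smul_mem c hx), hq.smul_right c y hy x hx, map_mul,
    ← hq.conj_symm y hy x hx]

theorem mba_re_symm (hq : HermForm V q) (hx : x ∈ V) (hy : y ∈ V) : (q y x).re = (q x y).re := by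
  rw [hq.conj_symm x hx y hy, Complex.conj_re]

theorem mba_self_im (hq : HermForm V q) (hx : x ∈ V) : (q x x).im = 0 := by
  have := congrArg Complex.im (hq.conj_symm x hx x hx)
  rw [Complex.conj_im] at this
  linarith

theorem mba_self_eq (hq : HermForm V q) (hx : x ∈ V) : q x x = (((q x x).re : ℝ) : ℂ) := by
  apply Complex.ext
  · simp
  · simp [hq.mba_self_im hx]

theorem mba_re_add (hq : HermForm V q) (hx : x ∈ V) (hy : y ∈ V) :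
    (q (x + y) (x + y)).re = (q x x).re + (q y y).re + 2 * (q x y).re := by
  rw [hq.add_right _ (V.add_mem hx hy) x hx y hy, hq.mba_add_left hx hy hx, hq.mba_add_left hx hy hy]
  simp only [Complex.add_re]
  rw [hq.mba_re_symm hx hy]
  ring

theorem mba_re_smul (hq : HermForm V q) (c : ℂ) (hx : x ∈ V) :
    (q (c • x) (c • x)).re = ‖c‖ ^ 2 * (q x x).re := by
  rw [hq.smul_right c _ (V.smul_mem c hx) x hx, hq.mba_smul_left c hx hx, ← mul_assoc, Complex.mul_conj,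
    Complex.normSq_eq_norm_sq, Complex.re_ofReal_mul]

theorem mba_re_zero (hq : HermForm V q) : (q 0 0).re = 0 := by
  have := hq.mba_re_smul (x := 0) 0 V.zero_mem
  simpa using this

theorem mba_re_sub (hq : HermForm V q) (hx : x ∈ V) (hy : y ∈ V) :
    (q (x - y) (x - y)).re = (q x x).re + (q y y).re - 2 * (q x y).re := by
  have hy' : (-1 : ℂ) • y ∈ V := V.smul_mem _ hy
  rw [sub_eq_add_neg, ← neg_one_smul ℂ y, hq.mba_re_add hx hy', hq.mba_re_smul _ hy,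
    hq.smul_right _ x hx y hy]
  simp
  ring

/-- `x + s y`. -/
theorem mba_re_add_smul (hq : HermForm V q) (s : ℂ) (hx : x ∈ V) (hy : y ∈ V) :
    (q (x + s • y) (x + s • y)).re = (q x x).re + ‖s‖ ^ 2 * (q y y).re + 2 * (s * q x y).re := by
  rw [hq.mba_re_add hx (V.smul_mem s hy), hq.mba_re_smul s hy, hq.smul_right s x hx y hy]

/-- the shifted form `q - E ⟪·,·⟫`. -/
theorem mba_shift (hq : HermForm V q) (E : ℝ) : HermForm V (fun x y => q x y - (E : ℂ) * ⟪x, y⟫_ℂ) where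
  add_right := fun x hx y hy z hz => by
    simp only [hq.add_right x hx y hy z hz, inner_add_right]; ring
  smul_right := fun c x hx y hy => by
    simp only [hq.smul_right c x hx y hy, inner_smul_right]; ring
  conj_symm := fun x hx y hy => by
    simp only [hq.conj_symm x hx y hy, map_sub, map_mul, Complex.conj_ofReal, inner_conj_symm]

theorem mba_shift_re (q : H → H → ℂ) (E : ℝ) (x : H) :
    (q x x - (E : ℂ) * ⟪x, x⟫_ℂ).re = (q x x).re - E * ‖x‖ ^ 2 := by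
  rw [inner_self_eq_norm_sq_to_K, Complex.sub_re, Complex.re_ofReal_mul]
  norm_cast

end HermForm

/-- **MBA-CS**: Cauchy-Schwarz for a nonnegative Hermitian form. -/
theorem HermForm.cauchy_schwarz {V : Submodule ℂ H} {q : H → H → ℂ} (hq : HermForm V q)
    (hpos : ∀ x ∈ V, 0 ≤ (q x x).re) {x y : H} (hx : x ∈ V) (hy : y ∈ V) :
    ‖q x y‖ ^ 2 ≤ (q x x).re * (q y y).re := by
  set a := q x y with ha
  have key : ∀ r : ℝ, 0 ≤ (‖a‖ ^ 2 * (q y y).re) * (r * r) + (-2 * ‖a‖ ^ 2) * r + (q x x).re := by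
    intro r
    have h1 := hpos _ (V.add_mem hx (V.smul_mem ((-r : ℝ) • conj a) hy))
    rw [hq.mba_re_add_smul _ hx hy, ← ha] at h1
    have h2 : (((-r : ℝ) • conj a) * a).re = -r * ‖a‖ ^ 2 := by
      rw [Complex.real_smul, mul_assoc, mul_comm (conj a), Complex.mul_conj, Complex.normSq_eq_norm_sq,
        ← Complex.ofReal_mul, Complex.ofReal_re]
    have h3 : ‖(-r : ℝ) • conj a‖ ^ 2 = r ^ 2 * ‖a‖ ^ 2 := by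
      rw [norm_smul, Complex.norm_conj, Real.norm_eq_abs, abs_neg, mul_pow, sq_abs]
    rw [h2, h3] at h1
    nlinarith
  have hd := discrim_le_zero key
  unfold discrim at hd
  by_cases h0 : ‖a‖ ^ 2 = 0
  · rw [h0]; exact mul_nonneg (hpos x hx) (hpos y hy)
  · have hp : 0 < ‖a‖ ^ 2 := lt_of_le_of_ne (sq_nonneg _) (Ne.symm h0)
    have : ‖a‖ ^ 2 * (‖a‖ ^ 2 - (q x x).re * (q y y).re) ≤ 0 := by nlinarith
    by_contra hh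
    have := mul_pos hp (sub_pos.2 (not_le.1 hh))
    linarith

namespace HermForm

variable {V : Submodule ℂ H} {q : H → H → ℂ}

theorem mba_re_add_le (hq : HermForm V q) (hpos : ∀ x ∈ V, 0 ≤ (q x x).re) {x y : H} (hx : x ∈ V) (hy : y ∈ V) :
    (q (x + y) (x + y)).re ≤ 2 * (q x x).re + 2 * (q y y).re := by
  have h1 := hq.mba_re_add hx hy
  have h2 := hq.mba_re_sub hx hy
  have h3 := hpos _ (V.sub_mem hx hy)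
  linarith

/-- first variation at a minimum. -/
theorem mba_first_variation (hq : HermForm V q) {w η : H} (hw : w ∈ V) (hη : η ∈ V)
    (hmin : ∀ s : ℂ, (q w w).re ≤ (q (w + s • η) (w + s • η)).re) : q w η = 0 := by
  set c := q w η with hc
  set r : ℝ := 1 / (|(q η η).re| + 1) with hr
  have hr0 : 0 < r := by positivity
  have h1 := hmin ((-r : ℝ) • conj c)
  rw [hq.mba_re_add_smul _ hw hη, ← hc] at h1
  have h2 : (((-r : ℝ) • conj c) * c).re = -r * ‖c‖ ^ 2 := by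
    rw [Complex.real_smul, mul_assoc, mul_comm (conj c), Complex.mul_conj, Complex.normSq_eq_norm_sq,
      ← Complex.ofReal_mul, Complex.ofReal_re]
  have h3 : ‖(-r : ℝ) • conj c‖ ^ 2 = r ^ 2 * ‖c‖ ^ 2 := by
    rw [norm_smul, Complex.norm_conj, Real.norm_eq_abs, abs_neg, mul_pow, sq_abs]
  rw [h2, h3] at h1
  have h4 : r * (q η η).re ≤ 1 := by
    have : r * (|(q η η).re| + 1) = 1 := by rw [hr]; field_simp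
    nlinarith [le_abs_self (q η η).re]
  have h5 : 0 ≤ ‖c‖ ^ 2 := sq_nonneg _
  have h6 : r * ‖c‖ ^ 2 ≤ 0 := by
    have : r ^ 2 * ‖c‖ ^ 2 * (q η η).re = (r * ‖c‖ ^ 2) * (r * (q η η).re) := by ring
    have h7 : (r * ‖c‖ ^ 2) * (r * (q η η).re) ≤ (r * ‖c‖ ^ 2) * 1 :=
      mul_le_mul_of_nonneg_left h4 (by positivity)
    nlinarith
  have h8 : ‖c‖ ^ 2 ≤ 0 := by
    by_contra hh
    have := mul_pos hr0 (not_le.1 hh)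
    linarith
  exact norm_eq_zero.1 (pow_eq_zero_iff two_ne_zero |>.1 (le_antisymm h8 h5))

/-- splitting along a vector `w` which is `q`-orthogonal to `η`. -/
theorem mba_re_smul_add (hq : HermForm V q) {w η : H} (hw : w ∈ V) (hη : η ∈ V) (ho : q w η = 0) (a : ℂ) :
    (q (a • w + η) (a • w + η)).re = ‖a‖ ^ 2 * (q w w).re + (q η η).re := by
  rw [hq.mba_re_add (V.smul_mem a hw) hη, hq.mba_re_smul a hw, hq.mba_smul_left a hw hη, ho]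
  simp

theorem mba_eig_orth (hq : HermForm V q) {Φ η : H} {E : ℝ} (hΦ : Φ ∈ V)
    (heig : ∀ Ξ ∈ V, q Ξ Φ = (E : ℂ) * ⟪Ξ, Φ⟫_ℂ) (hη : η ∈ V) (ho : ⟪Φ, η⟫_ℂ = 0) : q Φ η = 0 := by
  rw [hq.conj_symm η hη Φ hΦ, heig η hη, ← inner_conj_symm, ho]
  simp

theorem mba_eig_self {Φ : H} {E : ℝ} (hΦ : Φ ∈ V)
    (heig : ∀ Ξ ∈ V, q Ξ Φ = (E : ℂ) * ⟪Ξ, Φ⟫_ℂ) : (q Φ Φ).re = E * ‖Φ‖ ^ 2 := by
  rw [heig Φ hΦ, inner_self_eq_norm_sq_to_K, Complex.re_ofReal_mul]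
  norm_cast

end HermForm

theorem mba_norm_smul_add_sq {w η : H} (ho : ⟪w, η⟫_ℂ = 0) (a : ℂ) :
    ‖a • w + η‖ ^ 2 = ‖a‖ ^ 2 * ‖w‖ ^ 2 + ‖η‖ ^ 2 := by
  rw [@norm_add_sq ℂ, inner_smul_left, ho, norm_smul]
  simp [mul_pow]

/-- **MBA-SYMM**: a symmetry of the form acts on the simple ground state as on the reference vector. -/
theorem ground_symm {V : Submodule ℂ H} {q : H → H → ℂ} (hq : HermForm V q) {E B : ℝ} (hEB : E < B)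
    {Φ : H} (hΦ : Φ ∈ V) (hΦ1 : ‖Φ‖ = 1) (heig : ∀ Ξ ∈ V, q Ξ Φ = (E : ℂ) * ⟪Ξ, Φ⟫_ℂ)
    (hgap : ∀ Ξ ∈ V, ⟪Φ, Ξ⟫_ℂ = 0 → B * ‖Ξ‖ ^ 2 ≤ (q Ξ Ξ).re)
    {Φ₀ : H} (h1 : ‖Φ₀‖ = 1) {α : ℝ} (hα : 0 < α) (hαΦ : ⟪Φ₀, Φ⟫_ℂ = (α : ℂ))
    (U : H →ₗᵢ[ℂ] H) (hUV : ∀ x ∈ V, U x ∈ V) (hUq : ∀ x ∈ V, (q (U x) (U x)).re = (q x x).re)
    {c₀ : ℂ} (hU0 : U Φ₀ = c₀ • Φ₀) : U Φ = c₀ • Φ := by
  have hΦΦ : ⟪Φ, Φ⟫_ℂ = 1 := by rw [inner_self_eq_norm_sq_to_K, hΦ1]; simp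
  set y := U Φ with hy
  have hyV : y ∈ V := hUV Φ hΦ
  have hy1 : ‖y‖ = 1 := by rw [hy, U.norm_map, hΦ1]
  set β := ⟪Φ, y⟫_ℂ with hβ
  set y' := y - β • Φ with hy'
  have hy'V : y' ∈ V := V.sub_mem hyV (V.smul_mem β hΦ)
  have ho : ⟪Φ, y'⟫_ℂ = 0 := by rw [hy', inner_sub_right, inner_smul_right, hΦΦ, ← hβ]; simp
  have hsum : y = β • Φ + y' := by rw [hy']; abel
  have hQΦ : (q Φ Φ).re = E := by rw [HermForm.mba_eig_self hΦ heig, hΦ1]; simp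
  have e1 : (q y y).re = ‖β‖ ^ 2 * E + (q y' y').re := by
    conv_lhs => rw [hsum]
    rw [hq.mba_re_smul_add hΦ hy'V (hq.mba_eig_orth hΦ heig hy'V ho), hQΦ]
  have e2 : (1 : ℝ) = ‖β‖ ^ 2 + ‖y'‖ ^ 2 := by
    have : ‖y‖ ^ 2 = ‖β‖ ^ 2 * ‖Φ‖ ^ 2 + ‖y'‖ ^ 2 := by
      conv_lhs => rw [hsum]
      exact mba_norm_smul_add_sq ho β
    rw [hy1, hΦ1] at this
    linarith
  have e3 : (q y y).re = E := by rw [hy, hUq Φ hΦ, hQΦ]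
  have e4 := hgap y' hy'V ho
  have e5 : (B - E) * ‖y'‖ ^ 2 ≤ 0 := by
    have hb : ‖β‖ ^ 2 = 1 - ‖y'‖ ^ 2 := by linarith
    rw [hb] at e1
    linarith
  have e6 : ‖y'‖ ^ 2 ≤ 0 := by
    by_contra hh
    have := mul_pos (sub_pos.2 hEB) (not_le.1 hh)
    linarith
  have e7 : y' = 0 := norm_eq_zero.1 (pow_eq_zero_iff two_ne_zero |>.1 (le_antisymm e6 (sq_nonneg _)))
  have e8 : y = β • Φ := by rw [hsum, e7, add_zero]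
  have e9 : ⟪U Φ₀, U Φ⟫_ℂ = (α : ℂ) := by rw [U.inner_map_map, hαΦ]
  rw [hU0, ← hy, e8, inner_smul_left, inner_smul_right, hαΦ] at e9
  have hα' : (α : ℂ) ≠ 0 := by exact_mod_cast hα.ne'
  have e10 : conj c₀ * β = 1 := by
    have : (conj c₀ * β) * (α : ℂ) = 1 * α := by rw [one_mul, mul_assoc]; exact e9
    exact mul_right_cancel₀ hα' this
  have e11 : ‖c₀‖ = 1 := by
    have := U.norm_map Φ₀
    rw [hU0, norm_smul, h1, mul_one] at this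
    exact this
  have e12 : c₀ * conj c₀ = 1 := by
    rw [Complex.mul_conj, Complex.normSq_eq_norm_sq, e11]; simp
  have e13 : β = c₀ := by
    calc β = (c₀ * conj c₀) * β := by rw [e12, one_mul]
      _ = c₀ * (conj c₀ * β) := by ring
      _ = c₀ := by rw [e10, mul_one]
  rw [e8, e13]

/-- **MBA-CLOSE**: the perturbed ground state is `O(t)`-close to the unperturbed one in the form norm. -/
theorem ground_close {V : Submodule ℂ H} {q₀ v : H → H → ℂ} {K Cv : ℝ} (hq₀ : HermForm V q₀)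
    (hv : HermForm V v) (hpos : ∀ x ∈ V, ‖x‖ ^ 2 ≤ (q₀ x x).re + K * ‖x‖ ^ 2)
    (hv0 : ∀ x ∈ V, 0 ≤ (v x x).re)
    (hvC : ∀ x ∈ V, (v x x).re ≤ Cv * ((q₀ x x).re + K * ‖x‖ ^ 2))
    {Φ₀ : H} (h0 : Φ₀ ∈ V) (h1 : ‖Φ₀‖ = 1) {E₀ c : ℝ} (hc : 0 < c)
    (heig₀ : ∀ Ξ ∈ V, q₀ Ξ Φ₀ = (E₀ : ℂ) * ⟪Ξ, Φ₀⟫_ℂ)
    (hgap : ∀ η ∈ V, ⟪Φ₀, η⟫_ℂ = 0 → (E₀ + c) * ‖η‖ ^ 2 ≤ (q₀ η η).re)
    {t : ℝ} (ht : 0 ≤ t) (htc : t * (v Φ₀ Φ₀).re ≤ c / 2)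
    {E : ℝ} {Φ : H} (hΦ : Φ ∈ V) (hΦ1 : ‖Φ‖ = 1) (hE : E ≤ E₀ + t * (v Φ₀ Φ₀).re)
    (heig : ∀ Ξ ∈ V, q₀ Ξ Φ + (t : ℂ) * v Ξ Φ = (E : ℂ) * ⟪Ξ, Φ⟫_ℂ)
    {α : ℝ} (hα : 0 < α) (hαΦ : ⟪Φ₀, Φ⟫_ℂ = (α : ℂ)) :
    (q₀ (Φ - Φ₀) (Φ - Φ₀)).re + K * ‖Φ - Φ₀‖ ^ 2 ≤
      8 * (E₀ + K + 1) * (E₀ + c + K) ^ 2 * Cv * (v Φ₀ Φ₀).re / c ^ 2 * t ^ 2 := by
  have hΦ₀Φ₀ : ⟪Φ₀, Φ₀⟫_ℂ = 1 := by rw [inner_self_eq_norm_sq_to_K, h1]; simp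
  -- the form norm as a Hermitian form
  have hn : HermForm V (fun x y => q₀ x y - ((-K : ℝ) : ℂ) * ⟪x, y⟫_ℂ) := hq₀.mba_shift (-K)
  have hnre : ∀ x, (q₀ x x - ((-K : ℝ) : ℂ) * ⟪x, x⟫_ℂ).re = (q₀ x x).re + K * ‖x‖ ^ 2 := fun x => by
    rw [HermForm.mba_shift_re]; ring
  have hnpos : ∀ x ∈ V, 0 ≤ (q₀ x x - ((-K : ℝ) : ℂ) * ⟪x, x⟫_ℂ).re := fun x hx => by
    rw [hnre]; exact (sq_nonneg _).trans (hpos x hx)
  obtain ⟨v₀, hv₀⟩ : ∃ v₀, v₀ = (v Φ₀ Φ₀).re := ⟨_, rfl⟩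
  rw [← hv₀] at htc hE ⊢
  have hv₀0 : 0 ≤ v₀ := hv₀ ▸ hv0 Φ₀ h0
  have hQ₀ : (q₀ Φ₀ Φ₀).re = E₀ := by rw [HermForm.mba_eig_self h0 heig₀, h1]; simp
  have hEK : 1 ≤ E₀ + K := by
    have := hpos Φ₀ h0
    rw [hQ₀, h1] at this
    linarith
  have hCv : 0 ≤ Cv := by
    have := hvC Φ₀ h0
    rw [hQ₀, h1, ← hv₀] at this
    by_contra hh
    have h2 : Cv * (E₀ + K * 1 ^ 2) < 0 := mul_neg_of_neg_of_pos (not_le.1 hh) (by linarith)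
    linarith
  -- the decomposition
  set η := Φ - (α : ℂ) • Φ₀ with hη
  have hηV : η ∈ V := V.sub_mem hΦ (V.smul_mem _ h0)
  have ho : ⟪Φ₀, η⟫_ℂ = 0 := by rw [hη, inner_sub_right, inner_smul_right, hΦ₀Φ₀, hαΦ]; simp
  have ho' : ⟪η, Φ₀⟫_ℂ = 0 := by rw [← inner_conj_symm, ho]; simp
  have hsum : Φ = (α : ℂ) • Φ₀ + η := by rw [hη]; abel
  have hnorm : (1 : ℝ) = α ^ 2 + ‖η‖ ^ 2 := by
    have : ‖Φ‖ ^ 2 = ‖(α : ℂ)‖ ^ 2 * ‖Φ₀‖ ^ 2 + ‖η‖ ^ 2 := by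
      conv_lhs => rw [hsum]
      exact mba_norm_smul_add_sq ho _
    rw [hΦ1, h1, Complex.norm_real, Real.norm_eq_abs, sq_abs] at this
    linarith
  have hα1 : α ≤ 1 := by nlinarith [sq_nonneg ‖η‖]
  obtain ⟨Nη, hNη⟩ : ∃ N, N = (q₀ η η).re + K * ‖η‖ ^ 2 := ⟨_, rfl⟩
  have hNη0 : ‖η‖ ^ 2 ≤ Nη := hNη ▸ hpos η hηV
  -- test the equation with `η`
  have htest := heig η hηV
  have e1 : q₀ η Φ = q₀ η η := by
    conv_lhs => rw [hsum]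
    rw [hq₀.add_right η hηV _ (V.smul_mem _ h0) η hηV, hq₀.smul_right _ η hηV Φ₀ h0, heig₀ η hηV, ho']
    simp
  have e2 : v η Φ = (α : ℂ) * v η Φ₀ + v η η := by
    conv_lhs => rw [hsum]
    rw [hv.add_right η hηV _ (V.smul_mem _ h0) η hηV, hv.smul_right _ η hηV Φ₀ h0]
  have e3 : ⟪η, Φ⟫_ℂ = ((‖η‖ ^ 2 : ℝ) : ℂ) := by
    conv_lhs => rw [hsum]
    rw [inner_add_right, inner_smul_right, ho', inner_self_eq_norm_sq_to_K]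
    simp
  rw [e1, e2, e3] at htest
  have htest' : (q₀ η η).re + t * (α * (v η Φ₀).re + (v η η).re) = E * ‖η‖ ^ 2 := by
    have := congrArg Complex.re htest
    simpa [Complex.add_re, Complex.re_ofReal_mul, ← Complex.ofReal_pow] using this
  have hcs := hv.cauchy_schwarz hv0 hηV h0
  rw [← hv₀] at hcs
  have habs : -(v η Φ₀).re ≤ ‖v η Φ₀‖ := (neg_le_abs _).trans (Complex.abs_re_le_norm _)
  obtain ⟨D, hD⟩ : ∃ D, D = E₀ + c + K := ⟨_, rfl⟩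
  have hD0 : 0 < D := by linarith
  -- lower bound of the left-hand side
  have hlow : c / 2 * Nη ≤ D * ((q₀ η η).re - E * ‖η‖ ^ 2) := by
    have g := hgap η hηV ho
    have hη2 : 0 ≤ ‖η‖ ^ 2 := sq_nonneg _
    have hE' : E ≤ E₀ + c / 2 := by linarith
    -- `D (Q - E n) - (c/2)(Q + K n) = (D - c/2) Q - (D E + c K/2) n ≥ ((D - c/2)(E₀+c) - D E - cK/2) n`
    have h3 : 0 ≤ D - c / 2 := by linarith
    have h4 : (D - c / 2) * ((E₀ + c) * ‖η‖ ^ 2) ≤ (D - c / 2) * (q₀ η η).re := mul_le_mul_of_nonneg_left g h3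
    have h5 : 0 ≤ D * (E₀ + c / 2 - E) * ‖η‖ ^ 2 := mul_nonneg (mul_nonneg hD0.le (by linarith)) hη2
    rw [hNη]
    have h6 : (D - c / 2) * ((E₀ + c) * ‖η‖ ^ 2) - D * E * ‖η‖ ^ 2 - c / 2 * K * ‖η‖ ^ 2
        = D * (E₀ + c / 2 - E) * ‖η‖ ^ 2 := by
      rw [hD]; ring
    nlinarith
  -- upper bound
  have hup : (q₀ η η).re - E * ‖η‖ ^ 2 ≤ t * ‖v η Φ₀‖ := by
    have h3 : 0 ≤ t * (v η η).re := mul_nonneg ht (hv0 η hηV)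
    have h4 : t * (α * -(v η Φ₀).re) ≤ t * ‖v η Φ₀‖ := by
      refine mul_le_mul_of_nonneg_left ?_ ht
      have h5 : 0 ≤ ‖v η Φ₀‖ := norm_nonneg _
      calc α * -(v η Φ₀).re ≤ α * ‖v η Φ₀‖ := mul_le_mul_of_nonneg_left habs hα.le
        _ ≤ 1 * ‖v η Φ₀‖ := mul_le_mul_of_nonneg_right hα1 h5
        _ = _ := one_mul _
    nlinarith
  have hNη00 : 0 ≤ Nη := (sq_nonneg _).trans hNη0
  have hmain : c / 2 * Nη ≤ D * (t * ‖v η Φ₀‖) := hlow.trans (mul_le_mul_of_nonneg_left hup hD0.le)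
  have hvη : (v η η).re ≤ Cv * Nη := hNη ▸ hvC η hηV
  have hsq : (c / 2 * Nη) ^ 2 ≤ D ^ 2 * t ^ 2 * (Cv * Nη * v₀) := by
    have h3 : (c / 2 * Nη) ^ 2 ≤ (D * (t * ‖v η Φ₀‖)) ^ 2 :=
      pow_le_pow_left₀ (by positivity) hmain 2
    have h4 : ‖v η Φ₀‖ ^ 2 ≤ Cv * Nη * v₀ := hcs.trans (mul_le_mul_of_nonneg_right hvη hv₀0)
    calc (c / 2 * Nη) ^ 2 ≤ (D * (t * ‖v η Φ₀‖)) ^ 2 := h3
      _ = D ^ 2 * t ^ 2 * ‖v η Φ₀‖ ^ 2 := by ring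
      _ ≤ _ := mul_le_mul_of_nonneg_left h4 (by positivity)
  have hNbound : Nη ≤ 4 * D ^ 2 * Cv * v₀ / c ^ 2 * t ^ 2 := by
    rcases hNη00.eq_or_lt with h3 | h3
    · rw [← h3]; positivity
    · have h4 : Nη * (c ^ 2 / 4 * Nη) ≤ Nη * (D ^ 2 * t ^ 2 * Cv * v₀) := by nlinarith
      have h5 := le_of_mul_le_mul_left h4 h3
      rw [div_mul_eq_mul_div, le_div_iff₀ (by positivity)]
      nlinarith
  -- assemble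
  have hdiff : Φ - Φ₀ = ((α - 1 : ℝ) : ℂ) • Φ₀ + η := by
    rw [hη]; push_cast; rw [sub_smul, one_smul]; abel
  have hfin := hn.mba_re_add_le hnpos (V.smul_mem ((α - 1 : ℝ) : ℂ) h0) hηV
  simp only [hnre] at hfin
  rw [← hdiff, ← hNη] at hfin
  have hfirst : (q₀ (((α - 1 : ℝ) : ℂ) • Φ₀) (((α - 1 : ℝ) : ℂ) • Φ₀)).re + K * ‖((α - 1 : ℝ) : ℂ) • Φ₀‖ ^ 2
      = (α - 1) ^ 2 * (E₀ + K) := by
    rw [hq₀.mba_re_smul _ h0, hQ₀, norm_smul, h1, Complex.norm_real, Real.norm_eq_abs, mul_one, sq_abs]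
    ring
  rw [hfirst] at hfin
  have h7 : (α - 1) ^ 2 ≤ Nη := by
    have h10 : (α - 1) ^ 2 = (1 - α ^ 2) - 2 * (α * (1 - α)) := by ring
    have h11 : 0 ≤ α * (1 - α) := mul_nonneg hα.le (by linarith)
    linarith
  have h8 : (α - 1) ^ 2 * (E₀ + K) ≤ Nη * (E₀ + K) := mul_le_mul_of_nonneg_right h7 (by linarith)
  have h9 : 2 * (E₀ + K + 1) * Nη ≤ 2 * (E₀ + K + 1) * (4 * D ^ 2 * Cv * v₀ / c ^ 2 * t ^ 2) :=
    mul_le_mul_of_nonneg_left hNbound (by linarith)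
  calc (q₀ (Φ - Φ₀) (Φ - Φ₀)).re + K * ‖Φ - Φ₀‖ ^ 2 ≤ 2 * ((α - 1) ^ 2 * (E₀ + K)) + 2 * Nη := hfin
    _ ≤ 2 * (E₀ + K + 1) * Nη := by linarith
    _ ≤ _ := h9
    _ = _ := by rw [hD]; ring

/-- the infimum of the form on the unit sphere of `V`. -/
theorem ClosedForm.mba_exists_inf {V : Submodule ℂ H} {q : H → H → ℂ} {K : ℝ} (hq : ClosedForm V q K)
    {Φ₀ : H} (h0 : Φ₀ ∈ V) (h1 : ‖Φ₀‖ = 1) :
    ∃ E : ℝ, E ≤ (q Φ₀ Φ₀).re ∧ (∀ x ∈ V, E * ‖x‖ ^ 2 ≤ (q x x).re) ∧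
      ∀ c' > 0, ∃ x ∈ V, ‖x‖ = 1 ∧ (q x x).re < E + c' := by
  set T : Set ℝ := {r | ∃ x ∈ V, ‖x‖ = 1 ∧ r = (q x x).re} with hT
  have hne : T.Nonempty := ⟨_, Φ₀, h0, h1, rfl⟩
  have hbdd : BddBelow T := by
    refine ⟨1 - K, ?_⟩
    rintro _ ⟨x, hx, hx1, rfl⟩
    have := hq.pos x hx
    rw [hx1] at this
    linarith
  refine ⟨sInf T, csInf_le hbdd ⟨Φ₀, h0, h1, rfl⟩, fun x hx => ?_, fun c' hc' => ?_⟩
  · by_cases hx0 : x = 0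
    · rw [hx0, hq.toHermForm.mba_re_zero]; simp
    · have hn : 0 < ‖x‖ := norm_pos_iff.2 hx0
      have hu : ‖((‖x‖⁻¹ : ℝ) : ℂ) • x‖ = 1 := by
        rw [norm_smul, Complex.norm_real, Real.norm_eq_abs, abs_of_pos (inv_pos.2 hn)]
        field_simp
      have h2 := csInf_le hbdd ⟨_, V.smul_mem ((‖x‖⁻¹ : ℝ) : ℂ) hx, hu, rfl⟩
      rw [hq.toHermForm.mba_re_smul _ hx, Complex.norm_real, Real.norm_eq_abs, abs_of_pos (inv_pos.2 hn)] at h2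
      have h3 : sInf T * ‖x‖ ^ 2 ≤ (‖x‖⁻¹ ^ 2 * (q x x).re) * ‖x‖ ^ 2 :=
        mul_le_mul_of_nonneg_right h2 (sq_nonneg _)
      have h4 : (‖x‖⁻¹ ^ 2 * (q x x).re) * ‖x‖ ^ 2 = (q x x).re := by field_simp
      linarith
  · obtain ⟨r, ⟨x, hx, hx1, rfl⟩, hr⟩ := exists_lt_of_csInf_lt hne (lt_add_of_pos_right (sInf T) hc')
    exact ⟨x, hx, hx1, hr⟩

/-- minimisation of `N[Φ₀ + ζ]`, `N = q - E`, over `ζ ∈ V`, `ζ ⟂ Φ₀`. -/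
theorem ClosedForm.mba_exists_min {V : Submodule ℂ H} {q : H → H → ℂ} {K : ℝ} (hq : ClosedForm V q K)
    {Φ₀ : H} (h0 : Φ₀ ∈ V) {E g : ℝ} (hg : 0 < g) (hE : ∀ x ∈ V, E * ‖x‖ ^ 2 ≤ (q x x).re)
    (hgap : ∀ η ∈ V, ⟪Φ₀, η⟫_ℂ = 0 → (E + g) * ‖η‖ ^ 2 ≤ (q η η).re) :
    ∃ ζ ∈ V, ⟪Φ₀, ζ⟫_ℂ = 0 ∧ ∀ ζ' ∈ V, ⟪Φ₀, ζ'⟫_ℂ = 0 →
      (q (Φ₀ + ζ) (Φ₀ + ζ)).re - E * ‖Φ₀ + ζ‖ ^ 2 ≤ (q (Φ₀ + ζ') (Φ₀ + ζ')).re - E * ‖Φ₀ + ζ'‖ ^ 2 := by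
  have hn : HermForm V (fun x y => q x y - (E : ℂ) * ⟪x, y⟫_ℂ) := hq.toHermForm.mba_shift E
  obtain ⟨NQ, hNQ⟩ : ∃ NQ : H → ℝ, ∀ x, NQ x = (q x x).re - E * ‖x‖ ^ 2 := ⟨_, fun _ => rfl⟩
  have hnre : ∀ x, (q x x - (E : ℂ) * ⟪x, x⟫_ℂ).re = NQ x := fun x => by
    rw [HermForm.mba_shift_re, hNQ]
  have hnpos : ∀ x ∈ V, 0 ≤ (q x x - (E : ℂ) * ⟪x, x⟫_ℂ).re := fun x hx => by
    rw [hnre, hNQ]; linarith [hE x hx]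
  have hNQpos : ∀ x ∈ V, 0 ≤ NQ x := fun x hx => hnre x ▸ hnpos x hx
  simp only [← hNQ]
  set S : Set ℝ := {r | ∃ ζ ∈ V, ⟪Φ₀, ζ⟫_ℂ = 0 ∧ r = NQ (Φ₀ + ζ)} with hS
  have hne : S.Nonempty := ⟨_, 0, V.zero_mem, inner_zero_right _, rfl⟩
  have hbdd : BddBelow S := by
    refine ⟨0, ?_⟩
    rintro _ ⟨ζ, hζ, -, rfl⟩
    exact hNQpos _ (V.add_mem h0 hζ)
  obtain ⟨m, hm⟩ : ∃ m, m = sInf S := ⟨_, rfl⟩
  have hmle : ∀ ζ ∈ V, ⟪Φ₀, ζ⟫_ℂ = 0 → m ≤ NQ (Φ₀ + ζ) := fun ζ hζ ho => hm ▸ csInf_le hbdd ⟨ζ, hζ, ho, rfl⟩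
  have hseq : ∀ n : ℕ, ∃ ζ ∈ V, ⟪Φ₀, ζ⟫_ℂ = 0 ∧ NQ (Φ₀ + ζ) < m + 1 / ((n : ℝ) + 1) := fun n => by
    obtain ⟨r, ⟨ζ, hζ, ho, rfl⟩, hr⟩ :=
      exists_lt_of_csInf_lt hne (lt_add_of_pos_right (sInf S) (by positivity : (0 : ℝ) < 1 / ((n : ℝ) + 1)))
    exact ⟨ζ, hζ, ho, hm ▸ hr⟩
  choose ζs hζV hζo hζJ using hseq
  -- parallelogram law
  have hpar : ∀ n k, NQ (ζs n - ζs k) ≤ 2 * (NQ (Φ₀ + ζs n) - m) + 2 * (NQ (Φ₀ + ζs k) - m) := by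
    intro n k
    have hx := V.add_mem h0 (hζV n)
    have hy := V.add_mem h0 (hζV k)
    have e1 := hn.mba_re_add hx hy
    have e2 := hn.mba_re_sub hx hy
    simp only [hnre] at e1 e2
    have hmid : (1 / 2 : ℂ) • (ζs n + ζs k) ∈ V := V.smul_mem _ (V.add_mem (hζV n) (hζV k))
    have e3 : Φ₀ + ζs n + (Φ₀ + ζs k) = (2 : ℂ) • (Φ₀ + (1 / 2 : ℂ) • (ζs n + ζs k)) := by
      rw [smul_add, smul_smul]; norm_num; rw [two_smul]; abel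
    have e4 : NQ (Φ₀ + ζs n + (Φ₀ + ζs k)) = 4 * NQ (Φ₀ + (1 / 2 : ℂ) • (ζs n + ζs k)) := by
      rw [e3, ← hnre, hn.mba_re_smul _ (V.add_mem h0 hmid), hnre]; norm_num
    have e5 : m ≤ NQ (Φ₀ + (1 / 2 : ℂ) • (ζs n + ζs k)) :=
      hmle _ hmid (by rw [inner_smul_right, inner_add_right, hζo n, hζo k]; simp)
    have e6 : Φ₀ + ζs n - (Φ₀ + ζs k) = ζs n - ζs k := by abel
    rw [e6] at e2
    linarith
  -- comparison of the form norm with `NQ` on the orthogonal complement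
  obtain ⟨c₁, hc₁⟩ : ∃ c₁, c₁ = 1 + |E + K| / g := ⟨_, rfl⟩
  have hc₁0 : 0 < c₁ := by rw [hc₁]; positivity
  have hF : ∀ η ∈ V, ⟪Φ₀, η⟫_ℂ = 0 → (q η η).re + K * ‖η‖ ^ 2 ≤ c₁ * NQ η := by
    intro η hη ho
    have h2 : g * ‖η‖ ^ 2 ≤ NQ η := by rw [hNQ]; linarith [hgap η hη ho]
    have h3 : (E + K) * ‖η‖ ^ 2 ≤ |E + K| * ‖η‖ ^ 2 := mul_le_mul_of_nonneg_right (le_abs_self _) (sq_nonneg _)
    have h4 : |E + K| * ‖η‖ ^ 2 ≤ |E + K| / g * NQ η := by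
      rw [div_mul_eq_mul_div, le_div_iff₀ hg]
      calc |E + K| * ‖η‖ ^ 2 * g = |E + K| * (g * ‖η‖ ^ 2) := by ring
        _ ≤ |E + K| * NQ η := mul_le_mul_of_nonneg_left h2 (abs_nonneg _)
    have h5 : (q η η).re + K * ‖η‖ ^ 2 = NQ η + (E + K) * ‖η‖ ^ 2 := by rw [hNQ]; ring
    rw [h5, hc₁]
    linarith
  -- Cauchy
  have hcauchy : ∀ ε > 0, ∃ N, ∀ n ≥ N, ∀ k ≥ N,
      (q (ζs n - ζs k) (ζs n - ζs k)).re + K * ‖ζs n - ζs k‖ ^ 2 < ε := by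
    intro ε hε
    obtain ⟨N, hN⟩ := exists_nat_gt (4 * c₁ / ε)
    refine ⟨N, fun n hn' k hk' => ?_⟩
    have hN0 : (0 : ℝ) < (N : ℝ) + 1 := by positivity
    have hinv : ∀ j : ℕ, N ≤ j → 1 / ((j : ℝ) + 1) ≤ 1 / ((N : ℝ) + 1) := fun j hj =>
      one_div_le_one_div_of_le hN0 (by exact_mod_cast Nat.succ_le_succ hj)
    have h2 := hF _ (V.sub_mem (hζV n) (hζV k)) (by rw [inner_sub_right, hζo n, hζo k]; simp)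
    have h3 := hpar n k
    have h4 : NQ (ζs n - ζs k) ≤ 4 * (1 / ((N : ℝ) + 1)) := by
      linarith [hζJ n, hζJ k, hinv n hn', hinv k hk']
    have h5 : c₁ * (4 * (1 / ((N : ℝ) + 1))) < ε := by
      have : 4 * c₁ / ε < (N : ℝ) + 1 := by linarith
      rw [div_lt_iff₀ hε] at this
      rw [mul_one_div, mul_div_assoc', div_lt_iff₀ hN0]
      linarith
    calc _ ≤ c₁ * NQ (ζs n - ζs k) := h2
      _ ≤ c₁ * (4 * (1 / ((N : ℝ) + 1))) := mul_le_mul_of_nonneg_left h4 hc₁0.le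
      _ < ε := h5
  obtain ⟨ζ, hζ, hlim⟩ := hq.complete ζs hζV hcauchy
  have hnorm2 : Tendsto (fun n => ‖ζs n - ζ‖ ^ 2) atTop (𝓝 0) :=
    squeeze_zero (fun _ => sq_nonneg _) (fun n => hq.pos _ (V.sub_mem (hζV n) hζ)) hlim
  have hnorm : Tendsto (fun n => ‖ζs n - ζ‖) atTop (𝓝 0) := by
    have := (Real.continuous_sqrt.tendsto 0).comp hnorm2
    rw [Real.sqrt_zero] at this
    refine this.congr fun n => ?_
    simp only [Function.comp]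
    exact Real.sqrt_sq (norm_nonneg _)
  have hconv : Tendsto ζs atTop (𝓝 ζ) := tendsto_iff_norm_sub_tendsto_zero.2 hnorm
  have hζo' : ⟪Φ₀, ζ⟫_ℂ = 0 := by
    have h2 : Tendsto (fun n => ⟪Φ₀, ζs n⟫_ℂ) atTop (𝓝 ⟪Φ₀, ζ⟫_ℂ) :=
      ((continuous_const.inner continuous_id).tendsto ζ).comp hconv
    simp only [hζo] at h2
    exact tendsto_nhds_unique h2 tendsto_const_nhds
  refine ⟨ζ, hζ, hζo', fun ζ' hζ' ho' => le_trans ?_ (hmle ζ' hζ' ho')⟩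
  -- `NQ (Φ₀ + ζ) ≤ m`
  have hJlim : Tendsto (fun n => NQ (Φ₀ + ζs n)) atTop (𝓝 m) := by
    have h2 : Tendsto (fun n : ℕ => m + 1 / ((n : ℝ) + 1)) atTop (𝓝 (m + 0)) :=
      tendsto_const_nhds.add tendsto_one_div_add_atTop_nhds_zero_nat
    rw [add_zero] at h2
    exact tendsto_of_tendsto_of_tendsto_of_le_of_le tendsto_const_nhds h2 (fun n => hmle _ (hζV n) (hζo n))
      (fun n => (hζJ n).le)
  have hulim : Tendsto (fun n => NQ (ζs n - ζ)) atTop (𝓝 0) := by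
    have h2 : ∀ n, NQ (ζs n - ζ) = ((q (ζs n - ζ) (ζs n - ζ)).re + K * ‖ζs n - ζ‖ ^ 2) - (E + K) * ‖ζs n - ζ‖ ^ 2 :=
      fun n => by rw [hNQ]; ring
    simp only [h2]
    simpa using hlim.sub (hnorm2.const_mul (E + K))
  have hbound : ∀ n, NQ (Φ₀ + ζ) ≤ NQ (Φ₀ + ζs n) + NQ (ζs n - ζ) + 2 * √(NQ (Φ₀ + ζs n) * NQ (ζs n - ζ)) := by
    intro n
    have hx := V.add_mem h0 (hζV n)
    have hu := V.sub_mem (hζV n) hζ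
    have e1 := hn.mba_re_sub hx hu
    have e2 := hn.cauchy_schwarz hnpos hx hu
    simp only [hnre] at e1 e2
    have e3 : Φ₀ + ζs n - (ζs n - ζ) = Φ₀ + ζ := by abel
    rw [e3] at e1
    have e4 : ‖q (Φ₀ + ζs n) (ζs n - ζ) - (E : ℂ) * ⟪Φ₀ + ζs n, ζs n - ζ⟫_ℂ‖ ≤ √(NQ (Φ₀ + ζs n) * NQ (ζs n - ζ)) :=
      Real.le_sqrt_of_sq_le e2
    have e5 : -(q (Φ₀ + ζs n) (ζs n - ζ) - (E : ℂ) * ⟪Φ₀ + ζs n, ζs n - ζ⟫_ℂ).re ≤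
        ‖q (Φ₀ + ζs n) (ζs n - ζ) - (E : ℂ) * ⟪Φ₀ + ζs n, ζs n - ζ⟫_ℂ‖ :=
      (neg_le_abs _).trans (Complex.abs_re_le_norm _)
    linarith
  have hlimit : Tendsto (fun n => NQ (Φ₀ + ζs n) + NQ (ζs n - ζ) + 2 * √(NQ (Φ₀ + ζs n) * NQ (ζs n - ζ)))
      atTop (𝓝 m) := by
    have h2 := (Real.continuous_sqrt.tendsto _).comp (hJlim.mul hulim)
    have h3 := (hJlim.add hulim).add (h2.const_mul 2)
    simpa using h3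
  exact ge_of_tendsto' hlimit hbound

/-- **MBA-GROUND**: existence of the ground state, the eigen-equation, and the gap without loss. -/
theorem ClosedForm.exists_ground {V : Submodule ℂ H} {q : H → H → ℂ} {K : ℝ} (hq : ClosedForm V q K)
    {Φ₀ : H} (h0 : Φ₀ ∈ V) (h1 : ‖Φ₀‖ = 1) {A B : ℝ} (hAB : A < B) (hA : (q Φ₀ Φ₀).re ≤ A)
    (hB : ∀ η ∈ V, ⟪Φ₀, η⟫_ℂ = 0 → B * ‖η‖ ^ 2 ≤ (q η η).re) :
    ∃ (E : ℝ) (Φ : H), Φ ∈ V ∧ ‖Φ‖ = 1 ∧ E ≤ A ∧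
      (∀ Ξ ∈ V, q Ξ Φ = (E : ℂ) * ⟪Ξ, Φ⟫_ℂ) ∧
      (∀ Ξ ∈ V, E * ‖Ξ‖ ^ 2 ≤ (q Ξ Ξ).re) ∧
      (∀ Ξ ∈ V, ⟪Φ, Ξ⟫_ℂ = 0 → B * ‖Ξ‖ ^ 2 ≤ (q Ξ Ξ).re) ∧
      ∃ α : ℝ, 0 < α ∧ ⟪Φ₀, Φ⟫_ℂ = (α : ℂ) := by
  have hΦ₀Φ₀ : ⟪Φ₀, Φ₀⟫_ℂ = 1 := by rw [inner_self_eq_norm_sq_to_K, h1]; simp
  obtain ⟨E, hE0, hE, hEinf⟩ := hq.mba_exists_inf h0 h1
  have hEA : E ≤ A := hE0.trans hA
  have hg : 0 < B - E := by linarith
  obtain ⟨ζ, hζ, hζo, hmin⟩ := hq.mba_exists_min h0 hg hE (fun η hη ho => by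
    have := hB η hη ho
    rwa [show E + (B - E) = B by ring])
  have hn : HermForm V (fun x y => q x y - (E : ℂ) * ⟪x, y⟫_ℂ) := hq.toHermForm.mba_shift E
  obtain ⟨NQ, hNQ⟩ : ∃ NQ : H → ℝ, ∀ x, NQ x = (q x x).re - E * ‖x‖ ^ 2 := ⟨_, fun _ => rfl⟩
  have hnre : ∀ x, (q x x - (E : ℂ) * ⟪x, x⟫_ℂ).re = NQ x := fun x => by
    rw [HermForm.mba_shift_re, hNQ]
  have hnpos : ∀ x ∈ V, 0 ≤ (q x x - (E : ℂ) * ⟪x, x⟫_ℂ).re := fun x hx => by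
    rw [hnre, hNQ]; linarith [hE x hx]
  simp only [← hNQ] at hmin
  obtain ⟨w, hw⟩ : ∃ w, w = Φ₀ + ζ := ⟨_, rfl⟩
  rw [← hw] at hmin
  have hwV : w ∈ V := hw ▸ V.add_mem h0 hζ
  have hΦ₀w : ⟪Φ₀, w⟫_ℂ = 1 := by rw [hw, inner_add_right, hΦ₀Φ₀, hζo, add_zero]
  -- first variation
  have hvar : ∀ η ∈ V, ⟪Φ₀, η⟫_ℂ = 0 → q w η - (E : ℂ) * ⟪w, η⟫_ℂ = 0 := by
    intro η hη ho
    refine hn.mba_first_variation hwV hη fun s => ?_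
    simp only [hnre]
    have := hmin (ζ + s • η) (V.add_mem hζ (V.smul_mem s hη))
      (by rw [inner_add_right, inner_smul_right, hζo, ho]; simp)
    rwa [← add_assoc, ← hw] at this
  have hw0 : w ≠ 0 := by
    intro h
    rw [h, inner_zero_right] at hΦ₀w
    exact zero_ne_one hΦ₀w
  have hwn : 0 < ‖w‖ := norm_pos_iff.2 hw0
  have hm0 : 0 ≤ NQ w := hnre w ▸ hnpos w hwV
  -- the minimum vanishes
  have hm : NQ w = 0 := by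
    by_contra hne
    have hmpos : 0 < NQ w := lt_of_le_of_ne hm0 (Ne.symm hne)
    obtain ⟨c', hc'⟩ : ∃ c', c' = min (NQ w / (2 * ‖w‖ ^ 2)) ((B - E) / 2) := ⟨_, rfl⟩
    have hc'0 : 0 < c' := by rw [hc']; exact lt_min (by positivity) (by positivity)
    have hc'1 : c' * (2 * ‖w‖ ^ 2) ≤ NQ w := by
      have : c' ≤ NQ w / (2 * ‖w‖ ^ 2) := hc' ▸ min_le_left _ _
      rwa [le_div_iff₀ (by positivity)] at this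
    have hc'2 : c' * 2 ≤ B - E := by
      have : c' ≤ (B - E) / 2 := hc' ▸ min_le_right _ _
      linarith
    obtain ⟨x, hx, hx1, hxlt⟩ := hEinf c' hc'0
    set a := ⟪Φ₀, x⟫_ℂ with ha
    set η' := x - a • w with hη'
    have hη'V : η' ∈ V := V.sub_mem hx (V.smul_mem a hwV)
    have ho : ⟪Φ₀, η'⟫_ℂ = 0 := by rw [hη', inner_sub_right, inner_smul_right, hΦ₀w, ← ha]; simp
    have hsum : x = a • w + η' := by rw [hη']; abel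
    have e1 : NQ x = ‖a‖ ^ 2 * NQ w + NQ η' := by
      have := hn.mba_re_smul_add hwV hη'V (hvar η' hη'V ho) a
      simp only [hnre] at this
      rw [← hsum] at this
      exact this
    have e2 : (B - E) * ‖η'‖ ^ 2 ≤ NQ η' := by rw [hNQ]; linarith [hB η' hη'V ho]
    have e3 : ‖x‖ ^ 2 ≤ 2 * (‖a‖ ^ 2 * ‖w‖ ^ 2) + 2 * ‖η'‖ ^ 2 := by
      have h2 : ‖x‖ ≤ ‖a‖ * ‖w‖ + ‖η'‖ := by
        conv_lhs => rw [hsum]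
        exact (norm_add_le _ _).trans (by rw [norm_smul])
      have h3 : ‖x‖ ^ 2 ≤ (‖a‖ * ‖w‖ + ‖η'‖) ^ 2 := pow_le_pow_left₀ (norm_nonneg _) h2 2
      nlinarith [sq_nonneg (‖a‖ * ‖w‖ - ‖η'‖)]
    have e4 : NQ x < c' := by rw [hNQ, hx1]; linarith
    have e5 : c' * ‖x‖ ^ 2 ≤ NQ x := by
      have h2 : c' * ‖x‖ ^ 2 ≤ c' * (2 * (‖a‖ ^ 2 * ‖w‖ ^ 2) + 2 * ‖η'‖ ^ 2) := mul_le_mul_of_nonneg_left e3 hc'0.le
      have h3 : ‖a‖ ^ 2 * (c' * (2 * ‖w‖ ^ 2)) ≤ ‖a‖ ^ 2 * NQ w := mul_le_mul_of_nonneg_left hc'1 (sq_nonneg _)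
      have h4 : (c' * 2) * ‖η'‖ ^ 2 ≤ (B - E) * ‖η'‖ ^ 2 := mul_le_mul_of_nonneg_right hc'2 (sq_nonneg _)
      rw [e1]
      nlinarith
    rw [hx1] at e5
    linarith
  -- the ground state
  obtain ⟨α, hα⟩ : ∃ α, α = ‖w‖⁻¹ := ⟨_, rfl⟩
  have hα0 : 0 < α := hα ▸ inv_pos.2 hwn
  obtain ⟨Φ, hΦdef⟩ : ∃ Φ, Φ = (α : ℂ) • w := ⟨_, rfl⟩
  have hΦV : Φ ∈ V := hΦdef ▸ V.smul_mem _ hwV
  have hΦ1 : ‖Φ‖ = 1 := by
    rw [hΦdef, norm_smul, Complex.norm_real, Real.norm_eq_abs, abs_of_pos hα0, hα]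
    field_simp
  have hΦ₀Φ : ⟪Φ₀, Φ⟫_ℂ = (α : ℂ) := by rw [hΦdef, inner_smul_right, hΦ₀w, mul_one]
  have hNΦ : (q Φ Φ - (E : ℂ) * ⟪Φ, Φ⟫_ℂ).re = 0 := by
    have := hn.mba_re_smul (α : ℂ) hwV
    simp only [hnre] at this
    rw [hnre, hΦdef, this, hm, mul_zero]
  have heig : ∀ Ξ ∈ V, q Ξ Φ = (E : ℂ) * ⟪Ξ, Φ⟫_ℂ := by
    intro Ξ hΞ
    have := hn.cauchy_schwarz hnpos hΞ hΦV
    rw [hNΦ, mul_zero] at this
    have h2 : ‖q Ξ Φ - (E : ℂ) * ⟪Ξ, Φ⟫_ℂ‖ = 0 :=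
      pow_eq_zero_iff two_ne_zero |>.1 (le_antisymm this (sq_nonneg _))
    exact sub_eq_zero.1 (norm_eq_zero.1 h2)
  refine ⟨E, Φ, hΦV, hΦ1, hEA, heig, hE, fun Ξ hΞ ho => ?_, α, hα0, hΦ₀Φ⟩
  -- the gap
  set a := -⟪Φ₀, Ξ⟫_ℂ with ha
  have hαΞ : (α : ℂ) • Ξ ∈ V := V.smul_mem _ hΞ
  have ho2 : ⟪Φ, (α : ℂ) • Ξ⟫_ℂ = 0 := by rw [inner_smul_right, ho, mul_zero]
  have hy0 : ⟪Φ₀, a • Φ + (α : ℂ) • Ξ⟫_ℂ = 0 := by
    rw [inner_add_right, inner_smul_right, inner_smul_right, hΦ₀Φ, ha]; ring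
  have e1 := hq.toHermForm.mba_re_smul_add hΦV hαΞ (hq.toHermForm.mba_eig_orth hΦV heig hαΞ ho2) a
  rw [HermForm.mba_eig_self hΦV heig, hΦ1, hq.toHermForm.mba_re_smul _ hΞ, Complex.norm_real, Real.norm_eq_abs,
    sq_abs] at e1
  have e2 := mba_norm_smul_add_sq ho2 a
  rw [hΦ1, norm_smul, Complex.norm_real, Real.norm_eq_abs, mul_pow, sq_abs] at e2
  have e3 := hB _ (V.add_mem (V.smul_mem a hΦV) hαΞ) hy0
  rw [e1, e2] at e3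
  have e4 : 0 ≤ ‖a‖ ^ 2 * (B - E) := mul_nonneg (sq_nonneg _) hg.le
  have e5 : 0 ≤ α ^ 2 * ((q Ξ Ξ).re - B * ‖Ξ‖ ^ 2) := by nlinarith
  have e6 : 0 ≤ (q Ξ Ξ).re - B * ‖Ξ‖ ^ 2 := by
    by_contra hh
    have := mul_neg_of_pos_of_neg (by positivity : 0 < α ^ 2) (not_le.1 hh)
    linarith
  linarith

end Claimed.Open.R278
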