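import Claimed.Open.R278.MBForm

/-!
# Result 278, layer L2a (BP-MB1): PRODUCT VECTORS AND THE PRODUCT HILBERT BASIS OF `L2 m`

Architect and prover: helper51.  No paper needed (measure theory + Hilbert bases).  SORRY-FREE (modulo nothing: only `FormLemmas.lean`).  Helper lemmas: prefix `mbb_`.
This file replaces one-body operators, second quantisation and reduced density matrices: every Pauli/occupation argument becomes a TERMWISE
comparison of `tsum`s of `‖⟪prodBasis u p, Ξ⟫‖²`.   Consumers: MB1 (zero coupling), EN (Pauli bound, three-body inequality).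

`Orb = L²(ℝ³; ℝ)`;  `tens f s (x) = (∏ᵢ fᵢ(xᵢ)) • δ_s`.

## Leaf MBB-TENS (section TENS).  Tools: `MeasureTheory.Integrable.fintype_prod`, `MeasureTheory.integral_fintype_prod_volume_eq_prod` (product integrals on `Fin m → Space`),
 `Measure.quasiMeasurePreserving_eval` / `measurePreserving_eval`-type lemmas to transport a.e. statements in `xᵢ` to `Config m`, `L2.inner_def`.
 `memLp_tensFun`: `‖tensFun f s x‖² = ∏ᵢ (fᵢ(xᵢ))²`, integrable by `Integrable.fintype_prod`; measurability: finite products of `AEStronglyMeasurable.comp_quasiMeasurePreserving`.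
## Leaf MBB-BOX (`eq_zero_of_inner_tens`).  Take `fᵢ = indicator of Aᵢ` (`Aᵢ` measurable, finite volume): `∫_{∏ Aᵢ} Ψ(x)(s) dx = 0` for all boxes.
 For fixed `s` let `h = re` or `im` of `x ↦ Ψ x s` (`L²`, so integrable on boxes of finite volume).  The two measures `A ↦ ∫⁻_A h⁺`, `A ↦ ∫⁻_A h⁻` (`withDensity`) agree on the π-system of
 boxes, which generates the σ-algebra (`generateFrom_pi`, `isPiSystem_pi`) and contains a countable cover by boxes of finite measure (balls of radius `n` in every coordinate):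
 `Measure.ext_of_generateFrom_of_iUnion` (or `Measure.pi_eq`-style arguments).  Hence `h⁺ = h⁻` a.e., `h = 0` a.e.
## Leaf MBB-BASIS (section BASIS).  Orthonormality: `inner_tens` + `u.orthonormal`.  Completeness: if `Ψ ⟂` all `tens (u ∘ k) s`, then by induction on the number of slots
 (`Finset.induction` on the set of slots where `f` is arbitrary) `⟪tens f s, Ψ⟫ = 0` for all `f`: for fixed other slots, `g ↦ ⟪tens (update f i g) s, Ψ⟫` is `ℝ`-linear and bounded by
 `(∏_{j≠i} ‖f j‖) ‖Ψ‖ ‖g‖`, and vanishes on the Hilbert basis `u`, hence on its dense span.  Then MBB-BOX.  `HilbertBasis.mkOfOrthogonalEqBot`.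
## Leaf MBB-ANTI (section ANTI).  Change of variables `x ↦ x ∘ π` (`measurePreserving_comp_perm` of `FormLemmas.lean`), `Equiv.prod_comp`.
-/

open MeasureTheory Filter
open scoped ContDiff InnerProductSpace ComplexConjugate ENNReal Topology

noncomputable section

set_option linter.unusedSectionVars false

namespace Claimed.Open.R278

variable {m : ℕ}

/-- real spatial orbitals `L²(ℝ³; ℝ)`. -/
abbrev Orb : Type := Lp ℝ 2 (volume : Measure Space)

open Classical in
/-- the class of a square integrable function (`0` otherwise). -/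
def toOrb (f : Space → ℝ) : Orb := if h : MemLp f 2 volume then h.toLp f else 0

theorem coeFn_toOrb {f : Space → ℝ} (h : MemLp f 2 volume) : (toOrb f : Space → ℝ) =ᵐ[volume] f := by
  rw [toOrb, dif_pos h]; exact h.coeFn_toLp

/-! ## TENS

Everything up to the section ANTI is written for a general finite index set `σ` of "spin" components
(`σ = SpinConfig m` gives `L2 m`); the general case is used for the fibres in `MBLift.lean`. -/

/-- `L²(ℝ^{3m}; ℂ^σ)`;  `LS m (SpinConfig m) = L2 m`. -/
abbrev LS (m : ℕ) (σ : Type*) [Fintype σ] : Type _ := Lp (EuclideanSpace ℂ σ) 2 (volume : Measure (Config m))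

section General

variable {σ : Type*} [Fintype σ] [DecidableEq σ]


theorem mbb_ae_eval {p : Space → Prop} (i : Fin m) (h : ∀ᵐ y : Space, p y) : ∀ᵐ x : Config m, p (x i) :=
  (Measure.quasiMeasurePreserving_eval (fun _ : Fin m => (volume : Measure Space)) i).ae h

theorem mbb_aesm_eval {E : Type*} [TopologicalSpace E] {f : Space → E} (hf : AEStronglyMeasurable f volume)
    (i : Fin m) : AEStronglyMeasurable (fun x : Config m => f (x i)) volume :=
  hf.comp_quasiMeasurePreserving (Measure.quasiMeasurePreserving_eval (fun _ : Fin m => (volume : Measure Space)) i)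

/-- `x ↦ (∏ᵢ fᵢ(xᵢ)) • δ_s`. -/
def tensFun (f : Fin m → Space → ℝ) (s : σ) (x : Config m) : EuclideanSpace ℂ σ :=
  ((∏ i, f i (x i) : ℝ) : ℂ) • EuclideanSpace.single s (1 : ℂ)

theorem mbb_aesm_prod {f : Fin m → Space → ℝ} (hf : ∀ i, AEStronglyMeasurable (f i) volume) :
    AEStronglyMeasurable (fun x : Config m => ∏ i, f i (x i)) volume :=
  Finset.aestronglyMeasurable_fun_prod _ fun i _ => mbb_aesm_eval (hf i) i

theorem mbb_norm_tensFun (f : Fin m → Space → ℝ) (s : σ) (x : Config m) :
    ‖tensFun f s x‖ = |∏ i, f i (x i)| := by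
  rw [tensFun, norm_smul, Complex.norm_real, Real.norm_eq_abs]
  simp

theorem memLp_tensFun {f : Fin m → Space → ℝ} (hf : ∀ i, MemLp (f i) 2 volume) (s : σ) :
    MemLp (tensFun f s) 2 volume := by
  have hm := mbb_aesm_prod fun i => (hf i).aestronglyMeasurable
  have hm' : AEStronglyMeasurable (tensFun f s) volume :=
    ((Complex.measurable_ofReal.comp_aemeasurable hm.aemeasurable).aestronglyMeasurable).smul_const _
  rw [memLp_two_iff_integrable_sq_norm hm']
  have : (fun x => ‖tensFun f s x‖ ^ 2) = fun x : Config m => ∏ i, (f i (x i)) ^ 2 := by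
    funext x
    rw [mbb_norm_tensFun, sq_abs, Finset.prod_pow]
  rw [this]
  exact Integrable.fintype_prod (f := fun i y => (f i y) ^ 2) (fun i => (hf i).integrable_sq)

/-- the product vector. -/
def tens (f : Fin m → Orb) (s : σ) : LS m σ :=
  (memLp_tensFun (f := fun i => (f i : Space → ℝ)) (fun i => Lp.memLp (f i)) s).toLp _

theorem coeFn_tens (f : Fin m → Orb) (s : σ) :
    (tens f s : Config m → EuclideanSpace ℂ σ) =ᵐ[volume] tensFun (fun i => (f i : Space → ℝ)) s :=
  MemLp.coeFn_toLp _

/-- independence of the representatives. -/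
theorem coeFn_tens_toOrb {f : Fin m → Space → ℝ} (hf : ∀ i, MemLp (f i) 2 volume) (s : σ) :
    (tens (fun i => toOrb (f i)) s : Config m → EuclideanSpace ℂ σ) =ᵐ[volume] tensFun f s := by
  have h1 : ∀ᵐ x : Config m, ∀ i, (toOrb (f i) : Space → ℝ) (x i) = f i (x i) :=
    ae_all_iff.2 fun i => mbb_ae_eval i (coeFn_toOrb (hf i))
  filter_upwards [coeFn_tens (fun i => toOrb (f i)) s, h1] with x hx h1x
  rw [hx]
  simp only [tensFun, h1x]

theorem mbb_tensFun_apply (f : Fin m → Space → ℝ) (s s' : σ) (x : Config m) :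
    tensFun f s x s' = if s' = s then ((∏ i, f i (x i) : ℝ) : ℂ) else 0 := by
  simp [tensFun]

theorem inner_tens_left (f : Fin m → Orb) (s : σ) (Ψ : LS m σ) :
    ⟪tens f s, Ψ⟫_ℂ = ∫ x : Config m, ((∏ i, (f i : Space → ℝ) (x i) : ℝ) : ℂ) * Ψ x s := by
  rw [L2.inner_def]
  refine integral_congr_ae ?_
  filter_upwards [coeFn_tens f s] with x hx
  rw [hx, tensFun, inner_smul_left, EuclideanSpace.inner_single_left]
  simp

theorem mbb_inner_orb (f g : Orb) : ⟪f, g⟫_ℝ = ∫ x, (f : Space → ℝ) x * (g : Space → ℝ) x := by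
  rw [L2.inner_def]
  refine integral_congr_ae (Eventually.of_forall fun x => ?_)
  simp [mul_comm]

theorem inner_tens (f g : Fin m → Orb) (s s' : σ) :
    ⟪tens f s, tens g s'⟫_ℂ = if s = s' then ((∏ i, ⟪f i, g i⟫_ℝ : ℝ) : ℂ) else 0 := by
  rw [inner_tens_left]
  by_cases h : s = s'
  · rw [if_pos h]
    simp only [mbb_inner_orb]
    rw [← integral_fintype_prod_volume_eq_prod (fun i y => (f i : Space → ℝ) y * (g i : Space → ℝ) y),
      ← integral_complex_ofReal]
    refine integral_congr_ae ?_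
    filter_upwards [coeFn_tens g s'] with x hx
    rw [hx, mbb_tensFun_apply, if_pos h, Finset.prod_mul_distrib]
    push_cast
    rfl
  · rw [if_neg h]
    rw [← integral_zero (Config m) ℂ]
    refine integral_congr_ae ?_
    filter_upwards [coeFn_tens g s'] with x hx
    rw [hx, mbb_tensFun_apply, if_neg h, mul_zero]

theorem norm_tens (f : Fin m → Orb) (s : σ) : ‖tens f s‖ = ∏ i, ‖f i‖ := by
  have h1 : ‖tens f s‖ ^ 2 = (∏ i, ‖f i‖) ^ 2 := by
    have h2 := inner_tens f f s s
    rw [if_pos rfl, inner_self_eq_norm_sq_to_K] at h2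
    have h3 : ∀ i, ⟪f i, f i⟫_ℝ = ‖f i‖ ^ 2 := fun i => real_inner_self_eq_norm_sq _
    simp only [h3, Finset.prod_pow] at h2
    have h4 : ((‖tens f s‖ ^ 2 : ℝ) : ℂ) = (((∏ i, ‖f i‖) ^ 2 : ℝ) : ℂ) := by
      rw [← h2]; push_cast; rfl
    exact Complex.ofReal_injective h4
  exact (pow_left_inj₀ (norm_nonneg _) (Finset.prod_nonneg fun i _ => norm_nonneg _) two_ne_zero).1 h1

theorem mbb_prod_update (f : Fin m → Orb) (i : Fin m) (h : Orb) (x : Config m) :
    ∏ j, (Function.update f i h j : Space → ℝ) (x j) =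
      (h : Space → ℝ) (x i) * ∏ j ∈ Finset.univ.erase i, (f j : Space → ℝ) (x j) := by
  rw [← Finset.mul_prod_erase _ _ (Finset.mem_univ i), Function.update_self]
  congr 1
  refine Finset.prod_congr rfl fun j hj => ?_
  rw [Function.update_of_ne (Finset.ne_of_mem_erase hj)]

theorem tens_update_add (f : Fin m → Orb) (i : Fin m) (g g' : Orb) (s : σ) :
    tens (Function.update f i (g + g')) s = tens (Function.update f i g) s + tens (Function.update f i g') s := by
  refine Lp.ext ?_
  filter_upwards [coeFn_tens (Function.update f i (g + g')) s, coeFn_tens (Function.update f i g) s,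
    coeFn_tens (Function.update f i g') s, mbb_ae_eval i (Lp.coeFn_add g g'),
    Lp.coeFn_add (tens (Function.update f i g) s) (tens (Function.update f i g') s)] with x h1 h2 h3 h4 h5
  rw [h5, Pi.add_apply, h1, h2, h3]
  simp only [tensFun, mbb_prod_update, h4, Pi.add_apply]
  rw [← add_smul]
  push_cast
  ring_nf

theorem tens_update_smul (f : Fin m → Orb) (i : Fin m) (c : ℝ) (g : Orb) (s : σ) :
    tens (Function.update f i (c • g)) s = (c : ℂ) • tens (Function.update f i g) s := by
  refine Lp.ext ?_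
  filter_upwards [coeFn_tens (Function.update f i (c • g)) s, coeFn_tens (Function.update f i g) s,
    mbb_ae_eval i (Lp.coeFn_smul c g), Lp.coeFn_smul (c : ℂ) (tens (Function.update f i g) s)] with x h1 h2 h4 h5
  rw [h5, Pi.smul_apply, h1, h2]
  simp only [tensFun, mbb_prod_update, h4, Pi.smul_apply, smul_eq_mul]
  rw [smul_smul]
  push_cast
  ring_nf

/-! ## BOX -/

theorem mbb_prod_indicator (A : Fin m → Set Space) (x : Config m) :
    ∏ i, (A i).indicator (fun _ => (1 : ℝ)) (x i) = (Set.pi Set.univ A).indicator (fun _ => (1 : ℝ)) x := by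
  by_cases hx : x ∈ Set.pi Set.univ A
  · rw [Set.indicator_of_mem hx]
    exact Finset.prod_eq_one fun i _ => Set.indicator_of_mem (hx i (Set.mem_univ i)) _
  · rw [Set.indicator_of_notMem hx]
    simp only [Set.mem_pi, Set.mem_univ, true_implies, not_forall] at hx
    obtain ⟨i, hi⟩ := hx
    exact Finset.prod_eq_zero (Finset.mem_univ i) (Set.indicator_of_notMem hi _)

/-- the integral over a box of finite sides. -/
theorem mbb_setIntegral_box {Ψ : LS m σ} (h : ∀ (f : Fin m → Orb) (s : σ), ⟪tens f s, Ψ⟫_ℂ = 0)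
    (s : σ) {A : Fin m → Set Space} (hA : ∀ i, MeasurableSet (A i)) (hfin : ∀ i, volume (A i) ≠ ⊤) :
    ∫ x in Set.pi Set.univ A, Ψ x s = 0 := by
  have h1 := h (fun i => indicatorConstLp 2 (hA i) (hfin i) (1 : ℝ)) s
  rw [inner_tens_left] at h1
  rw [← h1, ← integral_indicator (MeasurableSet.univ_pi hA)]
  refine integral_congr_ae ?_
  have h2 : ∀ᵐ x : Config m, ∀ i, (indicatorConstLp 2 (hA i) (hfin i) (1 : ℝ) : Space → ℝ) (x i) =
      (A i).indicator (fun _ => (1 : ℝ)) (x i) :=
    ae_all_iff.2 fun i => mbb_ae_eval i indicatorConstLp_coeFn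
  filter_upwards [h2] with x hx
  simp only [hx, mbb_prod_indicator]
  by_cases hxA : x ∈ Set.pi Set.univ A
  · simp [Set.indicator_of_mem hxA]
  · simp [Set.indicator_of_notMem hxA]

theorem mbb_memLp_comp (Ψ : LS m σ) (s : σ) : MemLp (fun x => Ψ x s) 2 (volume : Measure (Config m)) := by
  have := (EuclideanSpace.proj (𝕜 := ℂ) s).comp_memLp' (Lp.memLp Ψ)
  exact this

/-- product vectors are total in `LS m σ`. -/
theorem eq_zero_of_inner_tens {Ψ : LS m σ} (h : ∀ (f : Fin m → Orb) (s : σ), ⟪tens f s, Ψ⟫_ℂ = 0) :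
    Ψ = 0 := by
  have key : ∀ s : σ, ∀ᵐ x : Config m, Ψ x s = 0 := by
    intro s
    set B : ℕ → Set (Config m) := fun n => Set.pi Set.univ fun _ => Metric.ball (0 : Space) n with hB
    have hBm : ∀ n, MeasurableSet (B n) := fun n => MeasurableSet.univ_pi fun _ => measurableSet_ball
    have hBfin : ∀ n, volume (B n) < ⊤ := fun n => by
      rw [hB]
      simp only [volume_pi_pi]
      exact ENNReal.prod_lt_top fun _ _ => measure_ball_lt_top
    have hBU : ⋃ n, B n = Set.univ := by
      refine Set.eq_univ_of_forall fun x => ?_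
      obtain ⟨n, hn⟩ := exists_nat_gt (∑ i, ‖x i‖)
      refine Set.mem_iUnion.2 ⟨n, fun i _ => ?_⟩
      rw [mem_ball_zero_iff]
      exact lt_of_le_of_lt (Finset.single_le_sum (f := fun i => ‖x i‖) (fun _ _ => norm_nonneg _)
        (Finset.mem_univ i)) hn
    have hn : ∀ n, ∀ᵐ x ∂(volume.restrict (B n)), Ψ x s = 0 := by
      intro n
      have : IsFiniteMeasure (volume.restrict (B n)) := ⟨by rw [Measure.restrict_apply_univ]; exact hBfin n⟩
      have hint : Integrable (fun x => Ψ x s) (volume.restrict (B n)) :=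
        ((mbb_memLp_comp Ψ s).restrict (B n)).integrable one_le_two
      have hbox : ∀ A : Fin m → Set Space, (∀ i, MeasurableSet (A i)) →
          ∫ x in Set.pi Set.univ A, Ψ x s ∂(volume.restrict (B n)) = 0 := by
        intro A hA
        rw [Measure.restrict_restrict (MeasurableSet.univ_pi hA), hB, ← Set.pi_inter_distrib]
        exact mbb_setIntegral_box h s (fun i => (hA i).inter measurableSet_ball)
          (fun i => (lt_of_le_of_lt (measure_mono Set.inter_subset_right) measure_ball_lt_top).ne)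
      have hall : ∀ t, MeasurableSet t → ∫ x in t, Ψ x s ∂(volume.restrict (B n)) = 0 := by
        intro t ht
        induction t, ht using MeasurableSpace.induction_on_inter (generateFrom_pi (α := fun _ : Fin m => Space)).symm
          isPiSystem_pi with
        | empty => simp
        | basic t ht =>
          obtain ⟨A, hA, rfl⟩ := ht
          exact hbox A fun i => hA i (Set.mem_univ i)
        | compl t ht ih =>
          have h1 := integral_add_compl ht hint
          have h2 : ∫ x, Ψ x s ∂(volume.restrict (B n)) = 0 := by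
            have := hbox (fun _ => Set.univ) fun _ => MeasurableSet.univ
            simpa using this
          rw [ih, h2, zero_add] at h1
          exact h1
        | iUnion f hd hm ih =>
          rw [integral_iUnion hm hd hint.integrableOn]
          simp [ih]
      exact hint.ae_eq_zero_of_forall_setIntegral_eq_zero fun t ht _ => hall t ht
    have := (ae_restrict_iUnion_iff B _).2 hn
    rwa [hBU, Measure.restrict_univ] at this
  refine Lp.ext ?_
  filter_upwards [ae_all_iff.2 key, Lp.coeFn_zero (EuclideanSpace ℂ σ) 2 (volume : Measure (Config m))] with x hx h0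
  rw [h0]
  ext s
  exact hx s

/-! ## BASIS -/

section Basis

variable {ι : Type*} (u : HilbertBasis ι ℝ Orb)

theorem orthonormal_tens :
    Orthonormal ℂ (fun p : (Fin m → ι) × σ => tens (fun i => u (p.1 i)) p.2) := by
  classical
  rw [orthonormal_iff_ite]
  intro p p'
  rw [inner_tens]
  have hu := orthonormal_iff_ite.1 u.orthonormal
  by_cases h : p = p'
  · subst h
    rw [if_pos rfl, if_pos rfl, Finset.prod_eq_one fun i _ => by rw [hu, if_pos rfl]]
    simp
  · rw [if_neg h]
    by_cases h2 : p.2 = p'.2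
    · rw [if_pos h2]
      have h1 : p.1 ≠ p'.1 := fun h1 => h (Prod.ext h1 h2)
      obtain ⟨i, hi⟩ := Function.ne_iff.1 h1
      rw [Finset.prod_eq_zero (Finset.mem_univ i) (by rw [hu, if_neg hi])]
      simp
    · rw [if_neg h2]

/-- the map `g ↦ tens (update f j g) s` is additive and bounded. -/
theorem mbb_continuous_update (f : Fin m → Orb) (j : Fin m) (s : σ) :
    Continuous fun g : Orb => tens (Function.update f j g) s := by
  let T : Orb →+ LS m σ := AddMonoidHom.mk' (fun g => tens (Function.update f j g) s)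
    (fun g g' => tens_update_add f j g g' s)
  refine AddMonoidHomClass.continuous_of_bound T (∏ i ∈ Finset.univ.erase j, ‖f i‖) fun g => ?_
  show ‖tens (Function.update f j g) s‖ ≤ _
  rw [norm_tens, ← Finset.mul_prod_erase _ _ (Finset.mem_univ j), Function.update_self, mul_comm]
  refine le_of_eq ?_
  congr 1
  refine Finset.prod_congr rfl fun i hi => ?_
  rw [Function.update_of_ne (Finset.ne_of_mem_erase hi)]

/-- the closed real subspace of the `g` with vanishing coefficient. -/
theorem mbb_slot {Ψ : LS m σ} (f : Fin m → Orb) (j : Fin m) (s : σ)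
    (h : ∀ κ, ⟪tens (Function.update f j (u κ)) s, Ψ⟫_ℂ = 0) (g : Orb) :
    ⟪tens (Function.update f j g) s, Ψ⟫_ℂ = 0 := by
  let Z : Submodule ℝ Orb :=
    { carrier := {g | ⟪tens (Function.update f j g) s, Ψ⟫_ℂ = 0}
      add_mem' := fun {a b} ha hb => by
        simp only [Set.mem_ofPred_eq] at ha hb ⊢
        rw [tens_update_add, inner_add_left, ha, hb, add_zero]
      zero_mem' := by
        simp only [Set.mem_ofPred_eq]
        have := tens_update_smul f j 0 0 s
        rw [zero_smul] at this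
        rw [this]
        simp
      smul_mem' := fun c a ha => by
        simp only [Set.mem_ofPred_eq] at ha ⊢
        rw [tens_update_smul, inner_smul_left, ha, mul_zero] }
  have hZc : IsClosed (Z : Set Orb) :=
    isClosed_eq ((mbb_continuous_update f j s).inner continuous_const) continuous_const
  have h1 : Submodule.span ℝ (Set.range u) ≤ Z := Submodule.span_le.2 (by rintro _ ⟨κ, rfl⟩; exact h κ)
  have h2 := Submodule.topologicalClosure_minimal _ h1 hZc
  rw [u.dense_span] at h2
  exact h2 (Submodule.mem_top (x := g))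

theorem orthogonal_tens_eq_bot :
    (Submodule.span ℂ (Set.range fun p : (Fin m → ι) × σ => tens (fun i => u (p.1 i)) p.2))ᗮ = ⊥ := by
  classical
  rw [Submodule.eq_bot_iff]
  intro Ψ hΨ
  have h0 : ∀ (k : Fin m → ι) (s : σ), ⟪tens (fun i => u (k i)) s, Ψ⟫_ℂ = 0 := fun k s =>
    (Submodule.mem_orthogonal _ _).1 hΨ _ (Submodule.subset_span ⟨(k, s), rfl⟩)
  refine eq_zero_of_inner_tens fun f s => ?_
  have key : ∀ T : Finset (Fin m), ∀ f : Fin m → Orb, (∀ i ∉ T, f i ∈ Set.range u) → ⟪tens f s, Ψ⟫_ℂ = 0 := by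
    intro T
    induction T using Finset.induction_on with
    | empty =>
      intro f hf
      choose k hk using fun i => hf i (Finset.notMem_empty i)
      have : f = fun i => u (k i) := funext fun i => (hk i).symm
      rw [this]
      exact h0 k s
    | insert j T _ ih =>
      intro f hf
      have := mbb_slot u (Ψ := Ψ) f j s (fun κ => ih _ fun i hi => ?_) (f j)
      · rwa [Function.update_eq_self] at this
      · by_cases hij : i = j
        · subst hij
          rw [Function.update_self]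
          exact ⟨κ, rfl⟩
        · rw [Function.update_of_ne hij]
          exact hf i (by simp [hij, hi])
  exact key Finset.univ f fun i hi => absurd (Finset.mem_univ i) hi

/-- **the product Hilbert basis** of `LS m σ`. -/
def prodBasis : HilbertBasis ((Fin m → ι) × σ) ℂ (LS m σ) :=
  HilbertBasis.mkOfOrthogonalEqBot (orthonormal_tens u) (orthogonal_tens_eq_bot u)

theorem prodBasis_apply (p : (Fin m → ι) × σ) :
    prodBasis u p = tens (fun i => u (p.1 i)) p.2 := by
  simp [prodBasis]

/-- Parseval. -/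
theorem hasSum_coeff_sq (Ψ : LS m σ) :
    HasSum (fun p : (Fin m → ι) × σ => ‖⟪prodBasis u p, Ψ⟫_ℂ‖ ^ 2) (‖Ψ‖ ^ 2) := by
  have h := (prodBasis u).hasSum_inner_mul_inner Ψ Ψ
  rw [inner_self_eq_norm_sq_to_K] at h
  have e : ∀ p, ⟪Ψ, prodBasis u p⟫_ℂ * ⟪prodBasis u p, Ψ⟫_ℂ = ((‖⟪prodBasis u p, Ψ⟫_ℂ‖ ^ 2 : ℝ) : ℂ) := fun p => by
    rw [← inner_conj_symm, mul_comm, Complex.mul_conj, Complex.normSq_eq_norm_sq]
  simp only [e] at h
  have h' : HasSum (fun p => ((‖⟪prodBasis u p, Ψ⟫_ℂ‖ ^ 2 : ℝ) : ℂ)) ((‖Ψ‖ ^ 2 : ℝ) : ℂ) := by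
    rw [Complex.ofReal_pow]
    exact h
  exact Complex.hasSum_ofReal.1 h'

/-- weighted Parseval sums are summable. -/
theorem summable_weight_coeff_sq (Ψ : LS m σ) {w : (Fin m → ι) × σ → ℝ} {C : ℝ} (hw : ∀ p, |w p| ≤ C) :
    Summable (fun p : (Fin m → ι) × σ => w p * ‖⟪prodBasis u p, Ψ⟫_ℂ‖ ^ 2) := by
  refine Summable.of_norm_bounded ((hasSum_coeff_sq u Ψ).summable.mul_left C) fun p => ?_
  rw [Real.norm_eq_abs, abs_mul, abs_of_nonneg (sq_nonneg ‖⟪prodBasis u p, Ψ⟫_ℂ‖)]
  exact mul_le_mul_of_nonneg_right (hw p) (sq_nonneg _)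

/-- termwise comparison on the support of the coefficients. -/
theorem le_tsum_of_support (Ψ : LS m σ) {w : (Fin m → ι) × σ → ℝ} {C c : ℝ} (hw : ∀ p, |w p| ≤ C)
    (hc : ∀ p, ⟪prodBasis u p, Ψ⟫_ℂ ≠ 0 → c ≤ w p) :
    c * ‖Ψ‖ ^ 2 ≤ ∑' p : (Fin m → ι) × σ, w p * ‖⟪prodBasis u p, Ψ⟫_ℂ‖ ^ 2 := by
  rw [← (hasSum_coeff_sq u Ψ).tsum_eq, ← tsum_mul_left]
  refine ((hasSum_coeff_sq u Ψ).summable.mul_left c).tsum_le_tsum (fun p => ?_) (summable_weight_coeff_sq u Ψ hw)
  by_cases h0 : ⟪prodBasis u p, Ψ⟫_ℂ = 0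
  · simp [h0]
  · exact mul_le_mul_of_nonneg_right (hc p h0) (sq_nonneg _)

end Basis

/-- a Hilbert basis of `Orb` containing two given orthonormal vectors. -/
theorem exists_basis_of_pair {f g : Orb} (hf : ‖f‖ = 1) (hg : ‖g‖ = 1) (hfg : ⟪f, g⟫_ℝ = 0) :
    ∃ (ι : Type) (u : HilbertBasis ι ℝ Orb) (κf κg : ι), κf ≠ κg ∧ u κf = f ∧ u κg = g := by
  classical
  have hff : ⟪f, f⟫_ℝ = 1 := by rw [real_inner_self_eq_norm_sq, hf]; norm_num
  have hgg : ⟪g, g⟫_ℝ = 1 := by rw [real_inner_self_eq_norm_sq, hg]; norm_num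
  have hne : f ≠ g := fun h => by rw [h, hgg] at hfg; exact one_ne_zero hfg
  have hs : Orthonormal ℝ ((↑) : ({f, g} : Set Orb) → Orb) := by
    rw [orthonormal_subtype_iff_ite]
    intro v hv w hw
    simp only [Set.mem_insert_iff, Set.mem_singleton_iff] at hv hw
    rcases hv with rfl | rfl <;> rcases hw with rfl | rfl
    · rw [if_pos rfl]; exact hff
    · rw [if_neg hne]; exact hfg
    · rw [if_neg hne.symm, real_inner_comm]; exact hfg
    · rw [if_pos rfl]; exact hgg
  obtain ⟨w, b, hsw, hb⟩ := hs.exists_hilbertBasis_extension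
  refine ⟨w, b, ⟨f, hsw (by simp)⟩, ⟨g, hsw (by simp)⟩, fun h => hne (congrArg Subtype.val h), ?_, ?_⟩
  · rw [hb]
  · rw [hb]

end General

/-! ## ANTI -/

/-- action of a permutation on a product vector. -/
theorem tens_comp_perm (f : Fin m → Orb) (s : SpinConfig m) (π : Equiv.Perm (Fin m)) :
    ∀ᵐ x : Config m, ∀ s' : SpinConfig m,
      tens f s (x ∘ π) (s' ∘ π) = tens (f ∘ π.symm) (s ∘ π.symm) x s' := by
  have h1 : ∀ᵐ x : Config m, tens f s (x ∘ π) = tensFun (fun i => (f i : Space → ℝ)) s (x ∘ π) :=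
    (measurePreserving_comp_perm π).quasiMeasurePreserving.ae (coeFn_tens f s)
  filter_upwards [h1, coeFn_tens (f ∘ π.symm) (s ∘ π.symm)] with x hx hx' s'
  rw [hx, hx', mbb_tensFun_apply, mbb_tensFun_apply]
  have e1 : (s' ∘ π = s) ↔ (s' = s ∘ π.symm) := by
    constructor
    · rintro rfl; funext i; simp
    · rintro rfl; funext i; simp
  have e2 : ∏ i, (f i : Space → ℝ) ((x ∘ π) i) = ∏ i, ((f ∘ π.symm) i : Space → ℝ) (x i) := by
    rw [← Equiv.prod_comp π (fun i => ((f ∘ π.symm) i : Space → ℝ) (x i))]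
    simp
  simp only [e1, e2]

/-- the sign rule for the coefficients of an antisymmetric vector. -/
theorem inner_tens_perm {Ξ : L2 m} (hΞ : IsAntisymmetric Ξ) (π : Equiv.Perm (Fin m)) (f : Fin m → Orb)
    (s : SpinConfig m) :
    ⟪tens (f ∘ π) (s ∘ π), Ξ⟫_ℂ = ((Equiv.Perm.sign π : ℤ) : ℂ) * ⟪tens f s, Ξ⟫_ℂ := by
  rw [inner_tens_left, inner_tens_left,
    ← (measurePreserving_comp_perm π).integral_comp (measurableEmbedding_comp_perm π), ← integral_const_mul]
  refine integral_congr_ae ?_
  filter_upwards [hΞ π] with x hx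
  rw [hx s]
  have e2 : ∏ i, ((f ∘ π) i : Space → ℝ) ((x ∘ π) i) = ∏ i, (f i : Space → ℝ) (x i) :=
    Equiv.prod_comp π (fun i => (f i : Space → ℝ) (x i))
  rw [e2]
  ring

/-- **Pauli principle**: no two particles in the same spin orbital. -/
theorem inner_tens_eq_zero_of_repeat {Ξ : L2 m} (hΞ : IsAntisymmetric Ξ) {f : Fin m → Orb} {s : SpinConfig m}
    {i j : Fin m} (hij : i ≠ j) (hf : f i = f j) (hs : s i = s j) : ⟪tens f s, Ξ⟫_ℂ = 0 := by
  have h := inner_tens_perm hΞ (Equiv.swap i j) f s
  have e1 : f ∘ Equiv.swap i j = f := by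
    funext k
    simp only [Function.comp]
    rcases eq_or_ne k i with rfl | hki
    · rw [Equiv.swap_apply_left, hf]
    · rcases eq_or_ne k j with rfl | hkj
      · rw [Equiv.swap_apply_right, hf]
      · rw [Equiv.swap_apply_of_ne_of_ne hki hkj]
  have e2 : s ∘ Equiv.swap i j = s := by
    funext k
    simp only [Function.comp]
    rcases eq_or_ne k i with rfl | hki
    · rw [Equiv.swap_apply_left, hs]
    · rcases eq_or_ne k j with rfl | hkj
      · rw [Equiv.swap_apply_right, hs]
      · rw [Equiv.swap_apply_of_ne_of_ne hki hkj]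
  rw [e1, e2, Equiv.Perm.sign_swap hij] at h
  have h2 : (2 : ℂ) * ⟪tens f s, Ξ⟫_ℂ = 0 := by
    have : ⟪tens f s, Ξ⟫_ℂ = -⟪tens f s, Ξ⟫_ℂ := by
      conv_lhs => rw [h]
      simp
    linear_combination this
  exact (mul_eq_zero.1 h2).resolve_left two_ne_zero

theorem inner_tens_eq_zero_of_sector {μ : ℚ} {Ξ : L2 m} (hΞ : InSpinSector μ Ξ) (f : Fin m → Orb)
    {s : SpinConfig m} (hs : spinZ s ≠ μ) : ⟪tens f s, Ξ⟫_ℂ = 0 := by
  rw [inner_tens_left, ← integral_zero (Config m) ℂ]
  refine integral_congr_ae ?_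
  filter_upwards [hΞ] with x hx
  rw [hx s hs, mul_zero]

theorem inSpinSector_tens (f : Fin m → Orb) (s : SpinConfig m) : InSpinSector (spinZ s) (tens f s) := by
  filter_upwards [coeFn_tens f s] with x hx s' hs'
  rw [hx, mbb_tensFun_apply, if_neg fun h => hs' (by rw [h])]

end Claimed.Open.R278
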