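import Claimed.Open.R278.MBFub

/-!
# Result 278, layer L2a (BP-MB1): LIFTING ONE-BODY FORM INEQUALITIES TO `L2 m`      (COMPLETE, no sorry)

Architect + prover: helper51.  No paper needed.  Helper lemmas: prefix `mbl_`.

`occ u i κ Ψ = ∑_{p : p.1 i = κ} |⟪prodBasis u p, Ψ⟫|²` is `‖(|u_κ⟩⟨u_κ|)_i Ψ‖²`, the occupation of the spatial orbital `u κ` by particle `i`.

* C1C: `C¹_c` vectors for general `m`, density in `H¹` (`exists_c1c_approx`).
* OCC: elementary properties of `occ`.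
* FIBER: `fibOv f i F y = ∫ f(r) F(r, y) dr`; `mbl_parseval`: `occ u i κ F = ∫ ‖fibOv (u κ) i F y‖² dy` (Parseval in `n` particles + Fubini for the coefficients).
* LIFT: `mbl_vec` (one-body bound for vector valued `C¹_c` functions, by real components), `mbl_lift_succ` (integration over the other particles), `lift_c1c`.
* COUL: `MblQF` (quantities behaving like bounded nonnegative quadratic forms on `H¹`), `MblQF.le_of_c1c` (density argument), `lift_coulomb`, `energy_zero_eq_sum`,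
  `energy_zero_ge`, `energy_zero_ge_of_support`.
-/

open MeasureTheory Filter
open scoped ContDiff InnerProductSpace ComplexConjugate ENNReal Topology

noncomputable section

set_option linter.unusedSectionVars false

namespace Claimed.Open.R278

variable {m : ℕ}

local notation "uD" => nuclearPotential 1 bigD

/-! ## C1C -/

/-- the class of a `C¹_c` function. -/
def c1c (F : Config m → SpinSpace m) (hF : ContDiff ℝ 1 F) (hc : HasCompactSupport F) : L2 m :=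
  (hF.continuous.memLp_of_hasCompactSupport hc).toLp F

theorem coeFn_c1c {F : Config m → SpinSpace m} (hF : ContDiff ℝ 1 F) (hc : HasCompactSupport F) :
    (c1c F hF hc : Config m → SpinSpace m) =ᵐ[volume] F :=
  MemLp.coeFn_toLp _

theorem mbl_memLp_fderiv {F : Config m → SpinSpace m} (hF : ContDiff ℝ 1 F) (hc : HasCompactSupport F)
    (v : Config m) : MemLp (fun x => fderiv ℝ F x v) 2 volume :=
  ((hF.continuous_fderiv (by simp)).clm_apply continuous_const).memLp_of_hasCompactSupport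
    (hc.fderiv_apply (𝕜 := ℝ) v)

theorem isWeakGradient_c1c {F : Config m → SpinSpace m} (hF : ContDiff ℝ 1 F) (hc : HasCompactSupport F) :
    IsWeakGradient (c1c F hF hc) (fun j => (mbl_memLp_fderiv hF hc (dir j)).toLp _) :=
  isWeakGradient_toLp _ _ fun j => (HasWeakDeriv.of_contDiff hF (dir j)).weak

theorem memH1_c1c {F : Config m → SpinSpace m} (hF : ContDiff ℝ 1 F) (hc : HasCompactSupport F) :
    MemH1 (c1c F hF hc) := ⟨_, isWeakGradient_c1c hF hc⟩

theorem coeFn_weakGrad_c1c {F : Config m → SpinSpace m} (hF : ContDiff ℝ 1 F) (hc : HasCompactSupport F)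
    (j : Fin m × Fin 3) :
    (weakGrad (c1c F hF hc) j : Config m → SpinSpace m) =ᵐ[volume] fun x => fderiv ℝ F x (dir j) := by
  rw [(isWeakGradient_c1c hF hc).weakGrad_eq]
  exact MemLp.coeFn_toLp _

/-- `C¹_c` is dense in `H¹`. -/
theorem exists_c1c_approx {Ψ : L2 m} (h : MemH1 Ψ) {η : ℝ} (hη : 0 < η) :
    ∃ (F : Config m → SpinSpace m) (hF : ContDiff ℝ 1 F) (hc : HasCompactSupport F),
      h1sq (c1c F hF hc - Ψ) ≤ η := by
  have hη' : 0 < η / (3 * m + 1) := by positivity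
  obtain ⟨F, hF, hc, h0, h1⟩ := exists_contDiff_hasCompactSupport_approx (μ := (volume : Measure (Config m)))
    (v := fun j : Fin m × Fin 3 => dir j) (Lp.memLp Ψ) (fun j => Lp.memLp (weakGrad Ψ j))
    (fun j => h.isWeakGradient j) hη'
  refine ⟨F, hF, hc, ?_⟩
  have e0 : ‖c1c F hF hc - Ψ‖ ^ 2 ≤ η / (3 * m + 1) := by
    rw [L2.norm_sub_sq_eq]
    refine le_trans (le_of_eq ?_) h0
    refine integral_congr_ae ?_
    filter_upwards [coeFn_c1c hF hc] with x hx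
    rw [hx]
  have e1 : ∀ j, ‖weakGrad (c1c F hF hc - Ψ) j‖ ^ 2 ≤ η / (3 * m + 1) := fun j => by
    rw [mbf_weakGrad_sub (memH1_c1c hF hc) h, Pi.sub_apply, L2.norm_sub_sq_eq]
    refine le_trans (le_of_eq ?_) (h1 j)
    refine integral_congr_ae ?_
    filter_upwards [coeFn_weakGrad_c1c hF hc j] with x hx
    rw [hx]
  unfold h1sq kin
  calc ‖c1c F hF hc - Ψ‖ ^ 2 + ∑ j, ‖weakGrad (c1c F hF hc - Ψ) j‖ ^ 2
      ≤ η / (3 * m + 1) + ∑ _j : Fin m × Fin 3, η / (3 * m + 1) := add_le_add e0 (Finset.sum_le_sum fun j _ => e1 j)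
    _ = η := by
      rw [Finset.sum_const, Finset.card_univ, Fintype.card_prod, Fintype.card_fin, Fintype.card_fin, nsmul_eq_mul]
      push_cast
      field_simp
      ring

/-! ## OCC -/

section Occ

variable {ι : Type*} (u : HilbertBasis ι ℝ Orb)

open Classical in
/-- occupation of the spatial orbital `u κ` by particle `i`. -/
def occ (i : Fin m) (κ : ι) (Ψ : L2 m) : ℝ :=
  ∑' p : (Fin m → ι) × SpinConfig m, if p.1 i = κ then ‖⟪prodBasis u p, Ψ⟫_ℂ‖ ^ 2 else 0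

open Classical in
theorem mbl_summable_occ (i : Fin m) (κ : ι) (Ψ : L2 m) :
    Summable fun p : (Fin m → ι) × SpinConfig m => if p.1 i = κ then ‖⟪prodBasis u p, Ψ⟫_ℂ‖ ^ 2 else 0 := by
  refine Summable.of_nonneg_of_le (fun p => ?_) (fun p => ?_) (hasSum_coeff_sq u Ψ).summable
  · split_ifs <;> positivity
  · split_ifs
    · exact le_rfl
    · positivity

open Classical in
theorem mbl_hasSum_occ (i : Fin m) (κ : ι) (Ψ : L2 m) :
    HasSum (fun p : (Fin m → ι) × SpinConfig m => if p.1 i = κ then ‖⟪prodBasis u p, Ψ⟫_ℂ‖ ^ 2 else 0)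
      (occ u i κ Ψ) :=
  (mbl_summable_occ u i κ Ψ).hasSum

theorem occ_nonneg (i : Fin m) (κ : ι) (Ψ : L2 m) : 0 ≤ occ u i κ Ψ := by
  classical
  refine tsum_nonneg fun p => ?_
  split_ifs <;> positivity

theorem occ_le (i : Fin m) (κ : ι) (Ψ : L2 m) : occ u i κ Ψ ≤ ‖Ψ‖ ^ 2 := by
  classical
  refine hasSum_le (fun p => ?_) (mbl_hasSum_occ u i κ Ψ) (hasSum_coeff_sq u Ψ)
  split_ifs
  · exact le_rfl
  · positivity

theorem occ_add_le (i : Fin m) (κ : ι) (Ψ Φ : L2 m) {δ : ℝ} (hδ : 0 < δ) :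
    occ u i κ (Ψ + Φ) ≤ (1 + δ) * occ u i κ Ψ + (1 + 1 / δ) * ‖Φ‖ ^ 2 := by
  classical
  have h1 : occ u i κ (Ψ + Φ) ≤ (1 + δ) * occ u i κ Ψ + (1 + 1 / δ) * occ u i κ Φ := by
    refine hasSum_le (fun p => ?_) (mbl_hasSum_occ u i κ (Ψ + Φ))
      (((mbl_hasSum_occ u i κ Ψ).mul_left (1 + δ)).add ((mbl_hasSum_occ u i κ Φ).mul_left (1 + 1 / δ)))
    split_ifs
    · rw [inner_add_right]
      set a := ⟪prodBasis u p, Ψ⟫_ℂ
      set b := ⟪prodBasis u p, Φ⟫_ℂ
      have h2 : ‖a + b‖ ^ 2 ≤ (‖a‖ + ‖b‖) ^ 2 := pow_le_pow_left₀ (norm_nonneg _) (norm_add_le a b) 2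
      have h3 : 2 * ‖a‖ * ‖b‖ ≤ δ * ‖a‖ ^ 2 + 1 / δ * ‖b‖ ^ 2 := by
        have h4 : 0 ≤ (δ * ‖a‖ - ‖b‖) ^ 2 / δ := by positivity
        have h5 : (δ * ‖a‖ - ‖b‖) ^ 2 / δ = δ * ‖a‖ ^ 2 + 1 / δ * ‖b‖ ^ 2 - 2 * ‖a‖ * ‖b‖ := by
          field_simp
          ring
        linarith
      nlinarith
    · simp
  have h2 : (1 + 1 / δ) * occ u i κ Φ ≤ (1 + 1 / δ) * ‖Φ‖ ^ 2 :=
    mul_le_mul_of_nonneg_left (occ_le u i κ Φ) (by positivity)
  linarith

open Classical in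
/-- linear combinations of `‖Ψ‖²` and occupations as one weighted Parseval sum. -/
theorem sub_occ_eq_tsum {L : Type} [Fintype L] (c₀ : ℝ) (a : L → ℝ) (κ : L → ι) (Ψ : L2 m) :
    ∑ i : Fin m, (c₀ * ‖Ψ‖ ^ 2 - ∑ l, a l * occ u i (κ l) Ψ) =
      ∑' p : (Fin m → ι) × SpinConfig m,
        (∑ i : Fin m, (c₀ - ∑ l, if p.1 i = κ l then a l else 0)) * ‖⟪prodBasis u p, Ψ⟫_ℂ‖ ^ 2 := by
  have h1 : HasSum (fun p : (Fin m → ι) × SpinConfig m => ∑ i : Fin m, (c₀ * ‖⟪prodBasis u p, Ψ⟫_ℂ‖ ^ 2 -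
      ∑ l, a l * (if p.1 i = κ l then ‖⟪prodBasis u p, Ψ⟫_ℂ‖ ^ 2 else 0)))
      (∑ i : Fin m, (c₀ * ‖Ψ‖ ^ 2 - ∑ l, a l * occ u i (κ l) Ψ)) :=
    hasSum_sum fun i _ => ((hasSum_coeff_sq u Ψ).mul_left c₀).sub
      (hasSum_sum fun l _ => (mbl_hasSum_occ u i (κ l) Ψ).mul_left (a l))
  rw [← h1.tsum_eq]
  refine tsum_congr fun p => ?_
  rw [Finset.sum_mul]
  refine Finset.sum_congr rfl fun i _ => ?_
  rw [sub_mul, Finset.sum_mul]
  congr 1
  refine Finset.sum_congr rfl fun l _ => ?_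
  split_ifs <;> ring

end Occ

/-! ## FIBER -/

/-- Cauchy-Schwarz. -/
theorem mbl_cs {α : Type*} [MeasurableSpace α] {ν : Measure α} {a b : α → ℝ} (ha : MemLp a 2 ν)
    (hb : MemLp b 2 ν) : (∫ x, a x * b x ∂ν) ^ 2 ≤ (∫ x, a x ^ 2 ∂ν) * ∫ x, b x ^ 2 ∂ν := by
  have iab : Integrable (fun x => a x * b x) ν := ha.integrable_mul hb
  have ia := ha.integrable_sq
  have ib := hb.integrable_sq
  have key : ∀ t : ℝ, 0 ≤ (∫ x, a x ^ 2 ∂ν) * (t * t) + (2 * ∫ x, a x * b x ∂ν) * t + ∫ x, b x ^ 2 ∂ν := by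
    intro t
    have e : ∫ x, (t * a x + b x) ^ 2 ∂ν =
        (∫ x, a x ^ 2 ∂ν) * (t * t) + (2 * ∫ x, a x * b x ∂ν) * t + ∫ x, b x ^ 2 ∂ν := by
      have : ∀ x, (t * a x + b x) ^ 2 = a x ^ 2 * (t * t) + (2 * t) * (a x * b x) + b x ^ 2 := by
        intro x; ring
      simp only [this]
      have j0 : Integrable (fun x => a x ^ 2 * (t * t)) ν := ia.mul_const _
      have j1 : Integrable (fun x => (2 * t) * (a x * b x)) ν := iab.const_mul _
      have j2 : Integrable (fun x => a x ^ 2 * (t * t) + (2 * t) * (a x * b x)) ν := j0.add j1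
      rw [integral_add j2 ib, integral_add j0 j1, integral_mul_const, integral_const_mul]
      ring
    rw [← e]
    exact integral_nonneg fun x => sq_nonneg _
  have := discrim_le_zero key
  rw [discrim] at this
  nlinarith

section Fiber

variable {n : ℕ} {σ : Type*} [Fintype σ] [DecidableEq σ]

/-- the partial overlap `θ(y) = ∫ f(r) F(r, y) dr` in the variable of particle `i`. -/
def fibOv (f : Orb) (i : Fin (n + 1)) (F : Config (n + 1) → EuclideanSpace ℂ σ) (y : Config n) :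
    EuclideanSpace ℂ σ :=
  ∫ r : Space, (f : Space → ℝ) r • F (i.insertNth r y : Config (n + 1))

variable (f : Orb) (i : Fin (n + 1)) {F : Config (n + 1) → EuclideanSpace ℂ σ}

theorem mbl_integrable_slice (hF : Continuous F) (hc : HasCompactSupport F) (y : Config n) :
    Integrable fun r : Space => (f : Space → ℝ) r • F (i.insertNth r y : Config (n + 1)) :=
  ((Lp.memLp f).locallyIntegrable (by norm_num)).integrable_smul_right_of_hasCompactSupport
    (hF.comp ((mbi_continuous_ins i).comp (Continuous.prodMk_right y))) (mbi_hasCompactSupport_slice hc i y)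

theorem mbl_stronglyMeasurable_fibOv (hF : Continuous F) : StronglyMeasurable (fibOv f i F) := by
  refine StronglyMeasurable.integral_prod_right (f := fun (y : Config n) (r : Space) =>
    (f : Space → ℝ) r • F (i.insertNth r y : Config (n + 1))) ?_
  exact ((Lp.stronglyMeasurable f).comp_measurable measurable_snd).smul
    (hF.comp (mbi_continuous_ins i)).stronglyMeasurable

theorem mbl_norm_fibOv_sq_le (hF : Continuous F) (hc : HasCompactSupport F) (y : Config n) :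
    ‖fibOv f i F y‖ ^ 2 ≤ ‖f‖ ^ 2 * ∫ r : Space, ‖F (i.insertNth r y : Config (n + 1))‖ ^ 2 := by
  have hs : Continuous fun r : Space => F (i.insertNth r y : Config (n + 1)) :=
    hF.comp ((mbi_continuous_ins i).comp (Continuous.prodMk_right y))
  have hm : MemLp (fun r : Space => ‖F (i.insertNth r y : Config (n + 1))‖) 2 volume :=
    (hs.memLp_of_hasCompactSupport (mbi_hasCompactSupport_slice hc i y)).norm
  have hf : MemLp (fun r : Space => |(f : Space → ℝ) r|) 2 volume := (Lp.memLp f).abs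
  have h1 : ‖fibOv f i F y‖ ≤ ∫ r : Space, |(f : Space → ℝ) r| * ‖F (i.insertNth r y : Config (n + 1))‖ := by
    refine (norm_integral_le_integral_norm _).trans (le_of_eq ?_)
    refine integral_congr_ae (Eventually.of_forall fun r => ?_)
    simp only [norm_smul, Real.norm_eq_abs]
  have h2 := mbl_cs hf hm
  have h3 : ∫ r : Space, |(f : Space → ℝ) r| ^ 2 = ‖f‖ ^ 2 := by
    simp only [sq_abs]
    rw [← real_inner_self_eq_norm_sq, mbb_inner_orb]
    exact integral_congr_ae (Eventually.of_forall fun r => by ring)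
  rw [h3] at h2
  exact (pow_le_pow_left₀ (norm_nonneg _) h1 2).trans h2

theorem mbl_integrable_norm_sq (hF : Continuous F) (hc : HasCompactSupport F) :
    Integrable fun x : Config (n + 1) => ‖F x‖ ^ 2 :=
  (hF.memLp_of_hasCompactSupport hc).integrable_norm_pow two_ne_zero

theorem mbl_integrable_fibOv_sq (hF : Continuous F) (hc : HasCompactSupport F) :
    Integrable fun y : Config n => ‖fibOv f i F y‖ ^ 2 := by
  refine Integrable.mono' ((mbi_integrable_integral i (mbl_integrable_norm_sq hF hc)).const_mul (‖f‖ ^ 2))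
    ((mbl_stronglyMeasurable_fibOv f i hF).norm.pow 2).aestronglyMeasurable (Eventually.of_forall fun y => ?_)
  rw [Real.norm_eq_abs, abs_of_nonneg (sq_nonneg _)]
  exact mbl_norm_fibOv_sq_le f i hF hc y

theorem mbl_memLp_fibOv (hF : Continuous F) (hc : HasCompactSupport F) : MemLp (fibOv f i F) 2 volume :=
  (memLp_two_iff_integrable_sq_norm (mbl_stronglyMeasurable_fibOv f i hF).aestronglyMeasurable).2
    (mbl_integrable_fibOv_sq f i hF hc)

theorem mbl_fibOv_apply (hF : Continuous F) (hc : HasCompactSupport F) (y : Config n) (s : σ) :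
    fibOv f i F y s = ∫ r : Space, (((f : Space → ℝ) r : ℝ) : ℂ) * F (i.insertNth r y : Config (n + 1)) s := by
  have := (EuclideanSpace.proj (𝕜 := ℂ) s).integral_comp_comm (mbl_integrable_slice f i hF hc y)
  rw [fibOv]
  refine Eq.trans this.symm ?_
  refine integral_congr_ae (Eventually.of_forall fun r => ?_)
  simp

variable {ι : Type*} (u : HilbertBasis ι ℝ Orb)

theorem mbl_integrable_coeff (g : Fin (n + 1) → Orb) (s : σ) (hF : Continuous F) (hc : HasCompactSupport F) :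
    Integrable fun x : Config (n + 1) => ((∏ j, (g j : Space → ℝ) (x j) : ℝ) : ℂ) * F x s := by
  refine (MeasureTheory.L2.integrable_inner (𝕜 := ℂ) (tens g s) ((hF.memLp_of_hasCompactSupport hc).toLp F)).congr ?_
  filter_upwards [coeFn_tens g s, (hF.memLp_of_hasCompactSupport hc).coeFn_toLp] with x h1 h2
  rw [h1, h2, tensFun, inner_smul_left, EuclideanSpace.inner_single_left]
  simp

/-- the coefficients of the partial overlap. -/
theorem mbl_coeff (κ : ι) (k : Fin n → ι) (s : σ) (hF : Continuous F) (hc : HasCompactSupport F) :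
    ⟪tens (fun j => u (k j)) s, (mbl_memLp_fibOv (u κ) i hF hc).toLp _⟫_ℂ =
      ⟪tens (fun j => u ((i.insertNth κ k : Fin (n + 1) → ι) j)) s,
        (hF.memLp_of_hasCompactSupport (μ := volume) (p := 2) hc).toLp F⟫_ℂ := by
  have hFm : MemLp F 2 (volume : Measure (Config (n + 1))) := hF.memLp_of_hasCompactSupport hc
  change _ = ⟪tens (fun j => u ((i.insertNth κ k : Fin (n + 1) → ι) j)) s, hFm.toLp F⟫_ℂ
  rw [inner_tens_left, inner_tens_left]
  have e1 : ∫ x : Config (n + 1), ((∏ j, (u ((i.insertNth κ k : Fin (n + 1) → ι) j) : Space → ℝ) (x j) : ℝ) : ℂ) *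
        (hFm.toLp F : Config (n + 1) → EuclideanSpace ℂ σ) x s =
      ∫ x : Config (n + 1), ((∏ j, (u ((i.insertNth κ k : Fin (n + 1) → ι) j) : Space → ℝ) (x j) : ℝ) : ℂ) * F x s := by
    refine integral_congr_ae ?_
    filter_upwards [hFm.coeFn_toLp] with x hx
    rw [hx]
  rw [e1, mbi_integral i (mbl_integrable_coeff (fun j => u ((i.insertNth κ k : Fin (n + 1) → ι) j)) s hF hc)]
  refine integral_congr_ae ?_
  filter_upwards [(mbl_memLp_fibOv (u κ) i hF hc).coeFn_toLp] with y hy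
  rw [hy, mbl_fibOv_apply _ _ hF hc, ← integral_const_mul]
  refine integral_congr_ae (Eventually.of_forall fun r => ?_)
  simp only
  rw [mbi_prod (fun j => (u ((i.insertNth κ k : Fin (n + 1) → ι) j) : Space → ℝ)) i r y]
  simp only [Fin.insertNth_apply_same, Fin.insertNth_apply_succAbove]
  push_cast
  ring

theorem mbl_norm_toLp_sq {α E : Type*} [MeasurableSpace α] {ν : Measure α} [NormedAddCommGroup E]
    [InnerProductSpace ℂ E] {G : α → E} (hG : MemLp G 2 ν) : ‖hG.toLp G‖ ^ 2 = ∫ y, ‖G y‖ ^ 2 ∂ν := by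
  have h3 : ((‖hG.toLp G‖ ^ 2 : ℝ) : ℂ) = ((∫ y, ‖G y‖ ^ 2 ∂ν : ℝ) : ℂ) := by
    have e := inner_self_eq_norm_sq_to_K (𝕜 := ℂ) (hG.toLp G)
    rw [MeasureTheory.L2.inner_def] at e
    rw [Complex.ofReal_pow]
    refine e.symm.trans ?_
    rw [← integral_complex_ofReal]
    refine integral_congr_ae ?_
    filter_upwards [hG.coeFn_toLp] with y hy
    rw [hy, inner_self_eq_norm_sq_to_K]
    norm_cast
  exact Complex.ofReal_injective h3

open Classical in
/-- Parseval for the partial overlap. -/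
theorem mbl_parseval (κ : ι) (hF : Continuous F) (hc : HasCompactSupport F) :
    ∑' p : (Fin (n + 1) → ι) × σ, (if p.1 i = κ then
        ‖⟪prodBasis u p, (hF.memLp_of_hasCompactSupport (μ := volume) (p := 2) hc).toLp F⟫_ℂ‖ ^ 2 else 0) =
      ∫ y : Config n, ‖fibOv (u κ) i F y‖ ^ 2 := by
  have h1 := (hasSum_coeff_sq u ((mbl_memLp_fibOv (u κ) i hF hc).toLp _)).tsum_eq
  rw [← mbl_norm_toLp_sq (mbl_memLp_fibOv (u κ) i hF hc), ← h1]
  let g : (Fin n → ι) × σ → (Fin (n + 1) → ι) × σ := fun q => (i.insertNth κ q.1, q.2)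
  have hg : Function.Injective g := by
    intro q q' h
    have h3 : (i.insertNth κ q.1 : Fin (n + 1) → ι) = i.insertNth κ q'.1 := congrArg Prod.fst h
    have h4 : (g q).2 = (g q').2 := congrArg Prod.snd h
    refine Prod.ext (funext fun j => ?_) h4
    have := congrFun h3 (i.succAbove j)
    simpa only [Fin.insertNth_apply_succAbove] using this
  rw [← hg.tsum_eq]
  · refine tsum_congr fun q => ?_
    simp only [g, Fin.insertNth_apply_same, if_true]
    rw [prodBasis_apply, prodBasis_apply, mbl_coeff i u κ q.1 q.2 hF hc]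
  · intro p hp
    have hpi : p.1 i = κ := by
      by_contra h
      exact hp (if_neg h)
    refine ⟨(i.removeNth p.1, p.2), ?_⟩
    simp only [g]
    rw [← hpi, Fin.insertNth_self_removeNth]

end Fiber

/-! ## LIFT -/

/-- the energy of particle `i` in the one-body potential `w`. -/
def partEnergy (w : Space → ℝ) (i : Fin m) (Ψ : L2 m) : ℝ :=
  (1 / 2) * ∑ c : Fin 3, ‖weakGrad Ψ (i, c)‖ ^ 2 + ∫ x : Config m, w (x i) * ‖Ψ x‖ ^ 2

/-- a one-body form inequality on `C¹_c(ℝ³; ℝ)`:  `-Δ/2 + w ≥ c₀ - ∑_l a_l |f_l⟩⟨f_l|`. -/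
def OneBodyBound (w : Space → ℝ) (c₀ : ℝ) {L : Type} [Fintype L] (a : L → ℝ) (f : L → Orb) : Prop :=
  ∀ g : Space → ℝ, ContDiff ℝ 1 g → HasCompactSupport g →
    c₀ * (∫ x, g x ^ 2) - ∑ l, a l * (∫ x, g x * (f l : Space → ℝ) x) ^ 2 ≤
      (1 / 2) * (∫ x, ‖gradient g x‖ ^ 2) + ∫ x, w x * g x ^ 2

theorem mbl_gradient_apply (φ : Space → ℝ) (r : Space) (a : Fin 3) :
    gradient φ r a = fderiv ℝ φ r (EuclideanSpace.single a 1) := by
  have h := InnerProductSpace.toDual_symm_apply (𝕜 := ℝ) (E := Space) (x := EuclideanSpace.single a 1)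
    (y := fderiv ℝ φ r)
  rw [← h, real_inner_comm, EuclideanSpace.inner_single_left]
  simp [gradient]

theorem mbl_norm_gradient_sq (φ : Space → ℝ) (r : Space) :
    ‖gradient φ r‖ ^ 2 = ∑ a : Fin 3, (fderiv ℝ φ r (EuclideanSpace.single a 1)) ^ 2 := by
  rw [EuclideanSpace.norm_sq_eq]
  refine Finset.sum_congr rfl fun a _ => ?_
  rw [mbl_gradient_apply, Real.norm_eq_abs, sq_abs]

section Vec

variable {E : Type*} [NormedAddCommGroup E] [NormedSpace ℝ E] {C : Type*} [Fintype C]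
  (ℓ : C → E →L[ℝ] ℝ) (hℓ : ∀ z : E, ‖z‖ ^ 2 = ∑ c, (ℓ c z) ^ 2)

include hℓ in
/-- the one-body bound for vector valued functions. -/
theorem mbl_vec [CompleteSpace E] {w : Space → ℝ} (hwm : AEStronglyMeasurable w volume) {c₀ : ℝ} {L : Type} [Fintype L]
    {a : L → ℝ} {f : L → Orb} (hb : OneBodyBound w c₀ a f) {G : Space → E} (hG : ContDiff ℝ 1 G)
    (hc : HasCompactSupport G) (hw : Integrable fun r => w r * ‖G r‖ ^ 2) :
    c₀ * (∫ r, ‖G r‖ ^ 2) - ∑ l, a l * ‖∫ r, (f l : Space → ℝ) r • G r‖ ^ 2 ≤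
      (1 / 2) * ∑ k : Fin 3, (∫ r, ‖fderiv ℝ G r (EuclideanSpace.single k 1)‖ ^ 2) + ∫ r, w r * ‖G r‖ ^ 2 := by
  have hcd : ∀ c, ContDiff ℝ 1 fun r => ℓ c (G r) := fun c => (ℓ c).contDiff.comp hG
  have hcs : ∀ c, HasCompactSupport fun r => ℓ c (G r) := fun c => hc.comp_left (map_zero _)
  have key := Finset.sum_le_sum fun (c : C) (_ : c ∈ Finset.univ) => hb _ (hcd c) (hcs c)
  have i1 : ∀ c, Integrable fun r => (ℓ c (G r)) ^ 2 := fun c =>
    ((hcd c).continuous.memLp_of_hasCompactSupport (hcs c)).integrable_sq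
  have e1 : ∑ c, ∫ r, (ℓ c (G r)) ^ 2 = ∫ r, ‖G r‖ ^ 2 := by
    rw [← integral_finsetSum _ fun c _ => i1 c]
    exact integral_congr_ae (Eventually.of_forall fun r => (hℓ _).symm)
  have i2 : ∀ l, Integrable fun r => (f l : Space → ℝ) r • G r := fun l =>
    ((Lp.memLp (f l)).locallyIntegrable (by norm_num)).integrable_smul_right_of_hasCompactSupport
      hG.continuous hc
  have e2 : ∀ l, ∑ c, (∫ r, ℓ c (G r) * (f l : Space → ℝ) r) ^ 2 = ‖∫ r, (f l : Space → ℝ) r • G r‖ ^ 2 := by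
    intro l
    rw [hℓ]
    refine Finset.sum_congr rfl fun c _ => ?_
    rw [← (ℓ c).integral_comp_comm (i2 l)]
    congr 1
    refine integral_congr_ae (Eventually.of_forall fun r => ?_)
    simp only [map_smul, smul_eq_mul]
    ring
  have hfd : ∀ c r k, fderiv ℝ (fun r => ℓ c (G r)) r (EuclideanSpace.single k 1) =
      ℓ c (fderiv ℝ G r (EuclideanSpace.single k 1)) := by
    intro c r k
    have h := ((ℓ c).hasFDerivAt.comp r ((hG.differentiable one_ne_zero) r).hasFDerivAt).fderiv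
    have h' : fderiv ℝ (fun r => ℓ c (G r)) r = (ℓ c).comp (fderiv ℝ G r) := h
    rw [h']
    rfl
  have hGk : ∀ k : Fin 3, Continuous fun r => fderiv ℝ G r (EuclideanSpace.single k 1) := fun k =>
    (hG.continuous_fderiv (by simp)).clm_apply continuous_const
  have hGs : ∀ k : Fin 3, HasCompactSupport fun r => fderiv ℝ G r (EuclideanSpace.single k 1) := fun k =>
    hc.fderiv_apply (𝕜 := ℝ) _
  have i3 : ∀ c (k : Fin 3), Integrable fun r => (ℓ c (fderiv ℝ G r (EuclideanSpace.single k 1))) ^ 2 :=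
    fun c k => (((ℓ c).continuous.comp (hGk k)).memLp_of_hasCompactSupport
      ((hGs k).comp_left (g := ℓ c) (map_zero _))).integrable_sq
  have e3 : ∑ c, ∫ r, ‖gradient (fun r => ℓ c (G r)) r‖ ^ 2 =
      ∑ k : Fin 3, ∫ r, ‖fderiv ℝ G r (EuclideanSpace.single k 1)‖ ^ 2 := by
    have : ∀ c, ∫ r, ‖gradient (fun r => ℓ c (G r)) r‖ ^ 2 =
        ∑ k : Fin 3, ∫ r, (ℓ c (fderiv ℝ G r (EuclideanSpace.single k 1))) ^ 2 := by
      intro c
      rw [← integral_finsetSum _ fun k _ => i3 c k]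
      refine integral_congr_ae (Eventually.of_forall fun r => ?_)
      simp only [mbl_norm_gradient_sq, hfd]
    simp only [this]
    rw [Finset.sum_comm]
    refine Finset.sum_congr rfl fun k _ => ?_
    rw [← integral_finsetSum _ fun c _ => i3 c k]
    exact integral_congr_ae (Eventually.of_forall fun r => (hℓ _).symm)
  have i4 : ∀ c, Integrable fun r => w r * (ℓ c (G r)) ^ 2 := by
    intro c
    refine hw.mono (hwm.mul ((hcd c).continuous.pow 2).aestronglyMeasurable) (Eventually.of_forall fun r => ?_)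
    rw [Real.norm_eq_abs, Real.norm_eq_abs, abs_mul, abs_mul, abs_of_nonneg (sq_nonneg (ℓ c (G r))),
      abs_of_nonneg (sq_nonneg ‖G r‖)]
    refine mul_le_mul_of_nonneg_left ?_ (abs_nonneg _)
    rw [hℓ]
    exact Finset.single_le_sum (f := fun c => (ℓ c (G r)) ^ 2) (fun c _ => sq_nonneg _) (Finset.mem_univ c)
  have e4 : ∑ c, ∫ r, w r * (ℓ c (G r)) ^ 2 = ∫ r, w r * ‖G r‖ ^ 2 := by
    rw [← integral_finsetSum _ fun c _ => i4 c]
    refine integral_congr_ae (Eventually.of_forall fun r => ?_)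
    simp only
    rw [hℓ, Finset.mul_sum]
  rw [Finset.sum_sub_distrib, Finset.sum_add_distrib, ← Finset.mul_sum, ← Finset.mul_sum, e1, e3, e4,
    Finset.sum_comm] at key
  simp only [← Finset.mul_sum, e2] at key
  exact key

end Vec

section Cmp

variable {σ : Type*} [Fintype σ]

/-- the real components of a spin vector. -/
def mblCmp (c : σ × Fin 2) : EuclideanSpace ℂ σ →L[ℝ] ℝ :=
  (if c.2 = 0 then Complex.reCLM else Complex.imCLM).comp
    ((EuclideanSpace.proj (𝕜 := ℂ) c.1).restrictScalars ℝ)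

theorem mbl_norm_sq_cmp (z : EuclideanSpace ℂ σ) : ‖z‖ ^ 2 = ∑ c : σ × Fin 2, (mblCmp c z) ^ 2 := by
  rw [EuclideanSpace.norm_sq_eq, Fintype.sum_prod_type]
  refine Finset.sum_congr rfl fun s _ => ?_
  rw [Fin.sum_univ_two]
  simp [mblCmp, Complex.sq_norm, Complex.normSq_apply]
  ring

variable [DecidableEq σ] {n : ℕ}

/-- the lift for `C¹_c` functions, in terms of integrals. -/
theorem mbl_lift_succ {w : Space → ℝ} (hwm : AEStronglyMeasurable w volume) {c₀ : ℝ}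
    {L : Type} [Fintype L] {a : L → ℝ} {f : L → Orb} (hb : OneBodyBound w c₀ a f) (i : Fin (n + 1))
    {F : Config (n + 1) → EuclideanSpace ℂ σ} (hF : ContDiff ℝ 1 F) (hc : HasCompactSupport F)
    (hw : Integrable fun x : Config (n + 1) => w (x i) * ‖F x‖ ^ 2) :
    c₀ * (∫ x, ‖F x‖ ^ 2) - ∑ l, a l * (∫ y, ‖fibOv (f l) i F y‖ ^ 2) ≤
      (1 / 2) * ∑ k : Fin 3, (∫ x, ‖fderiv ℝ F x (dir (i, k))‖ ^ 2) + ∫ x, w (x i) * ‖F x‖ ^ 2 := by
  have iA := mbl_integrable_norm_sq hF.continuous hc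
  have hDk : ∀ k : Fin 3, Integrable fun x : Config (n + 1) => ‖fderiv ℝ F x (dir (i, k))‖ ^ 2 := fun k =>
    mbl_integrable_norm_sq ((hF.continuous_fderiv (by simp)).clm_apply continuous_const)
      (hc.fderiv_apply (𝕜 := ℝ) _)
  rw [mbi_integral i iA, mbi_integral i hw]
  simp only [fun k => mbi_integral i (hDk k)]
  have jA := mbi_integrable_integral i iA
  have jW := mbi_integrable_integral i hw
  have jD := fun k => mbi_integrable_integral i (hDk k)
  have jB := fun l => mbl_integrable_fibOv_sq (f l) i hF.continuous hc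
  have eL : c₀ * (∫ y : Config n, ∫ r : Space, ‖F (i.insertNth r y : Config (n + 1))‖ ^ 2) -
      ∑ l, a l * (∫ y, ‖fibOv (f l) i F y‖ ^ 2) =
      ∫ y : Config n, (c₀ * (∫ r : Space, ‖F (i.insertNth r y : Config (n + 1))‖ ^ 2) -
        ∑ l, a l * ‖fibOv (f l) i F y‖ ^ 2) := by
    rw [integral_sub (jA.const_mul _) (integrable_finsetSum _ fun l _ => (jB l).const_mul _),
      integral_const_mul, integral_finsetSum _ fun l _ => (jB l).const_mul _]
    simp only [integral_const_mul]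
  have eR : (1 / 2) * ∑ k : Fin 3, (∫ y : Config n, ∫ r : Space,
        ‖fderiv ℝ F (i.insertNth r y : Config (n + 1)) (dir (i, k))‖ ^ 2) +
      ∫ y : Config n, ∫ r : Space, w ((i.insertNth r y : Config (n + 1)) i) *
        ‖F (i.insertNth r y : Config (n + 1))‖ ^ 2 =
      ∫ y : Config n, ((1 / 2) * ∑ k : Fin 3, (∫ r : Space,
        ‖fderiv ℝ F (i.insertNth r y : Config (n + 1)) (dir (i, k))‖ ^ 2) +
        ∫ r : Space, w ((i.insertNth r y : Config (n + 1)) i) *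
        ‖F (i.insertNth r y : Config (n + 1))‖ ^ 2) := by
    rw [integral_add ((integrable_finsetSum _ fun k _ => jD k).const_mul _) jW, integral_const_mul,
      integral_finsetSum _ fun k _ => jD k]
  rw [eL, eR]
  refine integral_mono_ae ((jA.const_mul _).sub (integrable_finsetSum _ fun l _ => (jB l).const_mul _))
    (((integrable_finsetSum _ fun k _ => jD k).const_mul _).add jW) ?_
  filter_upwards [mbi_integrable_ae i hw] with y hy
  simp only [Fin.insertNth_apply_same] at hy ⊢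
  have := mbl_vec mblCmp mbl_norm_sq_cmp hwm hb (mbi_contDiff_slice hF i y) (mbi_hasCompactSupport_slice hc i y) hy
  simp only [mbi_fderiv_slice hF i y] at this
  exact this

end Cmp

/-- **the lift on `C¹_c`**. -/
theorem lift_c1c {ι : Type*} (u : HilbertBasis ι ℝ Orb) {w : Space → ℝ} (hwm : AEStronglyMeasurable w volume)
    {c₀ : ℝ} {L : Type} [Fintype L] {a : L → ℝ} {κ : L → ι} (hb : OneBodyBound w c₀ a (fun l => u (κ l)))
    (i : Fin m) {F : Config m → SpinSpace m} (hF : ContDiff ℝ 1 F) (hc : HasCompactSupport F)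
    (hw : Integrable fun x : Config m => w (x i) * ‖F x‖ ^ 2) :
    c₀ * ‖c1c F hF hc‖ ^ 2 - ∑ l, a l * occ u i (κ l) (c1c F hF hc) ≤ partEnergy w i (c1c F hF hc) := by
  cases m with
  | zero => exact i.elim0
  | succ n =>
    have h := mbl_lift_succ hwm hb i hF hc hw
    have e1 : ‖c1c F hF hc‖ ^ 2 = ∫ x, ‖F x‖ ^ 2 := mbl_norm_toLp_sq _
    have e2 : ∀ l, occ u i (κ l) (c1c F hF hc) = ∫ y, ‖fibOv (u (κ l)) i F y‖ ^ 2 := fun l =>
      mbl_parseval i u (κ l) hF.continuous hc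
    have e3 : ∀ k : Fin 3, ‖weakGrad (c1c F hF hc) (i, k)‖ ^ 2 = ∫ x, ‖fderiv ℝ F x (dir (i, k))‖ ^ 2 := by
      intro k
      rw [(isWeakGradient_c1c hF hc).weakGrad_eq]
      exact mbl_norm_toLp_sq _
    have e4 : ∫ x : Config (n + 1), w (x i) * ‖c1c F hF hc x‖ ^ 2 = ∫ x, w (x i) * ‖F x‖ ^ 2 := by
      refine integral_congr_ae ?_
      filter_upwards [coeFn_c1c hF hc] with x hx
      rw [hx]
    unfold partEnergy
    simp only [e1, e2, e3, e4]
    exact h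

/-! ## COUL -/

theorem mbl_add_sq_le {E : Type*} [SeminormedAddCommGroup E] (a b : E) {δ : ℝ} (hδ : 0 < δ) :
    ‖a + b‖ ^ 2 ≤ (1 + δ) * ‖a‖ ^ 2 + (1 + 1 / δ) * ‖b‖ ^ 2 := by
  have h2 : ‖a + b‖ ^ 2 ≤ (‖a‖ + ‖b‖) ^ 2 := pow_le_pow_left₀ (norm_nonneg _) (norm_add_le a b) 2
  have h3 : 2 * ‖a‖ * ‖b‖ ≤ δ * ‖a‖ ^ 2 + 1 / δ * ‖b‖ ^ 2 := by
    have h4 : 0 ≤ (δ * ‖a‖ - ‖b‖) ^ 2 / δ := by positivity
    have h5 : (δ * ‖a‖ - ‖b‖) ^ 2 / δ = δ * ‖a‖ ^ 2 + 1 / δ * ‖b‖ ^ 2 - 2 * ‖a‖ * ‖b‖ := by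
      field_simp
      ring
    linarith
  nlinarith

/-- `q` behaves like a nonnegative quadratic form on `H¹` bounded by `C ‖·‖²_{H¹}`. -/
def MblQF (q : L2 m → ℝ) (C : ℝ) : Prop :=
  ∀ ⦃Ψ Φ : L2 m⦄, MemH1 Ψ → MemH1 Φ → ∀ ⦃δ : ℝ⦄, 0 < δ →
    q (Ψ + Φ) ≤ (1 + δ) * q Ψ + (1 + 1 / δ) * (C * h1sq Φ)

theorem MblQF.add {q q' : L2 m → ℝ} {C C' : ℝ} (h : MblQF q C) (h' : MblQF q' C') :
    MblQF (fun Ψ => q Ψ + q' Ψ) (C + C') := by
  intro Ψ Φ hΨ hΦ δ hδ
  have h1 := h hΨ hΦ hδ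
  have h2 := h' hΨ hΦ hδ
  simp only
  linarith

theorem MblQF.const_mul {q : L2 m → ℝ} {C : ℝ} (h : MblQF q C) {c : ℝ} (hc : 0 ≤ c) :
    MblQF (fun Ψ => c * q Ψ) (c * C) := by
  intro Ψ Φ hΨ hΦ δ hδ
  have h1 := mul_le_mul_of_nonneg_left (h hΨ hΦ hδ) hc
  simp only
  linarith

theorem MblQF.sum {L : Type*} (s : Finset L) {q : L → L2 m → ℝ} {C : L → ℝ} (h : ∀ l, MblQF (q l) (C l)) :
    MblQF (fun Ψ => ∑ l ∈ s, q l Ψ) (∑ l ∈ s, C l) := by
  intro Ψ Φ hΨ hΦ δ hδ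
  have h1 := Finset.sum_le_sum fun l (_ : l ∈ s) => h l hΨ hΦ hδ
  simp only
  rw [Finset.sum_add_distrib, ← Finset.mul_sum, ← Finset.mul_sum, ← Finset.sum_mul] at h1
  exact h1

theorem mbl_norm_sq_le_h1sq (Φ : L2 m) : ‖Φ‖ ^ 2 ≤ h1sq Φ := by
  unfold h1sq
  linarith [kin_nonneg Φ]

theorem mbl_kinOf_le_h1sq (Φ : L2 m) (i : Fin m) : kinOf Φ i ≤ h1sq Φ := by
  unfold h1sq
  have h1 : kinOf Φ i ≤ kin Φ := by
    rw [kin_eq_sum_kinOf]
    exact Finset.single_le_sum (f := fun i => kinOf Φ i) (fun i _ => kinOf_nonneg Φ i) (Finset.mem_univ i)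
  nlinarith [sq_nonneg ‖Φ‖]

theorem mblQF_norm : MblQF (fun Ψ : L2 m => ‖Ψ‖ ^ 2) 1 := by
  intro Ψ Φ _ _ δ hδ
  have h1 := mbl_add_sq_le Ψ Φ hδ
  have h2 : (1 + 1 / δ) * ‖Φ‖ ^ 2 ≤ (1 + 1 / δ) * (1 * h1sq Φ) := by
    rw [one_mul]
    exact mul_le_mul_of_nonneg_left (mbl_norm_sq_le_h1sq Φ) (by positivity)
  simp only
  linarith

theorem mblQF_kinOf (i : Fin m) : MblQF (fun Ψ : L2 m => kinOf Ψ i) 1 := by
  intro Ψ Φ hΨ hΦ δ hδ
  have h1 : kinOf (Ψ + Φ) i ≤ (1 + δ) * kinOf Ψ i + (1 + 1 / δ) * kinOf Φ i := by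
    unfold kinOf
    rw [Finset.mul_sum, Finset.mul_sum, ← Finset.sum_add_distrib]
    refine Finset.sum_le_sum fun c _ => ?_
    rw [weakGrad_add hΨ hΦ]
    exact mbl_add_sq_le _ _ hδ
  have h2 : (1 + 1 / δ) * kinOf Φ i ≤ (1 + 1 / δ) * (1 * h1sq Φ) := by
    rw [one_mul]
    exact mul_le_mul_of_nonneg_left (mbl_kinOf_le_h1sq Φ i) (by positivity)
  simp only
  linarith

theorem mblQF_occ {ι : Type*} (u : HilbertBasis ι ℝ Orb) (i : Fin m) (κ : ι) : MblQF (occ u i κ) 1 := by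
  intro Ψ Φ _ _ δ hδ
  have h1 := occ_add_le u i κ Ψ Φ hδ
  have h2 : (1 + 1 / δ) * ‖Φ‖ ^ 2 ≤ (1 + 1 / δ) * (1 * h1sq Φ) := by
    rw [one_mul]
    exact mul_le_mul_of_nonneg_left (mbl_norm_sq_le_h1sq Φ) (by positivity)
  linarith

theorem mblQF_uD (i : Fin m) : MblQF (fun Ψ : L2 m => -∫ x : Config m, uD (x i) * ‖Ψ x‖ ^ 2) 16 := by
  intro Ψ Φ hΨ hΦ δ hδ
  have i1 := integrable_uD_mul hΨ i
  have i2 := integrable_uD_mul hΦ i
  have i3 := integrable_uD_mul (hΨ.add hΦ) i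
  have h1 : (1 + δ) * (∫ x : Config m, uD (x i) * ‖Ψ x‖ ^ 2) + (1 + 1 / δ) * (∫ x : Config m, uD (x i) * ‖Φ x‖ ^ 2) ≤
      ∫ x : Config m, uD (x i) * ‖(Ψ + Φ : L2 m) x‖ ^ 2 := by
    rw [← integral_const_mul, ← integral_const_mul, ← integral_add (i1.const_mul _) (i2.const_mul _)]
    refine integral_mono_ae ((i1.const_mul _).add (i2.const_mul _)) i3 ?_
    filter_upwards [Lp.coeFn_add Ψ Φ] with x hx
    rw [hx, Pi.add_apply]
    have h2 := mbl_add_sq_le (Ψ x) (Φ x) hδ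
    have h3 := mul_le_mul_of_nonpos_left h2 (uD_nonpos (x i))
    linarith
  have h4 := uD_bound_one hΦ i
  have h5 : (1 / 4) * ∑ c : Fin 3, ‖weakGrad Φ (i, c)‖ ^ 2 + 16 * ‖Φ‖ ^ 2 ≤ 16 * h1sq Φ := by
    have h6 : (∑ c : Fin 3, ‖weakGrad Φ (i, c)‖ ^ 2) = kinOf Φ i := rfl
    rw [h6]
    have h7 : kinOf Φ i ≤ kin Φ := by
      rw [kin_eq_sum_kinOf]
      exact Finset.single_le_sum (f := fun i => kinOf Φ i) (fun i _ => kinOf_nonneg Φ i) (Finset.mem_univ i)
    unfold h1sq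
    linarith [kinOf_nonneg Φ i]
  have h8 : (1 + 1 / δ) * -(∫ x : Config m, uD (x i) * ‖Φ x‖ ^ 2) ≤ (1 + 1 / δ) * (16 * h1sq Φ) :=
    mul_le_mul_of_nonneg_left (by linarith) (by positivity)
  simp only
  linarith

theorem mbl_h1sq_sub_comm {Ψ Φ : L2 m} (h : MemH1 Ψ) (h' : MemH1 Φ) : h1sq (Ψ - Φ) = h1sq (Φ - Ψ) := by
  unfold h1sq kin
  rw [norm_sub_rev, mbf_weakGrad_sub h h', mbf_weakGrad_sub h' h]
  congr 1
  refine Finset.sum_congr rfl fun j _ => ?_
  rw [Pi.sub_apply, Pi.sub_apply, norm_sub_rev]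

/-- an inequality between two bounded quadratic forms extends from `C¹_c` to `H¹`. -/
theorem MblQF.le_of_c1c {P R : L2 m → ℝ} {C C' : ℝ} (hP : MblQF P C) (hR : MblQF R C') (hC : 0 ≤ C) (hC' : 0 ≤ C')
    (h : ∀ (F : Config m → SpinSpace m) (hF : ContDiff ℝ 1 F) (hc : HasCompactSupport F),
      P (c1c F hF hc) ≤ R (c1c F hF hc)) {Ξ : L2 m} (hΞ : MemH1 Ξ) : P Ξ ≤ R Ξ := by
  have bound : ∀ δ : ℝ, 0 < δ → ∀ η : ℝ, 0 < η →
      P Ξ ≤ (1 + δ) ^ 2 * R Ξ + ((1 + δ) * (1 + 1 / δ) * C' + (1 + 1 / δ) * C) * η := by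
    intro δ hδ η hη
    obtain ⟨F, hF, hc, hη'⟩ := exists_c1c_approx hΞ hη
    have hm := memH1_c1c hF hc
    have h1 := hP hm (mbf_memH1_sub hΞ hm) hδ
    have h2 := hR hΞ (mbf_memH1_sub hm hΞ) hδ
    rw [add_sub_cancel] at h1 h2
    rw [mbl_h1sq_sub_comm hΞ hm] at h1
    have h3 := h F hF hc
    have hd : 0 ≤ 1 + 1 / δ := by positivity
    have hd' : 0 ≤ 1 + δ := by positivity
    have h4 : (1 + 1 / δ) * (C * h1sq (c1c F hF hc - Ξ)) ≤ (1 + 1 / δ) * (C * η) :=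
      mul_le_mul_of_nonneg_left (mul_le_mul_of_nonneg_left hη' hC) hd
    have h5 : (1 + 1 / δ) * (C' * h1sq (c1c F hF hc - Ξ)) ≤ (1 + 1 / δ) * (C' * η) :=
      mul_le_mul_of_nonneg_left (mul_le_mul_of_nonneg_left hη' hC') hd
    have h6 : (1 + δ) * P (c1c F hF hc) ≤ (1 + δ) * ((1 + δ) * R Ξ + (1 + 1 / δ) * (C' * η)) :=
      mul_le_mul_of_nonneg_left (by linarith) hd'
    calc P Ξ ≤ (1 + δ) * P (c1c F hF hc) + (1 + 1 / δ) * (C * η) := by linarith
      _ ≤ (1 + δ) * ((1 + δ) * R Ξ + (1 + 1 / δ) * (C' * η)) + (1 + 1 / δ) * (C * η) := by linarith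
      _ = _ := by ring
  have step1 : ∀ δ : ℝ, 0 < δ → P Ξ ≤ (1 + δ) ^ 2 * R Ξ := by
    intro δ hδ
    have ht : Tendsto (fun η : ℝ => (1 + δ) ^ 2 * R Ξ + ((1 + δ) * (1 + 1 / δ) * C' + (1 + 1 / δ) * C) * η)
        (𝓝[>] 0) (𝓝 ((1 + δ) ^ 2 * R Ξ + ((1 + δ) * (1 + 1 / δ) * C' + (1 + 1 / δ) * C) * 0)) :=
      ((continuous_const.add (continuous_const.mul continuous_id)).tendsto 0).mono_left nhdsWithin_le_nhds
    rw [mul_zero, add_zero] at ht
    exact ge_of_tendsto ht (eventually_mem_nhdsWithin.mono fun η hη => bound δ hδ η hη)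
  have ht : Tendsto (fun δ : ℝ => (1 + δ) ^ 2 * R Ξ) (𝓝[>] 0) (𝓝 ((1 + 0) ^ 2 * R Ξ)) :=
    ((((continuous_const.add continuous_id).pow 2).mul continuous_const).tendsto 0).mono_left nhdsWithin_le_nhds
  rw [add_zero, one_pow, one_mul] at ht
  exact ge_of_tendsto ht (eventually_mem_nhdsWithin.mono fun δ hδ => step1 δ hδ)

/-- **the lift on `H¹`** for the two-centre Coulomb potential. -/
theorem lift_coulomb {ι : Type*} (u : HilbertBasis ι ℝ Orb) {c₀ : ℝ} {L : Type} [Fintype L] {a : L → ℝ}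
    (ha : ∀ l, 0 ≤ a l) {κ : L → ι} (hb : OneBodyBound uD c₀ a (fun l => u (κ l))) (i : Fin m)
    {Ξ : L2 m} (h : MemH1 Ξ) :
    c₀ * ‖Ξ‖ ^ 2 - ∑ l, a l * occ u i (κ l) Ξ ≤ partEnergy uD i Ξ := by
  have hP : MblQF (fun Ψ : L2 m => (c₀ + |c₀|) * ‖Ψ‖ ^ 2 + -∫ x : Config m, uD (x i) * ‖Ψ x‖ ^ 2)
      ((c₀ + |c₀|) * 1 + 16) :=
    (mblQF_norm.const_mul (by linarith [neg_abs_le c₀])).add (mblQF_uD i)
  have hR : MblQF (fun Ψ : L2 m => (1 / 2 * kinOf Ψ i + |c₀| * ‖Ψ‖ ^ 2) + ∑ l ∈ Finset.univ, a l * occ u i (κ l) Ψ)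
      ((1 / 2 * 1 + |c₀| * 1) + ∑ l ∈ Finset.univ, a l * 1) :=
    (((mblQF_kinOf i).const_mul (by norm_num)).add (mblQF_norm.const_mul (abs_nonneg _))).add
      (MblQF.sum Finset.univ fun l => (mblQF_occ u i (κ l)).const_mul (ha l))
  have key := hP.le_of_c1c hR (by linarith [neg_abs_le c₀])
    (by have := Finset.sum_nonneg fun l (_ : l ∈ Finset.univ) => mul_nonneg (ha l) zero_le_one
        have := abs_nonneg c₀
        linarith) (fun F hF hc => ?_) h
  · unfold partEnergy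
    have h6 : (∑ c : Fin 3, ‖weakGrad Ξ (i, c)‖ ^ 2) = kinOf Ξ i := rfl
    rw [h6]
    linarith
  · have hw : Integrable fun x : Config m => uD (x i) * ‖F x‖ ^ 2 := by
      refine (integrable_uD_mul (memH1_c1c hF hc) i).congr ?_
      filter_upwards [coeFn_c1c hF hc] with x hx
      rw [hx]
    have := lift_c1c u measurable_uD.aestronglyMeasurable hb i hF hc hw
    unfold partEnergy at this
    have h6 : (∑ c : Fin 3, ‖weakGrad (c1c F hF hc) (i, c)‖ ^ 2) = kinOf (c1c F hF hc) i := rfl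
    rw [h6] at this
    linarith

theorem energy_zero_eq_sum {Ξ : L2 m} (h : MemH1 Ξ) :
    energy (scaledPotential m 0) Ξ = ∑ i, partEnergy uD i Ξ := by
  rw [mbf_energy_scaled_eq 0 h, zero_mul, add_zero]
  unfold partEnergy
  rw [Finset.sum_add_distrib, ← Finset.mul_sum, kin_eq_sum_kinOf, ← integral_finsetSum _ fun i _ => integrable_uD_mul h i]
  congr 1
  refine integral_congr_ae (Eventually.of_forall fun x => ?_)
  simp only [oneBodyPotential, Finset.sum_mul]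

open Classical in
/-- **the noninteracting energy dominates its diagonal part in the product basis.** -/
theorem energy_zero_ge {ι : Type*} (u : HilbertBasis ι ℝ Orb) {c₀ : ℝ} {L : Type} [Fintype L] {a : L → ℝ}
    (ha : ∀ l, 0 ≤ a l) {κ : L → ι} (hb : OneBodyBound uD c₀ a (fun l => u (κ l))) {Ξ : L2 m} (h : MemH1 Ξ) :
    ∑' p : (Fin m → ι) × SpinConfig m,
        (∑ i : Fin m, (c₀ - ∑ l, if p.1 i = κ l then a l else 0)) * ‖⟪prodBasis u p, Ξ⟫_ℂ‖ ^ 2 ≤
      energy (scaledPotential m 0) Ξ := by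
  rw [← sub_occ_eq_tsum u c₀ a κ Ξ, energy_zero_eq_sum h]
  exact Finset.sum_le_sum fun i _ => lift_coulomb u ha hb i h

open Classical in
/-- the form in which the zero-coupling gaps are proved. -/
theorem energy_zero_ge_of_support {ι : Type*} (u : HilbertBasis ι ℝ Orb) {c₀ : ℝ} {L : Type} [Fintype L]
    {a : L → ℝ} (ha : ∀ l, 0 ≤ a l) {κ : L → ι} (hb : OneBodyBound uD c₀ a (fun l => u (κ l))) {Ξ : L2 m}
    (h : MemH1 Ξ) {c : ℝ}
    (hc : ∀ p : (Fin m → ι) × SpinConfig m, ⟪prodBasis u p, Ξ⟫_ℂ ≠ 0 →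
      c ≤ ∑ i : Fin m, (c₀ - ∑ l, if p.1 i = κ l then a l else 0)) :
    c * ‖Ξ‖ ^ 2 ≤ energy (scaledPotential m 0) Ξ := by
  refine le_trans ?_ (energy_zero_ge u ha hb h)
  refine le_tsum_of_support u Ξ (C := m * (|c₀| + ∑ l, a l)) (fun p => ?_) hc
  refine (Finset.abs_sum_le_sum_abs _ _).trans ?_
  have : ∀ i : Fin m, |c₀ - ∑ l, if p.1 i = κ l then a l else 0| ≤ |c₀| + ∑ l, a l := by
    intro i
    have h1 : 0 ≤ ∑ l, (if p.1 i = κ l then a l else 0) :=
      Finset.sum_nonneg fun l _ => by split_ifs <;> simp [ha l]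
    have h2 : ∑ l, (if p.1 i = κ l then a l else 0) ≤ ∑ l, a l :=
      Finset.sum_le_sum fun l _ => by split_ifs <;> simp [ha l]
    calc |c₀ - ∑ l, if p.1 i = κ l then a l else 0| ≤ |c₀| + |∑ l, if p.1 i = κ l then a l else 0| := abs_sub _ _
      _ ≤ |c₀| + ∑ l, a l := by rw [abs_of_nonneg h1]; linarith
  calc ∑ i : Fin m, |c₀ - ∑ l, if p.1 i = κ l then a l else 0| ≤ ∑ _i : Fin m, (|c₀| + ∑ l, a l) :=
        Finset.sum_le_sum fun i _ => this i
    _ = m * (|c₀| + ∑ l, a l) := by simp [mul_add]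

end Claimed.Open.R278
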