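import Claimed.Open.R278.MBLift
import Claimed.Open.R278.ENDet

/-!
# Result 278, layer L2a (BP-MB1): orbitals in `Orb`, the projected one-body inequality, Slater determinants

Architect: helper51.  Paper: 01-coulomb-setup.tex, Prop 2.3 (only the statement (2.10)).  Keep names and statements; helper lemmas: prefix `mbs_`.

## Leaf MBS-ORB (section ORB): translation of `IsH1`, `IsOrbital` (raw functions, `Statement.lean`) into `Orb`.  All notions are invariant under a.e. equality.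
 `integrable_uD_orb`: `|uD f g| ≤ |uD| (f² + g²)/2`, `1/r ≤ 1/r² + 1`, `hardy_scalar`.   `OrbH1` of a `C¹_c` function: `isWeakGrad_gradient` (`ChargeLemmas.lean`).
## Leaf MBS-ONE (section ONE): `g⊥ := g - β b - γ e`, `β = ∫ g b`, `γ = ∫ g e`; `orbitalForm` is bilinear on `H¹` (integrability: Hardy);
 cross terms by the eigen-equations; `TwoCentre.third` for `g⊥`; `∫ b e = 0`: `ε_e ∫ b e = form(b,e) = form(e,b) = ε_b ∫ e b`, `ε_b < ε_e`.
## Leaf MBS-GRAD (`isWeakGradient_tens`): Fubini in the variable `x_i` (`m = n+1`, `MeasurableEquiv.piFinSuccAbove`): for fixed other variables the slice of `φ` is `C^∞_c`.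
## Leaf MBS-FORM (`sesqForm_zero_tens_eig`): kinetic part: `IsWeakGradient.weakGrad_eq` + `inner_tens` (+ `Function.update` bookkeeping: `∏_j ⟪update f i F j, update g i G j⟫ = ⟪F,G⟫ ∏_{j≠i} ⟪f j, g j⟫`);
 potential part: `∫ uD(x_i) ∏_j f_j(x_j) g_j(x_j) dx = (∫ uD f_i g_i) ∏_{j≠i} ⟪f_j,g_j⟫` (`integral_fintype_prod_volume_eq_prod`); then `IsOrbEig` slot by slot.
## Leaf MBS-SLATER (section SLATER): finite sums over `Equiv.Perm (Fin m)`; `tens_comp_perm`, `inner_tens`, `inner_tens_perm`, `Equiv.sum_comp`, `Equiv.Perm.sign_mul`.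
## Leaf MBS-SYMM (section SYMM): pointwise a.e. computations with `coeFn_tens`; `measurePreserving_config_rotZ`, `measurePreserving_config_reflZ`.
-/

open MeasureTheory Filter
open scoped ContDiff InnerProductSpace ComplexConjugate ENNReal Topology
open Claimed.Agent

noncomputable section

namespace Claimed.Open.R278

variable {m : ℕ}

local notation "uD" => nuclearPotential 1 bigD

/-! ## ORB -/

/-- `f ∈ H¹(ℝ³; ℝ)` with weak partial derivatives `G c`. -/
def OrbH1 (f : Orb) (G : Fin 3 → Orb) : Prop :=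
  ∀ (c : Fin 3) (φ : Space → ℝ), ContDiff ℝ ∞ φ → HasCompactSupport φ →
    (∫ x, (f : Space → ℝ) x * fderiv ℝ φ x (EuclideanSpace.single c 1)) = -(∫ x, (G c : Space → ℝ) x * φ x)

/-- the bilinear form of `h_D`. -/
def orbForm (f g : Orb) (F G : Fin 3 → Orb) : ℝ :=
  (1 / 2) * ∑ c, ⟪F c, G c⟫_ℝ + ∫ x, uD x * ((f : Space → ℝ) x * (g : Space → ℝ) x)

/-- `g` is an eigenfunction of `h_D` (form sense). -/
def IsOrbEig (g : Orb) (G : Fin 3 → Orb) (ε : ℝ) : Prop :=
  OrbH1 g G ∧ ∀ f F, OrbH1 f F → orbForm f g F G = ε * ⟪f, g⟫_ℝ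

/-- the components of a gradient field, as elements of `Orb`. -/
def gradOrb (G : Space → Space) (c : Fin 3) : Orb := toOrb fun x => G x c

theorem mbs_coeFn_gradOrb {G : Space → Space} (hG : MemLp G 2 volume) (c : Fin 3) :
    (gradOrb G c : Space → ℝ) =ᵐ[volume] fun x => G x c :=
  coeFn_toOrb (en_memLp_coord hG c)

theorem orbH1_of_isH1 {f : Space → ℝ} {G : Space → Space} (h : IsH1 f G) : OrbH1 (toOrb f) (gradOrb G) := by
  intro c φ hφ hc
  have key := h.2.2.2.2 φ hφ hc (EuclideanSpace.single c 1)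
  have e2 : ∀ r, ⟪G r, EuclideanSpace.single c (1 : ℝ)⟫_ℝ = G r c := fun r => by
    rw [EuclideanSpace.inner_single_right]; simp
  simp only [e2] at key
  have a1 : ∫ x, (toOrb f : Space → ℝ) x * fderiv ℝ φ x (EuclideanSpace.single c 1)
      = ∫ x, f x * fderiv ℝ φ x (EuclideanSpace.single c 1) := by
    refine integral_congr_ae ?_
    filter_upwards [coeFn_toOrb h.1] with x hx
    rw [hx]
  have a2 : ∫ x, (gradOrb G c : Space → ℝ) x * φ x = ∫ x, G x c * φ x := by
    refine integral_congr_ae ?_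
    filter_upwards [mbs_coeFn_gradOrb h.2.1 c] with x hx
    rw [hx]
  rw [a1, a2, key]

theorem mbs_vec_eq_sum (G : Fin 3 → Orb) (x : Space) :
    (WithLp.toLp 2 fun c => (G c : Space → ℝ) x : Space)
      = ∑ c, (G c : Space → ℝ) x • EuclideanSpace.single c (1 : ℝ) := by
  ext b
  simp [Finset.sum_apply, Pi.single_apply]

theorem mbs_memLp_vec (G : Fin 3 → Orb) :
    MemLp (fun x => (WithLp.toLp 2 fun c => (G c : Space → ℝ) x : Space)) 2 volume := by
  simp only [mbs_vec_eq_sum]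
  refine memLp_finsetSum _ fun c _ => ?_
  exact (ContinuousLinearMap.toSpanSingleton ℝ (EuclideanSpace.single c (1 : ℝ) : Space)).comp_memLp' (Lp.memLp (G c))

/-- every `OrbH1` pair comes from an `IsH1` pair. -/
theorem isH1_of_orbH1 {f : Orb} {G : Fin 3 → Orb} (h : OrbH1 f G) :
    IsH1 (f : Space → ℝ) (fun x => WithLp.toLp 2 fun c => (G c : Space → ℝ) x) := by
  have hf := Lp.memLp f
  have hG := mbs_memLp_vec G
  refine ⟨hf, hG, hf.locallyIntegrable (by norm_num), hG.locallyIntegrable (by norm_num), fun φ hφ hc v => ?_⟩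
  have hv : v = ∑ c, v c • EuclideanSpace.single c (1 : ℝ) := by
    ext b
    simp [Finset.sum_apply, Pi.single_apply]
  have e1 : ∀ x, (f : Space → ℝ) x * fderiv ℝ φ x v
      = ∑ c, v c * ((f : Space → ℝ) x * fderiv ℝ φ x (EuclideanSpace.single c 1)) := by
    intro x
    conv_lhs => rw [hv]
    rw [map_sum, Finset.mul_sum]
    refine Finset.sum_congr rfl fun c _ => ?_
    rw [map_smul, smul_eq_mul]; ring
  have e2 : ∀ x, ⟪(WithLp.toLp 2 fun c => (G c : Space → ℝ) x : Space), v⟫_ℝ * φ x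
      = ∑ c, v c * ((G c : Space → ℝ) x * φ x) := by
    intro x
    rw [PiLp.inner_apply, Finset.sum_mul]
    refine Finset.sum_congr rfl fun c _ => ?_
    simp only [RCLike.inner_apply, conj_trivial]
    ring
  have i1 : ∀ c, Integrable fun x => (f : Space → ℝ) x * fderiv ℝ φ x (EuclideanSpace.single c 1) := fun c => by
    have := (hf.locallyIntegrable (by norm_num)).integrable_smul_left_of_hasCompactSupport
      ((hφ.continuous_fderiv (by simp)).clm_apply continuous_const : Continuous fun x => fderiv ℝ φ x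
        (EuclideanSpace.single c (1 : ℝ))) (hc.fderiv_apply (𝕜 := ℝ) _)
    simpa only [smul_eq_mul, mul_comm] using this
  have i2 : ∀ c, Integrable fun x => (G c : Space → ℝ) x * φ x := fun c => by
    have := ((Lp.memLp (G c)).locallyIntegrable (by norm_num)).integrable_smul_left_of_hasCompactSupport
      hφ.continuous hc
    simpa only [smul_eq_mul, mul_comm] using this
  simp only [e1, e2]
  rw [integral_finsetSum _ fun c _ => (i1 c).const_mul _, integral_finsetSum _ fun c _ => (i2 c).const_mul _,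
    ← Finset.sum_neg_distrib]
  refine Finset.sum_congr rfl fun c _ => ?_
  rw [integral_const_mul, integral_const_mul, h c φ hφ hc]
  ring

theorem integrable_uD_orb {f g : Orb} {F G : Fin 3 → Orb} (hf : OrbH1 f F) (hg : OrbH1 g G) :
    Integrable (fun x => uD x * ((f : Space → ℝ) x * (g : Space → ℝ) x)) :=
  en_integrable_pot (nuclearPotential_mem_potentialClass 1 bigD) (isH1_of_orbH1 hf) (isH1_of_orbH1 hg)

theorem inner_toOrb {f g : Space → ℝ} (hf : MemLp f 2 volume) (hg : MemLp g 2 volume) :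
    ⟪toOrb f, toOrb g⟫_ℝ = ∫ x, f x * g x := by
  rw [mbb_inner_orb]
  refine integral_congr_ae ?_
  filter_upwards [coeFn_toOrb hf, coeFn_toOrb hg] with x h1 h2
  rw [h1, h2]

theorem orbForm_eq_orbitalForm {f g : Space → ℝ} {F G : Space → Space} (hf : IsH1 f F) (hg : IsH1 g G) :
    orbForm (toOrb f) (toOrb g) (gradOrb F) (gradOrb G) = orbitalForm f g F G := by
  unfold orbForm orbitalForm gradOrb
  rw [en_integral_inner_eq_sum hf.2.1 hg.2.1]
  simp only [inner_toOrb (en_memLp_coord hf.2.1 _) (en_memLp_coord hg.2.1 _)]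
  congr 1
  refine integral_congr_ae ?_
  filter_upwards [coeFn_toOrb hf.1, coeFn_toOrb hg.1] with x h1 h2
  rw [h1, h2]

theorem IsOrbital.memLp {f : Space → ℝ} {ε : ℝ} (h : IsOrbital f ε) : MemLp f 2 volume := by
  obtain ⟨-, -, F, hF, -⟩ := h
  exact hF.1

theorem IsOrbital.norm_toOrb {f : Space → ℝ} {ε : ℝ} (h : IsOrbital f ε) : ‖toOrb f‖ = 1 := by
  have h1 : ‖toOrb f‖ ^ 2 = 1 := by
    rw [← real_inner_self_eq_norm_sq, inner_toOrb h.memLp h.memLp, ← h.2.1]
    simp only [sq]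
  nlinarith [norm_nonneg (toOrb f), sq_nonneg (‖toOrb f‖ - 1)]

theorem mbs_toOrb_coe (f : Orb) : toOrb (f : Space → ℝ) = f := by
  rw [toOrb, dif_pos (Lp.memLp f)]
  exact Lp.toLp_coeFn f _

theorem IsOrbital.exists_isOrbEig {f : Space → ℝ} {ε : ℝ} (h : IsOrbital f ε) :
    ∃ G : Fin 3 → Orb, IsOrbEig (toOrb f) G ε := by
  obtain ⟨-, -, F, hF, heq⟩ := h
  refine ⟨gradOrb F, orbH1_of_isH1 hF, fun f' F' h' => ?_⟩
  have h1 := isH1_of_orbH1 h'
  have h2 := heq _ _ h1
  rw [← orbForm_eq_orbitalForm h1 hF, mbs_toOrb_coe] at h2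
  have e : gradOrb (fun x => WithLp.toLp 2 fun c => (F' c : Space → ℝ) x) = F' := by
    funext c
    exact mbs_toOrb_coe (F' c)
  rw [e] at h2
  rw [h2, mbb_inner_orb]
  congr 1
  refine integral_congr_ae ?_
  filter_upwards [coeFn_toOrb hF.1] with x hx
  rw [hx]

/-! ## ONE -/

theorem mbs_form_comm (f g : Space → ℝ) (F G : Space → Space) : orbitalForm f g F G = orbitalForm g f G F := by
  unfold orbitalForm
  simp only [real_inner_comm, mul_comm]

theorem mbs_integral_lin3 {p q r : Space → ℝ} (hp : Integrable p) (hq : Integrable q) (hr : Integrable r) (β γ : ℝ) :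
    ∫ x, (p x - β * q x - γ * r x) = (∫ x, p x) - β * (∫ x, q x) - γ * ∫ x, r x := by
  have h1 : Integrable fun x => p x - β * q x := hp.sub (hq.const_mul β)
  rw [integral_sub h1 (hr.const_mul γ), integral_sub hp (hq.const_mul β), integral_const_mul, integral_const_mul]

theorem mbs_int_right {w g b e : Space → ℝ} (hw : MemLp w 2 volume) (hg : MemLp g 2 volume) (hb : MemLp b 2 volume)
    (he : MemLp e 2 volume) (β γ : ℝ) :
    ∫ x, w x * (g x - β * b x - γ * e x) = (∫ x, w x * g x) - β * (∫ x, w x * b x) - γ * ∫ x, w x * e x := by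
  have i1 := R259.ws_integrable_mul hw hg
  have i2 := R259.ws_integrable_mul hw hb
  have i3 := R259.ws_integrable_mul hw he
  have : ∀ x, w x * (g x - β * b x - γ * e x) = w x * g x - β * (w x * b x) - γ * (w x * e x) := fun x => by ring
  simp only [this]
  exact mbs_integral_lin3 i1 i2 i3 β γ

theorem mbs_form_right {w g b e : Space → ℝ} {W G B E : Space → Space} (hw : IsH1 w W) (hg : IsH1 g G)
    (hb : IsH1 b B) (he : IsH1 e E) (β γ : ℝ) :
    orbitalForm w (fun x => g x - β * b x - γ * e x) W (fun x => G x - β • B x - γ • E x)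
      = orbitalForm w g W G - β * orbitalForm w b W B - γ * orbitalForm w e W E := by
  unfold orbitalForm
  have hv := nuclearPotential_mem_potentialClass 1 bigD
  have i1 := R259.ws_integrable_inner hw.2.1 hg.2.1
  have i2 := R259.ws_integrable_inner hw.2.1 hb.2.1
  have i3 := R259.ws_integrable_inner hw.2.1 he.2.1
  have j1 := en_integrable_pot hv hw hg
  have j2 := en_integrable_pot hv hw hb
  have j3 := en_integrable_pot hv hw he
  have e1 : ∀ x, ⟪W x, G x - β • B x - γ • E x⟫_ℝ = ⟪W x, G x⟫_ℝ - β * ⟪W x, B x⟫_ℝ - γ * ⟪W x, E x⟫_ℝ := fun x => by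
    rw [inner_sub_right, inner_sub_right, real_inner_smul_right, real_inner_smul_right]
  have e2 : ∀ x, uD x * (w x * (g x - β * b x - γ * e x))
      = uD x * (w x * g x) - β * (uD x * (w x * b x)) - γ * (uD x * (w x * e x)) := fun x => by ring
  simp only [e1, e2]
  rw [mbs_integral_lin3 i1 i2 i3 β γ, mbs_integral_lin3 j1 j2 j3 β γ]
  ring

theorem mbs_int_be {b e : Space → ℝ} {εb εe : ℝ} (h : TwoCentre b e εb εe) : ∫ x, b x * e x = 0 := by
  obtain ⟨-, -, B, hB, hbeq⟩ := h.data.orbital_b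
  obtain ⟨-, -, E, hE, heeq⟩ := h.data.orbital_e
  have h1 := hbeq e E hE
  have h2 := heeq b B hB
  rw [mbs_form_comm] at h1
  rw [h2] at h1
  have h3 : ∫ x, e x * b x = ∫ x, b x * e x := by simp only [mul_comm]
  rw [h3] at h1
  have h4 : (εe - εb) * ∫ x, b x * e x = 0 := by linarith
  rcases mul_eq_zero.1 h4 with h5 | h5
  · have := h.data.lt; linarith
  · exact h5

theorem TwoCentre.inner_eq_zero {b e : Space → ℝ} {εb εe : ℝ} (h : TwoCentre b e εb εe) :
    ⟪toOrb b, toOrb e⟫_ℝ = 0 := by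
  rw [inner_toOrb h.data.orbital_b.memLp h.data.orbital_e.memLp]
  exact mbs_int_be h

/-- `h_D ≥ ε_b P_b + ε_e P_e + (ε_e + 0.2)(1 - P_b - P_e)` on `H¹(ℝ³)`. -/
theorem TwoCentre.form_ge {b e : Space → ℝ} {εb εe : ℝ} (h : TwoCentre b e εb εe) {g : Space → ℝ}
    {G : Space → Space} (hg : IsH1 g G) :
    (εe + 0.2) * (∫ x, g x ^ 2) - (εe + 0.2 - εb) * (∫ x, g x * b x) ^ 2 - 0.2 * (∫ x, g x * e x) ^ 2 ≤
      orbitalForm g g G G := by
  have hbe := mbs_int_be h
  obtain ⟨-, hb1, B, hB, hbeq⟩ := h.data.orbital_b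
  obtain ⟨-, he1, E, hE, heeq⟩ := h.data.orbital_e
  set β : ℝ := ∫ x, g x * b x with hβ
  set γ : ℝ := ∫ x, g x * e x with hγ
  have hp : IsH1 (fun x => g x - β * b x - γ * e x) (fun x => G x - β • B x - γ • E x) :=
    enH1_sub (enH1_sub hg (enH1_const_mul β hB)) (enH1_const_mul γ hE)
  have cm : ∀ (p q : Space → ℝ), ∫ x, p x * q x = ∫ x, q x * p x := fun p q => by simp only [mul_comm]
  have hbb : ∫ x, b x * b x = 1 := by simpa only [sq] using hb1
  have hee : ∫ x, e x * e x = 1 := by simpa only [sq] using he1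
  -- orthogonality
  have o1 : ∫ x, (g x - β * b x - γ * e x) * b x = 0 := by
    rw [cm, mbs_int_right hB.1 hg.1 hB.1 hE.1, hbb, hbe, cm b g]; ring
  have o2 : ∫ x, (g x - β * b x - γ * e x) * e x = 0 := by
    rw [cm, mbs_int_right hE.1 hg.1 hB.1 hE.1, hee, cm e b, hbe, cm e g]; ring
  have n1 : ∫ x, (g x - β * b x - γ * e x) ^ 2 = (∫ x, g x ^ 2) - β ^ 2 - γ ^ 2 := by
    simp only [sq]
    rw [mbs_int_right hp.1 hg.1 hB.1 hE.1, o1, o2, cm, mbs_int_right hg.1 hg.1 hB.1 hE.1]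
    ring
  have q1 : orbitalForm (fun x => g x - β * b x - γ * e x) (fun x => g x - β * b x - γ * e x)
      (fun x => G x - β • B x - γ • E x) (fun x => G x - β • B x - γ • E x)
      = orbitalForm g g G G - εb * β ^ 2 - εe * γ ^ 2 := by
    rw [mbs_form_right hp hg hB hE, hbeq _ _ hp, heeq _ _ hp, o1, o2, mbs_form_comm, mbs_form_right hg hg hB hE,
      hbeq _ _ hg, heeq _ _ hg]
    ring
  have := h.third _ _ hp o1 o2
  rw [n1, q1] at this
  linarith

/-- the same as a `OneBodyBound`, for a Hilbert basis containing `b` and `e`. -/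
theorem TwoCentre.oneBodyBound {b e : Space → ℝ} {εb εe : ℝ} (h : TwoCentre b e εb εe) {ι : Type*}
    (u : HilbertBasis ι ℝ Orb) {κb κe : ι} (hb : u κb = toOrb b) (he : u κe = toOrb e) :
    OneBodyBound uD (εe + 0.2) ![εe + 0.2 - εb, 0.2] (fun l : Fin 2 => u (![κb, κe] l)) := by
  intro g hg hc
  have h1 := h.form_ge (enH1_of_contDiff hg hc)
  have e1 : ∫ x, g x * (u κb : Space → ℝ) x = ∫ x, g x * b x := by
    refine integral_congr_ae ?_
    rw [hb]
    filter_upwards [coeFn_toOrb h.data.orbital_b.memLp] with x hx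
    rw [hx]
  have e2 : ∫ x, g x * (u κe : Space → ℝ) x = ∫ x, g x * e x := by
    refine integral_congr_ae ?_
    rw [he]
    filter_upwards [coeFn_toOrb h.data.orbital_e.memLp] with x hx
    rw [hx]
  have e3 : orbitalForm g g (gradient g) (gradient g) = (1 / 2) * (∫ x, ‖gradient g x‖ ^ 2) + ∫ x, uD x * g x ^ 2 := by
    unfold orbitalForm
    simp only [real_inner_self_eq_norm_sq, sq]
  rw [Fin.sum_univ_two]
  simp only [Matrix.cons_val_zero, Matrix.cons_val_one, Matrix.cons_val_fin_one, e1, e2]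
  rw [← e3]
  linarith

/-! ## GRAD, FORM -/

theorem mbs_memLp_prod (f : Fin m → Orb) : MemLp (fun x : Config m => ∏ j, (f j : Space → ℝ) (x j)) 2 volume := by
  have hm := mbb_aesm_prod (m := m) (f := fun i => (f i : Space → ℝ)) fun i => (Lp.memLp (f i)).aestronglyMeasurable
  have h1 := (memLp_tensFun (f := fun i => (f i : Space → ℝ)) (fun i => Lp.memLp (f i)) (fun _ => 0 : SpinConfig m)).norm
  simp only [mbb_norm_tensFun] at h1
  exact (memLp_norm_iff hm).1 h1

theorem mbs_integral_smul_tens (f : Fin m → Orb) (s : SpinConfig m) (a : Config m → ℝ) :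
    ∫ x, a x • tens f s x
      = ((∫ x, a x * ∏ j, (f j : Space → ℝ) (x j) : ℝ) : ℂ) • (EuclideanSpace.single s (1 : ℂ) : SpinSpace m) := by
  have e1 : ∫ x, a x • tens f s x
      = ∫ x, ((a x * ∏ j, (f j : Space → ℝ) (x j) : ℝ) : ℂ) • (EuclideanSpace.single s (1 : ℂ) : SpinSpace m) := by
    refine integral_congr_ae ?_
    filter_upwards [coeFn_tens f s] with x hx
    rw [hx, tensFun, ← Complex.coe_smul, smul_smul, Complex.ofReal_mul]
  rw [e1, integral_smul_const]
  congr 1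
  exact integral_ofReal

theorem mbs_prod_ins {n : ℕ} (f : Fin (n + 1) → Orb) (i : Fin (n + 1)) (r : Space) (y : Config n) :
    ∏ j, (f j : Space → ℝ) ((i.insertNth r y : Config (n + 1)) j)
      = (f i : Space → ℝ) r * ∏ k, (f (i.succAbove k) : Space → ℝ) (y k) := by
  rw [Fin.prod_univ_succAbove _ i]
  simp

theorem mbs_weakDeriv {n : ℕ} (f : Fin (n + 1) → Orb) (i : Fin (n + 1)) {g : Orb} (c : Fin 3)
    (hw : ∀ φ : Space → ℝ, ContDiff ℝ ∞ φ → HasCompactSupport φ →
      (∫ x, (f i : Space → ℝ) x * fderiv ℝ φ x (EuclideanSpace.single c 1)) = -(∫ x, (g : Space → ℝ) x * φ x))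
    {φ : Config (n + 1) → ℝ} (hφ : ContDiff ℝ ∞ φ) (hc : HasCompactSupport φ) :
    ∫ x, fderiv ℝ φ x (dir (i, c)) * ∏ j, (f j : Space → ℝ) (x j)
      = - ∫ x, φ x * ∏ j, (Function.update f i g j : Space → ℝ) (x j) := by
  have hφ1 : ContDiff ℝ 1 φ := hφ.of_le (by simp)
  have i1 : Integrable fun x => fderiv ℝ φ x (dir (i, c)) * ∏ j, (f j : Space → ℝ) (x j) :=
    ((mbs_memLp_prod f).locallyIntegrable (by norm_num)).integrable_smul_left_of_hasCompactSupport
      (continuous_fderiv_dir hφ _) (hasCompactSupport_fderiv_dir hc _)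
  have i2 : Integrable fun x => φ x * ∏ j, (Function.update f i g j : Space → ℝ) (x j) :=
    ((mbs_memLp_prod (Function.update f i g)).locallyIntegrable
      (by norm_num)).integrable_smul_left_of_hasCompactSupport hφ.continuous hc
  rw [en_integral_ins i i1, en_integral_ins i i2, ← integral_neg]
  congr 1; funext y
  have hne : ∀ k : Fin n, Function.update f i g (i.succAbove k) = f (i.succAbove k) :=
    fun k => Function.update_of_ne (Fin.succAbove_ne i k) _ _
  simp only [mbs_prod_ins, Function.update_self, hne]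
  have key := hw (fun r => φ (i.insertNth r y : Config (n + 1))) (hφ.comp (en_contDiff_ins i y ∞))
    (en_hasCompactSupport_slice hc i y)
  have e1 : ∀ r, fderiv ℝ (fun r => φ (i.insertNth r y : Config (n + 1))) r (EuclideanSpace.single c 1)
      = fderiv ℝ φ (i.insertNth r y : Config (n + 1)) (dir (i, c)) := fun r => by
    rw [(en_hasFDerivAt_slice hφ1 i y r).fderiv]; rfl
  simp only [e1] at key
  have a1 : ∀ r, fderiv ℝ φ (i.insertNth r y : Config (n + 1)) (dir (i, c))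
        * ((f i : Space → ℝ) r * ∏ k, (f (i.succAbove k) : Space → ℝ) (y k))
      = ((f i : Space → ℝ) r * fderiv ℝ φ (i.insertNth r y : Config (n + 1)) (dir (i, c)))
        * ∏ k, (f (i.succAbove k) : Space → ℝ) (y k) := fun r => by ring
  have a2 : ∀ r, φ (i.insertNth r y : Config (n + 1)) * ((g : Space → ℝ) r * ∏ k, (f (i.succAbove k) : Space → ℝ) (y k))
      = ((g : Space → ℝ) r * φ (i.insertNth r y : Config (n + 1))) * ∏ k, (f (i.succAbove k) : Space → ℝ) (y k) :=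
    fun r => by ring
  simp only [a1, a2]
  rw [integral_mul_const, integral_mul_const, key]
  ring

/-- weak gradient of a product vector. -/
theorem isWeakGradient_tens {f : Fin m → Orb} {G : Fin m → Fin 3 → Orb} (h : ∀ i, OrbH1 (f i) (G i))
    (s : SpinConfig m) :
    IsWeakGradient (tens f s) (fun j => tens (Function.update f j.1 (G j.1 j.2)) s) := by
  rintro ⟨i, c⟩ φ hφ hc
  cases m with
  | zero => exact i.elim0
  | succ n =>
    rw [mbs_integral_smul_tens, mbs_integral_smul_tens, mbs_weakDeriv f i c (h i c) hφ hc]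
    simp only [Complex.ofReal_neg, neg_smul]

theorem memH1_tens {f : Fin m → Orb} {G : Fin m → Fin 3 → Orb} (h : ∀ i, OrbH1 (f i) (G i))
    (s : SpinConfig m) : MemH1 (tens f s) :=
  ⟨_, isWeakGradient_tens h s⟩

theorem mbs_prod_inner_update (f g : Fin m → Orb) (i : Fin m) (a b : Orb) :
    ∏ k, ⟪Function.update f i a k, Function.update g i b k⟫_ℝ
      = ⟪a, b⟫_ℝ * ∏ k ∈ Finset.univ.erase i, ⟪f k, g k⟫_ℝ := by
  rw [← Finset.mul_prod_erase _ _ (Finset.mem_univ i), Function.update_self, Function.update_self]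
  congr 1
  refine Finset.prod_congr rfl fun k hk => ?_
  rw [Function.update_of_ne (Finset.ne_of_mem_erase hk), Function.update_of_ne (Finset.ne_of_mem_erase hk)]

theorem mbs_pot_eq (f g : Fin m → Orb) (i : Fin m) (w : Space → ℝ) (x : Config m) :
    w (x i) * ((∏ j, (f j : Space → ℝ) (x j)) * ∏ j, (g j : Space → ℝ) (x j))
      = ∏ j, (Function.update (fun j r => (f j : Space → ℝ) r * (g j : Space → ℝ) r) i
          (fun r => w r * ((f i : Space → ℝ) r * (g i : Space → ℝ) r)) j) (x j) := by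
  rw [← Finset.prod_mul_distrib, ← Finset.mul_prod_erase _ _ (Finset.mem_univ i), ← mul_assoc]
  symm
  rw [← Finset.mul_prod_erase _ _ (Finset.mem_univ i), Function.update_self]
  congr 1
  refine Finset.prod_congr rfl fun k hk => ?_
  rw [Function.update_of_ne (Finset.ne_of_mem_erase hk)]

theorem mbs_integrable_mul_orb (f g : Orb) : Integrable fun r => (f : Space → ℝ) r * (g : Space → ℝ) r :=
  (Lp.memLp f).integrable_mul (Lp.memLp g)

theorem mbs_integrable_pot (f g : Fin m → Orb) (i : Fin m) {w : Space → ℝ}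
    (hw : Integrable fun r => w r * ((f i : Space → ℝ) r * (g i : Space → ℝ) r)) :
    Integrable fun x : Config m => w (x i) * ((∏ j, (f j : Space → ℝ) (x j)) * ∏ j, (g j : Space → ℝ) (x j)) := by
  simp only [mbs_pot_eq]
  refine Integrable.fintype_prod fun j => ?_
  by_cases hj : j = i
  · subst hj; rw [Function.update_self]; exact hw
  · rw [Function.update_of_ne hj]; exact mbs_integrable_mul_orb _ _

theorem mbs_integral_pot (f g : Fin m → Orb) (i : Fin m) (w : Space → ℝ) :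
    ∫ x : Config m, w (x i) * ((∏ j, (f j : Space → ℝ) (x j)) * ∏ j, (g j : Space → ℝ) (x j))
      = (∫ r, w r * ((f i : Space → ℝ) r * (g i : Space → ℝ) r)) * ∏ j ∈ Finset.univ.erase i, ⟪f j, g j⟫_ℝ := by
  simp only [mbs_pot_eq]
  rw [integral_fintype_prod_volume_eq_prod, ← Finset.mul_prod_erase _ _ (Finset.mem_univ i), Function.update_self]
  congr 1
  refine Finset.prod_congr rfl fun k hk => ?_
  rw [Function.update_of_ne (Finset.ne_of_mem_erase hk), mbb_inner_orb]

theorem mbs_inner_tensFun (f g : Fin m → Space → ℝ) (s s' : SpinConfig m) (x : Config m) :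
    ⟪tensFun f s x, tensFun g s' x⟫_ℂ
      = if s = s' then (((∏ j, f j (x j)) * ∏ j, g j (x j) : ℝ) : ℂ) else 0 := by
  rw [tensFun, tensFun, inner_smul_left, inner_smul_right, EuclideanSpace.inner_single_left]
  by_cases h : s = s'
  · simp [h]
  · simp [h]

/-- a product of eigenfunctions is an "eigenvector against product vectors". -/
theorem sesqForm_zero_tens_eig {f g : Fin m → Orb} {F G : Fin m → Fin 3 → Orb} {ε : Fin m → ℝ}
    (hf : ∀ i, OrbH1 (f i) (F i)) (hg : ∀ i, IsOrbEig (g i) (G i) (ε i)) (s s' : SpinConfig m) :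
    sesqForm (scaledPotential m 0) (tens f s) (tens g s') =
      ((∑ i, ε i : ℝ) : ℂ) * ⟪tens f s, tens g s'⟫_ℂ := by
  unfold sesqForm
  rw [(isWeakGradient_tens hf s).weakGrad_eq, (isWeakGradient_tens (fun i => (hg i).1) s').weakGrad_eq]
  have hpt : ∀ᵐ x : Config m, (scaledPotential m 0 x : ℂ) * ⟪tens f s x, tens g s' x⟫_ℂ
      = if s = s' then ((∑ i, uD (x i) * ((∏ j, (f j : Space → ℝ) (x j)) * ∏ j, (g j : Space → ℝ) (x j)) : ℝ) : ℂ)
        else 0 := by
    filter_upwards [coeFn_tens f s, coeFn_tens g s'] with x h1 h2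
    rw [h1, h2, mbs_inner_tensFun]
    by_cases h : s = s'
    · simp only [if_pos h, scaledPotential, oneBodyPotential, zero_mul, add_zero, ← Finset.sum_mul]
      push_cast
      ring
    · simp [h]
  rw [integral_congr_ae hpt]
  simp only [inner_tens]
  by_cases h : s = s'
  · simp only [if_pos h, mbs_prod_inner_update]
    have hint : ∀ i, Integrable fun x : Config m =>
        uD (x i) * ((∏ j, (f j : Space → ℝ) (x j)) * ∏ j, (g j : Space → ℝ) (x j)) := fun i =>
      mbs_integrable_pot f g i (integrable_uD_orb (hf i) (hg i).1)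
    have e1 : ∫ x : Config m, ((∑ i, uD (x i) * ((∏ j, (f j : Space → ℝ) (x j))
        * ∏ j, (g j : Space → ℝ) (x j)) : ℝ) : ℂ)
        = ((∑ i, (∫ r, uD r * ((f i : Space → ℝ) r * (g i : Space → ℝ) r))
            * ∏ j ∈ Finset.univ.erase i, ⟪f j, g j⟫_ℝ : ℝ) : ℂ) := by
      have e0 : (∑ i, (∫ r, uD r * ((f i : Space → ℝ) r * (g i : Space → ℝ) r))
            * ∏ j ∈ Finset.univ.erase i, ⟪f j, g j⟫_ℝ)
          = ∫ x : Config m, ∑ i, uD (x i) * ((∏ j, (f j : Space → ℝ) (x j)) * ∏ j, (g j : Space → ℝ) (x j)) := by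
        rw [integral_finsetSum _ fun i _ => hint i]
        simp only [mbs_integral_pot]
      rw [e0]
      exact integral_ofReal
    rw [e1, Fintype.sum_prod_type]
    have e2 : ∀ i, ε i * ∏ j, ⟪f j, g j⟫_ℝ
        = ((1 / 2) * ∑ c, ⟪F i c, G i c⟫_ℝ + ∫ r, uD r * ((f i : Space → ℝ) r * (g i : Space → ℝ) r))
          * ∏ j ∈ Finset.univ.erase i, ⟪f j, g j⟫_ℝ := by
      intro i
      have := (hg i).2 (f i) (F i) (hf i)
      unfold orbForm at this
      rw [this, ← Finset.mul_prod_erase _ _ (Finset.mem_univ i)]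
      ring
    rw [← Complex.ofReal_mul, Finset.sum_mul]
    simp only [e2]
    push_cast
    simp only [add_mul, Finset.sum_add_distrib, Finset.mul_sum, Finset.sum_mul]
    congr 1
    refine Finset.sum_congr rfl fun i _ => Finset.sum_congr rfl fun c _ => ?_
    ring
  · simp [h]

/-! ## SLATER -/

/-- the Slater determinant of the spin orbitals `(f i, σ i)`. -/
def sdet (f : Fin m → Orb) (σ : SpinConfig m) : L2 m :=
  (((√(m.factorial : ℝ))⁻¹ : ℝ) : ℂ) •
    ∑ π : Equiv.Perm (Fin m), ((Equiv.Perm.sign π : ℤ) : ℂ) • tens (f ∘ π) (σ ∘ π)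


theorem mbs_coeFn_sum (f : Fin m → Orb) (σ : SpinConfig m) :
    ∀ᵐ x : Config m, (∑ π : Equiv.Perm (Fin m), ((Equiv.Perm.sign π : ℤ) : ℂ) • tens (f ∘ π) (σ ∘ π) : L2 m) x
      = ∑ π : Equiv.Perm (Fin m), ((Equiv.Perm.sign π : ℤ) : ℂ) • tens (f ∘ π) (σ ∘ π) x := by
  have h1 := Lp.coeFn_fun_finsetSum Finset.univ
    (fun π : Equiv.Perm (Fin m) => ((Equiv.Perm.sign π : ℤ) : ℂ) • tens (f ∘ π) (σ ∘ π))
  have h2 : ∀ᵐ x : Config m, ∀ π : Equiv.Perm (Fin m),
      (((Equiv.Perm.sign π : ℤ) : ℂ) • tens (f ∘ π) (σ ∘ π) : L2 m) x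
        = ((Equiv.Perm.sign π : ℤ) : ℂ) • tens (f ∘ π) (σ ∘ π) x :=
    ae_all_iff.2 fun π => Lp.coeFn_smul _ _
  filter_upwards [h1, h2] with x h1 h2
  rw [h1]
  exact Finset.sum_congr rfl fun π _ => h2 π

theorem isAntisymmetric_sdet (f : Fin m → Orb) (σ : SpinConfig m) : IsAntisymmetric (sdet f σ) := by
  refine IsAntisymmetric.smul _ ?_
  intro π
  have hS := mbs_coeFn_sum f σ
  have hS' := (measurePreserving_comp_perm π).quasiMeasurePreserving.ae hS
  have hT : ∀ᵐ x : Config m, ∀ τ : Equiv.Perm (Fin m), ∀ s' : SpinConfig m,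
      tens (f ∘ τ) (σ ∘ τ) (x ∘ π) (s' ∘ π) = tens ((f ∘ τ) ∘ π.symm) ((σ ∘ τ) ∘ π.symm) x s' :=
    ae_all_iff.2 fun τ => tens_comp_perm (f ∘ τ) (σ ∘ τ) π
  filter_upwards [hS, hS', hT] with x hS hS' hT s'
  rw [hS, hS']
  simp only [WithLp.ofLp_sum, WithLp.ofLp_smul, Finset.sum_apply, Pi.smul_apply, smul_eq_mul, hT]
  rw [Finset.mul_sum, ← Equiv.sum_comp (Equiv.mulRight π)]
  refine Finset.sum_congr rfl fun ρ _ => ?_
  have e1 : (f ∘ ⇑((Equiv.mulRight π) ρ)) ∘ ⇑π.symm = f ∘ ρ := by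
    funext i; simp
  have e2 : (σ ∘ ⇑((Equiv.mulRight π) ρ)) ∘ ⇑π.symm = σ ∘ ρ := by
    funext i; simp
  rw [e1, e2]
  simp only [Equiv.coe_mulRight, Equiv.Perm.sign_mul, Units.val_mul, Int.cast_mul]
  ring

theorem mbs_spinZ_comp (σ : SpinConfig m) (π : Equiv.Perm (Fin m)) : spinZ (σ ∘ π) = spinZ σ := by
  unfold spinZ
  exact Equiv.sum_comp π fun i => if σ i = 0 then (1 / 2 : ℚ) else -(1 / 2)

theorem inSpinSector_sdet (f : Fin m → Orb) (σ : SpinConfig m) : InSpinSector (spinZ σ) (sdet f σ) := by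
  have : sdet f σ ∈ sectorSub m (spinZ σ) := by
    refine Submodule.smul_mem _ _ (Submodule.sum_mem _ fun π _ => Submodule.smul_mem _ _ ?_)
    have := inSpinSector_tens (f ∘ π) (σ ∘ π)
    rwa [mbs_spinZ_comp] at this
  exact this

theorem mbs_sqrt_factorial (m : ℕ) :
    (((√(m.factorial : ℝ))⁻¹ : ℝ) : ℂ) * (m.factorial : ℂ) = ((√(m.factorial : ℝ) : ℝ) : ℂ) := by
  have h0 : (0 : ℝ) < m.factorial := by exact_mod_cast m.factorial_pos
  have h1 : (√(m.factorial : ℝ))⁻¹ * (m.factorial : ℝ) = √(m.factorial : ℝ) := by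
    have := Real.mul_self_sqrt h0.le
    have h2 : √(m.factorial : ℝ) ≠ 0 := (Real.sqrt_pos.2 h0).ne'
    field_simp
    nlinarith
  exact_mod_cast congrArg (fun t : ℝ => (t : ℂ)) h1

/-- overlap of a Slater determinant with an antisymmetric vector. -/
theorem inner_sdet {Ξ : L2 m} (hΞ : IsAntisymmetric Ξ) (f : Fin m → Orb) (σ : SpinConfig m) :
    ⟪sdet f σ, Ξ⟫_ℂ = ((√(m.factorial : ℝ) : ℝ) : ℂ) * ⟪tens f σ, Ξ⟫_ℂ := by
  unfold sdet
  rw [inner_smul_left, sum_inner]
  have h1 : ∀ π : Equiv.Perm (Fin m), ⟪((Equiv.Perm.sign π : ℤ) : ℂ) • tens (f ∘ π) (σ ∘ π), Ξ⟫_ℂ = ⟪tens f σ, Ξ⟫_ℂ := by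
    intro π
    rw [inner_smul_left, inner_tens_perm hΞ, ← mul_assoc]
    have hs : ((Equiv.Perm.sign π : ℤ) : ℂ) * ((Equiv.Perm.sign π : ℤ) : ℂ) = 1 := by
      rcases Int.units_eq_one_or (Equiv.Perm.sign π) with h | h <;> simp [h]
    simp only [map_intCast, hs, one_mul]
  simp only [h1, Finset.sum_const, Finset.card_univ, Fintype.card_perm, Fintype.card_fin, nsmul_eq_mul,
    Complex.conj_ofReal]
  rw [← mul_assoc, mbs_sqrt_factorial]

theorem norm_sdet {f : Fin m → Orb} {σ : SpinConfig m} (hn : ∀ i, ‖f i‖ = 1)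
    (ho : ∀ i j, i ≠ j → σ i = σ j → ⟪f i, f j⟫_ℝ = 0) : ‖sdet f σ‖ = 1 := by
  have h1 : ⟪sdet f σ, sdet f σ⟫_ℂ = 1 := by
    rw [inner_sdet (isAntisymmetric_sdet f σ)]
    unfold sdet
    rw [inner_smul_right, inner_sum, Finset.sum_eq_single (1 : Equiv.Perm (Fin m))]
    · rw [inner_smul_right]
      have e1 : f ∘ ⇑(1 : Equiv.Perm (Fin m)) = f := rfl
      have e2 : σ ∘ ⇑(1 : Equiv.Perm (Fin m)) = σ := rfl
      rw [e1, e2, inner_tens, if_pos rfl]
      have h3 : ∀ i, ⟪f i, f i⟫_ℝ = 1 := fun i => by rw [real_inner_self_eq_norm_sq, hn]; norm_num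
      simp only [h3, Finset.prod_const_one, Equiv.Perm.sign_one, Units.val_one, Int.cast_one, Complex.ofReal_one,
        mul_one]
      have h0 : (0 : ℝ) < m.factorial := by exact_mod_cast m.factorial_pos
      rw [← Complex.ofReal_mul, mul_inv_cancel₀ (Real.sqrt_pos.2 h0).ne', Complex.ofReal_one]
    · intro π _ hπ
      rw [inner_smul_right, inner_tens]
      by_cases hs : σ = σ ∘ π
      · obtain ⟨i, hi⟩ : ∃ i, π i ≠ i := by
          by_contra hcon
          push Not at hcon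
          exact hπ (Equiv.ext hcon)
        rw [if_pos hs, Finset.prod_eq_zero (Finset.mem_univ i) (ho i (π i) hi.symm (congrFun hs i))]
        simp
      · rw [if_neg hs, mul_zero]
    · intro h; exact absurd (Finset.mem_univ _) h
  have h2 : ‖sdet f σ‖ ^ 2 = 1 := by
    rw [← inner_self_eq_norm_sq (𝕜 := ℂ), h1]; simp
  nlinarith [norm_nonneg (sdet f σ), sq_nonneg (‖sdet f σ‖ - 1)]

theorem memH1_sdet {f : Fin m → Orb} {G : Fin m → Fin 3 → Orb} (h : ∀ i, OrbH1 (f i) (G i))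
    (σ : SpinConfig m) : MemH1 (sdet f σ) := by
  have : sdet f σ ∈ H1S m := by
    refine Submodule.smul_mem _ _ (Submodule.sum_mem _ fun π _ => Submodule.smul_mem _ _ ?_)
    exact memH1_tens (G := G ∘ π) (fun i => h (π i)) (σ ∘ π)
  exact this

theorem mbs_herm_sum {H : Type*} [NormedAddCommGroup H] [InnerProductSpace ℂ H] {V : Submodule ℂ H} {q : H → H → ℂ}
    (hq : HermForm V q) {ι : Type*} (s : Finset ι) {x : H} (hx : x ∈ V) {y : ι → H} (hy : ∀ i, y i ∈ V) (a : ι → ℂ) :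
    q x (∑ i ∈ s, a i • y i) = ∑ i ∈ s, a i * q x (y i) := by
  classical
  induction s using Finset.induction_on with
  | empty =>
    have := hq.smul_right 0 x hx x hx
    simpa using this
  | insert i s hi ih =>
    rw [Finset.sum_insert hi, Finset.sum_insert hi,
      hq.add_right x hx _ (V.smul_mem _ (hy i)) _ (V.sum_mem fun j _ => V.smul_mem _ (hy j)),
      hq.smul_right _ x hx _ (hy i), ih]

/-- the noninteracting energy of a Slater determinant of eigenfunctions. -/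
theorem energy_zero_sdet {g : Fin m → Orb} {G : Fin m → Fin 3 → Orb} {ε : Fin m → ℝ}
    (hg : ∀ i, IsOrbEig (g i) (G i) (ε i)) (σ : SpinConfig m) :
    energy (scaledPotential m 0) (sdet g σ) = (∑ i, ε i) * ‖sdet g σ‖ ^ 2 := by
  have hq := hermForm_scaled_H1S (m := m) 0
  have hT : ∀ π : Equiv.Perm (Fin m), tens (g ∘ π) (σ ∘ π) ∈ H1S m := fun π =>
    memH1_tens (G := G ∘ π) (fun i => (hg (π i)).1) (σ ∘ π)
  have hD : sdet g σ ∈ H1S m := memH1_sdet (fun i => (hg i).1) σ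
  have hε : ∀ π : Equiv.Perm (Fin m), ∑ i, ε (π i) = ∑ i, ε i := fun π => Equiv.sum_comp π ε
  have hexp : ∀ x ∈ H1S m, sesqForm (scaledPotential m 0) x (sdet g σ)
      = (((√(m.factorial : ℝ))⁻¹ : ℝ) : ℂ) * ∑ τ : Equiv.Perm (Fin m), ((Equiv.Perm.sign τ : ℤ) : ℂ)
        * sesqForm (scaledPotential m 0) x (tens (g ∘ τ) (σ ∘ τ)) := by
    intro x hx
    unfold sdet
    rw [hq.smul_right _ _ hx _ (Submodule.sum_mem _ fun τ _ => Submodule.smul_mem _ _ (hT τ)),
      mbs_herm_sum hq _ hx hT]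
  have hinn : ∀ x : L2 m, ⟪x, sdet g σ⟫_ℂ
      = (((√(m.factorial : ℝ))⁻¹ : ℝ) : ℂ) * ∑ τ : Equiv.Perm (Fin m), ((Equiv.Perm.sign τ : ℤ) : ℂ)
        * ⟪x, tens (g ∘ τ) (σ ∘ τ)⟫_ℂ := by
    intro x
    unfold sdet
    rw [inner_smul_right, inner_sum]
    simp only [inner_smul_right]
  have hfin : ∀ x ∈ H1S m, (∀ τ : Equiv.Perm (Fin m), sesqForm (scaledPotential m 0) x (tens (g ∘ τ) (σ ∘ τ))
      = ((∑ i, ε i : ℝ) : ℂ) * ⟪x, tens (g ∘ τ) (σ ∘ τ)⟫_ℂ) →
      sesqForm (scaledPotential m 0) x (sdet g σ) = ((∑ i, ε i : ℝ) : ℂ) * ⟪x, sdet g σ⟫_ℂ := by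
    intro x hx h
    rw [hexp x hx, hinn]
    simp only [h, Finset.mul_sum]
    refine Finset.sum_congr rfl fun τ _ => ?_
    ring
  -- first slot a tensor
  have h1 : ∀ π : Equiv.Perm (Fin m), sesqForm (scaledPotential m 0) (tens (g ∘ π) (σ ∘ π)) (sdet g σ)
      = ((∑ i, ε i : ℝ) : ℂ) * ⟪tens (g ∘ π) (σ ∘ π), sdet g σ⟫_ℂ := by
    intro π
    refine hfin _ (hT π) fun τ => ?_
    rw [sesqForm_zero_tens_eig (f := g ∘ π) (g := g ∘ τ) (F := G ∘ π) (G := G ∘ τ) (ε := ε ∘ τ)
      (fun i => (hg (π i)).1) (fun i => hg (τ i))]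
    simp only [Function.comp_apply, hε]
  have h2 : sesqForm (scaledPotential m 0) (sdet g σ) (sdet g σ)
      = ((∑ i, ε i : ℝ) : ℂ) * ⟪sdet g σ, sdet g σ⟫_ℂ := by
    refine hfin _ hD fun π => ?_
    rw [hq.conj_symm _ (hT π) _ hD, h1, map_mul, Complex.conj_ofReal, inner_conj_symm]
  unfold energy
  rw [h2, inner_self_eq_norm_sq_to_K, Complex.re_ofReal_mul]
  congr 1
  norm_cast

/-! ## SYMM -/

theorem mbs_coeFn_sdet (f : Fin m → Orb) (σ : SpinConfig m) :
    ∀ᵐ x : Config m, sdet f σ x = (((√(m.factorial : ℝ))⁻¹ : ℝ) : ℂ) •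
      ∑ π : Equiv.Perm (Fin m), ((Equiv.Perm.sign π : ℤ) : ℂ) •
        tensFun (fun i => (f (π i) : Space → ℝ)) (σ ∘ π) x := by
  have h1 : ∀ᵐ x : Config m, ∀ π : Equiv.Perm (Fin m),
      tens (f ∘ π) (σ ∘ π) x = tensFun (fun i => (f (π i) : Space → ℝ)) (σ ∘ π) x :=
    ae_all_iff.2 fun π => coeFn_tens (f ∘ π) (σ ∘ π)
  filter_upwards [Lp.coeFn_smul (((√(m.factorial : ℝ))⁻¹ : ℝ) : ℂ)
    (∑ π : Equiv.Perm (Fin m), ((Equiv.Perm.sign π : ℤ) : ℂ) • tens (f ∘ π) (σ ∘ π)), mbs_coeFn_sum f σ, h1]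
    with x h2 h3 h1
  unfold sdet
  rw [h2, Pi.smul_apply, h3]
  simp only [h1]

theorem isAxisymmetric_sdet {f : Fin m → Orb}
    (h : ∀ i a, ∀ᵐ x : Space, (f i : Space → ℝ) (rotZ a x) = (f i : Space → ℝ) x) (σ : SpinConfig m) :
    IsAxisymmetric (sdet f σ) := by
  intro a
  have h1 := mbs_coeFn_sdet f σ
  have h2 := (measurePreserving_config_rotZ (m := m) a).quasiMeasurePreserving.ae h1
  have h3 : ∀ᵐ x : Config m, ∀ i j : Fin m, (f j : Space → ℝ) (rotZ a (x i)) = (f j : Space → ℝ) (x i) :=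
    ae_all_iff.2 fun i => ae_all_iff.2 fun j => mbb_ae_eval i (h j a)
  filter_upwards [h1, h2, h3] with x h1 h2 h3
  rw [h1, h2]
  simp only [tensFun, h3]

theorem hasReflectionParity_sdet {f : Fin m → Orb} {ε : Fin m → ℝ}
    (h : ∀ i, ∀ᵐ x : Space, (f i : Space → ℝ) (reflZ x) = ε i * (f i : Space → ℝ) x) (σ : SpinConfig m) :
    HasReflectionParity ((∏ i, ε i : ℝ) : ℂ) (sdet f σ) := by
  have h1 := mbs_coeFn_sdet f σ
  have h2 := (measurePreserving_config_reflZ (m := m)).quasiMeasurePreserving.ae h1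
  have h3 : ∀ᵐ x : Config m, ∀ i j : Fin m, (f j : Space → ℝ) (reflZ (x i)) = ε j * (f j : Space → ℝ) (x i) :=
    ae_all_iff.2 fun i => ae_all_iff.2 fun j => mbb_ae_eval i (h j)
  filter_upwards [h1, h2, h3] with x h1 h2 h3
  rw [h1, h2]
  have hε : ∀ π : Equiv.Perm (Fin m), ∏ i, ε (π i) = ∏ i, ε i := fun π => Equiv.prod_comp π ε
  simp only [tensFun, h3, Finset.prod_mul_distrib, hε, Finset.smul_sum, smul_smul]
  refine Finset.sum_congr rfl fun π _ => ?_
  congr 1
  push_cast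
  ring

theorem isSinglet_sdet (f : Orb) : IsSinglet (sdet ![f, f] ![0, 1]) := by
  filter_upwards [mbs_coeFn_sdet ![f, f] ![0, 1]] with y hy s
  rw [hy]
  have hf : ∀ (π : Equiv.Perm (Fin 2)) (i : Fin 2), (![f, f] : Fin 2 → Orb) (π i) = f := by
    intro π i
    generalize π i = k
    fin_cases k <;> rfl
  simp only [hf, WithLp.ofLp_smul, WithLp.ofLp_sum, Pi.smul_apply, Finset.sum_apply, smul_eq_mul, mbb_tensFun_apply]
  rw [← mul_neg, ← Finset.sum_neg_distrib, ← Equiv.sum_comp (Equiv.mulRight (Equiv.swap (0 : Fin 2) 1))]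
  congr 1
  refine Finset.sum_congr rfl fun ρ _ => ?_
  have e1 : (s ∘ ⇑(Equiv.swap (0 : Fin 2) 1) = (![0, 1] : SpinConfig 2) ∘ ⇑ρ ∘ ⇑(Equiv.swap (0 : Fin 2) 1))
      ↔ (s = (![0, 1] : SpinConfig 2) ∘ ⇑ρ) := by
    constructor
    · intro h
      funext i
      have := congrFun h (Equiv.swap (0 : Fin 2) 1 i)
      simpa using this
    · intro h
      rw [h]
      rfl
  simp only [Equiv.coe_mulRight, Equiv.Perm.sign_mul, Equiv.Perm.sign_swap (show (0 : Fin 2) ≠ 1 by decide),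
    Equiv.Perm.coe_mul, e1]
  split_ifs <;> simp

/-! ## The zero-coupling states (2.10) -/

/-- `φ₀ = b(x₁) b(x₂) (↑↓ - ↓↑)/√2`. -/
def phiZero (b : Space → ℝ) : L2 2 := sdet ![toOrb b, toOrb b] ![0, 1]

/-- `Ψ₀ = b↑ ∧ b↓ ∧ e↑`. -/
def psiZero (b e : Space → ℝ) : L2 3 := sdet ![toOrb b, toOrb b, toOrb e] ![0, 1, 0]

end Claimed.Open.R278
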