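import Claimed.Open.R278.MBForm

/-!
# Result 278, layer L2a (BP-MB1): symmetry operators on `L2 m` and the invariance of the forms

Architect and prover: helper51.  No paper needed.  NO OWN SORRY (uses the FS kit: `MemH1.wd2_dir`, `WD2.comp_equiv`, `L2.norm_sq_eq`, `L2.integrable_norm_sq`).  Helper lemmas: prefix `mby_`.

## Leaf MBY-SPACE (section SPACE).  `spaceOp R Ψ = Ψ ∘ (R ∘ ·)`.  Weak gradient: for `φ ∈ C^∞_c` put `φ' = φ ∘ (R⁻¹ ∘ ·)`; change of variables `y = R ∘ x`;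
 `fderiv φ x (dir (i,a)) = fderiv φ' (R∘x) (R-image of dir (i,a)) = ∑_c (R e_a)_c · fderiv φ' (R∘x) (dir (i,c))`.  So
 `weakGrad (spaceOp R Ψ) (i,a) = ∑_c (R e_a)_c • spaceOp R (weakGrad Ψ (i,c))`; the kinetic form is invariant since `∑_a (R e_a)_c (R e_a)_{c'} = δ_{cc'}` and `spaceOp R` is isometric.
## Leaf MBY-SPIN (section SPIN).  `spinOp L Ψ = L ∘ Ψ` (`ContinuousLinearMap.compLpL`), `∫ g • L(Ψ x) = L (∫ g • Ψ x)` (`ContinuousLinearMap.integral_comp_comm`).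
## Leaf MBY-SECTOR (section SECTOR).  Pointwise orthogonal decomposition of `ℂ^{2^m}` along the values of `spinZ`.
-/

open MeasureTheory Filter
open scoped ContDiff InnerProductSpace ComplexConjugate ENNReal Topology

noncomputable section

namespace Claimed.Open.R278

variable {m : ℕ}

/-! ## SPACE -/

/-- simultaneous action of a linear isometry of `ℝ³` on all electron coordinates. -/
def spaceOp (R : Space ≃ₗᵢ[ℝ] Space) : L2 m →ₗᵢ[ℂ] L2 m :=
  Lp.compMeasurePreservingₗᵢ ℂ (fun (x : Config m) i => R (x i))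
    (volume_preserving_pi fun _ => R.measurePreserving)

theorem coeFn_spaceOp (R : Space ≃ₗᵢ[ℝ] Space) (Ψ : L2 m) :
    (spaceOp R Ψ : Config m → SpinSpace m) =ᵐ[volume] fun x => Ψ fun i => R (x i) :=
  Lp.coeFn_compMeasurePreserving Ψ _

/-- rotation about the axis. -/
def rotEquiv (a : ℝ) : Space ≃ₗᵢ[ℝ] Space := (rotZIsometry a).toLinearIsometryEquiv rfl

/-- reflection in the median plane. -/
def reflEquiv : Space ≃ₗᵢ[ℝ] Space := reflZIsometry.toLinearIsometryEquiv rfl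

@[simp] theorem rotEquiv_apply (a : ℝ) (x : Space) : rotEquiv a x = rotZ a x := rfl

@[simp] theorem reflEquiv_apply (x : Space) : reflEquiv x = reflZ x := rfl

theorem mby_mp (R : Space ≃ₗᵢ[ℝ] Space) :
    MeasurePreserving (fun (x : Config m) i => R (x i)) volume volume :=
  volume_preserving_pi fun _ => R.measurePreserving

/-- the action on configuration space as a continuous linear equivalence. -/
def confEquiv (m : ℕ) (R : Space ≃ₗᵢ[ℝ] Space) : Config m ≃L[ℝ] Config m :=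
  ContinuousLinearEquiv.piCongrRight fun _ : Fin m => R.toContinuousLinearEquiv

theorem confEquiv_apply (R : Space ≃ₗᵢ[ℝ] Space) (x : Config m) : confEquiv m R x = fun i => R (x i) := rfl

theorem isAxisymmetric_iff (Ψ : L2 m) : IsAxisymmetric Ψ ↔ ∀ a, spaceOp (rotEquiv a) Ψ = Ψ := by
  refine forall_congr' fun a => ?_
  rw [Lp.ext_iff]
  constructor
  · intro h
    filter_upwards [h, coeFn_spaceOp (rotEquiv a) Ψ] with x h1 h2
    rw [h2]; exact h1
  · intro h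
    filter_upwards [h, coeFn_spaceOp (rotEquiv a) Ψ] with x h1 h2
    rw [← h1, h2]; rfl

theorem hasReflectionParity_iff (ε : ℂ) (Ψ : L2 m) :
    HasReflectionParity ε Ψ ↔ spaceOp reflEquiv Ψ = ε • Ψ := by
  rw [Lp.ext_iff]
  constructor
  · intro h
    filter_upwards [h, coeFn_spaceOp reflEquiv Ψ, Lp.coeFn_smul ε Ψ] with x h1 h2 h3
    rw [h2, h3]; exact h1
  · intro h
    filter_upwards [h, coeFn_spaceOp reflEquiv Ψ, Lp.coeFn_smul ε Ψ] with x h1 h2 h3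
    rw [h2, h3] at h1; exact h1

theorem spaceOp_antisymmetric (R : Space ≃ₗᵢ[ℝ] Space) {Ψ : L2 m} (h : IsAntisymmetric Ψ) :
    IsAntisymmetric (spaceOp R Ψ) := by
  intro π
  have h1 : ∀ᵐ x : Config m, spaceOp R Ψ (x ∘ π) = Ψ fun i => R ((x ∘ π) i) :=
    (measurePreserving_comp_perm π).quasiMeasurePreserving.ae (coeFn_spaceOp R Ψ)
  have h2 : ∀ᵐ x : Config m, ∀ s : SpinConfig m,
      Ψ ((fun i => R (x i)) ∘ π) (s ∘ π) = ((Equiv.Perm.sign π : ℤ) : ℂ) * Ψ (fun i => R (x i)) s :=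
    (mby_mp R).quasiMeasurePreserving.ae (h π)
  filter_upwards [h1, h2, coeFn_spaceOp R Ψ] with x h1x h2x h3x s
  rw [h1x, h3x]
  exact h2x s

theorem spaceOp_sector (R : Space ≃ₗᵢ[ℝ] Space) {μ : ℚ} {Ψ : L2 m} (h : InSpinSector μ Ψ) :
    InSpinSector μ (spaceOp R Ψ) := by
  have h2 : ∀ᵐ x : Config m, ∀ s : SpinConfig m, spinZ s ≠ μ → Ψ (fun i => R (x i)) s = 0 :=
    (mby_mp R).quasiMeasurePreserving.ae h
  filter_upwards [h2, coeFn_spaceOp R Ψ] with x h2x h3x s hs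
  rw [h3x]
  exact h2x s hs

theorem mby_confEquiv_dir (R : Space ≃ₗᵢ[ℝ] Space) (j : Fin m × Fin 3) (i : Fin m) :
    confEquiv m R (dir j) i = if i = j.1 then R (EuclideanSpace.single j.2 1) else 0 := by
  rw [confEquiv_apply, dir]
  by_cases h : i = j.1
  · subst h; simp
  · rw [if_neg h]
    show R ((Pi.single j.1 (EuclideanSpace.single j.2 (1 : ℝ)) : Config m) i) = 0
    rw [Pi.single_eq_of_ne h, map_zero]

theorem isWeakGradient_spaceOp (R : Space ≃ₗᵢ[ℝ] Space) {Ψ : L2 m} {G : Fin m × Fin 3 → L2 m}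
    (h : IsWeakGradient Ψ G) :
    IsWeakGradient (spaceOp R Ψ)
      (fun j => ∑ c : Fin 3, ((R (EuclideanSpace.single j.2 1) c : ℝ) : ℂ) • spaceOp R (G (j.1, c))) := by
  have hH : MemH1 Ψ := ⟨G, h⟩
  have hG : weakGrad Ψ = G := h.weakGrad_eq
  rw [isWeakGradient_iff_wd2]
  intro j
  have h1 := hH.wd2_dir (confEquiv m R (dir j))
  have h2 := WD2.comp_equiv (ν := (volume : Measure (Config m))) (confEquiv m R) h1
  refine ⟨Lp.memLp _, Lp.memLp _, (WD.congr_ae h2.wd ?_ ?_).weak⟩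
  · exact (coeFn_spaceOp R Ψ).symm
  · have h3 : ∀ᵐ x : Config m, ∀ c : Fin 3, spaceOp R (G (j.1, c)) x = G (j.1, c) fun i => R (x i) :=
      ae_all_iff.2 fun c => coeFn_spaceOp R _
    rw [Fin.sum_univ_three]
    filter_upwards [h3, Lp.coeFn_add
        (((R (EuclideanSpace.single j.2 1) 0 : ℝ) : ℂ) • spaceOp R (G (j.1, 0)) +
          ((R (EuclideanSpace.single j.2 1) 1 : ℝ) : ℂ) • spaceOp R (G (j.1, 1)))
        (((R (EuclideanSpace.single j.2 1) 2 : ℝ) : ℂ) • spaceOp R (G (j.1, 2))),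
      Lp.coeFn_add (((R (EuclideanSpace.single j.2 1) 0 : ℝ) : ℂ) • spaceOp R (G (j.1, 0)))
          (((R (EuclideanSpace.single j.2 1) 1 : ℝ) : ℂ) • spaceOp R (G (j.1, 1))),
      Lp.coeFn_smul ((R (EuclideanSpace.single j.2 1) 0 : ℝ) : ℂ) (spaceOp R (G (j.1, 0))),
      Lp.coeFn_smul ((R (EuclideanSpace.single j.2 1) 1 : ℝ) : ℂ) (spaceOp R (G (j.1, 1))),
      Lp.coeFn_smul ((R (EuclideanSpace.single j.2 1) 2 : ℝ) : ℂ) (spaceOp R (G (j.1, 2)))]
      with x h3x a1 a2 s0 s1 s2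
    rw [a1, Pi.add_apply, a2, Pi.add_apply, s0, s1, s2]
    simp only [Pi.smul_apply, h3x, hG]
    rw [Fintype.sum_prod_type, Finset.sum_eq_single j.1]
    · simp only [mby_confEquiv_dir, if_true, Fin.sum_univ_three, confEquiv_apply, Complex.coe_smul]
    · intro i _ hi
      simp only [mby_confEquiv_dir, if_neg hi]
      simp
    · intro hi
      exact absurd (Finset.mem_univ _) hi

theorem spaceOp_memH1 (R : Space ≃ₗᵢ[ℝ] Space) {Ψ : L2 m} (h : MemH1 Ψ) : MemH1 (spaceOp R Ψ) :=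
  ⟨_, isWeakGradient_spaceOp R h.isWeakGradient⟩

/-- an orthogonal change of a triple of vectors preserves the sum of the squared norms. -/
theorem mby_orth_sum {H : Type*} [NormedAddCommGroup H] [InnerProductSpace ℂ H] (M : Fin 3 → Fin 3 → ℝ)
    (hM : ∀ c c', ∑ a, M c a * M c' a = if c = c' then 1 else 0) (g : Fin 3 → H) :
    ∑ a, ‖∑ c, ((M c a : ℝ) : ℂ) • g c‖ ^ 2 = ∑ c, ‖g c‖ ^ 2 := by
  have key : ∑ a, ⟪∑ c, ((M c a : ℝ) : ℂ) • g c, ∑ c, ((M c a : ℝ) : ℂ) • g c⟫_ℂ = ∑ c, ⟪g c, g c⟫_ℂ := by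
    have hC : ∀ c c', ((M c 0 : ℝ) : ℂ) * ((M c' 0 : ℝ) : ℂ) + ((M c 1 : ℝ) : ℂ) * ((M c' 1 : ℝ) : ℂ) +
        ((M c 2 : ℝ) : ℂ) * ((M c' 2 : ℝ) : ℂ) = if c = c' then 1 else 0 := fun c c' => by
      have h1 : ((∑ a, M c a * M c' a : ℝ) : ℂ) = if c = c' then 1 else 0 := by
        rw [hM]; split_ifs <;> simp
      rw [← h1, Fin.sum_univ_three]
      push_cast
      ring
    have h00 := hC 0 0
    have h01 := hC 0 1
    have h02 := hC 0 2
    have h10 := hC 1 0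
    have h11 := hC 1 1
    have h12 := hC 1 2
    have h20 := hC 2 0
    have h21 := hC 2 1
    have h22 := hC 2 2
    simp only [if_true, show ((0 : Fin 3) = 1) = False by simp, show ((0 : Fin 3) = 2) = False by simp,
      show ((1 : Fin 3) = 0) = False by simp, show ((1 : Fin 3) = 2) = False by simp,
      show ((2 : Fin 3) = 0) = False by simp, show ((2 : Fin 3) = 1) = False by simp, if_false]
      at h00 h01 h02 h10 h11 h12 h20 h21 h22
    simp only [Fin.sum_univ_three, inner_add_left, inner_add_right, inner_smul_left, inner_smul_right,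
      Complex.conj_ofReal]
    linear_combination ⟪g 0, g 0⟫_ℂ * h00 + ⟪g 0, g 1⟫_ℂ * h01 + ⟪g 0, g 2⟫_ℂ * h02 + ⟪g 1, g 0⟫_ℂ * h10 +
      ⟪g 1, g 1⟫_ℂ * h11 + ⟪g 1, g 2⟫_ℂ * h12 + ⟪g 2, g 0⟫_ℂ * h20 + ⟪g 2, g 1⟫_ℂ * h21 + ⟪g 2, g 2⟫_ℂ * h22
  simp only [inner_self_eq_norm_sq_to_K] at key
  have key' : ((∑ a, ‖∑ c, ((M c a : ℝ) : ℂ) • g c‖ ^ 2 : ℝ) : ℂ) = ((∑ c, ‖g c‖ ^ 2 : ℝ) : ℂ) := by
    push_cast
    exact key
  exact Complex.ofReal_injective key'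

theorem mby_orth_matrix (R : Space ≃ₗᵢ[ℝ] Space) (c c' : Fin 3) :
    ∑ a : Fin 3, R (EuclideanSpace.single a 1) c * R (EuclideanSpace.single a 1) c' = if c = c' then 1 else 0 := by
  have h1 : ∀ (a d : Fin 3), R (EuclideanSpace.single a 1) d =
      ⟪R.symm (EuclideanSpace.single d (1 : ℝ)), EuclideanSpace.basisFun (Fin 3) ℝ a⟫_ℝ := fun a d => by
    rw [EuclideanSpace.basisFun_apply, ← R.inner_map_map, R.apply_symm_apply, EuclideanSpace.inner_single_left]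
    simp
  simp only [h1]
  have h2 := (EuclideanSpace.basisFun (Fin 3) ℝ).sum_inner_mul_inner
    (R.symm (EuclideanSpace.single c (1 : ℝ))) (R.symm (EuclideanSpace.single c' (1 : ℝ)))
  rw [R.symm.inner_map_map, EuclideanSpace.inner_single_left] at h2
  rw [← Finset.sum_congr rfl fun a _ => by
    rw [real_inner_comm (R.symm (EuclideanSpace.single c' (1 : ℝ)))]] at h2
  rw [h2]
  simp

theorem kin_spaceOp (R : Space ≃ₗᵢ[ℝ] Space) {Ψ : L2 m} (h : MemH1 Ψ) : kin (spaceOp R Ψ) = kin Ψ := by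
  unfold kin
  rw [(isWeakGradient_spaceOp R h.isWeakGradient).weakGrad_eq, Fintype.sum_prod_type, Fintype.sum_prod_type]
  refine Finset.sum_congr rfl fun i _ => ?_
  have := mby_orth_sum (fun c a => R (EuclideanSpace.single a 1) c) (mby_orth_matrix R)
    (fun c => spaceOp R (weakGrad Ψ (i, c)))
  simp only [LinearIsometry.norm_map] at this
  exact this

/-- invariance of the energy under a symmetry of the potential. -/
theorem energy_spaceOp (R : Space ≃ₗᵢ[ℝ] Space) {W : Config m → ℝ} (hW : ∀ x, W (fun i => R (x i)) = W x)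
    {Ψ : L2 m} (h : MemH1 Ψ) : energy W (spaceOp R Ψ) = energy W Ψ := by
  rw [energy_eq_kin, energy_eq_kin, kin_spaceOp R h]
  congr 1
  rw [← (mby_mp R).integral_comp (confEquiv m R).toHomeomorph.measurableEmbedding (fun x => W x * ‖Ψ x‖ ^ 2)]
  refine integral_congr_ae ?_
  filter_upwards [coeFn_spaceOp R Ψ] with x hx
  rw [hx, hW]

/-! ## SPIN -/

/-- pointwise action of a linear map of the spin space. -/
def spinOp (L : SpinSpace m →L[ℂ] SpinSpace m) : L2 m →L[ℂ] L2 m := L.compLpL 2 volume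

theorem coeFn_spinOp (L : SpinSpace m →L[ℂ] SpinSpace m) (Ψ : L2 m) :
    (spinOp L Ψ : Config m → SpinSpace m) =ᵐ[volume] fun x => L (Ψ x) :=
  L.coeFn_compLpL Ψ

theorem mby_integral_smul_spinOp (L : SpinSpace m →L[ℂ] SpinSpace m) (Ψ : L2 m) {g : Config m → ℝ}
    (hg : Continuous g) (hgc : HasCompactSupport g) :
    ∫ x, g x • spinOp L Ψ x = L (∫ x, g x • Ψ x) := by
  rw [← L.integral_comp_comm (integrable_smul_L2 hg hgc Ψ)]
  refine integral_congr_ae ?_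
  filter_upwards [coeFn_spinOp L Ψ] with x hx
  rw [hx, L.map_smul_of_tower]

theorem isWeakGradient_spinOp (L : SpinSpace m →L[ℂ] SpinSpace m) {Ψ : L2 m} {G : Fin m × Fin 3 → L2 m}
    (h : IsWeakGradient Ψ G) : IsWeakGradient (spinOp L Ψ) (fun j => spinOp L (G j)) := by
  intro j φ hφ hc
  rw [mby_integral_smul_spinOp L Ψ (continuous_fderiv_dir hφ _) (hasCompactSupport_fderiv_dir hc _),
    mby_integral_smul_spinOp L (G j) hφ.continuous hc, h j φ hφ hc, map_neg]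

theorem spinOp_memH1 (L : SpinSpace m →L[ℂ] SpinSpace m) {Ψ : L2 m} (h : MemH1 Ψ) : MemH1 (spinOp L Ψ) :=
  ⟨_, isWeakGradient_spinOp L h.isWeakGradient⟩

theorem weakGrad_spinOp (L : SpinSpace m →L[ℂ] SpinSpace m) {Ψ : L2 m} (h : MemH1 Ψ) :
    weakGrad (spinOp L Ψ) = fun j => spinOp L (weakGrad Ψ j) :=
  (isWeakGradient_spinOp L h.isWeakGradient).weakGrad_eq

theorem norm_spinOp_isometry (L : SpinSpace m ≃ₗᵢ[ℂ] SpinSpace m) (Ψ : L2 m) :
    ‖spinOp (L : SpinSpace m →L[ℂ] SpinSpace m) Ψ‖ = ‖Ψ‖ := by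
  rw [Lp.norm_def, Lp.norm_def]
  congr 1
  refine eLpNorm_congr_norm_ae ?_
  filter_upwards [coeFn_spinOp (L : SpinSpace m →L[ℂ] SpinSpace m) Ψ] with x hx
  rw [hx]
  exact L.norm_map _

/-- relabelling of the spin configurations, `(spinIso τ Ψ) x s = Ψ x (τ.symm s)`. -/
def spinIso (τ : Equiv.Perm (SpinConfig m)) : L2 m →ₗᵢ[ℂ] L2 m where
  toLinearMap := (spinOp ((LinearIsometryEquiv.piLpCongrLeft 2 ℂ ℂ τ : SpinSpace m ≃ₗᵢ[ℂ] SpinSpace m) :
    SpinSpace m →L[ℂ] SpinSpace m)).toLinearMap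
  norm_map' := fun Ψ => norm_spinOp_isometry _ Ψ

theorem spinIso_eq_spinOp (τ : Equiv.Perm (SpinConfig m)) (Ψ : L2 m) :
    spinIso τ Ψ = spinOp ((LinearIsometryEquiv.piLpCongrLeft 2 ℂ ℂ τ : SpinSpace m ≃ₗᵢ[ℂ] SpinSpace m) :
      SpinSpace m →L[ℂ] SpinSpace m) Ψ := rfl

theorem coeFn_spinIso (τ : Equiv.Perm (SpinConfig m)) (Ψ : L2 m) :
    ∀ᵐ x : Config m, ∀ s, spinIso τ Ψ x s = Ψ x (τ.symm s) := by
  rw [spinIso_eq_spinOp]
  filter_upwards [coeFn_spinOp ((LinearIsometryEquiv.piLpCongrLeft 2 ℂ ℂ τ : SpinSpace m ≃ₗᵢ[ℂ] SpinSpace m) :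
      SpinSpace m →L[ℂ] SpinSpace m) Ψ] with x hx s
  rw [hx]
  rfl

theorem mby_norm_spinIso (τ : Equiv.Perm (SpinConfig m)) (Ψ : L2 m) :
    ∀ᵐ x : Config m, ‖spinIso τ Ψ x‖ = ‖Ψ x‖ := by
  rw [spinIso_eq_spinOp]
  filter_upwards [coeFn_spinOp ((LinearIsometryEquiv.piLpCongrLeft 2 ℂ ℂ τ : SpinSpace m ≃ₗᵢ[ℂ] SpinSpace m) :
      SpinSpace m →L[ℂ] SpinSpace m) Ψ] with x hx
  rw [hx]
  exact (LinearIsometryEquiv.piLpCongrLeft 2 ℂ ℂ τ : SpinSpace m ≃ₗᵢ[ℂ] SpinSpace m).norm_map _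

theorem spinIso_antisymmetric {τ : Equiv.Perm (SpinConfig m)}
    (hτ : ∀ (π : Equiv.Perm (Fin m)) s, τ (s ∘ π) = τ s ∘ π) {Ψ : L2 m} (h : IsAntisymmetric Ψ) :
    IsAntisymmetric (spinIso τ Ψ) := by
  intro π
  have h1 : ∀ᵐ x : Config m, ∀ s, spinIso τ Ψ (x ∘ π) s = Ψ (x ∘ π) (τ.symm s) :=
    (measurePreserving_comp_perm π).quasiMeasurePreserving.ae (coeFn_spinIso τ Ψ)
  filter_upwards [h1, coeFn_spinIso τ Ψ, h π] with x h1x h2x h3x s
  have e : τ.symm (s ∘ π) = τ.symm s ∘ π := by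
    rw [Equiv.symm_apply_eq, hτ, Equiv.apply_symm_apply]
  rw [h1x, h2x, e, h3x]

theorem spinIso_memH1 (τ : Equiv.Perm (SpinConfig m)) {Ψ : L2 m} (h : MemH1 Ψ) : MemH1 (spinIso τ Ψ) :=
  spinOp_memH1 _ h

theorem energy_spinIso (τ : Equiv.Perm (SpinConfig m)) (W : Config m → ℝ) {Ψ : L2 m} (h : MemH1 Ψ) :
    energy W (spinIso τ Ψ) = energy W Ψ := by
  have e1 : ∀ j, ‖weakGrad (spinIso τ Ψ) j‖ = ‖weakGrad Ψ j‖ := fun j => by
    have : weakGrad (spinIso τ Ψ) j = spinIso τ (weakGrad Ψ j) := congrFun (weakGrad_spinOp _ h) j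
    rw [this, LinearIsometry.norm_map]
  have e2 : ∫ x, W x * ‖spinIso τ Ψ x‖ ^ 2 = ∫ x, W x * ‖Ψ x‖ ^ 2 := by
    refine integral_congr_ae ?_
    filter_upwards [mby_norm_spinIso τ Ψ] with x hx
    rw [hx]
  rw [energy_eq, energy_eq, e2]
  simp only [e1]

theorem spinIso_sector {τ : Equiv.Perm (SpinConfig m)} {μ μ' : ℚ} (hτ : ∀ s, spinZ s = μ → spinZ (τ s) = μ')
    {Ψ : L2 m} (h : InSpinSector μ Ψ) : InSpinSector μ' (spinIso τ Ψ) := by
  filter_upwards [coeFn_spinIso τ Ψ, h] with x h1 h2 s hs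
  rw [h1]
  refine h2 _ fun h3 => hs ?_
  have := hτ _ h3
  rwa [Equiv.apply_symm_apply] at this

/-- spin flip `↑ ↔ ↓` of all electrons. -/
def flipE (m : ℕ) : Equiv.Perm (SpinConfig m) :=
  Function.Involutive.toPerm (fun s i => Fin.rev (s i)) (fun s => by funext i; simp)

theorem spinZ_flipE (s : SpinConfig m) : spinZ (flipE m s) = -spinZ s := by
  unfold spinZ
  rw [← Finset.sum_neg_distrib]
  refine Finset.sum_congr rfl fun i _ => ?_
  have h2 : ∀ a : Fin 2, (if Fin.rev a = 0 then (1 / 2 : ℚ) else -(1 / 2)) = -(if a = 0 then (1 / 2 : ℚ) else -(1 / 2)) := by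
    intro a
    fin_cases a <;> simp
  exact h2 (s i)

theorem flipE_comp (π : Equiv.Perm (Fin m)) (s : SpinConfig m) : flipE m (s ∘ π) = flipE m s ∘ π := rfl

/-- exchange of the two spin variables of a two-electron state. -/
def swapE : Equiv.Perm (SpinConfig 2) :=
  Function.Involutive.toPerm (fun s => s ∘ Equiv.swap 0 1) (fun s => by funext i; simp)

theorem swapE_comp (π : Equiv.Perm (Fin 2)) (s : SpinConfig 2) : swapE (s ∘ π) = swapE s ∘ π := by
  have h : ∀ (π : Equiv.Perm (Fin 2)) (i : Fin 2), π (Equiv.swap 0 1 i) = Equiv.swap 0 1 (π i) := by decide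
  funext i
  show s (π (Equiv.swap 0 1 i)) = s (Equiv.swap 0 1 (π i))
  rw [h]

theorem isSinglet_iff (φ : L2 2) : IsSinglet φ ↔ spinIso swapE φ = (-1 : ℂ) • φ := by
  have hs : ∀ s : SpinConfig 2, swapE.symm s = s ∘ Equiv.swap 0 1 := fun s => rfl
  constructor
  · intro h
    refine Lp.ext ?_
    filter_upwards [h, coeFn_spinIso swapE φ, Lp.coeFn_smul (-1 : ℂ) φ] with y h1 h2 h3
    rw [h3]
    ext s
    rw [h2, hs, h1]
    simp
  · intro h
    filter_upwards [coeFn_spinIso swapE φ, Lp.coeFn_smul (-1 : ℂ) φ] with y h2 h3 s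
    rw [← hs, ← h2, h, h3]
    simp

/-! ## SECTOR -/

/-- the projection of the spin space on the configurations with `S_z = μ`. -/
def sectorL (m : ℕ) (μ : ℚ) : SpinSpace m →L[ℂ] SpinSpace m :=
  LinearMap.toContinuousLinearMap
    { toFun := fun v => WithLp.toLp 2 fun s => if spinZ s = μ then v s else 0
      map_add' := fun v w => by
        ext s
        by_cases h : spinZ s = μ <;> simp [h]
      map_smul' := fun c v => by
        ext s
        by_cases h : spinZ s = μ <;> simp [h] }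

theorem sectorL_apply (μ : ℚ) (v : SpinSpace m) (s : SpinConfig m) :
    sectorL m μ v s = if spinZ s = μ then v s else 0 := rfl

/-- the projection on the sector `S_z = μ`. -/
def sectorProj (μ : ℚ) : L2 m →L[ℂ] L2 m := spinOp (sectorL m μ)

/-- the values of `S_z`. -/
def spinVals (m : ℕ) : Finset ℚ := Finset.univ.image (spinZ : SpinConfig m → ℚ)

theorem spinVals_three : spinVals 3 = {3 / 2, 1 / 2, -(1 / 2), -(3 / 2)} := by
  decide +kernel

theorem mby_inner_sectorL {μ : ℚ} (v : SpinSpace m) {w : SpinSpace m} (hw : ∀ s, spinZ s ≠ μ → w s = 0) :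
    ⟪sectorL m μ v, w⟫_ℂ = ⟪v, w⟫_ℂ := by
  rw [PiLp.inner_apply, PiLp.inner_apply]
  refine Finset.sum_congr rfl fun s _ => ?_
  rw [sectorL_apply]
  by_cases h : spinZ s = μ
  · rw [if_pos h]
  · rw [if_neg h, hw s h]; simp

theorem mby_norm_sq_sectorL (μ : ℚ) (v : SpinSpace m) :
    ‖sectorL m μ v‖ ^ 2 = ∑ s, if spinZ s = μ then ‖v s‖ ^ 2 else 0 := by
  rw [EuclideanSpace.norm_sq_eq]
  refine Finset.sum_congr rfl fun s _ => ?_
  rw [sectorL_apply]
  by_cases h : spinZ s = μ <;> simp [h]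

theorem mby_norm_sq_sum (v : SpinSpace m) : ‖v‖ ^ 2 = ∑ μ ∈ spinVals m, ‖sectorL m μ v‖ ^ 2 := by
  simp only [mby_norm_sq_sectorL]
  rw [Finset.sum_comm, EuclideanSpace.norm_sq_eq]
  refine Finset.sum_congr rfl fun s _ => ?_
  have hs : spinZ s ∈ spinVals m := Finset.mem_image_of_mem _ (Finset.mem_univ s)
  rw [Finset.sum_ite_eq, if_pos hs]

theorem mby_norm_sectorL_le (μ : ℚ) (v : SpinSpace m) : ‖sectorL m μ v‖ ^ 2 ≤ ‖v‖ ^ 2 := by
  rw [mby_norm_sq_sectorL, EuclideanSpace.norm_sq_eq]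
  refine Finset.sum_le_sum fun s _ => ?_
  by_cases h : spinZ s = μ <;> simp [h]

theorem coeFn_sectorProj' (μ : ℚ) (Ψ : L2 m) :
    (sectorProj μ Ψ : Config m → SpinSpace m) =ᵐ[volume] fun x => sectorL m μ (Ψ x) :=
  coeFn_spinOp _ Ψ

theorem coeFn_sectorProj (μ : ℚ) (Ψ : L2 m) :
    ∀ᵐ x : Config m, ∀ s, sectorProj μ Ψ x s = if spinZ s = μ then Ψ x s else 0 := by
  filter_upwards [coeFn_sectorProj' μ Ψ] with x hx s
  rw [hx, sectorL_apply]

theorem mby_spinZ_comp (s : SpinConfig m) (π : Equiv.Perm (Fin m)) : spinZ (s ∘ π) = spinZ s :=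
  Equiv.sum_comp π (fun i => if s i = 0 then (1 / 2 : ℚ) else -(1 / 2))

theorem sectorProj_sector (μ : ℚ) (Ψ : L2 m) : InSpinSector μ (sectorProj μ Ψ) := by
  filter_upwards [coeFn_sectorProj μ Ψ] with x hx s hs
  rw [hx, if_neg hs]

theorem sectorProj_mem (μ : ℚ) {Ψ : L2 m} (h : Ψ ∈ H1A m) : sectorProj μ Ψ ∈ H1A m ⊓ sectorSub m μ := by
  refine ⟨⟨fun π => ?_, spinOp_memH1 _ h.2⟩, sectorProj_sector μ Ψ⟩
  have h1 : ∀ᵐ x : Config m, ∀ s, sectorProj μ Ψ (x ∘ π) s = if spinZ s = μ then Ψ (x ∘ π) s else 0 :=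
    (measurePreserving_comp_perm π).quasiMeasurePreserving.ae (coeFn_sectorProj μ Ψ)
  filter_upwards [h1, coeFn_sectorProj μ Ψ, h.1 π] with x h1x h2x h3x s
  rw [h1x, h2x, mby_spinZ_comp, h3x]
  by_cases hs : spinZ s = μ <;> simp [hs]

theorem sectorProj_eq_self {μ : ℚ} {Φ : L2 m} (h : InSpinSector μ Φ) : sectorProj μ Φ = Φ := by
  refine Lp.ext ?_
  filter_upwards [coeFn_sectorProj μ Φ, h] with x h1 h2
  ext s
  rw [h1]
  by_cases hs : spinZ s = μ
  · rw [if_pos hs]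
  · rw [if_neg hs, h2 s hs]

theorem inner_sectorProj {μ : ℚ} (Ξ : L2 m) {Φ : L2 m} (h : InSpinSector μ Φ) :
    ⟪sectorProj μ Ξ, Φ⟫_ℂ = ⟪Ξ, Φ⟫_ℂ := by
  rw [L2.inner_def, L2.inner_def]
  refine integral_congr_ae ?_
  filter_upwards [coeFn_sectorProj' μ Ξ, h] with x h1 h2
  rw [h1, mby_inner_sectorL _ h2]

theorem weakGrad_sectorProj (μ : ℚ) {Ψ : L2 m} (h : MemH1 Ψ) (j : Fin m × Fin 3) :
    weakGrad (sectorProj μ Ψ) j = sectorProj μ (weakGrad Ψ j) :=
  congrFun (weakGrad_spinOp _ h) j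

theorem sesqForm_sectorProj (W : Config m → ℝ) {μ : ℚ} {Ξ Φ : L2 m} (hΞ : MemH1 Ξ) (hΦ : MemH1 Φ)
    (h : InSpinSector μ Φ) : sesqForm W (sectorProj μ Ξ) Φ = sesqForm W Ξ Φ := by
  have hG : ∀ j, InSpinSector μ (weakGrad Φ j) := fun j => by
    have := weakGrad_sectorProj μ hΦ j
    rw [sectorProj_eq_self h] at this
    rw [this]
    exact sectorProj_sector μ _
  have e1 : ∀ j, ⟪weakGrad (sectorProj μ Ξ) j, weakGrad Φ j⟫_ℂ = ⟪weakGrad Ξ j, weakGrad Φ j⟫_ℂ := fun j => by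
    rw [weakGrad_sectorProj μ hΞ j, inner_sectorProj _ (hG j)]
  have e2 : ∫ x, (W x : ℂ) * ⟪sectorProj μ Ξ x, Φ x⟫_ℂ = ∫ x, (W x : ℂ) * ⟪Ξ x, Φ x⟫_ℂ := by
    refine integral_congr_ae ?_
    filter_upwards [coeFn_sectorProj' μ Ξ, h] with x h1 h2
    rw [h1, mby_inner_sectorL _ h2]
  unfold sesqForm
  rw [e2]
  simp only [e1]

theorem norm_sq_eq_sum_sector (Ψ : L2 m) : ‖Ψ‖ ^ 2 = ∑ μ ∈ spinVals m, ‖sectorProj μ Ψ‖ ^ 2 := by
  simp only [L2.norm_sq_eq]
  rw [← integral_finsetSum _ fun μ _ => L2.integrable_norm_sq _]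
  refine integral_congr_ae ?_
  have h1 : ∀ᵐ x : Config m, ∀ μ ∈ spinVals m, sectorProj μ Ψ x = sectorL m μ (Ψ x) :=
    (Finset.eventually_all _).2 fun μ _ => coeFn_sectorProj' μ Ψ
  filter_upwards [h1] with x hx
  rw [mby_norm_sq_sum (Ψ x)]
  exact Finset.sum_congr rfl fun μ hμ => by rw [hx μ hμ]

theorem energy_eq_sum_sector {W : Config m → ℝ} (hWm : AEStronglyMeasurable W volume) {Ψ : L2 m} (h : MemH1 Ψ)
    (hW : Integrable (fun x => W x * ‖Ψ x‖ ^ 2)) :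
    energy W Ψ = ∑ μ ∈ spinVals m, energy W (sectorProj μ Ψ) := by
  simp only [energy_eq]
  rw [Finset.sum_add_distrib, ← Finset.mul_sum, Finset.sum_comm]
  have hint : ∀ μ, Integrable (fun x => W x * ‖sectorProj μ Ψ x‖ ^ 2) := fun μ => by
    refine Integrable.mono' hW.norm (hWm.mul ((aestronglyMeasurable_coe _).norm.pow 2)) ?_
    filter_upwards [coeFn_sectorProj' μ Ψ] with x hx
    rw [hx, Real.norm_eq_abs, Real.norm_eq_abs, abs_mul, abs_mul, abs_of_nonneg (sq_nonneg ‖sectorL m μ (Ψ x)‖),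
      abs_of_nonneg (sq_nonneg ‖Ψ x‖)]
    exact mul_le_mul_of_nonneg_left (mby_norm_sectorL_le μ _) (abs_nonneg _)
  congr 1
  · congr 1
    refine Finset.sum_congr rfl fun j _ => ?_
    rw [norm_sq_eq_sum_sector (weakGrad Ψ j)]
    exact Finset.sum_congr rfl fun μ _ => by rw [weakGrad_sectorProj μ h j]
  · rw [← integral_finsetSum _ fun μ _ => hint μ]
    refine integral_congr_ae ?_
    have h1 : ∀ᵐ x : Config m, ∀ μ ∈ spinVals m, sectorProj μ Ψ x = sectorL m μ (Ψ x) :=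
      (Finset.eventually_all _).2 fun μ _ => coeFn_sectorProj' μ Ψ
    filter_upwards [h1] with x hx
    rw [mby_norm_sq_sum (Ψ x), Finset.mul_sum]
    exact Finset.sum_congr rfl fun μ hμ => by rw [hx μ hμ]

end Claimed.Open.R278
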