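import Claimed.Open.R278.MBSlater
import Claimed.Open.R278.MBSym

/-!
# Result 278, layer L2a (BP-MB1): ZERO COUPLING (Prop 2.3 at `λ = 0`)

Architect: helper51.  Keep names and statements; helper lemmas: prefix `mbz_`.

`ω κ' = ε_b, ε_e, ε_e + 0.2` for `κ' = κb, κe`, other.  By `energy_zero_ge_of_support` (MBLift) a lower bound `c ‖Ξ‖² ≤ energy W₀ Ξ` follows from
`c ≤ ∑ᵢ ω (p.1 i)` for all indices `p = (k, s)` with nonzero coefficient.  A nonzero coefficient of an antisymmetric `Ξ` forces: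
 (inj) `(k i, s i) ≠ (k j, s j)` for `i ≠ j` (`inner_tens_eq_zero_of_repeat`), (sec) `spinZ s = μ` in a sector (`inner_tens_eq_zero_of_sector`),
 (orb) `p` is not a permutation of the index of the reference determinant when `⟪Ψ₀, Ξ⟫ = 0` (`inner_sdet`, `inner_tens_perm`).

## Leaf MBZ-COMB (section COMB): PURE FINITE COMBINATORICS + `linarith`; no analysis.  Classify each `k i` as `κb`, `κe`, other (`by_cases`), each `s i ∈ Fin 2` (`fin_cases` / `Fin.exists_fin_two`).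
 Suggested: first prove `omega_eq` (three values), then count.
## Leaf MBZ-STATES (section STATES): membership, norms, energies, symmetries of `phiZero`, `psiZero`: instances of the statements of `MBSlater.lean` (`Fin.sum_univ_three`, `fin_cases`).
## Leaf MBZ-GAPS (section GAPS): the five lower bounds from COMB as explained above, then the eigen-equations by `mem_eigenspace_iff_energy` (`FormLemmas.lean`).
-/

open MeasureTheory Filter
open scoped ContDiff InnerProductSpace ComplexConjugate ENNReal Topology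

noncomputable section

namespace Claimed.Open.R278

/-! ## COMB -/

section Comb

variable {ι : Type*} (κb κe : ι) (εb εe : ℝ)

open Classical in
/-- the one-body weight of a basis orbital, in the form produced by `energy_zero_ge_of_support`. -/
def omegaW (κ' : ι) : ℝ :=
  (εe + 0.2) - ∑ l : Fin 2, if κ' = ![κb, κe] l then (![εe + 0.2 - εb, 0.2] : Fin 2 → ℝ) l else 0

variable {κb κe εb εe}

theorem omegaW_b (h : κb ≠ κe) : omegaW κb κe εb εe κb = εb := by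
  simp [omegaW, Fin.sum_univ_two, h]

theorem omegaW_e (h : κb ≠ κe) : omegaW κb κe εb εe κe = εe := by
  simp [omegaW, Fin.sum_univ_two, h.symm]

theorem omegaW_other {κ' : ι} (hb : κ' ≠ κb) (he : κ' ≠ κe) : omegaW κb κe εb εe κ' = εe + 0.2 := by
  simp [omegaW, Fin.sum_univ_two, hb, he]

theorem mbz_tri (h : κb ≠ κe) (κ' : ι) :
    (κ' = κb ∧ omegaW κb κe εb εe κ' = εb) ∨ (κ' = κe ∧ omegaW κb κe εb εe κ' = εe) ∨
      (κ' ≠ κb ∧ κ' ≠ κe ∧ omegaW κb κe εb εe κ' = εe + 0.2) := by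
  by_cases hb : κ' = κb
  · exact Or.inl ⟨hb, by rw [hb]; exact omegaW_b h⟩
  · by_cases he : κ' = κe
    · exact Or.inr (Or.inl ⟨he, by rw [he]; exact omegaW_e h⟩)
    · exact Or.inr (Or.inr ⟨hb, he, omegaW_other hb he⟩)

theorem mbz_ge_b (h : κb ≠ κe) (hε : εb < εe) (κ' : ι) : εb ≤ omegaW κb κe εb εe κ' := by
  rcases mbz_tri (εb := εb) (εe := εe) h κ' with ⟨-, h1⟩ | ⟨-, h1⟩ | ⟨-, -, h1⟩ <;> rw [h1] <;> linarith

theorem mbz_ge_e (h : κb ≠ κe) {κ' : ι} (hb : κ' ≠ κb) : εe ≤ omegaW κb κe εb εe κ' := by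
  rcases mbz_tri (εb := εb) (εe := εe) h κ' with ⟨h0, -⟩ | ⟨-, h1⟩ | ⟨-, -, h1⟩
  · exact absurd h0 hb
  · rw [h1]
  · rw [h1]; linarith

/-- two different orbitals. -/
theorem mbz_pair (h : κb ≠ κe) (hε : εb < εe) {κ₁ κ₂ : ι} (hne : κ₁ ≠ κ₂) :
    (κ₁ = κb ∧ κ₂ = κe) ∨ (κ₁ = κe ∧ κ₂ = κb) ∨
      εb + εe + 0.2 ≤ omegaW κb κe εb εe κ₁ + omegaW κb κe εb εe κ₂ := by
  rcases mbz_tri (εb := εb) (εe := εe) h κ₁ with ⟨a1, h1⟩ | ⟨a1, h1⟩ | ⟨a1, a1', h1⟩ <;>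
  rcases mbz_tri (εb := εb) (εe := εe) h κ₂ with ⟨a2, h2⟩ | ⟨a2, h2⟩ | ⟨a2, a2', h2⟩
  · exact absurd (a1.trans a2.symm) hne
  · exact Or.inl ⟨a1, a2⟩
  · right; right; rw [h1, h2]; linarith
  · exact Or.inr (Or.inl ⟨a1, a2⟩)
  · exact absurd (a1.trans a2.symm) hne
  · right; right; rw [h1, h2]; linarith
  · right; right; rw [h1, h2]; linarith
  · right; right; rw [h1, h2]; linarith
  · right; right; rw [h1, h2]; linarith

/-- two electrons, lower bound. -/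
theorem comb_bottom2 (h : κb ≠ κe) (hε : εb < εe) (k : Fin 2 → ι) :
    2 * εb ≤ ∑ i, omegaW κb κe εb εe (k i) := by
  rw [Fin.sum_univ_two]
  linarith [mbz_ge_b h hε (k 0), mbz_ge_b h hε (k 1)]

/-- two electrons, gap: the spatial index is not `(b, b)`. -/
theorem comb_gap2 (h : κb ≠ κe) (hε : εb < εe) (k : Fin 2 → ι) (hk : ¬ (k 0 = κb ∧ k 1 = κb)) :
    εb + εe ≤ ∑ i, omegaW κb κe εb εe (k i) := by
  rw [Fin.sum_univ_two]
  by_cases h0 : k 0 = κb
  · have h1 : k 1 ≠ κb := fun h1 => hk ⟨h0, h1⟩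
    linarith [mbz_ge_b h hε (k 0), mbz_ge_e (εb := εb) (εe := εe) h h1]
  · linarith [mbz_ge_b h hε (k 1), mbz_ge_e (εb := εb) (εe := εe) h h0]

theorem mbz_fin2 (a b c : Fin 2) (h1 : a ≠ b) (h2 : a ≠ c) (h3 : b ≠ c) : False := by
  revert a b c; decide

/-- three electrons, lower bound in all sectors. -/
theorem comb_bottom3 (h : κb ≠ κe) (hε : εb < εe) (k : Fin 3 → ι) (s : SpinConfig 3)
    (hinj : ∀ i j, i ≠ j → ¬ (k i = k j ∧ s i = s j)) :
    2 * εb + εe ≤ ∑ i, omegaW κb κe εb εe (k i) := by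
  rw [Fin.sum_univ_three]
  have g0 := mbz_ge_b h hε (k 0)
  have g1 := mbz_ge_b h hε (k 1)
  have g2 := mbz_ge_b h hε (k 2)
  by_cases h0 : k 0 = κb
  · by_cases h1 : k 1 = κb
    · by_cases h2 : k 2 = κb
      · exfalso
        exact mbz_fin2 (s 0) (s 1) (s 2) (fun e => hinj 0 1 (by decide) ⟨h0.trans h1.symm, e⟩)
          (fun e => hinj 0 2 (by decide) ⟨h0.trans h2.symm, e⟩)
          (fun e => hinj 1 2 (by decide) ⟨h1.trans h2.symm, e⟩)
      · linarith [mbz_ge_e (εb := εb) (εe := εe) h h2]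
    · linarith [mbz_ge_e (εb := εb) (εe := εe) h h1]
  · linarith [mbz_ge_e (εb := εb) (εe := εe) h h0]

theorem mbz_spin_cases (s : SpinConfig 3) :
    (spinZ s = 1 / 2 → (s 0 = 0 ∧ s 1 = 0 ∧ s 2 = 1) ∨ (s 0 = 0 ∧ s 1 = 1 ∧ s 2 = 0) ∨ (s 0 = 1 ∧ s 1 = 0 ∧ s 2 = 0)) ∧
    (spinZ s = 3 / 2 ∨ spinZ s = -(3 / 2) → s 0 = s 1 ∧ s 1 = s 2) := by
  have h2 : ∀ a : Fin 2, a = 0 ∨ a = 1 := by decide
  unfold spinZ
  rw [Fin.sum_univ_three]
  rcases h2 (s 0) with a0 | a0 <;> rcases h2 (s 1) with a1 | a1 <;> rcases h2 (s 2) with a2 | a2 <;>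
    simp only [a0, a1, a2] <;> norm_num

/-- three electrons, `S_z = 1/2`, gap. -/
theorem comb_gap3 (h : κb ≠ κe) (hε : εb < εe) (hd : εe - εb ≤ 0.2) (k : Fin 3 → ι) (s : SpinConfig 3)
    (hinj : ∀ i j, i ≠ j → ¬ (k i = k j ∧ s i = s j)) (hs : spinZ s = 1 / 2)
    (horb : ¬ ∃ π : Equiv.Perm (Fin 3), k = ![κb, κb, κe] ∘ π ∧ s = ![0, 1, 0] ∘ π) :
    2 * εb + εe + (εe - εb) ≤ ∑ i, omegaW κb κe εb εe (k i) := by
  rw [Fin.sum_univ_three]
  -- `u₁ u₂` the two spin-up electrons, `d` the spin-down electron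
  have core : ∀ (u₁ u₂ d : Fin 3), k u₁ ≠ k u₂ →
      ¬ (k u₁ = κb ∧ k u₂ = κe ∧ k d = κb) → ¬ (k u₁ = κe ∧ k u₂ = κb ∧ k d = κb) →
      2 * εb + εe + (εe - εb) ≤ omegaW κb κe εb εe (k u₁) + omegaW κb κe εb εe (k u₂) + omegaW κb κe εb εe (k d) := by
    intro u₁ u₂ d hne hn1 hn2
    have gd := mbz_ge_b h hε (k d)
    have g1 := mbz_ge_b h hε (k u₁)
    have g2 := mbz_ge_b h hε (k u₂)
    by_cases hdb : k d = κb
    · rcases mbz_pair (εb := εb) (εe := εe) h hε hne with ⟨a, b⟩ | ⟨a, b⟩ | hh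
      · exact absurd ⟨a, b, hdb⟩ hn1
      · exact absurd ⟨a, b, hdb⟩ hn2
      · linarith
    · have gd' := mbz_ge_e (εb := εb) (εe := εe) h hdb
      rcases mbz_pair (εb := εb) (εe := εe) h hε hne with ⟨a, b⟩ | ⟨a, b⟩ | hh
      · rw [a, b, omegaW_b h, omegaW_e h]; linarith
      · rw [a, b, omegaW_b h, omegaW_e h]; linarith
      · linarith
  rcases (mbz_spin_cases s).1 hs with ⟨a0, a1, a2⟩ | ⟨a0, a1, a2⟩ | ⟨a0, a1, a2⟩
  · have := core 0 1 2 (fun e => hinj 0 1 (by decide) ⟨e, a0.trans a1.symm⟩)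
      (fun ⟨b0, b1, b2⟩ => horb ⟨⟨![0, 2, 1], ![0, 2, 1], by decide, by decide⟩, by
        constructor <;> funext i <;> fin_cases i <;> simp [a0, a1, a2, b0, b1, b2]⟩)
      (fun ⟨b0, b1, b2⟩ => horb ⟨⟨![2, 0, 1], ![1, 2, 0], by decide, by decide⟩, by
        constructor <;> funext i <;> fin_cases i <;> simp [a0, a1, a2, b0, b1, b2]⟩)
    linarith
  · have := core 0 2 1 (fun e => hinj 0 2 (by decide) ⟨e, a0.trans a2.symm⟩)
      (fun ⟨b0, b2, b1⟩ => horb ⟨⟨![0, 1, 2], ![0, 1, 2], by decide, by decide⟩, by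
        constructor <;> funext i <;> fin_cases i <;> simp [a0, a1, a2, b0, b1, b2]⟩)
      (fun ⟨b0, b2, b1⟩ => horb ⟨⟨![2, 1, 0], ![2, 1, 0], by decide, by decide⟩, by
        constructor <;> funext i <;> fin_cases i <;> simp [a0, a1, a2, b0, b1, b2]⟩)
    linarith
  · have := core 1 2 0 (fun e => hinj 1 2 (by decide) ⟨e, a1.trans a2.symm⟩)
      (fun ⟨b1, b2, b0⟩ => horb ⟨⟨![1, 0, 2], ![1, 0, 2], by decide, by decide⟩, by
        constructor <;> funext i <;> fin_cases i <;> simp [a0, a1, a2, b0, b1, b2]⟩)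
      (fun ⟨b1, b2, b0⟩ => horb ⟨⟨![1, 2, 0], ![2, 0, 1], by decide, by decide⟩, by
        constructor <;> funext i <;> fin_cases i <;> simp [a0, a1, a2, b0, b1, b2]⟩)
    linarith

/-- three electrons with equal spins. -/
theorem comb_high3 (h : κb ≠ κe) (hε : εb < εe) (k : Fin 3 → ι) (s : SpinConfig 3)
    (hinj : ∀ i j, i ≠ j → ¬ (k i = k j ∧ s i = s j)) (hs : spinZ s = 3 / 2 ∨ spinZ s = -(3 / 2)) :
    2 * εb + εe + 0.2 ≤ ∑ i, omegaW κb κe εb εe (k i) := by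
  rw [Fin.sum_univ_three]
  obtain ⟨s01, s12⟩ := (mbz_spin_cases s).2 hs
  have n01 : k 0 ≠ k 1 := fun e => hinj 0 1 (by decide) ⟨e, s01⟩
  have n12 : k 1 ≠ k 2 := fun e => hinj 1 2 (by decide) ⟨e, s12⟩
  have n02 : k 0 ≠ k 2 := fun e => hinj 0 2 (by decide) ⟨e, s01.trans s12⟩
  have g2 := mbz_ge_b h hε (k 2)
  rcases mbz_pair (εb := εb) (εe := εe) h hε n01 with ⟨a, b⟩ | ⟨a, b⟩ | hh
  · rw [omegaW_other (κ' := k 2) (fun e => n02 (a.trans e.symm)) (fun e => n12 (b.trans e.symm)), a, b,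
      omegaW_b h, omegaW_e h]
    linarith
  · rw [omegaW_other (κ' := k 2) (fun e => n12 (b.trans e.symm)) (fun e => n02 (a.trans e.symm)), a, b,
      omegaW_b h, omegaW_e h]
    linarith
  · linarith

end Comb

variable {b e : Space → ℝ} {εb εe : ℝ}

local notation "uD" => nuclearPotential 1 bigD

/-! ## STATES -/

theorem mbz_ae_comp {f : Space → ℝ} (hf : MemLp f 2 volume) {T : Space → Space} (hT : MeasurePreserving T volume volume)
    {c : ℝ} (h : ∀ x, f (T x) = c * f x) :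
    ∀ᵐ x : Space, (toOrb f : Space → ℝ) (T x) = c * (toOrb f : Space → ℝ) x := by
  filter_upwards [coeFn_toOrb hf, hT.quasiMeasurePreserving.ae (coeFn_toOrb hf)] with x h1 h2
  rw [h1, h2, h]

theorem TwoCentre.mbz_rot_b (h : TwoCentre b e εb εe) (a : ℝ) :
    ∀ᵐ x : Space, (toOrb b : Space → ℝ) (rotZ a x) = (toOrb b : Space → ℝ) x := by
  have := mbz_ae_comp h.data.orbital_b.memLp (measurePreserving_rotZ a) (c := 1)
    (fun x => by rw [h.data.axisymmetric_b, one_mul])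
  simpa only [one_mul] using this

theorem TwoCentre.mbz_rot_e (h : TwoCentre b e εb εe) (a : ℝ) :
    ∀ᵐ x : Space, (toOrb e : Space → ℝ) (rotZ a x) = (toOrb e : Space → ℝ) x := by
  have := mbz_ae_comp h.data.orbital_e.memLp (measurePreserving_rotZ a) (c := 1)
    (fun x => by rw [h.data.axisymmetric_e, one_mul])
  simpa only [one_mul] using this

theorem TwoCentre.mbz_refl_b (h : TwoCentre b e εb εe) :
    ∀ᵐ x : Space, (toOrb b : Space → ℝ) (reflZ x) = 1 * (toOrb b : Space → ℝ) x :=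
  mbz_ae_comp h.data.orbital_b.memLp measurePreserving_reflZ (fun x => by rw [h.data.even_b, one_mul])

theorem TwoCentre.mbz_refl_e (h : TwoCentre b e εb εe) :
    ∀ᵐ x : Space, (toOrb e : Space → ℝ) (reflZ x) = (-1) * (toOrb e : Space → ℝ) x :=
  mbz_ae_comp h.data.orbital_e.memLp measurePreserving_reflZ (fun x => by rw [h.data.odd_e]; ring)

theorem TwoCentre.phiZero_mem (h : TwoCentre b e εb εe) : phiZero b ∈ H1A 2 := by
  obtain ⟨Gb, hb⟩ := h.data.orbital_b.exists_isOrbEig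
  refine ⟨isAntisymmetric_sdet _ _, memH1_sdet (G := ![Gb, Gb]) (fun i => ?_) _⟩
  fin_cases i <;> exact hb.1

theorem TwoCentre.norm_phiZero (h : TwoCentre b e εb εe) : ‖phiZero b‖ = 1 := by
  refine norm_sdet (fun i => ?_) (fun i j hij hs => ?_)
  · fin_cases i <;> exact h.data.orbital_b.norm_toOrb
  · fin_cases i <;> fin_cases j <;> simp at hij hs

theorem TwoCentre.energy_phiZero (h : TwoCentre b e εb εe) :
    energy (scaledPotential 2 0) (phiZero b) = 2 * εb := by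
  obtain ⟨Gb, hb⟩ := h.data.orbital_b.exists_isOrbEig
  have := energy_zero_sdet (g := ![toOrb b, toOrb b]) (G := ![Gb, Gb]) (ε := ![εb, εb])
    (fun i => by fin_cases i <;> exact hb) ![0, 1]
  unfold phiZero
  rw [this]
  have hn : ‖sdet ![toOrb b, toOrb b] ![0, 1]‖ = 1 := h.norm_phiZero
  rw [hn, Fin.sum_univ_two]
  simp
  ring

theorem TwoCentre.phiZero_axisymmetric (h : TwoCentre b e εb εe) : IsAxisymmetric (phiZero b) := by
  refine isAxisymmetric_sdet (fun i a => ?_) _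
  fin_cases i <;> exact h.mbz_rot_b a

theorem TwoCentre.phiZero_even (h : TwoCentre b e εb εe) : HasReflectionParity 1 (phiZero b) := by
  have := hasReflectionParity_sdet (f := ![toOrb b, toOrb b]) (ε := ![1, 1])
    (fun i => by fin_cases i <;> exact h.mbz_refl_b) ![0, 1]
  simp only [Fin.prod_univ_two, Matrix.cons_val_zero, Matrix.cons_val_one, Matrix.cons_val_fin_one, mul_one,
    Complex.ofReal_one] at this
  exact this

theorem phiZero_singlet (b : Space → ℝ) : IsSinglet (phiZero b) := isSinglet_sdet _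

theorem TwoCentre.psiZero_mem (h : TwoCentre b e εb εe) : psiZero b e ∈ H1A 3 ⊓ sectorSub 3 (1 / 2) := by
  obtain ⟨Gb, hb⟩ := h.data.orbital_b.exists_isOrbEig
  obtain ⟨Ge, he⟩ := h.data.orbital_e.exists_isOrbEig
  refine ⟨⟨isAntisymmetric_sdet _ _, memH1_sdet (G := ![Gb, Gb, Ge]) (fun i => ?_) _⟩, ?_⟩
  · fin_cases i
    · exact hb.1
    · exact hb.1
    · exact he.1
  · have := inSpinSector_sdet ![toOrb b, toOrb b, toOrb e] ![0, 1, 0]
    have e1 : spinZ (![0, 1, 0] : SpinConfig 3) = 1 / 2 := by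
      simp [spinZ, Fin.sum_univ_three]
    rw [e1] at this
    exact this

theorem TwoCentre.norm_psiZero (h : TwoCentre b e εb εe) : ‖psiZero b e‖ = 1 := by
  refine norm_sdet (fun i => ?_) (fun i j hij hs => ?_)
  · fin_cases i
    · exact h.data.orbital_b.norm_toOrb
    · exact h.data.orbital_b.norm_toOrb
    · exact h.data.orbital_e.norm_toOrb
  · fin_cases i <;> fin_cases j <;> simp at hij hs ⊢
    · exact h.inner_eq_zero
    · rw [real_inner_comm]; exact h.inner_eq_zero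

theorem TwoCentre.energy_psiZero (h : TwoCentre b e εb εe) :
    energy (scaledPotential 3 0) (psiZero b e) = 2 * εb + εe := by
  obtain ⟨Gb, hb⟩ := h.data.orbital_b.exists_isOrbEig
  obtain ⟨Ge, he⟩ := h.data.orbital_e.exists_isOrbEig
  have := energy_zero_sdet (g := ![toOrb b, toOrb b, toOrb e]) (G := ![Gb, Gb, Ge]) (ε := ![εb, εb, εe])
    (fun i => by
      fin_cases i
      · exact hb
      · exact hb
      · exact he) ![0, 1, 0]
  unfold psiZero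
  rw [this]
  have hn : ‖sdet ![toOrb b, toOrb b, toOrb e] ![0, 1, 0]‖ = 1 := h.norm_psiZero
  rw [hn, Fin.sum_univ_three]
  simp
  ring

theorem TwoCentre.psiZero_axisymmetric (h : TwoCentre b e εb εe) : IsAxisymmetric (psiZero b e) := by
  refine isAxisymmetric_sdet (fun i a => ?_) _
  fin_cases i
  · exact h.mbz_rot_b a
  · exact h.mbz_rot_b a
  · exact h.mbz_rot_e a

theorem TwoCentre.psiZero_odd (h : TwoCentre b e εb εe) : HasReflectionParity (-1) (psiZero b e) := by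
  have := hasReflectionParity_sdet (f := ![toOrb b, toOrb b, toOrb e]) (ε := ![1, 1, -1])
    (fun i => by
      fin_cases i
      · exact h.mbz_refl_b
      · exact h.mbz_refl_b
      · exact h.mbz_refl_e) ![0, 1, 0]
  have e1 : ((∏ i, (![1, 1, -1] : Fin 3 → ℝ) i : ℝ) : ℂ) = -1 := by
    simp [Fin.prod_univ_three]
  rw [e1] at this
  exact this

/-! ## GAPS -/

theorem TwoCentre.mbz_lower (h : TwoCentre b e εb εe) :
    ∃ (ι : Type) (u : HilbertBasis ι ℝ Orb) (κb κe : ι), κb ≠ κe ∧ u κb = toOrb b ∧ u κe = toOrb e ∧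
      ∀ (m : ℕ) (Ξ : L2 m), MemH1 Ξ → ∀ c : ℝ,
        (∀ p : (Fin m → ι) × SpinConfig m, ⟪prodBasis u p, Ξ⟫_ℂ ≠ 0 → c ≤ ∑ i, omegaW κb κe εb εe (p.1 i)) →
        c * ‖Ξ‖ ^ 2 ≤ energy (scaledPotential m 0) Ξ := by
  obtain ⟨ι, u, κb, κe, hne, hb, he⟩ := exists_basis_of_pair h.data.orbital_b.norm_toOrb
    h.data.orbital_e.norm_toOrb h.inner_eq_zero
  refine ⟨ι, u, κb, κe, hne, hb, he, fun m Ξ hΞ c hc => ?_⟩
  have hlt := h.data.lt
  refine energy_zero_ge_of_support u (a := ![εe + 0.2 - εb, 0.2]) (κ := ![κb, κe]) (fun l => ?_)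
    (h.oneBodyBound u hb he) hΞ hc
  fin_cases l
  · simp only [Fin.zero_eta, Matrix.cons_val_zero]; linarith
  · simp only [Fin.mk_one, Matrix.cons_val_one, Matrix.cons_val_fin_one]; norm_num

theorem mbz_inj {m : ℕ} {ι : Type*} (u : HilbertBasis ι ℝ Orb) {Ξ : L2 m} (hΞ : IsAntisymmetric Ξ)
    {p : (Fin m → ι) × SpinConfig m} (hp : ⟪prodBasis u p, Ξ⟫_ℂ ≠ 0) :
    ∀ i j, i ≠ j → ¬ (p.1 i = p.1 j ∧ p.2 i = p.2 j) := by
  intro i j hij ⟨h1, h2⟩
  apply hp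
  rw [prodBasis_apply]
  exact inner_tens_eq_zero_of_repeat hΞ hij (by simp only [h1]) h2

theorem TwoCentre.bottom2 (h : TwoCentre b e εb εe) {Ξ : L2 2} (hΞ : Ξ ∈ H1A 2) :
    2 * εb * ‖Ξ‖ ^ 2 ≤ energy (scaledPotential 2 0) Ξ := by
  obtain ⟨ι, u, κb, κe, hne, -, -, hl⟩ := h.mbz_lower
  exact hl 2 Ξ hΞ.2 _ fun p _ => comb_bottom2 hne h.data.lt p.1

/-- a permutation of the reference index has zero coefficient. -/
theorem mbz_orb {m : ℕ} {Ξ : L2 m} (hΞ : IsAntisymmetric Ξ) {f : Fin m → Orb} {σ : SpinConfig m}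
    (ho : ⟪sdet f σ, Ξ⟫_ℂ = 0) (π : Equiv.Perm (Fin m)) : ⟪tens (f ∘ π) (σ ∘ π), Ξ⟫_ℂ = 0 := by
  rw [inner_sdet hΞ] at ho
  have h0 : (0 : ℝ) < m.factorial := by exact_mod_cast m.factorial_pos
  have h1 : ((√(m.factorial : ℝ) : ℝ) : ℂ) ≠ 0 := by
    exact_mod_cast (Real.sqrt_pos.2 h0).ne'
  rw [inner_tens_perm hΞ, (mul_eq_zero.1 ho).resolve_left h1, mul_zero]

theorem TwoCentre.gap2 (h : TwoCentre b e εb εe) {Ξ : L2 2} (hΞ : Ξ ∈ H1A 2) (ho : ⟪phiZero b, Ξ⟫_ℂ = 0) :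
    (2 * εb + (εe - εb)) * ‖Ξ‖ ^ 2 ≤ energy (scaledPotential 2 0) Ξ := by
  obtain ⟨ι, u, κb, κe, hne, hb, -, hl⟩ := h.mbz_lower
  refine hl 2 Ξ hΞ.2 _ fun p hp => ?_
  have := comb_gap2 (εb := εb) (εe := εe) hne h.data.lt p.1 ?_
  · linarith
  · rintro ⟨h0, h1⟩
    have hinj := mbz_inj u hΞ.1 hp 0 1 (by decide)
    have hs : p.2 0 ≠ p.2 1 := fun hs => hinj ⟨h0.trans h1.symm, hs⟩
    apply hp
    rw [prodBasis_apply]
    have hf : (fun i => u (p.1 i)) = ![toOrb b, toOrb b] := by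
      funext i; fin_cases i
      · simp [h0, hb]
      · simp [h1, hb]
    rw [hf]
    have h2 : ∀ a : Fin 2, a = 0 ∨ a = 1 := by decide
    rcases h2 (p.2 0) with a0 | a0 <;> rcases h2 (p.2 1) with a1 | a1
    · exact absurd (a0.trans a1.symm) hs
    · have := mbz_orb hΞ.1 ho 1
      have e2 : p.2 = ![0, 1] := by funext i; fin_cases i <;> simp [a0, a1]
      rw [e2]
      exact this
    · have := mbz_orb hΞ.1 ho (Equiv.swap 0 1)
      have e1 : (![toOrb b, toOrb b] : Fin 2 → Orb) ∘ ⇑(Equiv.swap (0 : Fin 2) 1) = ![toOrb b, toOrb b] := by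
        funext i; fin_cases i <;> simp
      have e2 : p.2 = (![0, 1] : SpinConfig 2) ∘ ⇑(Equiv.swap (0 : Fin 2) 1) := by
        funext i; fin_cases i <;> simp [a0, a1]
      rw [e1] at this
      rw [e2]
      exact this
    · exact absurd (a0.trans a1.symm) hs

theorem TwoCentre.bottom3 (h : TwoCentre b e εb εe) {Ξ : L2 3} (hΞ : Ξ ∈ H1A 3) :
    (2 * εb + εe) * ‖Ξ‖ ^ 2 ≤ energy (scaledPotential 3 0) Ξ := by
  obtain ⟨ι, u, κb, κe, hne, -, -, hl⟩ := h.mbz_lower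
  exact hl 3 Ξ hΞ.2 _ fun p hp => comb_bottom3 hne h.data.lt p.1 p.2 (mbz_inj u hΞ.1 hp)

theorem mbz_sector {m : ℕ} {ι : Type*} (u : HilbertBasis ι ℝ Orb) {μ : ℚ} {Ξ : L2 m} (hΞ : InSpinSector μ Ξ)
    {p : (Fin m → ι) × SpinConfig m} (hp : ⟪prodBasis u p, Ξ⟫_ℂ ≠ 0) : spinZ p.2 = μ := by
  by_contra hs
  apply hp
  rw [prodBasis_apply]
  exact inner_tens_eq_zero_of_sector hΞ _ hs

theorem TwoCentre.mbz_split_le (h : TwoCentre b e εb εe) : εe - εb ≤ 0.2 := by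
  have h1 := h.split_lt
  have h2 : (100 : ℝ) / bigD ≤ 0.2 := by
    unfold bigD
    rw [div_le_iff₀ (by positivity)]
    have : (10 : ℝ) ^ 3 ≤ 10 ^ 200 := pow_le_pow_right₀ (by norm_num) (by norm_num)
    linarith
  linarith

theorem TwoCentre.gap3 (h : TwoCentre b e εb εe) {Ξ : L2 3} (hΞ : Ξ ∈ H1A 3 ⊓ sectorSub 3 (1 / 2))
    (ho : ⟪psiZero b e, Ξ⟫_ℂ = 0) :
    (2 * εb + εe + (εe - εb)) * ‖Ξ‖ ^ 2 ≤ energy (scaledPotential 3 0) Ξ := by
  obtain ⟨ι, u, κb, κe, hne, hb, he, hl⟩ := h.mbz_lower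
  refine hl 3 Ξ hΞ.1.2 _ fun p hp => ?_
  refine comb_gap3 hne h.data.lt h.mbz_split_le p.1 p.2 (mbz_inj u hΞ.1.1 hp) (mbz_sector u hΞ.2 hp) ?_
  rintro ⟨π, h1, h2⟩
  apply hp
  rw [prodBasis_apply]
  have hf : (fun i => u (p.1 i)) = (![toOrb b, toOrb b, toOrb e] : Fin 3 → Orb) ∘ π := by
    funext i
    rw [h1]
    simp only [Function.comp_apply]
    generalize π i = k
    fin_cases k <;> simp [hb, he]
  rw [hf, h2]
  exact mbz_orb hΞ.1.1 ho π

theorem TwoCentre.high3 (h : TwoCentre b e εb εe) {Ξ : L2 3} (hΞ : Ξ ∈ H1A 3)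
    (hs : InSpinSector (3 / 2) Ξ ∨ InSpinSector (-(3 / 2)) Ξ) :
    (2 * εb + εe + 0.2) * ‖Ξ‖ ^ 2 ≤ energy (scaledPotential 3 0) Ξ := by
  obtain ⟨ι, u, κb, κe, hne, -, -, hl⟩ := h.mbz_lower
  refine hl 3 Ξ hΞ.2 _ fun p hp => ?_
  refine comb_high3 hne h.data.lt p.1 p.2 (mbz_inj u hΞ.1 hp) ?_
  rcases hs with hs | hs
  · exact Or.inl (mbz_sector u hs hp)
  · exact Or.inr (mbz_sector u hs hp)

theorem mbz_eig {m : ℕ} {E : ℝ} {Φ : L2 m} (hΦ : Φ ∈ H1A m) (hn : ‖Φ‖ = 1)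
    (hE : energy (scaledPotential m 0) Φ = E)
    (hlow : ∀ Ξ ∈ H1A m, E * ‖Ξ‖ ^ 2 ≤ energy (scaledPotential m 0) Ξ) :
    Φ ∈ Eigenspace (scaledPotential m 0) E := by
  have hbot : IsSpectrumBottom (scaledPotential m 0) E := by
    constructor
    · rintro _ ⟨Ξ, ⟨hΞ, hΞ1⟩, rfl⟩
      have := hlow Ξ ((mem_H1A_iff_formDomain 0).2 hΞ)
      rw [hΞ1] at this
      linarith
    · intro c hc
      exact hc ⟨Φ, ⟨(mem_H1A_iff_formDomain 0).1 hΦ, hn⟩, hE⟩
  rw [mem_eigenspace_iff_energy (measurable_scaledPotential 0).aestronglyMeasurable hbot]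
  exact ⟨(mem_H1A_iff_formDomain 0).1 hΦ, by rw [hE, hn]; ring⟩

/-- eigen-equation of `φ₀`. -/
theorem TwoCentre.phiZero_eig (h : TwoCentre b e εb εe) :
    phiZero b ∈ Eigenspace (scaledPotential 2 0) (2 * εb) :=
  mbz_eig h.phiZero_mem h.norm_phiZero h.energy_phiZero fun _ hΞ => h.bottom2 hΞ

/-- eigen-equation of `Ψ₀`. -/
theorem TwoCentre.psiZero_eig (h : TwoCentre b e εb εe) :
    psiZero b e ∈ Eigenspace (scaledPotential 3 0) (2 * εb + εe) :=
  mbz_eig h.psiZero_mem.1 h.norm_psiZero h.energy_psiZero fun _ hΞ => h.bottom3 hΞ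

end Claimed.Open.R278
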