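import Claimed.Open.R278.FSHardy
import Claimed.Open.R278.DensityLemmas
import Claimed.Open.R278.TopDefs

/-!
# Result 278, layer L2b (BP-MB2, prefix MR), file 2: uniqueness of regular data

Architect: helper217.  TOP THEOREM: `mr_unique` (verbatim `IsRegular.unique` of `Top.lean`).
`E₃`, `E₂` are spectrum bottoms (unique `IsGLB`); `Ψ' = c Ψ`, `|c| = 1` by simplicity in the sector; the densities agree a.e., hence everywhere by continuity.
-/

open MeasureTheory
open scoped ContDiff InnerProductSpace ComplexConjugate ENNReal Topology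

noncomputable section

namespace Claimed.Open.R278

/-- a null set of configurations is null on almost every fibre `r = const`. -/
theorem mru_ae_ae_cons {p : Config 3 → Prop} (h : ∀ᵐ X, p X) :
    ∀ᵐ r : Space, ∀ᵐ y : Config 2, p (Fin.cons r y : Config 3) := by
  have h1 : ∀ᵐ q : Space × (Fin 2 → Space), p (consEquiv q) :=
    measurePreserving_consEquiv.quasiMeasurePreserving.ae h
  have h2 := Measure.ae_ae_of_ae_prod h1
  filter_upwards [h2] with r hr
  filter_upwards [hr] with y hy
  rwa [consEquiv_apply] at hy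

/-- the density depends only on the pointwise norm, almost everywhere. -/
theorem mru_density_congr {Ψ Φ : L2 3} (h : ∀ᵐ X : Config 3, ‖Ψ X‖ = ‖Φ X‖) :
    density Ψ =ᵐ[volume] density Φ := by
  filter_upwards [mru_ae_ae_cons h] with r hr
  unfold density
  congr 1
  refine integral_congr_ae ?_
  filter_upwards [hr] with y hy
  rw [hy]

theorem mru_density_smul {c : ℂ} (hc : ‖c‖ = 1) (Ψ : L2 3) : density (c • Ψ) =ᵐ[volume] density Ψ := by
  refine mru_density_congr ?_
  filter_upwards [Lp.coeFn_smul c Ψ] with X hX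
  rw [hX, Pi.smul_apply, norm_smul, hc, one_mul]

/-- two continuous functions on `ℝ³` which agree a.e. are equal. -/
theorem mru_eq_of_ae_eq {E : Type*} [TopologicalSpace E] [T2Space E] {u w : Space → E} (hu : Continuous u)
    (hw : Continuous w) (h : u =ᵐ[volume] w) : u = w :=
  (hu.ae_eq_iff_eq volume hw).1 h

/-- Regular data are unique as far as the density and the rate are concerned. -/
theorem mr_unique {εb t : ℝ} {d d' : AuxData} (h : IsRegular εb t d)
    (h' : IsRegular εb t d') : d.n = d'.n ∧ d.k = d'.k := by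
  have hW3 : AEStronglyMeasurable (scaledPotential 3 t) volume :=
    (measurable_scaledPotential t).aestronglyMeasurable
  have hW2 : AEStronglyMeasurable (scaledPotential 2 t) volume :=
    (measurable_scaledPotential t).aestronglyMeasurable
  have e3 : d.E₃ = d'.E₃ := h.absolute.unique h'.absolute
  have e2 : d.E₂ = d'.E₂ :=
    (h.ion_ground.isGroundState hW2).1.unique (h'.ion_ground.isGroundState hW2).1
  refine ⟨?_, by unfold AuxData.k; rw [e2, e3]⟩
  have hΨ' : d'.Ψ ∈ Eigenspace (scaledPotential 3 t) d.E₃ := by rw [e3]; exact h'.ground.2.2.1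
  have hs : d'.Ψ = ⟪d.Ψ, d'.Ψ⟫_ℂ • d.Ψ :=
    h.ground.eq_smul hW3 (sector_closed h.ground.2.1) hΨ' h'.ground.2.1
  have hc : ‖⟪d.Ψ, d'.Ψ⟫_ℂ‖ = 1 := by
    have := congrArg norm hs
    rw [norm_smul, h.ground.1, h'.ground.1, mul_one] at this
    exact this.symm
  refine mru_eq_of_ae_eq h.n_continuous h'.n_continuous ?_
  have h1 : density d'.Ψ =ᵐ[volume] density d.Ψ := by
    rw [hs]
    exact mru_density_smul hc d.Ψ
  exact h.n_eq.trans (h1.symm.trans h'.n_eq.symm)

end Claimed.Open.R278
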