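import Claimed.Open.R278.SLEmbed
import Claimed.Open.R278.FSSobolev
import Claimed.Open.R278.AGBridge
import Claimed.Open.R278.AGSlice
import Claimed.Open.R278.MRUnique
import Claimed.Open.R278.MRScalar

/-!
# Result 278, layer L2b (BP-MB2, prefix MR), file 3: `H²` regularity of eigenfunctions; the continuous fibre map; the density and its weak derivatives

Architect: helper217.  No paper needed (Lemma 2.4 of 01-coulomb-setup.tex, re-derived).  THIS FILE HAS NO `sorry` OF ITS OWN (it cites kit lemmas of FS, SL, AG).  Helper lemmas: prefix `mrf_`.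

NOTATION.  `Ψ : L2 3`, `x = X 0` the distinguished electron, `dX a Ψ = ∂_{x_a} Ψ = weakGrad Ψ (0, a)`, `lapX Ψ = ∑_a ∂²_{x_a} Ψ`.
`AG.slice Ψ : Space → Fib`, `x ↦ Ψ(x, ·)` (helper9's `AGSlice.lean`), `Fib = L²(Config 2; ℂ⁸)`.
`fibRep Ψ` = THE continuous representative of `AG.slice Ψ` (exists for `Ψ ∈ H²`), `cdens Ψ x = 3 ‖fibRep Ψ x‖²` = THE continuous version of `density Ψ`.

## Leaf MR-A (section H2): `HalfLap Ψ R` means `-½ΔΨ = R` tested against ALL of `H¹` (no antisymmetry).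
 `HalfLap.memH2`: `memH2_of_form` (FSH2) with `F = 2 R`.   `halfLap_of_mem_eigenspace`: `AG.isWeakSol_of_mem_eigenspace` (tested against all `H¹` pairs; take the pair
 `(Ξ, weakGrad Ξ)`, `AG.h1_of_memH1`), split `∫ (V - E) ⟪Ξ, Ψ⟫ = ⟪Ξ, potMul t Ψ⟫ - E ⟪Ξ, Ψ⟫` (`L2.inner_eq`, `coeFn_potMul`, `integrable_scaledPotential_inner`).
 `norm_potMul_le`: `integral_scaledPotential_sq_le`.  `norm_potMul_sub_le`: `V_t - V_0 = t · repulsion`, `0 ≤ repulsion ≤ |V_1| + |V_0|`... simplest: `repulsion = V_1 - V_0`, so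
 `‖(V_t - V_0) Ψ‖ = t ‖(V_1 - V_0)Ψ‖ ≤ t (‖V_1 Ψ‖ + ‖V_0 Ψ‖)`.
## Leaf MR-B (section FIB): `exists_continuous_rep` (SLEmbed) with `f = AG.slice Ψ`, `g a = AG.slice (dX a Ψ)`, `F = ∑_a AG.slice (dX a (dX a Ψ))` (`AG.slice_wd2`, `MemH1.wd2`, `HasWeakDiv.of_wd`);
 `∫ ‖AG.slice Φ x‖² dx = ‖Φ‖²` (`AG.memLp_slice`, `AG.nsq_coe`); `∑_a AG.slice (Φ_a) =ᵐ AG.slice (∑_a Φ_a)` (`AG.slice_add`, `AG.slice_congr_ae`, `Lp.coeFn_add`).  Uniqueness of continuous representatives: `mru_eq_of_ae_eq`.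
 `fibRep_sub`: both sides are continuous and a.e. equal (`AG.slice_sub`, `Lp.coeFn_sub`).   `memLp_six_slice_dX`: `WD2.sobolev`.
## Leaf MR-C (section DENS): `WD.norm_sq`, `WD.inner`, `WD.clm Complex.reCLM`, `isWeakGrad_of_coord`; Cauchy-Schwarz pointwise; Hölder `L⁶·L⁶ ⊂ L³ ⊂ L²_loc`, `L^∞·L² ⊂ L²`, `L²·L² ⊂ L¹`.
-/

open MeasureTheory Filter Topology Set
open scoped ContDiff InnerProductSpace ENNReal

noncomputable section

namespace Claimed.Open.R278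

/-! ## H2 -/

section H2

variable {m : ℕ}

open Classical in
/-- multiplication by the Coulomb potential `V_t` (junk value `0` if `V_t Ψ ∉ L²`; it is in `L²` for `Ψ ∈ H¹`). -/
def potMul (t : ℝ) (Ψ : L2 m) : L2 m :=
  if h : MemLp (fun x => scaledPotential m t x • (Ψ x : SpinSpace m)) 2 volume then h.toLp _ else 0

theorem coeFn_potMul (t : ℝ) {Ψ : L2 m} (h : MemH1 Ψ) :
    (potMul t Ψ : Config m → SpinSpace m) =ᵐ[volume] fun x => scaledPotential m t x • (Ψ x : SpinSpace m) := by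
  unfold potMul
  rw [dif_pos (memLp_scaledPotential_smul t h)]
  exact MemLp.coeFn_toLp _

theorem mrf_memH1_sub {Ψ Φ : L2 m} (h : MemH1 Ψ) (h' : MemH1 Φ) : MemH1 (Ψ - Φ) := by
  have := h.add (h'.smul (-1))
  simpa [sub_eq_add_neg] using this

theorem mrf_weakGrad_sub {Ψ Φ : L2 m} (h : MemH1 Ψ) (h' : MemH1 Φ) :
    weakGrad (Ψ - Φ) = weakGrad Ψ - weakGrad Φ := by
  have e : Ψ - Φ = Ψ + (-1 : ℂ) • Φ := by simp [sub_eq_add_neg]
  rw [e, weakGrad_add h (h'.smul (-1)), weakGrad_smul (-1) h']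
  simp [sub_eq_add_neg]

theorem potMul_sub (t : ℝ) {Ψ Φ : L2 m} (h : MemH1 Ψ) (h' : MemH1 Φ) :
    potMul t (Ψ - Φ) = potMul t Ψ - potMul t Φ := by
  refine Lp.ext ?_
  filter_upwards [coeFn_potMul t (mrf_memH1_sub h h'), coeFn_potMul t h, coeFn_potMul t h',
    Lp.coeFn_sub (potMul t Ψ) (potMul t Φ), Lp.coeFn_sub Ψ Φ] with x h1 h2 h3 h4 h5
  rw [h1, h4, Pi.sub_apply, h2, h3, h5, Pi.sub_apply, smul_sub]

theorem norm_potMul_le {t : ℝ} (ht : |t| ≤ 1) {Ψ : L2 m} (h : MemH1 Ψ) :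
    ‖potMul t Ψ‖ ≤ 2 * ((m : ℝ) + 1) ^ 2 * √(kin Ψ) := by
  have h1 : ‖potMul t Ψ‖ ^ 2 ≤ (2 * ((m : ℝ) + 1) ^ 2 * √(kin Ψ)) ^ 2 := by
    rw [L2.norm_sq_eq, mul_pow, Real.sq_sqrt (kin_nonneg Ψ)]
    have e : ∫ x, ‖potMul t Ψ x‖ ^ 2 = ∫ x, scaledPotential m t x ^ 2 * ‖Ψ x‖ ^ 2 := by
      refine integral_congr_ae ?_
      filter_upwards [coeFn_potMul t h] with x hx
      rw [hx, norm_smul, mul_pow, Real.norm_eq_abs, sq_abs]
    rw [e]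
    refine (integral_scaledPotential_sq_le ht h).trans (le_of_eq ?_)
    ring
  exact (pow_le_pow_iff_left₀ (norm_nonneg _) (by positivity) (by norm_num)).1 h1

/-- dependence on the coupling. -/
theorem norm_potMul_sub_le {t : ℝ} (ht : 0 ≤ t) {Ψ : L2 m} (h : MemH1 Ψ) :
    ‖potMul t Ψ - potMul 0 Ψ‖ ≤ t * (4 * ((m : ℝ) + 1) ^ 2 * √(kin Ψ)) := by
  have e : potMul t Ψ - potMul 0 Ψ = (t : ℂ) • (potMul 1 Ψ - potMul 0 Ψ) := by
    refine Lp.ext ?_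
    filter_upwards [coeFn_potMul t h, coeFn_potMul 0 h, coeFn_potMul 1 h, Lp.coeFn_sub (potMul t Ψ) (potMul 0 Ψ),
      Lp.coeFn_sub (potMul 1 Ψ) (potMul 0 Ψ), Lp.coeFn_smul (t : ℂ) (potMul 1 Ψ - potMul 0 Ψ)] with x h1 h2 h3 h4 h5 h6
    rw [h4, h6, Pi.sub_apply, Pi.smul_apply, h5, Pi.sub_apply, h1, h2, h3, Complex.coe_smul, ← sub_smul, ← sub_smul,
      smul_smul]
    congr 1
    unfold scaledPotential
    ring
  rw [e, norm_smul, Complex.norm_real, Real.norm_eq_abs, abs_of_nonneg ht]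
  refine mul_le_mul_of_nonneg_left ?_ ht
  have h1 := norm_potMul_le (t := 1) (by simp) h
  have h0 := norm_potMul_le (t := 0) (by simp) h
  calc ‖potMul 1 Ψ - potMul 0 Ψ‖ ≤ ‖potMul 1 Ψ‖ + ‖potMul 0 Ψ‖ := norm_sub_le _ _
    _ ≤ 2 * ((m : ℝ) + 1) ^ 2 * √(kin Ψ) + 2 * ((m : ℝ) + 1) ^ 2 * √(kin Ψ) := add_le_add h1 h0
    _ = _ := by ring

/-- `-½ΔΨ = R` in the form sense, tested against all of `H¹`. -/
def HalfLap (Ψ R : L2 m) : Prop :=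
  MemH1 Ψ ∧ ∀ Ξ : L2 m, MemH1 Ξ → (1 / 2 : ℂ) * ∑ j, ⟪weakGrad Ξ j, weakGrad Ψ j⟫_ℂ = ⟪Ξ, R⟫_ℂ

theorem HalfLap.sub {Ψ R Ψ' R' : L2 m} (h : HalfLap Ψ R) (h' : HalfLap Ψ' R') : HalfLap (Ψ - Ψ') (R - R') := by
  refine ⟨mrf_memH1_sub h.1 h'.1, fun Ξ hΞ => ?_⟩
  rw [mrf_weakGrad_sub h.1 h'.1, inner_sub_right, ← h.2 Ξ hΞ, ← h'.2 Ξ hΞ]
  simp only [Pi.sub_apply, inner_sub_right, Finset.sum_sub_distrib, mul_sub]

/-- **`H²` regularity.** -/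
theorem HalfLap.memH2 {Ψ R : L2 m} (h : HalfLap Ψ R) :
    MemH2 Ψ ∧ ∀ i j, ‖weakGrad (weakGrad Ψ j) i‖ ≤ 2 * ‖R‖ := by
  have h1 := memH2_of_form (F := (2 : ℂ) • R) h.1 (fun Ξ hΞ => by
    have := h.2 Ξ hΞ
    rw [inner_smul_right]
    linear_combination 2 * this)
  refine ⟨h1.1, fun i j => (h1.2.1 i j).trans (le_of_eq ?_)⟩
  rw [norm_smul]; simp

/-- an eigenfunction solves `-½ΔΨ = E Ψ - V_t Ψ`. -/
theorem halfLap_of_mem_eigenspace {t E : ℝ} (h0 : 0 ≤ t) (h1 : t ≤ 1) {Ψ : L2 m}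
    (h : Ψ ∈ Eigenspace (scaledPotential m t) E) : HalfLap Ψ ((E : ℂ) • Ψ - potMul t Ψ) := by
  have hΨ : MemH1 Ψ := h.1.2.1
  refine ⟨hΨ, fun Ξ hΞ => ?_⟩
  have hs := (AG.isWeakSol_of_mem_eigenspace h0 h1 h).2 _ _ (AG.h1_of_memH1 hΞ) (fun x hx => absurd (mem_univ x) hx)
  have i1 := integrable_scaledPotential_inner t hΞ hΨ
  have i2 := L2.integrable_inner Ξ Ψ
  have e1 : ∫ x, ((scaledPotential m t x - E : ℝ) : ℂ) * ⟪Ξ x, Ψ x⟫_ℂ
      = (∫ x, (scaledPotential m t x : ℂ) * ⟪Ξ x, Ψ x⟫_ℂ) - (E : ℂ) * ∫ x, ⟪Ξ x, Ψ x⟫_ℂ := by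
    rw [← integral_const_mul, ← integral_sub i1 (i2.const_mul _)]
    refine integral_congr_ae (Eventually.of_forall fun x => ?_)
    beta_reduce
    push_cast; ring
  have e2 : ⟪Ξ, potMul t Ψ⟫_ℂ = ∫ x, (scaledPotential m t x : ℂ) * ⟪Ξ x, Ψ x⟫_ℂ := by
    rw [L2.inner_eq]
    refine integral_congr_ae ?_
    filter_upwards [coeFn_potMul t hΨ] with x hx
    rw [hx, ← Complex.coe_smul, inner_smul_right]
  have e3 : ∀ j, ⟪weakGrad Ξ j, weakGrad Ψ j⟫_ℂ = ∫ x, ⟪weakGrad Ξ j x, weakGrad Ψ j x⟫_ℂ := fun j => L2.inner_eq _ _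
  simp only [inner_zero_right, integral_zero] at hs
  rw [e1] at hs
  rw [inner_sub_right, inner_smul_right, e2, L2.inner_eq Ξ Ψ]
  simp only [e3]
  linear_combination hs

/-- the kinetic energy of a normalized eigenfunction. -/
theorem kin_le_of_mem_eigenspace {t E : ℝ} (h0 : 0 ≤ t) (h1 : t ≤ 1) {Ψ : L2 m}
    (h : Ψ ∈ Eigenspace (scaledPotential m t) E) :
    kin Ψ ≤ (4 * E + 64 * ((m : ℝ) + 1) ^ 3) * ‖Ψ‖ ^ 2 := by
  have he : energy (scaledPotential m t) Ψ = E * ‖Ψ‖ ^ 2 := by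
    have := h.2 Ψ h.1
    unfold energy
    rw [this, inner_self_eq_norm_sq_to_K, Complex.re_ofReal_mul]
    norm_cast
  have := kin_le_energy_scaledPotential (t := t) (by rw [abs_of_nonneg h0]; exact h1) h.1.2.1
  rw [he] at this
  linarith

/-- the a priori constant: bound of all second derivatives of a normalized eigenfunction at energy `E`. -/
def h2Bound (m : ℕ) (E : ℝ) : ℝ := 2 * (|E| + 2 * ((m : ℝ) + 1) ^ 2 * √(4 * |E| + 64 * ((m : ℝ) + 1) ^ 3))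

theorem h2Bound_mono {m : ℕ} {E E' : ℝ} (h : |E| ≤ |E'|) : h2Bound m E ≤ h2Bound m E' := by
  unfold h2Bound
  gcongr

/-- **every form eigenfunction of `H_{m,t}` is in `H²`**, with an explicit bound. -/
theorem mr_memH2 {t E : ℝ} (h0 : 0 ≤ t) (h1 : t ≤ 1) {Ψ : L2 m} (h : Ψ ∈ Eigenspace (scaledPotential m t) E)
    (hn : ‖Ψ‖ = 1) : MemH2 Ψ ∧ ∀ i j, ‖weakGrad (weakGrad Ψ j) i‖ ≤ h2Bound m E := by
  have hL := (halfLap_of_mem_eigenspace h0 h1 h).memH2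
  refine ⟨hL.1, fun i j => (hL.2 i j).trans ?_⟩
  unfold h2Bound
  refine mul_le_mul_of_nonneg_left ?_ (by norm_num)
  have hk := kin_le_of_mem_eigenspace h0 h1 h
  rw [hn, one_pow, mul_one] at hk
  have hk' : √(kin Ψ) ≤ √(4 * |E| + 64 * ((m : ℝ) + 1) ^ 3) :=
    Real.sqrt_le_sqrt (hk.trans (by gcongr; exact le_abs_self E))
  have hp := norm_potMul_le (t := t) (by rw [abs_of_nonneg h0]; exact h1) h.1.2.1
  calc ‖(E : ℂ) • Ψ - potMul t Ψ‖ ≤ ‖(E : ℂ) • Ψ‖ + ‖potMul t Ψ‖ := norm_sub_le _ _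
    _ ≤ |E| + 2 * ((m : ℝ) + 1) ^ 2 * √(kin Ψ) := by
        refine add_le_add (le_of_eq ?_) hp
        rw [norm_smul, hn, mul_one, Complex.norm_real, Real.norm_eq_abs]
    _ ≤ _ := by gcongr

end H2

/-! ## FIB -/

section FIB

open AG

/-- `∂_{x_a}`, `x` the distinguished electron. -/
def dX (a : Fin 3) (Ψ : L2 3) : L2 3 := weakGrad Ψ (0, a)

/-- `Δ_x`. -/
def lapX (Ψ : L2 3) : L2 3 := ∑ a, dX a (dX a Ψ)

open Classical in
/-- THE continuous representative of the slice map `x ↦ Ψ(x, ·)` (junk value `0` if there is none). -/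
def fibRep (Ψ : L2 3) : Space → Fib :=
  if h : ∃ F : Space → Fib, Continuous F ∧ F =ᵐ[volume] slice (Ψ : Config 3 → SpinSpace 3) then h.choose else 0

theorem integral_norm_slice_sq (Φ : L2 3) : ∫ x, ‖slice (Φ : Config 3 → SpinSpace 3) x‖ ^ 2 = ‖Φ‖ ^ 2 := by
  have := (memLp_slice (L2.memLp Φ)).2
  rw [nsq_coe] at this
  exact this

theorem memLp_slice_coe (Φ : L2 3) : MemLp (slice (Φ : Config 3 → SpinSpace 3)) 2 volume :=
  (memLp_slice (L2.memLp Φ)).1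

theorem mrf_sqrt_integral_slice (Φ : L2 3) : √(∫ x, ‖slice (Φ : Config 3 → SpinSpace 3) x‖ ^ 2) = ‖Φ‖ := by
  rw [integral_norm_slice_sq, Real.sqrt_sq (norm_nonneg _)]

theorem mrf_slice_add (Φ Φ' : L2 3) :
    slice ((Φ + Φ' : L2 3) : Config 3 → SpinSpace 3) =ᵐ[volume]
      fun x => slice (Φ : Config 3 → SpinSpace 3) x + slice (Φ' : Config 3 → SpinSpace 3) x :=
  (slice_congr_ae (Lp.coeFn_add Φ Φ')).trans (slice_add (L2.memLp Φ) (L2.memLp Φ'))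

theorem mrf_slice_sub (Φ Φ' : L2 3) :
    slice ((Φ - Φ' : L2 3) : Config 3 → SpinSpace 3) =ᵐ[volume]
      fun x => slice (Φ : Config 3 → SpinSpace 3) x - slice (Φ' : Config 3 → SpinSpace 3) x :=
  (slice_congr_ae (Lp.coeFn_sub Φ Φ')).trans (slice_sub (L2.memLp Φ) (L2.memLp Φ'))

theorem mrf_slice_lapX (Ψ : L2 3) :
    slice (lapX Ψ : Config 3 → SpinSpace 3) =ᵐ[volume]
      fun x => ∑ a, slice (dX a (dX a Ψ) : Config 3 → SpinSpace 3) x := by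
  unfold lapX
  rw [Fin.sum_univ_three]
  filter_upwards [mrf_slice_add (dX 0 (dX 0 Ψ) + dX 1 (dX 1 Ψ)) (dX 2 (dX 2 Ψ)),
    mrf_slice_add (dX 0 (dX 0 Ψ)) (dX 1 (dX 1 Ψ))] with x h1 h2
  rw [h1, h2, Fin.sum_univ_three]

/-- characterisation. -/
theorem fibRep_eq {Ψ : L2 3} {F : Space → Fib} (hc : Continuous F)
    (hF : F =ᵐ[volume] slice (Ψ : Config 3 → SpinSpace 3)) : fibRep Ψ = F := by
  have h : ∃ F : Space → Fib, Continuous F ∧ F =ᵐ[volume] slice (Ψ : Config 3 → SpinSpace 3) := ⟨F, hc, hF⟩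
  unfold fibRep
  rw [dif_pos h]
  exact mru_eq_of_ae_eq h.choose_spec.1 hc (h.choose_spec.2.trans hF.symm)

theorem slice_wd2_dX {Ψ : L2 3} (h : MemH1 Ψ) (a : Fin 3) :
    WD2 volume (eA a) (slice (Ψ : Config 3 → SpinSpace 3)) (slice (dX a Ψ : Config 3 → SpinSpace 3)) :=
  slice_wd2 (h.wd2 (0, a))

theorem MemH2.memH1_dX {Ψ : L2 3} (h : MemH2 Ψ) (a : Fin 3) : MemH1 (dX a Ψ) := h.2 (0, a)

/-- **existence of the continuous fibre map**, with the bound of the embedding `H²(ℝ³; Fib) ⊂ C_b`. -/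
theorem fibRep_spec {Ψ : L2 3} (h : MemH2 Ψ) :
    Continuous (fibRep Ψ) ∧ fibRep Ψ =ᵐ[volume] slice (Ψ : Config 3 → SpinSpace 3) ∧
      (∀ x, ‖fibRep Ψ x‖ ≤ h2C * (‖Ψ‖ + ‖lapX Ψ‖)) ∧ Tendsto (fibRep Ψ) (cocompact Space) (𝓝 0) := by
  have hF : MemLp (fun x => ∑ a, slice (dX a (dX a Ψ) : Config 3 → SpinSpace 3) x) 2 volume :=
    memLp_finsetSum _ fun a _ => memLp_slice_coe _
  obtain ⟨f', c1, c2, c3, -, c5⟩ := exists_continuous_rep (fun a => slice_wd2_dX h.1 a) hF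
    (HasWeakDiv.of_wd fun a => (slice_wd2_dX (h.memH1_dX a) a).wd)
  have e : fibRep Ψ = f' := fibRep_eq c1 c2
  rw [e]
  refine ⟨c1, c2, fun x => ?_, c5⟩
  have e2 : ∫ y, ‖∑ a, slice (dX a (dX a Ψ) : Config 3 → SpinSpace 3) y‖ ^ 2
      = ∫ y, ‖slice (lapX Ψ : Config 3 → SpinSpace 3) y‖ ^ 2 := by
    refine integral_congr_ae ?_
    filter_upwards [mrf_slice_lapX Ψ] with y hy
    rw [hy]
  have := c3 x
  rwa [e2, mrf_sqrt_integral_slice, mrf_sqrt_integral_slice] at this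

theorem MemH2.sub {m : ℕ} {Ψ Φ : L2 m} (h : MemH2 Ψ) (h' : MemH2 Φ) : MemH2 (Ψ - Φ) := by
  refine ⟨mrf_memH1_sub h.1 h'.1, fun j => ?_⟩
  rw [mrf_weakGrad_sub h.1 h'.1]
  exact mrf_memH1_sub (h.2 j) (h'.2 j)

theorem dX_sub {Ψ Φ : L2 3} (h : MemH1 Ψ) (h' : MemH1 Φ) (a : Fin 3) : dX a (Ψ - Φ) = dX a Ψ - dX a Φ := by
  unfold dX
  rw [mrf_weakGrad_sub h h']
  rfl

theorem fibRep_sub {Ψ Φ : L2 3} (h : MemH2 Ψ) (h' : MemH2 Φ) (x : Space) :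
    fibRep (Ψ - Φ) x = fibRep Ψ x - fibRep Φ x := by
  have e : fibRep (Ψ - Φ) = fun x => fibRep Ψ x - fibRep Φ x := by
    refine fibRep_eq ((fibRep_spec h).1.sub (fibRep_spec h').1) ?_
    filter_upwards [(fibRep_spec h).2.1, (fibRep_spec h').2.1, mrf_slice_sub Ψ Φ] with x h1 h2 h3
    rw [h1, h2, h3]
  rw [e]

theorem fibRep_wd2 {Ψ : L2 3} (h : MemH2 Ψ) (a : Fin 3) :
    WD2 volume (eA a) (fibRep Ψ) (slice (dX a Ψ : Config 3 → SpinSpace 3)) := by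
  have h1 := slice_wd2_dX h.1 a
  have e := (fibRep_spec h).2.1
  exact ⟨h1.memf.ae_eq e.symm, h1.memg, (h1.wd.congr_ae e.symm EventuallyEq.rfl).weak⟩

/-- Sobolev: `∂_{x_a} Ψ(x, ·) ∈ L⁶_x`. -/
theorem memLp_six_slice_dX {Ψ : L2 3} (h : MemH2 Ψ) (a : Fin 3) :
    MemLp (slice (dX a Ψ : Config 3 → SpinSpace 3)) 6 volume ∧
      eLpNorm (slice (dX a Ψ : Config 3 → SpinSpace 3)) 6 volume
        ≤ ENNReal.ofReal (sobolevC * √(∑ b, ‖dX b (dX a Ψ)‖ ^ 2)) := by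
  have := WD2.sobolev ℂ (fun b => slice_wd2_dX (h.memH1_dX a) b)
  simpa only [integral_norm_slice_sq] using this

end FIB

/-! ## DENS -/

section DENS

open AG

/-- THE continuous version of the density. -/
def cdens (Ψ : L2 3) (x : Space) : ℝ := 3 * ‖fibRep Ψ x‖ ^ 2

/-- its weak gradient `6 Re⟨F, ∂_a F⟩`. -/
def cdensGrad (Ψ : L2 3) (x : Space) : Space :=
  WithLp.toLp 2 fun a => 6 * (⟪fibRep Ψ x, slice (dX a Ψ : Config 3 → SpinSpace 3) x⟫_ℂ).re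

/-- row `a` of its weak Hessian: `∂_b ∂_a n = 6 Re⟨∂_b F, ∂_a F⟩ + 6 Re⟨F, ∂_b ∂_a F⟩`. -/
def cdensHess (Ψ : L2 3) (a : Fin 3) (x : Space) : Space :=
  WithLp.toLp 2 fun b =>
    6 * ((⟪slice (dX b Ψ : Config 3 → SpinSpace 3) x, slice (dX a Ψ : Config 3 → SpinSpace 3) x⟫_ℂ).re
      + (⟪fibRep Ψ x, slice (dX b (dX a Ψ) : Config 3 → SpinSpace 3) x⟫_ℂ).re)

/-- `‖∇_x F(x)‖`. -/
def fibGradNorm (Ψ : L2 3) (x : Space) : ℝ := √(∑ a, ‖slice (dX a Ψ : Config 3 → SpinSpace 3) x‖ ^ 2)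

theorem continuous_cdens {Ψ : L2 3} (h : MemH2 Ψ) : Continuous (cdens Ψ) :=
  continuous_const.mul ((fibRep_spec h).1.norm.pow 2)

theorem cdens_nonneg (Ψ : L2 3) (x : Space) : 0 ≤ cdens Ψ x := by unfold cdens; positivity

theorem cdens_ae_eq {Ψ : L2 3} (h : MemH2 Ψ) : cdens Ψ =ᵐ[volume] density Ψ := by
  filter_upwards [(fibRep_spec h).2.1, ae_memLp_slice (L2.memLp Ψ)] with x h1 h2
  unfold cdens density
  rw [h1, norm_slice_sq h2]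
  rfl

theorem tendsto_cdens {Ψ : L2 3} (h : MemH2 Ψ) : Tendsto (cdens Ψ) (cocompact Space) (𝓝 0) := by
  have := (((fibRep_spec h).2.2.2.norm).pow 2).const_mul 3
  have e : cdens Ψ = fun x => 3 * ‖fibRep Ψ x‖ ^ 2 := rfl
  rw [e]
  simpa using this

/-- any continuous version of the density is `cdens`. -/
theorem eq_cdens {Ψ : L2 3} (h : MemH2 Ψ) {n : Space → ℝ} (hc : Continuous n) (hn : n =ᵐ[volume] density Ψ) :
    n = cdens Ψ :=
  mru_eq_of_ae_eq hc (continuous_cdens h) (hn.trans (cdens_ae_eq h).symm)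

theorem memLp_fibGradNorm {Ψ : L2 3} (_h : MemH1 Ψ) :
    MemLp (fibGradNorm Ψ) 2 volume ∧ ∫ x, fibGradNorm Ψ x ^ 2 = ∑ a, ‖dX a Ψ‖ ^ 2 := by
  have e : ∀ x, fibGradNorm Ψ x ^ 2 = ∑ a, ‖slice (dX a Ψ : Config 3 → SpinSpace 3) x‖ ^ 2 := fun x =>
    Real.sq_sqrt (Finset.sum_nonneg fun _ _ => sq_nonneg _)
  have hi : ∀ a : Fin 3, Integrable (fun x => ‖slice (dX a Ψ : Config 3 → SpinSpace 3) x‖ ^ 2) := fun a =>
    (memLp_two_iff_integrable_sq_norm (memLp_slice_coe _).1).1 (memLp_slice_coe _)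
  have hm : AEStronglyMeasurable (fibGradNorm Ψ) volume := by
    unfold fibGradNorm
    refine Real.continuous_sqrt.comp_aestronglyMeasurable ?_
    exact (integrable_finsetSum _ fun a _ => hi a).1
  constructor
  · rw [memLp_two_iff_integrable_sq hm]
    simp only [e]
    exact integrable_finsetSum _ fun a _ => hi a
  · simp only [e]
    rw [integral_finsetSum _ fun a _ => hi a]
    exact Finset.sum_congr rfl fun a _ => integral_norm_slice_sq _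

theorem mrf_abs_re_inner_le (u v : Fib) : |(⟪u, v⟫_ℂ).re| ≤ ‖u‖ * ‖v‖ :=
  (Complex.abs_re_le_norm _).trans (norm_inner_le_norm u v)

theorem mrf_norm_cdensGrad_le (Ψ : L2 3) (x : Space) : ‖cdensGrad Ψ x‖ ≤ 6 * ‖fibRep Ψ x‖ * fibGradNorm Ψ x := by
  rw [EuclideanSpace.norm_eq]
  have e : 6 * ‖fibRep Ψ x‖ * fibGradNorm Ψ x
      = √((6 * ‖fibRep Ψ x‖) ^ 2 * ∑ a, ‖slice (dX a Ψ : Config 3 → SpinSpace 3) x‖ ^ 2) := by
    rw [Real.sqrt_mul (sq_nonneg _), Real.sqrt_sq (by positivity)]; rfl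
  rw [e]
  refine Real.sqrt_le_sqrt ?_
  rw [Finset.mul_sum]
  refine Finset.sum_le_sum fun a _ => ?_
  have h1 := mrf_abs_re_inner_le (fibRep Ψ x) (slice (dX a Ψ : Config 3 → SpinSpace 3) x)
  simp only [cdensGrad, Real.norm_eq_abs, sq_abs]
  have h2 : (⟪fibRep Ψ x, slice (dX a Ψ : Config 3 → SpinSpace 3) x⟫_ℂ).re ^ 2
      ≤ (‖fibRep Ψ x‖ * ‖slice (dX a Ψ : Config 3 → SpinSpace 3) x‖) ^ 2 := by
    rw [← sq_abs]; exact pow_le_pow_left₀ (abs_nonneg _) h1 2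
  nlinarith [h2]

/-- Cauchy-Schwarz: `|∇n| ≤ 2 √3 √n ‖∇_x F‖`. -/
theorem norm_cdensGrad_le (Ψ : L2 3) (x : Space) :
    ‖cdensGrad Ψ x‖ ≤ 2 * √3 * √(cdens Ψ x) * fibGradNorm Ψ x := by
  refine (mrf_norm_cdensGrad_le Ψ x).trans (le_of_eq ?_)
  unfold cdens
  rw [Real.sqrt_mul (by norm_num), Real.sqrt_sq (norm_nonneg _)]
  have : √3 * √3 = 3 := Real.mul_self_sqrt (by norm_num)
  linear_combination (-2 * ‖fibRep Ψ x‖ * fibGradNorm Ψ x) * this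

theorem isWeakGrad_cdens {Ψ : L2 3} (h : MemH2 Ψ) : IsWeakGrad (cdens Ψ) (cdensGrad Ψ) := by
  refine isWeakGrad_of_coord (g := fun a x => 6 * (⟪fibRep Ψ x, slice (dX a Ψ : Config 3 → SpinSpace 3) x⟫_ℂ).re)
    fun a => ?_
  have hw := fibRep_wd2 h a
  have h1 := (WD.norm_sq ℂ hw.wd (MemLp.l2Loc hw.memf) (MemLp.l2Loc hw.memg)).const_smul 3
  refine h1.congr_ae (Eventually.of_forall fun x => ?_) (Eventually.of_forall fun x => ?_)
  · simp [cdens]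
  · simp only [smul_eq_mul, RCLike.re_to_complex]; ring

theorem mrf_sqrt_sum_sq_le (s : Fin 3 → ℝ) (hs : ∀ a, 0 ≤ s a) : √(∑ a, s a ^ 2) ≤ ∑ a, s a := by
  rw [Real.sqrt_le_iff]
  refine ⟨Finset.sum_nonneg fun a _ => hs a, ?_⟩
  rw [Fin.sum_univ_three, Fin.sum_univ_three]
  nlinarith [mul_nonneg (hs 0) (hs 1), mul_nonneg (hs 0) (hs 2), mul_nonneg (hs 1) (hs 2)]

theorem mrf_norm_le_sum (v : Space) : ‖v‖ ≤ ∑ b, |v b| := by
  rw [EuclideanSpace.norm_eq]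
  simpa using mrf_sqrt_sum_sq_le (fun b => |v b|) fun b => abs_nonneg _

theorem mrf_norm_lapX_le {Φ : L2 3} {B : ℝ} (h : ∀ a b, ‖dX b (dX a Φ)‖ ≤ B) : ‖lapX Φ‖ ≤ 3 * B := by
  unfold lapX
  calc ‖∑ a, dX a (dX a Φ)‖ ≤ ∑ a : Fin 3, ‖dX a (dX a Φ)‖ := norm_sum_le _ _
    _ ≤ ∑ _a : Fin 3, B := Finset.sum_le_sum fun a _ => h a a
    _ = 3 * B := by simp

/-- `∇n ∈ L⁶`, with a bound in terms of the `H²` norm. -/
theorem memLp_six_cdensGrad {Ψ : L2 3} (h : MemH2 Ψ) {B : ℝ} (hB : ∀ a b, ‖dX b (dX a Ψ)‖ ≤ B) :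
    MemLp (cdensGrad Ψ) 6 volume ∧
      eLpNorm (cdensGrad Ψ) 6 volume ≤ ENNReal.ofReal (54 * h2C * sobolevC * (‖Ψ‖ + 3 * B) * B) := by
  have hB0 : 0 ≤ B := (norm_nonneg _).trans (hB 0 0)
  have hh := h2C_nonneg
  have hS := sobolevC_nonneg
  set M : ℝ := h2C * (‖Ψ‖ + 3 * B) with hMdef
  have hM0 : 0 ≤ M := by positivity
  have hM : ∀ x, ‖fibRep Ψ x‖ ≤ M := fun x =>
    ((fibRep_spec h).2.2.1 x).trans (by rw [hMdef]; gcongr; exact mrf_norm_lapX_le hB)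
  have hu6 : ∀ a : Fin 3, MemLp (fun x => ‖slice (dX a Ψ : Config 3 → SpinSpace 3) x‖) 6 volume := fun a =>
    (memLp_six_slice_dX h a).1.norm
  have hu : MemLp (∑ a : Fin 3, fun x => ‖slice (dX a Ψ : Config 3 → SpinSpace 3) x‖) 6 volume :=
    memLp_finsetSum' _ fun a _ => hu6 a
  have hle : ∀ x, ‖cdensGrad Ψ x‖
      ≤ (6 * M) * ‖(∑ a : Fin 3, fun x => ‖slice (dX a Ψ : Config 3 → SpinSpace 3) x‖) x‖ := by
    intro x
    refine (mrf_norm_cdensGrad_le Ψ x).trans ?_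
    rw [Finset.sum_apply, Real.norm_of_nonneg (Finset.sum_nonneg fun _ _ => norm_nonneg _)]
    have h1 : fibGradNorm Ψ x ≤ ∑ a, ‖slice (dX a Ψ : Config 3 → SpinSpace 3) x‖ :=
      mrf_sqrt_sum_sq_le _ fun _ => norm_nonneg _
    have h2 : 0 ≤ fibGradNorm Ψ x := Real.sqrt_nonneg _
    have h3 := hM x
    gcongr
  have hm : AEStronglyMeasurable (cdensGrad Ψ) volume := (isWeakGrad_cdens h).2.1.aestronglyMeasurable
  refine ⟨hu.of_le_mul hm (Eventually.of_forall hle), ?_⟩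
  have hb : ∀ a : Fin 3, eLpNorm (fun x => ‖slice (dX a Ψ : Config 3 → SpinSpace 3) x‖) 6 volume
      ≤ ENNReal.ofReal (sobolevC * (3 * B)) := by
    intro a
    rw [eLpNorm_norm]
    refine (memLp_six_slice_dX h a).2.trans (ENNReal.ofReal_le_ofReal ?_)
    refine mul_le_mul_of_nonneg_left ?_ hS
    rw [Real.sqrt_le_iff]
    refine ⟨by positivity, ?_⟩
    calc ∑ b, ‖dX b (dX a Ψ)‖ ^ 2 ≤ ∑ _b : Fin 3, B ^ 2 :=
          Finset.sum_le_sum fun b _ => pow_le_pow_left₀ (norm_nonneg _) (hB a b) 2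
      _ = 3 * B ^ 2 := by simp
      _ ≤ (3 * B) ^ 2 := by nlinarith [sq_nonneg B]
  calc eLpNorm (cdensGrad Ψ) 6 volume
      ≤ ENNReal.ofReal (6 * M) * eLpNorm (∑ a : Fin 3, fun x => ‖slice (dX a Ψ : Config 3 → SpinSpace 3) x‖) 6 volume :=
        eLpNorm_le_mul_eLpNorm_of_ae_le_mul (Eventually.of_forall hle) 6
    _ ≤ ENNReal.ofReal (6 * M) * ∑ a : Fin 3, eLpNorm (fun x => ‖slice (dX a Ψ : Config 3 → SpinSpace 3) x‖) 6 volume := by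
        gcongr
        exact eLpNorm_sum_le (fun a _ => (hu6 a).1) (by norm_num)
    _ ≤ ENNReal.ofReal (6 * M) * ∑ _a : Fin 3, ENNReal.ofReal (sobolevC * (3 * B)) := by
        gcongr with a _
        exact hb a
    _ = ENNReal.ofReal (54 * h2C * sobolevC * (‖Ψ‖ + 3 * B) * B) := by
        rw [← ENNReal.ofReal_sum_of_nonneg (fun _ _ => by positivity), ← ENNReal.ofReal_mul (by positivity)]
        congr 1
        simp only [Finset.sum_const, Finset.card_univ, Fintype.card_fin, nsmul_eq_mul, hMdef]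
        push_cast
        ring

theorem isWeakGrad_cdensGrad {Ψ : L2 3} (h : MemH2 Ψ) (a : Fin 3) :
    IsWeakGrad (fun x => cdensGrad Ψ x a) (cdensHess Ψ a) := by
  refine isWeakGrad_of_coord (f := fun x => cdensGrad Ψ x a) (g := fun b x =>
    6 * ((⟪slice (dX b Ψ : Config 3 → SpinSpace 3) x, slice (dX a Ψ : Config 3 → SpinSpace 3) x⟫_ℂ).re
      + (⟪fibRep Ψ x, slice (dX b (dX a Ψ) : Config 3 → SpinSpace 3) x⟫_ℂ).re)) fun b => ?_
  have hF := fibRep_wd2 h b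
  have hS := slice_wd2_dX (h.memH1_dX a) b
  have h1 := ((WD.inner (𝕜 := ℂ) hF.wd hS.wd (MemLp.l2Loc hF.memf) (MemLp.l2Loc hF.memg) (MemLp.l2Loc hS.memf)
    (MemLp.l2Loc hS.memg)).clm Complex.reCLM).const_smul 6
  refine h1.congr_ae (Eventually.of_forall fun x => ?_) (Eventually.of_forall fun x => ?_)
  · simp [cdensGrad]
  · simp

theorem l2Loc_cdensHess {Ψ : L2 3} (h : MemH2 Ψ) (a : Fin 3) : L2Loc volume (cdensHess Ψ a) := by
  have : ENNReal.HolderTriple 6 6 3 := ⟨by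
    rw [← two_mul, show (6 : ℝ≥0∞) = 2 * 3 by norm_num, ENNReal.mul_inv (by simp) (by simp), ← mul_assoc,
      ENNReal.mul_inv_cancel (by simp) (by simp), one_mul]⟩
  set M : ℝ := h2C * (‖Ψ‖ + ‖lapX Ψ‖) with hMdef
  have hM : ∀ x, ‖fibRep Ψ x‖ ≤ M := (fibRep_spec h).2.2.1
  have hu6 : ∀ a : Fin 3, MemLp (fun x => ‖slice (dX a Ψ : Config 3 → SpinSpace 3) x‖) 6 volume := fun a =>
    (memLp_six_slice_dX h a).1.norm
  have hw : ∀ b : Fin 3, L2Loc volume (fun x => ‖slice (dX b Ψ : Config 3 → SpinSpace 3) x‖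
      * ‖slice (dX a Ψ : Config 3 → SpinSpace 3) x‖ + M * ‖slice (dX b (dX a Ψ) : Config 3 → SpinSpace 3) x‖) := by
    intro b
    refine mrc_l2Loc_add (mrc_l2Loc_of_three ((hu6 a).smul (hu6 b))) ?_
    exact MemLp.l2Loc ((memLp_slice_coe _).norm.const_mul M)
  intro C hC
  have hs : MemLp (fun x => ∑ b : Fin 3, (‖slice (dX b Ψ : Config 3 → SpinSpace 3) x‖
      * ‖slice (dX a Ψ : Config 3 → SpinSpace 3) x‖ + M * ‖slice (dX b (dX a Ψ) : Config 3 → SpinSpace 3) x‖)) 2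
      (volume.restrict C) := memLp_finsetSum _ fun b _ => hw b C hC
  refine hs.of_le_mul (c := 6) (isWeakGrad_cdensGrad h a).2.1.aestronglyMeasurable.restrict
    (Eventually.of_forall fun x => ?_)
  refine (mrf_norm_le_sum _).trans ?_
  rw [Real.norm_of_nonneg (Finset.sum_nonneg fun b _ => by
    have := (norm_nonneg _).trans (hM x); positivity), Finset.mul_sum]
  refine Finset.sum_le_sum fun b _ => ?_
  simp only [cdensHess]
  rw [abs_mul, abs_of_nonneg (by norm_num : (0 : ℝ) ≤ 6)]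
  refine mul_le_mul_of_nonneg_left ((abs_add_le _ _).trans (add_le_add (mrf_abs_re_inner_le _ _) ?_)) (by norm_num)
  exact (mrf_abs_re_inner_le _ _).trans (mul_le_mul_of_nonneg_right (hM x) (norm_nonneg _))

/-- `Δn ∈ L¹`. -/
theorem integrable_trace_cdensHess {Ψ : L2 3} (h : MemH2 Ψ) :
    Integrable (fun x => ∑ a, cdensHess Ψ a x a) := by
  refine integrable_finsetSum _ fun a _ => ?_
  have i1 : Integrable (fun x => ⟪slice (dX a Ψ : Config 3 → SpinSpace 3) x,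
      slice (dX a Ψ : Config 3 → SpinSpace 3) x⟫_ℂ) := fs_integrable_inner (memLp_slice_coe _) (memLp_slice_coe _)
  have i2 : Integrable (fun x => ⟪fibRep Ψ x, slice (dX a (dX a Ψ) : Config 3 → SpinSpace 3) x⟫_ℂ) :=
    fs_integrable_inner (fibRep_wd2 h a).memf (memLp_slice_coe _)
  exact (i1.re.add i2.re).const_mul 6

theorem mrf_abs_cdens_sub_le {Ψ Φ : L2 3} (h : MemH2 Ψ) (h' : MemH2 Φ) (x : Space) :
    |cdens Ψ x - cdens Φ x| ≤ 3 * (‖fibRep (Ψ - Φ) x‖ * (‖fibRep Ψ x‖ + ‖fibRep Φ x‖)) := by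
  unfold cdens
  rw [fibRep_sub h h']
  have e : 3 * ‖fibRep Ψ x‖ ^ 2 - 3 * ‖fibRep Φ x‖ ^ 2
      = 3 * ((‖fibRep Ψ x‖ - ‖fibRep Φ x‖) * (‖fibRep Ψ x‖ + ‖fibRep Φ x‖)) := by ring
  rw [e, abs_mul, abs_mul, abs_of_nonneg (by norm_num : (0 : ℝ) ≤ 3),
    abs_of_nonneg (by positivity : 0 ≤ ‖fibRep Ψ x‖ + ‖fibRep Φ x‖)]
  gcongr
  exact abs_norm_sub_norm_le _ _

theorem mrf_sqrt_integral_fibRep {Ψ : L2 3} (h : MemH2 Ψ) : √(∫ x, ‖fibRep Ψ x‖ ^ 2) = ‖Ψ‖ := by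
  rw [← mrf_sqrt_integral_slice]
  congr 1
  refine integral_congr_ae ?_
  filter_upwards [(fibRep_spec h).2.1] with x hx
  rw [hx]

theorem mrf_memLp_fibRep {Ψ : L2 3} (h : MemH2 Ψ) : MemLp (fibRep Ψ) 2 volume := (fibRep_wd2 h 0).memf

/-- sup-norm continuity of `Ψ ↦ n_Ψ` on `H²`. -/
theorem abs_cdens_sub_le {Ψ Φ : L2 3} (h : MemH2 Ψ) (h' : MemH2 Φ) (x : Space) :
    |cdens Ψ x - cdens Φ x| ≤ 3 * h2C ^ 2 * (‖Ψ‖ + ‖lapX Ψ‖ + ‖Φ‖ + ‖lapX Φ‖) * (‖Ψ - Φ‖ + ‖lapX (Ψ - Φ)‖) := by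
  have h1 := (fibRep_spec h).2.2.1 x
  have h2 := (fibRep_spec h').2.2.1 x
  have h3 := (fibRep_spec (h.sub h')).2.2.1 x
  have hh := h2C_nonneg
  refine (mrf_abs_cdens_sub_le h h' x).trans ?_
  calc 3 * (‖fibRep (Ψ - Φ) x‖ * (‖fibRep Ψ x‖ + ‖fibRep Φ x‖))
      ≤ 3 * ((h2C * (‖Ψ - Φ‖ + ‖lapX (Ψ - Φ)‖)) * (h2C * (‖Ψ‖ + ‖lapX Ψ‖) + h2C * (‖Φ‖ + ‖lapX Φ‖))) := by gcongr
    _ = _ := by ring

/-- `L¹` continuity. -/
theorem integral_abs_cdens_sub_le {Ψ Φ : L2 3} (h : MemH2 Ψ) (h' : MemH2 Φ) :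
    ∫ x, |cdens Ψ x - cdens Φ x| ≤ 3 * (‖Ψ‖ + ‖Φ‖) * ‖Ψ - Φ‖ := by
  have hd := h.sub h'
  obtain ⟨i1, b1⟩ := fs_cs (mrf_memLp_fibRep hd) (mrf_memLp_fibRep h)
  obtain ⟨i2, b2⟩ := fs_cs (mrf_memLp_fibRep hd) (mrf_memLp_fibRep h')
  rw [mrf_sqrt_integral_fibRep hd, mrf_sqrt_integral_fibRep h] at b1
  rw [mrf_sqrt_integral_fibRep hd, mrf_sqrt_integral_fibRep h'] at b2
  calc ∫ x, |cdens Ψ x - cdens Φ x|
      ≤ ∫ x, 3 * (‖fibRep (Ψ - Φ) x‖ * ‖fibRep Ψ x‖ + ‖fibRep (Ψ - Φ) x‖ * ‖fibRep Φ x‖) := by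
        refine integral_mono_of_nonneg (Eventually.of_forall fun x => abs_nonneg _) ((i1.add i2).const_mul 3)
          (Eventually.of_forall fun x => ?_)
        refine (mrf_abs_cdens_sub_le h h' x).trans (le_of_eq ?_)
        ring
    _ = 3 * ((∫ x, ‖fibRep (Ψ - Φ) x‖ * ‖fibRep Ψ x‖) + ∫ x, ‖fibRep (Ψ - Φ) x‖ * ‖fibRep Φ x‖) := by
        rw [integral_const_mul, integral_add i1 i2]
    _ ≤ 3 * (‖Ψ - Φ‖ * ‖Ψ‖ + ‖Ψ - Φ‖ * ‖Φ‖) := by gcongr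
    _ = _ := by ring

/-- invariance of the density under a simultaneous isometry which preserves the pointwise norm. -/
theorem cdens_comp_isometry {Ψ : L2 3} (h : MemH2 Ψ) (A : Space ≃ₗᵢ[ℝ] Space)
    (hA : ∀ᵐ X : Config 3, ‖Ψ (fun i => A (X i))‖ = ‖Ψ X‖) (x : Space) : cdens Ψ (A x) = cdens Ψ x := by
  have hc := continuous_cdens h
  have e : (fun x => cdens Ψ (A x)) = cdens Ψ := by
    refine mru_eq_of_ae_eq (hc.comp A.continuous) hc ?_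
    have h1 : ∀ᵐ x, cdens Ψ (A x) = density Ψ (A x) :=
      A.measurePreserving.quasiMeasurePreserving.ae (cdens_ae_eq h)
    filter_upwards [h1, cdens_ae_eq h, mru_ae_ae_cons hA] with x h1 h2 h3
    rw [h1, h2]
    unfold density
    congr 1
    have mp : MeasurePreserving (fun (y : Config 2) i => A (y i)) volume volume :=
      volume_preserving_pi fun _ => A.measurePreserving
    have me : MeasurableEmbedding (fun (y : Config 2) i => A (y i)) :=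
      (Homeomorph.piCongrRight fun _ : Fin 2 => A.toHomeomorph).measurableEmbedding
    rw [← mp.integral_comp me]
    refine integral_congr_ae ?_
    filter_upwards [h3] with y hy
    have e2 : (Fin.cons (A x) (fun i => A (y i)) : Config 3) = fun i => A ((Fin.cons x y : Config 3) i) := by
      funext i; refine Fin.cases rfl (fun j => rfl) i
    rw [e2, hy]
  exact congrFun e x

end DENS

end Claimed.Open.R278
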