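import Claimed.Open.R278.DensityLemmas
import Claimed.Open.R278.ChargeLemmas

/-!
# Result 278, layer L2b (BP-MB2, prefix MR), file 1: DILATION TO INTEGER NUCLEAR CHARGES (Prop 2.1)

Architect: helper217.  No paper needed.  TOP THEOREM: `mr_scaling_transfer` (verbatim `scaling_transfer` of `Top.lean`).  THIS FILE IS SORRY-FREE (axioms checked).
Keep names and statements; helper lemmas: prefix `mrs_`.

`D_c : L2 m ≃ₗᵢ L2 m`, `(D_c Ψ)(r) = c^{3m/2} Ψ(c r)` (`c > 0`).  Physical state `= D_Z (scaled state)`, `x = Z r`.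
For a potential `W` on `Config m` put `dilPot c W r = c² W(c r)`.  Everything follows from ONE change of variables
  `∫ f(c r) dr = c^{-3m} ∫ f(x) dx`   (`mrs_integral_comp_smul`; Mathlib `Measure.integral_comp_smul`, `finrank ℝ (Config m) = 3 m`)
and from `∀ᵐ x, p x → ∀ᵐ r, p (c • r)` (`mrs_ae_comp_smul`; Mathlib `Measure.addHaar_preimage_smul`).

## Leaf MR-D1 (section DIL): the operator.  `memLp_dilFun`: measurability by `AEStronglyMeasurable.comp_quasiMeasurePreserving` (or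
 `comp_aemeasurable` + `mrs_ae_comp_smul`), norm by `mrs_integral_comp_smul` applied to `‖Ψ‖²` (`memLp_two_iff_integrable_sq_norm`).  All identities between elements
 of `L2 m` by `Lp.ext` + `coeFn_dil` + `Lp.coeFn_add`, `Lp.coeFn_smul` transported by `mrs_ae_comp_smul`.
## Leaf MR-D2 (section SYM): antisymmetry, spin sector: pointwise a.e. (`(c • r) ∘ π = c • (r ∘ π)`).
## Leaf MR-D3 (section GRAD): for `φ ∈ C^∞_c` put `φ'(x) = φ(c⁻¹ x)`; `fderiv φ' x (dir j) = c⁻¹ fderiv φ (c⁻¹ x) (dir j)`; change of variables in both integrals of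
 `IsWeakGradient`.  Result `∂_j (D_c Ψ) = c • D_c (∂_j Ψ)`.
## Leaf MR-D4 (section FORM): `dil_intertwines`.  `⟪D_c Ξ, D_c Φ⟫ = ⟪Ξ, Φ⟫` (isometry), potential term by the change of variables.  Domain `↔`: the direction `←` from `→` applied to
 `c⁻¹` (`dil_symm`, `dilPot_dilPot`).
## Leaf MR-D5 (section ABS): abstract transfer along an intertwiner: pure algebra with `IsGLB`, images, `U.symm`.
## Leaf MR-D6 (section POT): pointwise identities of potentials (`norm_smul`, `smul_sub`, `div_div`, junk value `1/0 = 0` is consistent), `MemLp` under dilations.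
## Leaf MR-D7 (section ENS): traces, ensembles, densities.  `HilbertBasis` transported by `U`: `HilbertBasis.ofRepr (U.symm.trans b.repr)`.
-/

open MeasureTheory
open scoped ContDiff InnerProductSpace ComplexConjugate ENNReal Topology

noncomputable section

namespace Claimed.Open.R278

variable {m : ℕ}

/-! ## DIL -/

section DIL

/-- the normalising factor `c^{3m/2}`. -/
def dilFac (m : ℕ) (c : ℝ) : ℝ := √(c ^ (3 * m))

/-- `(D_c f)(r) = c^{3m/2} f(c r)`. -/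
def dilFun (c : ℝ) (f : Config m → SpinSpace m) (r : Config m) : SpinSpace m := dilFac m c • f (c • r)

theorem dilFac_pos {c : ℝ} (hc : 0 < c) : 0 < dilFac m c := Real.sqrt_pos.2 (pow_pos hc _)

theorem dilFac_sq {c : ℝ} (hc : 0 < c) : dilFac m c ^ 2 = c ^ (3 * m) := Real.sq_sqrt (pow_pos hc _).le

theorem mrs_dilFac_mul {c c' : ℝ} (hc' : 0 < c') (h : c' * c = 1) : dilFac m c' * dilFac m c = 1 := by
  unfold dilFac
  rw [← Real.sqrt_mul (by positivity), ← mul_pow, h, one_pow, Real.sqrt_one]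

theorem dilFac_inv {c : ℝ} (hc : 0 < c) : dilFac m c⁻¹ * dilFac m c = 1 :=
  mrs_dilFac_mul (inv_pos.2 hc) (inv_mul_cancel₀ hc.ne')

theorem mrs_finrank_config : Module.finrank ℝ (Config m) = 3 * m := by
  rw [Module.finrank_pi_fintype]
  simp [mul_comm]

/-- the change of variables. -/
theorem mrs_integral_comp_smul {E : Type*} [NormedAddCommGroup E] [NormedSpace ℝ E] (f : Config m → E) {c : ℝ}
    (hc : 0 < c) : ∫ r, f (c • r) = (c ^ (3 * m))⁻¹ • ∫ x, f x := by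
  rw [Measure.integral_comp_smul, mrs_finrank_config, abs_of_pos (by positivity)]

theorem mrs_integrable_comp_smul {E : Type*} [NormedAddCommGroup E] {f : Config m → E} {c : ℝ}
    (hc : 0 < c) : Integrable (fun r => f (c • r)) ↔ Integrable f :=
  integrable_comp_smul_iff volume f hc.ne'

theorem mrs_qmp {X : Type*} [NormedAddCommGroup X] [NormedSpace ℝ X] [MeasurableSpace X] [BorelSpace X]
    [FiniteDimensional ℝ X] (μ : Measure X) [μ.IsAddHaarMeasure] {c : ℝ} (hc : 0 < c) :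
    Measure.QuasiMeasurePreserving (fun r : X => c • r) μ μ :=
  ⟨measurable_const_smul c, by
    rw [Measure.map_addHaar_smul μ hc.ne']; exact Measure.smul_absolutelyContinuous⟩

theorem mrs_ae_comp_smul {p : Config m → Prop} {c : ℝ} (hc : 0 < c) (h : ∀ᵐ x, p x) : ∀ᵐ r : Config m, p (c • r) :=
  (mrs_qmp volume hc).ae h

/-- the same on `ℝ³`. -/
theorem mrs_integral_comp_smul_space {E : Type*} [NormedAddCommGroup E] [NormedSpace ℝ E] (f : Space → E) {c : ℝ}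
    (hc : 0 < c) : ∫ r, f (c • r) = (c ^ 3)⁻¹ • ∫ x, f x := by
  rw [Measure.integral_comp_smul, finrank_euclideanSpace_fin, abs_of_pos (by positivity)]

theorem mrs_ae_comp_smul_space {p : Space → Prop} {c : ℝ} (hc : 0 < c) (h : ∀ᵐ x, p x) : ∀ᵐ r : Space, p (c • r) :=
  (mrs_qmp volume hc).ae h

theorem mrs_memLp_comp_smul {X E : Type*} [NormedAddCommGroup X] [NormedSpace ℝ X] [MeasurableSpace X] [BorelSpace X]
    [FiniteDimensional ℝ X] (μ : Measure X) [μ.IsAddHaarMeasure] [NormedAddCommGroup E] {c : ℝ} (hc : 0 < c)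
    {f : X → E} {p : ℝ≥0∞} (hf : MemLp f p μ) : MemLp (fun r => f (c • r)) p μ := by
  refine MemLp.comp_of_map ?_ (measurable_const_smul c).aemeasurable
  rw [Measure.map_addHaar_smul μ hc.ne']
  exact hf.smul_measure ENNReal.ofReal_ne_top

theorem memLp_dilFun {c : ℝ} (hc : 0 < c) (Ψ : L2 m) : MemLp (dilFun c (Ψ : Config m → SpinSpace m)) 2 volume :=
  (mrs_memLp_comp_smul volume hc (Lp.memLp Ψ)).const_smul (dilFac m c)

/-- the dilation as a linear map. -/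
def dilLin (c : ℝ) (hc : 0 < c) : L2 m →ₗ[ℂ] L2 m where
  toFun Ψ := (memLp_dilFun hc Ψ).toLp _
  map_add' := by
    intro Ψ Φ
    rw [← MemLp.toLp_add]
    refine (MemLp.toLp_eq_toLp_iff _ _).2 ?_
    filter_upwards [mrs_ae_comp_smul hc (Lp.coeFn_add Ψ Φ)] with r hr
    simp only [dilFun, Pi.add_apply] at hr ⊢
    rw [hr, smul_add]
  map_smul' := by
    intro a Ψ
    rw [RingHom.id_apply, ← MemLp.toLp_const_smul]
    refine (MemLp.toLp_eq_toLp_iff _ _).2 ?_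
    filter_upwards [mrs_ae_comp_smul hc (Lp.coeFn_smul a Ψ)] with r hr
    simp only [dilFun, Pi.smul_apply] at hr ⊢
    rw [hr, smul_comm]

theorem coeFn_dilLin {c : ℝ} (hc : 0 < c) (Ψ : L2 m) :
    (dilLin c hc Ψ : Config m → SpinSpace m) =ᵐ[volume] fun r => dilFac m c • Ψ (c • r) :=
  MemLp.coeFn_toLp (memLp_dilFun hc Ψ)

theorem dilLin_dilLin {c c' : ℝ} (hc : 0 < c) (hc' : 0 < c') (h : c' * c = 1) (Ψ : L2 m) :
    dilLin c' hc' (dilLin c hc Ψ) = Ψ := by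
  refine Lp.ext ?_
  filter_upwards [coeFn_dilLin hc' (dilLin c hc Ψ), mrs_ae_comp_smul hc' (coeFn_dilLin hc Ψ)] with r h1 h2
  rw [h1, h2, smul_smul, smul_smul, mrs_dilFac_mul hc' h, mul_comm c c', h, one_smul, one_smul]

theorem mrs_norm_sq_eq (Ψ : L2 m) : ‖Ψ‖ ^ 2 = ∫ x, ‖Ψ x‖ ^ 2 := by
  have h : ⟪Ψ, Ψ⟫_ℂ = ∫ x, ⟪Ψ x, Ψ x⟫_ℂ := L2.inner_def Ψ Ψ
  have h2 : (⟪Ψ, Ψ⟫_ℂ).re = ‖Ψ‖ ^ 2 := by
    rw [inner_self_eq_norm_sq_to_K]; norm_cast
  rw [← h2, h]
  have : (fun x => ⟪Ψ x, Ψ x⟫_ℂ) = fun x => ((‖Ψ x‖ ^ 2 : ℝ) : ℂ) := by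
    funext x; rw [inner_self_eq_norm_sq_to_K]; norm_cast
  rw [this, integral_complex_ofReal]; simp

theorem norm_dilLin {c : ℝ} (hc : 0 < c) (Ψ : L2 m) : ‖dilLin c hc Ψ‖ = ‖Ψ‖ := by
  have h : ‖dilLin c hc Ψ‖ ^ 2 = ‖Ψ‖ ^ 2 := by
    rw [mrs_norm_sq_eq, mrs_norm_sq_eq]
    have e : ∫ x, ‖dilLin c hc Ψ x‖ ^ 2 = ∫ r : Config m, c ^ (3 * m) * ‖Ψ (c • r)‖ ^ 2 := by
      refine integral_congr_ae ?_
      filter_upwards [coeFn_dilLin hc Ψ] with r hr
      rw [hr, norm_smul, mul_pow, Real.norm_eq_abs, sq_abs, dilFac_sq hc]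
    rw [e, integral_const_mul, mrs_integral_comp_smul (fun x => ‖Ψ x‖ ^ 2) hc, smul_eq_mul, ← mul_assoc,
      mul_inv_cancel₀ (by positivity), one_mul]
  exact (pow_left_inj₀ (norm_nonneg _) (norm_nonneg _) (by norm_num)).1 h

/-- **the unitary dilation** `D_c`. -/
def dil (c : ℝ) (hc : 0 < c) : L2 m ≃ₗᵢ[ℂ] L2 m where
  toFun := dilLin c hc
  invFun := dilLin c⁻¹ (inv_pos.2 hc)
  map_add' := (dilLin c hc).map_add
  map_smul' := (dilLin c hc).map_smul
  left_inv := fun Ψ => dilLin_dilLin hc (inv_pos.2 hc) (inv_mul_cancel₀ hc.ne') Ψ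
  right_inv := fun Ψ => dilLin_dilLin (inv_pos.2 hc) hc (mul_inv_cancel₀ hc.ne') Ψ
  norm_map' := norm_dilLin hc

theorem coeFn_dil {c : ℝ} (hc : 0 < c) (Ψ : L2 m) :
    (dil c hc Ψ : Config m → SpinSpace m) =ᵐ[volume] fun r => dilFac m c • Ψ (c • r) :=
  coeFn_dilLin hc Ψ

theorem dil_symm_apply {c : ℝ} (hc : 0 < c) (Ψ : L2 m) : (dil c hc).symm Ψ = dil c⁻¹ (inv_pos.2 hc) Ψ := rfl

end DIL

/-! ## SYM -/

section SYM

theorem IsAntisymmetric.dil {c : ℝ} (hc : 0 < c) {Ψ : L2 m} (h : IsAntisymmetric Ψ) :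
    IsAntisymmetric (dil c hc Ψ) := by
  intro π
  have h0 := coeFn_dil hc Ψ
  have h1 := (measurePreserving_comp_perm π).quasiMeasurePreserving.ae h0
  filter_upwards [h0, h1, mrs_ae_comp_smul hc (h π)] with x hx hx1 h2 s
  have e : c • (x ∘ π) = (c • x) ∘ π := rfl
  rw [hx, hx1, e]
  simp only [PiLp.smul_apply, h2 s]
  simp only [Complex.real_smul]
  ring

theorem InSpinSector.dil {c : ℝ} (hc : 0 < c) {μ : ℚ} {Ψ : L2 m} (h : InSpinSector μ Ψ) :
    InSpinSector μ (dil c hc Ψ) := by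
  filter_upwards [coeFn_dil hc Ψ, mrs_ae_comp_smul hc h] with x hx h2 s hs
  rw [hx]
  simp only [PiLp.smul_apply, h2 s hs, smul_zero]

end SYM

/-! ## GRAD -/

section GRAD

theorem IsWeakGradient.dil {c : ℝ} (hc : 0 < c) {Ψ : L2 m} {G : Fin m × Fin 3 → L2 m} (h : IsWeakGradient Ψ G) :
    IsWeakGradient (dil c hc Ψ) (fun j => (c : ℂ) • dil c hc (G j)) := by
  intro j φ hφ hφc
  set φ' : Config m → ℝ := fun x => φ (c⁻¹ • x) with hφ'
  have hφ'1 : ContDiff ℝ ∞ φ' := hφ.comp (contDiff_const_smul c⁻¹)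
  have hφ'c : HasCompactSupport φ' := hφc.comp_smul (inv_ne_zero hc.ne')
  have hd : ∀ x, fderiv ℝ φ' x (dir j) = c⁻¹ * fderiv ℝ φ (c⁻¹ • x) (dir j) := by
    intro x
    have h1 : HasFDerivAt (fun x : Config m => c⁻¹ • x) (c⁻¹ • ContinuousLinearMap.id ℝ (Config m)) x :=
      (hasFDerivAt_id x).const_smul c⁻¹
    have h2 := ((hφ.differentiable (by simp)) (c⁻¹ • x)).hasFDerivAt.comp x h1
    have h3 : fderiv ℝ φ' x = _ := h2.fderiv
    rw [h3]
    simp
  have key := h j φ' hφ'1 hφ'c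
  have e1 : ∫ x, (fderiv ℝ φ x (dir j)) • R278.dil c hc Ψ x
      = ∫ r : Config m, (fun x => (c * dilFac m c) • ((fderiv ℝ φ' x (dir j)) • Ψ x)) (c • r) := by
    refine integral_congr_ae ?_
    filter_upwards [coeFn_dil hc Ψ] with r hr
    beta_reduce
    rw [hr, hd, smul_smul, smul_smul, smul_smul, inv_mul_cancel₀ hc.ne', one_smul]
    congr 1
    field_simp
  have e2 : ∫ x, φ x • ((c : ℂ) • R278.dil c hc (G j) : L2 m) x
      = ∫ r : Config m, (fun x => (c * dilFac m c) • (φ' x • G j x)) (c • r) := by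
    refine integral_congr_ae ?_
    filter_upwards [coeFn_dil hc (G j), Lp.coeFn_smul (c : ℂ) (R278.dil c hc (G j))] with r hr hr2
    simp only [hφ']
    rw [hr2, Pi.smul_apply, hr, Complex.coe_smul, smul_smul, smul_smul, smul_smul, smul_smul,
      inv_mul_cancel₀ hc.ne', one_smul]
    congr 1
    ring
  rw [e1, e2, mrs_integral_comp_smul (fun x => (c * dilFac m c) • ((fderiv ℝ φ' x (dir j)) • Ψ x)) hc,
    mrs_integral_comp_smul (fun x => (c * dilFac m c) • (φ' x • G j x)) hc, integral_smul, integral_smul, key]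
  simp only [smul_neg]

theorem MemH1.dil {c : ℝ} (hc : 0 < c) {Ψ : L2 m} (h : MemH1 Ψ) : MemH1 (dil c hc Ψ) :=
  ⟨_, h.isWeakGradient.dil hc⟩

theorem weakGrad_dil {c : ℝ} (hc : 0 < c) {Ψ : L2 m} (h : MemH1 Ψ) :
    weakGrad (dil c hc Ψ) = fun j => (c : ℂ) • dil c hc (weakGrad Ψ j) :=
  (h.isWeakGradient.dil hc).weakGrad_eq

end GRAD

/-! ## ABS -/

section ABS

/-- `U` intertwines the forms of `H(W)` and `H(W')` up to the factor `κ`: `U H(W) U⁻¹ = κ⁻¹ H(W')`. -/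
structure Intertwines (U : L2 m ≃ₗᵢ[ℂ] L2 m) (W W' : Config m → ℝ) (κ : ℝ) : Prop where
  pos : 0 < κ
  dom : ∀ Φ, Φ ∈ FormDomain W ↔ U Φ ∈ FormDomain W'
  form : ∀ Ξ Φ, Ξ ∈ FormDomain W → Φ ∈ FormDomain W → sesqForm W' (U Ξ) (U Φ) = (κ : ℂ) * sesqForm W Ξ Φ

variable {U : L2 m ≃ₗᵢ[ℂ] L2 m} {W W' : Config m → ℝ} {κ : ℝ}

theorem Intertwines.symm (h : Intertwines U W W' κ) : Intertwines U.symm W' W κ⁻¹ where
  pos := inv_pos.2 h.pos
  dom := fun Φ => by rw [h.dom (U.symm Φ), U.apply_symm_apply]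
  form := fun Ξ Φ hΞ hΦ => by
    have hΞ' : U.symm Ξ ∈ FormDomain W := (h.dom _).2 (by rwa [U.apply_symm_apply])
    have hΦ' : U.symm Φ ∈ FormDomain W := (h.dom _).2 (by rwa [U.apply_symm_apply])
    have := h.form _ _ hΞ' hΦ'
    rw [U.apply_symm_apply, U.apply_symm_apply] at this
    have hκ : (κ : ℂ) ≠ 0 := by exact_mod_cast h.pos.ne'
    rw [this]; push_cast; rw [← mul_assoc, inv_mul_cancel₀ hκ, one_mul]

theorem Intertwines.energy (h : Intertwines U W W' κ) {Φ : L2 m} (hΦ : Φ ∈ FormDomain W) :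
    energy W' (U Φ) = κ * energy W Φ := by
  unfold R278.energy
  rw [h.form _ _ hΦ hΦ, Complex.re_ofReal_mul]

theorem Intertwines.isSpectrumBottom (h : Intertwines U W W' κ) {E : ℝ} (hE : IsSpectrumBottom W E) :
    IsSpectrumBottom W' (κ * E) := by
  have hκ := h.pos
  constructor
  · rintro _ ⟨Φ', ⟨hd, hn⟩, rfl⟩
    have hd' : U.symm Φ' ∈ FormDomain W := (h.dom _).2 (by rwa [U.apply_symm_apply])
    have h1 : E ≤ R278.energy W (U.symm Φ') := hE.1 ⟨_, ⟨hd', by rw [U.symm.norm_map, hn]⟩, rfl⟩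
    have h2 := h.energy hd'
    rw [U.apply_symm_apply] at h2
    rw [h2]
    exact mul_le_mul_of_nonneg_left h1 hκ.le
  · intro l hl
    have h1 : l / κ ≤ E := by
      refine hE.2 ?_
      rintro _ ⟨Φ, ⟨hd, hn⟩, rfl⟩
      have h2 : l ≤ R278.energy W' (U Φ) := hl ⟨_, ⟨(h.dom _).1 hd, by rw [U.norm_map, hn]⟩, rfl⟩
      rw [h.energy hd] at h2
      rw [div_le_iff₀ hκ]; linarith
    rw [div_le_iff₀ hκ] at h1; linarith

theorem Intertwines.mem_eigenspace (h : Intertwines U W W' κ) {E : ℝ} {Φ : L2 m} (hΦ : Φ ∈ Eigenspace W E) :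
    U Φ ∈ Eigenspace W' (κ * E) := by
  refine ⟨(h.dom _).1 hΦ.1, fun Ξ' hΞ' => ?_⟩
  have hd' : U.symm Ξ' ∈ FormDomain W := (h.dom _).2 (by rwa [U.apply_symm_apply])
  have h1 := h.form _ _ hd' hΦ.1
  rw [U.apply_symm_apply, hΦ.2 _ hd'] at h1
  have h2 : ⟪U.symm Ξ', Φ⟫_ℂ = ⟪Ξ', U Φ⟫_ℂ := by
    rw [← U.inner_map_map, U.apply_symm_apply]
  rw [h1, h2]; push_cast; ring

theorem Intertwines.isGroundState (h : Intertwines U W W' κ) {Ψ : L2 m} (hΨ : IsGroundState W Ψ) :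
    IsGroundState W' (U Ψ) := by
  obtain ⟨h1, E, hE, hm⟩ := hΨ
  exact ⟨by rw [U.norm_map, h1], κ * E, h.isSpectrumBottom hE, h.mem_eigenspace hm⟩

end ABS

/-! ## FORM -/

section FORM

/-- the transformed potential `c² W(c r)`. -/
def dilPot {X : Type*} [SMul ℝ X] (c : ℝ) (W : X → ℝ) (r : X) : ℝ := c ^ 2 * W (c • r)

theorem dilPot_dilPot {X : Type*} [MulAction ℝ X] {c : ℝ} (hc : 0 < c) (W : X → ℝ) : dilPot c⁻¹ (dilPot c W) = W := by
  funext r
  unfold dilPot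
  rw [smul_smul, mul_inv_cancel₀ hc.ne', one_smul]
  field_simp

theorem mrs_formDomain_dil {c : ℝ} (hc : 0 < c) {W : Config m → ℝ} {Φ : L2 m} (h : Φ ∈ FormDomain W) :
    dil c hc Φ ∈ FormDomain (dilPot c W) := by
  refine ⟨h.1.dil hc, h.2.1.dil hc, ?_⟩
  have h1 : Integrable (fun r : Config m => (c ^ 2 * c ^ (3 * m)) * (fun x => W x * ‖Φ x‖ ^ 2) (c • r)) :=
    ((mrs_integrable_comp_smul hc).2 h.2.2).const_mul _
  refine h1.congr ?_
  filter_upwards [coeFn_dil hc Φ] with r hr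
  rw [hr, norm_smul, mul_pow, Real.norm_eq_abs, sq_abs, dilFac_sq hc]
  unfold dilPot
  ring

/-- **the dilation intertwines `H(W)` and `H(c² W(c ·))` with the factor `c²`.** -/
theorem dil_intertwines {c : ℝ} (hc : 0 < c) (W : Config m → ℝ) :
    Intertwines (dil c hc) W (dilPot c W) (c ^ 2) where
  pos := by positivity
  dom := fun Φ => by
    refine ⟨mrs_formDomain_dil hc, fun h => ?_⟩
    have h1 := mrs_formDomain_dil (inv_pos.2 hc) h
    rw [dilPot_dilPot hc, ← dil_symm_apply hc, LinearIsometryEquiv.symm_apply_apply] at h1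
    exact h1
  form := fun Ξ Φ hΞ hΦ => by
    unfold sesqForm
    rw [weakGrad_dil hc hΞ.2.1, weakGrad_dil hc hΦ.2.1]
    have e1 : ∀ j, ⟪(c : ℂ) • dil c hc (weakGrad Ξ j), (c : ℂ) • dil c hc (weakGrad Φ j)⟫_ℂ
        = ((c ^ 2 : ℝ) : ℂ) * ⟪weakGrad Ξ j, weakGrad Φ j⟫_ℂ := by
      intro j
      rw [inner_smul_left, inner_smul_right, LinearIsometryEquiv.inner_map_map, Complex.conj_ofReal]
      push_cast; ring
    have e2 : ∫ r, (dilPot c W r : ℂ) * ⟪dil c hc Ξ r, dil c hc Φ r⟫_ℂ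
        = ∫ r : Config m, (fun x => ((c ^ 2 * c ^ (3 * m) : ℝ) : ℂ) * ((W x : ℂ) * ⟪Ξ x, Φ x⟫_ℂ)) (c • r) := by
      refine integral_congr_ae ?_
      filter_upwards [coeFn_dil hc Ξ, coeFn_dil hc Φ] with r h1 h2
      beta_reduce
      rw [h1, h2, ← Complex.coe_smul, ← Complex.coe_smul, inner_smul_left, inner_smul_right, Complex.conj_ofReal]
      unfold dilPot
      have : ((dilFac m c : ℝ) : ℂ) * (dilFac m c : ℂ) = ((c ^ (3 * m) : ℝ) : ℂ) := by
        rw [← dilFac_sq hc]; push_cast; ring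
      push_cast at this ⊢
      linear_combination ((c : ℂ) ^ 2 * (W (c • r) : ℂ) * ⟪Ξ (c • r), Φ (c • r)⟫_ℂ) * this
    simp only [e1]
    rw [e2, mrs_integral_comp_smul (fun x => ((c ^ 2 * c ^ (3 * m) : ℝ) : ℂ) * ((W x : ℂ) * ⟪Ξ x, Φ x⟫_ℂ)) hc,
      integral_const_mul, ← Finset.mul_sum, ← Complex.coe_smul, smul_eq_mul]
    have hne : ((c : ℂ) ^ (3 * m)) ≠ 0 := by
      have : (c : ℂ) ≠ 0 := by exact_mod_cast hc.ne'
      exact pow_ne_zero _ this
    push_cast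
    field_simp

end FORM

/-! ## POT -/

section POT

theorem mrs_nuclear {c : ℝ} (hc : 0 < c) (R : ℝ) (x : Space) :
    c ^ 2 * nuclearPotential 1 R (c • x) = nuclearPotential c (R / c) x := by
  have e1 : c • x - R • ez = c • (x - (R / c) • ez) := by
    rw [smul_sub, smul_smul, mul_div_cancel₀ _ hc.ne']
  have e2 : c • x + R • ez = c • (x + (R / c) • ez) := by
    rw [smul_add, smul_smul, mul_div_cancel₀ _ hc.ne']
  unfold nuclearPotential
  rw [e1, e2, norm_smul, norm_smul, Real.norm_eq_abs, abs_of_pos hc]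
  have h : c ^ 2 * c⁻¹ = c := by field_simp
  simp only [div_eq_mul_inv, mul_inv]
  linear_combination (-‖x - (R * c⁻¹) • ez‖⁻¹ - ‖x + (R * c⁻¹) • ez‖⁻¹) * h

theorem mrs_repulsion {c : ℝ} (hc : 0 < c) (r : Config m) : repulsion (c • r) = c⁻¹ * repulsion r := by
  unfold repulsion
  rw [Finset.mul_sum]
  refine Finset.sum_congr rfl fun i _ => ?_
  rw [Finset.mul_sum]
  refine Finset.sum_congr rfl fun j _ => ?_
  split_ifs
  · rw [Pi.smul_apply, Pi.smul_apply, ← smul_sub, norm_smul, Real.norm_eq_abs, abs_of_pos hc, one_div, one_div,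
      mul_inv]
  · simp

/-- `Z² (scaled potential at coupling 1/Z)(Z r) = ` physical Coulomb potential. -/
theorem dilPot_scaledPotential {Z : ℕ} (hZ : 0 < Z) :
    dilPot (Z : ℝ) (scaledPotential 3 (1 / (Z : ℝ))) = coulombPotential Z (bigD / Z) := by
  have hc : (0 : ℝ) < Z := Nat.cast_pos.2 hZ
  funext r
  unfold dilPot scaledPotential coulombPotential oneBodyPotential
  rw [mrs_repulsion hc, mul_add, Finset.mul_sum]
  congr 1
  · exact Finset.sum_congr rfl fun i _ => mrs_nuclear hc bigD (r i)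
  · field_simp

theorem dilPot_oneBodyPotential (c : ℝ) (v : Space → ℝ) :
    dilPot c (oneBodyPotential v : Config m → ℝ) = oneBodyPotential (dilPot c v) := by
  funext r
  unfold dilPot oneBodyPotential
  rw [Finset.mul_sum]
  rfl

theorem PotentialClass.dilPot {c : ℝ} (hc : 0 < c) {v : Space → ℝ} (hv : v ∈ PotentialClass) :
    dilPot c v ∈ PotentialClass := by
  obtain ⟨v₁, v₂, h1, h2, rfl⟩ := hv
  refine ⟨R278.dilPot c v₁, R278.dilPot c v₂, ?_, ?_, ?_⟩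
  · exact (mrs_memLp_comp_smul volume hc h1).const_mul (c ^ 2)
  · exact (mrs_memLp_comp_smul volume hc h2).const_mul (c ^ 2)
  · funext r
    simp only [R278.dilPot, Pi.add_apply]
    ring

end POT

/-! ## ENS -/

section ENS

/-- conjugation of an operator by a unitary. -/
def conjOp (U : L2 3 ≃ₗᵢ[ℂ] L2 3) (Γ : L2 3 →L[ℂ] L2 3) : L2 3 →L[ℂ] L2 3 :=
  (U.toContinuousLinearEquiv : L2 3 →L[ℂ] L2 3) ∘L Γ ∘L (U.symm.toContinuousLinearEquiv : L2 3 →L[ℂ] L2 3)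

@[simp] theorem conjOp_apply (U : L2 3 ≃ₗᵢ[ℂ] L2 3) (Γ : L2 3 →L[ℂ] L2 3) (Φ : L2 3) :
    conjOp U Γ Φ = U (Γ (U.symm Φ)) := rfl

/-- diagonal sums are invariant under unitaries. -/
theorem HasDiagonalSum.comp_unitary {a : L2 3 → ℂ} {t : ℂ} (h : HasDiagonalSum a t) (U : L2 3 ≃ₗᵢ[ℂ] L2 3) :
    HasDiagonalSum (fun φ => a (U φ)) t := by
  classical
  intro ι b
  have h1 := h ι (HilbertBasis.ofRepr (U.symm.trans b.repr))
  have e : ∀ k, (HilbertBasis.ofRepr (U.symm.trans b.repr)) k = U (b k) := by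
    intro k
    rw [← HilbertBasis.repr_symm_single, ← HilbertBasis.repr_symm_single]
    rfl
  simpa only [e] using h1

theorem conjOp_isPositive (U : L2 3 ≃ₗᵢ[ℂ] L2 3) {Γ : L2 3 →L[ℂ] L2 3} (h : Γ.IsPositive) :
    (conjOp U Γ).IsPositive := by
  refine ⟨fun x y => ?_, fun x => ?_⟩
  · have h1 := h.1 (U.symm x) (U.symm y)
    show ⟪U (Γ (U.symm x)), y⟫_ℂ = ⟪x, U (Γ (U.symm y))⟫_ℂ
    have e1 : ⟪U (Γ (U.symm x)), y⟫_ℂ = ⟪Γ (U.symm x), U.symm y⟫_ℂ := U.inner_map_eq_flip _ _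
    have e2 : ⟪x, U (Γ (U.symm y))⟫_ℂ = ⟪U.symm x, Γ (U.symm y)⟫_ℂ := (U.symm.inner_map_eq_flip _ _).symm
    rw [e1, e2]; exact h1
  · have h1 := h.2 (U.symm x)
    unfold ContinuousLinearMap.reApplyInnerSelf at h1 ⊢
    have e1 : ⟪conjOp U Γ x, x⟫_ℂ = ⟪Γ (U.symm x), U.symm x⟫_ℂ := U.inner_map_eq_flip _ _
    rw [e1]; exact h1

theorem HasTrace.conjOp (U : L2 3 ≃ₗᵢ[ℂ] L2 3) {Γ : L2 3 →L[ℂ] L2 3} {t : ℂ} (h : HasTrace Γ t) :
    HasTrace (conjOp U Γ) t := by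
  refine (HasDiagonalSum.comp_unitary h U.symm).congr (fun φ => ?_) rfl
  exact (U.symm.inner_map_eq_flip _ _).symm

theorem Intertwines.isGroundStateEnsemble {U : L2 3 ≃ₗᵢ[ℂ] L2 3} {W W' : Config 3 → ℝ} {κ : ℝ}
    (h : Intertwines U W W' κ) {Γ : L2 3 →L[ℂ] L2 3} (hΓ : IsGroundStateEnsemble W Γ) :
    IsGroundStateEnsemble W' (conjOp U Γ) := by
  obtain ⟨hp, ht, E, hE, hr⟩ := hΓ
  exact ⟨conjOp_isPositive U hp, ht.conjOp U, κ * E, h.isSpectrumBottom hE,
    fun Φ => h.mem_eigenspace (hr _)⟩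

/-- `⟨D_c Ξ, N_A D_c Φ⟩ = ⟨Ξ, N_{cA} Φ⟩`, `cA = {x | c⁻¹ x ∈ A}`. -/
theorem occupationForm_dil {c : ℝ} (hc : 0 < c) (A : Set Space) (Ξ Φ : L2 3) :
    occupationForm A (dil c hc Ξ) (dil c hc Φ) = occupationForm ((fun x : Space => c⁻¹ • x) ⁻¹' A) Ξ Φ := by
  unfold occupationForm
  have e : ∫ r, (occupation A r : ℂ) * ⟪dil c hc Ξ r, dil c hc Φ r⟫_ℂ
      = ∫ r : Config 3, (fun x => ((c ^ (3 * 3) : ℝ) : ℂ) *
          ((occupation ((fun x : Space => c⁻¹ • x) ⁻¹' A) x : ℂ) * ⟪Ξ x, Φ x⟫_ℂ)) (c • r) := by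
    refine integral_congr_ae ?_
    filter_upwards [coeFn_dil hc Ξ, coeFn_dil hc Φ] with r h1 h2
    beta_reduce
    rw [h1, h2, ← Complex.coe_smul, ← Complex.coe_smul, inner_smul_left, inner_smul_right, Complex.conj_ofReal]
    have h3 : ((dilFac 3 c : ℝ) : ℂ) * (dilFac 3 c : ℂ) = ((c ^ (3 * 3) : ℝ) : ℂ) := by
      rw [← dilFac_sq hc]; push_cast; ring
    have h4 : occupation ((fun x : Space => c⁻¹ • x) ⁻¹' A) (c • r) = occupation A r := by
      unfold occupation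
      refine Finset.sum_congr rfl fun i _ => ?_
      have hm : (c • r) i ∈ (fun x : Space => c⁻¹ • x) ⁻¹' A ↔ r i ∈ A := by
        rw [Set.mem_preimage, Pi.smul_apply, smul_smul, inv_mul_cancel₀ hc.ne', one_smul]
      by_cases hA0 : r i ∈ A
      · rw [Set.indicator_of_mem (hm.2 hA0), Set.indicator_of_mem hA0]
      · rw [Set.indicator_of_notMem (fun h => hA0 (hm.1 h)), Set.indicator_of_notMem hA0]
    rw [h4, ← h3]; ring
  rw [e, mrs_integral_comp_smul (fun x => ((c ^ (3 * 3) : ℝ) : ℂ) *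
      ((occupation ((fun x : Space => c⁻¹ • x) ⁻¹' A) x : ℂ) * ⟪Ξ x, Φ x⟫_ℂ)) hc, integral_const_mul,
    ← Complex.coe_smul, smul_eq_mul, ← mul_assoc]
  have hne : ((c ^ (3 * 3) : ℝ) : ℂ) ≠ 0 := by
    have : c ^ (3 * 3) ≠ 0 := by positivity
    exact_mod_cast this
  rw [Complex.ofReal_inv, inv_mul_cancel₀ hne, one_mul]

/-- the density of the dilated ensemble. -/
theorem IsDensityOf.dil {c : ℝ} (hc : 0 < c) {Γ : L2 3 →L[ℂ] L2 3} {n : Space → ℝ} (h : IsDensityOf Γ n) :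
    IsDensityOf (conjOp (dil c hc) Γ) (fun r => c ^ 3 * n (c • r)) := by
  refine ⟨((integrable_comp_smul_iff volume n hc.ne').2 h.1).const_mul _, fun A hA => ?_⟩
  have hA' : MeasurableSet ((fun x : Space => c⁻¹ • x) ⁻¹' A) := (measurable_const_smul c⁻¹) hA
  refine ((h.2 _ hA').comp_unitary (R278.dil c hc).symm).congr (fun φ => ?_) ?_
  · rw [← occupationForm_dil hc, LinearIsometryEquiv.apply_symm_apply]; rfl
  · congr 1
    rw [← integral_indicator hA, ← integral_indicator hA']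
    have e : ∫ r, A.indicator (fun r => c ^ 3 * n (c • r)) r
        = ∫ r : Space, (fun x => c ^ 3 * ((fun x : Space => c⁻¹ • x) ⁻¹' A).indicator n x) (c • r) := by
      refine integral_congr_ae (Filter.Eventually.of_forall fun r => ?_)
      have hm : c • r ∈ (fun x : Space => c⁻¹ • x) ⁻¹' A ↔ r ∈ A := by
        rw [Set.mem_preimage, smul_smul, inv_mul_cancel₀ hc.ne', one_smul]
      beta_reduce
      by_cases hA0 : r ∈ A
      · rw [Set.indicator_of_mem (hm.2 hA0), Set.indicator_of_mem hA0]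
      · rw [Set.indicator_of_notMem (fun h => hA0 (hm.1 h)), Set.indicator_of_notMem hA0, mul_zero]
    rw [e, mrs_integral_comp_smul_space (fun x => c ^ 3 * ((fun x : Space => c⁻¹ • x) ⁻¹' A).indicator n x) hc,
      integral_const_mul, smul_eq_mul, ← mul_assoc, inv_mul_cancel₀ (by positivity), one_mul]

/-- the density of the dilated state. -/
theorem density_dil {c : ℝ} (hc : 0 < c) (Ψ : L2 3) :
    density (dil c hc Ψ) =ᵐ[volume] fun r => c ^ 3 * density Ψ (c • r) := by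
  have h1 : ∀ᵐ q : Space × (Fin 2 → Space), dil c hc Ψ (consEquiv q) = dilFac 3 c • Ψ (c • consEquiv q) :=
    measurePreserving_consEquiv.quasiMeasurePreserving.ae (coeFn_dil hc Ψ)
  filter_upwards [Measure.ae_ae_of_ae_prod h1] with r hr
  unfold density
  have e : ∫ y : Config 2, ‖dil c hc Ψ (Fin.cons r y : Config 3)‖ ^ 2
      = ∫ y : Config 2, (fun y' : Config 2 => c ^ (3 * 3) * ‖Ψ (Fin.cons (c • r) y' : Config 3)‖ ^ 2) (c • y) := by
    refine integral_congr_ae ?_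
    filter_upwards [hr] with y hy
    rw [consEquiv_apply] at hy
    beta_reduce
    have e2 : c • (Fin.cons r y : Config 3) = (Fin.cons (c • r) (c • y) : Config 3) := by
      funext i
      refine Fin.cases ?_ (fun j => ?_) i <;> simp
    rw [hy, norm_smul, mul_pow, Real.norm_eq_abs, sq_abs, dilFac_sq hc, e2]
  rw [e, mrs_integral_comp_smul (fun y' : Config 2 => c ^ (3 * 3) * ‖Ψ (Fin.cons (c • r) y' : Config 3)‖ ^ 2) hc,
    integral_const_mul, smul_eq_mul]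
  field_simp
  ring

end ENS

/-! ## The top theorem -/

/-- **Proposition 2.1**: dilation to integer nuclear charges (verbatim `scaling_transfer` of `Top.lean`). -/
theorem mr_scaling_transfer {Z : ℕ} (hZ : 0 < Z) {Ψ : L2 3}
    (hgs : IsGroundState (scaledPotential 3 (1 / (Z : ℝ))) Ψ) (hs : InSpinSector (1 / 2) Ψ)
    (hno : ¬ ∃ (v : Space → ℝ) (Γ : L2 3 →L[ℂ] L2 3) (n' : Space → ℝ),
        v ∈ PotentialClass ∧ IsGroundStateEnsemble (oneBodyPotential v) Γ ∧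
        IsDensityOf Γ n' ∧ n' =ᵐ[volume] density Ψ) :
    HasUnrepresentableGroundState Z := by
  have hc : (0 : ℝ) < Z := Nat.cast_pos.2 hZ
  have hc' : (0 : ℝ) < (Z : ℝ)⁻¹ := inv_pos.2 hc
  refine ⟨dil (Z : ℝ) hc Ψ, ?_, hs.dil hc, ?_⟩
  · have := (dil_intertwines hc (scaledPotential 3 (1 / (Z : ℝ)))).isGroundState hgs
    rwa [dilPot_scaledPotential hZ] at this
  · rintro ⟨v, Γ, n, hv, hΓ, hn, hnΨ⟩
    refine hno ⟨dilPot (Z : ℝ)⁻¹ v, conjOp (dil (Z : ℝ)⁻¹ hc') Γ, fun r => (Z : ℝ)⁻¹ ^ 3 * n ((Z : ℝ)⁻¹ • r),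
      PotentialClass.dilPot hc' hv, ?_, hn.dil hc', ?_⟩
    · have := (dil_intertwines hc' (oneBodyPotential v : Config 3 → ℝ)).isGroundStateEnsemble hΓ
      rwa [dilPot_oneBodyPotential] at this
    · have h1 := mrs_ae_comp_smul_space hc' (hnΨ.and (density_dil hc Ψ))
      filter_upwards [h1] with r hr
      rw [hr.1, hr.2, smul_smul, mul_inv_cancel₀ hc.ne', one_smul, ← mul_assoc, ← mul_pow,
        inv_mul_cancel₀ hc.ne', one_pow, one_mul]

end Claimed.Open.R278
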