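import Claimed.Open.R278.OBBasic
import Claimed.Open.R278.OBGlue
import Claimed.Open.R278.OBCalc

/-!
# Result 278, BP-OB, stage S11: the Agmon estimate

LEAF OB-S11.

PROOF.  `k < a`, `a² < k² + 2d`; `ε, μ > 0` small with `κ := c∞ - ε - (1+μ) a²/2 > 0`, `ε < 1/2`.  `R` from `OBForm` (`R ≥ D + 1`), `k₀ ∈ ℕ`,
`k₀ + 1 ≥ R`, `η = 1 - wsCut k₀`, `χ = wsCut k'`, `φ = η w_T χ` (smooth, compact support, `= 0` on `|x| ≤ k₀+1`), `u = φ g ∈ C¹_c`
(`ob_contDiff_mul_of_tsupport`, `H.g_contDiffOn`).  Test `g_eq` with `φ² g`:  `½∫|∇u|² + ∫V u² = ½ ∫ g² |∇φ|²`.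
`|∇φ|² ≤ (1+μ) a² φ² + (1+1/μ) w_T² |∇(ηχ)|²`, `|∇(ηχ)|² ≤ 2|∇η|² + 2|∇χ|²`;  `∫ g² w_T² |∇η|² ≤ M² e^{2aρ_max} ∫g²` (independent of `T, k'`),
`∫ g² w_T² |∇χ|² ≤ T² M²/(k'+1)² ∫ g² ≤ 1` for `k'` large.  With `OBForm`:  `(½-ε)∫|∇u|² + κ ∫u² ≤ C₁`.
Given `S`: `T := e^{a √(1+S²)}`, `k' + 1 ≥ S`; for `2(k₀+1) ≤ |x| ≤ S`: `η = χ = 1`, `w_T ≥ e^{aρ}/2 ≥ e^{a|x|}/2`.
-/

open MeasureTheory Filter Topology Set
open scoped ContDiff InnerProductSpace ENNReal Laplacian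
open Claimed.Agent.R259

noncomputable section

set_option linter.unusedSectionVars false

namespace Claimed.Open.R278

variable {n θ : Space → ℝ} {k β d : ℝ} {V₁ V₂ : Space → ℝ}

/-! ### the regularised distance (local copies, prefix `ob_ag_`) -/

theorem ob_ag_rho_arg_pos (x : Space) : 0 < 1 + ‖x‖ ^ 2 := by positivity

theorem ob_ag_rho_contDiff : ContDiff ℝ ∞ obRho := by
  unfold obRho
  exact (contDiff_const.add (contDiff_norm_sq ℝ)).sqrt fun x => (ob_ag_rho_arg_pos x).ne'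

theorem ob_ag_rho_pos (x : Space) : 0 < obRho x := Real.sqrt_pos.2 (ob_ag_rho_arg_pos x)

theorem ob_ag_norm_le_rho (x : Space) : ‖x‖ ≤ obRho x := by
  unfold obRho
  apply Real.le_sqrt_of_sq_le
  linarith

theorem ob_ag_rho_mono {x : Space} {S : ℝ} (h : ‖x‖ ≤ S) : obRho x ≤ √(1 + S ^ 2) := by
  unfold obRho
  apply Real.sqrt_le_sqrt
  have := pow_le_pow_left₀ (norm_nonneg x) h 2
  linarith

theorem ob_ag_rho_hasFDerivAt (x : Space) :
    HasFDerivAt obRho ((obRho x)⁻¹ • innerSL ℝ x) x := by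
  have h1 : HasFDerivAt (fun y : Space => 1 + ‖y‖ ^ 2) (2 • innerSL ℝ x) x :=
    (hasStrictFDerivAt_norm_sq x).hasFDerivAt.const_add 1
  have h2 := h1.sqrt (ob_ag_rho_arg_pos x).ne'
  refine h2.congr_fderiv ?_
  ext v
  have hρ := (ob_ag_rho_pos x).ne'
  unfold obRho at hρ ⊢
  simp only [_root_.smul_apply, innerSL_apply_apply, smul_eq_mul, nsmul_eq_mul, Nat.cast_ofNat]
  field_simp

theorem ob_ag_rho_fderiv_norm_le (x : Space) : ‖(obRho x)⁻¹ • innerSL ℝ x‖ ≤ 1 := by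
  rw [norm_smul, innerSL_apply_norm, norm_inv, Real.norm_of_nonneg (ob_ag_rho_pos x).le,
    inv_mul_le_iff₀ (ob_ag_rho_pos x), mul_one]
  exact ob_ag_norm_le_rho x

theorem ob_ag_den_pos (a : ℝ) {T : ℝ} (hT : 0 < T) (x : Space) :
    0 < Real.exp (-(a * obRho x)) + T⁻¹ := by positivity

theorem ob_W_contDiff (a : ℝ) {T : ℝ} (hT : 0 < T) : ContDiff ℝ ∞ (obW a T) := by
  unfold obW
  exact (((contDiff_const.mul ob_ag_rho_contDiff).neg.exp).add contDiff_const).inv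
    fun x => (ob_ag_den_pos a hT x).ne'

theorem ob_W_pos (a : ℝ) {T : ℝ} (hT : 0 < T) (x : Space) : 0 < obW a T x :=
  inv_pos.2 (ob_ag_den_pos a hT x)

theorem ob_W_le (a : ℝ) {T : ℝ} (hT : 0 < T) (x : Space) : obW a T x ≤ T ∧ obW a T x ≤ Real.exp (a * obRho x) := by
  have he := Real.exp_pos (-(a * obRho x))
  have hTi : 0 < T⁻¹ := inv_pos.2 hT
  constructor
  · unfold obW
    rw [inv_le_comm₀ (ob_ag_den_pos a hT x) hT]
    linarith
  · unfold obW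
    rw [inv_le_comm₀ (ob_ag_den_pos a hT x) (Real.exp_pos _), ← Real.exp_neg]
    linarith

theorem ob_W_ge {a T : ℝ} (hT : 0 < T) {x : Space} (hx : Real.exp (a * obRho x) ≤ T) :
    Real.exp (a * obRho x) / 2 ≤ obW a T x := by
  have he := Real.exp_pos (a * obRho x)
  have h1 : T⁻¹ ≤ Real.exp (-(a * obRho x)) := by
    rw [Real.exp_neg]
    exact inv_anti₀ he hx
  unfold obW
  rw [le_inv_comm₀ (by positivity) (ob_ag_den_pos a hT x), inv_div, Real.exp_neg] at *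
  have : 2 / Real.exp (a * obRho x) = 2 * (Real.exp (a * obRho x))⁻¹ := by ring
  rw [this]
  linarith

theorem ob_ag_W_hasFDerivAt (a : ℝ) {T : ℝ} (hT : 0 < T) (x : Space) :
    HasFDerivAt (obW a T)
      ((a * (obW a T x * (obW a T x * Real.exp (-(a * obRho x))))) • ((obRho x)⁻¹ • innerSL ℝ x)) x := by
  have h0 : HasFDerivAt (fun y : Space => -(a * obRho y)) (-(a • ((obRho x)⁻¹ • innerSL ℝ x))) x :=
    ((ob_ag_rho_hasFDerivAt x).const_mul a).neg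
  have h1 : HasFDerivAt (fun y : Space => Real.exp (-(a * obRho y)) + T⁻¹)
      (Real.exp (-(a * obRho x)) • (-(a • ((obRho x)⁻¹ • innerSL ℝ x)))) x :=
    h0.exp.add_const (T⁻¹)
  have hd := (ob_ag_den_pos a hT x).ne'
  have h2 : HasFDerivAt (fun y : Space => (Real.exp (-(a * obRho y)) + T⁻¹)⁻¹) _ x :=
    (hasDerivAt_inv hd).comp_hasFDerivAt x h1
  refine h2.congr_fderiv ?_
  ext v
  unfold obW
  simp only [_root_.smul_apply, _root_.neg_apply, smul_eq_mul]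
  field_simp

theorem ob_W_gradient_le {a : ℝ} (ha : 0 ≤ a) {T : ℝ} (hT : 0 < T) (x : Space) :
    ‖gradient (obW a T) x‖ ≤ a * obW a T x := by
  have h : ‖gradient (obW a T) x‖ = ‖fderiv ℝ (obW a T) x‖ := by
    unfold gradient
    exact LinearIsometryEquiv.norm_map _ _
  have hw := ob_W_pos a hT x
  have he := Real.exp_pos (-(a * obRho x))
  have h1 : obW a T x * Real.exp (-(a * obRho x)) ≤ 1 := by
    have h2 := (ob_W_le a hT x).2
    calc obW a T x * Real.exp (-(a * obRho x))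
        ≤ Real.exp (a * obRho x) * Real.exp (-(a * obRho x)) := mul_le_mul_of_nonneg_right h2 he.le
      _ = 1 := by rw [← Real.exp_add]; simp
  rw [h, (ob_ag_W_hasFDerivAt a hT x).fderiv, norm_smul,
    Real.norm_of_nonneg (by positivity)]
  calc a * (obW a T x * (obW a T x * Real.exp (-(a * obRho x)))) * ‖(obRho x)⁻¹ • innerSL ℝ x‖
      ≤ a * (obW a T x * 1) * 1 := by
        apply mul_le_mul _ (ob_ag_rho_fderiv_norm_le x) (norm_nonneg _) (by positivity)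
        exact mul_le_mul_of_nonneg_left (mul_le_mul_of_nonneg_left h1 hw.le) ha
    _ = a * obW a T x := by ring

/-- the Agmon identity `½∫|∇(φg)|² + ∫V (φg)² = ½ ∫ g² |∇φ|²`. -/
theorem OBHyp.agmon_identity (H : OBHyp n θ k β d V₁ V₂) {φ : Space → ℝ} (hφ : ContDiff ℝ 1 φ)
    (hc : HasCompactSupport φ) (hs : tsupport φ ⊆ nucleiᶜ) :
    (1 / 2) * (∫ x, ‖gradient (fun x => φ x * orbG n θ x) x‖ ^ 2)
      + ∫ x, formalV n θ d x * (φ x * orbG n θ x) ^ 2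
      = (1 / 2) * ∫ x, orbG n θ x ^ 2 * ‖gradient φ x‖ ^ 2 := by
  have hU := ob_isOpen_compl_nuclei
  have hg := H.g_contDiffOn
  -- the test function `φ² g`
  have hφ2 : ContDiff ℝ 1 fun x => φ x * φ x := hφ.mul hφ
  have hs2 : tsupport (fun x => φ x * φ x) ⊆ nucleiᶜ :=
    (tsupport_mul_subset_left (f := φ) (g := φ)).trans hs
  have hψ : ContDiff ℝ 1 fun x => (φ x * φ x) * orbG n θ x :=
    ob_contDiff_mul_of_tsupport hU hg hφ2 hs2
  have hψc : HasCompactSupport fun x => (φ x * φ x) * orbG n θ x := (hc.mul_right).mul_right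
  have hu : ContDiff ℝ 1 fun x => φ x * orbG n θ x := ob_contDiff_mul_of_tsupport hU hg hφ hs
  have huc : HasCompactSupport fun x => φ x * orbG n θ x := hc.mul_right
  have key := H.ho.g_eq _ hψ hψc
  have hgradψ : ∀ x, gradient (fun x => (φ x * φ x) * orbG n θ x) x
      = (φ x * φ x) • gradient (orbG n θ) x + orbG n θ x • (φ x • gradient φ x + φ x • gradient φ x) := by
    intro x
    rw [ob_gradient_mul_of_tsupport hU hg hφ2 hs2 x,
      ws_gradient_mul (hφ.differentiable one_ne_zero x) (hφ.differentiable one_ne_zero x)]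
  have hgradu : ∀ x, gradient (fun x => φ x * orbG n θ x) x
      = φ x • gradient (orbG n θ) x + orbG n θ x • gradient φ x :=
    fun x => ob_gradient_mul_of_tsupport hU hg hφ hs x
  have e1 : ∀ x, ⟪gradient (orbG n θ) x, gradient (fun x => (φ x * φ x) * orbG n θ x) x⟫_ℝ
      = ‖gradient (fun x => φ x * orbG n θ x) x‖ ^ 2 - orbG n θ x ^ 2 * ‖gradient φ x‖ ^ 2 := by
    intro x
    rw [hgradψ, hgradu, ← real_inner_self_eq_norm_sq, ← real_inner_self_eq_norm_sq (gradient φ x)]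
    simp only [inner_add_left, inner_add_right, inner_smul_left, inner_smul_right,
      RCLike.conj_to_real]
    rw [real_inner_comm (gradient (orbG n θ) x) (gradient φ x)]
    ring
  have e2 : ∀ x, formalV n θ d x * orbG n θ x * ((φ x * φ x) * orbG n θ x)
      = formalV n θ d x * (φ x * orbG n θ x) ^ 2 := fun x => by ring
  simp only [e1, e2] at key
  have i1 : Integrable fun x => ‖gradient (fun x => φ x * orbG n θ x) x‖ ^ 2 :=
    ((ws_gradient_continuous hu).norm.pow 2).integrable_of_hasCompactSupport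
      (HasCompactSupport.intro (ws_gradient_hasCompactSupport huc).isCompact fun x hx => by
        show ‖gradient (fun x => φ x * orbG n θ x) x‖ ^ 2 = 0
        rw [image_eq_zero_of_notMem_tsupport hx]; simp)
  have i2 : Integrable fun x => orbG n θ x ^ 2 * ‖gradient φ x‖ ^ 2 :=
    ((H.ho.g_cont.pow 2).mul ((ws_gradient_continuous hφ).norm.pow 2)).integrable_of_hasCompactSupport
      (HasCompactSupport.intro (ws_gradient_hasCompactSupport hc).isCompact fun x hx => by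
        show orbG n θ x ^ 2 * ‖gradient φ x‖ ^ 2 = 0
        rw [image_eq_zero_of_notMem_tsupport hx]; simp)
  rw [integral_sub i1 i2] at key
  linarith

theorem ob_young_vec {μ : ℝ} (hμ : 0 < μ) (p q : Space) :
    ‖p + q‖ ^ 2 ≤ (1 + μ) * ‖p‖ ^ 2 + (1 + 1 / μ) * ‖q‖ ^ 2 := by
  rw [norm_add_sq_real]
  have h1 : ⟪p, q⟫_ℝ ≤ ‖p‖ * ‖q‖ := real_inner_le_norm p q
  have h2 : 2 * (‖p‖ * ‖q‖) ≤ μ * ‖p‖ ^ 2 + 1 / μ * ‖q‖ ^ 2 := by
    have h3 : 0 ≤ (μ * ‖p‖ - ‖q‖) ^ 2 / μ := by positivity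
    have e : (μ * ‖p‖ - ‖q‖) ^ 2 / μ = μ * ‖p‖ ^ 2 + 1 / μ * ‖q‖ ^ 2 - 2 * (‖p‖ * ‖q‖) := by
      field_simp
      ring
    linarith
  linarith

theorem ob_wsCut_eq_zero {j : ℕ} {x : Space} (hx : 2 * ((j : ℝ) + 1) ≤ ‖x‖) : wsCut j x = 0 := by
  have hk : (0:ℝ) < (j : ℝ) + 1 := by positivity
  apply (wsChi : ContDiffBump (0 : Space)).zero_of_le_dist
  rw [dist_zero_right, norm_smul, norm_inv, Real.norm_of_nonneg hk.le]
  show 2 ≤ ((j : ℝ) + 1)⁻¹ * ‖x‖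
  rw [le_inv_mul_iff₀ hk]
  linarith

theorem ob_wsCut_grad_zero {j : ℕ} {x : Space} (hx : 2 * ((j : ℝ) + 1) < ‖x‖) : gradient (wsCut j) x = 0 := by
  have : (wsCut j : Space → ℝ) =ᶠ[𝓝 x] fun _ => (0:ℝ) := by
    have ho : IsOpen {y : Space | 2 * ((j : ℝ) + 1) < ‖y‖} := isOpen_lt continuous_const continuous_norm
    filter_upwards [ho.mem_nhds hx] with y hy
    exact ob_wsCut_eq_zero (le_of_lt hy)
  rw [this.gradient_eq, gradient_fun_const]

/-- the Agmon multiplier `φ = w_T (1 - χ_{k₀}) χ_{k'}`. -/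
def obAgPhi (a T : ℝ) (k₀ k' : ℕ) (x : Space) : ℝ := obW a T x * ((1 - wsCut k₀ x) * wsCut k' x)

theorem obagmon_eqns_cite : True := by
  have := @obAgPhi.eq_1
  trivial

theorem obAgPhi_contDiff (a : ℝ) {T : ℝ} (hT : 0 < T) (k₀ k' : ℕ) : ContDiff ℝ ∞ (obAgPhi a T k₀ k') :=
  (ob_W_contDiff a hT).mul ((contDiff_const.sub (wsCut_contDiff k₀)).mul (wsCut_contDiff k'))

theorem obAgPhi_hcs (a T : ℝ) (k₀ k' : ℕ) : HasCompactSupport (obAgPhi a T k₀ k') :=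
  (wsCut_hasCompactSupport (E := Space) k').mono fun x hx h0 => hx (by simp [obAgPhi, h0])

theorem obAgPhi_eq_zero (a T : ℝ) {k₀ : ℕ} (k' : ℕ) {x : Space} (hx : ‖x‖ ≤ (k₀ : ℝ) + 1) :
    obAgPhi a T k₀ k' x = 0 := by
  simp [obAgPhi, wsCut_eq_one hx]

theorem obAgPhi_tsupport (a T : ℝ) (k₀ k' : ℕ) :
    tsupport (obAgPhi a T k₀ k') ⊆ {x : Space | (k₀ : ℝ) + 1 ≤ ‖x‖} := by
  refine closure_minimal (fun x hx => ?_) (isClosed_le continuous_const continuous_norm)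
  by_contra h
  exact hx (obAgPhi_eq_zero a T k' (not_le.1 h).le)

theorem obAgPhi_gradient (a : ℝ) {T : ℝ} (hT : 0 < T) (k₀ k' : ℕ) (x : Space) :
    gradient (obAgPhi a T k₀ k') x
      = ((1 - wsCut k₀ x) * wsCut k' x) • gradient (obW a T) x
        + obW a T x • ((1 - wsCut k₀ x) • gradient (wsCut k') x + wsCut k' x • (-gradient (wsCut k₀) x)) := by
  have d0 : DifferentiableAt ℝ (wsCut k₀ : Space → ℝ) x := (wsCut_contDiff k₀).differentiable (by simp) x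
  have d1 : DifferentiableAt ℝ (wsCut k' : Space → ℝ) x := (wsCut_contDiff k').differentiable (by simp) x
  have dw : DifferentiableAt ℝ (obW a T) x := (ob_W_contDiff a hT).differentiable (by simp) x
  have d2 : DifferentiableAt ℝ (fun x : Space => 1 - wsCut k₀ x) x := (differentiableAt_const _).sub d0
  have d3 : DifferentiableAt ℝ (fun x : Space => (1 - wsCut k₀ x) * wsCut k' x) x := d2.mul d1
  have e : gradient (fun x : Space => 1 - wsCut k₀ x) x = -gradient (wsCut k₀) x := by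
    unfold gradient
    rw [fderiv_const_sub, map_neg]
  unfold obAgPhi
  rw [ob_gradient_mul dw d3, ob_gradient_mul d2 d1, e]
  abel

/-- the pointwise bound of `|∇φ|²`. -/
theorem obAgPhi_gradient_sq_le {a μ M T : ℝ} (ha : 0 ≤ a) (hμ : 0 < μ) (hT : 0 < T) (k₀ k' : ℕ)
    (hM : ∀ (j : ℕ) (x : Space), ‖gradient (wsCut j) x‖ ≤ M / ((j : ℝ) + 1)) (x : Space) :
    ‖gradient (obAgPhi a T k₀ k') x‖ ^ 2 ≤ (1 + μ) * a ^ 2 * obAgPhi a T k₀ k' x ^ 2
      + 2 * (1 + 1 / μ) * (M ^ 2 * Real.exp (2 * a * (2 * (k₀ : ℝ) + 3)) + T ^ 2 * M ^ 2 / ((k' : ℝ) + 1) ^ 2) := by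
  rw [obAgPhi_gradient a hT]
  refine (ob_young_vec hμ _ _).trans ?_
  have hw := ob_W_pos a hT x
  have hwg := ob_W_gradient_le ha hT x
  have c0a := wsCut_nonneg k₀ x
  have c0b := wsCut_le_one k₀ x
  have c1a := wsCut_nonneg k' x
  have c1b := wsCut_le_one k' x
  have hM0 : 0 ≤ M := by
    have := (norm_nonneg _).trans (hM 0 x)
    simpa using this
  have t1 : ‖((1 - wsCut k₀ x) * wsCut k' x) • gradient (obW a T) x‖ ^ 2 ≤ a ^ 2 * obAgPhi a T k₀ k' x ^ 2 := by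
    rw [norm_smul, Real.norm_of_nonneg (mul_nonneg (by linarith) c1a), mul_pow]
    have : ‖gradient (obW a T) x‖ ^ 2 ≤ (a * obW a T x) ^ 2 := by gcongr
    calc ((1 - wsCut k₀ x) * wsCut k' x) ^ 2 * ‖gradient (obW a T) x‖ ^ 2
        ≤ ((1 - wsCut k₀ x) * wsCut k' x) ^ 2 * (a * obW a T x) ^ 2 := by gcongr
      _ = _ := by unfold obAgPhi; ring
  -- the cutoff part
  have t2 : obW a T x * ‖gradient (wsCut k') x‖ ≤ T * M / ((k' : ℝ) + 1) := by
    calc obW a T x * ‖gradient (wsCut k') x‖ ≤ T * (M / ((k' : ℝ) + 1)) :=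
          mul_le_mul (ob_W_le a hT x).1 (hM k' x) (norm_nonneg _) hT.le
      _ = _ := by ring
  have t3 : obW a T x * ‖gradient (wsCut k₀) x‖ ≤ M * Real.exp (a * (2 * (k₀ : ℝ) + 3)) := by
    by_cases hx : 2 * ((k₀ : ℝ) + 1) < ‖x‖
    · rw [ob_wsCut_grad_zero hx]; simp; positivity
    · have h1 : obRho x ≤ 2 * (k₀ : ℝ) + 3 := (ob_rho_le x).trans (by linarith [not_lt.1 hx])
      have h2 : obW a T x ≤ Real.exp (a * (2 * (k₀ : ℝ) + 3)) :=
        (ob_W_le a hT x).2.trans (Real.exp_le_exp.2 (by gcongr))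
      have h3 : ‖gradient (wsCut k₀) x‖ ≤ M := (hM k₀ x).trans (div_le_self hM0 (by
        have : (0:ℝ) ≤ k₀ := Nat.cast_nonneg k₀
        linarith))
      calc obW a T x * ‖gradient (wsCut k₀) x‖ ≤ Real.exp (a * (2 * (k₀ : ℝ) + 3)) * M :=
            mul_le_mul h2 h3 (norm_nonneg _) (Real.exp_pos _).le
        _ = _ := mul_comm _ _
  have t4 : ‖obW a T x • ((1 - wsCut k₀ x) • gradient (wsCut k') x + wsCut k' x • (-gradient (wsCut k₀) x))‖
      ≤ T * M / ((k' : ℝ) + 1) + M * Real.exp (a * (2 * (k₀ : ℝ) + 3)) := by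
    rw [norm_smul, Real.norm_of_nonneg hw.le]
    have h5 : ‖(1 - wsCut k₀ x) • gradient (wsCut k') x + wsCut k' x • (-gradient (wsCut k₀) x)‖
        ≤ ‖gradient (wsCut k') x‖ + ‖gradient (wsCut k₀) x‖ := by
      refine (norm_add_le _ _).trans ?_
      rw [norm_smul, norm_smul, norm_neg, Real.norm_of_nonneg (by linarith), Real.norm_of_nonneg c1a]
      have := norm_nonneg (gradient (wsCut k') x)
      have := norm_nonneg (gradient (wsCut k₀) x)
      nlinarith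
    calc obW a T x * ‖(1 - wsCut k₀ x) • gradient (wsCut k') x + wsCut k' x • (-gradient (wsCut k₀) x)‖
        ≤ obW a T x * (‖gradient (wsCut k') x‖ + ‖gradient (wsCut k₀) x‖) := by gcongr
      _ = obW a T x * ‖gradient (wsCut k') x‖ + obW a T x * ‖gradient (wsCut k₀) x‖ := by ring
      _ ≤ _ := add_le_add t2 t3
  have t5 : ‖obW a T x • ((1 - wsCut k₀ x) • gradient (wsCut k') x + wsCut k' x • (-gradient (wsCut k₀) x))‖ ^ 2
      ≤ 2 * (M ^ 2 * Real.exp (2 * a * (2 * (k₀ : ℝ) + 3)) + T ^ 2 * M ^ 2 / ((k' : ℝ) + 1) ^ 2) := by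
    have e1 : Real.exp (2 * a * (2 * (k₀ : ℝ) + 3)) = Real.exp (a * (2 * (k₀ : ℝ) + 3)) ^ 2 := by
      rw [← Real.exp_nat_mul]; congr 1; push_cast; ring
    have e2 : T ^ 2 * M ^ 2 / ((k' : ℝ) + 1) ^ 2 = (T * M / ((k' : ℝ) + 1)) ^ 2 := by
      rw [div_pow, mul_pow]
    rw [e1, e2, ← mul_pow]
    have h6 : ‖obW a T x • ((1 - wsCut k₀ x) • gradient (wsCut k') x + wsCut k' x • (-gradient (wsCut k₀) x))‖ ^ 2
        ≤ (T * M / ((k' : ℝ) + 1) + M * Real.exp (a * (2 * (k₀ : ℝ) + 3))) ^ 2 := by gcongr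
    refine h6.trans ?_
    nlinarith [sq_nonneg (T * M / ((k' : ℝ) + 1) - M * Real.exp (a * (2 * (k₀ : ℝ) + 3)))]
  have h7 : (1 + μ) * ‖((1 - wsCut k₀ x) * wsCut k' x) • gradient (obW a T) x‖ ^ 2
      ≤ (1 + μ) * (a ^ 2 * obAgPhi a T k₀ k' x ^ 2) := by gcongr
  have h8 : (1 + 1 / μ) * ‖obW a T x • ((1 - wsCut k₀ x) • gradient (wsCut k') x + wsCut k' x • (-gradient (wsCut k₀) x))‖ ^ 2
      ≤ (1 + 1 / μ) * (2 * (M ^ 2 * Real.exp (2 * a * (2 * (k₀ : ℝ) + 3)) + T ^ 2 * M ^ 2 / ((k' : ℝ) + 1) ^ 2)) := by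
    gcongr
  calc _ ≤ (1 + μ) * (a ^ 2 * obAgPhi a T k₀ k' x ^ 2) + (1 + 1 / μ) * (2 * (M ^ 2 * Real.exp (2 * a * (2 * (k₀ : ℝ) + 3)) + T ^ 2 * M ^ 2 / ((k' : ℝ) + 1) ^ 2)) := add_le_add h7 h8
    _ = _ := by ring

theorem OBHyp.g_sq_integrable (H : OBHyp n θ k β d V₁ V₂) : Integrable fun x => orbG n θ x ^ 2 := by
  by_contra h
  have := H.ho.g_norm
  rw [integral_undef h] at this
  norm_num at this

theorem ob_agmon_energy (H : OBHyp n θ k β d V₁ V₂) {c ε R A₁ B : ℝ}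
    (hform : ∀ u : Space → ℝ, ContDiff ℝ 1 u → HasCompactSupport u → (∀ x, ‖x‖ ≤ R → u x = 0) →
      (c - ε) * (∫ x, u x ^ 2) - ε * (∫ x, ‖gradient u x‖ ^ 2) ≤ ∫ x, formalV n θ d x * u x ^ 2)
    {φ : Space → ℝ} (hφ : ContDiff ℝ 1 φ) (hc : HasCompactSupport φ) (hs : tsupport φ ⊆ nucleiᶜ)
    (h0 : ∀ x, ‖x‖ ≤ R → φ x = 0) (hg : ∀ x, ‖gradient φ x‖ ^ 2 ≤ A₁ * φ x ^ 2 + B) :
    ContDiff ℝ 1 (fun x => φ x * orbG n θ x) ∧ HasCompactSupport (fun x => φ x * orbG n θ x) ∧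
    (1 / 2 - ε) * (∫ x, ‖gradient (fun x => φ x * orbG n θ x) x‖ ^ 2)
      + (c - ε - A₁ / 2) * (∫ x, (φ x * orbG n θ x) ^ 2) ≤ B := by
  have hu : ContDiff ℝ 1 fun x => φ x * orbG n θ x :=
    ob_contDiff_mul_of_tsupport ob_isOpen_compl_nuclei H.g_contDiffOn hφ hs
  have huc : HasCompactSupport fun x => φ x * orbG n θ x := hc.mul_right
  refine ⟨hu, huc, ?_⟩
  have hid := H.agmon_identity hφ hc hs
  have hf := hform _ hu huc (fun x hx => by simp [h0 x hx])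
  have i1 : Integrable fun x => orbG n θ x ^ 2 * ‖gradient φ x‖ ^ 2 :=
    ((H.ho.g_cont.pow 2).mul ((ws_gradient_continuous hφ).norm.pow 2)).integrable_of_hasCompactSupport
      (HasCompactSupport.intro (ws_gradient_hasCompactSupport hc).isCompact fun x hx => by
        show orbG n θ x ^ 2 * ‖gradient φ x‖ ^ 2 = 0
        rw [image_eq_zero_of_notMem_tsupport hx]; simp)
  have i2 : Integrable fun x => (φ x * orbG n θ x) ^ 2 :=
    (hu.continuous.pow 2).integrable_of_hasCompactSupport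
      (huc.mono fun x hx h0 => hx (by
        show (φ x * orbG n θ x) ^ 2 = 0
        have h0' : φ x * orbG n θ x = 0 := h0
        rw [h0']; simp))
  have i3 := H.g_sq_integrable
  have hle : ∫ x, orbG n θ x ^ 2 * ‖gradient φ x‖ ^ 2
      ≤ ∫ x, (A₁ * (φ x * orbG n θ x) ^ 2 + B * orbG n θ x ^ 2) := by
    refine integral_mono i1 ((i2.const_mul A₁).add (i3.const_mul B)) fun x => ?_
    have := mul_le_mul_of_nonneg_left (hg x) (sq_nonneg (orbG n θ x))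
    calc orbG n θ x ^ 2 * ‖gradient φ x‖ ^ 2 ≤ orbG n θ x ^ 2 * (A₁ * φ x ^ 2 + B) := this
      _ = _ := by ring
  rw [integral_add (i2.const_mul A₁) (i3.const_mul B), integral_const_mul, integral_const_mul,
    H.ho.g_norm] at hle
  linarith

/-- **S11**. -/
theorem ob_agmon (H : OBHyp n θ k β d V₁ V₂) (hF : OBForm (formalV n θ d) (obCinf k d)) :
    ∃ a C R₁ : ℝ, k < a ∧ ∀ S : ℝ, ∃ u : Space → ℝ, ContDiff ℝ 1 u ∧ HasCompactSupport u ∧
      ∫ x, (u x ^ 2 + ‖gradient u x‖ ^ 2) ≤ C ∧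
      ∀ x : Space, R₁ ≤ ‖x‖ → ‖x‖ ≤ S → (1 / 2) * Real.exp (a * ‖x‖) * orbG n θ x ≤ u x := by
  have hk := H.hk
  have hd := H.hdpos
  obtain ⟨a, ha0, ha2⟩ : ∃ a : ℝ, 0 < a ∧ a ^ 2 = k ^ 2 + d :=
    ⟨√(k ^ 2 + d), Real.sqrt_pos.2 (by positivity), Real.sq_sqrt (by positivity)⟩
  have hka : k < a := lt_of_pow_lt_pow_left₀ 2 ha0.le (by linarith)
  obtain ⟨ε, hε0, hε1, hε2⟩ : ∃ ε : ℝ, 0 < ε ∧ ε ≤ 1 / 4 ∧ ε ≤ d / 8 :=
    ⟨min (1 / 4) (d / 8), lt_min (by norm_num) (by positivity), min_le_left _ _, min_le_right _ _⟩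
  obtain ⟨μ, hμ, hμa⟩ : ∃ μ : ℝ, 0 < μ ∧ μ * a ^ 2 = d / 4 :=
    ⟨d / (4 * a ^ 2), by positivity, by field_simp⟩
  obtain ⟨R, hR⟩ := hF ε hε0
  obtain ⟨M, hM0, hM⟩ := wsCut_grad_bound (E := Space)
  obtain ⟨k₀, hk₀⟩ := exists_nat_ge (max R (bigD + 1))
  have hk₀R : R ≤ (k₀ : ℝ) + 1 := ((le_max_left _ _).trans hk₀).trans (by linarith)
  have hk₀D : bigD < (k₀ : ℝ) + 1 := by
    have := (le_max_right _ _).trans hk₀
    linarith
  obtain ⟨B, hBdef⟩ : ∃ B : ℝ, B = 2 * (1 + 1 / μ) * (M ^ 2 * Real.exp (2 * a * (2 * (k₀ : ℝ) + 3)) + 1) := ⟨_, rfl⟩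
  obtain ⟨m, hm0, hm1, hm2⟩ : ∃ m : ℝ, 0 < m ∧ m ≤ 1 / 4 ∧ m ≤ d / 4 :=
    ⟨min (1 / 4) (d / 4), lt_min (by norm_num) (by positivity), min_le_left _ _, min_le_right _ _⟩
  refine ⟨a, B / m, 2 * ((k₀ : ℝ) + 1), hka, fun S => ?_⟩
  obtain ⟨T, hT, hTdef⟩ : ∃ T : ℝ, 0 < T ∧ T = Real.exp (a * √(1 + S ^ 2)) := ⟨_, Real.exp_pos _, rfl⟩
  obtain ⟨k', hk'⟩ := exists_nat_ge (max S (T * M))
  have hk'S : S ≤ (k' : ℝ) + 1 := ((le_max_left _ _).trans hk').trans (by linarith)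
  have hk'T : T * M ≤ (k' : ℝ) + 1 := ((le_max_right _ _).trans hk').trans (by linarith)
  have hk'0 : (0 : ℝ) < (k' : ℝ) + 1 := by positivity
  have hTM : T ^ 2 * M ^ 2 / ((k' : ℝ) + 1) ^ 2 ≤ 1 := by
    rw [div_le_one (by positivity), ← mul_pow]
    have : 0 ≤ T * M := by positivity
    gcongr
  have hφ : ContDiff ℝ 1 (obAgPhi a T k₀ k') := (obAgPhi_contDiff a hT k₀ k').of_le (by simp)
  obtain ⟨hu, huc, hen⟩ := ob_agmon_energy H hR hφ (obAgPhi_hcs a T k₀ k')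
    (fun x hx hnuc => by
      have h1 : (k₀ : ℝ) + 1 ≤ ‖x‖ := obAgPhi_tsupport a T k₀ k' hx
      rw [ob_nuclei_norm hnuc] at h1
      linarith)
    (fun x hx => obAgPhi_eq_zero a T k' (hx.trans hk₀R))
    (A₁ := (1 + μ) * a ^ 2) (B := B) (fun x => by
      refine (obAgPhi_gradient_sq_le ha0.le hμ hT k₀ k' hM x).trans ?_
      rw [hBdef]
      gcongr)
  refine ⟨_, hu, huc, ?_, fun x hx1 hx2 => ?_⟩
  · have i1 : Integrable fun x => ‖gradient (fun x => obAgPhi a T k₀ k' x * orbG n θ x) x‖ ^ 2 :=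
      ((ws_gradient_continuous hu).norm.pow 2).integrable_of_hasCompactSupport
        (HasCompactSupport.intro (ws_gradient_hasCompactSupport huc).isCompact fun x hx => by
          show ‖gradient (fun x => obAgPhi a T k₀ k' x * orbG n θ x) x‖ ^ 2 = 0
          rw [image_eq_zero_of_notMem_tsupport hx]; simp)
    have i2 : Integrable fun x => (obAgPhi a T k₀ k' x * orbG n θ x) ^ 2 :=
      (hu.continuous.pow 2).integrable_of_hasCompactSupport
        (huc.mono fun x hx h0 => hx (by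
          show (obAgPhi a T k₀ k' x * orbG n θ x) ^ 2 = 0
          have h0' : obAgPhi a T k₀ k' x * orbG n θ x = 0 := h0
          rw [h0']; simp))
    rw [integral_add i2 i1, le_div_iff₀ hm0]
    have hX : 0 ≤ ∫ x, ‖gradient (fun x => obAgPhi a T k₀ k' x * orbG n θ x) x‖ ^ 2 :=
      integral_nonneg fun x => by positivity
    have hY : 0 ≤ ∫ x, (obAgPhi a T k₀ k' x * orbG n θ x) ^ 2 := integral_nonneg fun x => by positivity
    generalize (∫ x, ‖gradient (fun x => obAgPhi a T k₀ k' x * orbG n θ x) x‖ ^ 2) = X at hen hX ⊢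
    generalize (∫ x, (obAgPhi a T k₀ k' x * orbG n θ x) ^ 2) = Y at hen hY ⊢
    have c1 : m ≤ 1 / 2 - ε := by linarith
    have c2 : m ≤ obCinf k d - ε - (1 + μ) * a ^ 2 / 2 := by
      unfold obCinf
      have : (1 + μ) * a ^ 2 = k ^ 2 + d + d / 4 := by rw [add_mul, one_mul, hμa, ha2]
      rw [this]
      linarith
    nlinarith [mul_le_mul_of_nonneg_right c1 hX, mul_le_mul_of_nonneg_right c2 hY]
  · have e0 : wsCut k₀ x = 0 := ob_wsCut_eq_zero hx1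
    have e1 : wsCut k' x = 1 := wsCut_eq_one (hx2.trans hk'S)
    have e2 : obAgPhi a T k₀ k' x = obW a T x := by simp [obAgPhi, e0, e1]
    have h3 : Real.exp (a * obRho x) ≤ T := by
      rw [hTdef]
      exact Real.exp_le_exp.2 (mul_le_mul_of_nonneg_left (ob_ag_rho_mono hx2) ha0.le)
    have h4 := ob_W_ge hT h3
    have h5 : Real.exp (a * ‖x‖) ≤ Real.exp (a * obRho x) :=
      Real.exp_le_exp.2 (mul_le_mul_of_nonneg_left (ob_ag_norm_le_rho x) ha0.le)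
    have hg := (H.ho.g_pos x).le
    show 1 / 2 * Real.exp (a * ‖x‖) * orbG n θ x ≤ obAgPhi a T k₀ k' x * orbG n θ x
    rw [e2]
    refine mul_le_mul_of_nonneg_right ?_ hg
    linarith

end Claimed.Open.R278
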