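import Claimed.Open.R278.OBHeight
import Claimed.Open.R278.OBCmp

/-!
# Result 278, BP-OB, stages S4-S8: `θ ≥ m` on `z ≥ z₂`, `δ → 0` uniformly at infinity in `z ≥ z₂`

LEAVES OB-S4 (`ob_theta_plane_lower`, `ob_theta_lower`), OB-S6 (`OBHyp.drift_bound`), OB-S8 (`ob_barrier`, `ob_decay`).
-/

open MeasureTheory Filter Topology Set
open scoped ContDiff InnerProductSpace ENNReal Laplacian
open Claimed.Agent.R259

noncomputable section

set_option linter.unusedSectionVars false

namespace Claimed.Open.R278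

variable {n θ : Space → ℝ} {k β d : ℝ} {V₁ V₂ : Space → ℝ}

theorem ob_coord_continuous : Continuous fun x : Space => x 2 := by fun_prop

theorem ob_theta_plane_lower (H : OBHyp n θ k β d V₁ V₂) {z₂ : ℝ} (h0 : 0 < z₂) (h1 : z₂ ≤ 1)
    (hh : OBHeight θ z₂) : ∃ m : ℝ, 0 < m ∧ ∀ x : Space, x 2 = z₂ → m < θ x := by
  have hpi := Real.pi_pos
  obtain ⟨P, hP⟩ := hh (Real.pi / 4) (by positivity)
  have hθc := H.θ_contDiff.continuous
  have hpos : ∀ x : Space, x 2 = z₂ → 0 < θ x := fun x hx => by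
    refine H.ho.θ_pos x (by rw [hx]; exact h0) fun hnuc => ?_
    have h5 := ob_nuclei_coord hnuc
    have h6 := ob_one_lt_bigD
    rw [hx, abs_of_pos h0] at h5
    linarith
  have hcpt : IsCompact ({x : Space | x 2 = z₂} ∩ Metric.closedBall (z₂ • ez) P) :=
    (isCompact_closedBall _ _).inter_left (isClosed_eq ob_coord_continuous continuous_const)
  have hfar : ∀ x : Space, x 2 = z₂ → x ∉ Metric.closedBall (z₂ • ez) P → Real.pi / 4 ≤ θ x := by
    intro x hx hxP
    have h2 : (x - z₂ • ez) 2 = 0 := by simp [ez, hx]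
    have h3 : P ≤ ‖x - z₂ • ez‖ := by
      rw [Metric.mem_closedBall, dist_eq_norm] at hxP
      exact (not_le.1 hxP).le
    have h4 := hP _ h2 h3
    rw [sub_add_cancel] at h4
    linarith
  rcases (({x : Space | x 2 = z₂} ∩ Metric.closedBall (z₂ • ez) P)).eq_empty_or_nonempty with he | hne
  · refine ⟨Real.pi / 8, by positivity, fun x hx => ?_⟩
    have : x ∉ Metric.closedBall (z₂ • ez) P := fun hxP => by
      have : x ∈ ({x : Space | x 2 = z₂} ∩ Metric.closedBall (z₂ • ez) P) := ⟨hx, hxP⟩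
      rw [he] at this
      exact this
    have := hfar x hx this
    linarith
  · obtain ⟨x₀, hx₀, hmin⟩ := hcpt.exists_isMinOn hne hθc.continuousOn
    have hm0 := hpos x₀ hx₀.1
    refine ⟨min (Real.pi / 8) (θ x₀ / 2), lt_min (by positivity) (by positivity), fun x hx => ?_⟩
    by_cases hxP : x ∈ Metric.closedBall (z₂ • ez) P
    · have : θ x₀ ≤ θ x := hmin ⟨hx, hxP⟩
      exact lt_of_le_of_lt (min_le_right _ _) (by linarith)
    · have := hfar x hx hxP
      exact lt_of_le_of_lt (min_le_left _ _) (by linarith)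

theorem ob_theta_lower (H : OBHyp n θ k β d V₁ V₂) {z₂ : ℝ} (h0 : 0 < z₂) (h1 : z₂ ≤ 1)
    (hh : OBHeight θ z₂) : ∃ m : ℝ, 0 < m ∧ ∀ x : Space, z₂ ≤ x 2 → m ≤ θ x := by
  obtain ⟨m, hm, hpl⟩ := ob_theta_plane_lower H h0 h1 hh
  refine ⟨m, hm, fun x hx => ?_⟩
  rcases hx.eq_or_lt with hx | hx
  · exact (hpl x hx.symm).le
  have hθc := H.θ_contDiff.continuous
  refine ob_compare (n := n) (θ := θ) (β := fun _ => m) (q := fun x => d * Real.sin (2 * θ x))
    (Ω := {x : Space | z₂ < x 2}) (C := m) H.hn.continuous H.hn.pos H.hn.integrable H.θ_contDiff contDiff_const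
    (continuous_const.mul (Real.continuous_sin.comp (continuous_const.mul hθc)))
    (isOpen_lt continuous_const ob_coord_continuous) ?_ ?_ ?_ ?_ x hx
  · intro x hx
    have := frontier_lt_subset_eq continuous_const ob_coord_continuous hx
    exact hpl x this.symm
  · intro x hx
    have := (H.θ_mem (x := x) (h0.trans hx)).1
    linarith
  · intro φ hφ hc _ _
    have h2 := H.angle_eq hφ hc
    have e1 : ∫ x, n x * ⟪gradient (fun _ : Space => m) x - gradient θ x, gradient φ x⟫_ℝ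
        = - ∫ x, n x * ⟪gradient θ x, gradient φ x⟫_ℝ := by
      rw [← integral_neg]
      refine integral_congr_ae (Eventually.of_forall fun x => ?_)
      simp only [ob_gradient_const, zero_sub, inner_neg_left]
      ring
    have e2 : ∫ x, n x * (d * Real.sin (2 * θ x)) * φ x = d * ∫ x, n x * Real.sin (2 * θ x) * φ x := by
      rw [← integral_const_mul]
      refine integral_congr_ae (Eventually.of_forall fun x => ?_)
      simp only
      ring
    rw [e1, e2, h2]
  · intro x hx _ hnuc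
    have hx0 : 0 < x 2 := h0.trans hx
    have h3 := H.ho.θ_pos x hx0 hnuc
    have h4 := (H.θ_mem hx0).2
    exact mul_pos H.hdpos (Real.sin_pos_of_pos_of_lt_pi (by linarith) (by linarith))

theorem OBHyp.drift_bound (H : OBHyp n θ k β d V₁ V₂) {z₂ : ℝ} (h0 : 0 < z₂) :
    ∃ B₀ P₀ : ℝ, 0 ≤ B₀ ∧ ∀ x : Space, z₂ ≤ x 2 → P₀ ≤ ‖x‖ → ‖gradient n x‖ ≤ B₀ * n x := by
  have hk := H.hk
  obtain ⟨Pb, hPb⟩ := H.hbulk 0 1 one_pos
  obtain ⟨lam, Lam, G, P, hlam, hP0, hpb⟩ := H.plane_bounds h0 |Pb|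
  refine ⟨max (1 + 2 * k) (|G| / lam), P + |Pb|, le_max_of_le_left (by positivity), fun x hz hx => ?_⟩
  have hn := H.hn.pos x
  by_cases hc : Pb ≤ x 2
  · have h1 := (hPb x (hc.trans (le_abs_self _)) 0 (by simp)).2
    simp only [add_zero, inner_zero_right, mul_zero, neg_zero, Real.exp_zero, mul_one] at h1
    have h2 : ‖(n x)⁻¹ • gradient n x‖ ≤ 1 + 2 * k := by
      have h3 := norm_le_norm_add_norm_sub' ((n x)⁻¹ • gradient n x) (-((2 * k) • (‖x‖⁻¹ • x)))
      rw [sub_neg_eq_add, norm_neg, norm_smul (2 * k), Real.norm_of_nonneg (by positivity : 0 ≤ 2 * k)] at h3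
      have h4 := ob_norm_unit_le x
      nlinarith
    rw [norm_smul, norm_inv, Real.norm_of_nonneg hn.le, inv_mul_le_iff₀ hn] at h2
    calc ‖gradient n x‖ ≤ n x * (1 + 2 * k) := h2
      _ = (1 + 2 * k) * n x := mul_comm _ _
      _ ≤ _ := by gcongr; exact le_max_left _ _
  · have hzP : x 2 ≤ |Pb| := (not_le.1 hc).le.trans (le_abs_self _)
    have hx0 : 0 ≤ x 2 := h0.le.trans hz
    have e : (x - x 2 • ez) + x 2 • ez = x := sub_add_cancel _ _
    have hy : (x - x 2 • ez) 2 = 0 := by simp [ez]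
    have hu : ‖x 2 • ez‖ = x 2 := by rw [norm_smul, ob_norm_ez, mul_one, Real.norm_of_nonneg hx0]
    have hyn : P ≤ ‖x - x 2 • ez‖ := by
      have := norm_sub_norm_le x (x 2 • ez)
      rw [hu] at this
      linarith
    have h1 := hpb _ hy hyn (x 2 • ez) (by rw [hu]; exact hzP) (by simpa [ez] using hz)
    rw [e] at h1
    obtain ⟨b1, _, b3⟩ := h1
    have hc2 : 0 ≤ obC k β (x - x 2 • ez) ^ 2 := by positivity
    calc ‖gradient n x‖ ≤ G * obC k β (x - x 2 • ez) ^ 2 := b3
      _ ≤ |G| * obC k β (x - x 2 • ez) ^ 2 := by gcongr; exact le_abs_self _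
      _ = |G| / lam * (lam * obC k β (x - x 2 • ez) ^ 2) := by field_simp
      _ ≤ |G| / lam * n x := by gcongr
      _ ≤ _ := by gcongr; exact le_max_right _ _

theorem ob_barrier_compare (H : OBHyp n θ k β d V₁ V₂) {Ω : Set Space} (hΩ : IsOpen Ω) {b : Space → ℝ}
    (hb2 : ContDiff ℝ 2 b) (hb0 : ∀ x, 0 ≤ b x) {s B₀ c₀ e : ℝ} (hs : 0 ≤ s) (he : 0 ≤ e) (hc₀ : 0 < c₀)
    (hsc : s ^ 2 + s * B₀ ≤ c₀) (hbg : ∀ x, ‖gradient b x‖ ≤ s * b x) (hbl : ∀ x, Δ b x ≤ s ^ 2 * b x)
    (hΩz : ∀ x ∈ Ω, 0 < x 2) (hdrift : ∀ x ∈ Ω, ‖gradient n x‖ ≤ B₀ * n x)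
    (hsin : ∀ x ∈ Ω, c₀ * (Real.pi / 2 - θ x) ≤ d * Real.sin (2 * θ x))
    (hfr : ∀ x ∈ frontier Ω, Real.pi / 2 - e - b x < θ x) :
    ∀ x ∈ Ω, Real.pi / 2 - e - b x ≤ θ x := by
  have hθc := H.θ_contDiff.continuous
  have hb1 : ContDiff ℝ 1 b := hb2.of_le (by norm_num)
  have hnc := H.hn.continuous
  refine ob_compare (n := n) (θ := θ) (β := fun x => Real.pi / 2 - e - b x)
    (q := fun x => c₀ * (Real.pi / 2 - e - b x - θ x)) (Ω := Ω) (C := Real.pi / 2) hnc H.hn.pos
    H.hn.integrable H.θ_contDiff (contDiff_const.sub hb1)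
    (continuous_const.mul ((continuous_const.sub hb1.continuous).sub hθc)) hΩ hfr ?_ ?_ ?_
  · intro x hx
    have := (H.θ_mem (hΩz x hx)).1
    have := hb0 x
    linarith
  · intro φ hφ hc hφ0 hsupp
    have h2 := H.angle_eq hφ hc
    have h3 := ob_ibp_weight H.hn.weakGrad hb2 hφ hc
    have i0 := ob_ibp_weight_integrable H.hn.weakGrad hb2 hφ.continuous hc
    have i1 : Integrable (fun x => n x * ⟪gradient b x, gradient φ x⟫_ℝ) :=
      (hnc.mul ((ws_gradient_continuous hb1).inner (ws_gradient_continuous hφ))).integrable_of_hasCompactSupport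
        (ob_hcs_inner_right _ (ws_gradient_hasCompactSupport hc)).mul_left
    have i2 : Integrable (fun x => n x * ⟪gradient θ x, gradient φ x⟫_ℝ) :=
      (hnc.mul ((ws_gradient_continuous H.θ_contDiff).inner
        (ws_gradient_continuous hφ))).integrable_of_hasCompactSupport
        (ob_hcs_inner_right _ (ws_gradient_hasCompactSupport hc)).mul_left
    have i3 : Integrable (fun x => n x * Real.sin (2 * θ x) * φ x) :=
      ((hnc.mul (Real.continuous_sin.comp (continuous_const.mul hθc))).mul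
        hφ.continuous).integrable_of_hasCompactSupport hc.mul_left
    have i4 : Integrable (fun x => n x * (c₀ * (Real.pi / 2 - e - b x - θ x)) * φ x) :=
      ((hnc.mul (continuous_const.mul ((continuous_const.sub hb1.continuous).sub hθc))).mul
        hφ.continuous).integrable_of_hasCompactSupport hc.mul_left
    have e1 : ∫ x, n x * ⟪gradient (fun x => Real.pi / 2 - e - b x) x - gradient θ x, gradient φ x⟫_ℝ
        = - (∫ x, n x * ⟪gradient b x, gradient φ x⟫_ℝ) - ∫ x, n x * ⟪gradient θ x, gradient φ x⟫_ℝ := by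
      have i1' : Integrable (fun x => -(n x * ⟪gradient b x, gradient φ x⟫_ℝ)) := i1.neg
      rw [← integral_neg, ← integral_sub i1' i2]
      refine integral_congr_ae (Eventually.of_forall fun x => ?_)
      simp only [ob_gradient_const_sub, inner_sub_left, inner_neg_left]
      ring
    rw [e1, h3, h2, neg_neg, ← integral_const_mul, ← integral_neg, ← integral_sub i0 (i3.const_mul d)]
    refine integral_mono (i0.sub (i3.const_mul d)) i4.neg fun x => ?_
    by_cases hx : x ∈ tsupport φ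
    · have hxΩ := hsupp hx
      have hn := H.hn.pos x
      have t1 : ⟪gradient n x, gradient b x⟫_ℝ ≤ B₀ * n x * (s * b x) :=
        (real_inner_le_norm _ _).trans (mul_le_mul (hdrift x hxΩ) (hbg x) (norm_nonneg _)
          ((norm_nonneg _).trans (hdrift x hxΩ)))
      have t2 : n x * Δ b x ≤ n x * (s ^ 2 * b x) := by
        have := hbl x
        gcongr
      have t3 : n x * ((s ^ 2 + s * B₀) * b x) ≤ n x * (c₀ * b x) := by
        have := hb0 x
        gcongr
      have t4 := mul_le_mul_of_nonneg_left (hsin x hxΩ) hn.le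
      have t5 : 0 ≤ n x * (c₀ * e) := by positivity
      have key : ⟪gradient n x, gradient b x⟫_ℝ + n x * Δ b x - d * (n x * Real.sin (2 * θ x))
          ≤ -(n x * (c₀ * (Real.pi / 2 - e - b x - θ x))) := by nlinarith
      have := mul_le_mul_of_nonneg_right key (hφ0 x)
      simp only [Pi.sub_apply, Pi.neg_apply]
      calc (⟪gradient n x, gradient b x⟫_ℝ + n x * Δ b x) * φ x - d * (n x * Real.sin (2 * θ x) * φ x)
          = (⟪gradient n x, gradient b x⟫_ℝ + n x * Δ b x - d * (n x * Real.sin (2 * θ x))) * φ x := by ring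
        _ ≤ -(n x * (c₀ * (Real.pi / 2 - e - b x - θ x))) * φ x := this
        _ = _ := by ring
    · have : φ x = 0 := image_eq_zero_of_notMem_tsupport hx
      simp [this]
  · intro x _ hx _
    exact mul_pos hc₀ (by linarith)

/-- `d sin 2θ ≥ (4 d sin m/π) δ` where `θ ≥ m`. -/
theorem OBHyp.sin_two_lower (H : OBHyp n θ k β d V₁ V₂) {m : ℝ} (hm : 0 < m) {x : Space} (hx : 0 < x 2)
    (hmx : m ≤ θ x) : 4 * d * Real.sin m / Real.pi * (Real.pi / 2 - θ x) ≤ d * Real.sin (2 * θ x) := by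
  have hpi := Real.pi_pos
  have h1 := H.θ_mem hx
  have h2 := Real.mul_le_sin (x := Real.pi / 2 - θ x) (by linarith [h1.2]) (by linarith [h1.1])
  rw [Real.sin_pi_div_two_sub] at h2
  have h3 : Real.sin m ≤ Real.sin (θ x) :=
    Real.sin_le_sin_of_le_of_le_pi_div_two (by linarith) h1.2.le hmx
  have h4 : 0 ≤ Real.sin m := Real.sin_nonneg_of_nonneg_of_le_pi hm.le (by linarith)
  have h5 : 0 ≤ Real.pi / 2 - θ x := by linarith [h1.2]
  have h6 : 0 ≤ Real.sin (θ x) := h4.trans h3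
  rw [Real.sin_two_mul]
  have hd := H.hdpos
  calc 4 * d * Real.sin m / Real.pi * (Real.pi / 2 - θ x)
      = d * (2 * Real.sin m * (2 / Real.pi * (Real.pi / 2 - θ x))) := by field_simp; ring
    _ ≤ d * (2 * Real.sin (θ x) * Real.cos (θ x)) := by gcongr

/-- `OBHeight` in terms of points of the plane `z = z₂`. -/
theorem ob_height_apply {z₂ ε P : ℝ} (h0 : 0 ≤ z₂) 
    (hP : ∀ y : Space, y 2 = 0 → P ≤ ‖y‖ → Real.pi / 2 - θ (y + z₂ • ez) ≤ ε) {x : Space} (hx : x 2 = z₂)
    (hxP : P + z₂ ≤ ‖x‖) : Real.pi / 2 - θ x ≤ ε := by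
  have h2 : (x - z₂ • ez) 2 = 0 := by simp [ez, hx]
  have hu : ‖z₂ • ez‖ = z₂ := by rw [norm_smul, ob_norm_ez, mul_one, Real.norm_of_nonneg h0]
  have h3 : P ≤ ‖x - z₂ • ez‖ := by
    have := norm_sub_norm_le x (z₂ • ez)
    rw [hu] at this
    linarith
  have h4 := hP _ h2 h3
  rwa [sub_add_cancel] at h4

theorem ob_decay (H : OBHyp n θ k β d V₁ V₂) {z₂ : ℝ} (h0 : 0 < z₂) (h1 : z₂ ≤ 1)
    (hh : OBHeight θ z₂) : OBDecay θ z₂ := by
  have hpi := Real.pi_pos
  obtain ⟨m, hm, hlow⟩ := ob_theta_lower H h0 h1 hh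
  obtain ⟨B₀, P₀, hB₀, hdrift⟩ := H.drift_bound h0
  have hmpi : m < Real.pi / 2 := by
    have e : (z₂ • ez : Space) 2 = z₂ := by simp [ez]
    exact (hlow (z₂ • ez) e.ge).trans_lt (H.θ_mem (x := z₂ • ez) (by rw [e]; exact h0)).2
  have hsinm : 0 < Real.sin m := Real.sin_pos_of_pos_of_lt_pi hm (by linarith)
  have hd := H.hdpos
  obtain ⟨c₀, hc₀, hc₀def⟩ : ∃ c₀ : ℝ, 0 < c₀ ∧ c₀ = 4 * d * Real.sin m / Real.pi := ⟨_, by positivity, rfl⟩
  obtain ⟨s, hs, hsc⟩ : ∃ s : ℝ, 0 < s ∧ s ^ 2 + s * B₀ ≤ c₀ := by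
    refine ⟨min 1 (c₀ / (1 + B₀)), lt_min one_pos (by positivity), ?_⟩
    have a1 : min 1 (c₀ / (1 + B₀)) ≤ 1 := min_le_left _ _
    have a2 : min 1 (c₀ / (1 + B₀)) ≤ c₀ / (1 + B₀) := min_le_right _ _
    have a3 : 0 < min 1 (c₀ / (1 + B₀)) := lt_min one_pos (by positivity)
    generalize min 1 (c₀ / (1 + B₀)) = s at a1 a2 a3
    rw [le_div_iff₀ (by positivity)] at a2
    nlinarith
  intro ε hε
  obtain ⟨P, hP⟩ := hh (ε / 4) (by positivity)
  obtain ⟨P', hP'P, hP'P₀, hP'0⟩ : ∃ P' : ℝ, P ≤ P' ∧ P₀ ≤ P' ∧ 0 ≤ P' :=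
    ⟨max (max P P₀) 0, (le_max_left _ _).trans (le_max_left _ _), (le_max_right _ _).trans (le_max_left _ _),
      le_max_right _ _⟩
  obtain ⟨A, hA, hAdef⟩ : ∃ A : ℝ, 0 < A ∧ A = Real.pi / 2 * Real.exp (s * √(1 + (P' + 1) ^ 2)) :=
    ⟨_, by positivity, rfl⟩
  have hΩ : IsOpen ({x : Space | z₂ < x 2} ∩ {x : Space | P' + 1 < ‖x‖}) :=
    (isOpen_lt continuous_const ob_coord_continuous).inter (isOpen_lt continuous_const continuous_norm)
  have main := ob_barrier_compare H hΩ (b := fun x => A * Real.exp (-(s * obRho x)))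
    ((ob_barrier_contDiff A s).of_le reg_two_le_infty) (fun x => by positivity) hs.le
    (e := ε / 2) (by positivity) hc₀ hsc (fun x => (ob_barrier A hA.le hs.le x).1)
    (fun x => (ob_barrier A hA.le hs.le x).2) (fun x hx => h0.trans hx.1)
    (fun x hx => hdrift x (le_of_lt hx.1) (by have := hx.2; simp only [mem_setOf_eq] at this; linarith))
    (fun x hx => by
      rw [hc₀def]
      exact H.sin_two_lower hm (h0.trans hx.1) (hlow x (le_of_lt hx.1)))
    (fun x hx => by
      have hb : 0 ≤ A * Real.exp (-(s * obRho x)) := by positivity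
      rcases frontier_inter_subset _ _ hx with ⟨hx1, hx2⟩ | ⟨hx1, hx2⟩
      · have e1 : z₂ = x 2 := frontier_lt_subset_eq continuous_const ob_coord_continuous hx1
        have e2 : P' + 1 ≤ ‖x‖ := closure_lt_subset_le continuous_const continuous_norm hx2
        have := ob_height_apply h0.le hP e1.symm (by linarith)
        linarith
      · have e1 : z₂ ≤ x 2 := closure_lt_subset_le continuous_const ob_coord_continuous hx1
        have e2 : P' + 1 = ‖x‖ := frontier_lt_subset_eq continuous_const continuous_norm hx2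
        have e3 : A * Real.exp (-(s * obRho x)) = Real.pi / 2 := by
          rw [hAdef, obRho, ← e2, mul_assoc, ← Real.exp_add]
          simp
        have := (H.θ_mem (x := x) (h0.trans_le e1)).1
        rw [e3]
        linarith)
  refine ⟨max (P' + 2) (Real.log (2 * A / ε) / s), fun x hz hR => ?_⟩
  have hR1 : P' + 2 ≤ ‖x‖ := (le_max_left _ _).trans hR
  have hR2 : Real.log (2 * A / ε) / s ≤ ‖x‖ := (le_max_right _ _).trans hR
  rcases hz.eq_or_lt with hz | hz
  · have := ob_height_apply h0.le hP hz.symm (by linarith)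
    linarith
  · have h3 := main x ⟨hz, by simp only [mem_setOf_eq]; linarith⟩
    have h4 : A * Real.exp (-(s * obRho x)) ≤ ε / 2 := by
      have h5 : Real.log (2 * A / ε) ≤ s * obRho x := by
        rw [div_le_iff₀ hs] at hR2
        have := ob_norm_le_rho x
        nlinarith
      have h6 : Real.exp (-(s * obRho x)) ≤ Real.exp (-(Real.log (2 * A / ε))) :=
        Real.exp_le_exp.2 (by linarith)
      rw [Real.exp_neg (Real.log (2 * A / ε)), Real.exp_log (by positivity)] at h6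
      calc A * Real.exp (-(s * obRho x)) ≤ A * (2 * A / ε)⁻¹ := by gcongr
        _ = ε / 2 := by field_simp
    linarith

end Claimed.Open.R278
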