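import Claimed.Open.R278.OBDefs

/-!
# Result 278, BP-OB, tool T5 (paper-free): `‖v - ρ_j * v‖₁ ≤ ‖∇v‖₁/(j+1)`

LEAF OB-T5.
-/

open MeasureTheory Filter Topology Set
open scoped ContDiff InnerProductSpace ENNReal Laplacian
open Claimed.Agent.R259

noncomputable section

set_option linter.unusedSectionVars false

namespace Claimed.Open.R278

/-- a continuous cutoff on the line: `1` on `[0,1]`, `0` off `[-2,2]`. -/
def obCutS (s : ℝ) : ℝ := min 1 (max 0 (2 - |s|))

/-- generates the equation lemma of `obCutS` in this file -/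
theorem obmoll_eqns_cite : True := by
  have := @obCutS.eq_1
  trivial

theorem ob_cutS_continuous : Continuous obCutS :=
  continuous_const.min (continuous_const.max (continuous_const.sub continuous_abs))

theorem ob_cutS_one {s : ℝ} (hs : s ∈ Ioc (0 : ℝ) 1) : obCutS s = 1 := by
  have h1 : |s| = s := abs_of_pos hs.1
  have h2 : (1 : ℝ) ≤ max 0 (2 - |s|) := le_max_of_le_right (by rw [h1]; linarith [hs.2])
  exact min_eq_left h2

theorem ob_cutS_zero {s : ℝ} (hs : 2 < |s|) : obCutS s = 0 := by
  have h2 : max 0 (2 - |s|) = 0 := max_eq_left (by linarith)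
  show min 1 (max 0 (2 - |s|)) = 0
  rw [h2]
  exact min_eq_right zero_le_one

theorem ob_continuous_norm_gradient {v : Space → ℝ} (hv : ContDiff ℝ 1 v) :
    Continuous fun x => ‖gradient v x‖ := by
  have h : ∀ x, ‖gradient v x‖ = ‖fderiv ℝ v x‖ := fun x => by
    unfold gradient
    exact LinearIsometryEquiv.norm_map _ _
  simp only [h]
  exact (hv.continuous_fderiv one_ne_zero).norm

theorem ob_gradient_zero {v : Space → ℝ} {x : Space} (hx : x ∉ tsupport v) : gradient v x = 0 := by
  unfold gradient
  rw [fderiv_of_notMem_tsupport ℝ hx, map_zero]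

theorem ob_abs_fderiv_le (v : Space → ℝ) (x t : Space) :
    |fderiv ℝ v x t| ≤ ‖gradient v x‖ * ‖t‖ := by
  have h : ‖gradient v x‖ = ‖fderiv ℝ v x‖ := by
    unfold gradient
    exact LinearIsometryEquiv.norm_map _ _
  rw [h]
  exact (fderiv ℝ v x).le_opNorm t

/-- pointwise form of the translation estimate. -/
theorem ob_translate_pt {v : Space → ℝ} (hv : ContDiff ℝ 1 v) (t x : Space) :
    |v x - v (x - t)| ≤ ‖t‖ * ∫ s in Ioc (0 : ℝ) 1, ‖gradient v (x - t + s • t)‖ * obCutS s := by
  have hG := ob_continuous_norm_gradient hv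
  have hline : Continuous fun s : ℝ => x - t + s • t :=
    continuous_const.add (continuous_id.smul continuous_const)
  have hder : ∀ s : ℝ, HasDerivAt (fun s : ℝ => v (x - t + s • t))
      (fderiv ℝ v (x - t + s • t) t) s := by
    intro s
    have h1 : HasDerivAt (fun s : ℝ => x - t + s • t) t s := by
      have := ((hasDerivAt_id s).smul_const t).const_add (x - t)
      simpa using this
    exact ((hv.differentiable one_ne_zero _).hasFDerivAt).comp_hasDerivAt s h1
  have hcd : Continuous fun s : ℝ => fderiv ℝ v (x - t + s • t) t :=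
    ((hv.continuous_fderiv one_ne_zero).comp hline).clm_apply continuous_const
  have hftc := intervalIntegral.integral_eq_sub_of_hasDerivAt (a := (0 : ℝ)) (b := 1)
    (fun s _ => hder s) (hcd.intervalIntegrable 0 1)
  have e1 : v x - v (x - t) = ∫ s in (0 : ℝ)..1, fderiv ℝ v (x - t + s • t) t := by
    rw [hftc]
    simp
  rw [e1, ← integral_const_mul, ← Real.norm_eq_abs]
  refine (intervalIntegral.norm_integral_le_integral_norm zero_le_one).trans ?_
  rw [intervalIntegral.integral_of_le zero_le_one]
  refine setIntegral_mono_on hcd.norm.integrableOn_Ioc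
    ((continuous_const.mul ((hG.comp hline).mul ob_cutS_continuous)).integrableOn_Ioc)
    measurableSet_Ioc fun s hs => ?_
  rw [ob_cutS_one hs, mul_one, mul_comm, Real.norm_eq_abs]
  exact ob_abs_fderiv_le v _ t

/-- translation estimate in `L¹`: `v(x) - v(x-t) = ∫₀¹ ∇v(x - s t)·t ds`, Tonelli. -/
theorem ob_translate_L1 {v : Space → ℝ} (hv : ContDiff ℝ 1 v) (hc : HasCompactSupport v) (t : Space) :
    ∫ x, |v x - v (x - t)| ≤ ‖t‖ * ∫ x, ‖gradient v x‖ := by
  have hG := ob_continuous_norm_gradient hv
  obtain ⟨R, hR⟩ := hc.isCompact.isBounded.subset_closedBall (0 : Space)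
  have hG0 : ∀ x : Space, R < ‖x‖ → ‖gradient v x‖ = 0 := by
    intro x hx
    rw [ob_gradient_zero (fun h => ?_), norm_zero]
    have := hR h
    rw [Metric.mem_closedBall, dist_zero_right] at this
    linarith
  set f : Space → ℝ → ℝ := fun x s => ‖gradient v (x - t + s • t)‖ * obCutS s with hf
  have hfc : Continuous (Function.uncurry f) := by
    have h1 : Continuous fun p : Space × ℝ => p.1 - t + p.2 • t :=
      (continuous_fst.sub continuous_const).add (continuous_snd.smul continuous_const)
    exact (hG.comp h1).mul (ob_cutS_continuous.comp continuous_snd)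
  have hfs : HasCompactSupport (Function.uncurry f) := by
    refine HasCompactSupport.intro
      ((isCompact_closedBall (0 : Space) (R + 3 * ‖t‖)).prod (isCompact_Icc (a := (-2 : ℝ)) (b := 2)))
      fun p hp => ?_
    show ‖gradient v (p.1 - t + p.2 • t)‖ * obCutS p.2 = 0
    by_cases hs : 2 < |p.2|
    · rw [ob_cutS_zero hs, mul_zero]
    · have hs' : |p.2| ≤ 2 := not_lt.1 hs
      have hx : R + 3 * ‖t‖ < ‖p.1‖ := by
        by_contra hcon
        apply hp
        refine ⟨?_, abs_le.1 hs'⟩
        rw [Metric.mem_closedBall, dist_zero_right]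
        exact not_lt.1 hcon
      rw [hG0, zero_mul]
      have h1 : ‖p.1‖ ≤ ‖p.1 - t + p.2 • t‖ + ‖t‖ + ‖p.2 • t‖ := by
        have e : p.1 = (p.1 - t + p.2 • t) + t - p.2 • t := by abel
        calc ‖p.1‖ = ‖(p.1 - t + p.2 • t) + t - p.2 • t‖ := by rw [← e]
          _ ≤ ‖(p.1 - t + p.2 • t) + t‖ + ‖p.2 • t‖ := norm_sub_le _ _
          _ ≤ _ := by gcongr; exact norm_add_le _ _
      have h2 : ‖p.2 • t‖ ≤ 2 * ‖t‖ := by
        rw [norm_smul, Real.norm_eq_abs]
        exact mul_le_mul_of_nonneg_right hs' (norm_nonneg _)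
      linarith
  have hInt : Integrable (Function.uncurry f)
      ((volume : Measure Space).prod (volume.restrict (Ioc (0 : ℝ) 1))) :=
    hfc.integrable_of_hasCompactSupport hfs
  have hsw := integral_integral_swap hInt
  have hinner : ∀ s ∈ Ioc (0 : ℝ) 1, ∫ x, f x s = ∫ x, ‖gradient v x‖ := by
    intro s hs
    simp only [hf, ob_cutS_one hs, mul_one]
    have e : ∀ x : Space, x - t + s • t = x + (s • t - t) := fun x => by abel
    simp only [e]
    exact integral_add_right_eq_self (fun x => ‖gradient v x‖) (s • t - t)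
  have hval : ∫ s in Ioc (0 : ℝ) 1, ∫ x, f x s = ∫ x, ‖gradient v x‖ := by
    rw [setIntegral_congr_fun measurableSet_Ioc hinner, setIntegral_const]
    simp
  have hmono : ∫ x, |v x - v (x - t)| ≤ ∫ x, ‖t‖ * ∫ s in Ioc (0 : ℝ) 1, f x s := by
    refine integral_mono_of_nonneg (Eventually.of_forall fun x => abs_nonneg _)
      (hInt.integral_prod_left.const_mul _) (Eventually.of_forall fun x => ?_)
    exact ob_translate_pt hv t x
  rw [integral_const_mul, hsw, hval] at hmono
  exact hmono

/-- **T5**.  (`v x - wsMol j v x = ∫ wsRho j t (v x - v (x - t)) dt` by `wsMol_eq'`, `wsRho_integral`; `wsRho j t = 0` for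
`‖t‖ ≥ 1/(j+1)`; Tonelli.) -/
theorem ob_moll_L1 (j : ℕ) {v : Space → ℝ} (hv : ContDiff ℝ 1 v) (hc : HasCompactSupport v) :
    ∫ x, |v x - wsMol j v x| ≤ (1 / ((j : ℝ) + 1)) * ∫ x, ‖gradient v x‖ := by
  have hvc : Continuous v := hv.continuous
  have hρc : Continuous (wsRho j : Space → ℝ) := (wsRho_contDiff j).continuous
  have hj : (0 : ℝ) < 1 / ((j : ℝ) + 1) := by positivity
  obtain ⟨R, hR⟩ := hc.isCompact.isBounded.subset_closedBall (0 : Space)
  have hv0 : ∀ x : Space, R < ‖x‖ → v x = 0 := by
    intro x hx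
    refine image_eq_zero_of_notMem_tsupport fun h => ?_
    have := hR h
    rw [Metric.mem_closedBall, dist_zero_right] at this
    linarith
  set f : Space → Space → ℝ := fun x t => wsRho j t * |v x - v (x - t)| with hf
  have hfc : Continuous (Function.uncurry f) :=
    (hρc.comp continuous_snd).mul
      ((hvc.comp continuous_fst).sub (hvc.comp (continuous_fst.sub continuous_snd))).abs
  have hfs : HasCompactSupport (Function.uncurry f) := by
    refine HasCompactSupport.intro
      ((isCompact_closedBall (0 : Space) (R + 1 / ((j : ℝ) + 1))).prod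
        (isCompact_closedBall (0 : Space) (1 / ((j : ℝ) + 1)))) fun p hp => ?_
    show wsRho j p.2 * |v p.1 - v (p.1 - p.2)| = 0
    by_cases ht : 1 / ((j : ℝ) + 1) ≤ ‖p.2‖
    · rw [wsRho_eq_zero ht, zero_mul]
    · have ht' : ‖p.2‖ ≤ 1 / ((j : ℝ) + 1) := (not_le.1 ht).le
      have hx : R + 1 / ((j : ℝ) + 1) < ‖p.1‖ := by
        by_contra hcon
        apply hp
        refine ⟨?_, ?_⟩
        · rw [Metric.mem_closedBall, dist_zero_right]
          exact not_lt.1 hcon
        · rw [Metric.mem_closedBall, dist_zero_right]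
          exact ht'
      have h1 : ‖p.1‖ ≤ ‖p.1 - p.2‖ + ‖p.2‖ := by
        calc ‖p.1‖ = ‖(p.1 - p.2) + p.2‖ := by rw [sub_add_cancel]
          _ ≤ _ := norm_add_le _ _
      rw [hv0 p.1 (by linarith), hv0 (p.1 - p.2) (by linarith)]
      simp
  have hInt : Integrable (Function.uncurry f)
      ((volume : Measure Space).prod (volume : Measure Space)) :=
    hfc.integrable_of_hasCompactSupport hfs
  have hsw := integral_integral_swap hInt
  have hli : LocallyIntegrable v volume := hvc.locallyIntegrable
  have hpt : ∀ x, |v x - wsMol j v x| ≤ ∫ t, f x t := by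
    intro x
    have i1 : Integrable (fun t : Space => wsRho j t * v x) volume :=
      (wsRho_integrable j).mul_const _
    have i2 : Integrable (fun t : Space => wsRho j t * v (x - t)) volume :=
      wsMol_integrable' j hli x
    have e1 : v x - wsMol j v x = ∫ t, wsRho j t * (v x - v (x - t)) := by
      have e2 : ∀ t : Space, wsRho j t * (v x - v (x - t))
          = wsRho j t * v x - wsRho j t * v (x - t) := fun t => by ring
      simp only [e2]
      rw [integral_sub i1 i2, integral_mul_const, wsRho_integral, one_mul, wsMol_eq']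
      simp only [smul_eq_mul]
    rw [e1, ← Real.norm_eq_abs]
    refine (norm_integral_le_integral_norm _).trans (le_of_eq ?_)
    refine integral_congr_ae (Eventually.of_forall fun t => ?_)
    show ‖wsRho j t * (v x - v (x - t))‖ = wsRho j t * |v x - v (x - t)|
    rw [norm_mul, Real.norm_of_nonneg (wsRho_nonneg j t), Real.norm_eq_abs]
  have hI0 : 0 ≤ ∫ x, ‖gradient v x‖ := integral_nonneg fun _ => norm_nonneg _
  have hinner : ∀ t : Space, ∫ x, f x t
      ≤ wsRho j t * ((1 / ((j : ℝ) + 1)) * ∫ x, ‖gradient v x‖) := by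
    intro t
    simp only [hf]
    rw [integral_const_mul]
    by_cases ht : 1 / ((j : ℝ) + 1) ≤ ‖t‖
    · rw [wsRho_eq_zero ht, zero_mul, zero_mul]
    · refine mul_le_mul_of_nonneg_left ?_ (wsRho_nonneg j t)
      exact (ob_translate_L1 hv hc t).trans (mul_le_mul_of_nonneg_right (not_le.1 ht).le hI0)
  calc ∫ x, |v x - wsMol j v x| ≤ ∫ x, ∫ t, f x t :=
        integral_mono_of_nonneg (Eventually.of_forall fun x => abs_nonneg _)
          hInt.integral_prod_left (Eventually.of_forall hpt)
    _ = ∫ t, ∫ x, f x t := hsw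
    _ ≤ ∫ t, wsRho j t * ((1 / ((j : ℝ) + 1)) * ∫ x, ‖gradient v x‖) :=
        integral_mono hInt.integral_prod_right ((wsRho_integrable j).mul_const _) hinner
    _ = _ := by rw [integral_mul_const, wsRho_integral, one_mul]

end Claimed.Open.R278
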