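import Claimed.Open.R278.OBDefs
import Claimed.Open.R278.FSH2

/-!
# Result 278, BP-OB, tool T6 (paper-free): slabs and squares

LEAF OB-T6.  Uses `planePt`, `integral_space_eq_plane`, `measurePreserving_planePt`, `trace_plane_of_contDiff` of `FSH2.lean` (leaf FS-T1).
-/

open MeasureTheory Filter Topology Set
open scoped ContDiff InnerProductSpace ENNReal Laplacian
open Claimed.Agent.R259

noncomputable section

set_option linter.unusedSectionVars false

namespace Claimed.Open.R278

/-- `|∂_z u| ≤ |∇u|`. -/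
theorem ob_fderiv_ez_sq_le (u : Space → ℝ) (x : Space) : fderiv ℝ u x ez ^ 2 ≤ ‖gradient u x‖ ^ 2 := by
  have h1 : fderiv ℝ u x ez = ⟪gradient u x, ez⟫_ℝ := (inner_gradient_left).symm
  have h2 : ‖ez‖ = 1 := by simp [ez]
  have h3 : |⟪gradient u x, ez⟫_ℝ| ≤ ‖gradient u x‖ * ‖ez‖ := abs_real_inner_le_norm _ _
  rw [h1, ← sq_abs]
  rw [h2, mul_one] at h3
  exact pow_le_pow_left₀ (abs_nonneg _) h3 2

theorem ob_integrable_h1 {u : Space → ℝ} (hu : ContDiff ℝ 1 u) (hc : HasCompactSupport u) :
    Integrable fun x => u x ^ 2 + ‖gradient u x‖ ^ 2 := by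
  have hcu : Continuous u := hu.continuous
  have hg : Continuous fun x => gradient u x := by
    have : Continuous fun x => fderiv ℝ u x := hu.continuous_fderiv one_ne_zero
    exact (InnerProductSpace.toDual ℝ Space).symm.continuous.comp this
  refine ((hcu.pow 2).add (hg.norm.pow 2)).integrable_of_hasCompactSupport ?_
  refine HasCompactSupport.intro hc.isCompact fun x hx => ?_
  have h1 : u x = 0 := image_eq_zero_of_notMem_tsupport hx
  have h2 : fderiv ℝ u x = 0 := fderiv_of_notMem_tsupport ℝ hx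
  have h3 : gradient u x = 0 := by simp [gradient, h2]
  simp [h1, h3]

/-- the trace on every horizontal plane. -/
theorem ob_trace_le {u : Space → ℝ} (hu : ContDiff ℝ 1 u) (hc : HasCompactSupport u) (z₀ : ℝ) :
    ∫ q : ℝ × ℝ, u (planePt q z₀) ^ 2 ≤ ∫ x, (u x ^ 2 + ‖gradient u x‖ ^ 2) := by
  refine (trace_plane_of_contDiff hu hc z₀).trans ?_
  have hi := ob_integrable_h1 hu hc
  have hcd : Continuous fun x => fderiv ℝ u x ez := fs_cont_d hu ez
  have hi2 : Integrable fun x => u x ^ 2 + fderiv ℝ u x ez ^ 2 := by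
    refine hi.mono' ((hu.continuous.pow 2).add (hcd.pow 2)).aestronglyMeasurable (ae_of_all _ fun x => ?_)
    rw [Real.norm_eq_abs, abs_of_nonneg (by positivity)]
    have := ob_fderiv_ez_sq_le u x
    linarith
  calc ∫ x in {x : Space | z₀ < x 2}, (u x ^ 2 + fderiv ℝ u x ez ^ 2)
      ≤ ∫ x, (u x ^ 2 + fderiv ℝ u x ez ^ 2) :=
        setIntegral_le_integral hi2 (ae_of_all _ fun x => by positivity)
    _ ≤ ∫ x, (u x ^ 2 + ‖gradient u x‖ ^ 2) :=
        integral_mono hi2 hi fun x => by
          have := ob_fderiv_ez_sq_le u x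
          show u x ^ 2 + fderiv ℝ u x ez ^ 2 ≤ u x ^ 2 + ‖gradient u x‖ ^ 2
          linarith

/-- **T6a**.  A slab of width `2τ` carries at most `2τ ‖u‖²_{H¹}`. -/
theorem ob_slab_le {u : Space → ℝ} (hu : ContDiff ℝ 1 u) (hc : HasCompactSupport u) {τ : ℝ} (hτ : 0 ≤ τ) :
    ∫ x in {x : Space | |x 2| ≤ τ}, u x ^ 2 ≤ 2 * τ * ∫ x, (u x ^ 2 + ‖gradient u x‖ ^ 2) := by
  set M : ℝ := ∫ x, (u x ^ 2 + ‖gradient u x‖ ^ 2) with hM
  have hS : MeasurableSet {x : Space | |x 2| ≤ τ} := by
    have : Continuous fun x : Space => |x 2| := by fun_prop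
    exact (isClosed_le this continuous_const).measurableSet
  have hu2 : Integrable fun x => u x ^ 2 :=
    (hu.continuous.pow 2).integrable_of_hasCompactSupport
      (HasCompactSupport.intro hc.isCompact fun x hx => by
        simp [image_eq_zero_of_notMem_tsupport hx])
  have hF : Integrable (fun p : (ℝ × ℝ) × ℝ => u (planePt p.1 p.2) ^ 2) volume :=
    measurePreserving_planePt.integrable_comp_of_integrable hu2
  rw [← integral_indicator hS, integral_space_eq_plane]
  have e1 : ∀ p : (ℝ × ℝ) × ℝ, ({x : Space | |x 2| ≤ τ}).indicator (fun x => u x ^ 2) (planePt p.1 p.2)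
      = (Icc (-τ) τ).indicator (fun z => u (planePt p.1 z) ^ 2) p.2 := by
    intro p
    have hz : (planePt p.1 p.2) 2 = p.2 := by simp [planePt]
    by_cases h : |p.2| ≤ τ
    · have h2 : p.2 ∈ Icc (-τ) τ := abs_le.1 h
      rw [indicator_of_mem (by simpa [hz] using h), indicator_of_mem h2]
    · have h2 : p.2 ∉ Icc (-τ) τ := fun h' => h (abs_le.2 h')
      rw [indicator_of_notMem (by simpa [hz] using h), indicator_of_notMem h2]
  simp only [e1]
  have hF2 : Integrable (fun p : (ℝ × ℝ) × ℝ => (Icc (-τ) τ).indicator (fun z => u (planePt p.1 z) ^ 2) p.2)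
      (volume.prod volume) := by
    have : (fun p : (ℝ × ℝ) × ℝ => (Icc (-τ) τ).indicator (fun z => u (planePt p.1 z) ^ 2) p.2)
        = (univ ×ˢ Icc (-τ) τ).indicator (fun p : (ℝ × ℝ) × ℝ => u (planePt p.1 p.2) ^ 2) := by
      funext p
      by_cases h : p.2 ∈ Icc (-τ) τ
      · rw [indicator_of_mem h, indicator_of_mem (by simpa using h)]
      · rw [indicator_of_notMem h, indicator_of_notMem (by simpa using h)]
    rw [this]
    exact hF.indicator (MeasurableSet.univ.prod measurableSet_Icc)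
  rw [show (volume : Measure ((ℝ × ℝ) × ℝ)) = volume.prod volume from rfl, integral_prod_symm _ hF2]
  have e2 : ∀ z : ℝ, ∫ q : ℝ × ℝ, (Icc (-τ) τ).indicator (fun z => u (planePt q z) ^ 2) z
      = (Icc (-τ) τ).indicator (fun z => ∫ q : ℝ × ℝ, u (planePt q z) ^ 2) z := by
    intro z
    by_cases h : z ∈ Icc (-τ) τ
    · simp only [indicator_of_mem h]
    · simp only [indicator_of_notMem h, integral_zero]
  simp only [e2]
  rw [integral_indicator measurableSet_Icc]
  have hI : Integrable (fun z => ∫ q : ℝ × ℝ, u (planePt q z) ^ 2) volume := hF.integral_prod_right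
  calc ∫ z in Icc (-τ) τ, ∫ q : ℝ × ℝ, u (planePt q z) ^ 2
      ≤ ∫ _z in Icc (-τ) τ, M :=
        setIntegral_mono hI.integrableOn (integrableOn_const (by simp)) fun z => ob_trace_le hu hc z
    _ = 2 * τ * M := by
        rw [setIntegral_const]
        simp only [Measure.real, Real.volume_Icc, smul_eq_mul]
        rw [ENNReal.toReal_ofReal (by linarith)]
        ring

/-- **T6b**.  The trace on a unit square of the median plane. -/
theorem ob_trace_square {u : Space → ℝ} (hu : ContDiff ℝ 1 u) (hc : HasCompactSupport u) (s : ℝ) :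
    ∫ q in Set.Icc s (s + 1) ×ˢ Set.Icc (0 : ℝ) 1, u (planePt q 0) ^ 2
      ≤ ∫ x, (u x ^ 2 + ‖gradient u x‖ ^ 2) := by
  refine le_trans ?_ (ob_trace_le hu hc 0)
  obtain ⟨R, hR⟩ := hc.isCompact.isBounded.exists_norm_le
  have hcont : Continuous fun q : ℝ × ℝ => u (planePt q 0) ^ 2 :=
    (hu.continuous.comp (fst_continuous_planePt.comp (continuous_id.prodMk continuous_const))).pow 2
  have hint : Integrable fun q : ℝ × ℝ => u (planePt q 0) ^ 2 := by
    refine hcont.integrable_of_hasCompactSupport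
      (HasCompactSupport.intro (isCompact_closedBall (0 : ℝ × ℝ) R) fun q hq => ?_)
    have hq' : R < ‖q‖ := by simpa [mem_closedBall_zero_iff] using hq
    have : planePt q 0 ∉ tsupport u := fun h =>
      absurd ((fst_norm_le_norm q 0).trans (hR _ h)) (not_le.2 hq')
    simp [image_eq_zero_of_notMem_tsupport this]
  exact setIntegral_le_integral hint (ae_of_all _ fun q => by positivity)

end Claimed.Open.R278
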