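import Claimed.Open.R278.OBBasic
import Claimed.Open.R278.OBCalc

/-!
# Result 278, BP-OB: translated forms of the weak equations
-/

open MeasureTheory Filter Topology Set
open scoped ContDiff InnerProductSpace ENNReal Laplacian
open Claimed.Agent.R259

noncomputable section

set_option linter.unusedSectionVars false

namespace Claimed.Open.R278

variable {n θ : Space → ℝ} {k β d : ℝ} {V₁ V₂ : Space → ℝ}

theorem ob_laplacian_comp_sub (f : Space → ℝ) (a x : Space) : Δ (fun y => f (y - a)) x = Δ f (x - a) := by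
  simp only [InnerProductSpace.laplacian_eq_iteratedFDeriv_stdOrthonormalBasis, iteratedFDeriv_comp_sub]

theorem ob_hcs_comp_sub {F : Type*} [Zero F] {f : Space → F} (hf : HasCompactSupport f) (a : Space) :
    HasCompactSupport (fun x => f (x - a)) :=
  hf.comp_homeomorph (Homeomorph.subRight a)

theorem ob_integral_tr (f : Space → ℝ) (y : Space) : ∫ u, f (y + u) = ∫ x, f x :=
  integral_add_left_eq_self f y

theorem ob_setIntegral_closedBall_tr (f : Space → ℝ) (y : Space) (K : ℝ) :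
    ∫ u in Metric.closedBall (0 : Space) K, f (y + u) = ∫ x in Metric.closedBall y K, f x := by
  rw [← integral_indicator Metric.isClosed_closedBall.measurableSet,
    ← integral_indicator Metric.isClosed_closedBall.measurableSet,
    ← ob_integral_tr ((Metric.closedBall y K).indicator f) y]
  refine integral_congr_ae (Eventually.of_forall fun u => ?_)
  by_cases hu : u ∈ Metric.closedBall (0 : Space) K
  · have : y + u ∈ Metric.closedBall y K := by simpa [dist_eq_norm] using hu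
    simp only [indicator_of_mem hu, indicator_of_mem this]
  · have : y + u ∉ Metric.closedBall y K := by simpa [dist_eq_norm] using hu
    simp only [indicator_of_notMem hu, indicator_of_notMem this]

theorem ob_locallyIntegrable_tr {f : Space → ℝ} (hf : LocallyIntegrable f volume) (y : Space) :
    LocallyIntegrable (fun u => f (y + u)) volume := by
  rw [locallyIntegrable_iff] at hf ⊢
  intro K hK
  have hK' : IsCompact ((fun u => y + u) '' K) := hK.image (by fun_prop)
  have h1 := hf _ hK'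
  have hmp := measurePreserving_add_left (volume : Measure Space) y
  have hemb : MeasurableEmbedding (fun u : Space => y + u) := measurableEmbedding_addLeft y
  have h2 := (hmp.integrableOn_comp_preimage hemb).2 h1
  rwa [preimage_image_eq _ (add_right_injective y)] at h2

theorem ob_ae_tr {p : Space → Prop} (h : ∀ᵐ x, p x) (y : Space) : ∀ᵐ u, p (y + u) :=
  (measurePreserving_add_left volume y).quasiMeasurePreserving.ae h

theorem OBHyp.g_test_tr (H : OBHyp n θ k β d V₁ V₂) {ψ : Space → ℝ} (hψ : ContDiff ℝ 2 ψ)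
    (hc : HasCompactSupport ψ) (y : Space) :
    ∫ u, orbG n θ (y + u) * Δ ψ u = 2 * ∫ u, formalV n θ d (y + u) * orbG n θ (y + u) * ψ u := by
  have h := H.g_test (ψ := fun x => ψ (x - y)) (hψ.comp (contDiff_id.sub contDiff_const)) (ob_hcs_comp_sub hc y)
  rw [← ob_integral_tr _ y, ← ob_integral_tr (fun x => formalV n θ d x * orbG n θ x * ψ (x - y)) y] at h
  simpa only [ob_laplacian_comp_sub, add_sub_cancel_left] using h

theorem OBHyp.h_test_tr (H : OBHyp n θ k β d V₁ V₂) {φ : Space → ℝ} (hφ : ContDiff ℝ 2 φ)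
    (hc : HasCompactSupport φ) (y : Space) :
    ∫ u, (formalV n θ d (y + u) - d) * orbH n θ (y + u) * φ u = (1 / 2) * ∫ u, orbH n θ (y + u) * Δ φ u := by
  have h := H.h_test (φ := fun x => φ (x - y)) (hφ.comp (contDiff_id.sub contDiff_const)) (ob_hcs_comp_sub hc y)
  rw [← ob_integral_tr _ y, ← ob_integral_tr (fun x => orbH n θ x * Δ (fun x => φ (x - y)) x) y] at h
  simpa only [ob_laplacian_comp_sub, add_sub_cancel_left] using h

theorem ob_inner_hasFDerivAt (w x : Space) : HasFDerivAt (fun x' : Space => ⟪w, x'⟫_ℝ) (innerSL ℝ w) x :=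
  (innerSL ℝ w).hasFDerivAt

theorem ob_prof_gradient (a k : ℝ) (w x : Space) :
    gradient (fun x' : Space => a ^ 2 * x' 2 ^ 2 * Real.exp (-(2 * k * ⟪w, x'⟫_ℝ))) x
      = (a ^ 2 * (2 * x 2) * Real.exp (-(2 * k * ⟪w, x⟫_ℝ))) • ez
        - (a ^ 2 * x 2 ^ 2 * (2 * k) * Real.exp (-(2 * k * ⟪w, x⟫_ℝ))) • w := by
  refine ob_gradient_of_hasFDerivAt ?_
  have h2 := ((ob_coord_hasFDerivAt x).pow 2).const_mul (a ^ 2)
  have h4 := ((ob_inner_hasFDerivAt w x).const_mul (2 * k)).neg.exp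
  have h5 := h2.mul h4
  refine HasFDerivAt.congr_fderiv h5 ?_
  ext v
  simp [inner_sub_left, inner_smul_left]
  ring

theorem ob_norm_unit_le (y : Space) : ‖‖y‖⁻¹ • y‖ ≤ 1 := by
  rw [norm_smul, norm_inv, norm_norm]
  rcases eq_or_ne ‖y‖ 0 with h | h
  · rw [h]; simp
  · rw [inv_mul_cancel₀ h]

theorem ob_prof_gradient_le (a : ℝ) {k K : ℝ} (hk : 0 ≤ k) {w x : Space} (hw : ‖w‖ ≤ 1) (hx : ‖x‖ ≤ K) :
    ‖gradient (fun x' : Space => a ^ 2 * x' 2 ^ 2 * Real.exp (-(2 * k * ⟪w, x'⟫_ℝ))) x‖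
      ≤ a ^ 2 * Real.exp (2 * k * K) * (2 * K + 2 * k * K ^ 2) := by
  rw [ob_prof_gradient]
  have hK : 0 ≤ K := (norm_nonneg x).trans hx
  have hz : |x 2| ≤ K := (ob_abs_coord_le x 2).trans hx
  have hz2 : x 2 ^ 2 ≤ K ^ 2 := by rw [← sq_abs]; gcongr
  have hE : Real.exp (-(2 * k * ⟪w, x⟫_ℝ)) ≤ Real.exp (2 * k * K) := by
    refine Real.exp_le_exp.2 ?_
    have h1 : |⟪w, x⟫_ℝ| ≤ K := (abs_real_inner_le_norm _ _).trans (by nlinarith [norm_nonneg w, norm_nonneg x])
    have := (abs_le.1 h1).1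
    nlinarith
  refine (norm_sub_le _ _).trans ?_
  rw [norm_smul, norm_smul, ob_norm_ez, mul_one, Real.norm_eq_abs, Real.norm_eq_abs]
  simp only [abs_mul, abs_of_nonneg (sq_nonneg a), abs_of_pos (Real.exp_pos _), abs_of_nonneg (sq_nonneg (x 2)),
    abs_of_nonneg hk, abs_two]
  have t1 : a ^ 2 * (2 * |x 2|) * Real.exp (-(2 * k * ⟪w, x⟫_ℝ)) ≤ a ^ 2 * (2 * K) * Real.exp (2 * k * K) := by
    gcongr
  have t2 : a ^ 2 * x 2 ^ 2 * (2 * k) * Real.exp (-(2 * k * ⟪w, x⟫_ℝ)) * ‖w‖
      ≤ a ^ 2 * K ^ 2 * (2 * k) * Real.exp (2 * k * K) * 1 := by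
    gcongr
  calc _ ≤ a ^ 2 * (2 * K) * Real.exp (2 * k * K) + a ^ 2 * K ^ 2 * (2 * k) * Real.exp (2 * k * K) * 1 :=
        add_le_add t1 t2
    _ = _ := by ring

end Claimed.Open.R278
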