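import Claimed.Open.R278.OBLimit
import Claimed.Open.R278.OBMoll
import Claimed.Open.R278.OBTrace
import Claimed.Open.R278.OBTrans
import Claimed.Agent.R259.Pack029

/-!
# Result 278, BP-OB, stage S10: the exterior form bound

LEAF OB-S10.

PROOF.  `W = V₂ - c∞`, `|W| ≤ K' = K₂ + c∞` a.e., `v = u²`, `I₀(y) = wsMol j W y = ∫ W(x) ρ_j(x - y) dx` (`ρ_j` even).
`∫ V u² = c∞ ∫u² + ∫ V₁ u² + ∫ W v`;  `|∫V₁u²| ≤ (ε/4) ∫|∇u|²` (`ob_sobolev_holder`);
`∫ W v = ∫ W (v - wsMol j v) + ∫ I₀ v` (`wsMol_integral_symm`);  `|∫ W (v - wsMol j v)| ≤ K' ‖∇v‖₁/(j+1) ≤ K'/(j+1) (∫u² + ∫|∇u|²)` (`ob_moll_L1`).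
`|I₀| ≤ K'` everywhere;  `|I₀(y)| ≤ η` for `|y_z| ≥ Z₀` (`ob_V2_bulk`);  for `τ ≤ |y_z| ≤ Z₀`, `|y| ≥ R`:
`|y_z| |I₀(y)| ≤ |∫ W x_z ρ_j(x-y)| + K'/(j+1) ≤ η + K'/(j+1)` (`ob_V2_plane`).  Slab `|y_z| ≤ τ`: `ob_slab_le`.
Choose `τ`, then `j`, then `η`, then `R`.
-/

open MeasureTheory Filter Topology Set
open scoped ContDiff InnerProductSpace ENNReal Laplacian
open Claimed.Agent.R259

noncomputable section

set_option linter.unusedSectionVars false

namespace Claimed.Open.R278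

variable {n θ : Space → ℝ} {k β d : ℝ} {V₁ V₂ : Space → ℝ}

theorem ob_integrable_mul_cc {W f : Space → ℝ} (hW : LocallyIntegrable W volume) (hf : Continuous f)
    (hc : HasCompactSupport f) : Integrable fun x => W x * f x := by
  have := hW.integrable_smul_right_of_hasCompactSupport hf hc
  simpa only [smul_eq_mul] using this

theorem ob_sq_gradient_norm_le {u : Space → ℝ} (hu : ContDiff ℝ 1 u) (x : Space) :
    ‖gradient (fun x => u x ^ 2) x‖ ≤ u x ^ 2 + ‖gradient u x‖ ^ 2 := by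
  have hd : DifferentiableAt ℝ u x := hu.differentiable (by simp) x
  have e : (fun x => u x ^ 2) = fun x => u x * u x := by funext y; ring
  rw [e, ob_gradient_mul hd hd, ← add_smul, norm_smul, Real.norm_eq_abs]
  have h1 : |u x + u x| = 2 * |u x| := by rw [← two_mul, abs_mul, abs_two]
  rw [h1]
  nlinarith [sq_nonneg (|u x| - ‖gradient u x‖), sq_abs (u x)]

theorem ob_form_core {W : Space → ℝ} (hW : LocallyIntegrable W volume) {K' : ℝ} (hK0 : 0 ≤ K')
    (hK' : ∀ᵐ x, |W x| ≤ K') (j : ℕ) {τ e₁ R : ℝ} (hτ : 0 ≤ τ) (he₁ : 0 ≤ e₁)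
    (hI : ∀ y : Space, R ≤ ‖y‖ → τ ≤ |y 2| → |wsMol j W y| ≤ e₁)
    {u : Space → ℝ} (hu : ContDiff ℝ 1 u) (hc : HasCompactSupport u) (h0 : ∀ x, ‖x‖ ≤ R → u x = 0) :
    -((K' / ((j : ℝ) + 1) + 2 * τ * K') * (∫ x, (u x ^ 2 + ‖gradient u x‖ ^ 2)) + e₁ * ∫ x, u x ^ 2)
      ≤ ∫ x, W x * u x ^ 2 := by
  have hv : ContDiff ℝ 1 (fun x => u x ^ 2) := hu.pow 2
  have hvc : HasCompactSupport (fun x => u x ^ 2) := hc.mono fun x hx h0 => hx (by
    show u x ^ 2 = 0
    have h0' : u x = 0 := h0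
    rw [h0']; simp)
  have hN := ob_integrable_h1 hu hc
  have hmoll := ob_moll_L1 j hv hvc
  have hMt := wsMol_isTest j hv.continuous.locallyIntegrable hvc
  have hMc : Continuous (wsMol j fun x => u x ^ 2) := hMt.1.continuous
  have hsymm := wsMol_integral_symm j hW hv.continuous hvc
  have hIc : Continuous (wsMol j W) := (wsMol_contDiff j hW).continuous
  have hgv : ∫ x, ‖gradient (fun x => u x ^ 2) x‖ ≤ ∫ x, (u x ^ 2 + ‖gradient u x‖ ^ 2) := by
    refine integral_mono ?_ hN fun x => ob_sq_gradient_norm_le hu x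
    exact (ws_gradient_continuous hv).norm.integrable_of_hasCompactSupport
      (ws_gradient_hasCompactSupport hvc).norm
  have i1 : Integrable fun x => W x * u x ^ 2 := ob_integrable_mul_cc hW hv.continuous hvc
  have i2 : Integrable fun x => W x * wsMol j (fun x => u x ^ 2) x := ob_integrable_mul_cc hW hMc hMt.2
  have i3 : Integrable fun x => |u x ^ 2 - wsMol j (fun x => u x ^ 2) x| :=
    ((hv.continuous.sub hMc).abs).integrable_of_hasCompactSupport (hvc.sub hMt.2).abs
  have i4 : Integrable fun x => u x ^ 2 := hv.continuous.integrable_of_hasCompactSupport hvc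
  -- first part
  have p1 : |∫ x, W x * (u x ^ 2 - wsMol j (fun x => u x ^ 2) x)|
      ≤ K' / ((j : ℝ) + 1) * ∫ x, (u x ^ 2 + ‖gradient u x‖ ^ 2) := by
    have a1 : ‖∫ x, W x * (u x ^ 2 - wsMol j (fun x => u x ^ 2) x)‖
        ≤ ∫ x, K' * |u x ^ 2 - wsMol j (fun x => u x ^ 2) x| := by
      refine norm_integral_le_of_norm_le (i3.const_mul K') ?_
      filter_upwards [hK'] with x hx
      rw [norm_mul, Real.norm_eq_abs, Real.norm_eq_abs]
      gcongr
    rw [Real.norm_eq_abs, integral_const_mul] at a1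
    refine a1.trans ?_
    calc K' * ∫ x, |u x ^ 2 - wsMol j (fun x => u x ^ 2) x|
        ≤ K' * ((1 / ((j : ℝ) + 1)) * ∫ x, (u x ^ 2 + ‖gradient u x‖ ^ 2)) := by
          gcongr
          exact hmoll.trans (by gcongr)
      _ = _ := by ring
  -- second part
  have hS : MeasurableSet {x : Space | |x 2| ≤ τ} := by
    have : Continuous fun x : Space => |x 2| := by fun_prop
    exact (isClosed_le this continuous_const).measurableSet
  have i5 : Integrable fun x => wsMol j W x * u x ^ 2 :=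
    (hIc.mul hv.continuous).integrable_of_hasCompactSupport hvc.mul_left
  have hIK : ∀ y, |wsMol j W y| ≤ K' := fun y => by
    have := wsMol_norm_le j (f := W) (C := K') (by simpa only [Real.norm_eq_abs] using hK') y
    simpa only [Real.norm_eq_abs] using this
  have p2 : |∫ x, wsMol j W x * u x ^ 2|
      ≤ 2 * τ * K' * (∫ x, (u x ^ 2 + ‖gradient u x‖ ^ 2)) + e₁ * ∫ x, u x ^ 2 := by
    have a1 : ‖∫ x, wsMol j W x * u x ^ 2‖
        ≤ ∫ x, (K' * ({x : Space | |x 2| ≤ τ}.indicator (fun x => u x ^ 2) x) + e₁ * u x ^ 2) := by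
      refine norm_integral_le_of_norm_le (((i4.indicator hS).const_mul K').add (i4.const_mul e₁))
        (Eventually.of_forall fun x => ?_)
      rw [norm_mul, Real.norm_eq_abs, Real.norm_eq_abs, abs_of_nonneg (sq_nonneg (u x))]
      by_cases hx : ‖x‖ ≤ R
      · have hi0 : 0 ≤ {x : Space | |x 2| ≤ τ}.indicator (fun x => u x ^ 2) x :=
          indicator_nonneg (fun x _ => sq_nonneg (u x)) x
        rw [h0 x hx]
        have : 0 ≤ K' * {x : Space | |x 2| ≤ τ}.indicator (fun x => u x ^ 2) x := by positivity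
        simpa using this
      · by_cases hz : |x 2| ≤ τ
        · rw [indicator_of_mem (show x ∈ {x : Space | |x 2| ≤ τ} from hz)]
          have := mul_le_mul_of_nonneg_right (hIK x) (sq_nonneg (u x))
          have : 0 ≤ e₁ * u x ^ 2 := by positivity
          linarith
        · rw [indicator_of_notMem (show x ∉ {x : Space | |x 2| ≤ τ} from hz)]
          have := mul_le_mul_of_nonneg_right (hI x (not_le.1 hx).le (not_le.1 hz).le) (sq_nonneg (u x))
          linarith
    rw [Real.norm_eq_abs, integral_add ((i4.indicator hS).const_mul K') (i4.const_mul e₁), integral_const_mul,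
      integral_const_mul, integral_indicator hS] at a1
    refine a1.trans ?_
    have := ob_slab_le hu hc hτ
    have : K' * ∫ x in {x : Space | |x 2| ≤ τ}, u x ^ 2
        ≤ K' * (2 * τ * ∫ x, (u x ^ 2 + ‖gradient u x‖ ^ 2)) := by gcongr
    linarith
  have e : ∫ x, W x * u x ^ 2
      = (∫ x, W x * (u x ^ 2 - wsMol j (fun x => u x ^ 2) x)) + ∫ x, wsMol j W x * u x ^ 2 := by
    have i6 : Integrable fun x => W x * (u x ^ 2 - wsMol j (fun x => u x ^ 2) x) :=
      (i1.sub i2).congr (Eventually.of_forall fun x => by simp only [Pi.sub_apply]; ring)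
    rw [← hsymm, ← integral_add i6 i2]
    refine integral_congr_ae (Eventually.of_forall fun x => ?_)
    simp only
    ring
  rw [e]
  have := (abs_le.1 p1).1
  have := (abs_le.1 p2).1
  linarith

theorem ob_I0_small (H : OBHyp n θ k β d V₁ V₂) (hg : OBGPlane n θ k β) {z₂ : ℝ} (hd : OBDecay θ z₂)
    {K' : ℝ} (hK0 : 0 ≤ K') (hK' : ∀ᵐ x, |V₂ x - obCinf k d| ≤ K') (j : ℕ) {τ η : ℝ} (hτ : 0 < τ) (hη : 0 < η) :
    ∃ R : ℝ, ∀ y : Space, R ≤ ‖y‖ → τ ≤ |y 2| →
      |wsMol j (fun x => V₂ x - obCinf k d) y| ≤ η + (η + K' / ((j : ℝ) + 1)) / τ := by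
  obtain ⟨Z₀, hZ⟩ := ob_V2_bulk H hd j hη
  obtain ⟨R, hR⟩ := ob_V2_plane H hg j Z₀ hη
  refine ⟨R, fun y hy hz => ?_⟩
  have hj : (0 : ℝ) < (j : ℝ) + 1 := by positivity
  have hW : LocallyIntegrable (fun x => V₂ x - obCinf k d) volume :=
    H.V2_locallyIntegrable.sub (locallyIntegrable_const _)
  have e0 : wsMol j (fun x => V₂ x - obCinf k d) y = ∫ x, (V₂ x - obCinf k d) * wsRho j (x - y) := by
    rw [wsMol_eq]
    refine integral_congr_ae (Eventually.of_forall fun x => ?_)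
    simp only [smul_eq_mul]
    rw [mul_comm, ← wsRho_neg, neg_sub]
  have hpos : 0 ≤ (η + K' / ((j : ℝ) + 1)) / τ := by positivity
  rw [e0]
  by_cases hc : Z₀ ≤ |y 2|
  · have := hZ y hc
    linarith
  have h1 := hR y (not_le.1 hc).le hy
  have hρc : Continuous fun x : Space => wsRho j (x - y) :=
    (wsRho_contDiff j).continuous.comp (continuous_id.sub continuous_const)
  have hρs : HasCompactSupport fun x : Space => wsRho j (x - y) := ob_hcs_comp_sub (wsRho_hasCompactSupport j) y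
  have hρi : Integrable fun x : Space => wsRho j (x - y) := hρc.integrable_of_hasCompactSupport hρs
  have hρ1 : ∫ x : Space, wsRho j (x - y) = 1 := by
    rw [integral_sub_right_eq_self (fun x : Space => wsRho j x) y]
    exact wsRho_integral j
  have hzc : Continuous fun x : Space => x 2 := by fun_prop
  have i0 : Integrable fun x => (V₂ x - obCinf k d) * wsRho j (x - y) := ob_integrable_mul_cc hW hρc hρs
  have i1 : Integrable fun x => (V₂ x - obCinf k d) * x 2 * wsRho j (x - y) := by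
    have := ob_integrable_mul_cc hW (f := fun x => x 2 * wsRho j (x - y)) (hzc.mul hρc) hρs.mul_left
    simpa only [mul_assoc] using this
  have i2 : Integrable fun x => (V₂ x - obCinf k d) * (x 2 - y 2) * wsRho j (x - y) := by
    have := ob_integrable_mul_cc hW (f := fun x => (x 2 - y 2) * wsRho j (x - y))
      ((hzc.sub continuous_const).mul hρc) hρs.mul_left
    simpa only [mul_assoc] using this
  have h2 : |∫ x, (V₂ x - obCinf k d) * (x 2 - y 2) * wsRho j (x - y)| ≤ K' / ((j : ℝ) + 1) := by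
    have a1 : ‖∫ x, (V₂ x - obCinf k d) * (x 2 - y 2) * wsRho j (x - y)‖
        ≤ ∫ x, K' / ((j : ℝ) + 1) * wsRho j (x - y) := by
      refine norm_integral_le_of_norm_le (hρi.const_mul _) ?_
      filter_upwards [hK'] with x hx
      rw [norm_mul, norm_mul, Real.norm_eq_abs, Real.norm_eq_abs, Real.norm_of_nonneg (wsRho_nonneg j _)]
      by_cases hx0 : 1 / ((j : ℝ) + 1) ≤ ‖x - y‖
      · rw [wsRho_eq_zero hx0]; simp
      · have h3 : |x 2 - y 2| ≤ 1 / ((j : ℝ) + 1) := by
          have := ob_abs_coord_le (x - y) 2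
          simp only [PiLp.sub_apply] at this
          exact this.trans (not_le.1 hx0).le
        have h4 := wsRho_nonneg j (x - y)
        calc |V₂ x - obCinf k d| * |x 2 - y 2| * wsRho j (x - y)
            ≤ K' * (1 / ((j : ℝ) + 1)) * wsRho j (x - y) := by gcongr
          _ = _ := by ring
    rw [integral_const_mul, hρ1, mul_one] at a1
    exact a1
  have e1 : y 2 * ∫ x, (V₂ x - obCinf k d) * wsRho j (x - y)
      = (∫ x, (V₂ x - obCinf k d) * x 2 * wsRho j (x - y))
        - ∫ x, (V₂ x - obCinf k d) * (x 2 - y 2) * wsRho j (x - y) := by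
    rw [← integral_const_mul, ← integral_sub i1 i2]
    refine integral_congr_ae (Eventually.of_forall fun x => ?_)
    simp only
    ring
  have h5 : |y 2| * |∫ x, (V₂ x - obCinf k d) * wsRho j (x - y)| ≤ η + K' / ((j : ℝ) + 1) := by
    rw [← abs_mul, e1]
    exact (abs_sub _ _).trans (add_le_add h1 h2)
  have h6 : τ * |∫ x, (V₂ x - obCinf k d) * wsRho j (x - y)| ≤ η + K' / ((j : ℝ) + 1) :=
    le_trans (by gcongr) h5
  have h7 : |∫ x, (V₂ x - obCinf k d) * wsRho j (x - y)| ≤ (η + K' / ((j : ℝ) + 1)) / τ := by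
    rw [le_div_iff₀ hτ]; linarith
  linarith

/-- **S10**. -/
theorem ob_exterior_form (H : OBHyp n θ k β d V₁ V₂) (hg : OBGPlane n θ k β) {z₂ : ℝ} (hd : OBDecay θ z₂) :
    OBForm (formalV n θ d) (obCinf k d) := by
  intro ε hε
  obtain ⟨K₂, hK0, hK₂⟩ := ob_bound_Linf H.hV2
  have hcinf : 0 < obCinf k d := by
    unfold obCinf
    have := H.hdpos
    positivity
  obtain ⟨K', hK'0, hK'def⟩ : ∃ K' : ℝ, 0 ≤ K' ∧ K' = K₂ + obCinf k d := ⟨_, by positivity, rfl⟩
  have hK' : ∀ᵐ x, |V₂ x - obCinf k d| ≤ K' := by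
    filter_upwards [hK₂] with x hx
    rw [hK'def]
    refine (abs_sub _ _).trans ?_
    rw [abs_of_pos hcinf]
    linarith
  obtain ⟨τ, hτ, hτK⟩ : ∃ τ : ℝ, 0 < τ ∧ 2 * τ * K' ≤ ε / 4 := by
    refine ⟨ε / (8 * (K' + 1)), by positivity, ?_⟩
    calc 2 * (ε / (8 * (K' + 1))) * K' = ε / 4 * (K' / (K' + 1)) := by field_simp; ring
      _ ≤ ε / 4 * 1 := by
          gcongr
          exact div_le_one_of_le₀ (by linarith) (by positivity)
      _ = ε / 4 := mul_one _
  obtain ⟨j, hj1, hj2⟩ : ∃ j : ℕ, K' / ((j : ℝ) + 1) ≤ ε / 4 ∧ K' / ((j : ℝ) + 1) ≤ ε * τ / 8 := by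
    obtain ⟨j, hj⟩ := exists_nat_ge (K' / min (ε / 4) (ε * τ / 8))
    have hm : 0 < min (ε / 4) (ε * τ / 8) := lt_min (by positivity) (by positivity)
    have hj0 : (0 : ℝ) < (j : ℝ) + 1 := by positivity
    have h1 : K' / ((j : ℝ) + 1) ≤ min (ε / 4) (ε * τ / 8) := by
      rw [div_le_iff₀ hm] at hj
      rw [div_le_iff₀ hj0]
      nlinarith
    exact ⟨j, h1.trans (min_le_left _ _), h1.trans (min_le_right _ _)⟩
  obtain ⟨η, hη, hη1⟩ : ∃ η : ℝ, 0 < η ∧ η + η / τ ≤ ε / 8 := by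
    refine ⟨ε * τ / (8 * (τ + 1)), by positivity, le_of_eq ?_⟩
    field_simp
  have he₁ : η + (η + K' / ((j : ℝ) + 1)) / τ ≤ ε / 4 := by
    have : K' / ((j : ℝ) + 1) / τ ≤ ε / 8 := by
      rw [div_le_iff₀ hτ]; linarith
    rw [add_div]
    linarith
  have he₁0 : 0 ≤ η + (η + K' / ((j : ℝ) + 1)) / τ := by positivity
  obtain ⟨Ra, hRa⟩ := ob_sobolev_holder H.hV1 (ε := ε / 4) (by positivity)
  obtain ⟨Rb, hRb⟩ := ob_I0_small H hg hd hK'0 hK' j hτ hη
  refine ⟨max Ra Rb, fun u hu hc h0 => ?_⟩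
  have hW : LocallyIntegrable (fun x => V₂ x - obCinf k d) volume :=
    H.V2_locallyIntegrable.sub (locallyIntegrable_const _)
  have s1 := hRa u hu hc (fun x hx => h0 x (hx.trans (le_max_left _ _)))
  have s2 := ob_form_core hW hK'0 hK' j hτ.le he₁0 (R := max Ra Rb)
    (fun y hy hz => hRb y ((le_max_right _ _).trans hy) hz) hu hc h0
  have hv : Continuous (fun x => u x ^ 2) := hu.continuous.pow 2
  have hvc : HasCompactSupport (fun x => u x ^ 2) := hc.mono fun x hx h0 => hx (by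
    show u x ^ 2 = 0
    have h0' : u x = 0 := h0
    rw [h0']; simp)
  have i1 : Integrable fun x => V₁ x * u x ^ 2 := ob_integrable_mul_cc H.V1_locallyIntegrable hv hvc
  have i1' : Integrable fun x => |V₁ x| * u x ^ 2 :=
    ob_integrable_mul_cc (ob_locallyIntegrable_abs H.V1_locallyIntegrable) hv hvc
  have i2 : Integrable fun x => (V₂ x - obCinf k d) * u x ^ 2 := ob_integrable_mul_cc hW hv hvc
  have i3 : Integrable fun x => u x ^ 2 := hv.integrable_of_hasCompactSupport hvc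
  have i4 : Integrable fun x => ‖gradient u x‖ ^ 2 :=
    ((ws_gradient_continuous hu).norm.pow 2).integrable_of_hasCompactSupport
      (HasCompactSupport.intro (ws_gradient_hasCompactSupport hc).isCompact fun x hx => by
        show ‖gradient u x‖ ^ 2 = 0
        rw [image_eq_zero_of_notMem_tsupport hx]; simp)
  have e : ∫ x, formalV n θ d x * u x ^ 2
      = (∫ x, V₁ x * u x ^ 2) + obCinf k d * (∫ x, u x ^ 2) + ∫ x, (V₂ x - obCinf k d) * u x ^ 2 := by
    have i5 : Integrable fun x => V₁ x * u x ^ 2 + obCinf k d * u x ^ 2 := i1.add (i3.const_mul _)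
    rw [← integral_const_mul, ← integral_add i1 (i3.const_mul _), ← integral_add i5 i2]
    refine integral_congr_ae (Eventually.of_forall fun x => ?_)
    simp only [H.V_apply]
    ring
  have s3 : -(∫ x, |V₁ x| * u x ^ 2) ≤ ∫ x, V₁ x * u x ^ 2 := by
    rw [← integral_neg]
    refine integral_mono i1'.neg i1 fun x => ?_
    have := neg_abs_le (V₁ x)
    have h2 := sq_nonneg (u x)
    simp only [Pi.neg_apply]
    nlinarith
  rw [integral_add i3 i4] at s2
  rw [e]
  have hX : 0 ≤ ∫ x, u x ^ 2 := integral_nonneg fun x => sq_nonneg _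
  have hY : 0 ≤ ∫ x, ‖gradient u x‖ ^ 2 := integral_nonneg fun x => sq_nonneg _
  generalize (∫ x, u x ^ 2) = X at *
  generalize (∫ x, ‖gradient u x‖ ^ 2) = Y at *
  generalize η + (η + K' / ((j : ℝ) + 1)) / τ = e₁ at *
  generalize K' / ((j : ℝ) + 1) = q at *
  have t1 : (q + 2 * τ * K') * (X + Y) ≤ (ε / 4 + ε / 4) * (X + Y) := by gcongr
  have t2 : e₁ * X ≤ ε / 4 * X := by gcongr
  nlinarith

end Claimed.Open.R278
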