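import Claimed.Open.R278.OBSlab
import Claimed.Open.R278.OBDecay
import Claimed.Open.R278.OBForm
import Claimed.Open.R278.OBAgmon

/-!
# Result 278, BP-OB: the trace contradiction and the top theorem

LEAF OB-S12 (`ob_trace_contra`).
-/

open MeasureTheory Filter Topology Set
open scoped ContDiff InnerProductSpace ENNReal Laplacian
open Claimed.Agent.R259

noncomputable section

set_option linter.unusedSectionVars false

namespace Claimed.Open.R278

variable {n θ : Space → ℝ} {k β d : ℝ} {V₁ V₂ : Space → ℝ}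

/-- **S12**.  For `q ∈ [s,s+1] × [0,1]`, `x = planePt q 0`, `p = |x| ∈ [s, s+2]`: `g x = √n(x) = √n(cyl p 0) ≥ c A(p) p⁻⁴`, so
`u(x)² ≥ (c²/4) e^{2(a-k)p} p^{2β-8} → ∞`; `ob_trace_square` bounds the integral over the unit square by `C`. -/
theorem ob_trace_contra (H : OBHyp n θ k β d V₁ V₂) {a C R₁ : ℝ} (ha : k < a)
    (h : ∀ S : ℝ, ∃ u : Space → ℝ, ContDiff ℝ 1 u ∧ HasCompactSupport u ∧
      ∫ x, (u x ^ 2 + ‖gradient u x‖ ^ 2) ≤ C ∧
      ∀ x : Space, R₁ ≤ ‖x‖ → ‖x‖ ≤ S → (1 / 2) * Real.exp (a * ‖x‖) * orbG n θ x ≤ u x) : False := by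
  obtain ⟨c, hc, P, hP⟩ := H.htail
  have hlim := tendsto_exp_mul_div_rpow_atTop (4 - β) (a - k) (by linarith)
  obtain ⟨s₀, hs₀⟩ := (tendsto_atTop.1 hlim (2 / c * (|C| + 1))).exists_forall_of_atTop
  obtain ⟨s, hs1, hs2, hs3, hs4⟩ : ∃ s : ℝ, s₀ ≤ s ∧ R₁ ≤ s ∧ P ≤ s ∧ 1 ≤ s :=
    ⟨max (max s₀ R₁) (max P 1), (le_max_left _ _).trans (le_max_left _ _),
      (le_max_right _ _).trans (le_max_left _ _), (le_max_left _ _).trans (le_max_right _ _),
      (le_max_right _ _).trans (le_max_right _ _)⟩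
  obtain ⟨u, hu, hcs, hC, hlow⟩ := h (s + 2)
  have htr := (ob_trace_square hu hcs s).trans hC
  have hpt : ∀ q ∈ Set.Icc s (s + 1) ×ˢ Set.Icc (0 : ℝ) 1, (|C| + 1) ^ 2 ≤ u (planePt q 0) ^ 2 := by
    intro q hq
    obtain ⟨⟨q1a, q1b⟩, ⟨q2a, q2b⟩⟩ := hq
    have hz : (planePt q 0) 2 = 0 := by simp [planePt]
    have hn2 : ‖planePt q 0‖ ^ 2 = q.1 ^ 2 + q.2 ^ 2 := by
      rw [norm_sq_space]; simp [planePt]
    have hp1 : s ≤ ‖planePt q 0‖ := by
      refine le_trans q1a (abs_le_of_sq_le_sq' ?_ (norm_nonneg _)).2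
      rw [hn2]; nlinarith
    have hp2 : ‖planePt q 0‖ ≤ s + 2 := by
      refine (abs_le_of_sq_le_sq' ?_ (by linarith : (0:ℝ) ≤ s + 2)).2
      rw [hn2]; nlinarith
    set p := ‖planePt q 0‖ with hp
    have hp0 : 0 < p := by linarith
    have h1 := hlow (planePt q 0) (hs2.trans hp1) hp2
    rw [H.g_plane hz, H.n_plane hz] at h1
    have h2 := hP p (hs3.trans hp1)
    have h3 := hs₀ p (hs1.trans hp1)
    have h4 : (2 / c * (|C| + 1)) * (c / 2) ≤ (1 / 2) * Real.exp (a * p) * (c * radialA k β p * p ^ (-4 : ℝ)) := by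
      have e : (1 / 2) * Real.exp (a * p) * (c * radialA k β p * p ^ (-4 : ℝ))
          = Real.exp ((a - k) * p) / p ^ (4 - β) * (c / 2) := by
        unfold radialA
        rw [sub_mul, Real.exp_sub, Real.exp_neg, Real.rpow_sub hp0, Real.rpow_neg hp0.le]
        have := Real.rpow_pos_of_pos hp0 β
        have := Real.rpow_pos_of_pos hp0 4
        field_simp
      rw [e]
      gcongr
    have h5 : |C| + 1 ≤ u (planePt q 0) := by
      have e : (2 / c * (|C| + 1)) * (c / 2) = |C| + 1 := by field_simp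
      rw [e] at h4
      refine h4.trans (le_trans ?_ h1)
      gcongr
    have : 0 ≤ |C| + 1 := by positivity
    gcongr
  have hcont : Continuous fun q : ℝ × ℝ => u (planePt q 0) ^ 2 :=
    (hu.continuous.comp (fst_continuous_planePt.comp (continuous_id.prodMk continuous_const))).pow 2
  have hcpt : IsCompact (Set.Icc s (s + 1) ×ˢ Set.Icc (0 : ℝ) 1) := isCompact_Icc.prod isCompact_Icc
  have hvol : (volume : Measure (ℝ × ℝ)).real (Set.Icc s (s + 1) ×ˢ Set.Icc (0 : ℝ) 1) = 1 := by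
    rw [Measure.real, Measure.volume_eq_prod, Measure.prod_prod, Real.volume_Icc, Real.volume_Icc]
    simp
  have hlb : ∫ q in Set.Icc s (s + 1) ×ˢ Set.Icc (0 : ℝ) 1, (|C| + 1) ^ 2
      ≤ ∫ q in Set.Icc s (s + 1) ×ˢ Set.Icc (0 : ℝ) 1, u (planePt q 0) ^ 2 :=
    setIntegral_mono_on (integrableOn_const hcpt.measure_lt_top.ne) (hcont.continuousOn.integrableOn_compact hcpt)
      hcpt.measurableSet hpt
  rw [setIntegral_const, hvol, one_smul] at hlb
  have := le_abs_self C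
  nlinarith [abs_nonneg C]

theorem ob_false (H : OBHyp n θ k β d V₁ V₂) : False := by
  obtain ⟨z₁, h0, h1, hs⟩ := ob_slab H
  have hh : OBHeight θ (z₁ / 2) := ob_height H h0 h1 hs
  have hd : OBDecay θ (z₁ / 2) := ob_decay H (by positivity) (by linarith) hh
  have hg : OBGPlane n θ k β := ob_g_plane H h0 hs hd
  have hF : OBForm (formalV n θ d) (obCinf k d) := ob_exterior_form H hg hd
  obtain ⟨a, C, R₁, ha, h⟩ := ob_agmon H hF
  exact ob_trace_contra H ha h

/-- **L8 top theorem** (first half of Theorem 6.4): `V ∉ L^{3/2} + L^∞`.  Verbatim `formalV_not_admissible` of `Top.lean`. -/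
theorem ob_formalV_not_admissible {n θ : Space → ℝ} {k β dθ : ℝ} (hn : DensityBasic n) (hk : 0 < k)
    (hθ : IsFoldedMinimizer n θ) (hd : IsMultiplier n θ dθ) (hdpos : 0 < dθ)
    (ho : OrbitalFacts n θ dθ)
    (htail : PlaneTail n k β) (hplane : PlaneTranslate n k β) (hbulk : BulkTranslate n k) :
    formalV n θ dθ ∉ PotentialClass := by
  rintro ⟨V₁, V₂, h1, h2, h⟩
  exact ob_false ⟨hn, hk, hθ, hd, hdpos, ho, htail, hplane, hbulk, h1, h2, h⟩

end Claimed.Open.R278
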