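import Claimed.Open.R278.STTerms

/-!
# Package ST, leaf ST-A: existence of the strip solution (Lemma 4.4, existence) and its sign properties

PLAN.  Extend `ν` to `ν̃ = ν ∘ projIcc 0 L` (continuous, positive on `ℝ`; `IsStripSolution` only sees `[0,L]`, use
`HasDerivWithinAt.congr`).  `C := max ν̃ / min ν̃` on `[0,L]`.  By `stJ_le`, `stU_le` the series `J = ∑' stJ κ ν̃ l`,
`Ũ = ∑' stU κ ν̃ l` converge uniformly on `[0,L]` (majorant `(κ C L²)^l/(2l)!`, summable: compare with `Real.exp`).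
Exchange sum and integral (`intervalIntegral.hasSum_integral_of_summable_norm` or dominated convergence):
`Ũ(z) = ∫_z^L J/ν̃`, `J(z) = 1 + κ ∫_z^L ν̃ Ũ`; `J` is continuous, so FTC gives `Ũ' = -J/ν̃`, `(ν̃ Ũ')' = -J' = κ ν̃ Ũ`.
`Ũ(L) = 0`, `Ũ(0) ≥ stU 0 0 > 0`.  Take `U = Ũ/Ũ(0)`, `U' = -J/(ν̃ Ũ(0))`.
-/

open MeasureTheory Set
open scoped ContDiff Topology

noncomputable section

namespace Claimed.Open.R278

theorem stx_L_pos : 0 < stripL := by unfold stripL; norm_num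

/-- FTC (left end point) for an integrand which is only continuous on `[0,L]`. -/
theorem stx_ftc_on {f : ℝ → ℝ} (hf : ContinuousOn f (Icc 0 stripL)) {z : ℝ} (hz : z ∈ Icc 0 stripL) :
    HasDerivWithinAt (fun u => ∫ x in u..stripL, f x) (-f z) (Icc 0 stripL) z := by
  have hL : (0:ℝ) ≤ stripL := stx_L_pos.le
  set g : ℝ → ℝ := IccExtend hL ((Icc 0 stripL).domRestrict f) with hg
  have hgc : Continuous g := hf.domRestrict.Icc_extend'
  have hgf : ∀ x ∈ Icc 0 stripL, g x = f x := fun x hx => by rw [hg, IccExtend_of_mem _ _ hx]; rfl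
  have h := (st_hasDerivAt_left hgc stripL z).hasDerivWithinAt (s := Icc 0 stripL)
  rw [hgf z hz] at h
  refine h.congr (fun u hu => ?_) ?_
  · exact intervalIntegral.integral_congr fun x hx => (hgf x (st_uIcc_subset hu hx)).symm
  · exact intervalIntegral.integral_congr fun x hx => (hgf x (st_uIcc_subset hz hx)).symm

/-- The majorant of the Volterra series. -/
def stxA (K : ℝ) (l : ℕ) : ℝ := K ^ l * stripL ^ (2 * l) / (2 * l).factorial

theorem stxA_nonneg {K : ℝ} (hK : 0 ≤ K) (l : ℕ) : 0 ≤ stxA K l := by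
  have := stx_L_pos
  unfold stxA; positivity

theorem stxA_summable {K : ℝ} (hK : 0 ≤ K) : Summable (stxA K) := by
  refine Summable.of_nonneg_of_le (stxA_nonneg hK) (fun l => ?_)
    (Real.summable_pow_div_factorial (K * stripL ^ 2))
  unfold stxA
  have hL := stx_L_pos
  rw [mul_pow, ← pow_mul]
  have h1 : (l.factorial : ℝ) ≤ (2 * l).factorial := by
    exact_mod_cast Nat.factorial_le (by omega)
  gcongr


section series

variable {κ : ℝ} {ν : ℝ → ℝ}

/-- The full Volterra series. -/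
def stxJ (κ : ℝ) (ν : ℝ → ℝ) (z : ℝ) : ℝ := ∑' l, stJ κ ν l z

def stxU (κ : ℝ) (ν : ℝ → ℝ) (z : ℝ) : ℝ := ∑' l, stU κ ν l z

theorem stx_J_le (hκ : 0 ≤ κ) (hc : Continuous ν) (hpos : ∀ z, 0 < ν z) {C : ℝ}
    (hC : ∀ z₁ z₂, 0 ≤ z₁ → z₁ ≤ z₂ → z₂ ≤ stripL → ν z₁ ≤ C * ν z₂) (l : ℕ) {z : ℝ} (hz : z ∈ Icc 0 stripL) :
    ‖stJ κ ν l z‖ ≤ stxA (κ * C) l := by
  have hC0 : 0 ≤ C := by
    have h := hC 0 0 le_rfl le_rfl (hz.1.trans hz.2)
    by_contra hneg
    push Not at hneg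
    nlinarith [hpos 0]
  rw [Real.norm_of_nonneg (stJ_nonneg hκ hc hpos l hz.2)]
  refine (stJ_le hκ hc hpos hC l hz).trans ?_
  unfold stxA
  have h2 : (stripL - z) ^ (2 * l) ≤ stripL ^ (2 * l) :=
    pow_le_pow_left₀ (by linarith [hz.2]) (by linarith [hz.1]) _
  have := pow_nonneg (mul_nonneg hκ hC0) l
  gcongr

theorem stx_U0_le (hc : Continuous ν) (hpos : ∀ z, 0 < ν z) {z : ℝ} (hz : z ∈ Icc 0 stripL) :
    stU κ ν 0 z ≤ stU κ ν 0 0 := by
  unfold stU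
  have hf : Continuous fun s => stJ κ ν 0 s / ν s :=
    (stJ_continuous hc hpos 0).div hc fun s => (hpos s).ne'
  rw [← intervalIntegral.integral_add_adjacent_intervals (hf.intervalIntegrable 0 z)
    (hf.intervalIntegrable z stripL)]
  have : 0 ≤ ∫ s in (0:ℝ)..z, stJ κ ν 0 s / ν s :=
    intervalIntegral.integral_nonneg hz.1 fun s _ => by
      rw [stJ_zero]; exact (div_pos one_pos (hpos s)).le
  linarith

theorem stx_U_le (hκ : 0 ≤ κ) (hc : Continuous ν) (hpos : ∀ z, 0 < ν z) {C : ℝ}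
    (hC : ∀ z₁ z₂, 0 ≤ z₁ → z₁ ≤ z₂ → z₂ ≤ stripL → ν z₁ ≤ C * ν z₂) (l : ℕ) {z : ℝ} (hz : z ∈ Icc 0 stripL) :
    ‖stU κ ν l z‖ ≤ stxA (κ * C) l * stU κ ν 0 0 := by
  have hC0 : 0 ≤ C := by
    have h := hC 0 0 le_rfl le_rfl (hz.1.trans hz.2)
    by_contra hneg
    push Not at hneg
    nlinarith [hpos 0]
  rw [Real.norm_of_nonneg (stU_nonneg hκ hc hpos l hz.2)]
  refine (stU_le hκ hc hpos hC l hz).trans ?_
  exact mul_le_mul_of_nonneg_left (stx_U0_le hc hpos hz) (stxA_nonneg (mul_nonneg hκ hC0) l)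

/-- A ratio constant exists for every continuous positive weight. -/
theorem stx_exists_ratio (hc : Continuous ν) (hpos : ∀ z, 0 < ν z) :
    ∃ C : ℝ, 0 ≤ C ∧ ∀ z₁ z₂, 0 ≤ z₁ → z₁ ≤ z₂ → z₂ ≤ stripL → ν z₁ ≤ C * ν z₂ := by
  have hne : (Icc 0 stripL).Nonempty := ⟨0, le_rfl, stx_L_pos.le⟩
  obtain ⟨a, -, ha⟩ := isCompact_Icc.exists_isMinOn hne hc.continuousOn
  obtain ⟨b, -, hb⟩ := isCompact_Icc.exists_isMaxOn hne hc.continuousOn
  refine ⟨ν b / ν a, (div_pos (hpos b) (hpos a)).le, fun z₁ z₂ h0 h12 h2 => ?_⟩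
  have h1 : ν z₁ ≤ ν b := hb ⟨h0, h12.trans h2⟩
  have h3 : ν a ≤ ν z₂ := ha ⟨h0.trans h12, h2⟩
  calc ν z₁ ≤ ν b := h1
    _ = ν b / ν a * ν a := by field_simp [(hpos a).ne']
    _ ≤ ν b / ν a * ν z₂ := by
      have := (div_pos (hpos b) (hpos a)).le
      gcongr

theorem stx_J_summable (hκ : 0 ≤ κ) (hc : Continuous ν) (hpos : ∀ z, 0 < ν z) {z : ℝ}
    (hz : z ∈ Icc 0 stripL) : Summable fun l => stJ κ ν l z := by
  obtain ⟨C, hC0, hC⟩ := stx_exists_ratio hc hpos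
  exact Summable.of_norm_bounded (stxA_summable (mul_nonneg hκ hC0)) fun l => stx_J_le hκ hc hpos hC l hz

theorem stx_U_summable (hκ : 0 ≤ κ) (hc : Continuous ν) (hpos : ∀ z, 0 < ν z) {z : ℝ}
    (hz : z ∈ Icc 0 stripL) : Summable fun l => stU κ ν l z := by
  obtain ⟨C, hC0, hC⟩ := stx_exists_ratio hc hpos
  exact Summable.of_norm_bounded ((stxA_summable (mul_nonneg hκ hC0)).mul_right _)
    fun l => stx_U_le hκ hc hpos hC l hz

theorem stxJ_continuousOn (hκ : 0 ≤ κ) (hc : Continuous ν) (hpos : ∀ z, 0 < ν z) :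
    ContinuousOn (stxJ κ ν) (Icc 0 stripL) := by
  obtain ⟨C, hC0, hC⟩ := stx_exists_ratio hc hpos
  exact continuousOn_tsum (fun l => (stJ_continuous hc hpos l).continuousOn)
    (stxA_summable (mul_nonneg hκ hC0)) fun l z hz => stx_J_le hκ hc hpos hC l hz

theorem stxU_continuousOn (hκ : 0 ≤ κ) (hc : Continuous ν) (hpos : ∀ z, 0 < ν z) :
    ContinuousOn (stxU κ ν) (Icc 0 stripL) := by
  obtain ⟨C, hC0, hC⟩ := stx_exists_ratio hc hpos
  exact continuousOn_tsum (fun l => (stU_continuous hc hpos l).continuousOn)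
    ((stxA_summable (mul_nonneg hκ hC0)).mul_right _) fun l z hz => stx_U_le hκ hc hpos hC l hz

/-- `Ũ(z) = ∫_z^L J/ν`. -/
theorem stxU_eq (hκ : 0 ≤ κ) (hc : Continuous ν) (hpos : ∀ z, 0 < ν z) {z : ℝ}
    (hz : z ∈ Icc 0 stripL) : stxU κ ν z = ∫ s in z..stripL, stxJ κ ν s / ν s := by
  obtain ⟨C, hC0, hC⟩ := stx_exists_ratio hc hpos
  have hsub : ∀ t, t ∈ uIoc z stripL → t ∈ Icc 0 stripL := fun t ht =>
    st_uIcc_subset hz (uIoc_subset_uIcc ht)
  have hA := stxA_summable (mul_nonneg hκ hC0)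
  have h := intervalIntegral.hasSum_integral_of_dominated_convergence (μ := volume) (a := z) (b := stripL)
    (F := fun l s => stJ κ ν l s / ν s) (f := fun s => stxJ κ ν s / ν s)
    (fun l s => stxA (κ * C) l / ν s)
    (fun l => ((stJ_continuous hc hpos l).div hc fun s => (hpos s).ne').aestronglyMeasurable)
    (fun l => Filter.Eventually.of_forall fun t ht => by
      rw [norm_div, Real.norm_of_nonneg (hpos t).le]
      exact div_le_div_of_nonneg_right (stx_J_le hκ hc hpos hC l (hsub t ht)) (hpos t).le)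
    (Filter.Eventually.of_forall fun t _ => hA.div_const _)
    (by
      have : (fun t => ∑' l, stxA (κ * C) l / ν t) = fun t => (∑' l, stxA (κ * C) l) / ν t := by
        funext t; exact tsum_div_const
      rw [this]
      exact (continuous_const.div hc fun s => (hpos s).ne').intervalIntegrable _ _)
    (Filter.Eventually.of_forall fun t ht => ((stx_J_summable hκ hc hpos (hsub t ht)).hasSum).div_const _)
  exact h.tsum_eq

/-- `J(z) = 1 + κ ∫_z^L ν Ũ`. -/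
theorem stxJ_eq (hκ : 0 ≤ κ) (hc : Continuous ν) (hpos : ∀ z, 0 < ν z) {z : ℝ}
    (hz : z ∈ Icc 0 stripL) : stxJ κ ν z = 1 + κ * ∫ s in z..stripL, ν s * stxU κ ν s := by
  obtain ⟨C, hC0, hC⟩ := stx_exists_ratio hc hpos
  have hsub : ∀ t, t ∈ uIoc z stripL → t ∈ Icc 0 stripL := fun t ht =>
    st_uIcc_subset hz (uIoc_subset_uIcc ht)
  have hA := (stxA_summable (mul_nonneg hκ hC0)).mul_right (stU κ ν 0 0)
  have h := intervalIntegral.hasSum_integral_of_dominated_convergence (μ := volume) (a := z) (b := stripL)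
    (F := fun l s => ν s * stU κ ν l s) (f := fun s => ν s * stxU κ ν s)
    (fun l s => ν s * (stxA (κ * C) l * stU κ ν 0 0))
    (fun l => (hc.mul (stU_continuous hc hpos l)).aestronglyMeasurable)
    (fun l => Filter.Eventually.of_forall fun t ht => by
      rw [norm_mul, Real.norm_of_nonneg (hpos t).le]
      exact mul_le_mul_of_nonneg_left (stx_U_le hκ hc hpos hC l (hsub t ht)) (hpos t).le)
    (Filter.Eventually.of_forall fun t _ => hA.mul_left _)
    (by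
      have : (fun t => ∑' l, ν t * (stxA (κ * C) l * stU κ ν 0 0))
          = fun t => ν t * ∑' l, (stxA (κ * C) l * stU κ ν 0 0) := by
        funext t; exact tsum_mul_left
      rw [this]
      exact (hc.mul continuous_const).intervalIntegrable _ _)
    (Filter.Eventually.of_forall fun t ht => ((stx_U_summable hκ hc hpos (hsub t ht)).hasSum).mul_left _)
  unfold stxJ
  rw [(stx_J_summable hκ hc hpos hz).tsum_eq_zero_add, stJ_zero]
  congr 1
  simp only [stJ_succ]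
  rw [tsum_mul_left, h.tsum_eq]

theorem stxU_ge (hκ : 0 ≤ κ) (hc : Continuous ν) (hpos : ∀ z, 0 < ν z) {z : ℝ}
    (hz : z ∈ Icc 0 stripL) : stU κ ν 0 z ≤ stxU κ ν z :=
  (stx_U_summable hκ hc hpos hz).le_tsum 0 fun l _ => stU_nonneg hκ hc hpos l hz.2

theorem stxJ_ge (hκ : 0 ≤ κ) (hc : Continuous ν) (hpos : ∀ z, 0 < ν z) {z : ℝ}
    (hz : z ∈ Icc 0 stripL) : 1 ≤ stxJ κ ν z :=
  (stx_J_summable hκ hc hpos hz).le_tsum 0 fun l _ => stJ_nonneg hκ hc hpos l hz.2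

theorem stxU_pos (hκ : 0 ≤ κ) (hc : Continuous ν) (hpos : ∀ z, 0 < ν z) {z : ℝ}
    (hz : z ∈ Ico 0 stripL) : 0 < stxU κ ν z :=
  (stU_zero_pos hc hpos hz.2).trans_le (stxU_ge hκ hc hpos ⟨hz.1, hz.2.le⟩)

theorem stxU_stripL : stxU κ ν stripL = 0 := by
  unfold stxU
  simp [stU_stripL]

theorem stxU_hasDeriv (hκ : 0 ≤ κ) (hc : Continuous ν) (hpos : ∀ z, 0 < ν z) {z : ℝ}
    (hz : z ∈ Icc 0 stripL) :
    HasDerivWithinAt (stxU κ ν) (-(stxJ κ ν z / ν z)) (Icc 0 stripL) z := by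
  have hf : ContinuousOn (fun s => stxJ κ ν s / ν s) (Icc 0 stripL) :=
    (stxJ_continuousOn hκ hc hpos).div hc.continuousOn fun s _ => (hpos s).ne'
  exact (stx_ftc_on hf hz).congr (fun u hu => stxU_eq hκ hc hpos hu) (stxU_eq hκ hc hpos hz)

theorem stxJ_hasDeriv (hκ : 0 ≤ κ) (hc : Continuous ν) (hpos : ∀ z, 0 < ν z) {z : ℝ}
    (hz : z ∈ Icc 0 stripL) :
    HasDerivWithinAt (stxJ κ ν) (-(κ * (ν z * stxU κ ν z))) (Icc 0 stripL) z := by
  have hf : ContinuousOn (fun s => ν s * stxU κ ν s) (Icc 0 stripL) :=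
    hc.continuousOn.mul (stxU_continuousOn hκ hc hpos)
  have h := ((stx_ftc_on hf hz).const_mul κ).const_add 1
  rw [mul_neg] at h
  exact h.congr (fun u hu => stxJ_eq hκ hc hpos hu) (stxJ_eq hκ hc hpos hz)

/-- The solution for a weight which is continuous and positive on all of `ℝ`, in closed form. -/
theorem stx_sol (hκ : 0 ≤ κ) (hc : Continuous ν) (hpos : ∀ z, 0 < ν z) :
    (fun z => stxU κ ν z / stxU κ ν 0) 0 = 1 ∧ (fun z => stxU κ ν z / stxU κ ν 0) stripL = 0 ∧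
      (∀ z ∈ Icc 0 stripL,
        HasDerivWithinAt (fun z => stxU κ ν z / stxU κ ν 0) (-(stxJ κ ν z / (ν z * stxU κ ν 0))) (Icc 0 stripL) z ∧
        HasDerivWithinAt (fun s => ν s * -(stxJ κ ν s / (ν s * stxU κ ν 0)))
          (ν z * (κ * (stxU κ ν z / stxU κ ν 0))) (Icc 0 stripL) z) ∧
      (∀ z ∈ Ico 0 stripL, 0 < stxU κ ν z / stxU κ ν 0) ∧
      (∀ z ∈ Icc 0 stripL, -(stxJ κ ν z / (ν z * stxU κ ν 0)) < 0) := by
  have h0 : 0 < stxU κ ν 0 := stxU_pos hκ hc hpos ⟨le_rfl, stx_L_pos⟩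
  refine ⟨div_self h0.ne', by simp [stxU_stripL], fun z hz => ⟨?_, ?_⟩, fun z hz => ?_, fun z hz => ?_⟩
  · have h := (stxU_hasDeriv hκ hc hpos hz).div_const (stxU κ ν 0)
    have e : -(stxJ κ ν z / (ν z * stxU κ ν 0)) = -(stxJ κ ν z / ν z) / stxU κ ν 0 := by
      have := (hpos z).ne'
      field_simp
    rw [e]
    exact h
  · have h := ((stxJ_hasDeriv hκ hc hpos hz).div_const (stxU κ ν 0)).neg
    have he : (fun s => ν s * -(stxJ κ ν s / (ν s * stxU κ ν 0))) = fun s => -(stxJ κ ν s / stxU κ ν 0) := by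
      funext s
      have := (hpos s).ne'
      field_simp
    rw [he]
    have e : ν z * (κ * (stxU κ ν z / stxU κ ν 0)) = -(-(κ * (ν z * stxU κ ν z)) / stxU κ ν 0) := by
      field_simp
    rw [e]
    exact h
  · exact div_pos (stxU_pos hκ hc hpos hz) h0
  · have h1 := stxJ_ge hκ hc hpos hz
    have : 0 < stxJ κ ν z / (ν z * stxU κ ν 0) := div_pos (by linarith) (mul_pos (hpos z) h0)
    linarith

end series

/-- The extension of a weight on `[0,L]` to `ℝ`. -/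
def stxExt (ν : ℝ → ℝ) : ℝ → ℝ := IccExtend stx_L_pos.le ((Icc 0 stripL).domRestrict ν)

theorem stxExt_continuous {ν : ℝ → ℝ} (hc : ContinuousOn ν (Icc 0 stripL)) : Continuous (stxExt ν) :=
  hc.domRestrict.Icc_extend'

theorem stxExt_eq {ν : ℝ → ℝ} {z : ℝ} (hz : z ∈ Icc 0 stripL) : stxExt ν z = ν z := by
  rw [stxExt, IccExtend_of_mem _ _ hz]; rfl

theorem stxExt_pos {ν : ℝ → ℝ} (hpos : ∀ z ∈ Icc 0 stripL, 0 < ν z) (z : ℝ) : 0 < stxExt ν z :=
  hpos _ (projIcc 0 stripL stx_L_pos.le z).2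

/-- General `κ ≥ 0`: a positive decreasing solution of `(ν U')' = κ ν U`, `U(0) = 1`, `U(L) = 0`. -/
theorem st_exists_sol {κ : ℝ} (hκ : 0 ≤ κ) {ν : ℝ → ℝ} (hc : ContinuousOn ν (Icc 0 stripL))
    (hpos : ∀ z ∈ Icc 0 stripL, 0 < ν z) :
    ∃ U U' : ℝ → ℝ, U 0 = 1 ∧ U stripL = 0 ∧
      (∀ z ∈ Icc 0 stripL, HasDerivWithinAt U (U' z) (Icc 0 stripL) z ∧
        HasDerivWithinAt (fun s => ν s * U' s) (ν z * (κ * U z)) (Icc 0 stripL) z) ∧
      (∀ z ∈ Ico 0 stripL, 0 < U z) ∧ (∀ z ∈ Icc 0 stripL, U' z < 0) := by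
  obtain ⟨h0, hL, hd, hp, hn⟩ := stx_sol hκ (stxExt_continuous hc) (stxExt_pos hpos)
  refine ⟨_, _, h0, hL, fun z hz => ⟨(hd z hz).1, ?_⟩, hp, hn⟩
  have h := (hd z hz).2
  rw [stxExt_eq hz] at h
  refine h.congr (fun s hs => ?_) ?_
  · rw [stxExt_eq hs]
  · rw [stxExt_eq hz]

/-- Lemma 4.4, existence (= `exists_stripSolution` of `Top.lean`). -/
theorem st_exists_stripSolution {ν : ℝ → ℝ} (hc : ContinuousOn ν (Icc 0 stripL))
    (hpos : ∀ z ∈ Icc 0 stripL, 0 < ν z) : ∃ U U' : ℝ → ℝ, IsStripSolution ν U U' := by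
  obtain ⟨U, U', h0, hL, hd, -, -⟩ := st_exists_sol (κ := stripMu ^ 2) (by positivity) hc hpos
  exact ⟨U, U', h0, hL, hd⟩

/-- Every strip solution is positive on `[0,L)` and strictly decreasing (by `IsStripSolution.unique`). -/
theorem IsStripSolution.pos_neg {ν U U' : ℝ → ℝ} (hc : ContinuousOn ν (Icc 0 stripL))
    (hpos : ∀ z ∈ Icc 0 stripL, 0 < ν z) (h : IsStripSolution ν U U') :
    (∀ z ∈ Ico 0 stripL, 0 < U z) ∧ (∀ z ∈ Icc 0 stripL, U' z < 0) := by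
  obtain ⟨V, V', h0, hL, hd, hp, hn⟩ := st_exists_sol (κ := stripMu ^ 2) (by positivity) hc hpos
  have hu := IsStripSolution.unique hpos h ⟨h0, hL, hd⟩
  exact ⟨fun z hz => by rw [(hu z ⟨hz.1, hz.2.le⟩).1]; exact hp z hz,
    fun z hz => by rw [(hu z hz).2]; exact hn z hz⟩

end Claimed.Open.R278
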