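import Claimed.Open.R278.STCompare

/-!
# Package ST, leaf ST-C: positivity of the margin (Lemma 7.2, last part; 06-parameters.tex l.216-235)

PLAN.  `ν(z) = n₀(cyl M z)`, `D(z) = δ_*(cyl M z)`, `v = (2/π) D - U₀`.
* `10 D < M` (from `IsRadius`), so `cyl M z ∉ nuclei`; `b, e` are smooth there (`TwoCentre.smooth_b/e`), `b > 0`, hence `ν` and `D`
  are `C^∞` functions of `z` and the `deriv`s in `refStripQuotient` are genuine derivatives.
* `IsRadius` gives `refStripQuotient b e M z < μ²` for all `z ∈ [0,L]` (`le_iSup₂` in `EReal`), i.e. `(ν D')' < μ² ν D`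
  (`ν D > 0`).
* `e(cyl M 0) = 0` by oddness, so `D(0) = π/2`, `v(0) = 0`; `v(L) = (2/π) D(L) > 0`.
* `st_compare` with `κ = μ²`, `w = (2/π)(ν D')' - ν μ² U₀`; then `st_margin_abs`.
-/

open MeasureTheory Set
open scoped ContDiff Topology

noncomputable section

namespace Claimed.Open.R278

theorem stm_contDiff_cyl (p : ℝ) : ContDiff ℝ ∞ fun z : ℝ => cyl p z := by
  unfold cyl
  rw [contDiff_euclidean]
  intro i
  fin_cases i
  · exact contDiff_const
  · exact contDiff_const
  · exact contDiff_id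

theorem stm_cyl_not_mem {p : ℝ} (hp : p ≠ 0) (z : ℝ) : cyl p z ∈ nucleiᶜ := by
  intro hmem
  rcases hmem with h | h
  · have := congrArg (fun x : Space => x 0) h
    simp [cyl, ez] at this
    exact hp this
  · have := congrArg (fun x : Space => x 0) h
    simp [cyl, ez] at this
    exact hp this

/-- `margin_pos` of `Top.lean`. -/
theorem st_margin_pos {b e : Space → ℝ} {εb εe : ℝ} (h : TwoCentre b e εb εe) {M : ℕ}
    (hM : IsRadius b e εb M) {U₀ U₀' : ℝ → ℝ}
    (hU : IsStripSolution (fun z => refDensity b e (cyl M z)) U₀ U₀') :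
    ∃ α : ℝ, 0 < α ∧ IsMargin b e M U₀ α := by
  have hLpos : (0 : ℝ) < stripL := by unfold stripL; norm_num
  obtain ⟨hM1, -, hM3⟩ := hM.1
  have hMpos : (0:ℝ) < (M:ℝ) := by
    have : (0:ℝ) < bigD := by unfold bigD; positivity
    linarith
  have hmaps : MapsTo (fun z : ℝ => cyl M z) univ nucleiᶜ := fun z _ => stm_cyl_not_mem hMpos.ne' z
  have hβ : ContDiff ℝ ∞ fun z : ℝ => b (cyl M z) :=
    contDiffOn_univ.1 (h.smooth_b.comp (stm_contDiff_cyl M).contDiffOn hmaps)
  have hε : ContDiff ℝ ∞ fun z : ℝ => e (cyl M z) :=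
    contDiffOn_univ.1 (h.smooth_e.comp (stm_contDiff_cyl M).contDiffOn hmaps)
  have hβpos : ∀ z : ℝ, 0 < b (cyl M z) := fun z => h.data.pos_b _
  set ν : ℝ → ℝ := fun z => refDensity b e (cyl M z) with hν
  set D : ℝ → ℝ := fun z => refDelta b e (cyl M z) with hD
  have hνc : ContDiff ℝ ∞ ν := by
    show ContDiff ℝ ∞ fun z : ℝ => 2 * b (cyl M z) ^ 2 + e (cyl M z) ^ 2
    exact (contDiff_const.mul (hβ.pow 2)).add (hε.pow 2)
  have hνpos : ∀ z, 0 < ν z := fun z => by
    show 0 < 2 * b (cyl M z) ^ 2 + e (cyl M z) ^ 2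
    have := hβpos z
    positivity
  have hDc : ContDiff ℝ ∞ D := by
    show ContDiff ℝ ∞ fun z : ℝ => Real.pi / 2 - Real.arctan (e (cyl M z) / (√2 * b (cyl M z)))
    refine contDiff_const.sub (Real.contDiff_arctan.comp (hε.div (contDiff_const.mul hβ) fun z => ?_))
    have := hβpos z
    positivity
  have hDpos : ∀ z, 0 < D z := fun z => by
    show 0 < Real.pi / 2 - Real.arctan (e (cyl M z) / (√2 * b (cyl M z)))
    linarith [Real.arctan_lt_pi_div_two (e (cyl M z) / (√2 * b (cyl M z)))]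
  have hD'c : ContDiff ℝ ∞ (deriv D) := (contDiff_infty_iff_deriv.1 hDc).2
  have hDd : ∀ z, HasDerivAt D (deriv D z) z := fun z =>
    (hDc.differentiable (by simp) z).hasDerivAt
  have hFd : ∀ z, HasDerivAt (fun s => ν s * deriv D s) (deriv (fun s => ν s * deriv D s) z) z := fun z =>
    ((hνc.mul hD'c).differentiable (by simp) z).hasDerivAt
  have hq : ∀ z ∈ Icc 0 stripL, deriv (fun s => ν s * deriv D s) z < stripMu ^ 2 * (ν z * D z) := by
    intro z hz
    have h1 : (refStripQuotient b e M z : EReal) < ((stripMu ^ 2 : ℝ) : EReal) :=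
      lt_of_le_of_lt (le_iSup₂ (f := fun z (_ : z ∈ Icc 0 stripL) => (refStripQuotient b e M z : EReal)) z hz) hM3
    have h2 : refStripQuotient b e M z < stripMu ^ 2 := EReal.coe_lt_coe_iff.1 h1
    have h3 : refStripQuotient b e M z = deriv (fun s => ν s * deriv D s) z / (ν z * D z) := rfl
    rw [h3, div_lt_iff₀ (mul_pos (hνpos z) (hDpos z))] at h2
    exact h2
  have he0 : e (cyl M 0) = 0 := by
    have h1 : reflZ (cyl M 0) = cyl M 0 := by
      unfold reflZ cyl
      simp
    have h2 := h.data.odd_e (cyl M 0)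
    rw [h1] at h2
    linarith
  have hD0 : D 0 = Real.pi / 2 := by
    show Real.pi / 2 - Real.arctan (e (cyl M 0) / (√2 * b (cyl M 0))) = _
    rw [he0]; simp
  have hπ := Real.pi_pos
  set v : ℝ → ℝ := fun z => 2 / Real.pi * D z - U₀ z with hv
  set v' : ℝ → ℝ := fun z => 2 / Real.pi * deriv D z - U₀' z with hv'
  set w : ℝ → ℝ := fun z => 2 / Real.pi * deriv (fun s => ν s * deriv D s) z - ν z * (stripMu ^ 2 * U₀ z) with hw
  have hvd : ∀ z ∈ Icc 0 stripL, HasDerivWithinAt v (v' z) (Icc 0 stripL) z := fun z hz =>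
    ((hDd z).hasDerivWithinAt.const_mul _).sub (hU.2.2 z hz).1
  have hwd : ∀ z ∈ Icc 0 stripL, HasDerivWithinAt (fun s => ν s * v' s) (w z) (Icc 0 stripL) z := by
    intro z hz
    have h1 := ((hFd z).hasDerivWithinAt (s := Icc 0 stripL)).const_mul (2 / Real.pi)
    have h2 := h1.sub (hU.2.2 z hz).2
    refine h2.congr_of_eventuallyEq ?_ ?_
    · exact Filter.Eventually.of_forall fun s => by simp only [hv', Pi.sub_apply]; ring
    · simp only [hv', Pi.sub_apply]; ring
  have hlt : ∀ z ∈ Ico 0 stripL, w z < stripMu ^ 2 * (ν z * v z) := by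
    intro z hz
    have h1 := hq z ⟨hz.1, hz.2.le⟩
    have h2 : 2 / Real.pi * deriv (fun s => ν s * deriv D s) z < 2 / Real.pi * (stripMu ^ 2 * (ν z * D z)) :=
      mul_lt_mul_of_pos_left h1 (by positivity)
    simp only [hw, hv]
    nlinarith
  have hv0 : v 0 = 0 := by
    simp only [hv, hD0, hU.1]
    field_simp
    ring
  have hvL : 0 < v stripL := by
    simp only [hv, hU.2.1, sub_zero]
    have := hDpos stripL
    positivity
  obtain ⟨hp, hd⟩ := st_compare (κ := stripMu ^ 2) (by positivity) (fun z _ => hνpos z) hvd hwd hlt hv0.ge hvL.le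
  obtain ⟨α, hα, hglb⟩ := st_margin_abs hvd hv0 (fun z hz => by
    rcases hz.2.lt_or_eq with h1 | h1
    · exact hp z ⟨hz.1, h1⟩
    · rw [h1]; exact hvL) (hd hv0)
  exact ⟨α, hα, hglb⟩

end Claimed.Open.R278
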