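import Claimed.Open.R278.TCLoc

/-!
# Result 278, layer TC (Proposition 2.2), file 8: assembly

`tc_exists_twoCentre` (verbatim statement of `Top.exists_twoCentre`) from the leaves of `TCForm … TCLoc`.
-/

open MeasureTheory Filter Topology Set
open scoped ContDiff InnerProductSpace

noncomputable section

namespace Claimed.Open.R278

/-! ## Small tools -/

section X1

variable {f : Space → ℝ}

/-- a continuous function without zeros on an open connected set has a constant sign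
(`isPreconnected_iff_subset_of_disjoint` with the open sets `{f > 0}`, `{f < 0}`). -/
theorem tc_const_sign {U : Set Space} (hU : IsOpen U) (hconn : IsPreconnected U) (hc : ContinuousOn f U)
    (hne : ∀ x ∈ U, f x ≠ 0) : (∀ x ∈ U, 0 < f x) ∨ (∀ x ∈ U, f x < 0) := by
  by_contra hcon
  push Not at hcon
  obtain ⟨⟨x₁, hx₁, h1⟩, ⟨x₂, hx₂, h2⟩⟩ := hcon
  have hP : IsOpen {x | x ∈ U ∧ 0 < f x} := hc.isOpen_inter_preimage hU isOpen_Ioi
  have hN : IsOpen {x | x ∈ U ∧ f x < 0} := hc.isOpen_inter_preimage hU isOpen_Iio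
  obtain ⟨y, -, hy1, hy2⟩ := hconn _ _ hP hN
    (fun x hx => (lt_or_gt_of_ne (hne x hx)).elim (fun h => Or.inr ⟨hx, h⟩) (fun h => Or.inl ⟨hx, h⟩))
    ⟨x₂, hx₂, hx₂, lt_of_le_of_ne h2 (hne x₂ hx₂).symm⟩ ⟨x₁, hx₁, hx₁, lt_of_le_of_ne h1 (hne x₁ hx₁)⟩
  exact lt_asymm hy1.2 hy2.2

/-- (`measurePreserving_reflZ.quasiMeasurePreserving.ae_eq_comp`). -/
theorem OddZ.congr_ae {f' : Space → ℝ} (h : OddZ f) (he : f =ᵐ[volume] f') : OddZ f' := by
  have h1 := measurePreserving_reflZ.quasiMeasurePreserving.ae_eq_comp he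
  filter_upwards [h, he, h1] with x hx hx1 hx2
  simp only [Function.comp_apply] at hx2
  rw [← hx2, hx, hx1]

theorem reflZ_rotZ (a : ℝ) (x : Space) : reflZ (rotZ a x) = rotZ a (reflZ x) := by
  apply space_ext <;> simp [reflZ, rotZ]

end X1

/-! ## The two orbitals -/

section X2

theorem tc_integral_sq_congr {f f' : Space → ℝ} (h : f' =ᵐ[volume] f) : ∫ x, f' x ^ 2 = ∫ x, f x ^ 2 :=
  integral_congr_ae (h.mono fun x hx => by simp only [hx])

theorem tc_mu_neg : -(1 / 2) + 300 / bigD ^ 2 < 0 := by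
  have h : (1000 : ℝ) ≤ bigD := by unfold bigD; norm_num
  have h2 : (1000 : ℝ) ^ 2 ≤ bigD ^ 2 := by gcongr
  have h3 : 300 / bigD ^ 2 ≤ 300 / 1000 ^ 2 := by gcongr
  norm_num at h3 ⊢
  linarith

/-- the ground state: positive, continuous. -/
theorem tc_ground :
    ∃ (εb : ℝ) (b : Space → ℝ) (Fb : Space → Space), IsWeakEig 1 bigD εb b Fb ∧ Continuous b ∧
      ∫ x, b x ^ 2 = 1 ∧ IsBelow 1 bigD εb (fun _ => True) ∧ ∀ x, 0 < b x := by
  obtain ⟨g₀, G₀, h₀, -, hpos, hle⟩ := tc_exists_trial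
  have hneg : nucForm 1 bigD g₀ g₀ G₀ G₀ < 0 :=
    lt_of_le_of_lt hle (mul_neg_of_neg_of_pos tc_mu_neg hpos)
  obtain ⟨E, f, F, -, hf, hn, hmin⟩ := tc_exists_ground zero_le_one h₀ hneg
  obtain ⟨f', hc, hae, -, hf'⟩ := hf.exists_continuous_rep
  have hn' : ∫ x, f' x ^ 2 = 1 := by rw [tc_integral_sq_congr hae, hn]
  have hne : ∀ x ∈ (univ : Set Space), f' x ≠ 0 := by
    intro x₀ _ h0
    have hz := hf'.eq_zero_of_bottom zero_le_one hmin hc h0
    simp [hz] at hn'
  rcases tc_const_sign isOpen_univ isPreconnected_univ hc.continuousOn hne with hp | hp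
  · exact ⟨E, f', F, hf', hc, hn', hmin, fun x => hp x trivial⟩
  · refine ⟨E, fun x => (-1) * f' x, fun x => (-1 : ℝ) • F x, hf'.const_mul (-1), by fun_prop, ?_, hmin, fun x => ?_⟩
    · refine Eq.trans (integral_congr_ae (Eventually.of_forall fun x => ?_)) hn'
      simp
    · have := hp x trivial
      linarith

/-- the ground state of the odd class: continuous, positive on `z > 0`. -/
theorem tc_ground_odd :
    ∃ (εe : ℝ) (e : Space → ℝ) (Fe : Space → Space), IsWeakEig 1 bigD εe e Fe ∧ Continuous e ∧ OddZ e ∧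
      ∫ x, e x ^ 2 = 1 ∧ IsBelow 1 bigD εe OddZ ∧ ∀ x : Space, 0 < x 2 → 0 < e x := by
  obtain ⟨g₀, G₀, h₀, ho, hpos, hle⟩ := tc_exists_trial
  have hneg : nucForm 1 bigD g₀ g₀ G₀ G₀ < 0 :=
    lt_of_le_of_lt hle (mul_neg_of_neg_of_pos tc_mu_neg hpos)
  obtain ⟨E, f, F, -, hf, hodd, hn, hmin⟩ := tc_exists_ground_odd zero_le_one h₀ ho hneg
  obtain ⟨f', hc, hae, -, hf'⟩ := hf.exists_continuous_rep
  have hodd' : OddZ f' := hodd.congr_ae hae.symm
  have hn' : ∫ x, f' x ^ 2 = 1 := by rw [tc_integral_sq_congr hae, hn]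
  have hne : ∀ x ∈ {x : Space | 0 < x 2}, f' x ≠ 0 := by
    intro x₀ hx₀ h0
    have hz := hf'.eq_zero_of_bottom_odd zero_le_one hodd' hmin hc hx₀ h0
    simp [hz] at hn'
  rcases tc_const_sign isOpen_upper isPreconnected_upper hc.continuousOn hne with hp | hp
  · exact ⟨E, f', F, hf', hc, hodd', hn', hmin, fun x hx => hp x hx⟩
  · refine ⟨E, fun x => (-1) * f' x, fun x => (-1 : ℝ) • F x, hf'.const_mul (-1), by fun_prop,
      hodd'.const_mul (-1), ?_, hmin, fun x hx => ?_⟩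
    · refine Eq.trans (integral_congr_ae (Eventually.of_forall fun x => ?_)) hn'
      simp
    · have := hp x hx
      linarith

end X2

/-! ## Numerics -/

section X3

theorem tc_numerics {εb εe : ℝ} (h1 : -(1 / 2) - 4 / bigD - 150 / bigD ^ 2 ≤ εb) (h2 : εb < εe)
    (h3 : εe ≤ -(1 / 2) + 300 / bigD ^ 2) :
    εb < 0 ∧ εe < 0 ∧ √(-(2 * εb)) < 1.01 ∧ 0.99 < √(-(2 * εe)) ∧ εe - εb < 100 / bigD ∧
      √(-(2 * εb)) - √(-(2 * εe)) < 200 / bigD ∧ εe + 0.2 ≤ -(1 / 8) - 4 / bigD - 150 / bigD ^ 2 := by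
  obtain ⟨δ, hδ⟩ : ∃ δ : ℝ, δ = 1 / bigD := ⟨_, rfl⟩
  have hD : (1000 : ℝ) ≤ bigD := by unfold bigD; norm_num
  have hDpos : 0 < bigD := bigD_pos
  have hδ0 : 0 < δ := by rw [hδ]; positivity
  have hδ1 : δ ≤ 1 / 1000 := by rw [hδ]; gcongr
  have e1 : 4 / bigD = 4 * δ := by rw [hδ]; ring
  have e2 : 150 / bigD ^ 2 = 150 * δ ^ 2 := by rw [hδ]; field_simp
  have e3 : 300 / bigD ^ 2 = 300 * δ ^ 2 := by rw [hδ]; field_simp
  have e4 : 100 / bigD = 100 * δ := by rw [hδ]; ring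
  have e5 : 200 / bigD = 200 * δ := by rw [hδ]; ring
  rw [e1, e2] at h1 ⊢
  rw [e3] at h3
  rw [e4, e5]
  have hδ2 : δ ^ 2 ≤ δ / 1000 := by nlinarith
  have hsplit : εe - εb < 100 * δ := by nlinarith
  have hg : √(-(2 * εb)) < 1.01 := by
    rw [Real.sqrt_lt' (by norm_num)]
    nlinarith
  have hk : 0.99 < √(-(2 * εe)) := by
    rw [Real.lt_sqrt (by norm_num)]
    nlinarith
  refine ⟨by nlinarith, by nlinarith, hg, hk, hsplit, ?_, by nlinarith⟩
  set a := √(-(2 * εb)) with ha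
  set k := √(-(2 * εe)) with hk'
  have ha2 : a ^ 2 = -(2 * εb) := Real.sq_sqrt (by nlinarith)
  have hk2 : k ^ 2 = -(2 * εe) := Real.sq_sqrt (by nlinarith)
  have hak : k ≤ a := Real.sqrt_le_sqrt (by linarith)
  have hprod : (a - k) * (a + k) < 200 * δ := by nlinarith
  nlinarith

end X3

/-! ## The theorem -/

section X4

/-- **Proposition 2.2** (verbatim statement of `exists_twoCentre` in `Top.lean`). -/
theorem tc_exists_twoCentre : ∃ (b e : Space → ℝ) (εb εe : ℝ), TwoCentre b e εb εe := by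
  obtain ⟨εb, b, Fb, hb, hbc, hbn, hbmin, hbpos⟩ := tc_ground
  obtain ⟨εe, e, Fe, he, hec, heodd, hen, hemin, hepos⟩ := tc_ground_odd
  have hodd : ∀ x, e (reflZ x) = - e x := heodd.pointwise hec
  -- symmetries of `b`
  have hbsym : ∀ A : Space ≃ₗᵢ[ℝ] Space, (∀ x, nuclearPotential 1 bigD (A x) = nuclearPotential 1 bigD x) →
      ∀ x, b (A x) = b x := by
    intro A hA x
    have h1 := (hb.comp_isometry A hA).sub hb
    have h2 := h1.eq_zero_of_bottom zero_le_one hbmin (by fun_prop) (x₀ := 0) (by simp)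
    have := h2 x
    linarith
  have hbeven : ∀ x, b (reflZ x) = b x := hbsym reflZE nuclearPotential_reflZE
  have hbrot : ∀ a x, b (rotZ a x) = b x := fun a => hbsym (rotZE a) (nuclearPotential_rotZE a)
  -- axisymmetry of `e`
  have herot : ∀ a x, e (rotZ a x) = e x := by
    intro a x
    have h1 := (he.comp_isometry (rotZE a) (nuclearPotential_rotZE a)).sub he
    have ho : OddZ (fun x => e (rotZE a x) - e x) := by
      refine Eventually.of_forall fun x => ?_
      simp only [rotZE_apply]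
      rw [← reflZ_rotZ, hodd, hodd]
      ring
    have h2 := h1.eq_zero_of_bottom_odd zero_le_one ho hemin (by fun_prop) (x₀ := ez) (by simp [ez])
      (by simp [rotZ_ez])
    have := h2 x
    simp only [rotZE_apply] at this
    linarith
  -- orthogonality
  have hbe : ∫ x, b x * e x = 0 := by
    have := heodd.integral_mul_eq_zero (g := b) (Eventually.of_forall hbeven)
    simpa only [mul_comm] using this
  -- the levels
  have hle : εb ≤ εe := by
    have := hbmin e Fe he.1 trivial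
    rw [he.form_self, hen] at this
    linarith
  have hlt : εb < εe := by
    refine lt_of_le_of_ne hle fun heq => ?_
    have h0 : e 0 = 0 := by
      have := hodd 0
      have hr : reflZ 0 = 0 := by apply space_ext <;> simp [reflZ]
      rw [hr] at this
      linarith
    have hz := (heq ▸ he : IsWeakEig 1 bigD εb e Fe).eq_zero_of_bottom zero_le_one hbmin hec h0
    simp [hz] at hen
  have hlow : -(1 / 2) - 4 / bigD - 150 / bigD ^ 2 ≤ εb := by
    have := tc_lower hb.1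
    rw [orbitalForm_eq_nucForm, hb.form_self, hbn] at this
    linarith
  have hup : εe ≤ -(1 / 2) + 300 / bigD ^ 2 := by
    obtain ⟨g₀, G₀, h₀, ho, hpos, hle⟩ := tc_exists_trial
    have := hemin g₀ G₀ h₀ ho
    rw [orbitalForm_eq_nucForm] at hle
    exact le_of_mul_le_mul_right (this.trans hle) hpos
  obtain ⟨n1, n2, n3, n4, n5, n6, n7⟩ := tc_numerics hlow hlt hup
  -- the third level
  have hthird := tc_third (Z := 1) (R := bigD) (B := -(1 / 8) - 4 / bigD - 150 / bigD ^ 2) memLp_tcT1 memLp_tcT2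
    (fun g G hg o₁ o₂ => tc_lower_orth hg o₁ o₂) hb he hbn hen hbe (by linarith) (by linarith)
  have hsecond := tc_second (Z := 1) (R := bigD) hb.1 he hen hbe (by linarith) hthird
  refine ⟨b, e, εb, εe, ⟨⟨⟨hbc, hbn, Fb, hb.1, hb.2⟩, ⟨hec, hen, Fe, he.1, he.2⟩, fun g G hg => hbmin g G hg trivial,
    hsecond, hlt, hbrot, herot, hbeven, hodd, hbpos, hepos⟩, n1, n2, n3, n4, n5, n6, ?_, hb.contDiffOn hbc,
    he.contDiffOn hec⟩⟩
  intro g G hg o₁ o₂
  have h1 := hthird g G hg o₁ o₂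
  have h2 : 0 ≤ ∫ x, g x ^ 2 := integral_nonneg fun x => sq_nonneg _
  have h3 : (εe + 0.2) * (∫ x, g x ^ 2) ≤ (-(1 / 8) - 4 / bigD - 150 / bigD ^ 2) * ∫ x, g x ^ 2 :=
    mul_le_mul_of_nonneg_right n7 h2
  exact h3.trans h1

end X4

end Claimed.Open.R278
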