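import Claimed.Open.R278.TopDefs
import Claimed.Open.R278.TCMain
import Claimed.Open.R278.TXTop
import Claimed.Open.R278.CHXTop
import Claimed.Open.R278.MRUnique
import Claimed.Open.R278.MRScale
import Claimed.Open.R278.STExist
import Claimed.Open.R278.STMargin
import Claimed.Open.R278.ANTop
import Claimed.Open.R278.ACTop
import Claimed.Open.R278.GPTop
import Claimed.Open.R278.GPOrbTop
import Claimed.Open.R278.ENMain
import Claimed.Open.R278.OBMain

/-!
# Result 278: top-level architecture of the proof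

This file fixes the INTERFACES between the layers of the proof of `Statement`
Every theorem below is the *top theorem of a
layer*; it is proved in the files of that layer (under the name `<prefix>_<name>`, verbatim the same
statement) and cited here.  The definitions are in `TopDefs.lean`;
LAYER FILES IMPORT `TopDefs.lean`, NOT THIS FILE.

Layers (paper sections in brackets):
* L1 one-body two-centre problem [Prop 2.2, zero-coupling parts of Sec. 3]      -> `exists_twoCentre`, `refStrip_small`
* L2-L5 many-body + channels, uniform in small `t` [Props 2.3, 3.1, Lemmas 2.4, 3.2-3.4] -> `uniform_channels`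
* L2-L5 channels at a fixed regular coupling [Prop 3.5]                        -> `fixed_channels`
* L6 angle problem [Sec. 4]    -> `exists_foldedMinimizer`, `angle_tests_small`, `weightedGap_of_tests`, strip lemmas
* L7/L8 ensemble certificate and plane obstruction [Secs. 5, 6]                -> `no_representation`
* L2 scaling [Prop 2.1]                                                        -> `scaling_transfer`
* L9 parameters [Sec. 7]                                                       -> `Main.lean`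
-/

open MeasureTheory
open scoped ContDiff InnerProductSpace ComplexConjugate ENNReal Topology Laplacian

noncomputable section

namespace Claimed.Open.R278

/-! ## L1: the two-centre problem -/

/-- **L1 top theorem** (Proposition 2.2). -/
theorem exists_twoCentre : ∃ (b e : Space → ℝ) (εb εe : ℝ), TwoCentre b e εb εe :=
  tc_exists_twoCentre

/-! ## L2-L5: channels -/

/-- **Top theorem of L2-L5, uniform part** (Props 2.3, 3.1, Lemmas 2.4, 3.2-3.4 and the first half
of the proof of Lemma 7.2).  One family of regular data on a small coupling interval, with one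
common exterior radius, converging to the zero-coupling data. -/
theorem uniform_channels {b e : Space → ℝ} {εb εe : ℝ} (h : TwoCentre b e εb εe) :
    ∃ τ > 0, ∃ j₀ : ℕ, ∃ dat : ℝ → AuxData,
      (∀ t ∈ Set.Icc 0 τ, IsRegular εb t (dat t) ∧ DensityBasic (dat t).n ∧
        ∀ j : ℕ, j₀ ≤ j → (dat t).H j ≤ 1 / 2) ∧
      (dat 0).n = refDensity b e ∧
      (∀ R : ℝ, TendstoUniformlyOn (fun t => (dat t).n) (refDensity b e) (𝓝[>] 0)
        (Metric.closedBall 0 R)) ∧
      Filter.Tendsto (fun t => ∫ x, |(dat t).n x - refDensity b e x|) (𝓝[>] 0) (𝓝 0) ∧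
      (∀ R : ℝ, ∃ C : ℝ≥0∞, C < ⊤ ∧ ∀ t ∈ Set.Icc 0 τ,
        eLpNorm (gradient (dat t).n) 6 (volume.restrict (Metric.ball 0 R)) ≤ C) :=
  chx_uniform_channels h

/-- **Top theorem of L2-L5, fixed coupling** (Prop 3.5, Lemma 2.4). -/
theorem fixed_channels {b e : Space → ℝ} {εb εe : ℝ} (h : TwoCentre b e εb εe)
    {t : ℝ} (ht : t ∈ Set.Ioc (0 : ℝ) 1) {d : AuxData} (hd : IsRegular εb t d) :
    DensityBasic d.n ∧ PlaneTail d.n d.k (d.β t) ∧ PlaneTranslate d.n d.k (d.β t) ∧
      BulkTranslate d.n d.k :=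
  chx_fixed_channels h ht hd

/-- Regular data are unique as far as the density and the rate are concerned. -/
theorem IsRegular.unique {εb t : ℝ} {d d' : AuxData} (h : IsRegular εb t d)
    (h' : IsRegular εb t d') : d.n = d'.n ∧ d.k = d'.k :=
  mr_unique h h'

/-- **L1** (second half of the proof of Lemma 7.2): the strip quotient of the reference angle. -/
theorem refStrip_small {b e : Space → ℝ} {εb εe : ℝ} (h : TwoCentre b e εb εe) :
    ∃ j₁ : ℕ, ∀ j : ℕ, j₁ ≤ j →
      (⨆ z ∈ Set.Icc 0 stripL, (refStripQuotient b e j z : EReal)) < ((stripMu ^ 2 : ℝ) : EReal) :=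
  tx_refStrip_small h

/-! ## L6: strip solutions and the angle problem -/

/-- Lemma 4.4, existence. -/
theorem exists_stripSolution {ν : ℝ → ℝ} (hc : ContinuousOn ν (Set.Icc 0 stripL))
    (hpos : ∀ z ∈ Set.Icc 0 stripL, 0 < ν z) : ∃ U U' : ℝ → ℝ, IsStripSolution ν U U' :=
  st_exists_stripSolution hc hpos

/-- Lemma 7.2, positivity of the margin. -/
theorem margin_pos {b e : Space → ℝ} {εb εe : ℝ} (h : TwoCentre b e εb εe) {M : ℕ}
    (hM : IsRadius b e εb M) {U₀ U₀' : ℝ → ℝ}
    (hU : IsStripSolution (fun z => refDensity b e (cyl M z)) U₀ U₀') :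
    ∃ α : ℝ, 0 < α ∧ IsMargin b e M U₀ α :=
  st_margin_pos h hM hU

/-- Proposition 4.1: existence of a folded minimizing angle in the `C¹` sense of `Statement.lean`,
with a multiplier. -/
theorem exists_foldedMinimizer {n : Space → ℝ} (hn : DensityBasic n) :
    ∃ (θ : Space → ℝ) (dθ : ℝ), IsFoldedMinimizer n θ ∧ IsMultiplier n θ dθ :=
  an_exists_foldedMinimizer hn

/-- Lemma 7.4 (via Prop 4.2): for small couplings every folded minimizer passes the tests (7.9). -/
theorem angle_tests_small {b e : Space → ℝ} {εb εe : ℝ} (h : TwoCentre b e εb εe) {M : ℕ}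
    (hM : IsRadius b e εb M) {U₀ U₀' : ℝ → ℝ}
    (hU : IsStripSolution (fun z => refDensity b e (cyl M z)) U₀ U₀') {α : ℝ} (hα : 0 < α)
    (hαM : IsMargin b e M U₀ α) :
    ∃ τ > 0, ∀ t ∈ Set.Ioo 0 τ, ∀ (d : AuxData) (θ : Space → ℝ) (dθ : ℝ) (U U' : ℝ → ℝ),
      IsRegular εb t d → IsFoldedMinimizer d.n θ → IsMultiplier d.n θ dθ →
      IsStripSolution (fun z => d.n (cyl M z)) U U' →
      PassesAngleTests b e M α U₀' d.n θ dθ U' := by
  obtain ⟨τ, hτ, j₀, dat, h1, h2, h3, h4, h5⟩ := uniform_channels h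
  exact ac_angle_tests_small_of h
    ⟨τ, hτ, dat, fun t ht => ⟨(h1 t ht).1, (h1 t ht).2.1⟩, h2, h3, h4, h5⟩
    (fun t d d' hd hd' => (hd.unique hd').1) hU hα

/-- Lemma 4.7: the finite tests imply positivity of `g` and the full weighted gap. -/
theorem weightedGap_of_tests {b e : Space → ℝ} {εb εe : ℝ} (h : TwoCentre b e εb εe) {M : ℕ}
    (hM : 10 * bigD < M) {U₀ U₀' : ℝ → ℝ}
    (hU₀ : IsStripSolution (fun z => refDensity b e (cyl M z)) U₀ U₀') {α : ℝ} (hα : 0 < α)
    (hαM : IsMargin b e M U₀ α)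
    {n θ : Space → ℝ} {k dθ : ℝ} {U U' : ℝ → ℝ} (hn : DensityBasic n)
    (hk : 0.99 < k) (hk' : k < 1.01) (hds : DriftStrip n k M)
    (hθ : IsFoldedMinimizer n θ) (hd : IsMultiplier n θ dθ)
    (hU : IsStripSolution (fun z => n (cyl M z)) U U')
    (htests : PassesAngleTests b e M α U₀' n θ dθ U') :
    (∀ x, 0 < Real.cos (θ x)) ∧ WeightedGap n θ dθ :=
  gp_weightedGap_of_tests h hM hU₀ hα hαM hn hk hk' hds hθ hd hU htests

/-! ## Orbitals and the formal potential (Prop 4.3) -/

/-- Proposition 4.3 (+ strong maximum principle of Prop 4.1, + (5.9)). -/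
theorem orbitalFacts {n θ : Space → ℝ} {dθ : ℝ} (hn : DensityBasic n)
    (hθ : IsFoldedMinimizer n θ) (hd : IsMultiplier n θ dθ) (hdpos : 0 < dθ)
    (hg : ∀ x, 0 < Real.cos (θ x)) : OrbitalFacts n θ dθ :=
  gp_orbitalFacts hn hθ hd hdpos hg

/-! ## L7, L8: certificate and obstruction -/

/-- **L7 top theorem** (Props 5.1, 5.2): a representing potential equals `V` up to a constant, hence
`V ∈ L^{3/2} + L^∞`. -/
theorem potential_identification {n θ : Space → ℝ} {dθ : ℝ} (hn : DensityBasic n)
    (hθ : IsFoldedMinimizer n θ) (hdpos : 0 < dθ) (ho : OrbitalFacts n θ dθ)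
    (hgap : WeightedGap n θ dθ)
    (hrep : ∃ (v : Space → ℝ) (Γ : L2 3 →L[ℂ] L2 3) (n' : Space → ℝ),
        v ∈ PotentialClass ∧ IsGroundStateEnsemble (oneBodyPotential v) Γ ∧
        IsDensityOf Γ n' ∧ n' =ᵐ[volume] n) :
    formalV n θ dθ ∈ PotentialClass :=
  en_potential_identification hn hθ hdpos ho hgap hrep

/-- **L8 top theorem** (first half of Theorem 6.4): `V ∉ L^{3/2} + L^∞`. -/
theorem formalV_not_admissible {n θ : Space → ℝ} {k β dθ : ℝ} (hn : DensityBasic n) (hk : 0 < k)
    (hθ : IsFoldedMinimizer n θ) (hd : IsMultiplier n θ dθ) (hdpos : 0 < dθ)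
    (ho : OrbitalFacts n θ dθ)
    (htail : PlaneTail n k β) (hplane : PlaneTranslate n k β) (hbulk : BulkTranslate n k) :
    formalV n θ dθ ∉ PotentialClass :=
  ob_formalV_not_admissible hn hk hθ hd hdpos ho htail hplane hbulk

/-- Theorem 6.4: a fixed-density obstruction. -/
theorem no_representation {n θ : Space → ℝ} {k β dθ : ℝ} (hn : DensityBasic n) (hk : 0 < k)
    (hθ : IsFoldedMinimizer n θ) (hd : IsMultiplier n θ dθ) (hdpos : 0 < dθ)
    (hg : ∀ x, 0 < Real.cos (θ x)) (hgap : WeightedGap n θ dθ)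
    (htail : PlaneTail n k β) (hplane : PlaneTranslate n k β) (hbulk : BulkTranslate n k) :
    ¬ ∃ (v : Space → ℝ) (Γ : L2 3 →L[ℂ] L2 3) (n' : Space → ℝ),
        v ∈ PotentialClass ∧ IsGroundStateEnsemble (oneBodyPotential v) Γ ∧
        IsDensityOf Γ n' ∧ n' =ᵐ[volume] n := by
  intro hrep
  have ho := orbitalFacts hn hθ hd hdpos hg
  exact formalV_not_admissible hn hk hθ hd hdpos ho htail hplane hbulk
    (potential_identification hn hθ hdpos ho hgap hrep)

/-! ## L2: scaling -/

/-- Proposition 2.1: dilation to integer nuclear charges. -/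
theorem scaling_transfer {Z : ℕ} (hZ : 0 < Z) {Ψ : L2 3}
    (hgs : IsGroundState (scaledPotential 3 (1 / (Z : ℝ))) Ψ) (hs : InSpinSector (1 / 2) Ψ)
    (hno : ¬ ∃ (v : Space → ℝ) (Γ : L2 3 →L[ℂ] L2 3) (n' : Space → ℝ),
        v ∈ PotentialClass ∧ IsGroundStateEnsemble (oneBodyPotential v) Γ ∧
        IsDensityOf Γ n' ∧ n' =ᵐ[volume] density Ψ) :
    HasUnrepresentableGroundState Z :=
  mr_scaling_transfer hZ hgs hs hno

end Claimed.Open.R278
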