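import Claimed.Open.R278.Statement
import Claimed.Open.R278.Top

/-!
# Result 278: the main theorem from the layer theorems of `Top.lean`

This file follows Section 7 of the paper (`06-parameters.tex`).  It contains no analysis: all the
analysis is in the top theorems of the layers, which are stated in `Top.lean`.

* `exists_isRadius`: the set in (7.5) is nonempty (`uniform_channels`, `refStrip_small`), hence has
  a least element `M`;
* `driftStrip_of_H_lt_one`: the pointwise content of `H_t(M) < 1`;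
* `exists_badSet_free`: the bad set does not meet a small interval `(0, τ)` (Lemma 7.4);
* `main`: the charge `Z = 2 + ⌈C⌉` is well defined, `1 / Z` is not in the bad set, and the chain
  `fixed_channels → exists_foldedMinimizer → weightedGap_of_tests → no_representation →
  scaling_transfer` applies at `t = 1 / Z`.
-/

open MeasureTheory
open scoped ContDiff InnerProductSpace ComplexConjugate ENNReal Topology Laplacian

noncomputable section

namespace Claimed.Open.R278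

/-! ## Small lemmas -/

theorem continuous_cyl_right (p : ℝ) : Continuous fun z : ℝ => cyl p z := by
  unfold cyl
  refine (PiLp.continuous_toLp 2 _).comp (continuous_pi fun i => ?_)
  fin_cases i <;> simp <;> fun_prop

theorem refDensity_pos {b e : Space → ℝ} (hb : ∀ x, 0 < b x) (x : Space) :
    0 < refDensity b e x := by
  unfold refDensity
  have := hb x
  positivity

theorem continuous_refDensity {b e : Space → ℝ} (hb : Continuous b) (he : Continuous e) :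
    Continuous (refDensity b e) := by
  unfold refDensity
  fun_prop

/-- `ENNReal.ofReal a < 1` gives `a < 1`. -/
theorem lt_one_of_ofReal_lt_one {a : ℝ} (h : ENNReal.ofReal a < 1) : a < 1 := by
  by_contra hh
  have h1 : (1 : ℝ≥0∞) ≤ ENNReal.ofReal a := by
    rw [← ENNReal.ofReal_one]
    exact ENNReal.ofReal_le_ofReal (not_lt.mp hh)
  exact absurd h (not_lt.mpr h1)

theorem eta0_pos : 0 < eta0 := by
  unfold eta0
  positivity

/-! ## The pointwise content of `H_t(M) < 1` -/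

theorem driftStrip_of_H_lt_one {d : AuxData} (hpos : ∀ x, 0 < d.n x) {M : ℕ} (h : d.H M < 1) :
    DriftStrip d.n d.k M := by
  unfold AuxData.H at h
  rw [sup_lt_iff, sup_lt_iff, sup_lt_iff] at h
  obtain ⟨⟨⟨h1, h2⟩, h3⟩, h4⟩ := h
  have he := eta0_pos
  refine ⟨fun x hx => ?_, fun p z hp hz hz' => ?_, fun p z hp hz hz' => ?_,
    fun p z₁ z₂ hp hz₁ hz hz₂ => ?_⟩
  · have := lt_one_of_ofReal_lt_one (lt_of_le_of_lt
      (le_iSup₂ (f := fun (x : Space) (_ : x ∈ {x : Space | (M : ℝ) ≤ ‖x‖}) =>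
        ENNReal.ofReal (|fderiv ℝ (fun y => Real.log (d.n y)) x (‖x‖⁻¹ • x) + 2 * d.k| / eta0))
        x hx) h1)
    rw [div_lt_one he] at this
    exact this.le
  · have := lt_one_of_ofReal_lt_one (lt_of_le_of_lt
      (le_iSup₂ (f := fun (q : ℝ × ℝ)
          (_ : q ∈ {q : ℝ × ℝ | (M : ℝ) ≤ ‖cyl q.1 q.2‖ ∧ 0 ≤ q.2 ∧ q.2 ≤ q.1 / 2}) =>
        ENNReal.ofReal (|deriv (fun p => Real.log (d.n (cyl p q.2))) q.1
          + 2 * d.k * q.1 / ‖cyl q.1 q.2‖| / eta0))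
        (p, z) ⟨hp, hz, hz'⟩) h2)
    rw [div_lt_one he] at this
    exact this.le
  · have := lt_one_of_ofReal_lt_one (lt_of_le_of_lt
      (le_iSup₂ (f := fun (q : ℝ × ℝ)
          (_ : q ∈ {q : ℝ × ℝ | (M : ℝ) ≤ q.1 ∧ 0 ≤ q.2 ∧ q.2 ≤ stripL}) =>
        ENNReal.ofReal ((|deriv (fun p => d.m p q.2) q.1|
          + |iteratedDeriv 2 (fun p => d.m p q.2) q.1|) / d.m q.1 q.2 / eta0))
        (p, z) ⟨hp, hz, hz'⟩) h3)
    have hm : 0 < d.m p z := mul_pos (Real.exp_pos _) (hpos _)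
    rw [div_lt_one he, div_lt_iff₀ hm] at this
    exact this.le
  · have := lt_one_of_ofReal_lt_one (lt_of_le_of_lt
      (le_iSup₂ (f := fun (q : ℝ × ℝ × ℝ)
          (_ : q ∈ {q : ℝ × ℝ × ℝ | (M : ℝ) ≤ q.1 ∧ 0 ≤ q.2.1 ∧ q.2.1 ≤ q.2.2 ∧ q.2.2 ≤ stripL}) =>
        ENNReal.ofReal (d.n (cyl q.1 q.2.1) / d.n (cyl q.1 q.2.2) / 100))
        (p, z₁, z₂) ⟨hp, hz₁, hz, hz₂⟩) h4)
    rw [div_lt_one (by norm_num), div_lt_iff₀ (hpos _)] at this
    exact this.le

/-! ## The radius -/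

theorem auxH_le {εb t : ℝ} {d : AuxData} (hd : IsRegular εb t d) (j : ℕ) : auxH εb t j ≤ d.H j :=
  iInf₂_le (f := fun (d : AuxData) (_ : d ∈ {d : AuxData | IsRegular εb t d}) => d.H j) d hd

theorem exists_regular_of_auxH_lt {εb t : ℝ} {j : ℕ} {c : ℝ≥0∞} (h : auxH εb t j < c) :
    ∃ d, IsRegular εb t d ∧ d.H j < c := by
  unfold auxH at h
  rw [iInf_lt_iff] at h
  obtain ⟨d, hd⟩ := h
  rw [iInf_lt_iff] at hd
  obtain ⟨hd1, hd2⟩ := hd
  exact ⟨d, hd1, hd2⟩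

/-- Lemma 7.2, first part: the radius `M` of (7.5) exists. -/
theorem exists_isRadius {b e : Space → ℝ} {εb εe : ℝ} (h : TwoCentre b e εb εe) :
    ∃ M : ℕ, IsRadius b e εb M := by
  classical
  obtain ⟨τ, hτ, j₀, dat, hdat, -⟩ := uniform_channels h
  obtain ⟨j₁, hj₁⟩ := refStrip_small h
  obtain ⟨j₂, hj₂⟩ := exists_nat_gt (10 * bigD)
  have hne : ∃ j : ℕ, j ∈ {j : ℕ | 10 * bigD < j ∧
      max (auxH εb 0 j) (Filter.limsup (fun t => auxH εb t j) (𝓝[>] 0)) < 1 ∧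
      (⨆ z ∈ Set.Icc 0 stripL, (refStripQuotient b e j z : EReal))
        < ((stripMu ^ 2 : ℝ) : EReal)} := by
    refine ⟨max j₀ (max j₁ j₂), ?_, ?_, hj₁ _ ((le_max_left _ _).trans (le_max_right _ _))⟩
    · refine hj₂.trans_le ?_
      exact_mod_cast (le_max_right _ _).trans (le_max_right _ _)
    · have hhalf : ((1 : ℝ≥0∞) / 2) < 1 := ENNReal.half_lt_self one_ne_zero ENNReal.one_ne_top
      have key : ∀ t ∈ Set.Icc 0 τ, auxH εb t (max j₀ (max j₁ j₂)) ≤ 1 / 2 := fun t ht =>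
        (auxH_le (hdat t ht).1 _).trans ((hdat t ht).2.2 _ (le_max_left _ _))
      refine lt_of_le_of_lt (max_le (key 0 ⟨le_rfl, hτ.le⟩) ?_) hhalf
      refine Filter.limsup_le_of_le (by isBoundedDefault) ?_
      filter_upwards [Ioc_mem_nhdsGT hτ] with t ht
      exact key t ⟨ht.1.le, ht.2⟩
  exact ⟨Nat.find hne, Nat.find_spec hne, fun j hj => Nat.find_min' hne hj⟩

/-! ## The bad set misses a neighbourhood of zero -/

/-- Lemma 7.4: the bad set does not meet `(0, τ)` for some `τ > 0`. -/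
theorem exists_badSet_free {b e : Space → ℝ} {εb εe : ℝ} (h : TwoCentre b e εb εe) {M : ℕ}
    (hM : IsRadius b e εb M) {U₀ U₀' : ℝ → ℝ}
    (hU : IsStripSolution (fun z => refDensity b e (cyl M z)) U₀ U₀') {α : ℝ} (hα : 0 < α)
    (hαM : IsMargin b e M U₀ α) :
    ∃ τ > 0, ∀ t ∈ Set.Ioo 0 τ, t ∉ BadSet b e εb M α U₀' := by
  obtain ⟨τ₁, hτ₁, j₀, dat, hdat, -⟩ := uniform_channels h
  obtain ⟨τ₂, hτ₂, htests⟩ := angle_tests_small h hM hU hα hαM
  have hlim : Filter.limsup (fun t => auxH εb t M) (𝓝[>] 0) < 1 :=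
    lt_of_le_of_lt (le_max_right _ _) hM.1.2.1
  have hev : ∀ᶠ t in 𝓝[>] (0 : ℝ), auxH εb t M < 1 :=
    Filter.eventually_lt_of_limsup_lt hlim (by isBoundedDefault)
  obtain ⟨τ₃, hτ₃, hτ₃'⟩ := (mem_nhdsGT_iff_exists_Ioo_subset).mp hev
  refine ⟨min τ₁ (min τ₂ τ₃), lt_min hτ₁ (lt_min hτ₂ hτ₃), fun t ht hbad => ?_⟩
  have ht1 : t < τ₁ := ht.2.trans_le (min_le_left _ _)
  have ht2 : t < τ₂ := ht.2.trans_le ((min_le_right _ _).trans (min_le_left _ _))
  have ht3 : t < τ₃ := ht.2.trans_le ((min_le_right _ _).trans (min_le_right _ _))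
  rcases hbad.2 with hb | hb | ⟨d, θ, dθ, U, U', hd, hθ, hdθ, hUt, hfail⟩
  · exact hb ⟨dat t, (hdat t ⟨ht.1.le, ht1.le⟩).1⟩
  · exact absurd (hτ₃' ⟨ht.1, ht3⟩) (not_lt.mpr hb)
  · exact hfail (htests t ⟨ht.1, ht2⟩ d θ dθ U U' hd hθ hdθ hUt)

/-- The supremum in (7.10) is finite. -/
theorem exists_isLUB_badSet {B : Set ℝ} {τ : ℝ} (hτ : 0 < τ) (hB : ∀ t ∈ Set.Ioo 0 τ, t ∉ B) :
    ∃ C : ℝ, IsLUB ((fun t => B.indicator (fun t => 1 / t) t) '' Set.Ioc 0 1) C := by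
  refine ⟨_, isLUB_csSup ⟨_, ⟨1, ⟨one_pos, le_rfl⟩, rfl⟩⟩ ⟨1 / τ, ?_⟩⟩
  rintro _ ⟨t, ht, rfl⟩
  show B.indicator (fun t => 1 / t) t ≤ 1 / τ
  by_cases htB : t ∈ B
  · rw [Set.indicator_of_mem htB]
    have : τ ≤ t := by
      by_contra hh
      exact hB t ⟨ht.1, not_le.mp hh⟩ htB
    exact one_div_le_one_div_of_le hτ this
  · rw [Set.indicator_of_notMem htB]
    positivity

/-! ## The theorem -/

/-- **Theorem 1.1** of the paper. -/
theorem main : Statement := by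
  obtain ⟨b, e, εb, εe, h⟩ := exists_twoCentre
  obtain ⟨M, hM⟩ := exists_isRadius h
  have hbc : Continuous b := h.data.orbital_b.1
  have hec : Continuous e := h.data.orbital_e.1
  obtain ⟨U₀, U₀', hU₀⟩ := exists_stripSolution
    (ν := fun z => refDensity b e (cyl M z))
    (((continuous_refDensity hbc hec).comp (continuous_cyl_right M)).continuousOn)
    (fun z _ => refDensity_pos h.data.pos_b _)
  obtain ⟨α, hα, hαM⟩ := margin_pos h hM hU₀
  obtain ⟨τ, hτ, hfree⟩ := exists_badSet_free h hM hU₀ hα hαM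
  obtain ⟨C, hC⟩ := exists_isLUB_badSet hτ hfree
  refine ⟨2 + ⌈C⌉₊, by omega, ⟨b, e, εb, εe, M, U₀, U₀', α, C, h.data, hM, hU₀, hαM, hC, rfl⟩, ?_⟩
  have hnot := not_mem_badSet_of_isLUB hC
  set Z : ℕ := 2 + ⌈C⌉₊ with hZ
  have hZpos : 0 < Z := by omega
  have hZ1 : (1 : ℝ) ≤ Z := by exact_mod_cast hZpos
  have ht : (1 / (Z : ℝ)) ∈ Set.Ioc (0 : ℝ) 1 :=
    ⟨by positivity, by rw [div_le_one (by linarith)]; exact hZ1⟩
  set t : ℝ := 1 / (Z : ℝ) with htdef
  -- unpack `t ∉ BadSet`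
  have hnot' : ¬ ((¬ ∃ d, IsRegular εb t d) ∨ 1 ≤ auxH εb t M ∨
      ∃ (d : AuxData) (θ : Space → ℝ) (dθ : ℝ) (U U' : ℝ → ℝ),
        IsRegular εb t d ∧ IsFoldedMinimizer d.n θ ∧ IsMultiplier d.n θ dθ ∧
        IsStripSolution (fun z => d.n (cyl M z)) U U' ∧
        ¬ PassesAngleTests b e M α U₀' d.n θ dθ U') := fun hh => hnot ⟨ht, hh⟩
  rw [not_or, not_or] at hnot'
  obtain ⟨-, hH, htest⟩ := hnot'
  obtain ⟨d, hd, hdH⟩ := exists_regular_of_auxH_lt (not_le.mp hH)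
  have hds : DriftStrip d.n d.k M := driftStrip_of_H_lt_one hd.n_pos hdH
  obtain ⟨hn, htail, hplane, hbulk⟩ := fixed_channels h ht hd
  obtain ⟨θ, dθ, hθ, hdθ⟩ := exists_foldedMinimizer hn
  obtain ⟨U, U', hU⟩ := exists_stripSolution (ν := fun z => d.n (cyl M z))
    ((hd.n_continuous.comp (continuous_cyl_right M)).continuousOn) (fun z _ => hd.n_pos _)
  have hpass : PassesAngleTests b e M α U₀' d.n θ dθ U' := by
    by_contra hh
    exact htest ⟨d, θ, dθ, U, U', hd, hθ, hdθ, hU, hh⟩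
  have hk : 0.99 < d.k := hd.k_lower
  have hk' : d.k < 1.01 := hd.k_upper.trans h.gamma_lt
  obtain ⟨hg, hgap⟩ := weightedGap_of_tests h hM.1.1 hU₀ hα hαM hn hk hk' hds hθ hdθ hU hpass
  have hno := no_representation hn (lt_trans (by norm_num) hk) hθ hdθ hpass.1.1 hg hgap
    htail hplane hbulk
  refine scaling_transfer hZpos ⟨hd.ground.1, d.E₃, hd.absolute, hd.ground.2.2.1⟩ hd.ground.2.1 ?_
  rintro ⟨v, Γ, n', hv, hΓ, hn', hnn⟩
  exact hno ⟨v, Γ, n', hv, hΓ, hn', hnn.trans hd.n_eq.symm⟩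

end Claimed.Open.R278
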