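import Claimed.Open.R278.OBDefs
import Claimed.Open.R278.ENSob

/-!
# Result 278, BP-OB, tools T3, T4 (paper-free): the `L^{3/2}` part at infinity

LEAF OB-T3T4.
-/

open MeasureTheory Filter Topology Set
open scoped ContDiff InnerProductSpace ENNReal Laplacian
open Claimed.Agent.R259

noncomputable section

set_option linter.unusedSectionVars false

namespace Claimed.Open.R278

theorem ob_three_halves_toReal : ((3 / 2 : ℝ≥0∞)).toReal = 3 / 2 := by
  rw [ENNReal.toReal_div]; simp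

theorem ob_three_halves_ne : (3 / 2 : ℝ≥0∞) ≠ 0 ∧ (3 / 2 : ℝ≥0∞) ≠ ⊤ := by
  constructor
  · simp
  · exact ENNReal.div_ne_top (by simp) (by simp)

theorem ob_integrable_rpow {V₁ : Space → ℝ} (h : MemLp V₁ (3 / 2) volume) :
    Integrable (fun x => |V₁ x| ^ (3 / 2 : ℝ)) := by
  have := h.integrable_norm_rpow ob_three_halves_ne.1 ob_three_halves_ne.2
  rw [ob_three_halves_toReal] at this
  exact this

theorem ob_measurableSet_ext (R : ℝ) : MeasurableSet {x : Space | R ≤ ‖x‖} :=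
  (isClosed_le continuous_const continuous_norm).measurableSet

theorem ob_tail_integrable {F : Space → ℝ} (h : Integrable F) {ε : ℝ} (hε : 0 < ε) :
    ∃ R : ℝ, ∫ x in {x : Space | R ≤ ‖x‖}, |F x| ≤ ε := by
  have h1 := tendsto_setIntegral_of_antitone (μ := (volume : Measure Space)) (f := fun x => |F x|)
    (s := fun j : ℕ => {x : Space | (j : ℝ) ≤ ‖x‖}) (fun j => ob_measurableSet_ext j)
    (fun i j hij x hx => by
      have h1 : (i : ℝ) ≤ j := by exact_mod_cast hij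
      have h2 : (j : ℝ) ≤ ‖x‖ := hx
      exact h1.trans h2) ⟨0, h.abs.integrableOn⟩
  have h2 : (⋂ j : ℕ, {x : Space | (j : ℝ) ≤ ‖x‖}) = ∅ := by
    ext x
    simp only [mem_iInter, mem_setOf_eq, mem_empty_iff_false, iff_false, not_forall, not_le]
    exact exists_nat_gt ‖x‖
  rw [h2, setIntegral_empty] at h1
  obtain ⟨j, hj⟩ := (h1.eventually (ge_mem_nhds hε)).exists
  exact ⟨j, hj⟩

theorem ob_locallyIntegrable_L32 {V₁ : Space → ℝ} (h : MemLp V₁ (3 / 2) volume) :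
    LocallyIntegrable V₁ volume :=
  h.locallyIntegrable en_one_le_three_halves

theorem ob_young_L32 {η : ℝ} (hη : 0 < η) (v : ℝ) : |v| ≤ η + η ^ (-(1 / 2) : ℝ) * |v| ^ (3 / 2 : ℝ) := by
  rcases le_or_gt |v| η with h | h
  · have : 0 ≤ η ^ (-(1 / 2) : ℝ) * |v| ^ (3 / 2 : ℝ) := by positivity
    linarith
  · have hv : 0 < |v| := hη.trans h
    have h1 : |v| = |v| ^ (-(1 / 2) : ℝ) * |v| ^ (3 / 2 : ℝ) := by
      rw [← Real.rpow_add hv]; norm_num
    have h2 : |v| ^ (-(1 / 2) : ℝ) ≤ η ^ (-(1 / 2) : ℝ) :=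
      Real.rpow_le_rpow_of_nonpos hη h.le (by norm_num)
    have h3 : 0 ≤ |v| ^ (3 / 2 : ℝ) := by positivity
    calc |v| = |v| ^ (-(1 / 2) : ℝ) * |v| ^ (3 / 2 : ℝ) := h1
      _ ≤ η ^ (-(1 / 2) : ℝ) * |v| ^ (3 / 2 : ℝ) := by gcongr
      _ ≤ _ := by linarith

theorem ob_tail_L32 {V₁ : Space → ℝ} (h : MemLp V₁ (3 / 2) volume) (K : ℝ) {ε : ℝ} (hε : 0 < ε) :
    ∃ R : ℝ, ∀ y : Space, R ≤ ‖y‖ → ∫ x in Metric.closedBall y K, |V₁ x| ≤ ε := by
  have hi := ob_integrable_rpow h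
  have hvol0 : 0 ≤ (volume (Metric.closedBall (0 : Space) K)).toReal := ENNReal.toReal_nonneg
  obtain ⟨η, hη, hηv⟩ : ∃ η : ℝ, 0 < η ∧ η * (volume (Metric.closedBall (0 : Space) K)).toReal ≤ ε / 2 := by
    refine ⟨ε / (2 * ((volume (Metric.closedBall (0 : Space) K)).toReal + 1)), by positivity, ?_⟩
    generalize (volume (Metric.closedBall (0 : Space) K)).toReal = vol at hvol0
    calc ε / (2 * (vol + 1)) * vol = ε / 2 * (vol / (vol + 1)) := by field_simp
      _ ≤ ε / 2 * 1 := by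
          gcongr
          exact div_le_one_of_le₀ (by linarith) (by positivity)
      _ = ε / 2 := mul_one _
  have hη2 : 0 < η ^ (-(1 / 2) : ℝ) := Real.rpow_pos_of_pos hη _
  obtain ⟨R, hR⟩ := ob_tail_integrable hi (ε := ε / (2 * η ^ (-(1 / 2) : ℝ))) (by positivity)
  refine ⟨R + K, fun y hy => ?_⟩
  have hcpt := isCompact_closedBall y K
  have hm : MeasurableSet (Metric.closedBall y K) := Metric.isClosed_closedBall.measurableSet
  have hV : IntegrableOn (fun x => |V₁ x|) (Metric.closedBall y K) :=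
    ((ob_locallyIntegrable_L32 h).integrableOn_isCompact hcpt).abs
  have j1 : IntegrableOn (fun _ : Space => η) (Metric.closedBall y K) :=
    integrableOn_const hcpt.measure_lt_top.ne
  have j2 : IntegrableOn (fun x => η ^ (-(1 / 2) : ℝ) * |V₁ x| ^ (3 / 2 : ℝ)) (Metric.closedBall y K) :=
    (hi.const_mul _).integrableOn
  have s1 : ∫ x in Metric.closedBall y K, |V₁ x|
      ≤ ∫ x in Metric.closedBall y K, (η + η ^ (-(1 / 2) : ℝ) * |V₁ x| ^ (3 / 2 : ℝ)) :=
    setIntegral_mono_on hV (j1.add j2) hm fun x _ => ob_young_L32 hη _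
  rw [integral_add j1 j2, setIntegral_const, integral_const_mul] at s1
  have s2 : ∫ x in Metric.closedBall y K, |V₁ x| ^ (3 / 2 : ℝ)
      ≤ ∫ x in {x : Space | R ≤ ‖x‖}, |V₁ x| ^ (3 / 2 : ℝ) := by
    refine setIntegral_mono_set hi.integrableOn (Eventually.of_forall fun x => by positivity)
      (Eventually.of_forall fun x hx => ?_)
    have hx' : ‖x - y‖ ≤ K := by
      have : x ∈ Metric.closedBall y K := hx
      simpa [dist_eq_norm] using this
    have := norm_sub_norm_le y x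
    rw [norm_sub_rev] at this
    show R ≤ ‖x‖
    linarith
  have s3 : ∫ x in {x : Space | R ≤ ‖x‖}, |V₁ x| ^ (3 / 2 : ℝ) ≤ ε / (2 * η ^ (-(1 / 2) : ℝ)) := by
    refine le_trans (le_of_eq ?_) hR
    refine setIntegral_congr_fun (ob_measurableSet_ext R) fun x _ => ?_
    exact (abs_of_nonneg (by positivity)).symm
  have e1 : (volume : Measure Space).real (Metric.closedBall y K) = (volume (Metric.closedBall (0 : Space) K)).toReal := by
    rw [Measure.real, Measure.addHaar_closedBall_center]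
  rw [e1, smul_eq_mul] at s1
  have s4 : η ^ (-(1 / 2) : ℝ) * ∫ x in Metric.closedBall y K, |V₁ x| ^ (3 / 2 : ℝ)
      ≤ η ^ (-(1 / 2) : ℝ) * (ε / (2 * η ^ (-(1 / 2) : ℝ))) := by
    gcongr
    exact s2.trans s3
  have e2 : η ^ (-(1 / 2) : ℝ) * (ε / (2 * η ^ (-(1 / 2) : ℝ))) = ε / 2 := by field_simp
  linarith

theorem ob_bound_Linf {V₂ : Space → ℝ} (h : MemLp V₂ ⊤ volume) : ∃ K₂ : ℝ, 0 ≤ K₂ ∧ ∀ᵐ x, |V₂ x| ≤ K₂ := by
  refine ⟨(eLpNorm V₂ ⊤ volume).toReal, ENNReal.toReal_nonneg, ?_⟩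
  have h1 : eLpNorm V₂ ⊤ volume = eLpNormEssSup V₂ volume := eLpNorm_exponent_top
  filter_upwards [ae_le_eLpNormEssSup (f := V₂) (μ := volume)] with x hx
  rw [← h1] at hx
  have h2 := (ENNReal.toReal_le_toReal (by simp) h.2.ne).2 hx
  simpa using h2

theorem ob_eLpNorm_two_sq {E' : Type*} [NormedAddCommGroup E'] {F : Space → E'} (hF : MemLp F 2 volume) :
    eLpNorm F 2 volume ^ 2 = ENNReal.ofReal (∫ x, ‖F x‖ ^ 2) := by
  rw [hF.eLpNorm_eq_integral_rpow_norm (by simp) (by simp), ← ENNReal.ofReal_pow (by positivity)]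
  congr 1
  have h0 : 0 ≤ ∫ x, ‖F x‖ ^ 2 := integral_nonneg fun x => by positivity
  simp only [ENNReal.toReal_ofNat, Real.rpow_ofNat]
  rw [← Real.rpow_natCast, ← Real.rpow_mul h0]
  norm_num

theorem ob_sobolev_holder {V₁ : Space → ℝ} (h : MemLp V₁ (3 / 2) volume) {ε : ℝ} (hε : 0 < ε) :
    ∃ R : ℝ, ∀ u : Space → ℝ, ContDiff ℝ 1 u → HasCompactSupport u → (∀ x, ‖x‖ ≤ R → u x = 0) →
      ∫ x, |V₁ x| * u x ^ 2 ≤ ε * ∫ x, ‖gradient u x‖ ^ 2 := by
  have hi := ob_integrable_rpow h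
  obtain ⟨η, hη, hηC⟩ : ∃ η : ℝ, 0 < η ∧ η ^ ((3 / 2 : ℝ)⁻¹) * (enSobC : ℝ) ^ 2 ≤ ε := by
    refine ⟨(ε / ((enSobC : ℝ) ^ 2 + 1)) ^ (3 / 2 : ℝ), by positivity, ?_⟩
    rw [← Real.rpow_mul (by positivity), mul_inv_cancel₀ (by norm_num), Real.rpow_one]
    calc ε / ((enSobC : ℝ) ^ 2 + 1) * (enSobC : ℝ) ^ 2 = ε * ((enSobC : ℝ) ^ 2 / ((enSobC : ℝ) ^ 2 + 1)) := by
          field_simp
      _ ≤ ε * 1 := by
          gcongr
          exact div_le_one_of_le₀ (by linarith) (by positivity)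
      _ = ε := mul_one _
  obtain ⟨R, hR⟩ := ob_tail_integrable hi hη
  refine ⟨R, fun u hu hc hu0 => ?_⟩
  have hS := ob_measurableSet_ext R
  have habs : MemLp (fun x => |V₁ x|) (3 / 2) volume := h.abs
  have hv : MemLp ({x : Space | R ≤ ‖x‖}.indicator fun x => |V₁ x|) (3 / 2) volume := habs.indicator hS
  have hvn : eLpNorm ({x : Space | R ≤ ‖x‖}.indicator fun x => |V₁ x|) (3 / 2) volume
      ≤ ENNReal.ofReal (η ^ ((3 / 2 : ℝ)⁻¹)) := by
    rw [eLpNorm_indicator_eq_eLpNorm_restrict hS,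
      (habs.restrict _).eLpNorm_eq_integral_rpow_norm ob_three_halves_ne.1 ob_three_halves_ne.2,
      ob_three_halves_toReal]
    refine ENNReal.ofReal_le_ofReal (Real.rpow_le_rpow (integral_nonneg fun x => by positivity) ?_ (by norm_num))
    refine le_trans (le_of_eq ?_) hR
    refine setIntegral_congr_fun hS fun x _ => ?_
    simp only [Real.norm_eq_abs, abs_abs]
    exact (abs_of_nonneg (by positivity)).symm
  have hu2 : MemLp u 2 volume := hu.continuous.memLp_of_hasCompactSupport hc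
  have hu6 : MemLp u 6 volume := hu.continuous.memLp_of_hasCompactSupport hc
  have hg2 : MemLp (gradient u) 2 volume :=
    (ws_gradient_continuous hu).memLp_of_hasCompactSupport (ws_gradient_hasCompactSupport hc)
  obtain ⟨_, hb⟩ := en_pot_bound hv (MemLp.zero : MemLp (0 : Space → ℝ) ⊤ volume) hu2 hu6 hu2 hu6
  have hsob := en_sobolev_contDiff hu hc
  have e1 : ∫ x, ({x : Space | R ≤ ‖x‖}.indicator (fun x => |V₁ x|) x + (0 : Space → ℝ) x) * (u x * u x)
      = ∫ x, |V₁ x| * u x ^ 2 := by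
    refine integral_congr_ae (Eventually.of_forall fun x => ?_)
    by_cases hx : R ≤ ‖x‖
    · simp only [indicator_of_mem (show x ∈ {x : Space | R ≤ ‖x‖} from hx), Pi.zero_apply, add_zero]
      ring
    · simp [hu0 x (not_le.1 hx).le]
  rw [e1] at hb
  have h0 : 0 ≤ ∫ x, |V₁ x| * u x ^ 2 := integral_nonneg fun x => by positivity
  have hG0 : 0 ≤ ∫ x, ‖gradient u x‖ ^ 2 := integral_nonneg fun x => by positivity
  rw [Real.enorm_of_nonneg h0] at hb
  have hfin : ENNReal.ofReal (∫ x, |V₁ x| * u x ^ 2)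
      ≤ ENNReal.ofReal (η ^ ((3 / 2 : ℝ)⁻¹) * (enSobC : ℝ) ^ 2 * ∫ x, ‖gradient u x‖ ^ 2) := by
    refine hb.trans ?_
    rw [eLpNorm_zero, zero_mul, add_zero]
    rw [ENNReal.ofReal_mul (by positivity), ENNReal.ofReal_mul (by positivity), ← ob_eLpNorm_two_sq hg2,
      ENNReal.ofReal_pow (by positivity), ENNReal.ofReal_coe_nnreal]
    calc eLpNorm ({x : Space | R ≤ ‖x‖}.indicator fun x => |V₁ x|) (3 / 2) volume * (eLpNorm u 6 volume * eLpNorm u 6 volume)
        ≤ ENNReal.ofReal (η ^ ((3 / 2 : ℝ)⁻¹)) * ((enSobC * eLpNorm (gradient u) 2 volume) * (enSobC * eLpNorm (gradient u) 2 volume)) := by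
          gcongr
      _ = _ := by ring
  have := (ENNReal.ofReal_le_ofReal_iff (by positivity)).1 hfin
  refine this.trans ?_
  gcongr

end Claimed.Open.R278
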