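import Claimed.Open.R278.OBTest
import Claimed.Open.R278.OBTail

/-!
# Result 278, BP-OB: basic consequences of the hypotheses

LEAVES OB-B1 (pointwise facts), OB-B2 (regularity of `g, h`), OB-B3 (tested equations): done (helper181).
-/

open MeasureTheory Filter Topology Set
open scoped ContDiff InnerProductSpace ENNReal Laplacian
open Claimed.Agent.R259

noncomputable section

set_option linter.unusedSectionVars false

namespace Claimed.Open.R278

variable {n θ : Space → ℝ} {k β d : ℝ} {V₁ V₂ : Space → ℝ}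

section B1

theorem ob_ez_coord : (ez : Space) 2 = 1 ∧ (ez : Space) 0 = 0 ∧ (ez : Space) 1 = 0 ∧ ‖(ez : Space)‖ = 1 := by
  refine ⟨by simp [ez], by simp [ez], by simp [ez], by simp [ez]⟩

theorem ob_bigD_pos : (0 : ℝ) < bigD := by unfold bigD; positivity

theorem ob_one_lt_bigD : (1 : ℝ) < bigD := by
  unfold bigD
  exact one_lt_pow₀ (by norm_num) (by norm_num)

theorem ob_nuclei_coord {x : Space} (hx : x ∈ nuclei) : |x 2| = bigD := by
  have hD := ob_bigD_pos
  rcases hx with h | h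
  · rw [h]; simp [ez, abs_of_pos hD]
  · rw [Set.mem_singleton_iff] at h
    rw [h]; simp [ez, abs_of_pos hD]

theorem ob_nuclei_norm {x : Space} (hx : x ∈ nuclei) : ‖x‖ = bigD := by
  have hD := ob_bigD_pos
  rcases hx with h | h
  · rw [h, norm_smul, ob_ez_coord.2.2.2, mul_one, Real.norm_of_nonneg hD.le]
  · rw [Set.mem_singleton_iff] at h
    rw [h, norm_neg, norm_smul, ob_ez_coord.2.2.2, mul_one, Real.norm_of_nonneg hD.le]

theorem ob_isOpen_compl_nuclei : IsOpen (nucleiᶜ : Set Space) := by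
  have : (nuclei : Set Space).Finite := by unfold nuclei; exact Set.toFinite _
  exact this.isClosed.isOpen_compl

theorem ob_abs_coord_le (x : Space) (i : Fin 3) : |x i| ≤ ‖x‖ := by
  have := EuclideanSpace.norm_eq x
  have h1 : x i ^ 2 ≤ ‖x‖ ^ 2 := by
    rw [norm_sq_space]
    fin_cases i <;> simp <;> nlinarith [sq_nonneg (x 0), sq_nonneg (x 1), sq_nonneg (x 2)]
  exact abs_le_of_sq_le_sq h1 (norm_nonneg _)

theorem ob_reflZ_coord (x : Space) : reflZ x 0 = x 0 ∧ reflZ x 1 = x 1 ∧ reflZ x 2 = - x 2 ∧ ‖reflZ x‖ = ‖x‖ :=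
  ⟨rfl, rfl, rfl, norm_reflZ x⟩

theorem obC_pos {y : Space} (hy : 0 < ‖y‖) : 0 < obC k β y := by
  unfold obC radialA
  have := Real.rpow_pos_of_pos hy β
  positivity

theorem ob_continuous_reflZ : Continuous reflZ := reflZIsometry.continuous

theorem OBHyp.θ_contDiff (H : OBHyp n θ k β d V₁ V₂) : ContDiff ℝ 1 θ := H.hθ.1

theorem OBHyp.θ_odd (H : OBHyp n θ k β d V₁ V₂) (x : Space) : θ (reflZ x) = - θ x := by
  have hae : (fun x => θ (reflZ x)) =ᵐ[volume] fun x => - θ x := H.hθ.2.1.2.2.1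
  have hc := H.θ_contDiff.continuous
  have := Continuous.ae_eq_iff_eq (μ := (volume : Measure Space)) (hc.comp ob_continuous_reflZ) hc.neg
  exact congrFun (this.1 hae) x

theorem OBHyp.θ_plane (H : OBHyp n θ k β d V₁ V₂) {x : Space} (hx : x 2 = 0) : θ x = 0 := by
  have h1 : reflZ x = x := by apply space_ext <;> simp [hx]
  have h2 := H.θ_odd x
  rw [h1] at h2
  linarith

theorem OBHyp.sqrt_pos (H : OBHyp n θ k β d V₁ V₂) (x : Space) : 0 < √(n x) := Real.sqrt_pos.2 (H.hn.pos x)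

theorem OBHyp.cos_pos (H : OBHyp n θ k β d V₁ V₂) (x : Space) : 0 < Real.cos (θ x) := by
  have h1 := H.ho.g_pos x
  unfold orbG at h1
  exact (pos_iff_pos_of_mul_pos h1).1 (H.sqrt_pos x)

theorem OBHyp.θ_mem (H : OBHyp n θ k β d V₁ V₂) {x : Space} (hx : 0 < x 2) : 0 ≤ θ x ∧ θ x < Real.pi / 2 := by
  have h1 := H.hθ.2.2.1 x hx
  refine ⟨h1.1, lt_of_le_of_ne h1.2 fun h => ?_⟩
  have := H.cos_pos x
  rw [h, Real.cos_pi_div_two] at this
  exact lt_irrefl _ this

theorem OBHyp.g_sq_add_h_sq (H : OBHyp n θ k β d V₁ V₂) (x : Space) : orbG n θ x ^ 2 + orbH n θ x ^ 2 = n x := by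
  unfold orbG orbH
  have h1 := Real.sq_sqrt (H.hn.pos x).le
  have h2 := Real.sin_sq_add_cos_sq (θ x)
  calc (√(n x) * Real.cos (θ x)) ^ 2 + (√(n x) * Real.sin (θ x)) ^ 2
      = √(n x) ^ 2 * (Real.sin (θ x) ^ 2 + Real.cos (θ x) ^ 2) := by ring
    _ = n x := by rw [h1, h2, mul_one]

theorem OBHyp.g_le (H : OBHyp n θ k β d V₁ V₂) (x : Space) : orbG n θ x ≤ √(n x) := by
  unfold orbG
  have := Real.cos_le_one (θ x)
  nlinarith [H.sqrt_pos x]

theorem OBHyp.abs_h_le (H : OBHyp n θ k β d V₁ V₂) (x : Space) : |orbH n θ x| ≤ √(n x) := by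
  unfold orbH
  rw [abs_mul, abs_of_pos (H.sqrt_pos x)]
  have := Real.abs_sin_le_one (θ x)
  nlinarith [H.sqrt_pos x]

theorem OBHyp.g_plane (H : OBHyp n θ k β d V₁ V₂) {x : Space} (hx : x 2 = 0) : orbG n θ x = √(n x) := by
  unfold orbG
  rw [H.θ_plane hx, Real.cos_zero, mul_one]

theorem ob_g_eq_sin (n θ : Space → ℝ) (x : Space) : orbG n θ x = √(n x) * Real.sin (Real.pi / 2 - θ x) := by
  unfold orbG
  rw [Real.sin_pi_div_two_sub]

theorem OBHyp.sqrt_sub_abs_h_le (H : OBHyp n θ k β d V₁ V₂) (x : Space) : √(n x) - |orbH n θ x| ≤ orbG n θ x := by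
  unfold orbH orbG
  rw [abs_mul, abs_of_pos (H.sqrt_pos x)]
  have h1 := H.cos_pos x
  have h2 := Real.sin_sq_add_cos_sq (θ x)
  have h3 : 1 ≤ |Real.sin (θ x)| + Real.cos (θ x) := by
    have h4 : |Real.sin (θ x)| ^ 2 = Real.sin (θ x) ^ 2 := sq_abs _
    have h5 := abs_nonneg (Real.sin (θ x))
    nlinarith
  nlinarith [H.sqrt_pos x]

theorem OBHyp.h_nonneg (H : OBHyp n θ k β d V₁ V₂) {x : Space} (hx : 0 ≤ x 2) : 0 ≤ orbH n θ x := by
  rcases hx.eq_or_lt with h | h
  · unfold orbH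
    rw [H.θ_plane h.symm]; simp
  · exact H.ho.h_nonneg x h

theorem OBHyp.h_nonpos (H : OBHyp n θ k β d V₁ V₂) {x : Space} (hx : x 2 ≤ 0) : orbH n θ x ≤ 0 := by
  have h1 := H.h_nonneg (x := reflZ x) (by simp [hx])
  rw [H.ho.h_odd] at h1
  linarith

theorem OBHyp.n_plane (H : OBHyp n θ k β d V₁ V₂) {x : Space} (hx : x 2 = 0) : n x = n (cyl ‖x‖ 0) := by
  obtain ⟨a, ha⟩ := exists_rotZ_cyl x
  have h1 : √(x 0 ^ 2 + x 1 ^ 2) = ‖x‖ := by
    rw [← Real.sqrt_sq (norm_nonneg x), norm_sq_space, hx]; simp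
  rw [h1, hx] at ha
  conv_lhs => rw [ha]
  exact H.hn.axisymmetric a _

end B1

section B2

theorem OBHyp.sqrt_contDiffOn (H : OBHyp n θ k β d V₁ V₂) : ContDiffOn ℝ 2 (fun x => √(n x)) nucleiᶜ :=
  H.hn.smooth.sqrt fun x _ => (H.hn.pos x).ne'

theorem OBHyp.g_contDiffOn (H : OBHyp n θ k β d V₁ V₂) : ContDiffOn ℝ 1 (orbG n θ) nucleiᶜ :=
  (H.sqrt_contDiffOn.of_le (by norm_num)).mul (Real.contDiff_cos.comp H.θ_contDiff).contDiffOn

theorem OBHyp.h_contDiffOn (H : OBHyp n θ k β d V₁ V₂) : ContDiffOn ℝ 1 (orbH n θ) nucleiᶜ :=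
  (H.sqrt_contDiffOn.of_le (by norm_num)).mul (Real.contDiff_sin.comp H.θ_contDiff).contDiffOn

end B2

section B3

theorem OBHyp.V_apply (H : OBHyp n θ k β d V₁ V₂) (x : Space) : formalV n θ d x = V₁ x + V₂ x := by
  rw [H.hV]; rfl

theorem OBHyp.V_locallyIntegrable (H : OBHyp n θ k β d V₁ V₂) : LocallyIntegrable (formalV n θ d) volume := by
  intro x
  refine ⟨Metric.ball 0 (‖x‖ + 1), Metric.isOpen_ball.mem_nhds (by simp), ?_⟩
  have : IsFiniteMeasure ((volume : Measure Space).restrict (Metric.ball 0 (‖x‖ + 1))) :=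
    ⟨by rw [Measure.restrict_apply MeasurableSet.univ, Set.univ_inter]; exact measure_ball_lt_top⟩
  exact (H.ho.V_L2loc (‖x‖ + 1)).integrable (by norm_num)

theorem OBHyp.V2_locallyIntegrable (H : OBHyp n θ k β d V₁ V₂) : LocallyIntegrable V₂ volume :=
  H.hV2.locallyIntegrable le_top

theorem OBHyp.V1_locallyIntegrable (H : OBHyp n θ k β d V₁ V₂) : LocallyIntegrable V₁ volume :=
  H.hV1.locallyIntegrable (by
    rw [ENNReal.le_div_iff_mul_le (by simp) (by simp)]
    norm_num)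

theorem OBHyp.angle_eq (H : OBHyp n θ k β d V₁ V₂) {φ : Space → ℝ} (hφ : ContDiff ℝ 1 φ)
    (hc : HasCompactSupport φ) :
    ∫ x, n x * ⟪gradient θ x, gradient φ x⟫_ℝ = d * ∫ x, n x * Real.sin (2 * θ x) * φ x := by
  have hθc := H.θ_contDiff.continuous
  have hF : Continuous (fun x => n x • gradient θ x) :=
    H.hn.continuous.smul (ws_gradient_continuous H.θ_contDiff)
  have hf : Continuous (fun x => d * (n x * Real.sin (2 * θ x))) :=
    continuous_const.mul (H.hn.continuous.mul (Real.continuous_sin.comp (continuous_const.mul hθc)))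
  have key := ob_test_C1 hF.locallyIntegrable hf.locallyIntegrable (fun ζ hζ hζc => by
    have := H.hd ζ hζ hζc
    simp only [inner_smul_left, RCLike.conj_to_real]
    rw [this, ← integral_const_mul]
    refine integral_congr_ae (Eventually.of_forall fun x => ?_)
    simp only; ring) hφ hc
  simp only [inner_smul_left, RCLike.conj_to_real] at key
  rw [key, ← integral_const_mul]
  refine integral_congr_ae (Eventually.of_forall fun x => ?_)
  simp only; ring

theorem OBHyp.g_test (H : OBHyp n θ k β d V₁ V₂) {ψ : Space → ℝ} (hψ : ContDiff ℝ 2 ψ)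
    (hc : HasCompactSupport ψ) :
    ∫ x, orbG n θ x * Δ ψ x = 2 * ∫ x, formalV n θ d x * orbG n θ x * ψ x := by
  have h1 := H.ho.g_eq ψ (hψ.of_le (by norm_num)) hc
  have h2 := ob_ibp_laplacian H.ho.g_h1.2.2 hψ hc
  rw [h2] at h1
  linarith

theorem OBHyp.h_test (H : OBHyp n θ k β d V₁ V₂) {φ : Space → ℝ} (hφ : ContDiff ℝ 2 φ)
    (hc : HasCompactSupport φ) :
    ∫ x, (formalV n θ d x - d) * orbH n θ x * φ x = (1 / 2) * ∫ x, orbH n θ x * Δ φ x := by
  have h1 := H.ho.h_eq φ (hφ.of_le (by norm_num)) hc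
  have h2 := ob_ibp_laplacian H.ho.h_h1.2.2 hφ hc
  rw [h2] at h1
  have hhφ : Continuous (fun x => orbH n θ x * φ x) := H.ho.h_cont.mul hφ.continuous
  have hhφc : HasCompactSupport (fun x => orbH n θ x * φ x) := hc.mul_left
  have i1 : Integrable (fun x => formalV n θ d x * orbH n θ x * φ x) volume := by
    have := H.V_locallyIntegrable.integrable_smul_right_of_hasCompactSupport hhφ hhφc
    simpa only [smul_eq_mul, mul_assoc] using this
  have i2 : Integrable (fun x => orbH n θ x * φ x) volume := hhφ.integrable_of_hasCompactSupport hhφc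
  have e : ∫ x, (formalV n θ d x - d) * orbH n θ x * φ x
      = (∫ x, formalV n θ d x * orbH n θ x * φ x) - d * ∫ x, orbH n θ x * φ x := by
    rw [← integral_const_mul, ← integral_sub i1 (i2.const_mul d)]
    refine integral_congr_ae (Eventually.of_forall fun x => ?_)
    simp only; ring
  rw [e]
  linarith

end B3

end Claimed.Open.R278
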