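import Claimed.Open.R278.TopDefs
import Claimed.Agent.R259.WsIbp
import Claimed.Agent.R259.PosAvg

/-!
# Result 278, layer L8 (package BP-OB): the plane obstruction, `V ∉ L^{3/2} + L^∞`

Sub-captain: helper181.  Top theorem: `ob_formalV_not_admissible` (`OBMain.lean`), verbatim `formalV_not_admissible` of `Top.lean`.

## The proof (QUANTITATIVE version of Section 6 of the paper: no weak-* limits, no Rellich, no subsequences, no Harnack,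
no De Giorgi-Nash-Moser, no partition of unity)

Assume `V = V₁ + V₂`, `V₁ ∈ L^{3/2}`, `|V₂| ≤ K₂` a.e.   `g = √n cos θ > 0`, `h = √n sin θ`, `δ = π/2 - θ`, `c∞ = d + k²/2`.
For `y` in the median plane, `c(y) = A(|y|)/|y|` (`obC`).

* **S2** (`ob_slab`, `OBSlab.lean`): `∫_{|x|≤K, |x_z|≤z₁} g(y+x) dx ≤ ε c(y)` for `y` in the plane, `|y| ≥ P(K,ε)`.
  Test `(-Δ/2+V) g = 0`, `g ≥ 0`, with the `C²` function `ψ = (Q₊)³`, `Q = L - √(z²+σ²) - μ|x|²` (a smoothed concave kink on the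
  plane): `Δψ - 2K₂ψ ≥ Q₊ (3 - 6σ²/s² - 3Lσ²/s³)`, `s = √(z²+σ²)`, and `g ≤ √n ≲ c(y)(|z| + small)` kills the kink terms.
* **S3** (`ob_height`, `OBHeight.lean`): `δ(y + z₂ e_z) → 0`, `z₂ = z₁/2`.  `δ ≤ (π/2) sin δ = (π/2) g/√n` is small in `L¹` of a ball;
  local maximum principle `ob_lmp` for subsolutions of `Δ + ∇log n·∇` with bounded drift
  (Caccioppoli + derivative of the averages `s ↦ (ρ_s * δ)(x₀)`, kernels `regRho`, `regPsi` of row 259; `|x|⁻¹ ∈ L²_loc(ℝ³)`).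
* **S4-S8** (`ob_decay`, `OBDecay.lean`): `θ ≥ m > 0` on `z ≥ z₂`, then `δ → 0` uniformly as `|x| → ∞` in `z ≥ z₂`.
  Weak comparison `ob_compare` (test function `χ_R² (E₊)² 1_Ω ∈ C¹_c`, `∫ n < ∞`) with the barriers `m` and
  `π/2 - ε - (π/2) e^{-s(ρ - ρ_P)}`, `ρ = √(1+|x|²)`.
* **S9** (`ob_V2_plane`, `ob_V2_bulk`, `OBLimit.lean`): with a mollifier `ρ_j = wsRho j`:
  `∫ (V₂(x) - c∞) x_z ρ_j(x-y) dx → 0` (`|y_z| ≤ Z₀`, `|y| → ∞`) and `∫ (V₂(x) - c∞) ρ_j(x-y) dx → 0` (`|y_z| → ∞`).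
  Test `(-Δ/2 + V - d) h = 0` with `φ = ρ_j(x-y) e^{k ω·(x-y')}`; `h ≈ c a z e^{-kω·(x-y')}` resp. `h ≈ ±√n(y) e^{-kω·(x-y)}` in `L¹`.
* **S10** (`ob_exterior_form`, `OBForm.lean`): `∫ V u² ≥ (c∞-ε) ∫u² - ε ∫|∇u|²` for `u ∈ C¹_c` vanishing on `|x| ≤ R_ε`.
  `V₁`: Hölder + Sobolev (Mathlib GNS).  `V₂ - c∞`: `∫ W u² = ∫ W (u² - ρ_j*u²) + ∫ (ρ_j*W) u²`, `‖v - ρ_j*v‖₁ ≤ ‖∇v‖₁/(j+1)`,
  the slab `|z| < τ` costs `2τ K' ‖u‖²_{H¹}`.
* **S11** (`ob_agmon`, `OBAgmon.lean`): Agmon with the smooth bounded weight `w_T = 1/(e^{-aρ} + 1/T)`, `|∇w_T| ≤ a w_T`,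
  `k < a < √(k²+2d)`: `‖η w_T χ g‖_{H¹} ≤ C` uniformly in `T`.
* **S12** (`OBMain.lean`): trace on a unit square of the plane, `g = √n` there, `PlaneTail` gives `e^{2(a-k)p} p^{2β-8} ≤ C`: absurd.

Kits used: `Claimed/Agent/R259/Ws*.lean`, `OpCalc.lean`, `RegKer*.lean`, `PosAvg.lean` (all sorry-free); `FSH2.lean` (trace, `planePt`),
`FSSobolev.lean` (`sobolev_contDiff`), `FSBridge.lean` (`isWeakGrad_iff_weakGrad`).
-/

open MeasureTheory Filter Topology Set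
open scoped ContDiff InnerProductSpace ENNReal Laplacian

noncomputable section

set_option linter.unusedSectionVars false

namespace Claimed.Open.R278

/-- All hypotheses of `formalV_not_admissible`, together with a decomposition `V = V₁ + V₂` (to be refuted). -/
structure OBHyp (n θ : Space → ℝ) (k β d : ℝ) (V₁ V₂ : Space → ℝ) : Prop where
  hn : DensityBasic n
  hk : 0 < k
  hθ : IsFoldedMinimizer n θ
  hd : IsMultiplier n θ d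
  hdpos : 0 < d
  ho : OrbitalFacts n θ d
  htail : PlaneTail n k β
  hplane : PlaneTranslate n k β
  hbulk : BulkTranslate n k
  hV1 : MemLp V₁ (3 / 2) volume
  hV2 : MemLp V₂ ⊤ volume
  hV : formalV n θ d = V₁ + V₂

/-- the normalisation `c(y) = A(|y|)/|y|` of the plane translates. -/
def obC (k β : ℝ) (y : Space) : ℝ := radialA k β ‖y‖ / ‖y‖

/-- `c∞ = d + k²/2`. -/
def obCinf (k d : ℝ) : ℝ := d + k ^ 2 / 2

/-- `t ↦ (t₊)³`, a `C²` function. -/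
def obCube (t : ℝ) : ℝ := (max t 0) ^ 3

/-- `t ↦ (t₊)²`, a `C¹` function. -/
def obSq (t : ℝ) : ℝ := (max t 0) ^ 2

/-- `Q = L - √(z²+σ²) - μ|x|²`. -/
def obQ (L σ μ : ℝ) (x : Space) : ℝ := L - √(x 2 ^ 2 + σ ^ 2) - μ * ‖x‖ ^ 2

/-- the regularised distance `ρ(x) = √(1+|x|²)`. -/
def obRho (x : Space) : ℝ := √(1 + ‖x‖ ^ 2)

/-- the Agmon weight `w_T = 1/(e^{-aρ} + 1/T)`: smooth, `0 < w_T ≤ T`, `|∇ w_T| ≤ a w_T`, `w_T ↑ e^{aρ}`. -/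
def obW (a T : ℝ) (x : Space) : ℝ := (Real.exp (-(a * obRho x)) + T⁻¹)⁻¹

/-- **S2**: `g` is small in `L¹` of slabs around the plane, relative to `c(y)`. -/
def OBSlab (n θ : Space → ℝ) (k β z₁ : ℝ) : Prop :=
  ∀ K ε : ℝ, 0 < ε → ∃ P : ℝ, ∀ y : Space, y 2 = 0 → P ≤ ‖y‖ →
    ∫ x in {x : Space | ‖x‖ ≤ K ∧ |x 2| ≤ z₁}, orbG n θ (y + x) ≤ ε * obC k β y

/-- **S3**: `δ = π/2 - θ → 0` along the plane `z = z₂`. -/
def OBHeight (θ : Space → ℝ) (z₂ : ℝ) : Prop :=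
  ∀ ε : ℝ, 0 < ε → ∃ P : ℝ, ∀ y : Space, y 2 = 0 → P ≤ ‖y‖ → Real.pi / 2 - θ (y + z₂ • ez) ≤ ε

/-- **S8**: `δ → 0` uniformly at infinity in `z ≥ z₂`. -/
def OBDecay (θ : Space → ℝ) (z₂ : ℝ) : Prop :=
  ∀ ε : ℝ, 0 < ε → ∃ R : ℝ, ∀ x : Space, z₂ ≤ x 2 → R ≤ ‖x‖ → Real.pi / 2 - θ x ≤ ε

/-- `g` is small in `L¹` of balls centred in the plane, relative to `c(y)`. -/
def OBGPlane (n θ : Space → ℝ) (k β : ℝ) : Prop :=
  ∀ K ε : ℝ, 0 < ε → ∃ P : ℝ, ∀ y : Space, y 2 = 0 → P ≤ ‖y‖ →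
    ∫ x in Metric.closedBall (0 : Space) K, orbG n θ (y + x) ≤ ε * obC k β y

/-- **S10**: the exterior form bound. -/
def OBForm (V : Space → ℝ) (c : ℝ) : Prop :=
  ∀ ε : ℝ, 0 < ε → ∃ R : ℝ, ∀ u : Space → ℝ, ContDiff ℝ 1 u → HasCompactSupport u →
    (∀ x, ‖x‖ ≤ R → u x = 0) →
    (c - ε) * (∫ x, u x ^ 2) - ε * (∫ x, ‖gradient u x‖ ^ 2) ≤ ∫ x, V x * u x ^ 2

/-- generates the equation lemmas of the definitions above in this file -/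
theorem obdefs_eqns_cite : True := by
  have := @obC.eq_1
  have := @obCinf.eq_1
  have := @obCube.eq_1
  have := @obSq.eq_1
  have := @obQ.eq_1
  have := @obRho.eq_1
  have := @obW.eq_1
  have := @OBSlab.eq_1
  have := @OBHeight.eq_1
  have := @OBDecay.eq_1
  have := @OBGPlane.eq_1
  have := @OBForm.eq_1
  trivial

end Claimed.Open.R278
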