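import Claimed.Open.R278.OBLmpB

/-!
# Result 278, BP-OB, tool T7 (paper-free): local maximum principle for `div(n ∇δ) ≥ 0` with bounded drift in `ℝ³`

LEAF OB-T7 (done, helper181; parts A, B in `OBLmpA.lean`, `OBLmpB.lean`; hypothesis `Continuous n` added).  `δ = π/2 - θ`, `div(n∇θ) = -d n sin 2θ`, `0 ≤ θ ≤ π/2` on `B(x₀,4r)`; `c ≤ n ≤ Λc`, `|∇n| ≤ B n` there.

PROOF.  (1) Caccioppoli: test with `ζ² δ`, `ζ(x) = ζ₀(x - x₀)`, `ζ₀` a fixed bump (`= 1` on `B(0,2r)`, supported in `B(0,3r)`,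
`|∇ζ₀| ≤ C_ζ`): `∫ n ζ² |∇δ|² ≤ 4 ∫ n δ² |∇ζ|²`, so `E² := ∫_{B(x₀,2r)} |∇δ|² ≤ 4 Λ C_ζ² (π/2) I`, `I = ∫_{B(x₀,4r)} δ`.
(2) `M(s) = regAvg regRho δ s x₀ = ∫ δ(x₀ - s z) ρ(z) dz` is continuous on `[0,r]` (`pos_avg_continuous`), `M(0) = δ(x₀)`
(`regAvg` at `s = 0`, `reg_rho_integral`), and for `s > 0`
  `M'(s) = ∫ ⟪∇δ(x₀ - s z), ∇ψ(z)⟫ dz = - s⁻² ∫ ⟪∇δ(x), ∇ζ_s(x)⟫ dx`,  `ζ_s(x) = regPsi (s⁻¹ (x₀ - x))`
(`reg_psi_fderiv`: `∇ψ(z) = -ρ(z) z`; change of variables `x = x₀ - s z`).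
(3) test the equation with `ζ_s / n ∈ C¹_c`: `∫ ⟪∇δ,∇ζ_s⟫ = ∫ ζ_s ⟪∇δ, ∇n/n⟫ - d ∫ sin(2δ) ζ_s ≤ B ∫ ζ_s |∇δ| ≤ B ‖ψ‖₂ s^{3/2} E`.
(4) `M'(s) ≥ - B ‖ψ‖₂ E s^{-1/2}`, so `δ(x₀) = M(0) ≤ M(r) + 2 B ‖ψ‖₂ E √r`, and `M(r) ≤ sup ρ · r⁻³ I`.
-/

open MeasureTheory Filter Topology Set
open scoped ContDiff InnerProductSpace ENNReal Laplacian
open Claimed.Agent.R259

noncomputable section

set_option linter.unusedSectionVars false

namespace Claimed.Open.R278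

variable {n θ : Space → ℝ} {d : ℝ} {x₀ : Space} {r c Lam B : ℝ}

theorem ob_hcs_sq {f : Space → ℝ} (h : HasCompactSupport f) : HasCompactSupport (fun x => f x ^ 2) :=
  h.mono fun x hx h0 => hx (by simp [h0])

theorem OBLoc.cs_psi (h : OBLoc n θ d x₀ r c Lam B) {s : ℝ} (hs0 : 0 < s) (hsr : s ≤ r) :
    ∫ x, obPsiS x₀ s x * ‖gradient θ x‖
      ≤ √(s ^ 3 * ∫ z : Space, regPsi z ^ 2) * √(∫ x in Metric.ball x₀ (2 * r), ‖gradient θ x‖ ^ 2) := by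
  set Ψ := obPsiS x₀ s with hΨ
  have hΨc : Continuous Ψ := (obPsiS_contDiff x₀ s).continuous
  have hΨs : HasCompactSupport Ψ := obPsiS_hasCompactSupport x₀ hs0
  have hθg := ws_gradient_continuous h.θC1
  have hz : ∀ x, x ∉ Metric.ball x₀ (2 * r) → Ψ x = 0 := fun x hx =>
    obPsiS_zero hs0 fun h' => hx (Metric.closedBall_subset_ball (by linarith) h')
  have e1 : ∫ x, Ψ x * ‖gradient θ x‖ = ∫ x in Metric.ball x₀ (2 * r), Ψ x * ‖gradient θ x‖ :=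
    (setIntegral_eq_integral_of_forall_compl_eq_zero (s := Metric.ball x₀ (2 * r))
      (f := fun x => Ψ x * ‖gradient θ x‖) fun x hx => by rw [hz x hx, zero_mul]).symm
  have j1 : Integrable (fun x => Ψ x ^ 2) (volume.restrict (Metric.ball x₀ (2 * r))) :=
    ob_integrableOn_ball (hΨc.pow 2) _ _
  have j2 : Integrable (fun x => ‖gradient θ x‖ ^ 2) (volume.restrict (Metric.ball x₀ (2 * r))) :=
    ob_integrableOn_ball (hθg.norm.pow 2) _ _
  have j3 : Integrable (fun x => Ψ x * ‖gradient θ x‖) (volume.restrict (Metric.ball x₀ (2 * r))) :=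
    ob_integrableOn_ball (hΨc.mul hθg.norm) _ _
  have hcs := ob_cs j1 j2 j3
  have i1 : Integrable (fun x => Ψ x ^ 2) volume :=
    (hΨc.pow 2).integrable_of_hasCompactSupport (ob_hcs_sq hΨs)
  have h2 : ∫ x in Metric.ball x₀ (2 * r), Ψ x ^ 2 ≤ s ^ 3 * ∫ z : Space, regPsi z ^ 2 := by
    rw [← obPsiS_integral_sq x₀ hs0]
    exact setIntegral_le_integral i1 (Eventually.of_forall fun x => sq_nonneg _)
  have hE0 : 0 ≤ ∫ x in Metric.ball x₀ (2 * r), ‖gradient θ x‖ ^ 2 := integral_nonneg fun x => sq_nonneg _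
  rw [e1, ← Real.sqrt_mul ((integral_nonneg fun x => sq_nonneg _).trans h2)]
  apply Real.le_sqrt_of_sq_le
  exact hcs.trans (mul_le_mul_of_nonneg_right h2 hE0)

theorem OBLoc.deriv_lower (h : OBLoc n θ d x₀ r c Lam B) {s : ℝ} (hs0 : 0 < s) (hsr : s ≤ r) :
    -(B * √(∫ z : Space, regPsi z ^ 2) * √(∫ x in Metric.ball x₀ (2 * r), ‖gradient θ x‖ ^ 2)) * (√s)⁻¹
      ≤ ∫ z, ⟪gradient (fun x => Real.pi / 2 - θ x) (x₀ - s • z), gradient regPsi z⟫_ℝ := by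
  have hA : ∫ z, ⟪gradient (fun x => Real.pi / 2 - θ x) (x₀ - s • z), gradient regPsi z⟫_ℝ
      = (s ^ 2)⁻¹ * ∫ x, ⟪gradient θ x, gradient (obPsiS x₀ s) x⟫_ℝ := by
    have h1 := ob_cv (fun x => ⟪gradient θ x, gradient (obPsiS x₀ s) x⟫_ℝ) x₀ hs0
    have e : ∀ z : Space, ⟪gradient θ (x₀ - s • z), gradient (obPsiS x₀ s) (x₀ - s • z)⟫_ℝ
        = s⁻¹ * ⟪gradient (fun x => Real.pi / 2 - θ x) (x₀ - s • z), gradient regPsi z⟫_ℝ := by
      intro z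
      rw [obPsiS_gradient, sub_sub_cancel, inv_smul_smul₀ hs0.ne', ob_gradient_const_sub,
        inner_neg_right, inner_smul_right, inner_neg_left]
      ring
    simp only [e] at h1
    rw [integral_const_mul] at h1
    have h2 : ∫ z, ⟪gradient (fun x => Real.pi / 2 - θ x) (x₀ - s • z), gradient regPsi z⟫_ℝ
        = s * ((s ^ 3)⁻¹ * ∫ x, ⟪gradient θ x, gradient (obPsiS x₀ s) x⟫_ℝ) := by
      rw [← h1]; field_simp
    rw [h2]; field_simp
  rw [hA]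
  have h1 := h.test_psi hs0 hsr
  have h2 := h.cs_psi hs0 hsr
  have hB := h.B_nonneg
  set P := ∫ z : Space, regPsi z ^ 2 with hP
  set E2 := ∫ x in Metric.ball x₀ (2 * r), ‖gradient θ x‖ ^ 2 with hE2
  have hs3 : √(s ^ 3 * P) = s * √s * √P := by
    rw [Real.sqrt_mul (by positivity), show s ^ 3 = s ^ 2 * s by ring, Real.sqrt_mul (by positivity),
      Real.sqrt_sq hs0.le]
  rw [hs3] at h2
  have hsq : 0 < √s := Real.sqrt_pos.2 hs0
  have hss : √s * √s = s := Real.mul_self_sqrt hs0.le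
  have h3 : -(B * (s * √s * √P * √E2)) ≤ ∫ x, ⟪gradient θ x, gradient (obPsiS x₀ s) x⟫_ℝ := by
    have := mul_le_mul_of_nonneg_left h2 hB
    linarith
  have h4 : (s ^ 2)⁻¹ * (-(B * (s * √s * √P * √E2)))
      ≤ (s ^ 2)⁻¹ * ∫ x, ⟪gradient θ x, gradient (obPsiS x₀ s) x⟫_ℝ :=
    mul_le_mul_of_nonneg_left h3 (by positivity)
  refine le_trans (le_of_eq ?_) h4
  have : (s ^ 2)⁻¹ * (s * √s) = (√s)⁻¹ := by
    rw [eq_comm, inv_eq_iff_eq_inv, mul_inv, inv_inv]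
    field_simp
    nlinarith
  calc -(B * √P * √E2) * (√s)⁻¹ = -(B * √P * √E2) * ((s ^ 2)⁻¹ * (s * √s)) := by rw [this]
    _ = _ := by ring

theorem ob_avg_zero (G : Space → ℝ) (x : Space) : regAvg regRho G 0 x = G x := by
  unfold regAvg
  simp only [zero_smul, sub_zero, smul_eq_mul]
  rw [integral_const_mul, reg_rho_integral, mul_one]

/-- the average at scale `r`. -/
theorem OBLoc.avg_le (h : OBLoc n θ d x₀ r c Lam B) {Cρ : ℝ} (hCρ : ∀ z : Space, regRho z ≤ Cρ) :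
    regAvg regRho (fun x => Real.pi / 2 - θ x) r x₀
      ≤ Cρ * (r ^ 3)⁻¹ * ∫ x in Metric.ball x₀ (4 * r), (Real.pi / 2 - θ x) := by
  have hr := h.hr
  have hδc : Continuous (fun x => Real.pi / 2 - θ x) := continuous_const.sub h.θC1.continuous
  have hρc : Continuous (regRho : Space → ℝ) := reg_rho_test.1.continuous
  have h1 := ob_cv (fun x => (Real.pi / 2 - θ x) * regRho (r⁻¹ • (x₀ - x))) x₀ hr
  have e : ∀ z : Space, (Real.pi / 2 - θ (x₀ - r • z)) * regRho (r⁻¹ • (x₀ - (x₀ - r • z)))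
      = (Real.pi / 2 - θ (x₀ - r • z)) • regRho z := by
    intro z
    rw [sub_sub_cancel, inv_smul_smul₀ hr.ne', smul_eq_mul]
  simp only [e] at h1
  unfold regAvg
  rw [h1]
  have hz : ∀ x, x ∉ Metric.ball x₀ (4 * r) → regRho (r⁻¹ • (x₀ - x)) = 0 := by
    intro x hx
    apply reg_rho_zero
    rw [Metric.mem_ball, not_lt, dist_eq_norm, norm_sub_rev] at hx
    rw [norm_smul, norm_inv, Real.norm_of_nonneg hr.le, mul_pow]
    have h1 : (4 * r) ^ 2 ≤ ‖x₀ - x‖ ^ 2 := pow_le_pow_left₀ (by positivity) hx 2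
    have h2 : 0 < r ^ 2 := by positivity
    rw [inv_pow, inv_mul_eq_div, le_div_iff₀ h2]
    nlinarith
  have hc2 : Continuous fun x : Space => (Real.pi / 2 - θ x) * regRho (r⁻¹ • (x₀ - x)) :=
    hδc.mul (hρc.comp ((continuous_const.sub continuous_id).const_smul r⁻¹))
  have h2 : ∫ x, (Real.pi / 2 - θ x) * regRho (r⁻¹ • (x₀ - x))
      ≤ Cρ * ∫ x in Metric.ball x₀ (4 * r), (Real.pi / 2 - θ x) := by
    rw [← integral_const_mul, ← setIntegral_eq_integral_of_forall_compl_eq_zero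
      (s := Metric.ball x₀ (4 * r)) (f := fun x => (Real.pi / 2 - θ x) * regRho (r⁻¹ • (x₀ - x)))
      (fun x hx => by rw [hz x hx, mul_zero])]
    refine setIntegral_mono_on (ob_integrableOn_ball hc2 _ _) ((ob_integrableOn_ball hδc _ _).const_mul _)
      measurableSet_ball fun x hx => ?_
    have h3 := h.θb x hx
    rw [mul_comm]
    exact mul_le_mul_of_nonneg_right (hCρ _) (by linarith)
  calc (r ^ 3)⁻¹ * ∫ x, (Real.pi / 2 - θ x) * regRho (r⁻¹ • (x₀ - x))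
      ≤ (r ^ 3)⁻¹ * (Cρ * ∫ x in Metric.ball x₀ (4 * r), (Real.pi / 2 - θ x)) :=
        mul_le_mul_of_nonneg_left h2 (by positivity)
    _ = _ := by ring

/-- from the derivative bound to the value at the centre. -/
theorem OBLoc.center_le (h : OBLoc n θ d x₀ r c Lam B) :
    Real.pi / 2 - θ x₀ ≤ regAvg regRho (fun x => Real.pi / 2 - θ x) r x₀
      + 2 * (B * √(∫ z : Space, regPsi z ^ 2) * √(∫ x in Metric.ball x₀ (2 * r), ‖gradient θ x‖ ^ 2)) * √r := by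
  have hr := h.hr
  have hδ : ContDiff ℝ 1 (fun x => Real.pi / 2 - θ x) := contDiff_const.sub h.θC1
  set c₂ := B * √(∫ z : Space, regPsi z ^ 2) * √(∫ x in Metric.ball x₀ (2 * r), ‖gradient θ x‖ ^ 2) with hc₂
  set M : ℝ → ℝ := fun t => regAvg regRho (fun x => Real.pi / 2 - θ x) t x₀ with hM
  have hMc : Continuous M := pos_avg_continuous hδ.continuous x₀
  have hder : ∀ t ∈ Set.Ioo 0 r, HasDerivAt (fun t => M t + 2 * c₂ * √t)
      ((∫ z, ⟪gradient (fun x => Real.pi / 2 - θ x) (x₀ - t • z), gradient regPsi z⟫_ℝ)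
        + 2 * c₂ * (1 / (2 * √t))) t := fun t ht =>
    (ob_avg_hasDerivAt hδ x₀ t).add ((Real.hasDerivAt_sqrt ht.1.ne').const_mul _)
  have hmono : MonotoneOn (fun t => M t + 2 * c₂ * √t) (Set.Icc 0 r) := by
    refine monotoneOn_of_deriv_nonneg (convex_Icc 0 r)
      (hMc.add (continuous_const.mul Real.continuous_sqrt)).continuousOn ?_ ?_
    · rw [interior_Icc]
      exact fun t ht => (hder t ht).differentiableAt.differentiableWithinAt
    · rw [interior_Icc]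
      intro t ht
      rw [(hder t ht).deriv]
      have h1 := h.deriv_lower ht.1 ht.2.le
      have h2 : 2 * c₂ * (1 / (2 * √t)) = c₂ * (√t)⁻¹ := by
        have : 0 < √t := Real.sqrt_pos.2 ht.1
        field_simp
      rw [h2]
      linarith
  have h1 := hmono (Set.left_mem_Icc.2 hr.le) (Set.right_mem_Icc.2 hr.le) hr.le
  simp only [Real.sqrt_zero, mul_zero, add_zero] at h1
  have h2 : M 0 = Real.pi / 2 - θ x₀ := ob_avg_zero _ _
  rw [h2] at h1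
  exact h1

/-- **T7**. -/
theorem ob_lmp {r : ℝ} (hr : 0 < r) (Λ B : ℝ) : ∃ C : ℝ, 0 ≤ C ∧
    ∀ (n θ : Space → ℝ) (d : ℝ) (x₀ : Space) (c : ℝ), 0 ≤ d → 0 < c → Continuous n →
      ContDiffOn ℝ 1 n (Metric.ball x₀ (4 * r)) →
      (∀ x ∈ Metric.ball x₀ (4 * r), c ≤ n x ∧ n x ≤ Λ * c ∧ ‖gradient n x‖ ≤ B * n x) →
      ContDiff ℝ 1 θ → (∀ x ∈ Metric.ball x₀ (4 * r), 0 ≤ θ x ∧ θ x ≤ Real.pi / 2) →
      (∀ φ : Space → ℝ, ContDiff ℝ 1 φ → HasCompactSupport φ → tsupport φ ⊆ Metric.ball x₀ (4 * r) →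
        ∫ x, n x * ⟪gradient θ x, gradient φ x⟫_ℝ = d * ∫ x, n x * Real.sin (2 * θ x) * φ x) →
      Real.pi / 2 - θ x₀ ≤ C * ((∫ x in Metric.ball x₀ (4 * r), (Real.pi / 2 - θ x))
        + √(∫ x in Metric.ball x₀ (4 * r), (Real.pi / 2 - θ x))) := by
  obtain ⟨Cζ, hCζ0, hE⟩ := ob_energy hr
  obtain ⟨Cρ, hCρ⟩ := (reg_rho_test (E := Space)).2.exists_bound_of_continuous reg_rho_test.1.continuous
  have hCρ' : ∀ z : Space, regRho z ≤ Cρ := fun z => (le_abs_self _).trans (hCρ z)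
  have hCρ0 : 0 ≤ Cρ := (norm_nonneg _).trans (hCρ 0)
  set P := ∫ z : Space, regPsi z ^ 2 with hP
  set C₁ := Cρ * (r ^ 3)⁻¹ with hC₁
  set C₂ := 2 * (|B| * √P * √(4 * |Λ| * Cζ ^ 2 * (Real.pi / 2))) * √r with hC₂
  have hC₁0 : 0 ≤ C₁ := by positivity
  have hC₂0 : 0 ≤ C₂ := by positivity
  refine ⟨max C₁ C₂, le_max_of_le_left hC₁0, fun n θ d x₀ c hd hc hnc hn1 hnb hθ hθb heq => ?_⟩
  have h : OBLoc n θ d x₀ r c Λ B := ⟨hr, hd, hc, hnc, hn1, hnb, hθ, hθb, heq⟩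
  set I := ∫ x in Metric.ball x₀ (4 * r), (Real.pi / 2 - θ x) with hI
  have hI0 : 0 ≤ I := setIntegral_nonneg measurableSet_ball fun x hx => by linarith [(hθb x hx).2]
  have hB := h.B_nonneg
  have hΛ : 0 ≤ Λ := by
    have h1 := hnb x₀ (Metric.mem_ball_self (by linarith))
    have h2 : 0 < Λ * c := hc.trans_le (h1.1.trans h1.2.1)
    by_contra hneg
    push Not at hneg
    nlinarith
  have h1 := h.center_le
  have h2 := h.avg_le hCρ'
  have h3 := hE n θ d x₀ c Λ B h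
  have h4 : √(∫ x in Metric.ball x₀ (2 * r), ‖gradient θ x‖ ^ 2)
      ≤ √(4 * |Λ| * Cζ ^ 2 * (Real.pi / 2)) * √I := by
    rw [← Real.sqrt_mul (by positivity), abs_of_nonneg hΛ]
    exact Real.sqrt_le_sqrt h3
  have h5 : 2 * (B * √P * √(∫ x in Metric.ball x₀ (2 * r), ‖gradient θ x‖ ^ 2)) * √r ≤ C₂ * √I := by
    rw [hC₂, abs_of_nonneg hB]
    have h6 : B * √P * √(∫ x in Metric.ball x₀ (2 * r), ‖gradient θ x‖ ^ 2)
        ≤ B * √P * (√(4 * |Λ| * Cζ ^ 2 * (Real.pi / 2)) * √I) :=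
      mul_le_mul_of_nonneg_left h4 (by positivity)
    have h7 := mul_le_mul_of_nonneg_right h6 (Real.sqrt_nonneg r)
    nlinarith
  have h8 : C₁ * I ≤ max C₁ C₂ * I := mul_le_mul_of_nonneg_right (le_max_left _ _) hI0
  have h9 : C₂ * √I ≤ max C₁ C₂ * √I := mul_le_mul_of_nonneg_right (le_max_right _ _) (Real.sqrt_nonneg _)
  rw [mul_add]
  linarith

end Claimed.Open.R278
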