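import Claimed.Open.R278.OBBasic
import Claimed.Open.R278.OBLmp
import Claimed.Open.R278.OBTrans

/-!
# Result 278, BP-OB, stage S3: `δ → 0` along the plane `z = z₁/2`

LEAF OB-S3.

PROOF.  `x₀ = y + (z₁/2) e_z`, `r = z₁/16`, so `B(x₀,4r) ⊆ y + {|x| ≤ 1, z₁/4 ≤ x_z ≤ 3z₁/4}`.  `ob_plane_bounds` gives
`λ c² ≤ n ≤ Λ' c²`, `|∇n| ≤ G c²` there (`c = obC k β y`), so `ob_lmp` applies with `c := λ c²`, `Λ := Λ'/λ`, `B := G/λ`; the ball avoids the nuclei
(`|x_z| ≤ 1 < D`).  `δ ≤ (π/2) sin δ` (`Real.mul_le_sin`) `= (π/2) g/√n ≤ (π/2) g/(c √λ)`, so `I ≤ (π/(2√λ)) ε'` by `OBSlab` (`K = 1`).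
-/

open MeasureTheory Filter Topology Set
open scoped ContDiff InnerProductSpace ENNReal Laplacian
open Claimed.Agent.R259

noncomputable section

set_option linter.unusedSectionVars false

namespace Claimed.Open.R278

variable {n θ : Space → ℝ} {k β d : ℝ} {V₁ V₂ : Space → ℝ}

/-- two-sided bounds for `n` and a bound for `∇n` on compact subsets of the open upper half-space, plane translates. -/
theorem OBHyp.plane_bounds (H : OBHyp n θ k β d V₁ V₂) {z₀ : ℝ} (hz₀ : 0 < z₀) (K : ℝ) :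
    ∃ lam Lam G P : ℝ, 0 < lam ∧ 0 < P ∧ ∀ y : Space, y 2 = 0 → P ≤ ‖y‖ → ∀ x : Space, ‖x‖ ≤ K → z₀ ≤ x 2 →
      lam * obC k β y ^ 2 ≤ n (y + x) ∧ n (y + x) ≤ Lam * obC k β y ^ 2 ∧
      ‖gradient n (y + x)‖ ≤ G * obC k β y ^ 2 := by
  obtain ⟨a, ha, h⟩ := H.hplane
  have hk := H.hk
  obtain ⟨lam, hlam, hlamdef⟩ : ∃ lam : ℝ, 0 < lam ∧ lam = a ^ 2 * z₀ ^ 2 * Real.exp (-(2 * k * K)) / 2 :=
    ⟨_, by positivity, rfl⟩
  obtain ⟨P, hP⟩ := h K lam hlam
  refine ⟨lam, a ^ 2 * K ^ 2 * Real.exp (2 * k * K) + lam,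
    a ^ 2 * Real.exp (2 * k * K) * (2 * K + 2 * k * K ^ 2) + lam, max P 1, hlam, by positivity,
    fun y hy hPy x hx hz => ?_⟩
  have hy0 : 0 < ‖y‖ := lt_of_lt_of_le one_pos ((le_max_right _ _).trans hPy)
  have hc := obC_pos (k := k) (β := β) hy0
  obtain ⟨h1, h2⟩ := hP y hy ((le_max_left _ _).trans hPy) x hx
  have hc2 : 0 < obC k β y ^ 2 := by positivity
  have hcdef : radialA k β ‖y‖ / ‖y‖ = obC k β y := rfl
  rw [hcdef] at h1 h2
  have hK : 0 ≤ K := (norm_nonneg x).trans hx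
  have hin := abs_le.1 ((ob_abs_inner_unit_le y x).trans hx)
  have hzK : x 2 ≤ K := (le_abs_self _).trans ((ob_abs_coord_le x 2).trans hx)
  obtain ⟨h1a, h1b⟩ := abs_le.1 h1
  refine ⟨?_, ?_, ?_⟩
  · have t1 : a ^ 2 * z₀ ^ 2 * Real.exp (-(2 * k * K)) ≤ a ^ 2 * x 2 ^ 2 * Real.exp (-(2 * k * ⟪‖y‖⁻¹ • y, x⟫_ℝ)) := by
      have : Real.exp (-(2 * k * K)) ≤ Real.exp (-(2 * k * ⟪‖y‖⁻¹ • y, x⟫_ℝ)) :=
        Real.exp_le_exp.2 (by nlinarith [hin.2])
      gcongr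
    have t2 : lam ≤ n (y + x) / obC k β y ^ 2 := by linarith
    rwa [le_div_iff₀ hc2] at t2
  · have t1 : a ^ 2 * x 2 ^ 2 * Real.exp (-(2 * k * ⟪‖y‖⁻¹ • y, x⟫_ℝ)) ≤ a ^ 2 * K ^ 2 * Real.exp (2 * k * K) := by
      have : Real.exp (-(2 * k * ⟪‖y‖⁻¹ • y, x⟫_ℝ)) ≤ Real.exp (2 * k * K) :=
        Real.exp_le_exp.2 (by nlinarith [hin.1])
      have hx0 : 0 ≤ x 2 := hz₀.le.trans hz
      gcongr
    have t2 : n (y + x) / obC k β y ^ 2 ≤ a ^ 2 * K ^ 2 * Real.exp (2 * k * K) + lam := by linarith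
    rwa [div_le_iff₀ hc2] at t2
  · have t1 := ob_prof_gradient_le a hk.le (ob_norm_unit_le y) hx
    have t2 : ‖(obC k β y ^ 2)⁻¹ • gradient n (y + x)‖
        ≤ a ^ 2 * Real.exp (2 * k * K) * (2 * K + 2 * k * K ^ 2) + lam := by
      have := norm_le_norm_add_norm_sub' ((obC k β y ^ 2)⁻¹ • gradient n (y + x))
        (gradient (fun x' : Space => a ^ 2 * x' 2 ^ 2 * Real.exp (-(2 * k * ⟪‖y‖⁻¹ • y, x'⟫_ℝ))) x)
      linarith
    rw [norm_smul, norm_inv, Real.norm_of_nonneg hc2.le, inv_mul_le_iff₀ hc2] at t2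
    linarith

theorem ob_small_add_sqrt {C ε : ℝ} (hC : 0 ≤ C) (hε : 0 < ε) :
    ∃ t : ℝ, 0 < t ∧ ∀ I : ℝ, 0 ≤ I → I ≤ t → C * (I + √I) ≤ ε := by
  refine ⟨min 1 ((ε / (2 * (C + 1))) ^ 2), lt_min one_pos (by positivity), fun I hI0 hI => ?_⟩
  have h1 : I ≤ 1 := hI.trans (min_le_left _ _)
  have h2 : I ≤ (ε / (2 * (C + 1))) ^ 2 := hI.trans (min_le_right _ _)
  have h3 : √I ≤ ε / (2 * (C + 1)) := Real.sqrt_le_iff.2 ⟨by positivity, h2⟩
  have h4 : I ≤ √I := by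
    have h5 := Real.sq_sqrt hI0
    have h6 : √I ≤ 1 := Real.sqrt_le_one.2 h1 |>.trans le_rfl
    nlinarith [Real.sqrt_nonneg I]
  calc C * (I + √I) ≤ C * (ε / (2 * (C + 1)) + ε / (2 * (C + 1))) := by gcongr; exact h4.trans h3
    _ = ε * (C / (C + 1)) := by field_simp; ring
    _ ≤ ε * 1 := by
        gcongr
        exact div_le_one_of_le₀ (by linarith) (by positivity)
    _ = ε := mul_one _

theorem ob_setIntegral_tr (f : Space → ℝ) (y : Space) (T : Set Space) :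
    ∫ u in (fun u => y + u) ⁻¹' T, f (y + u) = ∫ x in T, f x :=
  (measurePreserving_add_left (volume : Measure Space) y).setIntegral_preimage_emb
    (measurableEmbedding_addLeft y) f T

/-- `δ ≤ (π/2) g/√n`. -/
theorem OBHyp.delta_le (H : OBHyp n θ k β d V₁ V₂) {x : Space} (hx : 0 < x 2) :
    Real.pi / 2 - θ x ≤ Real.pi / 2 * (orbG n θ x / √(n x)) := by
  have h1 := H.θ_mem hx
  have h2 := Real.mul_le_sin (x := Real.pi / 2 - θ x) (by linarith [h1.2]) (by linarith [h1.1])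
  have h3 : orbG n θ x / √(n x) = Real.sin (Real.pi / 2 - θ x) := by
    rw [ob_g_eq_sin, mul_div_cancel_left₀ _ (H.sqrt_pos x).ne']
  rw [h3]
  have hpi := Real.pi_pos
  calc Real.pi / 2 - θ x = Real.pi / 2 * (2 / Real.pi * (Real.pi / 2 - θ x)) := by field_simp
    _ ≤ _ := by gcongr

/-- **S3**. -/
theorem ob_height (H : OBHyp n θ k β d V₁ V₂) {z₁ : ℝ} (h0 : 0 < z₁) (h1 : z₁ ≤ 1)
    (hs : OBSlab n θ k β z₁) : OBHeight θ (z₁ / 2) := by
  intro ε hε
  obtain ⟨lam, Lam, G, P₁, hlam, hP₁0, hpb⟩ := H.plane_bounds (z₀ := z₁ / 4) (by positivity) 1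
  have hr : 0 < z₁ / 16 := by positivity
  obtain ⟨C, hC0, hlmp⟩ := ob_lmp hr (Lam / lam) (G / lam)
  obtain ⟨t, ht0, ht⟩ := ob_small_add_sqrt hC0 hε
  have hpi := Real.pi_pos
  have hsl : 0 < √lam := Real.sqrt_pos.2 hlam
  obtain ⟨P₂, hP₂⟩ := hs 1 (2 * √lam * t / Real.pi) (by positivity)
  refine ⟨max P₁ P₂, fun y hy hPy => ?_⟩
  have hy0 : 0 < ‖y‖ := lt_of_lt_of_le hP₁0 ((le_max_left _ _).trans hPy)
  have hc := obC_pos (k := k) (β := β) hy0
  have hpb' := hpb y hy ((le_max_left _ _).trans hPy)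
  have hslab := hP₂ y hy ((le_max_right _ _).trans hPy)
  -- geometry of the ball
  have hgeo : ∀ x ∈ Metric.ball (y + (z₁ / 2) • ez) (4 * (z₁ / 16)),
      ‖x - y‖ ≤ 1 ∧ z₁ / 4 ≤ (x - y) 2 ∧ (x - y) 2 ≤ z₁ ∧ x 2 = (x - y) 2 := by
    intro x hx
    rw [Metric.mem_ball, dist_eq_norm] at hx
    have e : x - y = (x - (y + (z₁ / 2) • ez)) + (z₁ / 2) • ez := by abel
    have hv := abs_le.1 ((ob_abs_coord_le (x - (y + (z₁ / 2) • ez)) 2).trans hx.le)
    have e2 : (x - y) 2 = (x - (y + (z₁ / 2) • ez)) 2 + z₁ / 2 := by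
      rw [e]; simp [ez]
    refine ⟨?_, by linarith [hv.1], by linarith [hv.2], by simp [hy]⟩
    rw [e]
    refine (norm_add_le _ _).trans ?_
    rw [norm_smul, ob_norm_ez, mul_one, Real.norm_of_nonneg (by positivity)]
    linarith
  have hadd : ∀ x : Space, y + (x - y) = x := fun x => by abel
  have hb : ∀ x ∈ Metric.ball (y + (z₁ / 2) • ez) (4 * (z₁ / 16)),
      lam * obC k β y ^ 2 ≤ n x ∧ n x ≤ Lam * obC k β y ^ 2 ∧ ‖gradient n x‖ ≤ G * obC k β y ^ 2 := by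
    intro x hx
    obtain ⟨g1, g2, g3, g4⟩ := hgeo x hx
    have := hpb' (x - y) g1 g2
    rwa [hadd] at this
  have hc2 : 0 < obC k β y ^ 2 := by positivity
  have hmain := hlmp n θ d (y + (z₁ / 2) • ez) (lam * obC k β y ^ 2) H.hdpos.le (by positivity) H.hn.continuous
    ((H.hn.smooth.of_le (by norm_num)).mono fun x hx hnuc => by
      obtain ⟨g1, g2, g3, g4⟩ := hgeo x hx
      have h5 := ob_nuclei_coord hnuc
      have h6 := ob_one_lt_bigD
      rw [g4, abs_of_nonneg (by linarith)] at h5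
      linarith)
    (fun x hx => by
      obtain ⟨b1, b2, b3⟩ := hb x hx
      refine ⟨b1, ?_, ?_⟩
      · calc n x ≤ Lam * obC k β y ^ 2 := b2
          _ = Lam / lam * (lam * obC k β y ^ 2) := by field_simp
      · have hG : 0 ≤ G := by
          have : 0 ≤ G * obC k β y ^ 2 := (norm_nonneg _).trans b3
          exact nonneg_of_mul_nonneg_left this hc2
        calc ‖gradient n x‖ ≤ G * obC k β y ^ 2 := b3
          _ = G / lam * (lam * obC k β y ^ 2) := by field_simp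
          _ ≤ G / lam * n x := by gcongr)
    H.θ_contDiff
    (fun x hx => by
      obtain ⟨g1, g2, g3, g4⟩ := hgeo x hx
      have := H.θ_mem (x := x) (by rw [g4]; linarith)
      exact ⟨this.1, this.2.le⟩)
    (fun φ hφ hc _ => H.angle_eq hφ hc)
  refine hmain.trans (ht _ ?_ ?_)
  · refine setIntegral_nonneg measurableSet_ball fun x hx => ?_
    obtain ⟨g1, g2, g3, g4⟩ := hgeo x hx
    have := H.θ_mem (x := x) (by rw [g4]; linarith)
    linarith [this.2]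
  -- the L¹ bound
  have hθc := H.θ_contDiff.continuous
  have hgc := H.ho.g_cont
  have hballfin : IntegrableOn (fun x => Real.pi / 2 - θ x) (Metric.ball (y + (z₁ / 2) • ez) (4 * (z₁ / 16))) :=
    ((continuous_const.sub hθc).continuousOn.integrableOn_compact (isCompact_closedBall _ _)).mono_set
      Metric.ball_subset_closedBall
  have hgi : IntegrableOn (orbG n θ) (Metric.ball (y + (z₁ / 2) • ez) (4 * (z₁ / 16))) :=
    (hgc.continuousOn.integrableOn_compact (isCompact_closedBall _ _)).mono_set Metric.ball_subset_closedBall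
  have step1 : ∫ x in Metric.ball (y + (z₁ / 2) • ez) (4 * (z₁ / 16)), (Real.pi / 2 - θ x)
      ≤ ∫ x in Metric.ball (y + (z₁ / 2) • ez) (4 * (z₁ / 16)),
          Real.pi / (2 * √lam * obC k β y) * orbG n θ x := by
    refine setIntegral_mono_on hballfin (hgi.const_mul _) measurableSet_ball fun x hx => ?_
    obtain ⟨g1, g2, g3, g4⟩ := hgeo x hx
    refine (H.delta_le (x := x) (by rw [g4]; linarith)).trans ?_
    have h5 : √lam * obC k β y ≤ √(n x) := by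
      refine Real.le_sqrt_of_sq_le ?_
      rw [mul_pow, Real.sq_sqrt hlam.le]
      exact (hb x hx).1
    have h6 := (H.ho.g_pos x).le
    calc Real.pi / 2 * (orbG n θ x / √(n x)) ≤ Real.pi / 2 * (orbG n θ x / (√lam * obC k β y)) := by gcongr
      _ = _ := by field_simp
  rw [integral_const_mul] at step1
  have step2 : ∫ x in Metric.ball (y + (z₁ / 2) • ez) (4 * (z₁ / 16)), orbG n θ x
      ≤ ∫ x in {x : Space | ‖x‖ ≤ 1 ∧ |x 2| ≤ z₁}, orbG n θ (y + x) := by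
    rw [← ob_setIntegral_tr (orbG n θ) y]
    refine setIntegral_mono_set ?_ (Eventually.of_forall fun u => (H.ho.g_pos _).le)
      (Eventually.of_forall fun u hu => ?_)
    · have hsub : {u : Space | ‖u‖ ≤ 1 ∧ |u 2| ≤ z₁} ⊆ Metric.closedBall (0 : Space) 1 := fun u hu => by
        simpa using hu.1
      exact ((hgc.comp (by fun_prop : Continuous fun u : Space => y + u)).continuousOn.integrableOn_compact
        (isCompact_closedBall (0 : Space) 1)).mono_set hsub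
    · obtain ⟨g1, g2, g3, g4⟩ := hgeo (y + u) hu
      rw [add_sub_cancel_left] at g1 g2 g3
      exact ⟨g1, abs_le.2 ⟨by linarith, g3⟩⟩
  calc ∫ x in Metric.ball (y + (z₁ / 2) • ez) (4 * (z₁ / 16)), (Real.pi / 2 - θ x)
      ≤ Real.pi / (2 * √lam * obC k β y) * (2 * √lam * t / Real.pi * obC k β y) := by
        refine step1.trans ?_
        gcongr
        exact step2.trans hslab
    _ = t := by field_simp

end Claimed.Open.R278
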