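import Claimed.Open.R278.OBBasic
import Claimed.Open.R278.OBTrans

/-!
# Result 278, BP-OB, stage S9: the mollified bounded part of `V` tends to `c∞`

LEAVES OB-S9a (`ob_g_plane`, `ob_h_plane`), OB-S9b (`ob_h_bulk`), OB-S9c (`ob_V2_plane`), OB-S9d (`ob_V2_bulk`).
-/

open MeasureTheory Filter Topology Set
open scoped ContDiff InnerProductSpace ENNReal Laplacian
open Claimed.Agent.R259

noncomputable section

set_option linter.unusedSectionVars false

namespace Claimed.Open.R278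

variable {n θ : Space → ℝ} {k β d : ℝ} {V₁ V₂ : Space → ℝ}

/-! ### Elementary tools -/

theorem ob_abs_sqrt_sub_le {A B : ℝ} (hA : 0 ≤ A) (hB : 0 ≤ B) : |√A - √B| ≤ √|A - B| := by
  refine Real.le_sqrt_of_sq_le ?_
  have h1 : A - B = (√A - √B) * (√A + √B) := by
    have := Real.sq_sqrt hA
    have := Real.sq_sqrt hB
    nlinarith
  rw [h1, abs_mul, sq]
  refine mul_le_mul_of_nonneg_left ?_ (abs_nonneg _)
  rw [abs_of_nonneg (add_nonneg (Real.sqrt_nonneg A) (Real.sqrt_nonneg B))]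
  exact abs_le.2 ⟨by linarith [Real.sqrt_nonneg A, Real.sqrt_nonneg B],
    by linarith [Real.sqrt_nonneg A, Real.sqrt_nonneg B]⟩

theorem obC_nonneg (k β : ℝ) (y : Space) : 0 ≤ obC k β y := by
  unfold obC radialA
  have := Real.rpow_nonneg (norm_nonneg y) β
  positivity

/-- `θ ≤ π/2` in the closed upper half space. -/
theorem OBHyp.θ_le (H : OBHyp n θ k β d V₁ V₂) {x : Space} (hx : 0 ≤ x 2) : θ x ≤ Real.pi / 2 := by
  rcases hx.eq_or_lt with h | h
  · rw [H.θ_plane h.symm]; positivity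
  · exact (H.θ_mem h).2.le

/-- `g ≤ ε √n` far away from the plane region. -/
theorem ob_g_le_far (H : OBHyp n θ k β d V₁ V₂) {z₂ : ℝ} (hd : OBDecay θ z₂) {ε : ℝ} (hε : 0 < ε) :
    ∃ R : ℝ, ∀ w : Space, z₂ ≤ |w 2| → R ≤ ‖w‖ → orbG n θ w ≤ ε * √(n w) := by
  obtain ⟨R, hR⟩ := hd ε hε
  have key : ∀ w : Space, 0 ≤ w 2 → z₂ ≤ w 2 → R ≤ ‖w‖ → orbG n θ w ≤ ε * √(n w) := by
    intro w h0 h1 h2
    rw [ob_g_eq_sin]
    have h3 : Real.sin (Real.pi / 2 - θ w) ≤ Real.pi / 2 - θ w := Real.sin_le (by linarith [H.θ_le h0])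
    have h4 := hR w h1 h2
    have h5 := H.sqrt_pos w
    nlinarith
  refine ⟨R, fun w h1 h2 => ?_⟩
  rcases le_total 0 (w 2) with h0 | h0
  · exact key w h0 (by rwa [abs_of_nonneg h0] at h1) h2
  · obtain ⟨-, -, e2, e3⟩ := ob_reflZ_coord w
    have := key (reflZ w) (by rw [e2]; linarith) (by rw [e2]; rwa [abs_of_nonpos h0] at h1) (by rw [e3]; exact h2)
    rwa [H.ho.g_even, H.hn.even] at this

/-- `√n(y+x) ≈ c a |x_z| e^{-kω·x}`. -/
theorem ob_sqrt_plane {a : ℝ} (ha : 0 < a) {y x : Space} (hy : 0 < ‖y‖) {ε : ℝ} (hn : 0 ≤ n (y + x))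
    (h : |n (y + x) / (radialA k β ‖y‖ / ‖y‖) ^ 2
        - a ^ 2 * x 2 ^ 2 * Real.exp (-(2 * k * ⟪‖y‖⁻¹ • y, x⟫_ℝ))| ≤ ε) :
    |√(n (y + x)) - obC k β y * (a * |x 2| * Real.exp (-(k * ⟪‖y‖⁻¹ • y, x⟫_ℝ)))| ≤ obC k β y * √ε := by
  have hc := obC_pos (k := k) (β := β) hy
  set c := obC k β y with hcdef
  set t := ⟪‖y‖⁻¹ • y, x⟫_ℝ with ht
  have hc' : radialA k β ‖y‖ / ‖y‖ = c := rfl
  rw [hc'] at h
  have e1 : √(n (y + x) / c ^ 2) = √(n (y + x)) / c := by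
    rw [Real.sqrt_div' _ (by positivity), Real.sqrt_sq hc.le]
  have e2 : √(a ^ 2 * x 2 ^ 2 * Real.exp (-(2 * k * t))) = a * |x 2| * Real.exp (-(k * t)) := by
    have : a ^ 2 * x 2 ^ 2 * Real.exp (-(2 * k * t)) = (a * |x 2| * Real.exp (-(k * t))) ^ 2 := by
      rw [mul_pow, mul_pow, sq_abs, ← Real.exp_nat_mul]
      congr 2
      push_cast
      ring
    rw [this, Real.sqrt_sq (by positivity)]
  have h1 := ob_abs_sqrt_sub_le (A := n (y + x) / c ^ 2) (B := a ^ 2 * x 2 ^ 2 * Real.exp (-(2 * k * t)))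
    (by positivity) (by positivity)
  rw [e1, e2] at h1
  have h2 := h1.trans (Real.sqrt_le_sqrt h)
  have e3 : √(n (y + x)) - c * (a * |x 2| * Real.exp (-(k * t)))
      = c * (√(n (y + x)) / c - a * |x 2| * Real.exp (-(k * t))) := by
    field_simp
  rw [e3, abs_mul, abs_of_pos hc]
  exact mul_le_mul_of_nonneg_left h2 hc.le

theorem ob_exp_neg_inner_le {k K : ℝ} (hk : 0 ≤ k) (y : Space) {x : Space} (hx : ‖x‖ ≤ K) :
    Real.exp (-(k * ⟪‖y‖⁻¹ • y, x⟫_ℝ)) ≤ Real.exp (k * K) := by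
  refine Real.exp_le_exp.2 ?_
  have := (abs_le.1 ((ob_abs_inner_unit_le y x).trans hx)).1
  nlinarith

/-- `√n(y+x) ≤ C c(y)` on balls centred in the plane. -/
theorem ob_sqrt_plane_le (H : OBHyp n θ k β d V₁ V₂) {a : ℝ} (ha : 0 < a) {y x : Space} (hy : 0 < ‖y‖) {K : ℝ}
    (hx : ‖x‖ ≤ K)
    (h : |n (y + x) / (radialA k β ‖y‖ / ‖y‖) ^ 2
        - a ^ 2 * x 2 ^ 2 * Real.exp (-(2 * k * ⟪‖y‖⁻¹ • y, x⟫_ℝ))| ≤ 1) :
    √(n (y + x)) ≤ obC k β y * (a * K * Real.exp (k * K) + 1) := by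
  have h1 := ob_sqrt_plane (k := k) (β := β) ha hy (H.hn.pos _).le h
  rw [Real.sqrt_one, mul_one] at h1
  have h2 := (abs_le.1 h1).2
  have hc := obC_pos (k := k) (β := β) hy
  have hK : 0 ≤ K := (norm_nonneg x).trans hx
  have h3 : a * |x 2| * Real.exp (-(k * ⟪‖y‖⁻¹ • y, x⟫_ℝ)) ≤ a * K * Real.exp (k * K) := by
    have := ob_exp_neg_inner_le H.hk.le y hx
    have h4 : |x 2| ≤ K := (ob_abs_coord_le x 2).trans hx
    gcongr
  nlinarith

theorem ob_continuous_tr {f : Space → ℝ} (hf : Continuous f) (y : Space) : Continuous fun x => f (y + x) :=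
  hf.comp (continuous_const.add continuous_id)

/-- `g` is small in `L¹` of every ball centred in the plane: slab `|x_z| ≤ z₁` by `OBSlab`; on `|x_z| ≥ z₁`:
`g = √n sin δ ≤ √n δ`, `√n ≤ C c`, `δ` small by `OBDecay` (and evenness of `g`). -/
theorem ob_g_plane (H : OBHyp n θ k β d V₁ V₂) {z₁ : ℝ} (h0 : 0 < z₁) (hs : OBSlab n θ k β z₁)
    (hd : OBDecay θ (z₁ / 2)) : OBGPlane n θ k β := by
  intro K ε hε
  obtain ⟨a, ha, hpl⟩ := H.hplane
  obtain ⟨P₁, hP₁⟩ := hs K (ε / 2) (by positivity)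
  obtain ⟨P₂, hP₂⟩ := hpl K 1 one_pos
  set vol : ℝ := volume.real (Metric.closedBall (0 : Space) K) with hvol
  have hvol0 : 0 ≤ vol := measureReal_nonneg
  set C : ℝ := a * |K| * Real.exp (k * K) + 1 with hC
  have hC0 : 0 < C := by positivity
  set ε₂ : ℝ := ε / (2 * (vol * C + 1)) with hε₂
  have hε₂0 : 0 < ε₂ := by positivity
  obtain ⟨R, hR⟩ := ob_g_le_far H hd hε₂0
  refine ⟨max (max P₁ P₂) (max 1 (R + K)), fun y hy hPy => ?_⟩
  have hy1 : P₁ ≤ ‖y‖ := ((le_max_left _ _).trans (le_max_left _ _)).trans hPy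
  have hy2 : P₂ ≤ ‖y‖ := ((le_max_right _ _).trans (le_max_left _ _)).trans hPy
  have hy3 : 1 ≤ ‖y‖ := ((le_max_left _ _).trans (le_max_right _ _)).trans hPy
  have hy4 : R + K ≤ ‖y‖ := ((le_max_right _ _).trans (le_max_right _ _)).trans hPy
  have hy0 : 0 < ‖y‖ := by linarith
  have hc := obC_pos (k := k) (β := β) hy0
  have hcont : Continuous fun x => orbG n θ (y + x) := ob_continuous_tr H.ho.g_cont y
  have hint : IntegrableOn (fun x => orbG n θ (y + x)) (Metric.closedBall (0 : Space) K) volume :=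
    hcont.continuousOn.integrableOn_compact (isCompact_closedBall _ _)
  have hT : MeasurableSet {x : Space | |x 2| ≤ z₁} := by
    have : Continuous fun x : Space => |x 2| := by fun_prop
    exact (isClosed_le this continuous_const).measurableSet
  rw [← integral_inter_add_sdiff hT hint]
  have e1 : Metric.closedBall (0 : Space) K ∩ {x : Space | |x 2| ≤ z₁} = {x : Space | ‖x‖ ≤ K ∧ |x 2| ≤ z₁} := by
    ext x; simp
  rw [e1]
  have b1 := hP₁ y hy hy1
  have b2 : ∫ x in Metric.closedBall (0 : Space) K \ {x : Space | |x 2| ≤ z₁}, orbG n θ (y + x)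
      ≤ ε₂ * (obC k β y * C) * vol := by
    have hfin : volume (Metric.closedBall (0 : Space) K \ {x : Space | |x 2| ≤ z₁}) < ⊤ :=
      lt_of_le_of_lt (measure_mono sdiff_subset) measure_closedBall_lt_top
    have h1 := norm_setIntegral_le_of_norm_le_const (μ := volume)
      (f := fun x => orbG n θ (y + x)) (C := ε₂ * (obC k β y * C)) hfin (fun x hx => by
        have hxK : ‖x‖ ≤ K := by simpa using hx.1
        have hxz : z₁ < |x 2| := by simpa using hx.2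
        have hK0 : 0 ≤ K := (norm_nonneg x).trans hxK
        rw [Real.norm_eq_abs, abs_of_pos (H.ho.g_pos _)]
        have hz : (y + x) 2 = x 2 := by simp [hy]
        have h2 := hR (y + x) (by rw [hz]; linarith) (by
          have := norm_sub_norm_le y (-x)
          rw [norm_neg, sub_neg_eq_add] at this
          linarith)
        have h3 := ob_sqrt_plane_le H ha hy0 hxK (hP₂ y hy hy2 x hxK).1
        have h3' : √(n (y + x)) ≤ obC k β y * C := by
          rw [hC, abs_of_nonneg hK0]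
          exact h3
        exact h2.trans (mul_le_mul_of_nonneg_left h3' hε₂0.le))
    refine (le_abs_self _).trans (h1.trans ?_)
    refine mul_le_mul_of_nonneg_left ?_ (by positivity)
    exact measureReal_mono sdiff_subset measure_closedBall_lt_top.ne
  have b3 : ε₂ * (obC k β y * C) * vol ≤ ε / 2 * obC k β y := by
    have : ε₂ * (vol * C) ≤ ε / 2 := by
      rw [hε₂, div_mul_eq_mul_div, div_le_iff₀ (by positivity)]
      nlinarith [mul_nonneg hvol0 hC0.le]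
    calc ε₂ * (obC k β y * C) * vol = ε₂ * (vol * C) * obC k β y := by ring
      _ ≤ ε / 2 * obC k β y := mul_le_mul_of_nonneg_right this hc.le
  linarith

/-- comparison of `h` with a signed profile. -/
theorem ob_h_sub_le (H : OBHyp n θ k β d V₁ V₂) (w : Space) {S T : ℝ}
    (hS : (S = T ∧ 0 ≤ w 2) ∨ (S = -T ∧ w 2 ≤ 0)) :
    |orbH n θ w - S| ≤ orbG n θ w + |√(n w) - T| := by
  have h1 := H.sqrt_sub_abs_h_le w
  have h2 := H.abs_h_le w
  rcases hS with ⟨rfl, h0⟩ | ⟨rfl, h0⟩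
  · have h3 := H.h_nonneg h0
    rw [abs_of_nonneg h3] at h1 h2
    have e : orbH n θ w - S = (orbH n θ w - √(n w)) + (√(n w) - S) := by ring
    rw [e]
    refine (abs_add_le _ _).trans (add_le_add ?_ le_rfl)
    rw [abs_of_nonpos (by linarith)]
    linarith
  · have h3 := H.h_nonpos h0
    rw [abs_of_nonpos h3] at h1 h2
    have e : orbH n θ w - -T = (orbH n θ w + √(n w)) + -(√(n w) - T) := by ring
    rw [e]
    refine (abs_add_le _ _).trans (add_le_add ?_ (abs_neg _).le)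
    rw [abs_of_nonneg (by linarith)]
    linarith

/-- `h(y+x) ≈ c a x_z e^{-kω·x}`: bounded error, small in `L¹`.
(`|h - H| = ||h| - |H|| ≤ g + |√n - c a |x_z| e^{-kω·x}| ≤ g + c √ε'`.) -/
theorem ob_h_plane (H : OBHyp n θ k β d V₁ V₂) (hg : OBGPlane n θ k β) :
    ∃ a : ℝ, 0 < a ∧ ∀ K : ℝ, ∃ C : ℝ, ∀ ε : ℝ, 0 < ε → ∃ P : ℝ, 0 < P ∧ ∀ y : Space, y 2 = 0 → P ≤ ‖y‖ →
      (∀ x : Space, ‖x‖ ≤ K →
        |orbH n θ (y + x) - obC k β y * (a * x 2 * Real.exp (-(k * ⟪‖y‖⁻¹ • y, x⟫_ℝ)))| ≤ C * obC k β y) ∧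
      ∫ x in Metric.closedBall (0 : Space) K,
        |orbH n θ (y + x) - obC k β y * (a * x 2 * Real.exp (-(k * ⟪‖y‖⁻¹ • y, x⟫_ℝ)))| ≤ ε * obC k β y := by
  obtain ⟨a, ha, hpl⟩ := H.hplane
  refine ⟨a, ha, fun K => ⟨a * K * Real.exp (k * K) + 1 + 1, fun ε hε => ?_⟩⟩
  set vol : ℝ := volume.real (Metric.closedBall (0 : Space) K) with hvol
  have hvol0 : 0 ≤ vol := measureReal_nonneg
  set s : ℝ := ε / (2 * (vol + 1)) with hs
  have hs0 : 0 < s := by positivity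
  obtain ⟨P₁, hP₁⟩ := hpl K 1 one_pos
  obtain ⟨P₂, hP₂⟩ := hpl K (s ^ 2) (by positivity)
  obtain ⟨P₃, hP₃⟩ := hg K (ε / 2) (by positivity)
  refine ⟨max (max P₁ P₂) (max P₃ 1), by positivity, fun y hy hPy => ?_⟩
  have hy1 : P₁ ≤ ‖y‖ := ((le_max_left _ _).trans (le_max_left _ _)).trans hPy
  have hy2 : P₂ ≤ ‖y‖ := ((le_max_right _ _).trans (le_max_left _ _)).trans hPy
  have hy3 : P₃ ≤ ‖y‖ := ((le_max_left _ _).trans (le_max_right _ _)).trans hPy
  have hy4 : 1 ≤ ‖y‖ := ((le_max_right _ _).trans (le_max_right _ _)).trans hPy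
  have hy0 : 0 < ‖y‖ := by linarith
  have hc := obC_pos (k := k) (β := β) hy0
  -- the pointwise comparison
  have key : ∀ x : Space,
      |orbH n θ (y + x) - obC k β y * (a * x 2 * Real.exp (-(k * ⟪‖y‖⁻¹ • y, x⟫_ℝ)))|
        ≤ orbG n θ (y + x)
          + |√(n (y + x)) - obC k β y * (a * |x 2| * Real.exp (-(k * ⟪‖y‖⁻¹ • y, x⟫_ℝ)))| := by
    intro x
    refine ob_h_sub_le H (y + x) ?_
    have hz : (y + x) 2 = x 2 := by simp [hy]
    rw [hz]
    rcases le_total 0 (x 2) with h0 | h0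
    · exact Or.inl ⟨by rw [abs_of_nonneg h0], h0⟩
    · exact Or.inr ⟨by rw [abs_of_nonpos h0]; ring, h0⟩
  refine ⟨fun x hx => ?_, ?_⟩
  · have h1 := ob_sqrt_plane (k := k) (β := β) ha hy0 (H.hn.pos _).le (hP₁ y hy hy1 x hx).1
    rw [Real.sqrt_one, mul_one] at h1
    have h2 := ob_sqrt_plane_le H ha hy0 hx (hP₁ y hy hy1 x hx).1
    have h3 := H.g_le (y + x)
    have := key x
    nlinarith
  · have c1 : Continuous fun x => orbG n θ (y + x) := ob_continuous_tr H.ho.g_cont y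
    have c2 : Continuous fun x : Space =>
        |orbH n θ (y + x) - obC k β y * (a * x 2 * Real.exp (-(k * ⟪‖y‖⁻¹ • y, x⟫_ℝ)))| := by
      have := ob_continuous_tr H.ho.h_cont y
      fun_prop
    have hcpt := isCompact_closedBall (0 : Space) K
    have i1 : IntegrableOn (fun x => orbG n θ (y + x)) (Metric.closedBall (0 : Space) K) volume :=
      c1.continuousOn.integrableOn_compact hcpt
    have i2 := c2.continuousOn.integrableOn_compact (μ := volume) hcpt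
    have i3 : IntegrableOn (fun _ : Space => obC k β y * s) (Metric.closedBall (0 : Space) K) volume :=
      integrableOn_const measure_closedBall_lt_top.ne
    have b1 : ∫ x in Metric.closedBall (0 : Space) K,
        |orbH n θ (y + x) - obC k β y * (a * x 2 * Real.exp (-(k * ⟪‖y‖⁻¹ • y, x⟫_ℝ)))|
        ≤ ∫ x in Metric.closedBall (0 : Space) K, (orbG n θ (y + x) + obC k β y * s) := by
      refine setIntegral_mono_on i2 (i1.add i3) Metric.isClosed_closedBall.measurableSet fun x hx => ?_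
      have hxK : ‖x‖ ≤ K := by simpa using hx
      have h1 := ob_sqrt_plane (k := k) (β := β) ha hy0 (H.hn.pos _).le (hP₂ y hy hy2 x hxK).1
      rw [Real.sqrt_sq hs0.le] at h1
      exact (key x).trans (add_le_add le_rfl h1)
    rw [integral_add i1 i3, setIntegral_const, smul_eq_mul] at b1
    have b2 := hP₃ y hy hy3
    have b3 : vol * (obC k β y * s) ≤ ε / 2 * obC k β y := by
      have : vol * s ≤ ε / 2 := by
        rw [hs, mul_div_assoc', div_le_iff₀ (by positivity)]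
        nlinarith
      calc vol * (obC k β y * s) = vol * s * obC k β y := by ring
        _ ≤ ε / 2 * obC k β y := mul_le_mul_of_nonneg_right this hc.le
    linarith

/-- `h(y+x) ≈ ± √n(y) e^{-kω·x}` uniformly, `|y_z| → ∞`. -/
theorem ob_h_bulk (H : OBHyp n θ k β d V₁ V₂) {z₂ : ℝ} (hd : OBDecay θ z₂) :
    ∀ K ε : ℝ, 0 < ε → ∃ P : ℝ, 0 < P ∧ ∀ y : Space, P ≤ |y 2| → ∀ x : Space, ‖x‖ ≤ K →
      |orbH n θ (y + x) - SignType.sign (y 2) * (√(n y) * Real.exp (-(k * ⟪‖y‖⁻¹ • y, x⟫_ℝ)))| ≤ ε * √(n y) := by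
  intro K ε hε
  set M : ℝ := Real.exp (k * K) + 1 with hM
  have hM0 : 0 < M := by positivity
  set s : ℝ := min (ε / 2) 1 with hs
  have hs0 : 0 < s := lt_min (by positivity) one_pos
  have hs1 : s ≤ 1 := min_le_right _ _
  have hs2 : s ≤ ε / 2 := min_le_left _ _
  obtain ⟨P₁, hP₁⟩ := H.hbulk K (s ^ 2) (by positivity)
  obtain ⟨R, hR⟩ := ob_g_le_far H hd (ε := ε / (2 * M)) (by positivity)
  refine ⟨max (max P₁ 1) (max (|z₂| + |K| + 1) (R + |K|)), by positivity, fun y hPy x hx => ?_⟩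
  have hy1 : P₁ ≤ |y 2| := ((le_max_left _ _).trans (le_max_left _ _)).trans hPy
  have hy3 : |z₂| + |K| + 1 ≤ |y 2| := ((le_max_left _ _).trans (le_max_right _ _)).trans hPy
  have hy4 : R + |K| ≤ |y 2| := ((le_max_right _ _).trans (le_max_right _ _)).trans hPy
  have hK0 : 0 ≤ K := (norm_nonneg x).trans hx
  rw [abs_of_nonneg hK0] at hy3 hy4
  have hxz : |x 2| ≤ K := (ob_abs_coord_le x 2).trans hx
  have hz : (y + x) 2 = y 2 + x 2 := by simp
  have hny := H.sqrt_pos y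
  set t := ⟪‖y‖⁻¹ • y, x⟫_ℝ with ht
  -- `√n(y+x) ≈ √n(y) e^{-kt}`
  have h1 : |√(n (y + x)) - √(n y) * Real.exp (-(k * t))| ≤ √(n y) * s := by
    have h2 := (hP₁ y hy1 x hx).1
    have e1 : √(n (y + x) / n y) = √(n (y + x)) / √(n y) := Real.sqrt_div' _ (H.hn.pos y).le
    have e2 : √(Real.exp (-(2 * k * t))) = Real.exp (-(k * t)) := by
      have : Real.exp (-(2 * k * t)) = Real.exp (-(k * t)) ^ 2 := by
        rw [← Real.exp_nat_mul]; congr 1; push_cast; ring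
      rw [this, Real.sqrt_sq (Real.exp_pos _).le]
    have h3 := ob_abs_sqrt_sub_le (A := n (y + x) / n y) (B := Real.exp (-(2 * k * t)))
      (div_nonneg (H.hn.pos _).le (H.hn.pos _).le) (Real.exp_pos _).le
    rw [e1, e2] at h3
    have h4 := h3.trans (Real.sqrt_le_sqrt h2)
    rw [Real.sqrt_sq hs0.le] at h4
    have e3 : √(n (y + x)) - √(n y) * Real.exp (-(k * t))
        = √(n y) * (√(n (y + x)) / √(n y) - Real.exp (-(k * t))) := by
      field_simp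
    rw [e3, abs_mul, abs_of_pos hny]
    exact mul_le_mul_of_nonneg_left h4 hny.le
  have h5 : √(n (y + x)) ≤ √(n y) * M := by
    have := (abs_le.1 h1).2
    have h6 := ob_exp_neg_inner_le H.hk.le y hx
    rw [hM]
    nlinarith
  -- `g` is small
  have hzabs : |y 2| - K ≤ |(y + x) 2| := by
    rw [hz]
    have := abs_sub_abs_le_abs_sub (y 2) (-(x 2))
    rw [abs_neg, sub_neg_eq_add] at this
    linarith
  have h7 : orbG n θ (y + x) ≤ ε / (2 * M) * √(n (y + x)) := by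
    refine hR (y + x) ?_ ?_
    · have := le_abs_self z₂
      linarith
    · have := ob_abs_coord_le (y + x) 2
      linarith
  have h8 : orbG n θ (y + x) ≤ ε / 2 * √(n y) := by
    refine h7.trans ?_
    calc ε / (2 * M) * √(n (y + x)) ≤ ε / (2 * M) * (√(n y) * M) :=
          mul_le_mul_of_nonneg_left h5 (by positivity)
      _ = ε / 2 * √(n y) := by field_simp
  have h9 := ob_h_sub_le H (y + x) (S := SignType.sign (y 2) * (√(n y) * Real.exp (-(k * t))))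
    (T := √(n y) * Real.exp (-(k * t))) (by
      rw [hz]
      have hx2 := abs_le.1 hxz
      have hz2 := abs_nonneg z₂
      rcases lt_or_ge 0 (y 2) with h0 | h0
      · left
        rw [abs_of_pos h0] at hy3
        refine ⟨by rw [sign_pos h0]; simp, by linarith⟩
      · right
        rw [abs_of_nonpos h0] at hy3
        have h0' : y 2 < 0 := by linarith
        refine ⟨by rw [sign_neg h0']; simp, by linarith⟩)
  have : √(n y) * s ≤ ε / 2 * √(n y) := by nlinarith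
  linarith

/-! ### Calculus of `e^{κ w·u}` -/

theorem ob_inner_contDiff (w : Space) : ContDiff ℝ ∞ (fun u : Space => ⟪w, u⟫_ℝ) :=
  contDiff_const.inner ℝ contDiff_id

theorem ob_inner_gradient (w u : Space) : gradient (fun u : Space => ⟪w, u⟫_ℝ) u = w :=
  ob_gradient_of_hasFDerivAt (ob_inner_hasFDerivAt w u)

theorem ob_inner_laplacian (w u : Space) : Δ (fun u : Space => ⟪w, u⟫_ℝ) u = 0 := by
  rw [← ob_wsDiv_gradient ((ob_inner_contDiff w).contDiffAt.of_le reg_two_le_infty)]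
  have : gradient (fun u : Space => ⟪w, u⟫_ℝ) = fun _ => w := funext (ob_inner_gradient w)
  rw [this, ob_wsDiv_const]

theorem ob_expk_contDiff (κ : ℝ) (w : Space) : ContDiff ℝ ∞ (fun u : Space => Real.exp (κ * ⟪w, u⟫_ℝ)) :=
  (contDiff_const.mul (ob_inner_contDiff w)).exp

theorem ob_expk_gradient (κ : ℝ) (w u : Space) :
    gradient (fun u : Space => Real.exp (κ * ⟪w, u⟫_ℝ)) u = (κ * Real.exp (κ * ⟪w, u⟫_ℝ)) • w := by
  refine ob_gradient_of_hasFDerivAt ?_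
  have h := ((ob_inner_hasFDerivAt w u).const_mul κ).exp
  refine HasFDerivAt.congr_fderiv h ?_
  ext v
  simp
  ring

theorem ob_expk_laplacian (κ : ℝ) (w u : Space) :
    Δ (fun u : Space => Real.exp (κ * ⟪w, u⟫_ℝ)) u = κ ^ 2 * ‖w‖ ^ 2 * Real.exp (κ * ⟪w, u⟫_ℝ) := by
  have hΘ : ContDiff ℝ ∞ (fun t : ℝ => Real.exp (κ * t)) := (contDiff_const.mul contDiff_id).exp
  have d1 : deriv (fun t : ℝ => Real.exp (κ * t)) = fun t => κ * Real.exp (κ * t) := by
    funext t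
    have := (((hasDerivAt_id t).const_mul κ).exp).deriv
    simp only [id, mul_one] at this
    rw [this]; ring
  have d2 : ∀ t, deriv (fun t : ℝ => κ * Real.exp (κ * t)) t = κ ^ 2 * Real.exp (κ * t) := by
    intro t
    have := ((((hasDerivAt_id t).const_mul κ).exp).const_mul κ).deriv
    simp only [id, mul_one] at this
    rw [this]; ring
  have h := opc_laplacian_comp (x := u) (Θ := fun t : ℝ => Real.exp (κ * t)) (f := fun u : Space => ⟪w, u⟫_ℝ)
    (hΘ.contDiffAt.of_le reg_two_le_infty) ((ob_inner_contDiff w).contDiffAt.of_le reg_two_le_infty)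
  rw [h, ob_inner_laplacian, ob_inner_gradient, d1, d2]
  ring

theorem ob_gradient_tr_sub (f : Space → ℝ) (a x : Space) :
    gradient (fun y => f (y - a)) x = gradient f (x - a) := by
  simp only [gradient, fderiv_comp_sub]

theorem ob_laplacian_zero_off {φ : Space → ℝ} {K : ℝ} (h : ∀ u, K < ‖u‖ → φ u = 0) {u : Space}
    (hu : K < ‖u‖) : Δ φ u = 0 := by
  have hopen : IsOpen {u : Space | K < ‖u‖} := isOpen_lt continuous_const continuous_norm
  have : φ =ᶠ[𝓝 u] fun _ => (0 : ℝ) := Filter.eventually_of_mem (hopen.mem_nhds hu) h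
  rw [(InnerProductSpace.laplacian_congr_nhds this).eq_of_nhds]
  exact ob_laplacian_const 0 u

theorem ob_hcs_of_zero_off {φ : Space → ℝ} {K : ℝ} (h : ∀ u, K < ‖u‖ → φ u = 0) : HasCompactSupport φ :=
  HasCompactSupport.intro (isCompact_closedBall (0 : Space) K) fun u hu => h u (by simpa using hu)

theorem ob_exp_inner_le {k K : ℝ} (hk : 0 ≤ k) {w u : Space} (hw : ‖w‖ ≤ 1) (hu : ‖u‖ ≤ K) :
    Real.exp (k * ⟪w, u⟫_ℝ) ≤ Real.exp (k * K) := by
  refine Real.exp_le_exp.2 (mul_le_mul_of_nonneg_left ?_ hk)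
  refine (le_abs_self _).trans ((abs_real_inner_le_norm _ _).trans ?_)
  nlinarith [norm_nonneg w, norm_nonneg u]

/-- bounds of the test function `φ = ρ e^{kw·u}`. -/
theorem ob_phi_bounds {ρ : Space → ℝ} (hρ : ContDiff ℝ 2 ρ) {Mρ Mg MΔ K k : ℝ} (hk : 0 ≤ k) {w : Space}
    (hw : ‖w‖ ≤ 1) (h0 : ∀ u, K < ‖u‖ → ρ u = 0) (b1 : ∀ u, |ρ u| ≤ Mρ) (b2 : ∀ u, ‖gradient ρ u‖ ≤ Mg)
    (b3 : ∀ u, |Δ ρ u| ≤ MΔ) :
    (∀ u, |ρ u * Real.exp (k * ⟪w, u⟫_ℝ)| ≤ Mρ * Real.exp (k * K)) ∧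
    ∀ u, |Δ (fun u => ρ u * Real.exp (k * ⟪w, u⟫_ℝ)) u| ≤ Real.exp (k * K) * (Mρ * k ^ 2 + 2 * Mg * k + MΔ) := by
  have hMρ : 0 ≤ Mρ := (abs_nonneg _).trans (b1 0)
  have hMg : 0 ≤ Mg := (norm_nonneg _).trans (b2 0)
  have hMΔ : 0 ≤ MΔ := (abs_nonneg _).trans (b3 0)
  have hφ0 : ∀ u, K < ‖u‖ → ρ u * Real.exp (k * ⟪w, u⟫_ℝ) = 0 := fun u hu => by rw [h0 u hu, zero_mul]
  refine ⟨fun u => ?_, fun u => ?_⟩
  · rcases lt_or_ge K ‖u‖ with hu | hu
    · rw [hφ0 u hu, abs_zero]; positivity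
    · rw [abs_mul, abs_of_pos (Real.exp_pos _)]
      exact mul_le_mul (b1 u) (ob_exp_inner_le hk hw hu) (Real.exp_pos _).le hMρ
  · rcases lt_or_ge K ‖u‖ with hu | hu
    · rw [ob_laplacian_zero_off hφ0 hu, abs_zero]; positivity
    · rw [reg_laplacian_mul hρ.contDiffAt ((ob_expk_contDiff k w).contDiffAt.of_le reg_two_le_infty),
        ob_expk_laplacian, ob_expk_gradient, inner_smul_right]
      set e := Real.exp (k * ⟪w, u⟫_ℝ) with he
      have he0 : 0 < e := Real.exp_pos _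
      have he1 : e ≤ Real.exp (k * K) := ob_exp_inner_le hk hw hu
      have e1 : ρ u * (k ^ 2 * ‖w‖ ^ 2 * e) + 2 * (k * e * ⟪gradient ρ u, w⟫_ℝ) + e * Δ ρ u
          = e * (ρ u * (k ^ 2 * ‖w‖ ^ 2) + 2 * (k * ⟪gradient ρ u, w⟫_ℝ) + Δ ρ u) := by ring
      rw [e1, abs_mul, abs_of_pos he0]
      have t1 : |ρ u * (k ^ 2 * ‖w‖ ^ 2)| ≤ Mρ * k ^ 2 := by
        rw [abs_mul, abs_of_nonneg (by positivity : 0 ≤ k ^ 2 * ‖w‖ ^ 2)]
        have : ‖w‖ ^ 2 ≤ 1 := by nlinarith [norm_nonneg w]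
        have h2 : k ^ 2 * ‖w‖ ^ 2 ≤ k ^ 2 := by nlinarith [sq_nonneg k]
        exact mul_le_mul (b1 u) h2 (by positivity) hMρ
      have t2 : |2 * (k * ⟪gradient ρ u, w⟫_ℝ)| ≤ 2 * Mg * k := by
        rw [abs_mul, abs_mul, abs_two, abs_of_nonneg hk]
        have : |⟪gradient ρ u, w⟫_ℝ| ≤ Mg := by
          refine (abs_real_inner_le_norm _ _).trans ?_
          have := b2 u
          nlinarith [norm_nonneg w, norm_nonneg (gradient ρ u)]
        nlinarith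
      have t3 := b3 u
      have t4 : |ρ u * (k ^ 2 * ‖w‖ ^ 2) + 2 * (k * ⟪gradient ρ u, w⟫_ℝ) + Δ ρ u|
          ≤ Mρ * k ^ 2 + 2 * Mg * k + MΔ :=
        (abs_add_le _ _).trans (add_le_add ((abs_add_le _ _).trans (add_le_add t1 t2)) t3)
      exact mul_le_mul he1 t4 (abs_nonneg _) (Real.exp_pos _).le

/-- `Δ(a u_z e^{-kw·u}) = k² a u_z e^{-kw·u}` for a horizontal unit vector `w`. -/
theorem ob_profile_plane_laplacian (a k : ℝ) {w : Space} (hw : ‖w‖ = 1) (hz : w 2 = 0) (u : Space) :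
    Δ (fun u : Space => a * u 2 * Real.exp (-(k * ⟪w, u⟫_ℝ))) u
      = k ^ 2 * (a * u 2 * Real.exp (-(k * ⟪w, u⟫_ℝ))) := by
  have e0 : (fun u : Space => a * u 2 * Real.exp (-(k * ⟪w, u⟫_ℝ)))
      = fun u : Space => (a * u 2) * Real.exp ((-k) * ⟪w, u⟫_ℝ) := by
    funext u; rw [neg_mul]
  have hp : ContDiff ℝ ∞ (fun u : Space => a * u 2) := contDiff_const.mul ob_coord_contDiff
  have g1 : gradient (fun u : Space => a * u 2) u = a • ez := by
    rw [ob_gradient_const_mul a (ob_coord_contDiff.differentiable (by simp) u), ob_coord_gradient]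
  have l1 : Δ (fun u : Space => a * u 2) u = 0 := by
    have h := reg_laplacian_mul (x := u) (a := fun _ : Space => a) (b := fun u : Space => u 2) contDiffAt_const
      (ob_coord_contDiff.contDiffAt.of_le reg_two_le_infty)
    rw [h, ob_coord_laplacian, ob_laplacian_const]
    have : gradient (fun _ : Space => a) u = 0 := by simp [gradient]
    rw [this]; simp
  rw [e0, reg_laplacian_mul (hp.contDiffAt.of_le reg_two_le_infty)
    ((ob_expk_contDiff (-k) w).contDiffAt.of_le reg_two_le_infty), ob_expk_laplacian, ob_expk_gradient, g1, l1,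
    hw, inner_smul_left, inner_smul_right, ← ob_coord_eq_inner, hz]
  simp
  ring

theorem ob_profile_bulk_laplacian (k : ℝ) {w : Space} (hw : ‖w‖ = 1) (u : Space) :
    Δ (fun u : Space => Real.exp (-(k * ⟪w, u⟫_ℝ))) u = k ^ 2 * Real.exp (-(k * ⟪w, u⟫_ℝ)) := by
  have e0 : (fun u : Space => Real.exp (-(k * ⟪w, u⟫_ℝ))) = fun u : Space => Real.exp ((-k) * ⟪w, u⟫_ℝ) := by
    funext u; rw [neg_mul]
  rw [e0, ob_expk_laplacian, hw, neg_mul]
  ring

/-! ### The tested equation against a profile -/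

theorem ob_int_loc_mul {W ψ : Space → ℝ} (hW : LocallyIntegrable W volume) (hψ : Continuous ψ)
    (hc : HasCompactSupport ψ) : Integrable (fun u => W u * ψ u) volume := by
  have := hW.integrable_smul_right_of_hasCompactSupport hψ hc
  simpa only [smul_eq_mul] using this

/-- `c₀ ∫ (V - c∞) P φ = ½ ∫ (h - c₀ P) Δφ - ∫ (V - d)(h - c₀ P) φ` if `ΔP = k² P`. -/
theorem ob_test_identity (H : OBHyp n θ k β d V₁ V₂) {P φ : Space → ℝ} (hP : ContDiff ℝ 2 P)
    (hΔ : ∀ u, Δ P u = k ^ 2 * P u) (hφ : ContDiff ℝ 2 φ) (hc : HasCompactSupport φ) (y : Space) (c₀ : ℝ) :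
    c₀ * ∫ u, (formalV n θ d (y + u) - obCinf k d) * (P u * φ u)
      = (1 / 2) * (∫ u, (orbH n θ (y + u) - c₀ * P u) * Δ φ u)
        - ∫ u, (formalV n θ d (y + u) - d) * (orbH n θ (y + u) - c₀ * P u) * φ u := by
  have h1 := H.h_test_tr hφ hc y
  have h2 := ob_green hP hφ hc
  simp only [hΔ] at h2
  have hV' : LocallyIntegrable (fun u => formalV n θ d (y + u)) volume :=
    ob_locallyIntegrable_tr H.V_locallyIntegrable y
  have hh' : Continuous fun u => orbH n θ (y + u) := ob_continuous_tr H.ho.h_cont y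
  have hΔc : Continuous (Δ φ) := ob_laplacian_continuous hφ
  have hΔs : HasCompactSupport (Δ φ) := ob_laplacian_hcs hc
  have hPc : Continuous P := hP.continuous
  have s1 : HasCompactSupport fun u => orbH n θ (y + u) * φ u := hc.mul_left
  have s2 : HasCompactSupport fun u => P u * φ u := hc.mul_left
  have i1 : Integrable (fun u => orbH n θ (y + u) * Δ φ u) volume :=
    (hh'.mul hΔc).integrable_of_hasCompactSupport hΔs.mul_left
  have i2 : Integrable (fun u => P u * Δ φ u) volume :=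
    (hPc.mul hΔc).integrable_of_hasCompactSupport hΔs.mul_left
  have i3 : Integrable (fun u => formalV n θ d (y + u) * (orbH n θ (y + u) * φ u)) volume :=
    ob_int_loc_mul hV' (hh'.mul hφ.continuous) s1
  have i4 : Integrable (fun u => formalV n θ d (y + u) * (P u * φ u)) volume :=
    ob_int_loc_mul hV' (hPc.mul hφ.continuous) s2
  have i5 : Integrable (fun u => orbH n θ (y + u) * φ u) volume :=
    (hh'.mul hφ.continuous).integrable_of_hasCompactSupport s1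
  have i6 : Integrable (fun u => P u * φ u) volume :=
    (hPc.mul hφ.continuous).integrable_of_hasCompactSupport s2
  have a1 : ∫ u, (formalV n θ d (y + u) - obCinf k d) * (P u * φ u)
      = (∫ u, formalV n θ d (y + u) * (P u * φ u)) - obCinf k d * ∫ u, P u * φ u := by
    rw [← integral_const_mul, ← integral_sub i4 (i6.const_mul _)]
    refine integral_congr_ae (Eventually.of_forall fun u => ?_)
    simp only; ring
  have a2 : ∫ u, (orbH n θ (y + u) - c₀ * P u) * Δ φ u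
      = (∫ u, orbH n θ (y + u) * Δ φ u) - c₀ * ∫ u, P u * Δ φ u := by
    rw [← integral_const_mul, ← integral_sub i1 (i2.const_mul _)]
    refine integral_congr_ae (Eventually.of_forall fun u => ?_)
    simp only; ring
  have a3 : ∫ u, (formalV n θ d (y + u) - d) * (orbH n θ (y + u) - c₀ * P u) * φ u
      = ((∫ u, formalV n θ d (y + u) * (orbH n θ (y + u) * φ u)) - d * ∫ u, orbH n θ (y + u) * φ u)
        - c₀ * ((∫ u, formalV n θ d (y + u) * (P u * φ u)) - d * ∫ u, P u * φ u) := by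
    have j1 : Integrable (fun a => formalV n θ d (y + a) * (orbH n θ (y + a) * φ a)
        - d * (orbH n θ (y + a) * φ a)) volume := i3.sub (i5.const_mul _)
    have j2 : Integrable (fun a => c₀ * (formalV n θ d (y + a) * (P a * φ a) - d * (P a * φ a))) volume :=
      (i4.sub (i6.const_mul _)).const_mul _
    rw [← integral_const_mul, ← integral_const_mul, ← integral_sub i3 (i5.const_mul _),
      ← integral_sub i4 (i6.const_mul _), ← integral_const_mul, ← integral_sub j1 j2]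
    refine integral_congr_ae (Eventually.of_forall fun u => ?_)
    simp only; ring
  have a4 : ∫ u, (formalV n θ d (y + u) - d) * orbH n θ (y + u) * φ u
      = (∫ u, formalV n θ d (y + u) * (orbH n θ (y + u) * φ u)) - d * ∫ u, orbH n θ (y + u) * φ u := by
    rw [← integral_const_mul, ← integral_sub i3 (i5.const_mul _)]
    refine integral_congr_ae (Eventually.of_forall fun u => ?_)
    simp only; ring
  have a5 : ∫ u, k ^ 2 * P u * φ u = k ^ 2 * ∫ u, P u * φ u := by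
    rw [← integral_const_mul]
    refine integral_congr_ae (Eventually.of_forall fun u => ?_)
    simp only; ring
  rw [a4] at h1
  rw [a5] at h2
  rw [a1, a2, a3]
  unfold obCinf
  linear_combination h1 + (1 / 2) * c₀ * h2

theorem ob_V1_estimate (H : OBHyp n θ k β d V₁ V₂) {q : Space → ℝ} {K Mq J : ℝ}
    (h0 : ∀ u, K < ‖u‖ → q u = 0) (hMq : ∀ u, |q u| ≤ Mq) (y : Space)
    (hJ : ∫ u in Metric.closedBall (0 : Space) K, |V₁ (y + u)| ≤ J) :
    |∫ u, V₁ (y + u) * q u| ≤ Mq * J := by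
  have hMq0 : 0 ≤ Mq := (abs_nonneg _).trans (hMq 0)
  have hV : LocallyIntegrable (fun u => V₁ (y + u)) volume := ob_locallyIntegrable_tr H.V1_locallyIntegrable y
  have iV : IntegrableOn (fun u => |V₁ (y + u)|) (Metric.closedBall (0 : Space) K) volume :=
    (hV.integrableOn_isCompact (isCompact_closedBall _ _)).abs
  have e1 : ∫ u, V₁ (y + u) * q u = ∫ u in Metric.closedBall (0 : Space) K, V₁ (y + u) * q u :=
    (setIntegral_eq_integral_of_forall_compl_eq_zero fun u hu => by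
      rw [h0 u (by simpa using hu), mul_zero]).symm
  rw [e1, ← Real.norm_eq_abs]
  refine (norm_integral_le_of_norm_le (iV.const_mul Mq) (Eventually.of_forall fun u => ?_)).trans ?_
  · rw [Real.norm_eq_abs, abs_mul, mul_comm]
    exact mul_le_mul_of_nonneg_right (hMq u) (abs_nonneg _)
  · rw [integral_const_mul]
    exact mul_le_mul_of_nonneg_left hJ hMq0

theorem ob_test_estimate (H : OBHyp n θ k β d V₁ V₂) {K₂ : ℝ} (hK₂0 : 0 ≤ K₂) (hK₂ : ∀ᵐ x, |V₂ x| ≤ K₂)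
    {E φ : Space → ℝ} (hE : Continuous E) {K M₀ M₂ B I J : ℝ}
    (h0 : ∀ u, K < ‖u‖ → φ u = 0) (hM₀ : ∀ u, |φ u| ≤ M₀) (hM₂ : ∀ u, |Δ φ u| ≤ M₂) (y : Space)
    (hB0 : 0 ≤ B) (hB : ∀ u, ‖u‖ ≤ K → |E u| ≤ B)
    (hI : ∫ u in Metric.closedBall (0 : Space) K, |E u| ≤ I)
    (hJ : ∫ u in Metric.closedBall (0 : Space) K, |V₁ (y + u)| ≤ J) :
    |(1 / 2) * (∫ u, E u * Δ φ u) - ∫ u, (formalV n θ d (y + u) - d) * E u * φ u|
      ≤ 1 / 2 * M₂ * I + M₀ * (B * J + (K₂ + d) * I) := by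
  have hM₀0 : 0 ≤ M₀ := (abs_nonneg _).trans (hM₀ 0)
  have hM₂0 : 0 ≤ M₂ := (abs_nonneg _).trans (hM₂ 0)
  have hd := H.hdpos
  have hS : MeasurableSet (Metric.closedBall (0 : Space) K) := Metric.isClosed_closedBall.measurableSet
  have hV : LocallyIntegrable (fun u => V₁ (y + u)) volume := ob_locallyIntegrable_tr H.V1_locallyIntegrable y
  have iV : IntegrableOn (fun u => |V₁ (y + u)|) (Metric.closedBall (0 : Space) K) volume :=
    (hV.integrableOn_isCompact (isCompact_closedBall _ _)).abs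
  have iE : IntegrableOn (fun u => |E u|) (Metric.closedBall (0 : Space) K) volume :=
    hE.abs.continuousOn.integrableOn_compact (isCompact_closedBall _ _)
  -- first term
  have t1 : |∫ u, E u * Δ φ u| ≤ M₂ * I := by
    have e1 : ∫ u, E u * Δ φ u = ∫ u in Metric.closedBall (0 : Space) K, E u * Δ φ u :=
      (setIntegral_eq_integral_of_forall_compl_eq_zero fun u hu => by
        rw [ob_laplacian_zero_off h0 (by simpa using hu), mul_zero]).symm
    rw [e1, ← Real.norm_eq_abs]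
    refine (norm_integral_le_of_norm_le (iE.const_mul M₂) (Eventually.of_forall fun u => ?_)).trans ?_
    · rw [Real.norm_eq_abs, abs_mul, mul_comm]
      exact mul_le_mul_of_nonneg_right (hM₂ u) (abs_nonneg _)
    · rw [integral_const_mul]
      exact mul_le_mul_of_nonneg_left hI hM₂0
  -- second term
  have t2 : |∫ u, (formalV n θ d (y + u) - d) * E u * φ u| ≤ M₀ * (B * J + (K₂ + d) * I) := by
    have e1 : ∫ u, (formalV n θ d (y + u) - d) * E u * φ u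
        = ∫ u in Metric.closedBall (0 : Space) K, (formalV n θ d (y + u) - d) * E u * φ u :=
      (setIntegral_eq_integral_of_forall_compl_eq_zero fun u hu => by
        rw [h0 u (by simpa using hu), mul_zero]).symm
    have ig : IntegrableOn (fun u => M₀ * (B * |V₁ (y + u)| + (K₂ + d) * |E u|))
        (Metric.closedBall (0 : Space) K) volume :=
      ((iV.const_mul B).add (iE.const_mul (K₂ + d))).const_mul M₀
    rw [e1, ← Real.norm_eq_abs]
    refine (norm_integral_le_of_norm_le ig ?_).trans ?_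
    · refine (ae_restrict_iff' hS).2 ((ob_ae_tr hK₂ y).mono fun u hu hmem => ?_)
      have huK : ‖u‖ ≤ K := by simpa using hmem
      rw [Real.norm_eq_abs, abs_mul, abs_mul, H.V_apply]
      have h1 : |V₁ (y + u) + V₂ (y + u) - d| ≤ |V₁ (y + u)| + K₂ + d := by
        have e : V₁ (y + u) + V₂ (y + u) - d = V₁ (y + u) + V₂ (y + u) + -d := by ring
        rw [e]
        refine (abs_add_le _ _).trans (add_le_add ((abs_add_le _ _).trans (add_le_add le_rfl hu)) ?_)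
        rw [abs_neg, abs_of_pos hd]
      have h2 := hB u huK
      have h3 := hM₀ u
      have h4 : |V₁ (y + u) + V₂ (y + u) - d| * |E u| ≤ B * |V₁ (y + u)| + (K₂ + d) * |E u| := by
        calc |V₁ (y + u) + V₂ (y + u) - d| * |E u| ≤ (|V₁ (y + u)| + K₂ + d) * |E u| :=
              mul_le_mul_of_nonneg_right h1 (abs_nonneg _)
          _ = |V₁ (y + u)| * |E u| + (K₂ + d) * |E u| := by ring
          _ ≤ |V₁ (y + u)| * B + (K₂ + d) * |E u| :=
              add_le_add (mul_le_mul_of_nonneg_left h2 (abs_nonneg _)) le_rfl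
          _ = B * |V₁ (y + u)| + (K₂ + d) * |E u| := by ring
      calc |V₁ (y + u) + V₂ (y + u) - d| * |E u| * |φ u|
          ≤ (B * |V₁ (y + u)| + (K₂ + d) * |E u|) * M₀ :=
            mul_le_mul h4 h3 (abs_nonneg _) (by positivity)
        _ = M₀ * (B * |V₁ (y + u)| + (K₂ + d) * |E u|) := by ring
    · rw [integral_const_mul, integral_add (iV.const_mul B) (iE.const_mul (K₂ + d)), integral_const_mul,
        integral_const_mul]
      refine mul_le_mul_of_nonneg_left ?_ hM₀0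
      exact add_le_add (mul_le_mul_of_nonneg_left hJ hB0) (mul_le_mul_of_nonneg_left hI (by positivity))
  have e : (1 / 2) * (∫ u, E u * Δ φ u) - ∫ u, (formalV n θ d (y + u) - d) * E u * φ u
      = (1 / 2) * (∫ u, E u * Δ φ u) + -(∫ u, (formalV n θ d (y + u) - d) * E u * φ u) := by ring
  rw [e]
  refine (abs_add_le _ _).trans (add_le_add ?_ ?_)
  · rw [abs_mul, abs_of_pos (by norm_num : (0 : ℝ) < 1 / 2)]
    nlinarith
  · rw [abs_neg]; exact t2

/-- the core of S9. -/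
theorem ob_V2_core (H : OBHyp n θ k β d V₁ V₂) {K₂ : ℝ} (hK₂0 : 0 ≤ K₂) (hK₂ : ∀ᵐ x, |V₂ x| ≤ K₂)
    {P φ : Space → ℝ} (hP : ContDiff ℝ 2 P) (hΔ : ∀ u, Δ P u = k ^ 2 * P u) (hφ : ContDiff ℝ 2 φ)
    {K M₀ M₂ Mq B I J : ℝ} (h0 : ∀ u, K < ‖u‖ → φ u = 0) (hM₀ : ∀ u, |φ u| ≤ M₀)
    (hM₂ : ∀ u, |Δ φ u| ≤ M₂) (hMq : ∀ u, |P u * φ u| ≤ Mq) (y : Space) (c₀ : ℝ) (hB0 : 0 ≤ B)
    (hB : ∀ u, ‖u‖ ≤ K → |orbH n θ (y + u) - c₀ * P u| ≤ B)
    (hI : ∫ u in Metric.closedBall (0 : Space) K, |orbH n θ (y + u) - c₀ * P u| ≤ I)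
    (hJ : ∫ u in Metric.closedBall (0 : Space) K, |V₁ (y + u)| ≤ J) :
    |c₀| * |∫ u, (V₂ (y + u) - obCinf k d) * (P u * φ u)|
      ≤ 1 / 2 * M₂ * I + M₀ * (B * J + (K₂ + d) * I) + |c₀| * (Mq * J) := by
  have hc : HasCompactSupport φ := ob_hcs_of_zero_off h0
  have hq0 : ∀ u, K < ‖u‖ → P u * φ u = 0 := fun u hu => by rw [h0 u hu, mul_zero]
  have hqc : Continuous fun u => P u * φ u := hP.continuous.mul hφ.continuous
  have hqs : HasCompactSupport fun u => P u * φ u := ob_hcs_of_zero_off hq0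
  have id1 := ob_test_identity H hP hΔ hφ hc y c₀
  have est := ob_test_estimate H hK₂0 hK₂
    (E := fun u => orbH n θ (y + u) - c₀ * P u) (φ := φ)
    ((ob_continuous_tr H.ho.h_cont y).sub (continuous_const.mul hP.continuous)) h0 hM₀ hM₂ y hB0 hB hI hJ
  have v1 := ob_V1_estimate H hq0 hMq y hJ
  have hV' : LocallyIntegrable (fun u => formalV n θ d (y + u)) volume :=
    ob_locallyIntegrable_tr H.V_locallyIntegrable y
  have hV1' : LocallyIntegrable (fun u => V₁ (y + u)) volume := ob_locallyIntegrable_tr H.V1_locallyIntegrable y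
  have i1 : Integrable (fun u => (formalV n θ d (y + u) - obCinf k d) * (P u * φ u)) volume := by
    have := (ob_int_loc_mul hV' hqc hqs).sub ((hqc.integrable_of_hasCompactSupport hqs).const_mul (obCinf k d))
    refine this.congr (Eventually.of_forall fun u => ?_)
    simp only [Pi.sub_apply]; ring
  have i2 : Integrable (fun u => V₁ (y + u) * (P u * φ u)) volume := ob_int_loc_mul hV1' hqc hqs
  have split : ∫ u, (V₂ (y + u) - obCinf k d) * (P u * φ u)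
      = (∫ u, (formalV n θ d (y + u) - obCinf k d) * (P u * φ u)) - ∫ u, V₁ (y + u) * (P u * φ u) := by
    rw [← integral_sub i1 i2]
    refine integral_congr_ae (Eventually.of_forall fun u => ?_)
    simp only [H.V_apply]; ring
  rw [← abs_mul, split, mul_sub, id1]
  have e : ∀ A B' : ℝ, |A - B'| ≤ |A| + |B'| := fun A B' => abs_sub _ _
  refine (e _ _).trans (add_le_add est ?_)
  rw [abs_mul]
  exact mul_le_mul_of_nonneg_left v1 (abs_nonneg _)

/-- uniform bounds of the mollifier `ρ_j`. -/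
theorem ob_wsRho_bounds (j : ℕ) : ∃ Mρ Mg MΔ : ℝ, (∀ u : Space, |wsRho j u| ≤ Mρ) ∧
    (∀ u : Space, ‖gradient (wsRho j : Space → ℝ) u‖ ≤ Mg) ∧ ∀ u : Space, |Δ (wsRho j : Space → ℝ) u| ≤ MΔ := by
  have hρ : ContDiff ℝ ∞ (wsRho j : Space → ℝ) := wsRho_contDiff j
  have hs := wsRho_hasCompactSupport (E := Space) j
  obtain ⟨Mρ, hMρ⟩ := hρ.continuous.bounded_above_of_compact_support hs
  obtain ⟨Mg, hMg⟩ := (ws_gradient_continuous (hρ.of_le (by simp))).bounded_above_of_compact_support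
    (ws_gradient_hasCompactSupport hs)
  obtain ⟨MΔ, hMΔ⟩ := (ob_laplacian_continuous (hρ.of_le reg_two_le_infty)).bounded_above_of_compact_support
    (ob_laplacian_hcs hs)
  exact ⟨Mρ, Mg, MΔ, hMρ, hMg, hMΔ⟩

theorem ob_small_mul {Λ t : ℝ} (hΛ : 0 ≤ Λ) (ht : 0 ≤ t) : Λ * (t / (2 * (Λ + 1))) ≤ t / 2 := by
  rw [mul_div_assoc', div_le_iff₀ (by positivity)]
  nlinarith

/-- **S9, plane regime.**  `y' = y - y_z e_z`, `w = y'/|y'|`, `φ(u) = ρ_j(u - y_z e_z) e^{k w·u}`, `P(u) = a u_z e^{-k w·u}`, `ΔP = k² P`: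
`c a ∫ (V - c∞) u_z ρ_j = ½ ∫ (h - cP) Δφ - ∫ (V-d)(h - cP) φ` (`ob_V2_core`). -/
theorem ob_V2_plane (H : OBHyp n θ k β d V₁ V₂) (hg : OBGPlane n θ k β) (j : ℕ) (Z₀ : ℝ) {η : ℝ} (hη : 0 < η) :
    ∃ R : ℝ, ∀ y : Space, |y 2| ≤ Z₀ → R ≤ ‖y‖ →
      |∫ x, (V₂ x - obCinf k d) * x 2 * wsRho j (x - y)| ≤ η := by
  obtain ⟨a, ha, hpl⟩ := ob_h_plane H hg
  obtain ⟨K₂, hK₂0, hK₂⟩ := ob_bound_Linf H.hV2
  obtain ⟨K, hKdef⟩ : ∃ K : ℝ, K = |Z₀| + 1 := ⟨_, rfl⟩
  have hK1 : 1 ≤ K := by rw [hKdef]; linarith [abs_nonneg Z₀]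
  obtain ⟨C, hC⟩ := hpl K
  have hk := H.hk
  have hd := H.hdpos
  obtain ⟨Mρ, Mg, MΔ, hMρ, hMg, hMΔ⟩ := ob_wsRho_bounds j
  have hMρ0 : 0 ≤ Mρ := (abs_nonneg _).trans (hMρ 0)
  have hMg0 : 0 ≤ Mg := (norm_nonneg _).trans (hMg 0)
  have hMΔ0 : 0 ≤ MΔ := (abs_nonneg _).trans (hMΔ 0)
  obtain ⟨M₀, hM₀def⟩ : ∃ M₀ : ℝ, M₀ = Mρ * Real.exp (k * K) := ⟨_, rfl⟩
  obtain ⟨M₂, hM₂def⟩ : ∃ M₂ : ℝ, M₂ = Real.exp (k * K) * (Mρ * k ^ 2 + 2 * Mg * k + MΔ) := ⟨_, rfl⟩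
  obtain ⟨Mq, hMqdef⟩ : ∃ Mq : ℝ, Mq = a * K * Mρ := ⟨_, rfl⟩
  have hM₀0 : 0 ≤ M₀ := by rw [hM₀def]; positivity
  have hM₂0 : 0 ≤ M₂ := by rw [hM₂def]; positivity
  have hMq0 : 0 ≤ Mq := by rw [hMqdef]; positivity
  obtain ⟨Λ₁, hΛ₁def⟩ : ∃ Λ₁ : ℝ, Λ₁ = 1 / 2 * M₂ + M₀ * (K₂ + d) := ⟨_, rfl⟩
  obtain ⟨Λ₂, hΛ₂def⟩ : ∃ Λ₂ : ℝ, Λ₂ = M₀ * |C| + Mq := ⟨_, rfl⟩
  have hΛ₁0 : 0 ≤ Λ₁ := by rw [hΛ₁def]; positivity
  have hΛ₂0 : 0 ≤ Λ₂ := by rw [hΛ₂def]; positivity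
  obtain ⟨P, hP0, hP⟩ := hC (a * η / (2 * (Λ₁ + 1))) (by positivity)
  obtain ⟨R₂, hR₂⟩ := ob_tail_L32 H.hV1 K (ε := a * η / (2 * (Λ₂ + 1))) (by positivity)
  refine ⟨max P R₂ + |Z₀|, fun y hyz hyR => ?_⟩
  obtain ⟨s, hsdef⟩ : ∃ s : ℝ, s = y 2 := ⟨_, rfl⟩
  obtain ⟨y', hy'def⟩ : ∃ y' : Space, y' = y - s • ez := ⟨_, rfl⟩
  have hsZ : |s| ≤ |Z₀| := by rw [hsdef]; exact hyz.trans (le_abs_self _)
  have hy'z : y' 2 = 0 := by
    rw [hy'def, hsdef]; simp [ez]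
  have hy'n : ‖y‖ - |Z₀| ≤ ‖y'‖ := by
    have h1 : ‖y‖ ≤ ‖y'‖ + ‖s • ez‖ := by
      have : y = y' + s • ez := by rw [hy'def]; abel
      calc ‖y‖ = ‖y' + s • ez‖ := by rw [← this]
        _ ≤ _ := norm_add_le _ _
    rw [norm_smul, ob_norm_ez, mul_one, Real.norm_eq_abs] at h1
    linarith
  have hP' : P ≤ ‖y'‖ := by linarith [le_max_left P R₂]
  have hR' : R₂ ≤ ‖y'‖ := by linarith [le_max_right P R₂]
  have hy'0 : 0 < ‖y'‖ := lt_of_lt_of_le hP0 hP'
  have hw1 : ‖‖y'‖⁻¹ • y'‖ = 1 := norm_smul_inv_norm (norm_pos_iff.1 hy'0)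
  have hwz : (‖y'‖⁻¹ • y') 2 = 0 := by simp [hy'z]
  have hc := obC_pos (k := k) (β := β) hy'0
  obtain ⟨hB, hI⟩ := hP y' hy'z hP'
  have hρ2 : ContDiff ℝ 2 (fun u : Space => wsRho j (u - s • ez)) :=
    ((wsRho_contDiff j).of_le reg_two_le_infty).comp (contDiff_id.sub contDiff_const)
  have hρ0 : ∀ u : Space, K < ‖u‖ → wsRho j (u - s • ez) = 0 := by
    intro u hu
    refine wsRho_eq_zero ?_
    have h1 : ‖u‖ - ‖s • ez‖ ≤ ‖u - s • ez‖ := norm_sub_norm_le _ _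
    rw [norm_smul, ob_norm_ez, mul_one, Real.norm_eq_abs] at h1
    have h2 : 1 / ((j : ℝ) + 1) ≤ 1 := by
      rw [div_le_one (by positivity)]
      linarith [(Nat.cast_nonneg j : (0 : ℝ) ≤ j)]
    linarith
  have b1 : ∀ u : Space, |wsRho j (u - s • ez)| ≤ Mρ := fun u => hMρ _
  have b2 : ∀ u : Space, ‖gradient (fun u : Space => wsRho j (u - s • ez)) u‖ ≤ Mg := fun u => by
    rw [ob_gradient_tr_sub]; exact hMg _
  have b3 : ∀ u : Space, |Δ (fun u : Space => wsRho j (u - s • ez)) u| ≤ MΔ := fun u => by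
    rw [ob_laplacian_comp_sub]; exact hMΔ _
  obtain ⟨hφ1, hφ2⟩ := ob_phi_bounds hρ2 hk.le hw1.le hρ0 b1 b2 b3
  rw [← hM₀def] at hφ1
  rw [← hM₂def] at hφ2
  have hφc : ContDiff ℝ 2 (fun u : Space => wsRho j (u - s • ez) * Real.exp (k * ⟪‖y'‖⁻¹ • y', u⟫_ℝ)) :=
    hρ2.mul ((ob_expk_contDiff k _).of_le reg_two_le_infty)
  have hφ0 : ∀ u : Space, K < ‖u‖ → wsRho j (u - s • ez) * Real.exp (k * ⟪‖y'‖⁻¹ • y', u⟫_ℝ) = 0 :=
    fun u hu => by rw [hρ0 u hu, zero_mul]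
  have hPc : ContDiff ℝ 2 (fun u : Space => a * u 2 * Real.exp (-(k * ⟪‖y'‖⁻¹ • y', u⟫_ℝ))) := by
    have h1 : ContDiff ℝ ∞ (fun u : Space => Real.exp (-(k * ⟪‖y'‖⁻¹ • y', u⟫_ℝ))) :=
      ((contDiff_const.mul (ob_inner_contDiff _)).neg).exp
    exact ((contDiff_const.mul ob_coord_contDiff).mul h1).of_le reg_two_le_infty
  have hPφ : ∀ u : Space, a * u 2 * Real.exp (-(k * ⟪‖y'‖⁻¹ • y', u⟫_ℝ))
      * (wsRho j (u - s • ez) * Real.exp (k * ⟪‖y'‖⁻¹ • y', u⟫_ℝ)) = a * (u 2 * wsRho j (u - s • ez)) := by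
    intro u
    have : Real.exp (-(k * ⟪‖y'‖⁻¹ • y', u⟫_ℝ)) * Real.exp (k * ⟪‖y'‖⁻¹ • y', u⟫_ℝ) = 1 := by
      rw [← Real.exp_add]; simp
    linear_combination (a * u 2 * wsRho j (u - s • ez)) * this
  have hMq : ∀ u : Space, |a * u 2 * Real.exp (-(k * ⟪‖y'‖⁻¹ • y', u⟫_ℝ))
      * (wsRho j (u - s • ez) * Real.exp (k * ⟪‖y'‖⁻¹ • y', u⟫_ℝ))| ≤ Mq := by
    intro u
    rw [hPφ]
    rcases lt_or_ge K ‖u‖ with hu | hu
    · rw [hρ0 u hu]; simpa using hMq0
    · rw [abs_mul, abs_mul, abs_of_pos ha, hMqdef, mul_assoc]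
      refine mul_le_mul_of_nonneg_left ?_ ha.le
      exact mul_le_mul ((ob_abs_coord_le u 2).trans hu) (b1 u) (abs_nonneg _) (by linarith)
  have hJ : ∫ u in Metric.closedBall (0 : Space) K, |V₁ (y' + u)| ≤ a * η / (2 * (Λ₂ + 1)) := by
    rw [ob_setIntegral_closedBall_tr (fun x => |V₁ x|)]
    exact hR₂ y' hR'
  have hB0 : 0 ≤ C * obC k β y' := (abs_nonneg _).trans (hB 0 (by simpa using by linarith))
  have core := ob_V2_core H hK₂0 hK₂ hPc (ob_profile_plane_laplacian a k hw1 hwz) hφc hφ0 hφ1 hφ2 hMq y'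
    (obC k β y') hB0 hB hI hJ
  simp only [hPφ] at core
  have tr : ∫ x, (V₂ x - obCinf k d) * x 2 * wsRho j (x - y)
      = ∫ u, (V₂ (y' + u) - obCinf k d) * (u 2 * wsRho j (u - s • ez)) := by
    rw [← ob_integral_tr _ y']
    refine integral_congr_ae (Eventually.of_forall fun u => ?_)
    have e1 : (y' + u) 2 = u 2 := by simp [hy'z]
    have e2 : y' + u - y = u - s • ez := by rw [hy'def]; abel
    simp only [e1, e2]
    ring
  have e3 : ∫ u, (V₂ (y' + u) - obCinf k d) * (a * (u 2 * wsRho j (u - s • ez)))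
      = a * ∫ u, (V₂ (y' + u) - obCinf k d) * (u 2 * wsRho j (u - s • ez)) := by
    rw [← integral_const_mul]
    refine integral_congr_ae (Eventually.of_forall fun u => ?_)
    simp only; ring
  rw [e3, ← tr, abs_of_pos hc, abs_mul, abs_of_pos ha] at core
  set T := |∫ x, (V₂ x - obCinf k d) * x 2 * wsRho j (x - y)| with hT
  set c := obC k β y' with hcdef
  set ε₁ := a * η / (2 * (Λ₁ + 1)) with hε₁
  set ε₂ := a * η / (2 * (Λ₂ + 1)) with hε₂
  have hε₁0 : 0 < ε₁ := by positivity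
  have hε₂0 : 0 < ε₂ := by positivity
  have s1 : Λ₁ * ε₁ ≤ a * η / 2 := ob_small_mul hΛ₁0 (by positivity)
  have s2 : Λ₂ * ε₂ ≤ a * η / 2 := ob_small_mul hΛ₂0 (by positivity)
  have hCle : M₀ * C * ε₂ ≤ M₀ * |C| * ε₂ := by
    have := le_abs_self C
    gcongr
  have fin : c * (a * T) ≤ c * (a * η) := by
    calc c * (a * T) ≤ 1 / 2 * M₂ * (ε₁ * c) + M₀ * (C * c * ε₂ + (K₂ + d) * (ε₁ * c)) + c * (Mq * ε₂) := core
      _ = c * ((1 / 2 * M₂ + M₀ * (K₂ + d)) * ε₁ + (M₀ * C * ε₂ + Mq * ε₂)) := by ring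
      _ ≤ c * (Λ₁ * ε₁ + Λ₂ * ε₂) := by
          refine mul_le_mul_of_nonneg_left ?_ hc.le
          rw [hΛ₁def, hΛ₂def]
          nlinarith
      _ ≤ c * (a * η) := by
          refine mul_le_mul_of_nonneg_left ?_ hc.le
          linarith
  have := le_of_mul_le_mul_left fin hc
  exact le_of_mul_le_mul_left this ha

/-- **S9, bulk regime.** -/
theorem ob_V2_bulk (H : OBHyp n θ k β d V₁ V₂) {z₂ : ℝ} (hd : OBDecay θ z₂) (j : ℕ) {η : ℝ} (hη : 0 < η) :
    ∃ Z₀ : ℝ, ∀ y : Space, Z₀ ≤ |y 2| → |∫ x, (V₂ x - obCinf k d) * wsRho j (x - y)| ≤ η := by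
  obtain ⟨K₂, hK₂0, hK₂⟩ := ob_bound_Linf H.hV2
  have hk := H.hk
  have hdp := H.hdpos
  obtain ⟨Mρ, Mg, MΔ, hMρ, hMg, hMΔ⟩ := ob_wsRho_bounds j
  have hMρ0 : 0 ≤ Mρ := (abs_nonneg _).trans (hMρ 0)
  have hMg0 : 0 ≤ Mg := (norm_nonneg _).trans (hMg 0)
  have hMΔ0 : 0 ≤ MΔ := (abs_nonneg _).trans (hMΔ 0)
  obtain ⟨M₀, hM₀def⟩ : ∃ M₀ : ℝ, M₀ = Mρ * Real.exp (k * 1) := ⟨_, rfl⟩
  obtain ⟨M₂, hM₂def⟩ : ∃ M₂ : ℝ, M₂ = Real.exp (k * 1) * (Mρ * k ^ 2 + 2 * Mg * k + MΔ) := ⟨_, rfl⟩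
  have hM₀0 : 0 ≤ M₀ := by rw [hM₀def]; positivity
  have hM₂0 : 0 ≤ M₂ := by rw [hM₂def]; positivity
  obtain ⟨vol, hvoldef⟩ : ∃ vol : ℝ, vol = volume.real (Metric.closedBall (0 : Space) 1) := ⟨_, rfl⟩
  have hvol0 : 0 ≤ vol := by rw [hvoldef]; exact measureReal_nonneg
  obtain ⟨Λ₁, hΛ₁def⟩ : ∃ Λ₁ : ℝ, Λ₁ = 1 / 2 * M₂ * vol + M₀ * (1 + (K₂ + d) * vol) := ⟨_, rfl⟩
  have hΛ₁0 : 0 ≤ Λ₁ := by rw [hΛ₁def]; positivity
  obtain ⟨P, hP0, hP⟩ := ob_h_bulk H hd 1 (η / (2 * (Λ₁ + 1))) (by positivity)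
  obtain ⟨R₂, hR₂⟩ := ob_tail_L32 H.hV1 1 (ε := min 1 (η / (2 * (Mρ + 1)))) (lt_min one_pos (by positivity))
  refine ⟨max P R₂, fun y hy => ?_⟩
  have hyP : P ≤ |y 2| := (le_max_left _ _).trans hy
  have hyR : R₂ ≤ ‖y‖ := ((le_max_right _ _).trans hy).trans (ob_abs_coord_le y 2)
  have hy2 : y 2 ≠ 0 := fun h => by rw [h, abs_zero] at hyP; linarith
  have hy0 : 0 < ‖y‖ := lt_of_lt_of_le (lt_of_lt_of_le hP0 hyP) (ob_abs_coord_le y 2)
  have hw1 : ‖‖y‖⁻¹ • y‖ = 1 := norm_smul_inv_norm (norm_pos_iff.1 hy0)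
  have hny := H.sqrt_pos y
  obtain ⟨c₀, hc₀def⟩ : ∃ c₀ : ℝ, c₀ = SignType.sign (y 2) * √(n y) := ⟨_, rfl⟩
  have hc₀abs : |c₀| = √(n y) := by
    rw [hc₀def, abs_mul, abs_of_pos hny]
    rcases lt_or_gt_of_ne hy2 with h | h
    · rw [sign_neg h]; simp
    · rw [sign_pos h]; simp
  have hρ2 : ContDiff ℝ 2 (wsRho j : Space → ℝ) := (wsRho_contDiff j).of_le reg_two_le_infty
  have hρ0 : ∀ u : Space, 1 < ‖u‖ → wsRho j u = 0 := by
    intro u hu
    refine wsRho_eq_zero ?_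
    have h2 : 1 / ((j : ℝ) + 1) ≤ 1 := by
      rw [div_le_one (by positivity)]
      linarith [(Nat.cast_nonneg j : (0 : ℝ) ≤ j)]
    linarith
  obtain ⟨hφ1, hφ2⟩ := ob_phi_bounds hρ2 hk.le hw1.le hρ0 hMρ hMg hMΔ
  rw [← hM₀def] at hφ1
  rw [← hM₂def] at hφ2
  have hφc : ContDiff ℝ 2 (fun u : Space => wsRho j u * Real.exp (k * ⟪‖y‖⁻¹ • y, u⟫_ℝ)) :=
    hρ2.mul ((ob_expk_contDiff k _).of_le reg_two_le_infty)
  have hφ0 : ∀ u : Space, 1 < ‖u‖ → wsRho j u * Real.exp (k * ⟪‖y‖⁻¹ • y, u⟫_ℝ) = 0 :=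
    fun u hu => by rw [hρ0 u hu, zero_mul]
  have hPc : ContDiff ℝ 2 (fun u : Space => Real.exp (-(k * ⟪‖y‖⁻¹ • y, u⟫_ℝ))) :=
    (((contDiff_const.mul (ob_inner_contDiff _)).neg).exp).of_le reg_two_le_infty
  have hPφ : ∀ u : Space, Real.exp (-(k * ⟪‖y‖⁻¹ • y, u⟫_ℝ))
      * (wsRho j u * Real.exp (k * ⟪‖y‖⁻¹ • y, u⟫_ℝ)) = wsRho j u := by
    intro u
    have : Real.exp (-(k * ⟪‖y‖⁻¹ • y, u⟫_ℝ)) * Real.exp (k * ⟪‖y‖⁻¹ • y, u⟫_ℝ) = 1 := by
      rw [← Real.exp_add]; simp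
    linear_combination (wsRho j u) * this
  have hMq : ∀ u : Space, |Real.exp (-(k * ⟪‖y‖⁻¹ • y, u⟫_ℝ))
      * (wsRho j u * Real.exp (k * ⟪‖y‖⁻¹ • y, u⟫_ℝ))| ≤ Mρ := fun u => by rw [hPφ]; exact hMρ u
  set ε₁ := η / (2 * (Λ₁ + 1)) with hε₁
  set ε₂ := min 1 (η / (2 * (Mρ + 1))) with hε₂
  have hε₁0 : 0 < ε₁ := by positivity
  have hε₂0 : 0 < ε₂ := lt_min one_pos (by positivity)
  have hJ : ∫ u in Metric.closedBall (0 : Space) 1, |V₁ (y + u)| ≤ ε₂ := by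
    rw [ob_setIntegral_closedBall_tr (fun x => |V₁ x|)]
    exact hR₂ y hyR
  have hB : ∀ u : Space, ‖u‖ ≤ 1 →
      |orbH n θ (y + u) - c₀ * Real.exp (-(k * ⟪‖y‖⁻¹ • y, u⟫_ℝ))| ≤ ε₁ * √(n y) := by
    intro u hu
    have := hP y hyP u hu
    rwa [← mul_assoc, ← hc₀def] at this
  have hI : ∫ u in Metric.closedBall (0 : Space) 1,
      |orbH n θ (y + u) - c₀ * Real.exp (-(k * ⟪‖y‖⁻¹ • y, u⟫_ℝ))| ≤ ε₁ * √(n y) * vol := by
    have h1 := norm_setIntegral_le_of_norm_le_const (μ := volume)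
      (f := fun u : Space => |orbH n θ (y + u) - c₀ * Real.exp (-(k * ⟪‖y‖⁻¹ • y, u⟫_ℝ))|)
      (C := ε₁ * √(n y)) (s := Metric.closedBall (0 : Space) 1) measure_closedBall_lt_top (fun u hu => by
        rw [Real.norm_eq_abs, abs_abs]
        exact hB u (by simpa using hu))
    rw [← hvoldef] at h1
    exact (le_abs_self _).trans h1
  have core := ob_V2_core H hK₂0 hK₂ hPc (ob_profile_bulk_laplacian k hw1) hφc hφ0 hφ1 hφ2 hMq y c₀
    (by positivity) hB hI hJ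
  simp only [hPφ] at core
  have tr : ∫ x, (V₂ x - obCinf k d) * wsRho j (x - y) = ∫ u, (V₂ (y + u) - obCinf k d) * wsRho j u := by
    rw [← ob_integral_tr _ y]
    refine integral_congr_ae (Eventually.of_forall fun u => ?_)
    simp only [add_sub_cancel_left]
  rw [← tr, hc₀abs] at core
  set T := |∫ x, (V₂ x - obCinf k d) * wsRho j (x - y)| with hT
  set c := √(n y) with hcdef
  have s1 : Λ₁ * ε₁ ≤ η / 2 := ob_small_mul hΛ₁0 hη.le
  have s2 : Mρ * ε₂ ≤ η / 2 :=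
    (mul_le_mul_of_nonneg_left (min_le_right _ _) hMρ0).trans (ob_small_mul hMρ0 hη.le)
  have hε₂1 : ε₂ ≤ 1 := min_le_left _ _
  have fin : c * T ≤ c * η := by
    calc c * T ≤ 1 / 2 * M₂ * (ε₁ * c * vol) + M₀ * (ε₁ * c * ε₂ + (K₂ + d) * (ε₁ * c * vol)) + c * (Mρ * ε₂) := core
      _ = c * ((1 / 2 * M₂ * vol + M₀ * (ε₂ + (K₂ + d) * vol)) * ε₁ + Mρ * ε₂) := by ring
      _ ≤ c * (Λ₁ * ε₁ + Mρ * ε₂) := by
          refine mul_le_mul_of_nonneg_left ?_ hny.le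
          rw [hΛ₁def]
          have : M₀ * (ε₂ + (K₂ + d) * vol) ≤ M₀ * (1 + (K₂ + d) * vol) := by gcongr
          nlinarith
      _ ≤ c * η := by
          refine mul_le_mul_of_nonneg_left ?_ hny.le
          linarith
  exact le_of_mul_le_mul_left fin hny

end Claimed.Open.R278
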