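import Claimed.Open.R278.OBDefs

/-!
# Result 278, BP-OB, tools T2, T9 (paper-free): `C¹` test functions, integration by parts

LEAF OB-T2 (done, helper181).
-/

open MeasureTheory Filter Topology Set
open scoped ContDiff InnerProductSpace ENNReal Laplacian
open Claimed.Agent.R259

noncomputable section

set_option linter.unusedSectionVars false

namespace Claimed.Open.R278

theorem ob_weakGrad {f : Space → ℝ} {G : Space → Space} (h : IsWeakGrad f G) : WeakGrad f G := by
  refine ⟨h.1, h.2.1, fun ζ hζ => ?_⟩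
  refine ws_vec_of_dir h.1 h.2.1 (hζ.1.of_le (by simp)) hζ.2 fun v => ?_
  rw [h.2.2 ζ hζ.1 hζ.2 v]
  congr 1
  refine integral_congr_ae (Eventually.of_forall fun x => ?_)
  exact mul_comm _ _

theorem ob_hcs_inner_right (A : Space → Space) {Z : Space → Space} (hZ : HasCompactSupport Z) :
    HasCompactSupport (fun x => ⟪A x, Z x⟫_ℝ) :=
  hZ.mono fun x hx h0 => hx (by simp [h0])

/-- integrability of `⟪F, Z⟫` for `F ∈ L¹_loc` and continuous compactly supported `Z`. -/
theorem ob_integrable_inner {F : Space → Space} (hF : LocallyIntegrable F volume) {Z : Space → Space}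
    (hZ : Continuous Z) (hZc : HasCompactSupport Z) : Integrable (fun x => ⟪F x, Z x⟫_ℝ) volume := by
  obtain ⟨M, hM⟩ := hZc.exists_bound_of_continuous hZ
  have h1 : Integrable ((tsupport Z).indicator fun x => ‖F x‖ * M) volume :=
    IntegrableOn.integrable_indicator ((hF.integrableOn_isCompact hZc.isCompact).norm.mul_const M)
      (isClosed_tsupport Z).measurableSet
  refine h1.mono' (hF.aestronglyMeasurable.inner hZ.aestronglyMeasurable)
    (Eventually.of_forall fun x => ?_)
  by_cases hx : x ∈ tsupport Z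
  · rw [Set.indicator_of_mem hx]
    exact (norm_inner_le_norm _ _).trans (mul_le_mul_of_nonneg_left (hM x) (norm_nonneg _))
  · rw [Set.indicator_of_notMem hx, image_eq_zero_of_notMem_tsupport hx]; simp

theorem ob_test_C1 {F : Space → Space} {f : Space → ℝ} (hF : LocallyIntegrable F volume)
    (hf : LocallyIntegrable f volume)
    (h : ∀ ζ : Space → ℝ, ContDiff ℝ ∞ ζ → HasCompactSupport ζ →
      ∫ x, ⟪F x, gradient ζ x⟫_ℝ = ∫ x, f x * ζ x)
    {ζ : Space → ℝ} (hζ : ContDiff ℝ 1 ζ) (hc : HasCompactSupport ζ) :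
    ∫ x, ⟪F x, gradient ζ x⟫_ℝ = ∫ x, f x * ζ x := by
  have hgc := ws_gradient_continuous hζ
  have hgs := ws_gradient_hasCompactSupport hc
  have hzl : LocallyIntegrable ζ volume := hζ.continuous.locallyIntegrable
  have hgl : LocallyIntegrable (gradient ζ) volume := hgc.locallyIntegrable
  set K := Metric.cthickening 1 (tsupport ζ) with hK
  have hKc : IsCompact K := hc.isCompact.cthickening
  have hT : ∀ k, IsTest (wsMol k ζ) := fun k => wsMol_isTest k hzl hc
  have hgk : ∀ k, gradient (wsMol k ζ) = wsMol k (gradient ζ) :=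
    fun k => wsMol_gradient (wsg_of_contDiff hζ) k
  have hid : ∀ k, ∫ x, ⟪F x, wsMol k (gradient ζ) x⟫_ℝ = ∫ x, f x * wsMol k ζ x := by
    intro k
    rw [← hgk k]
    exact h _ (hT k).1 (hT k).2
  have hs1 : ∀ k x, x ∉ K → wsMol k ζ x = 0 := by
    intro k x hx
    by_contra h0
    exact hx (wsMol_support_subset k ζ h0)
  have hs2 : ∀ x, x ∉ K → ζ x = 0 := by
    intro x hx
    by_contra h0
    exact hx (Metric.self_subset_cthickening _ (subset_tsupport _ h0))
  have hsub : tsupport (gradient ζ) ⊆ tsupport ζ := ws_tsupport_gradient_subset ζ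
  have hs3 : ∀ k x, x ∉ K → wsMol k (gradient ζ) x = 0 := by
    intro k x hx
    by_contra h0
    exact hx (Metric.cthickening_subset_of_subset 1 hsub (wsMol_support_subset k _ h0))
  have hs4 : ∀ x, x ∉ K → gradient ζ x = 0 := by
    intro x hx
    by_contra h0
    exact hx (Metric.self_subset_cthickening _ (hsub (subset_tsupport _ h0)))
  have hu1 := Metric.tendstoUniformly_iff.1
    (wsMol_tendstoUniformly (hc.uniformContinuous_of_continuous hζ.continuous))
  have hu2 := Metric.tendstoUniformly_iff.1
    (wsMol_tendstoUniformly (hgs.uniformContinuous_of_continuous hgc))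
  have hint : ∀ Z : Space → Space, Continuous Z → HasCompactSupport Z →
      Integrable (fun x => ⟪F x, Z x⟫_ℝ) volume := fun Z hZ hZc => ob_integrable_inner hF hZ hZc
  have t1 : Tendsto (fun k => ∫ x, ⟪F x, wsMol k (gradient ζ) x⟫_ℝ) atTop
      (𝓝 (∫ x, ⟪F x, gradient ζ x⟫_ℝ)) := by
    refine ws_tendsto_integral_of_unif (w := K.indicator fun x => ‖F x‖)
      (IntegrableOn.integrable_indicator (hF.integrableOn_isCompact hKc).norm hKc.measurableSet)
      (fun k => hint _ (wsMol_contDiff k hgl).continuous (wsMol_hasCompactSupport k hgs))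
      (hint _ hgc hgs) ?_
    intro ε hε
    filter_upwards [hu2 ε hε] with k hk x
    by_cases hx : x ∈ K
    · rw [Set.indicator_of_mem hx, ← inner_sub_right, mul_comm]
      refine (norm_inner_le_norm _ _).trans ?_
      apply mul_le_mul_of_nonneg_left _ (norm_nonneg _)
      have := hk x
      rw [dist_comm, dist_eq_norm] at this
      exact this.le
    · rw [Set.indicator_of_notMem hx, hs3 k x hx, hs4 x hx]
      simp
  have t2 : Tendsto (fun k => ∫ x, f x * wsMol k ζ x) atTop (𝓝 (∫ x, f x * ζ x)) := by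
    refine ws_tendsto_integral_of_unif (w := K.indicator fun x => ‖f x‖)
      (IntegrableOn.integrable_indicator (hf.integrableOn_isCompact hKc).norm hKc.measurableSet)
      (fun k => hf.integrable_smul_right_of_hasCompactSupport
        (wsMol_contDiff k hzl).continuous (wsMol_hasCompactSupport k hc))
      (hf.integrable_smul_right_of_hasCompactSupport hζ.continuous hc) ?_
    intro ε hε
    filter_upwards [hu1 ε hε] with k hk x
    by_cases hx : x ∈ K
    · rw [Set.indicator_of_mem hx, ← mul_sub, norm_mul, mul_comm]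
      apply mul_le_mul_of_nonneg_right _ (norm_nonneg _)
      have := hk x
      rw [dist_comm, dist_eq_norm] at this
      exact this.le
    · rw [Set.indicator_of_notMem hx, hs1 k x hx, hs2 x hx]
      simp
  simp only [hid] at t1
  exact tendsto_nhds_unique t1 t2

theorem ob_gradient_contDiff {ψ : Space → ℝ} (hψ : ContDiff ℝ 2 ψ) : ContDiff ℝ 1 (gradient ψ) := by
  have h1 : ContDiff ℝ 1 (fderiv ℝ ψ) := hψ.fderiv_right (m := 1) (by norm_num)
  exact (InnerProductSpace.toDual ℝ Space).symm.toContinuousLinearEquiv.toContinuousLinearMap.contDiff.comp h1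

theorem ob_wsDiv_gradient {ψ : Space → ℝ} {x : Space} (hψ : ContDiffAt ℝ 2 ψ x) :
    wsDiv (gradient ψ) x = Δ ψ x := by
  rw [opc_laplacian_eq _ hψ, wsDiv]
  refine Finset.sum_congr rfl fun i _ => ?_
  have hg : DifferentiableAt ℝ (gradient ψ) x := by
    have h1 : ContDiffAt ℝ 1 (fderiv ℝ ψ) x := hψ.fderiv_right (by norm_num)
    have h2 : DifferentiableAt ℝ (fderiv ℝ ψ) x := h1.differentiableAt (by simp)
    exact ((InnerProductSpace.toDual ℝ Space).symm.toContinuousLinearEquiv.toContinuousLinearMap
      |>.differentiableAt).comp x h2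
  rw [← wsi_fderiv_inner hg]
  congr 2
  funext y
  rw [inner_gradient_left]

theorem ob_ibp_laplacian {f : Space → ℝ} {G : Space → Space} (h : IsWeakGrad f G) {ψ : Space → ℝ}
    (hψ : ContDiff ℝ 2 ψ) (hc : HasCompactSupport ψ) :
    ∫ x, ⟪G x, gradient ψ x⟫_ℝ = - ∫ x, f x * Δ ψ x := by
  have := wsg_div_ibp (ob_weakGrad h) (ob_gradient_contDiff hψ) (ws_gradient_hasCompactSupport hc)
  rw [this]
  congr 1
  refine integral_congr_ae (Eventually.of_forall fun x => ?_)
  simp only
  rw [ob_wsDiv_gradient hψ.contDiffAt]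

theorem ob_laplacian_continuous {f : Space → ℝ} (hf : ContDiff ℝ 2 f) : Continuous (Δ f) := by
  have : Δ f = wsDiv (gradient f) := funext fun x => (ob_wsDiv_gradient hf.contDiffAt).symm
  rw [this]
  unfold wsDiv
  refine continuous_finsetSum _ fun i _ => ?_
  exact (((ob_gradient_contDiff hf).continuous_fderiv (by simp)).clm_apply continuous_const).inner
    continuous_const

/-- `div (φ ∇f) = ∇f·∇φ + Δf φ`. -/
theorem ob_wsDiv_smul_gradient {f φ : Space → ℝ} (hf : ContDiff ℝ 2 f) (hφ : ContDiff ℝ 1 φ) (x : Space) :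
    wsDiv (fun x => φ x • gradient f x) x = ⟪gradient f x, gradient φ x⟫_ℝ + Δ f x * φ x := by
  have hg : DifferentiableAt ℝ (gradient f) x := (ob_gradient_contDiff hf).differentiable (by simp) x
  have hp : DifferentiableAt ℝ φ x := hφ.differentiable (by simp) x
  rw [← ob_wsDiv_gradient hf.contDiffAt, wsDiv, wsDiv, Finset.sum_mul,
    ← (stdOrthonormalBasis ℝ Space).sum_inner_mul_inner (gradient f x) (gradient φ x),
    ← Finset.sum_add_distrib]
  refine Finset.sum_congr rfl fun i _ => ?_
  rw [fderiv_fun_smul hp hg]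
  simp only [add_apply, smul_apply,
    ContinuousLinearMap.smulRight_apply, inner_add_left, inner_smul_left, RCLike.conj_to_real]
  rw [← inner_gradient_left, real_inner_comm (gradient φ x)]
  ring

theorem ob_green {f φ : Space → ℝ} (hf : ContDiff ℝ 2 f) (hφ : ContDiff ℝ 2 φ) (hc : HasCompactSupport φ) :
    ∫ x, f x * Δ φ x = ∫ x, Δ f x * φ x := by
  have hf1 : ContDiff ℝ 1 f := hf.of_le (by norm_num)
  have hφ1 : ContDiff ℝ 1 φ := hφ.of_le (by norm_num)
  have e1 := wsg_div_ibp (wsg_of_contDiff hf1) (ob_gradient_contDiff hφ) (ws_gradient_hasCompactSupport hc)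
  have hW : ContDiff ℝ 1 (fun x => φ x • gradient f x) := hφ1.smul (ob_gradient_contDiff hf)
  have hWc : HasCompactSupport (fun x => φ x • gradient f x) := hc.smul_right
  have e2 := wsg_div_ibp (wsg_const (E := Space) 1) hW hWc
  simp only [inner_zero_left, integral_zero, one_mul] at e2
  have i1 : Integrable (fun x => ⟪gradient f x, gradient φ x⟫_ℝ) volume :=
    ((ws_gradient_continuous hf1).inner (ws_gradient_continuous hφ1)).integrable_of_hasCompactSupport
      (ob_hcs_inner_right _ (ws_gradient_hasCompactSupport hc))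
  have i2 : Integrable (fun x => Δ f x * φ x) volume :=
    ((ob_laplacian_continuous hf).mul hφ.continuous).integrable_of_hasCompactSupport hc.mul_left
  simp only [ob_wsDiv_smul_gradient hf hφ1] at e2
  rw [integral_add i1 i2] at e2
  have e4 : ∫ x, f x * wsDiv (gradient φ) x = ∫ x, f x * Δ φ x := by
    refine integral_congr_ae (Eventually.of_forall fun x => ?_)
    simp only
    rw [ob_wsDiv_gradient hφ.contDiffAt]
  rw [e4] at e1
  linarith

theorem ob_ibp_weight {n : Space → ℝ} {N : Space → Space} (h : IsWeakGrad n N) {B φ : Space → ℝ}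
    (hB : ContDiff ℝ 2 B) (hφ : ContDiff ℝ 1 φ) (hc : HasCompactSupport φ) :
    ∫ x, n x * ⟪gradient B x, gradient φ x⟫_ℝ = - ∫ x, (⟪N x, gradient B x⟫_ℝ + n x * Δ B x) * φ x := by
  have hB1 : ContDiff ℝ 1 B := hB.of_le (by norm_num)
  have hW : ContDiff ℝ 1 (fun x => φ x • gradient B x) := hφ.smul (ob_gradient_contDiff hB)
  have hWc : HasCompactSupport (fun x => φ x • gradient B x) := hc.smul_right
  have e2 := wsg_div_ibp (ob_weakGrad h) hW hWc
  simp only [ob_wsDiv_smul_gradient hB hφ] at e2
  have hΔc : Continuous (Δ B) := ob_laplacian_continuous hB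
  have i1 : Integrable (fun x => n x * ⟪gradient B x, gradient φ x⟫_ℝ) volume :=
    h.1.integrable_smul_right_of_hasCompactSupport
      ((ws_gradient_continuous hB1).inner (ws_gradient_continuous hφ))
      (ob_hcs_inner_right _ (ws_gradient_hasCompactSupport hc))
  have i2 : Integrable (fun x => n x * (Δ B x * φ x)) volume :=
    h.1.integrable_smul_right_of_hasCompactSupport (hΔc.mul hφ.continuous) hc.mul_left
  have i3 : Integrable (fun x => ⟪N x, φ x • gradient B x⟫_ℝ) volume :=
    ob_integrable_inner h.2.1 hW.continuous hWc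
  have e5 : ∫ x, n x * (⟪gradient B x, gradient φ x⟫_ℝ + Δ B x * φ x)
      = (∫ x, n x * ⟪gradient B x, gradient φ x⟫_ℝ) + ∫ x, n x * (Δ B x * φ x) := by
    rw [← integral_add i1 i2]
    refine integral_congr_ae (Eventually.of_forall fun x => ?_)
    simp only; ring
  rw [e5] at e2
  have e6 : ∫ x, (⟪N x, gradient B x⟫_ℝ + n x * Δ B x) * φ x
      = (∫ x, ⟪N x, φ x • gradient B x⟫_ℝ) + ∫ x, n x * (Δ B x * φ x) := by
    rw [← integral_add i3 i2]
    refine integral_congr_ae (Eventually.of_forall fun x => ?_)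
    simp only [inner_smul_right]; ring
  rw [e6]
  linarith

end Claimed.Open.R278
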