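import Claimed.Open.R278.OBGlue
import Claimed.Open.R278.OBTest
import Claimed.Agent.R259.RegKerB

/-!
# Result 278, BP-OB, tool T7, part A: change of variables, derivative of the averages, Cauchy-Schwarz, Caccioppoli

(helper181; no sorry.)  See the header of `OBLmp.lean`.
-/

open MeasureTheory Filter Topology Set
open scoped ContDiff InnerProductSpace ENNReal Laplacian
open Claimed.Agent.R259

noncomputable section

set_option linter.unusedSectionVars false

namespace Claimed.Open.R278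

theorem ob_finrank : Module.finrank ℝ Space = 3 := by simp

/-- change of variables `x = x₀ - s z`. -/
theorem ob_cv (F : Space → ℝ) (x₀ : Space) {s : ℝ} (hs : 0 < s) :
    ∫ z, F (x₀ - s • z) = (s ^ 3)⁻¹ * ∫ x, F x := by
  have h2 := Measure.integral_comp_smul (volume : Measure Space) (fun w => F (x₀ - w)) s
  rw [h2, integral_sub_left_eq_self F volume x₀, ob_finrank, abs_of_pos (by positivity), smul_eq_mul]

theorem ob_psi_gradient (z : Space) : gradient (regPsi : Space → ℝ) z = -(regRho z • z) := by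
  refine ext_inner_right ℝ fun v => ?_
  rw [inner_gradient_left, reg_psi_fderiv, inner_neg_left, inner_smul_left]
  simp

theorem ob_norm_le_of_rho_ne {z : Space} (hz : regRho z ≠ 0) : ‖z‖ ≤ 2 := by
  by_contra h
  push Not at h
  exact hz (reg_rho_zero (by nlinarith))

theorem ob_avg_hasDerivAt {δ : Space → ℝ} (hδ : ContDiff ℝ 1 δ) (x₀ : Space) (s : ℝ) :
    HasDerivAt (fun t => regAvg regRho δ t x₀)
      (∫ z, ⟪gradient δ (x₀ - s • z), gradient regPsi z⟫_ℝ) s := by
  have hρc : Continuous (regRho : Space → ℝ) := reg_rho_test.1.continuous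
  have hρi : Integrable (regRho : Space → ℝ) volume := hρc.integrable_of_hasCompactSupport reg_rho_test.2
  have hgc : Continuous (gradient δ) := ws_gradient_continuous hδ
  obtain ⟨C₁, hC₁⟩ := (isCompact_closedBall x₀ (2 * (|s| + 1))).exists_bound_of_continuousOn hgc.continuousOn
  have hδc : Continuous δ := hδ.continuous
  have hcont : ∀ t : ℝ, Continuous fun z : Space => δ (x₀ - t • z) • regRho z := fun t => by fun_prop
  have hψg : Continuous (gradient (regPsi : Space → ℝ)) :=
    ws_gradient_continuous (reg_psi_test.1.of_le (by simp))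
  have hcont' : Continuous fun z : Space => ⟪gradient δ (x₀ - s • z), gradient regPsi z⟫_ℝ :=
    Continuous.inner (by fun_prop) hψg
  have hsupp : ∀ t : ℝ, HasCompactSupport fun z : Space => δ (x₀ - t • z) • regRho z := fun t =>
    (reg_rho_test (E := Space)).2.mono fun z hz h0 => hz (by simp [h0])
  have hb : ∀ᵐ z : Space, ∀ t ∈ Metric.ball s 1,
      ‖⟪gradient δ (x₀ - t • z), gradient regPsi z⟫_ℝ‖ ≤ C₁ * 2 * regRho z := by
    refine Eventually.of_forall fun z t ht => ?_
    rw [ob_psi_gradient, inner_neg_right, inner_smul_right, norm_neg, norm_mul]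
    by_cases hz : regRho z = 0
    · simp [hz]
    · have hz2 := ob_norm_le_of_rho_ne hz
      have ht1 : |t| ≤ |s| + 1 := by
        have : |t - s| < 1 := by simpa [Real.dist_eq] using ht
        have h2 := abs_sub_abs_le_abs_sub t s
        linarith
      have hmem : x₀ - t • z ∈ Metric.closedBall x₀ (2 * (|s| + 1)) := by
        rw [Metric.mem_closedBall, dist_eq_norm]
        have : x₀ - t • z - x₀ = -(t • z) := by abel
        rw [this, norm_neg, norm_smul, Real.norm_eq_abs]
        have h0 := abs_nonneg t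
        nlinarith [norm_nonneg z]
      have h1 := hC₁ _ hmem
      have h3 : ‖⟪gradient δ (x₀ - t • z), z⟫_ℝ‖ ≤ C₁ * 2 :=
        (norm_inner_le_norm _ _).trans (mul_le_mul h1 hz2 (norm_nonneg _) ((norm_nonneg _).trans h1))
      rw [Real.norm_of_nonneg (posav_rho_nonneg z), mul_comm]
      exact mul_le_mul_of_nonneg_right h3 (posav_rho_nonneg z)
  have hd : ∀ᵐ z : Space, ∀ t ∈ Metric.ball s 1,
      HasDerivAt (fun t : ℝ => δ (x₀ - t • z) • regRho z)
        (⟪gradient δ (x₀ - t • z), gradient regPsi z⟫_ℝ) t := by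
    refine Eventually.of_forall fun z t _ => ?_
    have h1 : HasDerivAt (fun t : ℝ => x₀ - t • z) (-z) t := by
      have := ((hasDerivAt_id t).smul_const z).const_sub x₀
      simpa using this
    have h2 : HasFDerivAt δ (fderiv ℝ δ (x₀ - t • z)) (x₀ - t • z) :=
      (hδ.differentiable (by simp) _).hasFDerivAt
    have h3 := (h2.comp_hasDerivAt t h1).smul_const (regRho z)
    have e : ⟪gradient δ (x₀ - t • z), gradient regPsi z⟫_ℝ = (fderiv ℝ δ (x₀ - t • z)) (-z) • regRho z := by
      rw [ob_psi_gradient, inner_neg_right, inner_smul_right, inner_gradient_left, map_neg, smul_eq_mul]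
      ring
    rw [e]
    exact h3
  have key := hasDerivAt_integral_of_dominated_loc_of_deriv_le (μ := (volume : Measure Space))
    (F := fun t z => δ (x₀ - t • z) • regRho z)
    (F' := fun t z => ⟪gradient δ (x₀ - t • z), gradient regPsi z⟫_ℝ)
    (x₀ := s) (bound := fun z => C₁ * 2 * regRho z) (s := Metric.ball s 1) (Metric.ball_mem_nhds s one_pos)
    (Eventually.of_forall fun t => (hcont t).aestronglyMeasurable)
    ((hcont s).integrable_of_hasCompactSupport (hsupp s))
    hcont'.aestronglyMeasurable hb (hρi.const_mul _) hd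
  exact key.2

/-- Cauchy-Schwarz for integrals. -/
theorem ob_cs {α : Type} [MeasurableSpace α] {m : Measure α} {f g : α → ℝ}
    (hf : Integrable (fun x => f x ^ 2) m) (hg : Integrable (fun x => g x ^ 2) m)
    (hfg : Integrable (fun x => f x * g x) m) :
    (∫ x, f x * g x ∂m) ^ 2 ≤ (∫ x, f x ^ 2 ∂m) * ∫ x, g x ^ 2 ∂m := by
  set a := ∫ x, f x ^ 2 ∂m with ha
  set b := ∫ x, g x ^ 2 ∂m with hb
  set c := ∫ x, f x * g x ∂m with hc
  have ha0 : 0 ≤ a := integral_nonneg fun x => sq_nonneg _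
  have hb0 : 0 ≤ b := integral_nonneg fun x => sq_nonneg _
  have hquad : ∀ t : ℝ, 0 ≤ a + 2 * t * c + t ^ 2 * b := by
    intro t
    have h1 : 0 ≤ ∫ x, (f x + t * g x) ^ 2 ∂m := integral_nonneg fun x => sq_nonneg _
    have h2 : ∀ x, (f x + t * g x) ^ 2 = f x ^ 2 + 2 * t * (f x * g x) + t ^ 2 * g x ^ 2 := fun x => by ring
    simp only [h2] at h1
    have hA : Integrable (fun x => f x ^ 2 + 2 * t * (f x * g x)) m := hf.add (hfg.const_mul _)
    rw [integral_add hA (hg.const_mul _), integral_add hf (hfg.const_mul _), integral_const_mul,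
      integral_const_mul] at h1
    exact h1
  rcases hb0.eq_or_lt with hb' | hbpos
  · have h1 := hquad (-(a + 1) / (2 * c))
    by_cases hc0 : c = 0
    · rw [hc0, ← hb']; simp
    · rw [← hb'] at h1
      have : 2 * (-(a + 1) / (2 * c)) * c = -(a + 1) := by field_simp
      rw [this] at h1
      linarith
  · have h1 := hquad (-c / b)
    have h2 : a + 2 * (-c / b) * c + (-c / b) ^ 2 * b = a - c ^ 2 / b := by field_simp; ring
    rw [h2] at h1
    have h3 : c ^ 2 / b ≤ a := by linarith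
    rwa [div_le_iff₀ hbpos] at h3

/-- the local hypotheses of the maximum principle. -/
structure OBLoc (n θ : Space → ℝ) (d : ℝ) (x₀ : Space) (r c Lam B : ℝ) : Prop where
  hr : 0 < r
  hd : 0 ≤ d
  hc : 0 < c
  ncont : Continuous n
  nC1 : ContDiffOn ℝ 1 n (Metric.ball x₀ (4 * r))
  nb : ∀ x ∈ Metric.ball x₀ (4 * r), c ≤ n x ∧ n x ≤ Lam * c ∧ ‖gradient n x‖ ≤ B * n x
  θC1 : ContDiff ℝ 1 θ
  θb : ∀ x ∈ Metric.ball x₀ (4 * r), 0 ≤ θ x ∧ θ x ≤ Real.pi / 2
  eq : ∀ φ : Space → ℝ, ContDiff ℝ 1 φ → HasCompactSupport φ → tsupport φ ⊆ Metric.ball x₀ (4 * r) →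
    ∫ x, n x * ⟪gradient θ x, gradient φ x⟫_ℝ = d * ∫ x, n x * Real.sin (2 * θ x) * φ x

variable {n θ : Space → ℝ} {d : ℝ} {x₀ : Space} {r c Lam B : ℝ}

theorem ob_gradient_const_sub {f : Space → ℝ} (a : ℝ) (x : Space) :
    gradient (fun y => a - f y) x = - gradient f x := by
  unfold gradient
  rw [fderiv_const_sub, map_neg]

theorem ob_gradient_zero_of_notMem {ζ : Space → ℝ} {x : Space} (hx : x ∉ tsupport ζ) : gradient ζ x = 0 :=
  image_eq_zero_of_notMem_tsupport fun h => hx (ws_tsupport_gradient_subset ζ h)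

/-- Caccioppoli. -/
theorem OBLoc.cacc (h : OBLoc n θ d x₀ r c Lam B) {ζ : Space → ℝ} (hζ : ContDiff ℝ 1 ζ)
    (hc : HasCompactSupport ζ) (hs : tsupport ζ ⊆ Metric.ball x₀ (4 * r)) :
    ∫ x, n x * (ζ x ^ 2 * ‖gradient θ x‖ ^ 2)
      ≤ 4 * ∫ x, n x * ((Real.pi / 2 - θ x) ^ 2 * ‖gradient ζ x‖ ^ 2) := by
  have hδ : ContDiff ℝ 1 (fun x => Real.pi / 2 - θ x) := contDiff_const.sub h.θC1
  have hφ : ContDiff ℝ 1 (fun x => ζ x ^ 2 * (Real.pi / 2 - θ x)) := (hζ.pow 2).mul hδ
  have hζ2c : HasCompactSupport (fun x => ζ x ^ 2) := hc.comp_left (g := fun t : ℝ => t ^ 2) (by simp)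
  have hφc : HasCompactSupport (fun x => ζ x ^ 2 * (Real.pi / 2 - θ x)) := hζ2c.mul_right
  have hζ2s : tsupport (fun x => ζ x ^ 2) ⊆ tsupport ζ :=
    closure_mono fun x hx h0 => hx (by simp [h0])
  have hφs : tsupport (fun x => ζ x ^ 2 * (Real.pi / 2 - θ x)) ⊆ Metric.ball x₀ (4 * r) :=
    (tsupport_mul_subset_left).trans (hζ2s.trans hs)
  have e := h.eq _ hφ hφc hφs
  have hg : ∀ x, gradient (fun x => ζ x ^ 2 * (Real.pi / 2 - θ x)) x
      = ζ x ^ 2 • (- gradient θ x) + (Real.pi / 2 - θ x) • ((2 * ζ x) • gradient ζ x) := by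
    intro x
    rw [ws_gradient_mul ((hζ.pow 2).differentiable (by simp) x) (hδ.differentiable (by simp) x),
      ob_gradient_const_sub]
    congr 2
    have := ws_gradient_comp (Θ := fun t : ℝ => t ^ 2) (f := ζ) (x := x)
      (by fun_prop) (hζ.differentiable (by simp) x)
    rw [this]
    simp
  have hz : ∀ x, x ∉ Metric.ball x₀ (4 * r) → ζ x = 0 ∧ gradient ζ x = 0 := fun x hx =>
    ⟨image_eq_zero_of_notMem_tsupport fun h' => hx (hs h'),
      ob_gradient_zero_of_notMem fun h' => hx (hs h')⟩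
  have hR : 0 ≤ d * ∫ x, n x * Real.sin (2 * θ x) * (ζ x ^ 2 * (Real.pi / 2 - θ x)) := by
    refine mul_nonneg h.hd (integral_nonneg fun x => ?_)
    by_cases hx : x ∈ Metric.ball x₀ (4 * r)
    · have h1 := h.nb x hx
      have h2 := h.θb x hx
      have h3 : 0 ≤ Real.sin (2 * θ x) :=
        Real.sin_nonneg_of_nonneg_of_le_pi (by linarith) (by linarith)
      have h4 : 0 ≤ n x := h.hc.le.trans h1.1
      have h5 : 0 ≤ Real.pi / 2 - θ x := by linarith
      positivity
    · simp [(hz x hx).1]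
  rw [← e] at hR
  have hθg := ws_gradient_continuous h.θC1
  have hζg := ws_gradient_continuous hζ
  have i1 : Integrable (fun x => n x * (ζ x ^ 2 * ‖gradient θ x‖ ^ 2)) volume :=
    (h.ncont.mul ((hζ.continuous.pow 2).mul (hθg.norm.pow 2))).integrable_of_hasCompactSupport
      (hζ2c.mul_right.mul_left)
  have hgc : HasCompactSupport (fun x => ‖gradient ζ x‖ ^ 2) :=
    (ws_gradient_hasCompactSupport hc).comp_left (g := fun w : Space => ‖w‖ ^ 2) (by simp)
  have i2 : Integrable (fun x => n x * ((Real.pi / 2 - θ x) ^ 2 * ‖gradient ζ x‖ ^ 2)) volume :=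
    (h.ncont.mul ((hδ.continuous.pow 2).mul (hζg.norm.pow 2))).integrable_of_hasCompactSupport
      (hgc.mul_left.mul_left)
  have hpt : ∀ x, n x * ⟪gradient θ x, gradient (fun x => ζ x ^ 2 * (Real.pi / 2 - θ x)) x⟫_ℝ
      ≤ -(1 / 2) * (n x * (ζ x ^ 2 * ‖gradient θ x‖ ^ 2))
        + 2 * (n x * ((Real.pi / 2 - θ x) ^ 2 * ‖gradient ζ x‖ ^ 2)) := by
    intro x
    rw [hg x]
    by_cases hx : x ∈ Metric.ball x₀ (4 * r)
    · have h4 : 0 ≤ n x := h.hc.le.trans (h.nb x hx).1
      simp only [inner_add_right, inner_smul_right, inner_neg_right, real_inner_self_eq_norm_sq]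
      have h5 := abs_real_inner_le_norm (gradient θ x) (gradient ζ x)
      have h6 := le_abs_self (⟪gradient θ x, gradient ζ x⟫_ℝ)
      have h6' := neg_abs_le (⟪gradient θ x, gradient ζ x⟫_ℝ)
      set a := ⟪gradient θ x, gradient ζ x⟫_ℝ
      set s := ‖gradient θ x‖
      set t := ‖gradient ζ x‖
      set δ := Real.pi / 2 - θ x
      have h7 : 2 * (ζ x * δ * a) ≤ 1 / 2 * (ζ x ^ 2 * s ^ 2) + 2 * (δ ^ 2 * t ^ 2) := by
        have h8 : |ζ x * δ * a| ≤ |ζ x| * |δ| * (s * t) := by
          rw [abs_mul, abs_mul]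
          exact mul_le_mul_of_nonneg_left h5 (by positivity)
        have h9 := le_abs_self (ζ x * δ * a)
        have h10 : 2 * ((|ζ x| * s) * (|δ| * t)) ≤ 1 / 2 * (|ζ x| * s) ^ 2 + 2 * (|δ| * t) ^ 2 := by
          nlinarith [sq_nonneg (|ζ x| * s - 2 * (|δ| * t))]
        have h11 : (|ζ x| * s) ^ 2 = ζ x ^ 2 * s ^ 2 := by rw [mul_pow, sq_abs]
        have h12 : (|δ| * t) ^ 2 = δ ^ 2 * t ^ 2 := by rw [mul_pow, sq_abs]
        nlinarith
      nlinarith
    · simp [(hz x hx).1, (hz x hx).2]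
  have i3 : Integrable (fun x => n x * ⟪gradient θ x,
      gradient (fun x => ζ x ^ 2 * (Real.pi / 2 - θ x)) x⟫_ℝ) volume :=
    (h.ncont.mul (hθg.inner (ws_gradient_continuous hφ))).integrable_of_hasCompactSupport
      (HasCompactSupport.mul_left (ob_hcs_inner_right _ (ws_gradient_hasCompactSupport hφc)))
  have h1 := integral_mono i3 ((i1.const_mul _).add (i2.const_mul _)) hpt
  simp only [Pi.add_apply] at h1
  rw [integral_add (i1.const_mul _) (i2.const_mul _), integral_const_mul, integral_const_mul] at h1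
  linarith

end Claimed.Open.R278
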