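import Claimed.Open.R278.OBLmpA

/-!
# Result 278, BP-OB, tool T7, part B: the energy bound, the scaled kernel, the equation tested with `Ψ/n`

(helper181; no sorry.)  See the header of `OBLmp.lean`.
-/

open MeasureTheory Filter Topology Set
open scoped ContDiff InnerProductSpace ENNReal Laplacian
open Claimed.Agent.R259

noncomputable section

set_option linter.unusedSectionVars false

namespace Claimed.Open.R278

variable {n θ : Space → ℝ} {d : ℝ} {x₀ : Space} {r c Lam B : ℝ}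

theorem ob_integrableOn_ball {f : Space → ℝ} (hf : Continuous f) (x : Space) (R : ℝ) :
    IntegrableOn f (Metric.ball x R) volume :=
  (hf.locallyIntegrable.integrableOn_isCompact (isCompact_closedBall x R)).mono_set Metric.ball_subset_closedBall

theorem ob_gradient_comp_sub (f : Space → ℝ) (a x : Space) :
    gradient (fun y => f (y - a)) x = gradient f (x - a) := by
  unfold gradient
  rw [fderiv_comp_sub]

/-- the energy bound. -/
theorem ob_energy {r : ℝ} (hr : 0 < r) : ∃ Cζ : ℝ, 0 ≤ Cζ ∧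
    ∀ (n θ : Space → ℝ) (d : ℝ) (x₀ : Space) (c Lam B : ℝ), OBLoc n θ d x₀ r c Lam B →
      ∫ x in Metric.ball x₀ (2 * r), ‖gradient θ x‖ ^ 2
        ≤ 4 * Lam * Cζ ^ 2 * (Real.pi / 2) * ∫ x in Metric.ball x₀ (4 * r), (Real.pi / 2 - θ x) := by
  set ζ₀ : ContDiffBump (0 : Space) := ⟨2 * r, 3 * r, by positivity, by linarith⟩ with hζ₀
  have hζ₀c : ContDiff ℝ 1 (ζ₀ : Space → ℝ) := ζ₀.contDiff
  obtain ⟨Cζ, hCζ⟩ := (ws_gradient_hasCompactSupport ζ₀.hasCompactSupport).exists_bound_of_continuous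
    (ws_gradient_continuous hζ₀c)
  have hCζ0 : 0 ≤ Cζ := (norm_nonneg _).trans (hCζ 0)
  refine ⟨Cζ, hCζ0, fun n θ d x₀ c Lam B h => ?_⟩
  set ζ : Space → ℝ := fun x => ζ₀ (x - x₀) with hζ
  have hζc : ContDiff ℝ 1 ζ := hζ₀c.comp (contDiff_id.sub contDiff_const)
  have hzero : ∀ x, x ∉ Metric.closedBall x₀ (3 * r) → ζ x = 0 := by
    intro x hx
    apply ζ₀.zero_of_le_dist
    rw [Metric.mem_closedBall, not_le, dist_eq_norm] at hx
    rw [dist_zero_right]
    exact hx.le
  have hcs : HasCompactSupport ζ := HasCompactSupport.intro (isCompact_closedBall x₀ (3 * r)) hzero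
  have hts : tsupport ζ ⊆ Metric.ball x₀ (4 * r) := by
    refine (closure_minimal (t := Metric.closedBall x₀ (3 * r)) ?_ Metric.isClosed_closedBall).trans
      (Metric.closedBall_subset_ball (by linarith))
    intro x hx
    by_contra h'
    exact hx (hzero x h')
  have hone : ∀ x ∈ Metric.ball x₀ (2 * r), ζ x = 1 := by
    intro x hx
    apply ζ₀.one_of_mem_closedBall
    rw [Metric.mem_ball, dist_eq_norm] at hx
    rw [Metric.mem_closedBall, dist_zero_right]
    exact hx.le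
  have hgb : ∀ x, ‖gradient ζ x‖ ≤ Cζ := fun x => by
    rw [hζ, ob_gradient_comp_sub]; exact hCζ _
  have hcacc := h.cacc hζc hcs hts
  have hθg := ws_gradient_continuous h.θC1
  have hδc : Continuous (fun x => Real.pi / 2 - θ x) := continuous_const.sub h.θC1.continuous
  have hζ2c : HasCompactSupport (fun x => ζ x ^ 2) := hcs.comp_left (g := fun t : ℝ => t ^ 2) (by simp)
  have i1 : Integrable (fun x => n x * (ζ x ^ 2 * ‖gradient θ x‖ ^ 2)) volume :=
    (h.ncont.mul ((hζc.continuous.pow 2).mul (hθg.norm.pow 2))).integrable_of_hasCompactSupport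
      (hζ2c.mul_right.mul_left)
  have hz : ∀ x, x ∉ Metric.ball x₀ (4 * r) → ζ x = 0 ∧ gradient ζ x = 0 := fun x hx =>
    ⟨image_eq_zero_of_notMem_tsupport fun h' => hx (hts h'),
      ob_gradient_zero_of_notMem fun h' => hx (hts h')⟩
  -- lower bound
  have l1 : c * ∫ x in Metric.ball x₀ (2 * r), ‖gradient θ x‖ ^ 2
      ≤ ∫ x, n x * (ζ x ^ 2 * ‖gradient θ x‖ ^ 2) := by
    rw [← integral_const_mul]
    calc ∫ x in Metric.ball x₀ (2 * r), c * ‖gradient θ x‖ ^ 2
        ≤ ∫ x in Metric.ball x₀ (2 * r), n x * (ζ x ^ 2 * ‖gradient θ x‖ ^ 2) := by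
          refine setIntegral_mono_on ((ob_integrableOn_ball (hθg.norm.pow 2) _ _).const_mul c)
            i1.integrableOn measurableSet_ball fun x hx => ?_
          rw [hone x hx, one_pow, one_mul]
          exact mul_le_mul_of_nonneg_right
            (h.nb x (Metric.ball_subset_ball (by linarith [h.hr]) hx)).1 (by positivity)
      _ ≤ ∫ x, n x * (ζ x ^ 2 * ‖gradient θ x‖ ^ 2) := by
          refine setIntegral_le_integral i1 (Eventually.of_forall fun x => ?_)
          by_cases hx : x ∈ Metric.ball x₀ (4 * r)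
          · have : 0 ≤ n x := h.hc.le.trans (h.nb x hx).1
            simp only [Pi.zero_apply]
            positivity
          · simp [(hz x hx).1]
  -- upper bound
  have u1 : ∫ x, n x * ((Real.pi / 2 - θ x) ^ 2 * ‖gradient ζ x‖ ^ 2)
      ≤ Lam * c * Cζ ^ 2 * (Real.pi / 2) * ∫ x in Metric.ball x₀ (4 * r), (Real.pi / 2 - θ x) := by
    rw [← integral_const_mul, ← setIntegral_eq_integral_of_forall_compl_eq_zero
      (s := Metric.ball x₀ (4 * r)) (fun x hx => by simp [(hz x hx).2])]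
    have hgc : HasCompactSupport (fun x => ‖gradient ζ x‖ ^ 2) :=
      (ws_gradient_hasCompactSupport hcs).comp_left (g := fun w : Space => ‖w‖ ^ 2) (by simp)
    have i2 : Integrable (fun x => n x * ((Real.pi / 2 - θ x) ^ 2 * ‖gradient ζ x‖ ^ 2)) volume :=
      (h.ncont.mul ((hδc.pow 2).mul ((ws_gradient_continuous hζc).norm.pow 2))).integrable_of_hasCompactSupport
        (hgc.mul_left.mul_left)
    refine setIntegral_mono_on i2.integrableOn ((ob_integrableOn_ball hδc _ _).const_mul _)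
      measurableSet_ball fun x hx => ?_
    have h1 := h.nb x hx
    have h2 := h.θb x hx
    have h3 : 0 ≤ n x := h.hc.le.trans h1.1
    have h4 : (Real.pi / 2 - θ x) ^ 2 ≤ Real.pi / 2 * (Real.pi / 2 - θ x) := by nlinarith
    have h5 : ‖gradient ζ x‖ ^ 2 ≤ Cζ ^ 2 := pow_le_pow_left₀ (norm_nonneg _) (hgb x) 2
    have h6 : 0 ≤ Real.pi / 2 - θ x := by linarith
    calc n x * ((Real.pi / 2 - θ x) ^ 2 * ‖gradient ζ x‖ ^ 2)
        ≤ (Lam * c) * ((Real.pi / 2 * (Real.pi / 2 - θ x)) * Cζ ^ 2) := by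
          refine mul_le_mul h1.2.1 (mul_le_mul h4 h5 (by positivity) (by positivity)) (by positivity)
            (h3.trans h1.2.1)
      _ = Lam * c * Cζ ^ 2 * (Real.pi / 2) * (Real.pi / 2 - θ x) := by ring
  have hfin : c * ∫ x in Metric.ball x₀ (2 * r), ‖gradient θ x‖ ^ 2
      ≤ c * (4 * Lam * Cζ ^ 2 * (Real.pi / 2) * ∫ x in Metric.ball x₀ (4 * r), (Real.pi / 2 - θ x)) := by
    calc _ ≤ _ := l1
      _ ≤ _ := hcacc
      _ ≤ 4 * (Lam * c * Cζ ^ 2 * (Real.pi / 2) * ∫ x in Metric.ball x₀ (4 * r), (Real.pi / 2 - θ x)) := by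
          linarith
      _ = _ := by ring
  exact le_of_mul_le_mul_left hfin h.hc

/-- the scaled kernel `Ψ(x) = ψ((x₀ - x)/s)`. -/
def obPsiS (x₀ : Space) (s : ℝ) (x : Space) : ℝ := regPsi (s⁻¹ • (x₀ - x))

theorem obPsiS_contDiff (x₀ : Space) (s : ℝ) : ContDiff ℝ ∞ (obPsiS x₀ s) :=
  reg_psi_test.1.comp ((contDiff_const.sub contDiff_id).const_smul s⁻¹)

theorem obPsiS_nonneg (x₀ : Space) (s : ℝ) (x : Space) : 0 ≤ obPsiS x₀ s x := reg_psi_nonneg _

theorem obPsiS_zero {x₀ : Space} {s : ℝ} (hs : 0 < s) {x : Space}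
    (hx : x ∉ Metric.closedBall x₀ (3 / 2 * s)) : obPsiS x₀ s x = 0 := by
  apply reg_psi_zero
  rw [Metric.mem_closedBall, not_le, dist_eq_norm, norm_sub_rev] at hx
  rw [norm_smul, norm_inv, Real.norm_of_nonneg hs.le, mul_pow]
  have h1 : (3 / 2 * s) ^ 2 ≤ ‖x₀ - x‖ ^ 2 := pow_le_pow_left₀ (by positivity) hx.le 2
  have h2 : 0 < s ^ 2 := by positivity
  rw [inv_pow, inv_mul_eq_div, le_div_iff₀ h2]
  nlinarith

theorem obPsiS_hasCompactSupport (x₀ : Space) {s : ℝ} (hs : 0 < s) : HasCompactSupport (obPsiS x₀ s) :=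
  HasCompactSupport.intro (isCompact_closedBall x₀ (3 / 2 * s)) fun _ hx => obPsiS_zero hs hx

theorem obPsiS_tsupport (x₀ : Space) {s : ℝ} (hs : 0 < s) :
    tsupport (obPsiS x₀ s) ⊆ Metric.closedBall x₀ (3 / 2 * s) := by
  refine closure_minimal ?_ Metric.isClosed_closedBall
  intro x hx
  by_contra h'
  exact hx (obPsiS_zero hs h')

theorem obPsiS_gradient (x₀ : Space) (s : ℝ) (x : Space) :
    gradient (obPsiS x₀ s) x = -(s⁻¹ • gradient regPsi (s⁻¹ • (x₀ - x))) := by
  refine ext_inner_right ℝ fun v => ?_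
  have h1 : HasFDerivAt (fun x : Space => s⁻¹ • (x₀ - x)) (s⁻¹ • (-(ContinuousLinearMap.id ℝ Space))) x :=
    ((hasFDerivAt_id x).const_sub x₀).const_smul s⁻¹
  have h2 : HasFDerivAt (regPsi : Space → ℝ) (fderiv ℝ regPsi (s⁻¹ • (x₀ - x))) (s⁻¹ • (x₀ - x)) :=
    (reg_psi_test.1.differentiable (by simp) _).hasFDerivAt
  have h3 := h2.comp x h1
  have e : obPsiS x₀ s = (regPsi : Space → ℝ) ∘ fun x : Space => s⁻¹ • (x₀ - x) := rfl
  rw [inner_gradient_left, e, h3.fderiv, inner_neg_left, inner_smul_left, inner_gradient_left]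
  simp

theorem obPsiS_integral_sq (x₀ : Space) {s : ℝ} (hs : 0 < s) :
    ∫ x, obPsiS x₀ s x ^ 2 = s ^ 3 * ∫ z : Space, regPsi z ^ 2 := by
  have h := ob_cv (fun x => obPsiS x₀ s x ^ 2) x₀ hs
  have e : ∀ z : Space, obPsiS x₀ s (x₀ - s • z) ^ 2 = regPsi z ^ 2 := by
    intro z
    unfold obPsiS
    rw [sub_sub_cancel, inv_smul_smul₀ hs.ne']
  simp only [e] at h
  rw [h]
  field_simp

theorem oblmpb_eqns_cite : True := by
  have := @obPsiS.eq_1
  trivial

theorem OBLoc.B_nonneg (h : OBLoc n θ d x₀ r c Lam B) : 0 ≤ B := by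
  have h1 := h.nb x₀ (Metric.mem_ball_self (by linarith [h.hr]))
  have h2 : 0 < n x₀ := h.hc.trans_le h1.1
  by_contra hB
  push Not at hB
  have := (norm_nonneg _).trans h1.2.2
  nlinarith

/-- the equation tested with `Ψ/n`. -/
theorem OBLoc.test_psi (h : OBLoc n θ d x₀ r c Lam B) {s : ℝ} (hs0 : 0 < s) (hsr : s ≤ r) :
    -(B * ∫ x, obPsiS x₀ s x * ‖gradient θ x‖) ≤ ∫ x, ⟪gradient θ x, gradient (obPsiS x₀ s) x⟫_ℝ := by
  set Ψ := obPsiS x₀ s with hΨ
  have hΨc : ContDiff ℝ 1 Ψ := (obPsiS_contDiff x₀ s).of_le (by simp)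
  have hΨs : HasCompactSupport Ψ := obPsiS_hasCompactSupport x₀ hs0
  have hr := h.hr
  have hts : tsupport Ψ ⊆ Metric.ball x₀ (4 * r) :=
    (obPsiS_tsupport x₀ hs0).trans (Metric.closedBall_subset_ball (by linarith))
  have hinv : ContDiffOn ℝ 1 (fun x => (n x)⁻¹) (Metric.ball x₀ (4 * r)) :=
    h.nC1.inv fun x hx => (h.hc.trans_le (h.nb x hx).1).ne'
  have hφ : ContDiff ℝ 1 (fun x => Ψ x * (n x)⁻¹) :=
    ob_contDiff_mul_of_tsupport Metric.isOpen_ball hinv hΨc hts
  have hφc : HasCompactSupport (fun x => Ψ x * (n x)⁻¹) := hΨs.mul_right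
  have hφs : tsupport (fun x => Ψ x * (n x)⁻¹) ⊆ Metric.ball x₀ (4 * r) :=
    (tsupport_mul_subset_left).trans hts
  have e := h.eq _ hφ hφc hφs
  have hz : ∀ x, x ∉ Metric.ball x₀ (4 * r) → Ψ x = 0 ∧ gradient Ψ x = 0 := fun x hx =>
    ⟨image_eq_zero_of_notMem_tsupport fun h' => hx (hts h'),
      ob_gradient_zero_of_notMem fun h' => hx (hts h')⟩
  have hR : 0 ≤ d * ∫ x, n x * Real.sin (2 * θ x) * (Ψ x * (n x)⁻¹) := by
    refine mul_nonneg h.hd (integral_nonneg fun x => ?_)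
    by_cases hx : x ∈ Metric.ball x₀ (4 * r)
    · have h1 := h.nb x hx
      have h2 := h.θb x hx
      have h3 : 0 ≤ Real.sin (2 * θ x) :=
        Real.sin_nonneg_of_nonneg_of_le_pi (by linarith) (by linarith)
      have h4 : 0 ≤ n x := h.hc.le.trans h1.1
      have h5 : 0 ≤ Ψ x := obPsiS_nonneg _ _ _
      simp only [Pi.zero_apply]
      positivity
    · simp [(hz x hx).1]
  rw [← e] at hR
  have hθg := ws_gradient_continuous h.θC1
  have i1 : Integrable (fun x => n x * ⟪gradient θ x, gradient (fun x => Ψ x * (n x)⁻¹) x⟫_ℝ) volume :=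
    (h.ncont.mul (hθg.inner (ws_gradient_continuous hφ))).integrable_of_hasCompactSupport
      (HasCompactSupport.mul_left (ob_hcs_inner_right _ (ws_gradient_hasCompactSupport hφc)))
  have i2 : Integrable (fun x => ⟪gradient θ x, gradient Ψ x⟫_ℝ) volume :=
    (hθg.inner (ws_gradient_continuous hΨc)).integrable_of_hasCompactSupport
      (ob_hcs_inner_right _ (ws_gradient_hasCompactSupport hΨs))
  have i3 : Integrable (fun x => Ψ x * ‖gradient θ x‖) volume :=
    (hΨc.continuous.mul hθg.norm).integrable_of_hasCompactSupport hΨs.mul_right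
  have hpt : ∀ x, n x * ⟪gradient θ x, gradient (fun x => Ψ x * (n x)⁻¹) x⟫_ℝ - B * (Ψ x * ‖gradient θ x‖)
      ≤ ⟪gradient θ x, gradient Ψ x⟫_ℝ := by
    intro x
    rw [ob_gradient_mul_of_tsupport Metric.isOpen_ball hinv hΨc hts x]
    by_cases hx : x ∈ Metric.ball x₀ (4 * r)
    · have h1 := h.nb x hx
      have hn : 0 < n x := h.hc.trans_le h1.1
      have hnd : DifferentiableAt ℝ n x :=
        (h.nC1.contDiffAt (Metric.isOpen_ball.mem_nhds hx)).differentiableAt (by simp)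
      have hgi : gradient (fun x => (n x)⁻¹) x = (-(n x ^ 2)⁻¹) • gradient n x := by
        have := ws_gradient_comp (Θ := fun t : ℝ => t⁻¹) (f := n) (x := x)
          (differentiableAt_inv hn.ne') hnd
        rw [this, deriv_inv]
      rw [hgi]
      simp only [inner_add_right, inner_smul_right]
      have h5 := abs_real_inner_le_norm (gradient θ x) (gradient n x)
      have h6 := le_abs_self (⟪gradient θ x, gradient n x⟫_ℝ)
      have hΨ0 : 0 ≤ Ψ x := obPsiS_nonneg _ _ _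
      have e1 : n x * (Ψ x * (-(n x ^ 2)⁻¹ * ⟪gradient θ x, gradient n x⟫_ℝ)
          + (n x)⁻¹ * ⟪gradient θ x, gradient Ψ x⟫_ℝ)
          = ⟪gradient θ x, gradient Ψ x⟫_ℝ - Ψ x * (⟪gradient θ x, gradient n x⟫_ℝ / n x) := by
        field_simp
        ring
      rw [e1]
      have h7 : -(‖gradient θ x‖ * B) ≤ ⟪gradient θ x, gradient n x⟫_ℝ / n x := by
        rw [le_div_iff₀ hn]
        have h8 := neg_abs_le (⟪gradient θ x, gradient n x⟫_ℝ)
        have h9 : ‖gradient θ x‖ * ‖gradient n x‖ ≤ ‖gradient θ x‖ * (B * n x) :=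
          mul_le_mul_of_nonneg_left h1.2.2 (norm_nonneg _)
        nlinarith
      have h10 := mul_le_mul_of_nonneg_left h7 hΨ0
      nlinarith
    · simp [(hz x hx).1, (hz x hx).2]
  have h1 := integral_mono (i1.sub (i3.const_mul B)) i2 hpt
  simp only [Pi.sub_apply] at h1
  rw [integral_sub i1 (i3.const_mul B), integral_const_mul] at h1
  linarith

end Claimed.Open.R278
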