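import Claimed.Open.R278.OBBasic
import Claimed.Open.R278.OBGlue
import Claimed.Open.R278.OBCalc
import Claimed.Open.R278.OBTrans

/-!
# Result 278, BP-OB, stage S2: `g` is small in `L¹` near the plane

LEAF OB-S2.  See the header of `OBDefs.lean`.

PROOF.  `K₂` from `ob_bound_Linf`.  `L := 1/(2(K₂+1))` (so `2 K₂ L² ≤ 1`, `L ≤ 1/2`), `z₁ := L/4`.  Given `K, ε`: `μ > 0` with `μ K² ≤ L/4`,
`18 μ L ≤ 1`; `K' := √(L/μ)` (then `Q > 0 ⇒ |x| < K'`).  `a` from `PlaneTranslate`, `C₁ := a e^{kK'}`.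
`ψ_y(x) = obCube (obQ L σ μ (x - y))` is `C²_c`;  `Δψ = 3 Q₊² ΔQ + 6 Q₊ |∇Q|²` (`opc_laplacian_comp`), `ΔQ = -σ²/s³ - 6μ`,
`|∇Q|² ≥ z²/s² = 1 - σ²/s²`, `0 ≤ Q₊ ≤ L`:   `Δψ - 2K₂ψ ≥ Q₊ (3 - 6σ²/s² - 3Lσ²/s³)`  (`ob_kink_ineq`).
`H.g_test`: `∫ g Δψ = 2∫ V g ψ ≤ 2K₂ ∫ g ψ + 2 ∫ |V₁| g ψ`.  Hence
  `3 ∫ g Q₊ ≤ ∫ g Q₊ (6σ²/s² + 3Lσ²/s³) + 2 ∫|V₁| g ψ`.
On `|x| ≤ K'`: `g(y+x) ≤ √n(y+x) ≤ c (C₁|z| + √ε')` (`PlaneTranslate` with `(K', ε')`), `|z|σ²/s³ ≤ σ²/s²`, `σ²/s³ ≤ 1/σ`: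
  RHS `≤ c [ L (6(C₁K'+1) + 3LC₁) J(σ) + 3L² √ε' |B_{K'}|/σ + 2L³ (C₁K'+1) ∫_{B(y,K')}|V₁| ]`,   `J(σ) = ∫_{B_{K'}} σ²/(z²+σ²) → 0`
(dominated convergence; the plane is a null set).  Choose `σ ≤ L/4`, then `ε' ≤ 1`, then `P` (`ob_tail_L32`).
On `{|x| ≤ K, |z| ≤ z₁}`: `Q ≥ L - (z₁+σ) - μK² ≥ L/4`.
-/

open MeasureTheory Filter Topology Set
open scoped ContDiff InnerProductSpace ENNReal Laplacian
open Claimed.Agent.R259

noncomputable section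

set_option linter.unusedSectionVars false

namespace Claimed.Open.R278

variable {n θ : Space → ℝ} {k β d : ℝ} {V₁ V₂ : Space → ℝ}

theorem ob_Q_contDiff (L μ : ℝ) {σ : ℝ} (hσ : 0 < σ) : ContDiff ℝ ∞ (obQ L σ μ) := by
  unfold obQ
  exact (contDiff_const.sub ((ob_S_contDiff hσ).comp ob_coord_contDiff)).sub
    (contDiff_const.mul (contDiff_norm_sq ℝ))

theorem ob_Q_pos_imp {L σ μ : ℝ} (hμ : 0 < μ) {x : Space} (hx : 0 < obQ L σ μ x) : μ * ‖x‖ ^ 2 < L := by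
  unfold obQ at hx
  have := Real.sqrt_nonneg (x 2 ^ 2 + σ ^ 2)
  linarith

theorem ob_Q_le (L σ : ℝ) {μ : ℝ} (hμ : 0 ≤ μ) (x : Space) : obQ L σ μ x ≤ L := by
  unfold obQ
  have := Real.sqrt_nonneg (x 2 ^ 2 + σ ^ 2)
  have : 0 ≤ μ * ‖x‖ ^ 2 := by positivity
  linarith

theorem ob_Scoord_contDiff {σ : ℝ} (hσ : 0 < σ) : ContDiff ℝ ∞ (fun x : Space => √(x 2 ^ 2 + σ ^ 2)) :=
  (ob_S_contDiff hσ).comp ob_coord_contDiff

theorem ob_Q_laplacian (L μ : ℝ) {σ : ℝ} (hσ : 0 < σ) (x : Space) :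
    Δ (obQ L σ μ) x = -(σ ^ 2 / √(x 2 ^ 2 + σ ^ 2) ^ 3) - 6 * μ := by
  have h1 : ContDiffAt ℝ 2 (fun x : Space => √(x 2 ^ 2 + σ ^ 2)) x :=
    ((ob_Scoord_contDiff hσ).of_le reg_two_le_infty).contDiffAt
  have h2 : ContDiffAt ℝ 2 (fun x : Space => ‖x‖ ^ 2) x := (contDiff_norm_sq ℝ).contDiffAt
  have h0 : ContDiffAt ℝ 2 (fun _ : Space => L) x := contDiffAt_const
  have e : obQ L σ μ = ((fun _ : Space => L) - fun x : Space => √(x 2 ^ 2 + σ ^ 2)) - μ • fun x : Space => ‖x‖ ^ 2 := by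
    funext y; simp [obQ]
  have h01 : ContDiffAt ℝ 2 ((fun _ : Space => L) - fun x : Space => √(x 2 ^ 2 + σ ^ 2)) x := h0.sub h1
  have h22 : ContDiffAt ℝ 2 (μ • fun x : Space => ‖x‖ ^ 2) x := h2.const_smul μ
  rw [e, h01.laplacian_sub h22, h0.laplacian_sub h1, InnerProductSpace.laplacian_smul μ h2,
    ob_normsq_laplacian, ob_laplacian_const]
  have h3 := opc_laplacian_comp (x := x) (Θ := fun t : ℝ => √(t ^ 2 + σ ^ 2)) (f := fun x : Space => x 2)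
    ((ob_S_contDiff hσ).of_le reg_two_le_infty).contDiffAt
    (ob_coord_contDiff.of_le reg_two_le_infty).contDiffAt
  rw [h3, ob_coord_laplacian, ob_coord_gradient, ob_norm_ez, ob_S_deriv2 hσ]
  simp
  ring

theorem ob_Q_gradient (L μ : ℝ) {σ : ℝ} (hσ : 0 < σ) (x : Space) :
    gradient (obQ L σ μ) x = -((x 2 / √(x 2 ^ 2 + σ ^ 2)) • ez) - (2 * μ) • x := by
  refine ob_gradient_of_hasFDerivAt ?_
  have h1 := (ob_S_hasDerivAt hσ (x 2)).comp_hasFDerivAt x (ob_coord_hasFDerivAt x)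
  have h2 := (ob_normsq_hasFDerivAt x).const_mul μ
  have h := ((hasFDerivAt_const L x).sub h1).sub h2
  have e : (0 : Space →L[ℝ] ℝ) - (x 2 / √(x 2 ^ 2 + σ ^ 2)) • innerSL ℝ ez - μ • innerSL ℝ ((2 : ℝ) • x)
      = innerSL ℝ (-((x 2 / √(x 2 ^ 2 + σ ^ 2)) • ez) - (2 * μ) • x) := by
    ext v; simp [inner_smul_left, inner_sub_left, inner_neg_left]; ring
  rw [← e]; exact h

theorem ob_Q_gradient_sq (L : ℝ) {σ μ : ℝ} (hσ : 0 < σ) (hμ : 0 ≤ μ) (x : Space) :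
    1 - σ ^ 2 / (x 2 ^ 2 + σ ^ 2) ≤ ‖gradient (obQ L σ μ) x‖ ^ 2 := by
  rw [ob_Q_gradient L μ hσ x, ← real_inner_self_eq_norm_sq]
  have hs := ob_S_pos hσ (x 2)
  have hs2 := ob_S_sq (σ := σ) (x 2)
  set s := √(x 2 ^ 2 + σ ^ 2) with hsdef
  have e : ⟪-((x 2 / s) • ez) - (2 * μ) • x, -((x 2 / s) • ez) - (2 * μ) • x⟫_ℝ
      = (x 2 / s) ^ 2 + 2 * (2 * μ) * (x 2 / s) * x 2 + (2 * μ) ^ 2 * ‖x‖ ^ 2 := by
    simp only [inner_sub_left, inner_sub_right, inner_neg_left, inner_neg_right, inner_smul_left,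
      inner_smul_right, RCLike.conj_to_real, real_inner_self_eq_norm_sq, ob_norm_ez,
      ← ob_coord_eq_inner, real_inner_comm ez x]
    ring
  rw [e, ← hs2]
  have h1 : 1 - σ ^ 2 / s ^ 2 = (x 2 / s) ^ 2 := by
    field_simp
    linarith
  rw [h1]
  have h2 : 0 ≤ 2 * (2 * μ) * (x 2 / s) * x 2 := by
    have : 2 * (2 * μ) * (x 2 / s) * x 2 = 4 * μ * (x 2 ^ 2 / s) := by ring
    rw [this]; positivity
  have h3 : 0 ≤ (2 * μ) ^ 2 * ‖x‖ ^ 2 := by positivity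
  linarith

theorem ob_kink_ineq {L σ μ K₂ : ℝ} (hL : 0 < L) (hσ : 0 < σ) (hμ : 0 < μ) (hK : 0 ≤ K₂)
    (hc : 18 * μ * L + 2 * K₂ * L ^ 2 ≤ 3) (x : Space) :
    max (obQ L σ μ x) 0 * (3 - 6 * (σ ^ 2 / (x 2 ^ 2 + σ ^ 2)) - 3 * L * (σ ^ 2 / √(x 2 ^ 2 + σ ^ 2) ^ 3))
      ≤ Δ (fun x => obCube (obQ L σ μ x)) x - 2 * K₂ * obCube (obQ L σ μ x) := by
  rw [opc_laplacian_comp ob_cube_contDiff.contDiffAt ((ob_Q_contDiff L μ hσ).of_le reg_two_le_infty).contDiffAt,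
    ob_cube_deriv2, ob_cube_deriv, ob_Q_laplacian L μ hσ]
  have hg := ob_Q_gradient_sq L hσ hμ.le x
  have hQ := ob_Q_le L σ hμ.le x
  have hs := ob_S_pos hσ (x 2)
  simp only [obSq, obCube]
  set q := max (obQ L σ μ x) 0 with hq
  have hq0 : 0 ≤ q := le_max_right _ _
  have hqL : q ≤ L := max_le hQ hL.le
  set A := σ ^ 2 / (x 2 ^ 2 + σ ^ 2) with hA
  set B := σ ^ 2 / √(x 2 ^ 2 + σ ^ 2) ^ 3 with hB
  set G := ‖gradient (obQ L σ μ) x‖ ^ 2 with hG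
  have hB0 : 0 ≤ B := by positivity
  -- goal: q (3 - 6A - 3 L B) ≤ 3 q² (-B - 6μ) + 6 q G - 2 K₂ q³
  have h1 : q * (6 * (1 - A)) ≤ q * (6 * G) := by gcongr
  have h2 : q * (q * B) ≤ q * (L * B) := by gcongr
  have h3 : q * (18 * μ * q + 2 * K₂ * q ^ 2) ≤ q * 3 := by
    refine mul_le_mul_of_nonneg_left (le_trans ?_ hc) hq0
    gcongr
  nlinarith [h1, h2, h3]

theorem ob_kink_integral_tendsto (K : ℝ) :
    Tendsto (fun σ : ℝ => ∫ x in Metric.closedBall (0 : Space) K, σ ^ 2 / (x 2 ^ 2 + σ ^ 2)) (𝓝[>] 0) (𝓝 0) := by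
  have h0 : ∫ x in Metric.closedBall (0 : Space) K, (0 : ℝ) = 0 := by simp
  suffices h : Tendsto (fun σ : ℝ => ∫ x in Metric.closedBall (0 : Space) K, σ ^ 2 / (x 2 ^ 2 + σ ^ 2)) (𝓝[>] 0)
      (𝓝 (∫ x in Metric.closedBall (0 : Space) K, (0 : ℝ))) by
    rwa [h0] at h
  refine tendsto_integral_filter_of_dominated_convergence (fun _ => (1 : ℝ)) ?_ ?_ ?_ ?_
  · refine Eventually.of_forall fun σ => ?_
    have : Measurable fun x : Space => σ ^ 2 / (x 2 ^ 2 + σ ^ 2) := by fun_prop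
    exact this.aestronglyMeasurable
  · refine Eventually.of_forall fun σ => Eventually.of_forall fun x => ?_
    rw [Real.norm_eq_abs, abs_of_nonneg (by positivity)]
    refine div_le_one_of_le₀ ?_ (by positivity)
    nlinarith [sq_nonneg (x 2)]
  · exact integrableOn_const (isCompact_closedBall (0 : Space) K).measure_lt_top.ne
  · refine ae_restrict_of_ae ?_
    filter_upwards [ob_coord_ne_ae] with x hx
    have h1 : Tendsto (fun σ : ℝ => σ ^ 2 / (x 2 ^ 2 + σ ^ 2)) (𝓝 0) (𝓝 (0 ^ 2 / (x 2 ^ 2 + 0 ^ 2))) := by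
      refine Tendsto.div ?_ ?_ ?_
      · exact (continuous_pow 2).tendsto 0
      · exact tendsto_const_nhds.add ((continuous_pow 2).tendsto 0)
      · simpa using hx
    simp only [ne_eq, OfNat.ofNat_ne_zero, not_false_eq_true, zero_pow, zero_div] at h1
    exact h1.mono_left nhdsWithin_le_nhds

theorem OBHyp.g_le_plane (H : OBHyp n θ k β d V₁ V₂) : ∃ a : ℝ, 0 < a ∧ ∀ K ε : ℝ, 0 < ε → ∃ P : ℝ, 0 < P ∧
    ∀ y : Space, y 2 = 0 → P ≤ ‖y‖ → ∀ x : Space, ‖x‖ ≤ K →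
      orbG n θ (y + x) ≤ obC k β y * (a * Real.exp (k * K) * |x 2| + ε) := by
  obtain ⟨a, ha, h⟩ := H.hplane
  refine ⟨a, ha, fun K ε hε => ?_⟩
  obtain ⟨P, hP⟩ := h K (ε ^ 2) (by positivity)
  refine ⟨max P 1, by positivity, fun y hy hPy x hx => ?_⟩
  have hy0 : 0 < ‖y‖ := lt_of_lt_of_le one_pos ((le_max_right _ _).trans hPy)
  have hc := obC_pos (k := k) (β := β) hy0
  have h1 := (abs_le.1 (hP y hy ((le_max_left _ _).trans hPy) x hx).1).2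
  refine (H.g_le _).trans ?_
  have hk := H.hk
  have h2 : Real.exp (-(2 * k * ⟪‖y‖⁻¹ • y, x⟫_ℝ)) ≤ Real.exp (k * K) ^ 2 := by
    rw [← Real.exp_nat_mul]
    refine Real.exp_le_exp.2 ?_
    have := (abs_le.1 ((ob_abs_inner_unit_le y x).trans hx)).1
    push_cast
    nlinarith
  have h3 : n (y + x) / obC k β y ^ 2 ≤ (a * Real.exp (k * K) * |x 2| + ε) ^ 2 := by
    have h4 : n (y + x) / obC k β y ^ 2 ≤ a ^ 2 * x 2 ^ 2 * Real.exp (-(2 * k * ⟪‖y‖⁻¹ • y, x⟫_ℝ)) + ε ^ 2 := by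
      unfold obC; linarith
    refine h4.trans ?_
    have h5 : a ^ 2 * x 2 ^ 2 * Real.exp (-(2 * k * ⟪‖y‖⁻¹ • y, x⟫_ℝ)) ≤ a ^ 2 * x 2 ^ 2 * Real.exp (k * K) ^ 2 := by
      gcongr
    have h6 : 0 ≤ a * Real.exp (k * K) * |x 2| * ε := by positivity
    have h7 : |x 2| ^ 2 = x 2 ^ 2 := sq_abs _
    have h8 : (a * Real.exp (k * K) * |x 2| + ε) ^ 2
        = a ^ 2 * x 2 ^ 2 * Real.exp (k * K) ^ 2 + 2 * (a * Real.exp (k * K) * |x 2| * ε) + ε ^ 2 := by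
      rw [← h7]; ring
    rw [h8]
    linarith
  rw [div_le_iff₀ (by positivity)] at h3
  have h8 : n (y + x) ≤ (obC k β y * (a * Real.exp (k * K) * |x 2| + ε)) ^ 2 := by
    rw [mul_pow]; linarith
  exact Real.sqrt_le_iff.2 ⟨by positivity, h8⟩

theorem ob_Q_nonpos {L σ μ K' : ℝ} (hμ : 0 < μ) (hK0 : 0 ≤ K') (hK' : L ≤ μ * K' ^ 2) {u : Space}
    (hu : K' ≤ ‖u‖) : obQ L σ μ u ≤ 0 := by
  by_contra h
  have h1 := ob_Q_pos_imp hμ (not_le.1 h)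
  have h2 : K' ^ 2 ≤ ‖u‖ ^ 2 := by gcongr
  nlinarith

theorem ob_Qplus_continuous (L μ : ℝ) {σ : ℝ} (hσ : 0 < σ) : Continuous fun u => max (obQ L σ μ u) 0 :=
  (ob_Q_contDiff L μ hσ).continuous.max continuous_const

theorem ob_kink_AB {σ : ℝ} (hσ : 0 < σ) (z : ℝ) :
    |z| * (σ ^ 2 / √(z ^ 2 + σ ^ 2) ^ 3) ≤ σ ^ 2 / (z ^ 2 + σ ^ 2) ∧ σ ^ 2 / √(z ^ 2 + σ ^ 2) ^ 3 ≤ 1 / σ := by
  have hs := ob_S_pos hσ z
  have hs2 := ob_S_sq (σ := σ) z
  set s := √(z ^ 2 + σ ^ 2) with hsdef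
  have hz : |z| ≤ s := Real.abs_le_sqrt (by nlinarith [sq_nonneg σ])
  have hσs : σ ≤ s := by
    have := Real.abs_le_sqrt (x := σ) (y := z ^ 2 + σ ^ 2) (by nlinarith [sq_nonneg z])
    exact (le_abs_self σ).trans this
  constructor
  · rw [← hs2, ← mul_div_assoc, div_le_div_iff₀ (by positivity) (by positivity)]
    have : |z| * σ ^ 2 * s ^ 2 ≤ s * σ ^ 2 * s ^ 2 := by gcongr
    nlinarith
  · rw [div_le_div_iff₀ (by positivity) hσ]
    have : σ ^ 3 ≤ s ^ 3 := by gcongr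
    nlinarith

theorem ob_kink_E_continuous (L : ℝ) {σ : ℝ} (hσ : 0 < σ) : Continuous fun u : Space =>
    6 * (σ ^ 2 / (u 2 ^ 2 + σ ^ 2)) + 3 * L * (σ ^ 2 / √(u 2 ^ 2 + σ ^ 2) ^ 3) := by
  have h1 : Continuous fun u : Space => √(u 2 ^ 2 + σ ^ 2) := (ob_Scoord_contDiff hσ).continuous
  have h2 : Continuous fun u : Space => u 2 ^ 2 + σ ^ 2 := by fun_prop
  exact ((continuous_const.div h2 fun u => by positivity).const_mul 6 |>.add
      ((continuous_const.div (h1.pow 3) fun u => (pow_pos (ob_S_pos hσ (u 2)) 3).ne').const_mul (3 * L)))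

theorem ob_slab_step2 {G : Space → ℝ} (hGc : Continuous G) (hG0 : ∀ u, 0 ≤ G u) {L σ μ K' c C₁ ε' : ℝ}
    (hL : 0 < L) (hσ : 0 < σ) (hμ : 0 < μ) (hK0 : 0 ≤ K') (hK' : L ≤ μ * K' ^ 2) (hc : 0 ≤ c) (hC₁ : 0 ≤ C₁)
    (hε' : 0 < ε') (hε1 : ε' ≤ 1) (hb : ∀ u : Space, ‖u‖ ≤ K' → G u ≤ c * (C₁ * |u 2| + ε')) :
    ∫ u, G u * max (obQ L σ μ u) 0 *
        (6 * (σ ^ 2 / (u 2 ^ 2 + σ ^ 2)) + 3 * L * (σ ^ 2 / √(u 2 ^ 2 + σ ^ 2) ^ 3))
      ≤ c * L * ((6 * C₁ * K' + 3 * L * C₁ + 6) * (∫ u in Metric.closedBall (0 : Space) K', σ ^ 2 / (u 2 ^ 2 + σ ^ 2))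
          + 3 * L * ε' / σ * (volume (Metric.closedBall (0 : Space) K')).toReal) := by
  have hcpt := isCompact_closedBall (0 : Space) K'
  have hAc : Continuous fun u : Space => σ ^ 2 / (u 2 ^ 2 + σ ^ 2) := by
    have h2 : Continuous fun u : Space => u 2 ^ 2 + σ ^ 2 := by fun_prop
    exact continuous_const.div h2 fun u => by positivity
  rw [← setIntegral_eq_integral_of_forall_compl_eq_zero (s := Metric.closedBall (0 : Space) K')
    (f := fun u => G u * max (obQ L σ μ u) 0 *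
        (6 * (σ ^ 2 / (u 2 ^ 2 + σ ^ 2)) + 3 * L * (σ ^ 2 / √(u 2 ^ 2 + σ ^ 2) ^ 3)))]
  swap
  · intro u hu
    have h1 : K' ≤ ‖u‖ := by
      have : ¬ ‖u‖ ≤ K' := by simpa using hu
      exact (not_le.1 this).le
    rw [max_eq_right (ob_Q_nonpos hμ hK0 hK' h1)]; simp
  have e : c * L * ((6 * C₁ * K' + 3 * L * C₁ + 6) * (∫ u in Metric.closedBall (0 : Space) K', σ ^ 2 / (u 2 ^ 2 + σ ^ 2))
          + 3 * L * ε' / σ * (volume (Metric.closedBall (0 : Space) K')).toReal)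
      = ∫ u in Metric.closedBall (0 : Space) K',
          c * L * ((6 * C₁ * K' + 3 * L * C₁ + 6) * (σ ^ 2 / (u 2 ^ 2 + σ ^ 2)) + 3 * L * ε' / σ) := by
    have j1 : IntegrableOn (fun u : Space => (6 * C₁ * K' + 3 * L * C₁ + 6) * (σ ^ 2 / (u 2 ^ 2 + σ ^ 2)))
        (Metric.closedBall (0 : Space) K') := (hAc.continuousOn.integrableOn_compact hcpt).const_mul _
    have j2 : IntegrableOn (fun _ : Space => 3 * L * ε' / σ) (Metric.closedBall (0 : Space) K') :=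
      integrableOn_const hcpt.measure_lt_top.ne
    rw [integral_const_mul, integral_add j1 j2, integral_const_mul, setIntegral_const]
    simp only [Measure.real, smul_eq_mul]
    ring
  rw [e]
  refine setIntegral_mono_on ?_ ?_ Metric.isClosed_closedBall.measurableSet fun u hu => ?_
  · exact (((hGc.mul (ob_Qplus_continuous L μ hσ)).mul (ob_kink_E_continuous L hσ))).continuousOn.integrableOn_compact hcpt
  · exact (((hAc.const_mul _).add continuous_const).const_mul _).continuousOn.integrableOn_compact hcpt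
  have hu' : ‖u‖ ≤ K' := by simpa using hu
  obtain ⟨hA1, hB1⟩ := ob_kink_AB hσ (u 2)
  have hs := ob_S_pos hσ (u 2)
  set A := σ ^ 2 / (u 2 ^ 2 + σ ^ 2) with hA
  set B := σ ^ 2 / √(u 2 ^ 2 + σ ^ 2) ^ 3 with hB
  have hA0 : 0 ≤ A := by positivity
  have hB0 : 0 ≤ B := by positivity
  have hz : |u 2| ≤ K' := (ob_abs_coord_le u 2).trans hu'
  have hq0 : 0 ≤ max (obQ L σ μ u) 0 := le_max_right _ _
  have hqL : max (obQ L σ μ u) 0 ≤ L := max_le (ob_Q_le L σ hμ.le u) hL.le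
  have h1 : G u * max (obQ L σ μ u) 0 * (6 * A + 3 * L * B)
      ≤ c * (C₁ * |u 2| + ε') * L * (6 * A + 3 * L * B) := by
    have := hb u hu'
    have h0 := hG0 u
    gcongr
  refine h1.trans ?_
  have h2 : (C₁ * |u 2| + ε') * (6 * A + 3 * L * B) ≤ (6 * C₁ * K' + 3 * L * C₁ + 6) * A + 3 * L * ε' / σ := by
    have t1 : C₁ * |u 2| * (6 * A) ≤ C₁ * K' * (6 * A) := by gcongr
    have t2 : C₁ * (3 * L) * (|u 2| * B) ≤ C₁ * (3 * L) * A := by gcongr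
    have t3 : ε' * (6 * A) ≤ 1 * (6 * A) := by gcongr
    have t4 : ε' * (3 * L) * B ≤ ε' * (3 * L) * (1 / σ) := by gcongr
    have t5 : 3 * L * ε' / σ = ε' * (3 * L) * (1 / σ) := by ring
    rw [t5]
    nlinarith
  calc c * (C₁ * |u 2| + ε') * L * (6 * A + 3 * L * B)
      = c * L * ((C₁ * |u 2| + ε') * (6 * A + 3 * L * B)) := by ring
    _ ≤ _ := by gcongr

theorem ob_slab_step3 {G W : Space → ℝ} (hGc : Continuous G) (hG0 : ∀ u, 0 ≤ G u)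
    (hW : LocallyIntegrable W volume) (hW0 : ∀ u, 0 ≤ W u) {L σ μ K' c C₁ ε' : ℝ}
    (hL : 0 < L) (hσ : 0 < σ) (hμ : 0 < μ) (hK0 : 0 ≤ K') (hK' : L ≤ μ * K' ^ 2) (hc : 0 ≤ c) (hC₁ : 0 ≤ C₁)
    (hε' : 0 < ε') (hε1 : ε' ≤ 1) (hb : ∀ u : Space, ‖u‖ ≤ K' → G u ≤ c * (C₁ * |u 2| + ε')) :
    ∫ u, W u * (G u * obCube (obQ L σ μ u))
      ≤ c * (C₁ * K' + 1) * L ^ 3 * ∫ u in Metric.closedBall (0 : Space) K', W u := by
  have hcpt := isCompact_closedBall (0 : Space) K'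
  have hWi : IntegrableOn W (Metric.closedBall (0 : Space) K') := hW.integrableOn_isCompact hcpt
  rw [← setIntegral_eq_integral_of_forall_compl_eq_zero (s := Metric.closedBall (0 : Space) K')
    (f := fun u => W u * (G u * obCube (obQ L σ μ u)))]
  swap
  · intro u hu
    have h1 : K' ≤ ‖u‖ := by
      have : ¬ ‖u‖ ≤ K' := by simpa using hu
      exact (not_le.1 this).le
    simp only [obCube]
    rw [max_eq_right (ob_Q_nonpos hμ hK0 hK' h1)]; simp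
  rw [← integral_const_mul]
  have hψc : Continuous fun u => G u * obCube (obQ L σ μ u) :=
    hGc.mul (ob_cube_contDiff.continuous.comp (ob_Q_contDiff L μ hσ).continuous)
  refine setIntegral_mono_on ?_ (hWi.const_mul _) Metric.isClosed_closedBall.measurableSet fun u hu => ?_
  · have := hWi.mul_continuousOn hψc.continuousOn hcpt
    exact this
  have hu' : ‖u‖ ≤ K' := by simpa using hu
  have hz : |u 2| ≤ K' := (ob_abs_coord_le u 2).trans hu'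
  have hq0 : 0 ≤ max (obQ L σ μ u) 0 := le_max_right _ _
  have hqL : max (obQ L σ μ u) 0 ≤ L := max_le (ob_Q_le L σ hμ.le u) hL.le
  have h1 : G u ≤ c * (C₁ * K' + 1) := by
    refine (hb u hu').trans ?_
    gcongr
  have h2 : obCube (obQ L σ μ u) ≤ L ^ 3 := by
    simp only [obCube]; gcongr
  have h3 : 0 ≤ obCube (obQ L σ μ u) := by simp only [obCube]; positivity
  have h4 : G u * obCube (obQ L σ μ u) ≤ c * (C₁ * K' + 1) * L ^ 3 := by
    have := hG0 u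
    gcongr
  calc W u * (G u * obCube (obQ L σ μ u)) ≤ W u * (c * (C₁ * K' + 1) * L ^ 3) := by
        have := hW0 u
        gcongr
    _ = _ := by ring

theorem ob_slab_step4 {G : Space → ℝ} (hGc : Continuous G) (hG0 : ∀ u, 0 ≤ G u) {L σ μ K z₁ : ℝ}
    (hL : 0 < L) (hσ : 0 < σ) (hi : Integrable fun u => G u * max (obQ L σ μ u) 0)
    (hlow : ∀ u : Space, ‖u‖ ≤ K → |u 2| ≤ z₁ → L / 4 ≤ obQ L σ μ u) :
    ∫ u in {u : Space | ‖u‖ ≤ K ∧ |u 2| ≤ z₁}, G u ≤ 4 / L * ∫ u, G u * max (obQ L σ μ u) 0 := by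
  have hS : MeasurableSet {u : Space | ‖u‖ ≤ K ∧ |u 2| ≤ z₁} := by
    have h1 : IsClosed {u : Space | ‖u‖ ≤ K} := isClosed_le continuous_norm continuous_const
    have h2 : IsClosed {u : Space | |u 2| ≤ z₁} := isClosed_le (by fun_prop) continuous_const
    exact (h1.inter h2).measurableSet
  have hsub : {u : Space | ‖u‖ ≤ K ∧ |u 2| ≤ z₁} ⊆ Metric.closedBall (0 : Space) K := fun u hu => by
    simpa using hu.1
  have hGi : IntegrableOn G {u : Space | ‖u‖ ≤ K ∧ |u 2| ≤ z₁} :=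
    (hGc.continuousOn.integrableOn_compact (isCompact_closedBall (0 : Space) K)).mono_set hsub
  rw [← integral_const_mul]
  refine (setIntegral_mono_on hGi (hi.const_mul (4 / L)).integrableOn hS fun u hu => ?_).trans
    (setIntegral_le_integral (hi.const_mul (4 / L)) (Eventually.of_forall fun u => ?_))
  · have h1 := hlow u hu.1 hu.2
    have h2 : L / 4 ≤ max (obQ L σ μ u) 0 := h1.trans (le_max_left _ _)
    have h3 := hG0 u
    calc G u = 4 / L * (G u * (L / 4)) := by field_simp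
      _ ≤ _ := by gcongr
  · have := hG0 u
    have : 0 ≤ max (obQ L σ μ u) 0 := le_max_right _ _
    positivity

theorem ob_Qplus_hcs (L σ : ℝ) {μ : ℝ} (hμ : 0 < μ) : HasCompactSupport fun u => max (obQ L σ μ u) 0 := by
  refine HasCompactSupport.intro (isCompact_closedBall (0 : Space) √(|L| / μ)) fun u hu => ?_
  have h1 : √(|L| / μ) ≤ ‖u‖ := by
    have : ¬ ‖u‖ ≤ √(|L| / μ) := by simpa using hu
    exact (not_le.1 this).le
  refine max_eq_right (ob_Q_nonpos hμ (Real.sqrt_nonneg _) ?_ h1)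
  rw [Real.sq_sqrt (by positivity), mul_div_cancel₀ _ hμ.ne']
  exact le_abs_self L

theorem ob_slab_step1 (H : OBHyp n θ k β d V₁ V₂) {K₂ L σ μ : ℝ} (hK₂ : ∀ᵐ x, |V₂ x| ≤ K₂) (hL : 0 < L)
    (hσ : 0 < σ) (hμ : 0 < μ) (hK : 0 ≤ K₂) (hc : 18 * μ * L + 2 * K₂ * L ^ 2 ≤ 3) (y : Space) :
    3 * ∫ u, orbG n θ (y + u) * max (obQ L σ μ u) 0 ≤
      (∫ u, orbG n θ (y + u) * max (obQ L σ μ u) 0 *
          (6 * (σ ^ 2 / (u 2 ^ 2 + σ ^ 2)) + 3 * L * (σ ^ 2 / √(u 2 ^ 2 + σ ^ 2) ^ 3)))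
      + 2 * ∫ u, |V₁ (y + u)| * (orbG n θ (y + u) * obCube (obQ L σ μ u)) := by
  set G : Space → ℝ := fun u => orbG n θ (y + u) with hG
  set q : Space → ℝ := fun u => max (obQ L σ μ u) 0 with hq
  set ψ : Space → ℝ := fun u => obCube (obQ L σ μ u) with hψ
  set E : Space → ℝ := fun u => 6 * (σ ^ 2 / (u 2 ^ 2 + σ ^ 2)) + 3 * L * (σ ^ 2 / √(u 2 ^ 2 + σ ^ 2) ^ 3) with hE
  have hGc : Continuous G := H.ho.g_cont.comp (by fun_prop)
  have hG0 : ∀ u, 0 ≤ G u := fun u => (H.ho.g_pos _).le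
  have hqc : Continuous q := ob_Qplus_continuous L μ hσ
  have hqs : HasCompactSupport q := ob_Qplus_hcs L σ hμ
  have hq0 : ∀ u, 0 ≤ q u := fun u => le_max_right _ _
  have hψ2 : ContDiff ℝ 2 ψ := ob_cube_contDiff.comp ((ob_Q_contDiff L μ hσ).of_le reg_two_le_infty)
  have hψq : ∀ u, ψ u = q u ^ 3 := fun u => rfl
  have hψs : HasCompactSupport ψ := hqs.mono fun u hu h0 => hu (by rw [hψq, h0]; simp)
  have hψ0 : ∀ u, 0 ≤ ψ u := fun u => by rw [hψq]; exact pow_nonneg (hq0 u) 3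
  have hEc : Continuous E := by
    have h1 : Continuous fun u : Space => √(u 2 ^ 2 + σ ^ 2) := (ob_Scoord_contDiff hσ).continuous
    have h2 : Continuous fun u : Space => u 2 ^ 2 + σ ^ 2 := by fun_prop
    refine ((continuous_const.div h2 fun u => by positivity).const_mul 6 |>.add
      ((continuous_const.div (h1.pow 3) fun u => (pow_pos (ob_S_pos hσ (u 2)) 3).ne').const_mul (3 * L)))
  have i1 : Integrable (fun u => G u * q u) := (hGc.mul hqc).integrable_of_hasCompactSupport hqs.mul_left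
  have i2 : Integrable (fun u => G u * q u * E u) :=
    ((hGc.mul hqc).mul hEc).integrable_of_hasCompactSupport hqs.mul_left.mul_right
  have i3 : Integrable (fun u => G u * Δ ψ u) :=
    (hGc.mul (ob_laplacian_continuous hψ2)).integrable_of_hasCompactSupport (ob_laplacian_hcs hψs).mul_left
  have i4 : Integrable (fun u => G u * ψ u) :=
    (hGc.mul hψ2.continuous).integrable_of_hasCompactSupport hψs.mul_left
  have i5 : Integrable (fun u => |V₁ (y + u)| * (G u * ψ u)) := by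
    have := (ob_locallyIntegrable_abs (ob_locallyIntegrable_tr H.V1_locallyIntegrable y)).integrable_smul_right_of_hasCompactSupport
      (g := fun u => G u * ψ u) (hGc.mul hψ2.continuous) hψs.mul_left
    simpa only [smul_eq_mul, Real.norm_eq_abs] using this
  have i6 : Integrable (fun u => formalV n θ d (y + u) * G u * ψ u) := by
    have := (ob_locallyIntegrable_tr H.V_locallyIntegrable y).integrable_smul_right_of_hasCompactSupport
      (g := fun u => G u * ψ u) (hGc.mul hψ2.continuous) hψs.mul_left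
    simpa only [smul_eq_mul, mul_assoc] using this
  have htest := H.g_test_tr hψ2 hψs y
  -- upper bound
  have hup : ∫ u, formalV n θ d (y + u) * G u * ψ u ≤ ∫ u, (|V₁ (y + u)| * (G u * ψ u) + K₂ * (G u * ψ u)) := by
    refine integral_mono_ae i6 (i5.add (i4.const_mul K₂)) ?_
    filter_upwards [ob_ae_tr hK₂ y] with u hu
    have h1 : formalV n θ d (y + u) ≤ |V₁ (y + u)| + K₂ := by
      rw [H.V_apply]
      exact add_le_add (le_abs_self _) ((le_abs_self _).trans hu)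
    have h2 : 0 ≤ G u * ψ u := mul_nonneg (hG0 u) (hψ0 u)
    calc formalV n θ d (y + u) * G u * ψ u = formalV n θ d (y + u) * (G u * ψ u) := by ring
      _ ≤ (|V₁ (y + u)| + K₂) * (G u * ψ u) := by gcongr
      _ = _ := by ring
  rw [integral_add i5 (i4.const_mul K₂), integral_const_mul] at hup
  -- lower bound
  have hlow : ∫ u, (3 * (G u * q u) - G u * q u * E u) ≤ ∫ u, (G u * Δ ψ u - 2 * K₂ * (G u * ψ u)) := by
    refine integral_mono ((i1.const_mul 3).sub i2) (i3.sub (i4.const_mul (2 * K₂))) fun u => ?_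
    have h1 := ob_kink_ineq hL hσ hμ hK hc u
    have h2 := mul_le_mul_of_nonneg_left h1 (hG0 u)
    calc 3 * (G u * q u) - G u * q u * E u
        = G u * (q u * (3 - 6 * (σ ^ 2 / (u 2 ^ 2 + σ ^ 2)) - 3 * L * (σ ^ 2 / √(u 2 ^ 2 + σ ^ 2) ^ 3))) := by
          simp only [hE]; ring
      _ ≤ G u * (Δ ψ u - 2 * K₂ * ψ u) := h2
      _ = _ := by ring
  rw [integral_sub (i1.const_mul 3) i2, integral_sub i3 (i4.const_mul (2 * K₂)), integral_const_mul,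
    integral_const_mul] at hlow
  linarith

theorem ob_slab_core (H : OBHyp n θ k β d V₁ V₂) {K₂ L σ μ K' C₁ ε' K η : ℝ} (hK₂ : ∀ᵐ x, |V₂ x| ≤ K₂)
    (hL : 0 < L) (hσ0 : 0 < σ) (hσL : σ ≤ L / 4) (hμ : 0 < μ) (hK0 : 0 ≤ K₂)
    (hc3 : 18 * μ * L + 2 * K₂ * L ^ 2 ≤ 3) (hK'0 : 0 ≤ K') (hK' : L ≤ μ * K' ^ 2) (hC₁ : 0 ≤ C₁)
    (hε' : 0 < ε') (hε1 : ε' ≤ 1) (hμK : ∀ u : Space, ‖u‖ ≤ K → μ * ‖u‖ ^ 2 ≤ L / 4) {y : Space}
    (hy0 : 0 < ‖y‖) (hb : ∀ u : Space, ‖u‖ ≤ K' → orbG n θ (y + u) ≤ obC k β y * (C₁ * |u 2| + ε'))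
    (hW : ∫ x in Metric.closedBall y K', |V₁ x| ≤ η) :
    ∫ u in {u : Space | ‖u‖ ≤ K ∧ |u 2| ≤ L / 4}, orbG n θ (y + u)
      ≤ obC k β y * (4 / 3 * ((6 * C₁ * K' + 3 * L * C₁ + 6) *
            ∫ u in Metric.closedBall (0 : Space) K', σ ^ 2 / (u 2 ^ 2 + σ ^ 2))
          + 4 * L * (volume (Metric.closedBall (0 : Space) K')).toReal / σ * ε'
          + 8 / 3 * ((C₁ * K' + 1) * L ^ 2) * η) := by
  have hc := obC_pos (k := k) (β := β) hy0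
  have hGc : Continuous fun u => orbG n θ (y + u) := H.ho.g_cont.comp (by fun_prop)
  have hG0 : ∀ u, 0 ≤ orbG n θ (y + u) := fun u => (H.ho.g_pos _).le
  have s1 := ob_slab_step1 H hK₂ hL hσ0 hμ hK0 hc3 y
  have s2 := ob_slab_step2 hGc hG0 hL hσ0 hμ hK'0 hK' hc.le hC₁ hε' hε1 hb
  have s3 := ob_slab_step3 hGc hG0 (ob_locallyIntegrable_abs (ob_locallyIntegrable_tr H.V1_locallyIntegrable y))
    (fun u => abs_nonneg _) hL hσ0 hμ hK'0 hK' hc.le hC₁ hε' hε1 hb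
  have hi : Integrable fun u => orbG n θ (y + u) * max (obQ L σ μ u) 0 :=
    (hGc.mul (ob_Qplus_continuous L μ hσ0)).integrable_of_hasCompactSupport (ob_Qplus_hcs L σ hμ).mul_left
  have s4 := ob_slab_step4 (K := K) (z₁ := L / 4) hGc hG0 hL hσ0 hi (fun u hu hz => by
    unfold obQ
    have h1 : √(u 2 ^ 2 + σ ^ 2) ≤ |u 2| + σ := by
      refine Real.sqrt_le_iff.2 ⟨by positivity, ?_⟩
      have : 0 ≤ |u 2| * σ := by positivity
      have h7 : |u 2| ^ 2 = u 2 ^ 2 := sq_abs _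
      nlinarith
    have h3 := hμK u hu
    linarith)
  rw [ob_setIntegral_closedBall_tr (fun x => |V₁ x|) y K'] at s3
  refine s4.trans ?_
  generalize (∫ u, orbG n θ (y + u) * max (obQ L σ μ u) 0) = I at s1 s2 s3 s4 ⊢
  generalize (∫ u in Metric.closedBall (0 : Space) K', σ ^ 2 / (u 2 ^ 2 + σ ^ 2)) = J at s1 s2 s3 ⊢
  generalize (∫ x in Metric.closedBall y K', |V₁ x|) = Wi at s3 hW
  generalize (volume (Metric.closedBall (0 : Space) K')).toReal = vol at s2 ⊢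
  generalize obC k β y = c at hc s2 s3 ⊢
  have s3' : c * (C₁ * K' + 1) * L ^ 3 * Wi ≤ c * (C₁ * K' + 1) * L ^ 3 * η := by gcongr
  have h3I : 3 * I ≤ c * L * ((6 * C₁ * K' + 3 * L * C₁ + 6) * J + 3 * L * ε' / σ * vol)
      + 2 * (c * (C₁ * K' + 1) * L ^ 3 * η) := by
    linarith
  have e1 : 4 / L * I = 4 / (3 * L) * (3 * I) := by field_simp
  rw [e1]
  have e2 : 4 / (3 * L) * (c * L * ((6 * C₁ * K' + 3 * L * C₁ + 6) * J + 3 * L * ε' / σ * vol)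
        + 2 * (c * (C₁ * K' + 1) * L ^ 3 * η))
      = c * (4 / 3 * ((6 * C₁ * K' + 3 * L * C₁ + 6) * J) + 4 * L * vol / σ * ε'
          + 8 / 3 * ((C₁ * K' + 1) * L ^ 2) * η) := by
    field_simp
    ring
  rw [← e2]
  gcongr

/-- **S2**. -/
theorem ob_slab (H : OBHyp n θ k β d V₁ V₂) : ∃ z₁ : ℝ, 0 < z₁ ∧ z₁ ≤ 1 ∧ OBSlab n θ k β z₁ := by
  obtain ⟨K₂, hK0, hK₂⟩ := ob_bound_Linf H.hV2
  obtain ⟨a, ha, hplane⟩ := H.g_le_plane
  obtain ⟨L, hL, hL1, hKL⟩ : ∃ L : ℝ, 0 < L ∧ L ≤ 1 / 2 ∧ 2 * K₂ * L ^ 2 ≤ 1 := by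
    refine ⟨1 / (2 * (K₂ + 1)), by positivity, one_div_le_one_div_of_le (by norm_num) (by linarith), ?_⟩
    have h0 : 0 < 1 / (2 * (K₂ + 1)) := by positivity
    have h1 : 2 * (K₂ + 1) * (1 / (2 * (K₂ + 1))) = 1 := by field_simp
    have h3 : 1 / (2 * (K₂ + 1)) ≤ 1 / 2 := one_div_le_one_div_of_le (by norm_num) (by linarith)
    generalize 1 / (2 * (K₂ + 1)) = L at h0 h1 h3
    have h2 : 2 * K₂ * L ≤ 1 := by nlinarith
    nlinarith
  refine ⟨L / 4, by positivity, by linarith, fun K ε hε => ?_⟩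
  obtain ⟨μ, hμ, hμ1, hμ2⟩ : ∃ μ : ℝ, 0 < μ ∧ μ * (|K| + 1) ^ 2 ≤ L / 4 ∧ 18 * μ * L ≤ 1 := by
    refine ⟨min (L / (4 * (|K| + 1) ^ 2)) (1 / (18 * L)), lt_min (by positivity) (by positivity), ?_, ?_⟩
    · calc min (L / (4 * (|K| + 1) ^ 2)) (1 / (18 * L)) * (|K| + 1) ^ 2
          ≤ L / (4 * (|K| + 1) ^ 2) * (|K| + 1) ^ 2 := by
            gcongr
            exact min_le_left _ _
        _ = L / 4 := by field_simp
    · calc 18 * min (L / (4 * (|K| + 1) ^ 2)) (1 / (18 * L)) * L ≤ 18 * (1 / (18 * L)) * L := by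
            gcongr
            exact min_le_right _ _
        _ = 1 := by field_simp
  obtain ⟨K', hK'0, hK'⟩ : ∃ K' : ℝ, 0 ≤ K' ∧ L ≤ μ * K' ^ 2 := by
    refine ⟨√(L / μ), Real.sqrt_nonneg _, ?_⟩
    rw [Real.sq_sqrt (by positivity), mul_div_cancel₀ _ hμ.ne']
  obtain ⟨C₁, hC₁, hC₁def⟩ : ∃ C₁ : ℝ, 0 ≤ C₁ ∧ C₁ = a * Real.exp (k * K') := ⟨_, by positivity, rfl⟩
  have hplane' := hplane K'
  rw [← hC₁def] at hplane'
  have hM₁ : 0 < 6 * C₁ * K' + 3 * L * C₁ + 6 := by positivity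
  have hvol0 : 0 ≤ (volume (Metric.closedBall (0 : Space) K')).toReal := ENNReal.toReal_nonneg
  -- choice of σ
  obtain ⟨σ, hσ0, hσL, hσJ⟩ : ∃ σ : ℝ, 0 < σ ∧ σ ≤ L / 4 ∧
      (∫ u in Metric.closedBall (0 : Space) K', σ ^ 2 / (u 2 ^ 2 + σ ^ 2))
        ≤ ε / (4 * (6 * C₁ * K' + 3 * L * C₁ + 6)) := by
    have h1 := (ob_kink_integral_tendsto K').eventually
      (ge_mem_nhds (show (0 : ℝ) < ε / (4 * (6 * C₁ * K' + 3 * L * C₁ + 6)) by positivity))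
    have h2 : ∀ᶠ σ : ℝ in 𝓝[>] 0, σ ∈ Ioc (0 : ℝ) (L / 4) := Ioc_mem_nhdsGT (by positivity)
    obtain ⟨σ, h3, h4⟩ := (h1.and h2).exists
    exact ⟨σ, h4.1, h4.2, h3⟩
  obtain ⟨ε', hε', hε1, hε2⟩ : ∃ ε' : ℝ, 0 < ε' ∧ ε' ≤ 1 ∧
      ε' ≤ ε * σ / (12 * L * ((volume (Metric.closedBall (0 : Space) K')).toReal + 1)) :=
    ⟨min 1 (ε * σ / (12 * L * ((volume (Metric.closedBall (0 : Space) K')).toReal + 1))),
      lt_min one_pos (by positivity), min_le_left _ _, min_le_right _ _⟩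
  obtain ⟨P₁, hP₁0, hP₁⟩ := hplane' ε' hε'
  obtain ⟨P₂, hP₂⟩ := ob_tail_L32 H.hV1 K' (ε := ε / (8 * (C₁ * K' + 1) * L ^ 2)) (by positivity)
  refine ⟨max P₁ P₂, fun y hy hPy => ?_⟩
  have hy0 : 0 < ‖y‖ := lt_of_lt_of_le hP₁0 ((le_max_left _ _).trans hPy)
  have hc := obC_pos (k := k) (β := β) hy0
  have hcore := ob_slab_core H hK₂ hL hσ0 hσL hμ hK0 (by linarith) hK'0 hK' hC₁ hε' hε1 (K := K)
    (fun u hu => by
      have h2 : ‖u‖ ≤ |K| + 1 := hu.trans ((le_abs_self K).trans (by linarith))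
      have h3 : μ * ‖u‖ ^ 2 ≤ μ * (|K| + 1) ^ 2 := by gcongr
      linarith) hy0 (hP₁ y hy ((le_max_left _ _).trans hPy)) (hP₂ y ((le_max_right _ _).trans hPy))
  refine hcore.trans ?_
  generalize (∫ u in Metric.closedBall (0 : Space) K', σ ^ 2 / (u 2 ^ 2 + σ ^ 2)) = J at hσJ ⊢
  generalize (volume (Metric.closedBall (0 : Space) K')).toReal = vol at hvol0 hε2 ⊢
  generalize obC k β y = c at hc ⊢
  generalize 6 * C₁ * K' + 3 * L * C₁ + 6 = M₁ at hM₁ hσJ ⊢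
  have t1 : 4 / 3 * (M₁ * J) ≤ ε / 3 := by
    have : M₁ * J ≤ M₁ * (ε / (4 * M₁)) := by gcongr
    have e : M₁ * (ε / (4 * M₁)) = ε / 4 := by field_simp
    linarith
  have t2 : 4 * L * vol / σ * ε' ≤ ε / 3 := by
    have : 4 * L * vol / σ * ε' ≤ 4 * L * vol / σ * (ε * σ / (12 * L * (vol + 1))) := by gcongr
    have e : 4 * L * vol / σ * (ε * σ / (12 * L * (vol + 1))) = ε / 3 * (vol / (vol + 1)) := by
      field_simp
      ring
    have h5 : vol / (vol + 1) ≤ 1 := div_le_one_of_le₀ (by linarith) (by positivity)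
    have h6 : ε / 3 * (vol / (vol + 1)) ≤ ε / 3 * 1 := by gcongr
    linarith
  have t3 : 8 / 3 * ((C₁ * K' + 1) * L ^ 2) * (ε / (8 * (C₁ * K' + 1) * L ^ 2)) = ε / 3 := by
    field_simp
  rw [mul_comm ε c]
  refine mul_le_mul_of_nonneg_left ?_ hc.le
  linarith

end Claimed.Open.R278
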