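import Claimed.Open.R278.Tensor

/-!
# The sharp Poincaré inequality for the weight `sech⁴` on the line

This is the spectral gap `3/2` of the Pöschl–Teller operator `-½ d²/dx² - 3 sech² x`, written in
the ground state representation (ground state `sech²`, first excited state `sech · tanh`).
-/

open MeasureTheory Filter Topology Set
open scoped ContDiff InnerProductSpace ENNReal

noncomputable section

set_option linter.unusedSectionVars false

namespace Claimed.Open.R278

/-- The hyperbolic secant. -/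
def sech (x : ℝ) : ℝ := (Real.cosh x)⁻¹

theorem sech_pos (x : ℝ) : 0 < sech x := inv_pos.2 (Real.cosh_pos x)

theorem sech_le_one (x : ℝ) : sech x ≤ 1 := inv_le_one_of_one_le₀ (Real.one_le_cosh x)

theorem sech_neg (x : ℝ) : sech (-x) = sech x := by simp [sech]

theorem sech_mul_cosh (x : ℝ) : sech x * Real.cosh x = 1 := inv_mul_cancel₀ (Real.cosh_pos x).ne'

theorem continuous_sech : Continuous sech :=
  Real.continuous_cosh.inv₀ fun x => (Real.cosh_pos x).ne'

theorem hasDerivAt_sech (x : ℝ) : HasDerivAt sech (-(Real.sinh x * sech x ^ 2)) x := by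
  have := (Real.hasDerivAt_cosh x).inv (Real.cosh_pos x).ne'
  refine this.congr_deriv ?_
  simp only [sech]
  field_simp

theorem contDiff_sech : ContDiff ℝ ∞ sech :=
  Real.contDiff_cosh.inv fun x => (Real.cosh_pos x).ne'

theorem sech_le (x : ℝ) : sech x ≤ 4 * (1 + x ^ 2)⁻¹ := by
  have h : ∀ y : ℝ, 0 ≤ y → (1 + y ^ 2) / 4 ≤ Real.cosh y := by
    intro y hy
    have h1 := Real.quadratic_le_exp_of_nonneg hy
    have h2 := Real.exp_pos (-y)
    rw [Real.cosh_eq]
    nlinarith
  have h' : (1 + x ^ 2) / 4 ≤ Real.cosh x := by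
    have := h |x| (abs_nonneg x)
    rwa [Real.cosh_abs, sq_abs] at this
  have hp : (0 : ℝ) < (1 + x ^ 2) / 4 := by positivity
  calc sech x ≤ ((1 + x ^ 2) / 4)⁻¹ := inv_anti₀ hp h'
    _ = 4 * (1 + x ^ 2)⁻¹ := by rw [inv_div, div_eq_mul_inv]

theorem integrable_sech : Integrable sech :=
  (integrable_inv_one_add_sq.const_mul 4).mono' continuous_sech.aestronglyMeasurable
    (ae_of_all _ fun x => by
      rw [Real.norm_eq_abs, abs_of_pos (sech_pos x)]; exact sech_le x)

/-- A continuous function dominated by a multiple of `sech` is integrable. -/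
theorem integrable_of_le_sech {f : ℝ → ℝ} (hf : Continuous f) {C : ℝ} (h : ∀ x, |f x| ≤ C * sech x) :
    Integrable f :=
  (integrable_sech.const_mul C).mono' hf.aestronglyMeasurable (ae_of_all _ h)

theorem sech_pow_le (k : ℕ) (x : ℝ) : sech x ^ (k + 1) ≤ sech x := by
  rw [pow_succ]
  exact mul_le_of_le_one_left (sech_pos x).le (pow_le_one₀ (sech_pos x).le (sech_le_one x))

/-- A bounded continuous function times `sech^{k+1}` is integrable. -/
theorem integrable_sech_pow_mul (k : ℕ) {f : ℝ → ℝ} (hf : Continuous f) {C : ℝ}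
    (h : ∀ x, |f x| ≤ C) : Integrable fun x => sech x ^ (k + 1) * f x := by
  refine integrable_of_le_sech ((continuous_sech.pow _).mul hf) (C := C) fun x => ?_
  have hC : 0 ≤ C := (abs_nonneg _).trans (h x)
  rw [abs_mul, abs_of_pos (pow_pos (sech_pos x) _), mul_comm]
  exact mul_le_mul (h x) (sech_pow_le k x) (pow_pos (sech_pos x) _).le hC

variable {E : Type*} [NormedAddCommGroup E] [InnerProductSpace ℂ E] [NormedSpace ℝ E]
  [CompleteSpace E]

section HalfLine

variable {ζ : ℝ → E}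

theorem norm_sub_sq_le_sinh_mul (hζ : ContDiff ℝ 1 ζ) {x : ℝ} (hx : 0 ≤ x) :
    ‖ζ x - ζ 0‖ ^ 2 ≤ Real.sinh x * ∫ t in (0 : ℝ)..x, ‖deriv ζ t‖ ^ 2 * sech t := by
  have hd : Continuous (deriv ζ) := hζ.continuous_deriv (by simp)
  have h1 : ζ x - ζ 0 = ∫ t in (0 : ℝ)..x, deriv ζ t :=
    (intervalIntegral.integral_deriv_eq_sub (fun t _ => hζ.differentiable (by simp) t)
      (hd.intervalIntegrable _ _)).symm
  have h2 : ‖ζ x - ζ 0‖ ≤ ∫ t in (0 : ℝ)..x, ‖deriv ζ t‖ := by
    rw [h1]; exact intervalIntegral.norm_integral_le_integral_norm hx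
  have cs := sq_integral_mul_le (ν := volume.restrict (Ioc 0 x)) (ρ := Real.cosh)
    (h := fun t => ‖deriv ζ t‖ * sech t) (fun t => (Real.cosh_pos t).le)
    (Real.continuous_cosh.integrableOn_Ioc)
    ((Real.continuous_cosh.mul (hd.norm.mul continuous_sech)).integrableOn_Ioc)
    ((Real.continuous_cosh.mul ((hd.norm.mul continuous_sech).pow 2)).integrableOn_Ioc)
  have e1 : ∀ t, Real.cosh t * (‖deriv ζ t‖ * sech t) = ‖deriv ζ t‖ := fun t => by
    rw [mul_comm ‖deriv ζ t‖, ← mul_assoc, mul_comm (Real.cosh t), sech_mul_cosh, one_mul]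
  have e2 : ∀ t, Real.cosh t * (‖deriv ζ t‖ * sech t) ^ 2 = ‖deriv ζ t‖ ^ 2 * sech t := fun t => by
    have := sech_mul_cosh t
    calc Real.cosh t * (‖deriv ζ t‖ * sech t) ^ 2
        = ‖deriv ζ t‖ ^ 2 * sech t * (sech t * Real.cosh t) := by ring
      _ = _ := by rw [this, mul_one]
  simp only [e1, e2] at cs
  rw [← intervalIntegral.integral_of_le hx, ← intervalIntegral.integral_of_le hx,
    ← intervalIntegral.integral_of_le hx] at cs
  have hcosh : ∫ t in (0 : ℝ)..x, Real.cosh t = Real.sinh x := by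
    rw [intervalIntegral.integral_eq_sub_of_hasDerivAt (fun t _ => Real.hasDerivAt_sinh t)
      (Real.continuous_cosh.intervalIntegrable _ _)]
    simp
  rw [hcosh] at cs
  exact (pow_le_pow_left₀ (norm_nonneg _) h2 2).trans cs

theorem intervalIntegral_weighted_le (hζ : ContDiff ℝ 1 ζ) {R : ℝ} (hR : 0 ≤ R) :
    ∫ x in (0 : ℝ)..R, sech x ^ 4 * ‖ζ x - ζ 0‖ ^ 2 ≤
      (1 / 3) * ∫ x in (0 : ℝ)..R, sech x ^ 4 * ‖deriv ζ x‖ ^ 2 := by
  have hd : Continuous (deriv ζ) := hζ.continuous_deriv (by simp)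
  set g : ℝ → ℝ := fun t => ‖deriv ζ t‖ ^ 2 * sech t with hg
  have hgc : Continuous g := (hd.norm.pow 2).mul continuous_sech
  set Φ : ℝ → ℝ := fun x => ∫ t in (0 : ℝ)..x, g t with hΦ
  have hΦd : ∀ x, HasDerivAt Φ (g x) x := fun x => (hgc.integral_hasStrictDerivAt 0 x).hasDerivAt
  have hΦc : Continuous Φ := continuous_iff_continuousAt.2 fun x => (hΦd x).continuousAt
  have hΦ0 : ∀ x, 0 ≤ x → 0 ≤ Φ x := fun x hx =>
    intervalIntegral.integral_nonneg hx fun t _ => mul_nonneg (sq_nonneg _) (sech_pos t).le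
  have hK : ∀ x, HasDerivAt (fun x => sech x ^ 3 / 3 * Φ x)
      (-(sech x ^ 4 * (Real.sinh x * Φ x)) + (1 / 3) * (sech x ^ 4 * ‖deriv ζ x‖ ^ 2)) x := by
    intro x
    have := (((hasDerivAt_sech x).pow 3).div_const 3).mul (hΦd x)
    refine HasDerivAt.congr_deriv (f := fun x => sech x ^ 3 / 3 * Φ x) this ?_
    simp only [hg, Pi.pow_apply]
    push_cast
    ring
  have c1 : Continuous fun x => sech x ^ 4 * (Real.sinh x * Φ x) :=
    (continuous_sech.pow 4).mul (Real.continuous_sinh.mul hΦc)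
  have c2 : Continuous fun x => sech x ^ 4 * ‖deriv ζ x‖ ^ 2 :=
    (continuous_sech.pow 4).mul (hd.norm.pow 2)
  have c3 : Continuous fun x => sech x ^ 4 * ‖ζ x - ζ 0‖ ^ 2 :=
    (continuous_sech.pow 4).mul ((hζ.continuous.sub continuous_const).norm.pow 2)
  have c1n : Continuous fun x => -(sech x ^ 4 * (Real.sinh x * Φ x)) := c1.neg
  have c2m : Continuous fun x => (1 / 3) * (sech x ^ 4 * ‖deriv ζ x‖ ^ 2) := c2.const_mul (1 / 3)
  have ftc := intervalIntegral.integral_eq_sub_of_hasDerivAt (a := 0) (b := R) (fun x _ => hK x)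
    ((c1n.add c2m).intervalIntegrable _ _)
  rw [intervalIntegral.integral_add (c1n.intervalIntegrable _ _)
    (c2m.intervalIntegrable _ _), intervalIntegral.integral_neg,
    intervalIntegral.integral_const_mul] at ftc
  have hΦ00 : Φ 0 = 0 := by simp [hΦ]
  rw [hΦ00, mul_zero, sub_zero] at ftc
  have hpos : 0 ≤ sech R ^ 3 / 3 * Φ R :=
    mul_nonneg (div_nonneg (pow_pos (sech_pos R) 3).le (by norm_num)) (hΦ0 R hR)
  have hmono : ∫ x in (0 : ℝ)..R, sech x ^ 4 * ‖ζ x - ζ 0‖ ^ 2 ≤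
      ∫ x in (0 : ℝ)..R, sech x ^ 4 * (Real.sinh x * Φ x) := by
    refine intervalIntegral.integral_mono_on hR (c3.intervalIntegrable _ _)
      (c1.intervalIntegrable _ _) fun x hx => ?_
    exact mul_le_mul_of_nonneg_left (norm_sub_sq_le_sinh_mul hζ hx.1) (pow_pos (sech_pos x) 4).le
  linarith

end HalfLine

section Line

variable {ζ : ℝ → E}

theorem integrable_weighted_sub (hζ : Continuous ζ) {B : ℝ} (hB : ∀ x, ‖ζ x‖ ≤ B) (c : E) :
    Integrable fun x => sech x ^ 4 * ‖ζ x - c‖ ^ 2 := by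
  refine integrable_sech_pow_mul 3 ((hζ.sub continuous_const).norm.pow 2) (C := (B + ‖c‖) ^ 2)
    fun x => ?_
  rw [abs_of_nonneg (sq_nonneg _)]
  exact pow_le_pow_left₀ (norm_nonneg _) ((norm_sub_le _ _).trans (by linarith [hB x])) 2

theorem integrable_weighted (hζ : Continuous ζ) {B : ℝ} (hB : ∀ x, ‖ζ x‖ ≤ B) :
    Integrable fun x => sech x ^ 4 * ‖ζ x‖ ^ 2 := by
  simpa using integrable_weighted_sub hζ hB 0

theorem integral_Ioi_weighted_le (hζ : ContDiff ℝ 1 ζ) {B B' : ℝ} (hB : ∀ x, ‖ζ x‖ ≤ B)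
    (hB' : ∀ x, ‖deriv ζ x‖ ≤ B') :
    ∫ x in Ioi (0 : ℝ), sech x ^ 4 * ‖ζ x - ζ 0‖ ^ 2 ≤
      (1 / 3) * ∫ x in Ioi (0 : ℝ), sech x ^ 4 * ‖deriv ζ x‖ ^ 2 := by
  have i1 := integrable_weighted_sub hζ.continuous hB (ζ 0)
  have i2 := integrable_weighted (hζ.continuous_deriv (by simp)) hB'
  have t1 := intervalIntegral_tendsto_integral_Ioi 0 i1.integrableOn tendsto_id
  have t2 := (intervalIntegral_tendsto_integral_Ioi 0 i2.integrableOn tendsto_id).const_mul (1 / 3)
  exact le_of_tendsto_of_tendsto t1 t2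
    ((eventually_ge_atTop 0).mono fun R hR => intervalIntegral_weighted_le hζ hR)

/-- The sharp weighted inequality on the line. -/
theorem integral_weighted_le (hζ : ContDiff ℝ 1 ζ) {B B' : ℝ} (hB : ∀ x, ‖ζ x‖ ≤ B)
    (hB' : ∀ x, ‖deriv ζ x‖ ≤ B') :
    ∫ x, sech x ^ 4 * ‖ζ x - ζ 0‖ ^ 2 ≤ (1 / 3) * ∫ x, sech x ^ 4 * ‖deriv ζ x‖ ^ 2 := by
  have i1 := integrable_weighted_sub hζ.continuous hB (ζ 0)
  have i2 := integrable_weighted (hζ.continuous_deriv (by simp)) hB'
  have hpos := integral_Ioi_weighted_le hζ hB hB'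
  have d : ∀ x, deriv (fun x => ζ (-x)) x = - deriv ζ (-x) := fun x => deriv_comp_neg ζ x
  have hneg := integral_Ioi_weighted_le (ζ := fun x => ζ (-x)) (hζ.comp contDiff_neg)
    (fun x => hB _) (B' := B') (fun x => by rw [d, norm_neg]; exact hB' _)
  simp only [d, norm_neg, neg_zero] at hneg
  have e1 : ∫ x in Ioi (0 : ℝ), sech x ^ 4 * ‖ζ (-x) - ζ 0‖ ^ 2 =
      ∫ x in Iic (0 : ℝ), sech x ^ 4 * ‖ζ x - ζ 0‖ ^ 2 := by
    have := integral_comp_neg_Ioi (0 : ℝ) (fun x => sech x ^ 4 * ‖ζ x - ζ 0‖ ^ 2)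
    simpa [sech_neg] using this
  have e2 : ∫ x in Ioi (0 : ℝ), sech x ^ 4 * ‖deriv ζ (-x)‖ ^ 2 =
      ∫ x in Iic (0 : ℝ), sech x ^ 4 * ‖deriv ζ x‖ ^ 2 := by
    have := integral_comp_neg_Ioi (0 : ℝ) (fun x => sech x ^ 4 * ‖deriv ζ x‖ ^ 2)
    simpa [sech_neg] using this
  rw [e1, e2] at hneg
  rw [← intervalIntegral.integral_Iic_add_Ioi (b := 0) i1.integrableOn i1.integrableOn,
    ← intervalIntegral.integral_Iic_add_Ioi (b := 0) i2.integrableOn i2.integrableOn]
  linarith

end Line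

/-! ### The probability measure `κ⁻¹ sech⁴ dx` -/

/-- `κ = ∫ sech⁴`. -/
def kappa : ℝ := ∫ x, sech x ^ 4

theorem integrable_sech_pow_four : Integrable fun x => sech x ^ 4 := by
  simpa using integrable_sech_pow_mul 3 (f := fun _ => 1) continuous_const (C := 1) (by simp)

theorem kappa_pos : 0 < kappa := by
  rw [kappa, integral_pos_iff_support_of_nonneg (fun x => (pow_pos (sech_pos x) 4).le)
    integrable_sech_pow_four]
  have : Function.support (fun x => sech x ^ 4) = univ := by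
    ext x; simp [(sech_pos x).ne']
  rw [this]; simp

/-- The density of the probability measure. -/
def ptDensity (x : ℝ) : ℝ≥0∞ := ENNReal.ofReal (sech x ^ 4 / kappa)

theorem measurable_ptDensity : Measurable ptDensity :=
  ((continuous_sech.pow 4).div_const kappa).measurable.ennreal_ofReal

/-- The probability measure `κ⁻¹ sech⁴ dx`. -/
def ptMeasure : Measure ℝ := volume.withDensity ptDensity

instance isProbabilityMeasure_ptMeasure : IsProbabilityMeasure ptMeasure := by
  constructor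
  rw [ptMeasure, withDensity_apply _ MeasurableSet.univ, Measure.restrict_univ]
  simp only [ptDensity]
  rw [← ofReal_integral_eq_lintegral_ofReal (integrable_sech_pow_four.div_const kappa)
    (ae_of_all _ fun x => div_nonneg (pow_pos (sech_pos x) 4).le kappa_pos.le),
    integral_div, ← kappa, div_self kappa_pos.ne', ENNReal.ofReal_one]

theorem integral_pi_ptMeasure {F : Type*} [NormedAddCommGroup F] [NormedSpace ℝ F] (n : ℕ)
    (h : (Fin n → ℝ) → F) :
    ∫ y, h y ∂(Measure.pi fun _ : Fin n => ptMeasure) =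
      (kappa ^ n)⁻¹ • ∫ y, (∏ k, sech (y k) ^ 4) • h y := by
  have hs : SigmaFinite ((volume : Measure ℝ).withDensity ptDensity) :=
    inferInstanceAs (SigmaFinite ptMeasure)
  have hm : Measurable fun y : Fin n → ℝ => ∏ k, ptDensity (y k) :=
    Finset.measurable_prod _ fun k _ => measurable_ptDensity.comp (measurable_pi_apply k)
  simp only [ptMeasure]
  rw [pi_withDensity_eq _ measurable_ptDensity n, integral_withDensity_eq_integral_toReal_smul hm
    (ae_of_all _ fun y => ENNReal.prod_lt_top fun k _ => ENNReal.ofReal_lt_top),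
    ← integral_smul]
  refine integral_congr_ae (ae_of_all _ fun y => ?_)
  simp only [ptDensity, ENNReal.toReal_prod]
  rw [smul_smul]
  congr 1
  have : ∀ k, (ENNReal.ofReal (sech (y k) ^ 4 / kappa)).toReal = sech (y k) ^ 4 / kappa := fun k =>
    ENNReal.toReal_ofReal (div_nonneg (pow_pos (sech_pos _) 4).le kappa_pos.le)
  simp only [this, Finset.prod_div_distrib, Finset.prod_const, Finset.card_univ, Fintype.card_fin]
  rw [div_eq_inv_mul]

theorem integral_ptMeasure {F : Type*} [NormedAddCommGroup F] [NormedSpace ℝ F] (h : ℝ → F) :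
    ∫ x, h x ∂ptMeasure = kappa⁻¹ • ∫ x, sech x ^ 4 • h x := by
  rw [ptMeasure, integral_withDensity_eq_integral_toReal_smul measurable_ptDensity
    (ae_of_all _ fun y => ENNReal.ofReal_lt_top), ← integral_smul]
  refine integral_congr_ae (ae_of_all _ fun y => ?_)
  simp only [ptDensity]
  rw [smul_smul, ENNReal.toReal_ofReal (div_nonneg (pow_pos (sech_pos _) 4).le kappa_pos.le),
    div_eq_inv_mul]

/-- The Poincaré inequality with the sharp constant `1/3`. -/
theorem vari_ptMeasure_le {ζ : ℝ → E} (hζ : ContDiff ℝ 1 ζ) (hc : HasCompactSupport ζ) :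
    vari ptMeasure ζ ≤ (1 / 3) * ∫ s, ‖deriv ζ s‖ ^ 2 ∂ptMeasure := by
  obtain ⟨B, hB⟩ := hc.exists_bound_of_continuous hζ.continuous
  obtain ⟨B', hB'⟩ := hc.deriv.exists_bound_of_continuous (hζ.continuous_deriv (by simp))
  have h1 : Integrable ζ ptMeasure :=
    .of_bound hζ.continuous.aestronglyMeasurable B (ae_of_all _ hB)
  have h2 : Integrable (fun p => ‖ζ p‖ ^ 2) ptMeasure :=
    .of_bound (hζ.continuous.norm.pow 2).aestronglyMeasurable (B ^ 2) (ae_of_all _ fun p => by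
      rw [Real.norm_eq_abs, abs_of_nonneg (sq_nonneg _)]
      exact pow_le_pow_left₀ (norm_nonneg _) (hB p) 2)
  refine (vari_le h1 h2 (ζ 0)).trans ?_
  rw [integral_ptMeasure, integral_ptMeasure]
  simp only [smul_eq_mul]
  have := integral_weighted_le hζ hB hB'
  have hk : 0 < kappa⁻¹ := inv_pos.2 kappa_pos
  nlinarith

/-- The Poincaré inequality in `n` variables. -/
theorem vari_pi_ptMeasure_le (n : ℕ) {ζ : (Fin n → ℝ) → E} (hζ : ContDiff ℝ 1 ζ)
    (hc : HasCompactSupport ζ) :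
    vari (Measure.pi fun _ : Fin n => ptMeasure) ζ ≤
      (1 / 3) * ∑ k, ∫ x, ‖fderiv ℝ ζ x (Pi.single k 1)‖ ^ 2 ∂(Measure.pi fun _ : Fin n => ptMeasure) :=
  vari_pi_le (fun _ h h' => vari_ptMeasure_le h h') n ζ hζ hc

end Claimed.Open.R278
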