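import Claimed.Open.R278.STParam

/-!
# Package ST, leaf ST-F: calculus of relative derivative bounds, and the bounds for the Volterra terms

`RelBd f p η A B`:  `f ≥ 0`, `|f'| ≤ A η f`, `|f''| ≤ B η f` at `p`  (`0 ≤ η ≤ 1`).
* product: `(A + A', B + B' + 2 A A')`   [`(fg)'' = f''g + 2f'g' + fg''`, `η² ≤ η`];
* inverse (`f p > 0`): `(A, B + 2A²)`    [`(1/f)'' = -f''/f² + 2f'²/f³`];
* sums, positive multiples, integrals of nonnegative functions keep `(A,B)`; monotone in `(A,B)`.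
`iteratedDeriv 2 f = deriv (deriv f)` (`iteratedDeriv_succ`, `iteratedDeriv_one`); `ContDiffAt ℝ 2 f p` gives differentiability of `f` near `p`
and of `deriv f` at `p`.

Recursion: `m : (1,1)`, `1/m : (1,3)`; `j_l : (A_l, B_l)`, `j_l/m : (A_l+1, B_l+3+2A_l)`, `u_l` the same;
`m u_l : (A_l+2, B_l+4A_l+6)`, `j_{l+1}` the same.  So `A_l = 2l`, `B_l = 4l²+2l`, and `u_l : (2l+1, 4l²+6l+3)`.
-/

open MeasureTheory Set
open scoped ContDiff Topology

noncomputable section

namespace Claimed.Open.R278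

variable {f g : ℝ → ℝ} {p η A B A' B' : ℝ}

theorem RelBd.mono (h : RelBd f p η A B) (hη : 0 ≤ η) (hA : A ≤ A') (hB : B ≤ B') : RelBd f p η A' B' where
  smooth := h.smooth
  nonneg := h.nonneg
  d1 := h.d1.trans (by have := h.nonneg; gcongr)
  d2 := h.d2.trans (by have := h.nonneg; gcongr)

theorem RelBd.const {c : ℝ} (hc : 0 ≤ c) : RelBd (fun _ => c) p η 0 0 where
  smooth := contDiffAt_const
  nonneg := hc
  d1 := by simp
  d2 := by simp [iteratedDeriv_const]

theorem st_iteratedDeriv_two_mul (hf : ContDiffAt ℝ 2 f p) (hg : ContDiffAt ℝ 2 g p) :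
    iteratedDeriv 2 (fun x => f x * g x) p
      = f p * iteratedDeriv 2 g p + 2 * deriv f p * deriv g p + iteratedDeriv 2 f p * g p := by
  rw [iteratedDeriv_fun_mul hf hg]
  simp [Finset.sum_range_succ, iteratedDeriv_one, iteratedDeriv_zero]

theorem RelBd.mul (hf : RelBd f p η A B) (hg : RelBd g p η A' B') (hη : 0 ≤ η) (hη1 : η ≤ 1)
    (hA : 0 ≤ A) (hA' : 0 ≤ A') : RelBd (fun x => f x * g x) p η (A + A') (B + B' + 2 * A * A') where
  smooth := hf.smooth.mul hg.smooth
  nonneg := mul_nonneg hf.nonneg hg.nonneg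
  d1 := by
    have h1 : DifferentiableAt ℝ f p := hf.smooth.differentiableAt (by norm_num)
    have h2 : DifferentiableAt ℝ g p := hg.smooth.differentiableAt (by norm_num)
    rw [deriv_fun_mul h1 h2]
    have e1 : |deriv f p * g p| ≤ A * η * f p * g p := by
      rw [abs_mul, abs_of_nonneg hg.nonneg]
      exact mul_le_mul_of_nonneg_right hf.d1 hg.nonneg
    have e2 : |f p * deriv g p| ≤ f p * (A' * η * g p) := by
      rw [abs_mul, abs_of_nonneg hf.nonneg]
      exact mul_le_mul_of_nonneg_left hg.d1 hf.nonneg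
    calc |deriv f p * g p + f p * deriv g p| ≤ |deriv f p * g p| + |f p * deriv g p| := abs_add_le _ _
      _ ≤ A * η * f p * g p + f p * (A' * η * g p) := add_le_add e1 e2
      _ = (A + A') * η * (f p * g p) := by ring
  d2 := by
    rw [st_iteratedDeriv_two_mul hf.smooth hg.smooth]
    have hfg : 0 ≤ f p * g p := mul_nonneg hf.nonneg hg.nonneg
    have e1 : |f p * iteratedDeriv 2 g p| ≤ f p * (B' * η * g p) := by
      rw [abs_mul, abs_of_nonneg hf.nonneg]
      exact mul_le_mul_of_nonneg_left hg.d2 hf.nonneg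
    have e3 : |iteratedDeriv 2 f p * g p| ≤ B * η * f p * g p := by
      rw [abs_mul, abs_of_nonneg hg.nonneg]
      exact mul_le_mul_of_nonneg_right hf.d2 hg.nonneg
    have e2 : |2 * deriv f p * deriv g p| ≤ 2 * A * A' * η * (f p * g p) := by
      rw [abs_mul, abs_mul, abs_of_pos (by norm_num : (0 : ℝ) < 2)]
      have h3 : |deriv f p| * |deriv g p| ≤ (A * η * f p) * (A' * η * g p) :=
        mul_le_mul hf.d1 hg.d1 (abs_nonneg _) (by have := hf.nonneg; positivity)
      have h4 : (A * η * f p) * (A' * η * g p) ≤ A * A' * η * (f p * g p) := by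
        have : η * η ≤ η := by nlinarith
        have h5 : 0 ≤ A * A' * (f p * g p) := by positivity
        calc (A * η * f p) * (A' * η * g p) = (η * η) * (A * A' * (f p * g p)) := by ring
          _ ≤ η * (A * A' * (f p * g p)) := mul_le_mul_of_nonneg_right this h5
          _ = A * A' * η * (f p * g p) := by ring
      nlinarith
    calc |f p * iteratedDeriv 2 g p + 2 * deriv f p * deriv g p + iteratedDeriv 2 f p * g p|
        ≤ |f p * iteratedDeriv 2 g p| + |2 * deriv f p * deriv g p| + |iteratedDeriv 2 f p * g p| :=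
          abs_add_three _ _ _
      _ ≤ f p * (B' * η * g p) + 2 * A * A' * η * (f p * g p) + B * η * f p * g p :=
          add_le_add (add_le_add e1 e2) e3
      _ = (B + B' + 2 * A * A') * η * (f p * g p) := by ring

theorem RelBd.inv (hf : RelBd f p η A B) (hpos : 0 < f p) (hη : 0 ≤ η) (hη1 : η ≤ 1) (hA : 0 ≤ A) :
    RelBd (fun x => (f x)⁻¹) p η A (B + 2 * A ^ 2) := by
  have hsm : ContDiffAt ℝ 2 (fun x => (f x)⁻¹) p := hf.smooth.inv hpos.ne'
  have h1 : DifferentiableAt ℝ f p := hf.smooth.differentiableAt (by norm_num)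
  have hd1 : deriv (fun x => (f x)⁻¹) p = -deriv f p / f p ^ 2 := deriv_fun_inv'' h1 hpos.ne'
  have hone : (fun x => f x * (f x)⁻¹) =ᶠ[𝓝 p] fun _ => (1 : ℝ) := by
    have : ∀ᶠ x in 𝓝 p, 0 < f x := hf.smooth.continuousAt.eventually (lt_mem_nhds hpos)
    filter_upwards [this] with x hx
    exact mul_inv_cancel₀ hx.ne'
  have h2 := st_iteratedDeriv_two_mul hf.smooth hsm
  rw [hone.iteratedDeriv_eq 2, iteratedDeriv_const] at h2
  simp only [OfNat.ofNat_ne_zero, if_false] at h2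
  have hd2 : iteratedDeriv 2 (fun x => (f x)⁻¹) p
      = 2 * deriv f p ^ 2 / f p ^ 3 - iteratedDeriv 2 f p / f p ^ 2 := by
    rw [hd1] at h2
    field_simp
    field_simp at h2
    linarith
  refine ⟨hsm, (inv_pos.2 hpos).le, ?_, ?_⟩
  · rw [hd1, abs_div, abs_neg, abs_of_pos (by positivity : 0 < f p ^ 2), div_le_iff₀ (by positivity)]
    calc |deriv f p| ≤ A * η * f p := hf.d1
      _ = A * η * (f p)⁻¹ * f p ^ 2 := by field_simp
  · rw [hd2]
    have e1 : |2 * deriv f p ^ 2 / f p ^ 3| ≤ 2 * A ^ 2 * η * (f p)⁻¹ := by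
      rw [abs_div, abs_of_pos (by positivity : 0 < f p ^ 3), div_le_iff₀ (by positivity), abs_mul,
        abs_of_pos (by norm_num : (0 : ℝ) < 2), abs_pow]
      have h3 : |deriv f p| ^ 2 ≤ (A * η * f p) ^ 2 := pow_le_pow_left₀ (abs_nonneg _) hf.d1 2
      have h4 : (A * η * f p) ^ 2 ≤ A ^ 2 * η * f p ^ 2 := by
        have : η * η ≤ η := by nlinarith
        have h5 : 0 ≤ A ^ 2 * f p ^ 2 := by positivity
        calc (A * η * f p) ^ 2 = (η * η) * (A ^ 2 * f p ^ 2) := by ring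
          _ ≤ η * (A ^ 2 * f p ^ 2) := mul_le_mul_of_nonneg_right this h5
          _ = A ^ 2 * η * f p ^ 2 := by ring
      calc 2 * |deriv f p| ^ 2 ≤ 2 * (A ^ 2 * η * f p ^ 2) := by linarith
        _ = 2 * A ^ 2 * η * (f p)⁻¹ * f p ^ 3 := by field_simp
    have e2 : |iteratedDeriv 2 f p / f p ^ 2| ≤ B * η * (f p)⁻¹ := by
      rw [abs_div, abs_of_pos (by positivity : 0 < f p ^ 2), div_le_iff₀ (by positivity)]
      calc |iteratedDeriv 2 f p| ≤ B * η * f p := hf.d2
        _ = B * η * (f p)⁻¹ * f p ^ 2 := by field_simp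
    calc |2 * deriv f p ^ 2 / f p ^ 3 - iteratedDeriv 2 f p / f p ^ 2|
        ≤ |2 * deriv f p ^ 2 / f p ^ 3| + |iteratedDeriv 2 f p / f p ^ 2| := abs_sub _ _
      _ ≤ 2 * A ^ 2 * η * (f p)⁻¹ + B * η * (f p)⁻¹ := add_le_add e1 e2
      _ = (B + 2 * A ^ 2) * η * (f p)⁻¹ := by ring

theorem RelBd.const_mul (hf : RelBd f p η A B) {c : ℝ} (hc : 0 ≤ c) : RelBd (fun x => c * f x) p η A B where
  smooth := contDiffAt_const.mul hf.smooth
  nonneg := mul_nonneg hc hf.nonneg
  d1 := by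
    rw [deriv_const_mul_field, abs_mul, abs_of_nonneg hc]
    calc c * |deriv f p| ≤ c * (A * η * f p) := mul_le_mul_of_nonneg_left hf.d1 hc
      _ = A * η * (c * f p) := by ring
  d2 := by
    rw [iteratedDeriv_const_mul_field, abs_mul, abs_of_nonneg hc]
    calc c * |iteratedDeriv 2 f p| ≤ c * (B * η * f p) := mul_le_mul_of_nonneg_left hf.d2 hc
      _ = B * η * (c * f p) := by ring

theorem RelBd.sum {ι : Type*} (s : Finset ι) {F : ι → ℝ → ℝ} (h : ∀ i ∈ s, RelBd (F i) p η A B) :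
    RelBd (fun x => ∑ i ∈ s, F i x) p η A B where
  smooth := ContDiffAt.sum fun i hi => (h i hi).smooth
  nonneg := Finset.sum_nonneg fun i hi => (h i hi).nonneg
  d1 := by
    rw [deriv_fun_sum fun i hi => (h i hi).smooth.differentiableAt (by norm_num), Finset.mul_sum]
    exact (Finset.abs_sum_le_sum_abs _ _).trans (Finset.sum_le_sum fun i hi => (h i hi).d1)
  d2 := by
    rw [iteratedDeriv_fun_sum fun i hi => (h i hi).smooth, Finset.mul_sum]
    exact (Finset.abs_sum_le_sum_abs _ _).trans (Finset.sum_le_sum fun i hi => (h i hi).d2)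

theorem st_contDiff_interval {G : ℝ × ℝ → ℝ} (hG : ContDiff ℝ 2 G) (a b : ℝ) :
    ContDiff ℝ 2 (fun p' : ℝ => ∫ s in a..b, G (p', s)) := by
  have h1 : ∀ c : ℝ, ContDiff ℝ 2 (fun p' : ℝ => ∫ s in c..stripL, G (p', s)) := fun c =>
    (st_contDiff_tail hG).comp (contDiff_id.prodMk contDiff_const : ContDiff ℝ 2 fun p' : ℝ => (p', c))
  have h2 : (fun p' : ℝ => ∫ s in a..b, G (p', s))
      = fun p' => (∫ s in a..stripL, G (p', s)) - ∫ s in b..stripL, G (p', s) := by
    funext p'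
    have hc : Continuous fun s => G (p', s) := hG.continuous.comp (by fun_prop)
    rw [← intervalIntegral.integral_add_adjacent_intervals (hc.intervalIntegrable a b)
      (hc.intervalIntegrable b stripL)]
    ring
  rw [h2]
  exact (h1 a).sub (h1 b)

theorem RelBd.integral {G : ℝ × ℝ → ℝ} (hG : ContDiff ℝ 2 G) {a b : ℝ} (hab : a ≤ b)
    (h : ∀ s ∈ Icc a b, RelBd (fun p' => G (p', s)) p η A B) :
    RelBd (fun p' => ∫ s in a..b, G (p', s)) p η A B := by
  have hc : Continuous fun s => G (p, s) := hG.continuous.comp (by fun_prop)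
  obtain ⟨hc1, hc2⟩ := st_deriv_continuous hG p
  obtain ⟨hd1, hd2⟩ := st_deriv_tail hG a b p
  refine ⟨(st_contDiff_interval hG a b).contDiffAt,
    intervalIntegral.integral_nonneg hab fun s hs => (h s hs).nonneg, ?_, ?_⟩
  · rw [hd1, ← intervalIntegral.integral_const_mul]
    refine (intervalIntegral.abs_integral_le_integral_abs hab).trans ?_
    exact intervalIntegral.integral_mono_on hab (hc1.abs.intervalIntegrable _ _)
      ((continuous_const.mul hc).intervalIntegrable _ _) fun s hs => (h s hs).d1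
  · rw [hd2, ← intervalIntegral.integral_const_mul]
    refine (intervalIntegral.abs_integral_le_integral_abs hab).trans ?_
    exact intervalIntegral.integral_mono_on hab (hc2.abs.intervalIntegrable _ _)
      ((continuous_const.mul hc).intervalIntegrable _ _) fun s hs => (h s hs).d2

theorem StripWeight.relBd {m : ℝ → ℝ → ℝ} {P : ℝ} (h : StripWeight m P η) (hp : P ≤ p) {z : ℝ}
    (hz : z ∈ Icc 0 stripL) : RelBd (fun p' => m p' z) p η 1 1 := by
  have hd := h.der p z hp hz.1 hz.2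
  refine ⟨?_, (h.pos p z).le, ?_, ?_⟩
  · exact (h.smooth.comp (contDiff_id.prodMk contDiff_const : ContDiff ℝ 2 fun p' : ℝ => (p', z))).contDiffAt
  · rw [one_mul]
    linarith [abs_nonneg (iteratedDeriv 2 (fun p' => m p' z) p)]
  · rw [one_mul]
    linarith [abs_nonneg (deriv (fun p' => m p' z) p)]

theorem stU_relBd_of {m : ℝ → ℝ → ℝ} {P : ℝ} (h : StripWeight m P η) (hη : 0 ≤ η) (hη1 : η ≤ 1) {κ : ℝ}
    (l : ℕ) (hp : P ≤ p)
    (hJ : ∀ z ∈ Icc 0 stripL, RelBd (fun p' => stJ κ (m p') l z) p η (2 * l) (4 * l ^ 2 + 2 * l))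
    {z : ℝ} (hz : z ∈ Icc 0 stripL) :
    RelBd (fun p' => stU κ (m p') l z) p η (2 * l + 1) (4 * l ^ 2 + 6 * l + 3) := by
  have hG : ContDiff ℝ 2 (fun q : ℝ × ℝ => stJ κ (m q.1) l q.2 * (m q.1 q.2)⁻¹) :=
    (stJ_contDiff h.smooth h.pos κ l).mul (h.smooth.inv fun q => (h.pos _ _).ne')
  have key := RelBd.integral (p := p) (η := η) (A := 2 * l + 1) (B := 4 * l ^ 2 + 6 * l + 3) hG hz.2
    (fun s hs => by
      have hs' : s ∈ Icc 0 stripL := ⟨hz.1.trans hs.1, hs.2⟩
      have h1 := (h.relBd hp hs').inv (h.pos p s) hη hη1 zero_le_one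
      have h2 := (hJ s hs').mul h1 hη hη1 (by positivity) zero_le_one
      refine h2.mono hη le_rfl ?_
      nlinarith)
  have e : (fun p' => stU κ (m p') l z)
      = fun p' => ∫ s in z..stripL, stJ κ (m p') l s * (m p' s)⁻¹ := by
    funext p'
    simp only [stU, div_eq_mul_inv]
  rw [e]
  exact key

theorem stJ_relBd {m : ℝ → ℝ → ℝ} {P : ℝ} (h : StripWeight m P η) (hη : 0 ≤ η) (hη1 : η ≤ 1) {κ : ℝ}
    (hκ : 0 ≤ κ) (l : ℕ) (hp : P ≤ p) {z : ℝ} (hz : z ∈ Icc 0 stripL) :
    RelBd (fun p' => stJ κ (m p') l z) p η (2 * l) (4 * l ^ 2 + 2 * l) := by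
  induction l generalizing z with
  | zero =>
    have := RelBd.const (p := p) (η := η) (zero_le_one : (0 : ℝ) ≤ 1)
    simpa [stJ_zero] using this
  | succ l ih =>
    have hG : ContDiff ℝ 2 (fun q : ℝ × ℝ => m q.1 q.2 * stU κ (m q.1) l q.2) :=
      h.smooth.mul (stU_contDiff h.smooth h.pos κ l)
    have key := RelBd.integral (p := p) (η := η) (A := 2 * (l + 1 : ℕ))
      (B := 4 * ((l + 1 : ℕ) : ℝ) ^ 2 + 2 * (l + 1 : ℕ)) hG hz.2
      (fun s hs => by
        have hs' : s ∈ Icc 0 stripL := ⟨hz.1.trans hs.1, hs.2⟩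
        have h1 := stU_relBd_of h hη hη1 l hp (fun z hz => ih hz) hs'
        have h2 := (h.relBd hp hs').mul h1 hη hη1 zero_le_one (by positivity)
        refine h2.mono hη ?_ ?_
        · push_cast; linarith
        · push_cast; nlinarith)
    have e : (fun p' => stJ κ (m p') (l + 1) z)
        = fun p' => κ * ∫ s in z..stripL, m p' s * stU κ (m p') l s := by
      funext p'
      exact stJ_succ κ (m p') l z
    rw [e]
    exact key.const_mul hκ

theorem stU_relBd {m : ℝ → ℝ → ℝ} {P : ℝ} (h : StripWeight m P η) (hη : 0 ≤ η) (hη1 : η ≤ 1) {κ : ℝ}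
    (hκ : 0 ≤ κ) (l : ℕ) (hp : P ≤ p) {z : ℝ} (hz : z ∈ Icc 0 stripL) :
    RelBd (fun p' => stU κ (m p') l z) p η (2 * l + 1) (4 * l ^ 2 + 6 * l + 3) :=
  stU_relBd_of h hη hη1 l hp (fun _ hz' => stJ_relBd h hη hη1 hκ l hp hz') hz

end Claimed.Open.R278
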