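import Claimed.Open.R278.TopDefs

/-!
# Result 278, package ST (strip ODE, Lemma 4.4, margin): definitions and plan

Architect: helper214.  PURE 1-D ANALYSIS (plus one parameter `p`).  `L = stripL = 10`.

For a weight `ν > 0` on `[0, L]` and a constant `κ ≥ 0` (`κ = μ² = 1/100` for the exact strip solution,
`κ = μ₁² = 1/50` for the comparison family) the backward Volterra scheme (4.14) is

  `j₀ = 1`,   `u_l(z) = ∫_z^L j_l(s)/ν(s) ds`,   `j_{l+1}(z) = κ ∫_z^L ν(t) u_l(t) dt`.

All terms are positive on `z < L`.  With `J = ∑ j_l`, `Ũ = ∑ u_l`:  `Ũ' = -J/ν`, `(ν Ũ')' = -J' = κ ν Ũ`, `Ũ(L) = 0`.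

WHAT THE OTHER PACKAGES CONSUME
* `st_exists_stripSolution` (= `exists_stripSolution` of `Top.lean`): infinite series, NO parameter.        [STExist]
* `st_compare` (strict 1-D comparison + boundary point lemma), `st_margin_abs`.                           [STCompare]
* `st_margin_pos` (= `margin_pos` of `Top.lean`).                                                          [STMargin]
* `st_continuity`: `U'` depends continuously (uniformly on `[0,L]`) on the weight.                          [STCont]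
* `st_family`: the comparison family `𝒲(p,z)` = normalised TRUNCATED series (`N = 20`, `κ = 1/50`).       [STParam, STCalc, STFamily]
  A finite sum is jointly `C²` for free, the relative `p`-derivative bounds are `(2l+1) η ≤ 41 η` termwise,
  no termwise differentiation of an infinite series is needed, and
  `0.9 κ m 𝒲 ≤ (m 𝒲_z)_z ≤ κ m 𝒲`   (the last term of the sum is `≤ 𝒲/10` because `200^20/40! < 1/10`).
  So `𝒲(p,·)` is a strict 1-D SUBsolution for `μ² = 0.01 < 0.018` (hence `𝒲(M,·) ≤ U(M,·)` by `st_compare`) and a 1-D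
  SUPERsolution for `μ₁² = 0.02` (hence the boundary cost `st_cost` by a Riccati argument).
* `st_cost`, `st_cost_cos`: the boundary cost (4.22).                                                       [STCost]
-/

open MeasureTheory
open scoped ContDiff Topology

noncomputable section

namespace Claimed.Open.R278

/-- The flux terms `j_l` of the Volterra series (4.14) for the weight `ν` and the constant `κ`. -/
def stJ (κ : ℝ) (ν : ℝ → ℝ) : ℕ → ℝ → ℝ
  | 0 => fun _ => 1
  | l + 1 => fun z => κ * ∫ t in z..stripL, ν t * ∫ s in t..stripL, stJ κ ν l s / ν s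

/-- The terms `u_l(z) = ∫_z^L j_l/ν`. -/
def stU (κ : ℝ) (ν : ℝ → ℝ) (l : ℕ) (z : ℝ) : ℝ := ∫ s in z..stripL, stJ κ ν l s / ν s

theorem stJ_zero (κ : ℝ) (ν : ℝ → ℝ) (z : ℝ) : stJ κ ν 0 z = 1 := rfl

theorem stJ_succ (κ : ℝ) (ν : ℝ → ℝ) (l : ℕ) (z : ℝ) :
    stJ κ ν (l + 1) z = κ * ∫ t in z..stripL, ν t * stU κ ν l t := rfl

/-- Partial sums of the flux series. -/
def stJsum (κ : ℝ) (ν : ℝ → ℝ) (N : ℕ) (z : ℝ) : ℝ := ∑ l ∈ Finset.range (N + 1), stJ κ ν l z

/-- Partial sums of the solution series. -/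
def stUsum (κ : ℝ) (ν : ℝ → ℝ) (N : ℕ) (z : ℝ) : ℝ := ∑ l ∈ Finset.range (N + 1), stU κ ν l z

/-- The constant `μ₁² = 1/50` of the comparison family. -/
def stKap : ℝ := 1 / 50

/-- The truncation order. -/
def stN : ℕ := 20

/-- The comparison family: the normalised truncated series for the weight `m p`. -/
def stW (m : ℝ → ℝ → ℝ) (p z : ℝ) : ℝ := stUsum stKap (m p) stN z / stUsum stKap (m p) stN 0

/-- Hypotheses (4.12) on the weight `m(p,z) = e^{2kp} n(p,z)`, made global in `(p,z)` (package GP modifies `n` for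
`p < P`, which is harmless): `m` is positive and `C²`, and for `p ≥ P`, `0 ≤ z ≤ L` it has small relative horizontal
derivatives and one-sided vertical ratio `≤ 100`. -/
structure StripWeight (m : ℝ → ℝ → ℝ) (P η : ℝ) : Prop where
  smooth : ContDiff ℝ 2 (fun q : ℝ × ℝ => m q.1 q.2)
  pos : ∀ p z, 0 < m p z
  der : ∀ p z, P ≤ p → 0 ≤ z → z ≤ stripL →
    |deriv (fun p' => m p' z) p| + |iteratedDeriv 2 (fun p' => m p' z) p| ≤ η * m p z
  ratio : ∀ p z₁ z₂, P ≤ p → 0 ≤ z₁ → z₁ ≤ z₂ → z₂ ≤ stripL → m p z₁ ≤ 100 * m p z₂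

/-- Relative derivative bounds: `f ≥ 0`, `|f'| ≤ A η f`, `|f''| ≤ B η f` at the point `p`
(`f` twice differentiable near `p` in the sense of `ContDiffAt`). -/
structure RelBd (f : ℝ → ℝ) (p η A B : ℝ) : Prop where
  smooth : ContDiffAt ℝ 2 f p
  nonneg : 0 ≤ f p
  d1 : |deriv f p| ≤ A * η * f p
  d2 : |iteratedDeriv 2 f p| ≤ B * η * f p

end Claimed.Open.R278
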