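import Claimed.Open.R278.STTerms

/-!
# Package ST, leaf ST-E: parametric integrals are `C²`; the Volterra terms are jointly `C²` in `(p,z)`

Mathlib has no `ContDiff` statement for parametric integrals, but it has `contDiffOn_convolution_right_with_param`.
TRICK (as in `Claimed.Agent.R259.RegPotB.regpb_eq_conv`): with `f = indicator (Ioc 0 1) 1` (locally integrable) and
`g q y = F (q, -y) * bump y` (`bump` a `ContDiffBump` equal to `1` on `[-1,1]`, compact support)
`∫ τ in 0..1, F (q, τ) = (f ⋆ g q) 0`.  This gives `st_contDiff_unit`.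
`st_contDiff_tail`: substitute `s = z + τ (L - z)`:  `∫_z^L G(p,s) ds = (L - z) ∫_0^1 G(p, z + τ (L - z)) dτ`
(`intervalIntegral.integral_comp_mul_add` / `smul_integral_comp_add_mul`).
`st_deriv_tail`: `intervalIntegral.hasDerivAt_integral_of_dominated_loc_of_deriv_le` twice (the derivatives are continuous, hence bounded
on compact sets).
`stJ_contDiff`, `stU_contDiff`: induction on `l` (`m > 0` so `1/m` is `C²`).
-/

open MeasureTheory Set
open scoped ContDiff Topology Convolution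

noncomputable section

namespace Claimed.Open.R278

theorem st_contDiff_unit {E : Type*} [NormedAddCommGroup E] [NormedSpace ℝ E] {F : E × ℝ → ℝ}
    (hF : ContDiff ℝ 2 F) : ContDiff ℝ 2 (fun q : E => ∫ τ in (0 : ℝ)..1, F (q, τ)) := by
  let bump : ContDiffBump (0 : ℝ) := ⟨1, 2, one_pos, one_lt_two⟩
  let f : ℝ → ℝ := (Ioc (0 : ℝ) 1).indicator (fun _ => 1)
  let g : E → ℝ → ℝ := fun q y => F (q, -y) * bump y
  have hf : LocallyIntegrable f volume := (locallyIntegrable_const 1).indicator measurableSet_Ioc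
  have hg : ContDiffOn ℝ ((2 : ℕ∞) : WithTop ℕ∞) (↿g) (univ ×ˢ univ) := by
    have h1 : ContDiff ℝ 2 (fun x : E × ℝ => F (x.1, -x.2)) :=
      hF.comp (contDiff_fst.prodMk contDiff_snd.neg)
    have h2 : ContDiff ℝ 2 (fun x : E × ℝ => bump x.2) :=
      (bump.contDiff (n := 2)).comp contDiff_snd
    exact (h1.mul h2).contDiffOn
  have hgs : ∀ p, ∀ x, p ∈ (univ : Set E) → x ∉ Metric.closedBall (0 : ℝ) 2 → g p x = 0 := by
    intro p x _ hx
    have : bump x = 0 := by
      apply bump.zero_of_le_dist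
      simp only [Metric.mem_closedBall, not_le] at hx
      exact hx.le
    simp only [g, this, mul_zero]
  have key := contDiffOn_convolution_right_with_param_comp (𝕜 := ℝ) (n := 2) (μ := volume)
    (ContinuousLinearMap.mul ℝ ℝ) (s := univ) (v := fun _ : E => (0 : ℝ)) contDiffOn_const (f := f) (g := g)
    (k := Metric.closedBall 0 2) isOpen_univ (isCompact_closedBall _ _) hgs hf hg
  rw [contDiffOn_univ] at key
  have e : (fun q : E => ∫ τ in (0 : ℝ)..1, F (q, τ))
      = fun q => (f ⋆[ContinuousLinearMap.mul ℝ ℝ, volume] g q) 0 := by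
    funext q
    rw [convolution_def, intervalIntegral.integral_of_le zero_le_one, ← integral_indicator measurableSet_Ioc]
    refine integral_congr_ae (Filter.Eventually.of_forall fun t => ?_)
    simp only [f, g, ContinuousLinearMap.mul_apply', zero_sub, neg_neg]
    by_cases ht : t ∈ Ioc (0 : ℝ) 1
    · have hb : bump (-t) = 1 := by
        apply bump.one_of_mem_closedBall
        simp only [Metric.mem_closedBall, dist_zero_right, norm_neg, Real.norm_eq_abs]
        rw [abs_of_pos ht.1]; exact ht.2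
      simp [indicator_of_mem ht, hb]
    · simp [indicator_of_notMem ht]
  rw [e]
  exact key

theorem st_contDiff_tail {G : ℝ × ℝ → ℝ} (hG : ContDiff ℝ 2 G) :
    ContDiff ℝ 2 (fun q : ℝ × ℝ => ∫ s in q.2..stripL, G (q.1, s)) := by
  have e : (fun q : ℝ × ℝ => ∫ s in q.2..stripL, G (q.1, s))
      = fun q => (stripL - q.2) * ∫ τ in (0 : ℝ)..1, G (q.1, q.2 + (stripL - q.2) * τ) := by
    funext q
    have := intervalIntegral.smul_integral_comp_add_mul (a := 0) (b := 1) (fun s => G (q.1, s))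
      (stripL - q.2) q.2
    rw [smul_eq_mul] at this
    rw [this]
    congr 1 <;> ring
  rw [e]
  have hF : ContDiff ℝ 2 (fun x : (ℝ × ℝ) × ℝ => G (x.1.1, x.1.2 + (stripL - x.1.2) * x.2)) := by
    apply hG.comp
    fun_prop
  exact (contDiff_const.sub contDiff_snd).mul (st_contDiff_unit hF)

theorem st_partial {H : ℝ × ℝ → ℝ} (hH : ContDiff ℝ 1 H) (p s : ℝ) :
    HasDerivAt (fun p' => H (p', s)) (fderiv ℝ H (p, s) (1, 0)) p := by
  have h1 := (hH.differentiable one_ne_zero (p, s)).hasFDerivAt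
  have h2 : HasDerivAt (fun p' : ℝ => (p', s)) ((1 : ℝ), (0 : ℝ)) p :=
    (hasDerivAt_id p).prodMk (hasDerivAt_const p s)
  exact h1.comp_hasDerivAt p h2

theorem st_hasDerivAt_integral {H : ℝ × ℝ → ℝ} (hH : ContDiff ℝ 1 H) (a b p : ℝ) :
    HasDerivAt (fun p' => ∫ s in a..b, H (p', s)) (∫ s in a..b, fderiv ℝ H (p, s) (1, 0)) p := by
  have hD : Continuous fun x : ℝ × ℝ => fderiv ℝ H x (1, 0) :=
    (hH.continuous_fderiv one_ne_zero).clm_apply continuous_const
  obtain ⟨C, hC⟩ := ((isCompact_closedBall p 1).prod (isCompact_uIcc (a := a) (b := b))).exists_bound_of_continuousOn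
    hD.continuousOn
  have := intervalIntegral.hasDerivAt_integral_of_dominated_loc_of_deriv_le (μ := volume) (a := a) (b := b)
    (F := fun p' s => H (p', s)) (F' := fun p' s => fderiv ℝ H (p', s) (1, 0)) (x₀ := p)
    (s := Metric.closedBall p 1) (bound := fun _ => C) (Metric.closedBall_mem_nhds p one_pos)
    (Filter.Eventually.of_forall fun p' =>
      (hH.continuous.comp (by fun_prop : Continuous fun s : ℝ => (p', s))).aestronglyMeasurable)
    ((hH.continuous.comp (by fun_prop : Continuous fun s : ℝ => (p, s))).intervalIntegrable _ _)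
    ((hD.comp (by fun_prop : Continuous fun s : ℝ => (p, s))).aestronglyMeasurable)
    (Filter.Eventually.of_forall fun s hs p' hp' => hC (p', s) ⟨hp', uIoc_subset_uIcc hs⟩)
    intervalIntegrable_const
    (Filter.Eventually.of_forall fun s _ p' _ => st_partial hH p' s)
  exact this.2

theorem st_D1_contDiff {G : ℝ × ℝ → ℝ} (hG : ContDiff ℝ 2 G) :
    ContDiff ℝ 1 (fun x : ℝ × ℝ => fderiv ℝ G x (1, 0)) :=
  (hG.fderiv_right (m := 1) (by norm_num)).clm_apply contDiff_const

theorem st_deriv_eq {G : ℝ × ℝ → ℝ} (hG : ContDiff ℝ 2 G) (s : ℝ) :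
    deriv (fun p' => G (p', s)) = fun p => fderiv ℝ G (p, s) (1, 0) := by
  funext p
  exact (st_partial (hG.of_le (by norm_num)) p s).deriv

theorem st_deriv2_eq {G : ℝ × ℝ → ℝ} (hG : ContDiff ℝ 2 G) (p s : ℝ) :
    iteratedDeriv 2 (fun p' => G (p', s)) p
      = fderiv ℝ (fun x : ℝ × ℝ => fderiv ℝ G x (1, 0)) (p, s) (1, 0) := by
  rw [iteratedDeriv_succ, iteratedDeriv_one, st_deriv_eq hG s]
  exact (st_partial (st_D1_contDiff hG) p s).deriv

theorem st_deriv_tail {G : ℝ × ℝ → ℝ} (hG : ContDiff ℝ 2 G) (a b p : ℝ) :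
    deriv (fun p' => ∫ s in a..b, G (p', s)) p = (∫ s in a..b, deriv (fun p' => G (p', s)) p) ∧
    iteratedDeriv 2 (fun p' => ∫ s in a..b, G (p', s)) p
      = ∫ s in a..b, iteratedDeriv 2 (fun p' => G (p', s)) p := by
  have h1 : deriv (fun p' => ∫ s in a..b, G (p', s)) = fun p => ∫ s in a..b, fderiv ℝ G (p, s) (1, 0) := by
    funext p
    exact (st_hasDerivAt_integral (hG.of_le (by norm_num)) a b p).deriv
  constructor
  · rw [h1]
    simp only [st_deriv_eq hG]
  · rw [iteratedDeriv_succ, iteratedDeriv_one, h1]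
    simp only [st_deriv2_eq hG]
    exact (st_hasDerivAt_integral (st_D1_contDiff hG) a b p).deriv

theorem st_deriv_continuous {G : ℝ × ℝ → ℝ} (hG : ContDiff ℝ 2 G) (p : ℝ) :
    Continuous (fun s => deriv (fun p' => G (p', s)) p) ∧
    Continuous (fun s => iteratedDeriv 2 (fun p' => G (p', s)) p) := by
  constructor
  · simp only [st_deriv_eq hG]
    exact (st_D1_contDiff hG).continuous.comp (by fun_prop : Continuous fun s : ℝ => (p, s))
  · simp only [st_deriv2_eq hG]
    have : Continuous fun x : ℝ × ℝ => fderiv ℝ (fun x : ℝ × ℝ => fderiv ℝ G x (1, 0)) x (1, 0) :=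
      ((st_D1_contDiff hG).continuous_fderiv one_ne_zero).clm_apply continuous_const
    exact this.comp (by fun_prop : Continuous fun s : ℝ => (p, s))

theorem stJ_stU_contDiff {m : ℝ → ℝ → ℝ} (hs : ContDiff ℝ 2 (fun q : ℝ × ℝ => m q.1 q.2))
    (hpos : ∀ p z, 0 < m p z) (κ : ℝ) (l : ℕ) :
    ContDiff ℝ 2 (fun q : ℝ × ℝ => stJ κ (m q.1) l q.2) ∧
      ContDiff ℝ 2 (fun q : ℝ × ℝ => stU κ (m q.1) l q.2) := by
  have step : ∀ l, ContDiff ℝ 2 (fun q : ℝ × ℝ => stJ κ (m q.1) l q.2) →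
      ContDiff ℝ 2 (fun q : ℝ × ℝ => stU κ (m q.1) l q.2) := by
    intro l hJ
    exact st_contDiff_tail (G := fun q => stJ κ (m q.1) l q.2 / m q.1 q.2) (hJ.div hs fun q => (hpos _ _).ne')
  induction l with
  | zero =>
    have h0 : ContDiff ℝ 2 (fun q : ℝ × ℝ => stJ κ (m q.1) 0 q.2) := contDiff_const
    exact ⟨h0, step 0 h0⟩
  | succ l ih =>
    have h1 : ContDiff ℝ 2 (fun q : ℝ × ℝ => stJ κ (m q.1) (l + 1) q.2) := by
      have := st_contDiff_tail (G := fun q => m q.1 q.2 * stU κ (m q.1) l q.2) (hs.mul ih.2)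
      exact contDiff_const.mul this
    exact ⟨h1, step _ h1⟩

theorem stJ_contDiff {m : ℝ → ℝ → ℝ} (hs : ContDiff ℝ 2 (fun q : ℝ × ℝ => m q.1 q.2))
    (hpos : ∀ p z, 0 < m p z) (κ : ℝ) (l : ℕ) :
    ContDiff ℝ 2 (fun q : ℝ × ℝ => stJ κ (m q.1) l q.2) :=
  (stJ_stU_contDiff hs hpos κ l).1

theorem stU_contDiff {m : ℝ → ℝ → ℝ} (hs : ContDiff ℝ 2 (fun q : ℝ × ℝ => m q.1 q.2))
    (hpos : ∀ p z, 0 < m p z) (κ : ℝ) (l : ℕ) :
    ContDiff ℝ 2 (fun q : ℝ × ℝ => stU κ (m q.1) l q.2) :=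
  (stJ_stU_contDiff hs hpos κ l).2

end Claimed.Open.R278
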