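import Claimed.Open.R278.STDefs

/-!
# Package ST, leaf ST-T: elementary properties of the Volterra terms `stJ`, `stU`

All by induction on `l` with the fundamental theorem of calculus (`intervalIntegral.integral_hasDerivAt_left`,
`Continuous.deriv_integral` ...).  The weight is continuous and positive on all of `ℝ`; weights given only on `[0,L]` are
reduced to this case by `stJ_congr` (extend by `ν ∘ projIcc`).

`stJ_le`:  `j_{l+1}(z) = κ ∫_z^L ∫_t^L (ν(t)/ν(s)) j_l(s) ds dt ≤ κ C ∫_z^L ∫_t^L (κC)^l (L-s)^{2l}/(2l)! ds dt`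
`= (κC)^{l+1} (L-z)^{2l+2}/(2l+2)!`.
-/

open MeasureTheory Set
open scoped ContDiff Topology

noncomputable section

namespace Claimed.Open.R278

variable {κ : ℝ} {ν ν' : ℝ → ℝ}

theorem st_hasDerivAt_left {f : ℝ → ℝ} (hf : Continuous f) (b z : ℝ) :
    HasDerivAt (fun u => ∫ x in u..b, f x) (-f z) z :=
  intervalIntegral.integral_hasDerivAt_left (hf.intervalIntegrable _ _)
    (hf.stronglyMeasurableAtFilter _ _) hf.continuousAt

theorem st_uIcc_subset {z : ℝ} (hz : z ∈ Icc 0 stripL) : uIcc z stripL ⊆ Icc 0 stripL := by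
  rw [uIcc_of_le hz.2]
  exact Icc_subset_Icc_left hz.1

theorem stU_congr_of {l : ℕ} (h : ∀ z ∈ Icc 0 stripL, ν z = ν' z)
    (hJ : ∀ z ∈ Icc 0 stripL, stJ κ ν l z = stJ κ ν' l z) :
    ∀ z ∈ Icc 0 stripL, stU κ ν l z = stU κ ν' l z := by
  intro z hz
  unfold stU
  refine intervalIntegral.integral_congr fun s hs => ?_
  have hs' := st_uIcc_subset hz hs
  simp only [hJ s hs', h s hs']

theorem stJ_congr (h : ∀ z ∈ Icc 0 stripL, ν z = ν' z) (l : ℕ) :
    ∀ z ∈ Icc 0 stripL, stJ κ ν l z = stJ κ ν' l z := by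
  induction l with
  | zero => intro z _; rfl
  | succ l ih =>
    intro z hz
    rw [stJ_succ, stJ_succ]
    congr 1
    refine intervalIntegral.integral_congr fun t ht => ?_
    have ht' := st_uIcc_subset hz ht
    simp only [stU_congr_of h ih t ht', h t ht']

theorem stU_congr (h : ∀ z ∈ Icc 0 stripL, ν z = ν' z) (l : ℕ) :
    ∀ z ∈ Icc 0 stripL, stU κ ν l z = stU κ ν' l z :=
  stU_congr_of h (stJ_congr h l)

theorem stU_hasDerivAt_of (hc : Continuous ν) (hpos : ∀ z, 0 < ν z) {l : ℕ} (hJ : Continuous (stJ κ ν l))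
    (z : ℝ) : HasDerivAt (stU κ ν l) (-(stJ κ ν l z / ν z)) z :=
  st_hasDerivAt_left (f := fun s => stJ κ ν l s / ν s) (hJ.div hc fun s => (hpos s).ne') stripL z

theorem stJ_continuous (hc : Continuous ν) (hpos : ∀ z, 0 < ν z) (l : ℕ) : Continuous (stJ κ ν l) := by
  induction l with
  | zero => exact continuous_const
  | succ l ih =>
    have hU : Continuous (stU κ ν l) :=
      continuous_iff_continuousAt.2 fun z => (stU_hasDerivAt_of hc hpos ih z).continuousAt
    have hf : Continuous fun t => ν t * stU κ ν l t := hc.mul hU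
    have : stJ κ ν (l + 1) = fun z => κ * ∫ t in z..stripL, ν t * stU κ ν l t := by
      funext z; exact stJ_succ κ ν l z
    rw [this]
    refine continuous_const.mul ?_
    exact continuous_iff_continuousAt.2 fun z => (st_hasDerivAt_left hf stripL z).continuousAt

theorem stU_hasDerivAt (hc : Continuous ν) (hpos : ∀ z, 0 < ν z) (l : ℕ) (z : ℝ) :
    HasDerivAt (stU κ ν l) (-(stJ κ ν l z / ν z)) z :=
  stU_hasDerivAt_of hc hpos (stJ_continuous hc hpos l) z

theorem stU_continuous (hc : Continuous ν) (hpos : ∀ z, 0 < ν z) (l : ℕ) : Continuous (stU κ ν l) :=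
  continuous_iff_continuousAt.2 fun z => (stU_hasDerivAt hc hpos l z).continuousAt

theorem stJ_succ_hasDerivAt (hc : Continuous ν) (hpos : ∀ z, 0 < ν z) (l : ℕ) (z : ℝ) :
    HasDerivAt (stJ κ ν (l + 1)) (-(κ * (ν z * stU κ ν l z))) z := by
  have hf : Continuous fun t => ν t * stU κ ν l t := hc.mul (stU_continuous hc hpos l)
  have : stJ κ ν (l + 1) = fun z => κ * ∫ t in z..stripL, ν t * stU κ ν l t := by
    funext z; exact stJ_succ κ ν l z
  rw [this]
  have h := (st_hasDerivAt_left hf stripL z).const_mul κ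
  rw [mul_neg] at h
  exact h

theorem stU_stripL (l : ℕ) : stU κ ν l stripL = 0 := by
  simp [stU]

theorem stU_nonneg_of (hpos : ∀ z, 0 < ν z) {l : ℕ} (hJ : ∀ z, z ≤ stripL → 0 ≤ stJ κ ν l z) {z : ℝ}
    (hz : z ≤ stripL) : 0 ≤ stU κ ν l z :=
  intervalIntegral.integral_nonneg hz fun s hs => div_nonneg (hJ s hs.2) (hpos s).le

theorem stJ_nonneg' (hκ : 0 ≤ κ) (hpos : ∀ z, 0 < ν z) (l : ℕ) : ∀ z, z ≤ stripL → 0 ≤ stJ κ ν l z := by
  induction l with
  | zero => intro z _; exact zero_le_one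
  | succ l ih =>
    intro z hz
    rw [stJ_succ]
    refine mul_nonneg hκ (intervalIntegral.integral_nonneg hz fun t ht => ?_)
    exact mul_nonneg (hpos t).le (stU_nonneg_of hpos ih ht.2)

theorem stJ_nonneg (hκ : 0 ≤ κ) (hc : Continuous ν) (hpos : ∀ z, 0 < ν z) (l : ℕ) {z : ℝ} (hz : z ≤ stripL) :
    0 ≤ stJ κ ν l z :=
  stJ_nonneg' hκ hpos l z hz

theorem stU_nonneg (hκ : 0 ≤ κ) (hc : Continuous ν) (hpos : ∀ z, 0 < ν z) (l : ℕ) {z : ℝ} (hz : z ≤ stripL) :
    0 ≤ stU κ ν l z :=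
  stU_nonneg_of hpos (stJ_nonneg' hκ hpos l) hz

theorem stU_zero_pos (hc : Continuous ν) (hpos : ∀ z, 0 < ν z) {z : ℝ} (hz : z < stripL) :
    0 < stU κ ν 0 z := by
  unfold stU
  have hf : Continuous fun s => stJ κ ν 0 s / ν s :=
    (stJ_continuous hc hpos 0).div hc fun s => (hpos s).ne'
  refine intervalIntegral.intervalIntegral_pos_of_pos (hf.intervalIntegrable _ _) (fun s => ?_) hz
  rw [stJ_zero]
  exact div_pos one_pos (hpos s)

theorem st_integral_pow (k : ℕ) (t : ℝ) :
    ∫ s in t..stripL, (stripL - s) ^ k = (stripL - t) ^ (k + 1) / (k + 1) := by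
  rw [intervalIntegral.integral_comp_sub_left (fun u => u ^ k) stripL, integral_pow]
  simp

/-- The bound below (4.14). -/
theorem stJ_le (hκ : 0 ≤ κ) (hc : Continuous ν) (hpos : ∀ z, 0 < ν z) {C : ℝ}
    (hC : ∀ z₁ z₂, 0 ≤ z₁ → z₁ ≤ z₂ → z₂ ≤ stripL → ν z₁ ≤ C * ν z₂) (l : ℕ) {z : ℝ} (hz : z ∈ Icc 0 stripL) :
    stJ κ ν l z ≤ (κ * C) ^ l * (stripL - z) ^ (2 * l) / (2 * l).factorial := by
  induction l generalizing z with
  | zero => simp [stJ_zero]
  | succ l ih =>
    set a : ℝ := (κ * C) ^ l / (2 * l).factorial with ha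
    have hJc := stJ_continuous (κ := κ) hc hpos l
    -- inner estimate
    have hin : ∀ t ∈ Icc 0 stripL, ν t * stU κ ν l t ≤ C * a * ((stripL - t) ^ (2 * l + 1) / (2 * l + 1)) := by
      intro t ht
      have e1 : ν t * stU κ ν l t = ∫ s in t..stripL, ν t * (stJ κ ν l s / ν s) := by
        rw [stU, intervalIntegral.integral_const_mul]
      have e2 : C * a * ((stripL - t) ^ (2 * l + 1) / (2 * l + 1))
          = ∫ s in t..stripL, C * a * (stripL - s) ^ (2 * l) := by
        rw [intervalIntegral.integral_const_mul, st_integral_pow]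
        push_cast; ring
      rw [e1, e2]
      have hg : Continuous fun s : ℝ => C * a * (stripL - s) ^ (2 * l) := by fun_prop
      refine intervalIntegral.integral_mono_on ht.2
        ((continuous_const.mul (hJc.div hc fun s => (hpos s).ne')).intervalIntegrable _ _)
        (hg.intervalIntegrable _ _) fun s hs => ?_
      have hs' : s ∈ Icc 0 stripL := ⟨ht.1.trans hs.1, hs.2⟩
      have h1 : ν t / ν s ≤ C := by
        rw [div_le_iff₀ (hpos s)]
        exact hC t s ht.1 hs.1 hs.2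
      have h2 := ih hs'
      have h3 : 0 ≤ stJ κ ν l s := stJ_nonneg hκ hc hpos l hs.2
      have hC0 : 0 ≤ C := le_trans (div_pos (hpos t) (hpos s)).le h1
      calc ν t * (stJ κ ν l s / ν s) = (ν t / ν s) * stJ κ ν l s := by ring
        _ ≤ C * stJ κ ν l s := mul_le_mul_of_nonneg_right h1 h3
        _ ≤ C * ((κ * C) ^ l * (stripL - s) ^ (2 * l) / (2 * l).factorial) :=
            mul_le_mul_of_nonneg_left h2 hC0
        _ = C * a * (stripL - s) ^ (2 * l) := by rw [ha]; ring
    rw [stJ_succ]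
    have hUc := stU_continuous (κ := κ) hc hpos l
    have hg : Continuous fun t : ℝ => C * a * ((stripL - t) ^ (2 * l + 1) / (2 * l + 1)) := by fun_prop
    have h4 : (∫ t in z..stripL, ν t * stU κ ν l t)
        ≤ ∫ t in z..stripL, C * a * ((stripL - t) ^ (2 * l + 1) / (2 * l + 1)) :=
      intervalIntegral.integral_mono_on hz.2 ((hc.mul hUc).intervalIntegrable _ _)
        (hg.intervalIntegrable _ _) fun t ht => hin t ⟨hz.1.trans ht.1, ht.2⟩
    have h5 : (∫ t in z..stripL, C * a * ((stripL - t) ^ (2 * l + 1) / (2 * l + 1)))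
        = C * a * ((stripL - z) ^ (2 * l + 2) / ((2 * l + 1) * (2 * l + 2))) := by
      rw [intervalIntegral.integral_const_mul, intervalIntegral.integral_div, st_integral_pow]
      push_cast
      rw [div_div]
      ring_nf
    have h6 : ((2 * (l + 1)).factorial : ℝ) = (2 * l + 2) * ((2 * l + 1) * (2 * l).factorial) := by
      have : 2 * (l + 1) = (2 * l + 1) + 1 := by ring
      rw [this, Nat.factorial_succ, Nat.factorial_succ]
      push_cast; ring
    calc κ * ∫ t in z..stripL, ν t * stU κ ν l t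
        ≤ κ * (C * a * ((stripL - z) ^ (2 * l + 2) / ((2 * l + 1) * (2 * l + 2)))) := by
          rw [← h5]; exact mul_le_mul_of_nonneg_left h4 hκ
      _ = (κ * C) ^ (l + 1) * (stripL - z) ^ (2 * (l + 1)) / (2 * (l + 1)).factorial := by
          rw [h6, ha]
          have hf : ((2 * l).factorial : ℝ) ≠ 0 := by positivity
          have h1 : (2 * (l : ℝ) + 1) ≠ 0 := by positivity
          have h2 : (2 * (l : ℝ) + 2) ≠ 0 := by positivity
          field_simp
          ring

theorem stU_le (hκ : 0 ≤ κ) (hc : Continuous ν) (hpos : ∀ z, 0 < ν z) {C : ℝ}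
    (hC : ∀ z₁ z₂, 0 ≤ z₁ → z₁ ≤ z₂ → z₂ ≤ stripL → ν z₁ ≤ C * ν z₂) (l : ℕ) {z : ℝ} (hz : z ∈ Icc 0 stripL) :
    stU κ ν l z ≤ (κ * C) ^ l * stripL ^ (2 * l) / (2 * l).factorial * stU κ ν 0 z := by
  have hJc := stJ_continuous (κ := κ) hc hpos l
  have hJ0 := stJ_continuous (κ := κ) hc hpos 0
  have hC0 : 0 ≤ C := by
    have h := hC 0 0 le_rfl le_rfl (hz.1.trans hz.2)
    by_contra hneg
    push_neg at hneg
    nlinarith [hpos 0]
  unfold stU
  rw [← intervalIntegral.integral_const_mul]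
  refine intervalIntegral.integral_mono_on hz.2 ((hJc.div hc fun s => (hpos s).ne').intervalIntegrable _ _)
    ((continuous_const.mul (hJ0.div hc fun s => (hpos s).ne')).intervalIntegrable _ _) fun s hs => ?_
  have hs' : s ∈ Icc 0 stripL := ⟨hz.1.trans hs.1, hs.2⟩
  have h1 := stJ_le hκ hc hpos hC l hs'
  have h2 : (stripL - s) ^ (2 * l) ≤ stripL ^ (2 * l) :=
    pow_le_pow_left₀ (by linarith [hs'.2]) (by linarith [hs'.1]) _
  have h3 : stJ κ ν l s ≤ (κ * C) ^ l * stripL ^ (2 * l) / (2 * l).factorial := by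
    refine h1.trans ?_
    have := pow_nonneg (mul_nonneg hκ hC0) l
    gcongr
  rw [stJ_zero, mul_one_div]
  exact div_le_div_of_nonneg_right h3 (hpos s).le

end Claimed.Open.R278
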