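import Claimed.Open.R278.MBForm
import Claimed.Open.R278.FSSobolev

/-!
# Result 278, sanity: the forms of `H_C` and of `H_s(v)` are CLOSED and SEMIBOUNDED on the form domain of `Statement.lean`

The paper defines `H_s(v)` by "its semibounded closed quadratic form" (Section 1) and uses the form domain `H¹` for `H_C` (Section 2).
`Statement.lean` expresses `inf σ(H)` and `ker (H - E)` through the form (variational principle, first representation theorem: deviation 1
of `CLAIM.md`).  These two theorems of Kato need a form that is semibounded and closed ON THE DOMAIN THAT IS USED.  This file checks it: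

* `closedForm_of_form_bound` : a real potential `W` with `∫ |W| |Ψ|² ≤ ¼ ∑ⱼ ‖∂ⱼΨ‖² + C ‖Ψ‖²` on `H¹` gives a closed form
  (`ClosedForm`, `MBAbs.lean`: Hermitian, `q[Ψ] + K ‖Ψ‖² ≥ ‖Ψ‖²`, and the domain is complete for this norm) on the antisymmetric part of `H¹`;
* **`PotentialClass.exists_closedForm`** : the form of `H_s(v)`, for EVERY `v ∈ L^{3/2} + L^∞` and every number of electrons;
* **`exists_closedForm_coulombPotential`** : the form of `H_C`, for all charges and positions;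
* `H1A 3` is the form domain of both (`mem_H1A_iff_formDomain_oneBody`, `mem_H1A_iff_formDomain_coulomb`);
* **`PotentialClass.exists_isSpectrumBottom`**, `exists_isSpectrumBottom_coulombPotential` : `inf σ(H_s(v))` and `inf σ(H_C)` are real numbers.
-/

open MeasureTheory Filter
open scoped ContDiff InnerProductSpace ComplexConjugate ENNReal Topology

noncomputable section

namespace Claimed.Open.R278

variable {m : ℕ}

section General

variable {W : Config m → ℝ} {C : ℝ}

theorem sc_abs_integral_le {Ψ : L2 m} : |∫ x, W x * ‖Ψ x‖ ^ 2| ≤ ∫ x, |W x| * ‖Ψ x‖ ^ 2 := by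
  refine (abs_integral_le_integral_abs).trans (le_of_eq ?_)
  refine integral_congr_ae (Eventually.of_forall fun x => ?_)
  simp only [abs_mul, abs_pow, abs_norm]

theorem sc_le_formNorm (hb : ∀ Ψ : L2 m, MemH1 Ψ → ∫ x, |W x| * ‖Ψ x‖ ^ 2 ≤ (1 / 4) * kin Ψ + C * ‖Ψ‖ ^ 2) {Ψ : L2 m}
    (h : MemH1 Ψ) : (1 / 4) * kin Ψ + ‖Ψ‖ ^ 2 ≤ energy W Ψ + (C + 1) * ‖Ψ‖ ^ 2 := by
  rw [energy_eq_kin]
  have h1 := hb Ψ h
  have h2 := (abs_le.1 (sc_abs_integral_le (W := W) (Ψ := Ψ))).1
  linarith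

theorem sc_formNorm_le (hb : ∀ Ψ : L2 m, MemH1 Ψ → ∫ x, |W x| * ‖Ψ x‖ ^ 2 ≤ (1 / 4) * kin Ψ + C * ‖Ψ‖ ^ 2) {Ψ : L2 m}
    (h : MemH1 Ψ) : energy W Ψ + (C + 1) * ‖Ψ‖ ^ 2 ≤ (3 / 4) * kin Ψ + (2 * C + 1) * ‖Ψ‖ ^ 2 := by
  rw [energy_eq_kin]
  have h1 := hb Ψ h
  have h2 := (abs_le.1 (sc_abs_integral_le (W := W) (Ψ := Ψ))).2
  linarith

/-- **KLMN, by hand**: a potential that is form bounded by the kinetic energy with relative bound `< 1` gives a closed semibounded form on
the antisymmetric part of `H¹`. -/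
theorem closedForm_of_form_bound (hW : AEStronglyMeasurable W volume)
    (hi : ∀ Ψ : L2 m, MemH1 Ψ → Integrable (fun x => W x * ‖Ψ x‖ ^ 2))
    (hb : ∀ Ψ : L2 m, MemH1 Ψ → ∫ x, |W x| * ‖Ψ x‖ ^ 2 ≤ (1 / 4) * kin Ψ + C * ‖Ψ‖ ^ 2) :
    ClosedForm (H1A m) (sesqForm W) (C + 1) where
  toHermForm := (mbf_hermForm_kin.add (mbf_hermForm_pot hW hi)).mono H1A_le_H1S
  pos := fun x hx => by
    have := sc_le_formNorm hb hx.2
    have h2 := kin_nonneg x
    unfold energy at this
    linarith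
  complete := fun u hu hC => by
    have hH : ∀ n, MemH1 (u n) := fun n => (hu n).2
    have hlow : ∀ n k, (1 / 4) * kin (u n - u k) + ‖u n - u k‖ ^ 2 ≤
        (sesqForm W (u n - u k) (u n - u k)).re + (C + 1) * ‖u n - u k‖ ^ 2 :=
      fun n k => sc_le_formNorm hb (mbf_memH1_sub (hH n) (hH k))
    have hcu : CauchySeq u := by
      refine Metric.cauchySeq_iff.2 fun ε hε => ?_
      obtain ⟨N, hN⟩ := hC (ε ^ 2) (by positivity)
      refine ⟨N, fun n hn k hk => ?_⟩
      have h1 := hN n hn k hk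
      have h2 := hlow n k
      have h3 := kin_nonneg (u n - u k)
      rw [dist_eq_norm]
      exact lt_of_pow_lt_pow_left₀ 2 hε.le (by linarith)
    have hcG : ∀ j, CauchySeq (fun n => weakGrad (u n) j) := by
      intro j
      refine Metric.cauchySeq_iff.2 fun ε hε => ?_
      obtain ⟨N, hN⟩ := hC (ε ^ 2 / 4) (by positivity)
      refine ⟨N, fun n hn k hk => ?_⟩
      have h1 := hN n hn k hk
      have h2 := hlow n k
      have h3 : ‖weakGrad (u n) j - weakGrad (u k) j‖ ^ 2 ≤ kin (u n - u k) := by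
        unfold kin
        rw [mbf_weakGrad_sub (hH n) (hH k)]
        exact Finset.single_le_sum (f := fun j => ‖(weakGrad (u n) - weakGrad (u k)) j‖ ^ 2)
          (fun _ _ => sq_nonneg _) (Finset.mem_univ j)
      have h4 : 0 ≤ ‖u n - u k‖ ^ 2 := sq_nonneg _
      rw [dist_eq_norm]
      exact lt_of_pow_lt_pow_left₀ 2 hε.le (by linarith)
    obtain ⟨x, hx⟩ := cauchySeq_tendsto_of_complete hcu
    choose G hG using fun j => cauchySeq_tendsto_of_complete (hcG j)
    have hxG : IsWeakGradient x G := IsWeakGradient.of_tendsto (fun n => (hH n).isWeakGradient) hx hG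
    have hxH : MemH1 x := ⟨G, hxG⟩
    have hxa : IsAntisymmetric x :=
      isClosed_antisymmetric.mem_of_tendsto hx (Eventually.of_forall fun n => (hu n).1)
    refine ⟨x, ⟨hxa, hxH⟩, ?_⟩
    have hlim : Tendsto (fun n => (3 / 4) * kin (u n - x) + (2 * C + 1) * ‖u n - x‖ ^ 2) atTop (𝓝 0) := by
      have h1 : Tendsto (fun n => ‖u n - x‖ ^ 2) atTop (𝓝 0) := by
        have := (tendsto_iff_norm_sub_tendsto_zero.1 hx).pow 2
        simpa using this
      have h2 : Tendsto (fun n => kin (u n - x)) atTop (𝓝 0) := by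
        have : ∀ n, kin (u n - x) = ∑ j, ‖weakGrad (u n) j - G j‖ ^ 2 := fun n => by
          unfold kin
          rw [mbf_weakGrad_sub (hH n) hxH, hxG.weakGrad_eq]
          rfl
        simp only [this]
        have h3 : ∀ j ∈ (Finset.univ : Finset (Fin m × Fin 3)),
            Tendsto (fun n => ‖weakGrad (u n) j - G j‖ ^ 2) atTop (𝓝 0) := fun j _ => by
          have := (tendsto_iff_norm_sub_tendsto_zero.1 (hG j)).pow 2
          simpa using this
        simpa using tendsto_finsetSum _ h3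
      have := (h2.const_mul (3 / 4)).add (h1.const_mul (2 * C + 1))
      simpa using this
    refine squeeze_zero (fun n => ?_) (fun n => sc_formNorm_le hb (mbf_memH1_sub (hH n) hxH)) hlim
    have h1 := sc_le_formNorm hb (mbf_memH1_sub (hH n) hxH)
    have h2 := kin_nonneg (u n - x)
    have h3 : 0 ≤ ‖u n - x‖ ^ 2 := sq_nonneg _
    unfold energy at h1
    linarith

end General

/-! ## `H_s(v)`, `v ∈ L^{3/2} + L^∞` -/

theorem mem_H1A_iff_formDomain_oneBody {v : Space → ℝ} (hv : v ∈ PotentialClass) {Ψ : L2 m} :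
    Ψ ∈ H1A m ↔ Ψ ∈ FormDomain (oneBodyPotential v) := (PotentialClass.mem_formDomain_iff hv).symm

/-- **The form of `H_s(v)` is closed and semibounded** on its form domain, for every `v ∈ L^{3/2} + L^∞`. -/
theorem PotentialClass.exists_closedForm {v : Space → ℝ} (hv : v ∈ PotentialClass) (m : ℕ) :
    ∃ K : ℝ, ClosedForm (H1A m) (sesqForm (oneBodyPotential v : Config m → ℝ)) K := by
  obtain ⟨C, -, hC⟩ := PotentialClass.form_bound_oneBody hv (show (0 : ℝ) < 1 / 4 by norm_num)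
  exact ⟨C * m + 1, closedForm_of_form_bound (PotentialClass.aestronglyMeasurable_oneBody hv)
    (fun Ψ h => (hC m Ψ h).1) fun Ψ h => (hC m Ψ h).2⟩

/-! ## `H_C` -/

theorem mem_H1A_iff_formDomain_coulomb (Z R : ℝ) {Ψ : L2 3} :
    Ψ ∈ H1A 3 ↔ Ψ ∈ FormDomain (coulombPotential Z R) := mem_formDomain_coulombPotential_iff.symm

theorem sc_integrable_coulomb (Z R : ℝ) {Ψ : L2 3} (h : MemH1 Ψ) :
    Integrable (fun x => coulombPotential Z R x * ‖Ψ x‖ ^ 2) := by
  have := (integral_nuclear_le Z R h one_pos).1.add (integral_repulsion_le h one_pos).1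
  refine this.congr (Eventually.of_forall fun x => ?_)
  show oneBodyPotential (nuclearPotential Z R) x * ‖Ψ x‖ ^ 2 + repulsion x * ‖Ψ x‖ ^ 2
    = coulombPotential Z R x * ‖Ψ x‖ ^ 2
  unfold coulombPotential
  ring

theorem sc_coulomb_bound (Z R : ℝ) {Ψ : L2 3} (h : MemH1 Ψ) :
    ∫ x, |coulombPotential Z R x| * ‖Ψ x‖ ^ 2 ≤ (1 / 4) * kin Ψ + (24 * Z ^ 2 + 216) * ‖Ψ‖ ^ 2 := by
  obtain ⟨i1, b1⟩ := integral_nuclear_le Z R h (show (0 : ℝ) < 1 / 8 by norm_num)
  obtain ⟨i2, b2⟩ := integral_repulsion_le h (show (0 : ℝ) < 1 / 8 by norm_num)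
  have j1 : Integrable (fun x => |oneBodyPotential (nuclearPotential Z R) x| * ‖Ψ x‖ ^ 2) := by
    refine i1.abs.congr (Eventually.of_forall fun x => ?_)
    simp only [abs_mul, abs_pow, abs_norm]
  have hr : ∀ x : Config 3, 0 ≤ repulsion x := fun x =>
    Finset.sum_nonneg fun i _ => Finset.sum_nonneg fun j _ => by split_ifs <;> positivity
  have key : ∫ x, |coulombPotential Z R x| * ‖Ψ x‖ ^ 2 ≤
      ∫ x, (|oneBodyPotential (nuclearPotential Z R) x| * ‖Ψ x‖ ^ 2 + repulsion x * ‖Ψ x‖ ^ 2) := by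
    refine integral_mono_of_nonneg (Eventually.of_forall fun x => by positivity) (j1.add i2)
      (Eventually.of_forall fun x => ?_)
    show |coulombPotential Z R x| * ‖Ψ x‖ ^ 2 ≤
      |oneBodyPotential (nuclearPotential Z R) x| * ‖Ψ x‖ ^ 2 + repulsion x * ‖Ψ x‖ ^ 2
    rw [← add_mul]
    refine mul_le_mul_of_nonneg_right ?_ (sq_nonneg _)
    unfold coulombPotential
    refine (abs_add_le _ _).trans ?_
    rw [abs_of_nonneg (hr x)]
  rw [integral_add j1 i2] at key
  push_cast at b1 b2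
  nlinarith [sq_nonneg ‖Ψ‖]

/-- **The form of `H_C` is closed and semibounded** on its form domain. -/
theorem exists_closedForm_coulombPotential (Z R : ℝ) :
    ∃ K : ℝ, ClosedForm (H1A 3) (sesqForm (coulombPotential Z R)) K :=
  ⟨_, closedForm_of_form_bound (measurable_coulombPotential Z R).aestronglyMeasurable
    (fun _ h => sc_integrable_coulomb Z R h) fun _ h => sc_coulomb_bound Z R h⟩

/-! ## The bottom of the spectrum is a real number -/

theorem sc_exists_isSpectrumBottom {W : Config 3 → ℝ} {K : ℝ} (hq : ClosedForm (H1A 3) (sesqForm W) K)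
    (hd : ∀ Ψ : L2 3, Ψ ∈ H1A 3 ↔ Ψ ∈ FormDomain W) : ∃ E : ℝ, IsSpectrumBottom W E := by
  obtain ⟨Φ, hΦ, hn, -⟩ := exists_normalized_mem_formDomain 1 1
  have hΦ' : Φ ∈ FormDomain W := (hd Φ).1 ⟨hΦ.1, hΦ.2.1⟩
  refine ⟨_, isGLB_csInf ⟨_, Φ, ⟨hΦ', hn⟩, rfl⟩ ⟨1 - K, ?_⟩⟩
  rintro _ ⟨Ψ, ⟨hΨ, hΨn⟩, rfl⟩
  have h1 := hq.pos Ψ ((hd Ψ).2 hΨ)
  rw [hΨn] at h1
  unfold energy
  linarith

/-- `inf σ(H_s(v))` is a real number for every `v ∈ L^{3/2} + L^∞`. -/
theorem PotentialClass.exists_isSpectrumBottom {v : Space → ℝ} (hv : v ∈ PotentialClass) :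
    ∃ E : ℝ, IsSpectrumBottom (m := 3) (oneBodyPotential v) E := by
  obtain ⟨K, hK⟩ := PotentialClass.exists_closedForm hv 3
  exact sc_exists_isSpectrumBottom hK fun _ => mem_H1A_iff_formDomain_oneBody hv

/-- `inf σ(H_C)` is a real number. -/
theorem exists_isSpectrumBottom_coulombPotential (Z R : ℝ) : ∃ E : ℝ, IsSpectrumBottom (coulombPotential Z R) E := by
  obtain ⟨K, hK⟩ := exists_closedForm_coulombPotential Z R
  exact sc_exists_isSpectrumBottom hK fun _ => mem_H1A_iff_formDomain_coulomb Z R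

end Claimed.Open.R278
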