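import Claimed.Open.R278.ENTrace

/-!
# Result 278, sanity: every ensemble has a density

`Statement` negates `∃ v Γ n, v ∈ 𝒱 ∧ IsGroundStateEnsemble (∑ v) Γ ∧ IsDensityOf Γ n ∧ n = n_Ψ a.e.`.  The density of an ensemble enters
through the *relation* `IsDensityOf Γ n` (`n ∈ L¹`, `∫_A n = Tr((∑ᵢ (1_A)ᵢ) Γ)` in every orthonormal basis).  This file proves that
the relation excludes no ensemble: **every** positive trace-class operator with antisymmetric range (finite or infinite rank), in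
particular every ground-state ensemble of every `H(W)`, has a density in the sense of `IsDensityOf`
(`exists_isDensityOf`, `IsGroundStateEnsemble.exists_isDensityOf`); by `IsDensityOf.ae_eq` it is unique up to a null set.  It is the
density "defined by linearity" of the paper, (5.3): `n_Γ = ∑ₖ wₖ n_{Φₖ}` for the spectral decomposition `Γ = ∑ₖ wₖ |Φₖ⟩⟨Φₖ|`.
Consequences: `representable_iff_forall_density` and `hasUnrepresentableGroundState_iff` restate the proposition negated in `Statement`, and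
the assertion of Theorem 1.1, with "the" density of the ensemble.
-/

open MeasureTheory
open scoped InnerProductSpace ComplexConjugate ENNReal Topology NNReal

noncomputable section

namespace Claimed.Open.R278

section Abstract

universe u

variable {H : Type u} [NormedAddCommGroup H] [InnerProductSpace ℂ H]

/-- `Tr (N Γ)` does not depend on the orthonormal basis: if `Γ = ∑ᵢ wᵢ |bᵢ⟩⟨bᵢ|` with `w ≥ 0` summable and `N` is symmetric and bounded on the
`bᵢ`, then the diagonal of `N Γ` in any orthonormal basis `c` sums (unconditionally) to `∑ᵢ wᵢ ⟨bᵢ, N bᵢ⟩`. -/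
theorem sd_hasSum_diag {ι κ : Type*} (b : HilbertBasis ι ℂ H) (c : HilbertBasis κ ℂ H) {w : ι → ℝ}
    (hw0 : ∀ i, 0 ≤ w i) (hw : Summable w) {Γ : H →L[ℂ] H} (hΓ : Γ.IsPositive)
    (hb : ∀ i, Γ (b i) = (w i : ℂ) • b i) {Nf : H → H} (hN : ∀ x y, ⟪Nf x, y⟫_ℂ = ⟪x, Nf y⟫_ℂ)
    {C : ℝ} (hC : ∀ i, ‖Nf (b i)‖ ≤ C) :
    ∃ S : ℂ, HasSum (fun i => (w i : ℂ) * ⟪b i, Nf (b i)⟫_ℂ) S ∧
      HasSum (fun k => ⟪Nf (c k), Γ (c k)⟫_ℂ) S := by
  set F : ι × κ → ℂ := fun p => (w p.1 : ℂ) * (⟪b p.1, c p.2⟫_ℂ * ⟪c p.2, Nf (b p.1)⟫_ℂ) with hF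
  have ha : ∀ i, HasSum (fun k => F (i, k)) ((w i : ℂ) * ⟪b i, Nf (b i)⟫_ℂ) := fun i =>
    (c.hasSum_inner_mul_inner (b i) (Nf (b i))).mul_left _
  have hsym : (Γ : H →ₗ[ℂ] H).IsSymmetric := hΓ.isSymmetric
  have hbk : ∀ k, HasSum (fun i => F (i, k)) ⟪Nf (c k), Γ (c k)⟫_ℂ := by
    intro k
    have h := b.hasSum_inner_mul_inner (Nf (c k)) (Γ (c k))
    have e : ∀ i, ⟪Nf (c k), b i⟫_ℂ * ⟪b i, Γ (c k)⟫_ℂ = F (i, k) := by
      intro i
      have h1 : ⟪b i, Γ (c k)⟫_ℂ = (w i : ℂ) * ⟪b i, c k⟫_ℂ := by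
        have h2 : ⟪Γ (b i), c k⟫_ℂ = ⟪b i, Γ (c k)⟫_ℂ := hsym (b i) (c k)
        rw [← h2, hb i, inner_smul_left, Complex.conj_ofReal]
      rw [h1, hN]
      simp only [hF]
      ring
    simpa only [e] using h
  set G : ι × κ → ℝ :=
    fun p => w p.1 * ((‖⟪c p.2, b p.1⟫_ℂ‖ ^ 2 + ‖⟪c p.2, Nf (b p.1)⟫_ℂ‖ ^ 2) / 2) with hG
  have hG0 : 0 ≤ G := fun p => mul_nonneg (hw0 _) (by positivity)
  have hGi : ∀ i, HasSum (fun k => G (i, k)) (w i * ((‖b i‖ ^ 2 + ‖Nf (b i)‖ ^ 2) / 2)) := fun i =>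
    (((en_parseval c (b i)).add (en_parseval c (Nf (b i)))).div_const 2).mul_left _
  have hGs : Summable G := by
    rw [summable_prod_of_nonneg hG0]
    refine ⟨fun i => (hGi i).summable, ?_⟩
    have e : (fun i => ∑' k, G (i, k)) = fun i => w i * ((‖b i‖ ^ 2 + ‖Nf (b i)‖ ^ 2) / 2) :=
      funext fun i => (hGi i).tsum_eq
    rw [e]
    refine Summable.of_nonneg_of_le (fun i => mul_nonneg (hw0 i) (by positivity)) (fun i => ?_)
      (hw.mul_right ((1 + C ^ 2) / 2))
    refine mul_le_mul_of_nonneg_left ?_ (hw0 i)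
    have h1 : ‖b i‖ = 1 := b.orthonormal.1 i
    have h2 : ‖Nf (b i)‖ ^ 2 ≤ C ^ 2 := pow_le_pow_left₀ (norm_nonneg _) (hC i) 2
    rw [h1]
    linarith
  have hFs : Summable F := by
    refine Summable.of_norm_bounded hGs fun p => ?_
    simp only [hF, hG, norm_mul, Complex.norm_real, Real.norm_eq_abs, abs_of_nonneg (hw0 _)]
    refine mul_le_mul_of_nonneg_left ?_ (hw0 _)
    rw [norm_inner_symm (b p.1) (c p.2)]
    nlinarith [sq_nonneg (‖⟪c p.2, b p.1⟫_ℂ‖ - ‖⟪c p.2, Nf (b p.1)⟫_ℂ‖)]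
  obtain ⟨S, hS⟩ := hFs
  refine ⟨S, hS.prod_fiberwise ha, ?_⟩
  have hS' : HasSum (F ∘ (Equiv.prodComm κ ι)) S := (Equiv.prodComm κ ι).hasSum_iff.2 hS
  exact hS'.prod_fiberwise hbk

/-- A countable family of nonnegative integrable functions with summable integrals has an integrable sum, which may be integrated term by
term over every measurable set. -/
theorem sd_exists_sum {α : Type*} [MeasurableSpace α] {μ : Measure α} {J : Type*} [Countable J]
    {F : J → α → ℝ} (hF0 : ∀ j r, 0 ≤ F j r) (hFi : ∀ j, Integrable (F j) μ)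
    (hs : Summable fun j => ∫ r, F j r ∂μ) :
    ∃ n : α → ℝ, Integrable n μ ∧ (∀ r, 0 ≤ n r) ∧
      ∀ A : Set α, HasSum (fun j => ∫ r in A, F j r ∂μ) (∫ r in A, n r ∂μ) := by
  set g : α → ℝ≥0∞ := fun r => ∑' j, ENNReal.ofReal (F j r) with hg
  have hm : ∀ j, AEMeasurable (fun r => ENNReal.ofReal (F j r)) μ := fun j =>
    (hFi j).1.aemeasurable.ennreal_ofReal
  have hgm : AEMeasurable g μ := AEMeasurable.tsum hm
  have hsA : ∀ A : Set α, Summable fun j => ∫ r in A, F j r ∂μ := fun A =>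
    Summable.of_nonneg_of_le (fun j => integral_nonneg (hF0 j))
      (fun j => setIntegral_le_integral (hFi j) (ae_of_all _ (hF0 j))) hs
  have key : ∀ A : Set α, ∫⁻ r in A, g r ∂μ = ENNReal.ofReal (∑' j, ∫ r in A, F j r ∂μ) := by
    intro A
    rw [lintegral_tsum fun j => (hm j).restrict,
      ENNReal.ofReal_tsum_of_nonneg (fun j => integral_nonneg (hF0 j)) (hsA A)]
    congr 1
    funext j
    rw [ofReal_integral_eq_lintegral_ofReal (hFi j).integrableOn (ae_of_all _ (hF0 j))]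
  have hfin : ∫⁻ r, g r ∂μ ≠ ∞ := by
    have h := key Set.univ
    rw [setLIntegral_univ] at h
    rw [h]
    exact ENNReal.ofReal_ne_top
  refine ⟨fun r => (g r).toReal, integrable_toReal_of_lintegral_ne_top hgm hfin,
    fun r => ENNReal.toReal_nonneg, fun A => ?_⟩
  have hlt : ∀ᵐ r ∂μ, g r < ∞ := ae_lt_top' hgm hfin
  rw [integral_toReal hgm.restrict (ae_restrict_of_ae hlt), key A,
    ENNReal.toReal_ofReal (tsum_nonneg fun j => integral_nonneg (hF0 j))]
  exact (hsA A).hasSum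

end Abstract

theorem sd_norm_occMul_le {A : Set Space} (hA : MeasurableSet A) (Φ : L2 3) : ‖occMul hA Φ‖ ≤ 3 * ‖Φ‖ := by
  refine Lp.norm_le_mul_norm_of_ae_le_mul ?_
  filter_upwards [(memLp_occupation_smul hA Φ).coeFn_toLp] with x hx
  rw [occMul, hx, norm_smul, Complex.norm_real, Real.norm_eq_abs, abs_of_nonneg (occupation_nonneg A x)]
  exact mul_le_mul_of_nonneg_right (occupation_le A x) (norm_nonneg _)

theorem sd_density_nonneg (Φ : L2 3) (r : Space) : 0 ≤ density Φ r :=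
  mul_nonneg (by norm_num) (integral_nonneg fun _ => by positivity)

/-- **Every ensemble has a density.**  A positive trace-class operator on `L²(ℝ⁹; ℂ⁸)` with antisymmetric range (of finite or infinite rank) has a
spin-summed one-body density in the sense of `IsDensityOf`. -/
theorem exists_isDensityOf {Γ : L2 3 →L[ℂ] L2 3} {t : ℂ} (hpos : Γ.IsPositive) (htr : HasTrace Γ t)
    (hanti : ∀ Φ, IsAntisymmetric (Γ Φ)) : ∃ n : Space → ℝ, IsDensityOf Γ n ∧ ∀ r, 0 ≤ n r := by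
  obtain ⟨w₁, b₁, -⟩ := exists_hilbertBasis ℂ (L2 3)
  have hc : IsCompactOperator Γ := en_isCompact_of_summable b₁ hpos (htr _ b₁).summable
  obtain ⟨ι₀, b, w₀, hw₀, hb⟩ := en_exists_eigenbasis hpos hc
  have hnorm : ∀ k, ‖b k‖ = 1 := fun k => b.orthonormal.1 k
  have e1 : ∀ k, ⟪b k, Γ (b k)⟫_ℂ = ((w₀ k : ℝ) : ℂ) := fun k => by
    rw [hb k, inner_smul_right, inner_self_eq_norm_sq_to_K, hnorm k]; simp
  have hws : Summable w₀ := by
    have h := (htr _ b).summable
    simp only [e1] at h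
    exact Complex.summable_ofReal.1 h
  have hant : ∀ k, 0 < w₀ k → IsAntisymmetric (b k) := fun k hk => by
    have h1 : b k = ((w₀ k : ℂ))⁻¹ • Γ (b k) := by
      rw [hb k, smul_smul, inv_mul_cancel₀ (by exact_mod_cast hk.ne'), one_smul]
    rw [h1]; exact (hanti _).smul _
  have hsupp : ∀ (a : ι₀ → ℝ), Function.support (fun k => w₀ k * a k) ⊆ {k | 0 < w₀ k} := by
    intro a k hk
    have : w₀ k ≠ 0 := fun h0 => hk (by simp [h0])
    exact lt_of_le_of_ne (hw₀ k) this.symm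
  have hcount : Countable {k // 0 < w₀ k} := by
    have h := hws.countable_support
    have e : {k | 0 < w₀ k} = Function.support w₀ := by
      ext k
      exact ⟨fun hk => ne_of_gt hk, fun hk => lt_of_le_of_ne (hw₀ k) (Ne.symm hk)⟩
    exact (e ▸ h : {k | 0 < w₀ k}.Countable).to_subtype
  obtain ⟨n, hn, hn0, hsum⟩ := sd_exists_sum (μ := (volume : Measure Space)) (J := {k // 0 < w₀ k})
    (F := fun j r => w₀ j * density (b j) r)
    (fun j r => mul_nonneg (hw₀ j) (sd_density_nonneg _ r))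
    (fun j => (integrable_density _).const_mul _)
    (by
      have e : (fun j : {k // 0 < w₀ k} => ∫ r, w₀ j * density (b j) r) =
          fun j : {k // 0 < w₀ k} => w₀ j * 3 := by
        funext j
        rw [integral_const_mul, integral_density, hnorm]; norm_num
      rw [e]
      exact (hws.subtype _).mul_right 3)
  refine ⟨n, ⟨hn, fun A hA κ c => ?_⟩, hn0⟩
  obtain ⟨S, hS1, hS2⟩ := sd_hasSum_diag b c hw₀ hws hpos hb (Nf := occMul hA)
    (fun x y => (occupationForm_eq_inner_left hA x y).symm.trans (occupationForm_eq_inner_right hA x y))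
    (C := 3) (fun i => by simpa [hnorm i] using sd_norm_occMul_le hA (b i))
  have e2 : ∀ k, (w₀ k : ℂ) * ⟪b k, occMul hA (b k)⟫_ℂ = ((w₀ k * ∫ r in A, density (b k) r : ℝ) : ℂ) := by
    intro k
    rw [← occupationForm_eq_inner_right hA, occupationForm_self]
    rcases (hw₀ k).eq_or_lt with h0 | h0
    · simp [← h0]
    · rw [integral_occupation_mul_norm_sq (hant k h0) hA]; push_cast; rfl
  simp only [e2] at hS1
  have h3 : HasSum (fun j : {k // 0 < w₀ k} => w₀ j * ∫ r in A, density (b j) r) (∫ r in A, n r) := by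
    have h := hsum A
    simpa only [integral_const_mul] using h
  have h4 : HasSum (fun k => w₀ k * ∫ r in A, density (b k) r) (∫ r in A, n r) :=
    (hasSum_subtype_iff_of_support_subset (s := {k | 0 < w₀ k}) (hsupp _)).1 h3
  have hSe : S = ((∫ r in A, n r : ℝ) : ℂ) := hS1.unique (Complex.hasSum_ofReal.2 h4)
  rw [← hSe]
  simpa only [occupationForm_eq_inner_left hA] using hS2

/-- **Every ground-state ensemble has a density**: the relation `IsDensityOf` in `Statement` excludes no ground-state ensemble. -/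
theorem IsGroundStateEnsemble.exists_isDensityOf {W : Config 3 → ℝ} {Γ : L2 3 →L[ℂ] L2 3}
    (h : IsGroundStateEnsemble W Γ) : ∃ n : Space → ℝ, IsDensityOf Γ n := by
  obtain ⟨hpos, htr, E, -, hran⟩ := h
  obtain ⟨n, hn, -⟩ := Claimed.Open.R278.exists_isDensityOf hpos htr fun Φ => (hran Φ).1.1
  exact ⟨n, hn⟩

/-- Hence the proposition negated in `HasUnrepresentableGroundState` can be read with "the" density `n_Γ`: it holds iff some ground-state
ensemble `Γ` of some `H_s(v)`, `v ∈ 𝒱`, has ALL its densities (there is one, and it is unique a.e.) equal to `n_Ψ` a.e. -/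
theorem representable_iff_forall_density (Ψ : L2 3) :
    (∃ (v : Space → ℝ) (Γ : L2 3 →L[ℂ] L2 3) (n : Space → ℝ), v ∈ PotentialClass ∧
        IsGroundStateEnsemble (oneBodyPotential v) Γ ∧ IsDensityOf Γ n ∧ n =ᵐ[volume] density Ψ) ↔
      ∃ (v : Space → ℝ) (Γ : L2 3 →L[ℂ] L2 3), v ∈ PotentialClass ∧
        IsGroundStateEnsemble (oneBodyPotential v) Γ ∧ ∀ n, IsDensityOf Γ n → n =ᵐ[volume] density Ψ := by
  constructor
  · rintro ⟨v, Γ, n, hv, hΓ, hn, he⟩
    exact ⟨v, Γ, hv, hΓ, fun n' hn' => (hn'.ae_eq hn).trans he⟩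
  · rintro ⟨v, Γ, hv, hΓ, h⟩
    obtain ⟨n, hn⟩ := hΓ.exists_isDensityOf
    exact ⟨v, Γ, n, hv, hΓ, hn, h n hn⟩

/-- The assertion of Theorem 1.1 for the charge `Z`, with "the" density of the ensemble: for every `v ∈ 𝒱` and every ground-state ensemble
`Γ` of `H_s(v)`, the density `n_Γ` exists and differs from `n_Ψ` on a set of positive measure. -/
theorem hasUnrepresentableGroundState_iff (Z : ℕ) :
    HasUnrepresentableGroundState Z ↔
      ∃ Ψ : L2 3, IsGroundState (coulombPotential Z (bigD / Z)) Ψ ∧ InSpinSector (1 / 2) Ψ ∧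
        ∀ v ∈ PotentialClass, ∀ Γ : L2 3 →L[ℂ] L2 3, IsGroundStateEnsemble (oneBodyPotential v) Γ →
          (∃ n, IsDensityOf Γ n) ∧ ∀ n, IsDensityOf Γ n → ¬ n =ᵐ[volume] density Ψ := by
  constructor
  · rintro ⟨Ψ, h1, h2, h3⟩
    exact ⟨Ψ, h1, h2, fun v hv Γ hΓ =>
      ⟨hΓ.exists_isDensityOf, fun n hn he => h3 ⟨v, Γ, n, hv, hΓ, hn, he⟩⟩⟩
  · rintro ⟨Ψ, h1, h2, h3⟩
    exact ⟨Ψ, h1, h2, fun ⟨v, Γ, n, hv, hΓ, hn, he⟩ => (h3 v hv Γ hΓ).2 n hn he⟩

end Claimed.Open.R278
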