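import Claimed.Open.R278.Top

/-!
# Sanity checks for Part II of `Statement.lean`: nothing is lost by its relational form

Part II of `Statement.lean` (the exact charge, Section 7 of the paper) speaks about the objects attached to an
auxiliary coupling `t` through relations: `IsRegular εb t d` ("`d` is a set of regular data of `t`"),
`IsFoldedMinimizer n θ` ("`θ` is the `C¹` version of a folded minimizing angle"), `IsMultiplier`, `IsStripSolution`.
This file checks, with the theorems of the proof layers, that these relations describe *the* objects of the paper and that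
no object of the paper is lost (deviations 5, 6, 7 of `CLAIM.md`):

* `exists_continuous_versions` (deviation 6): the density and the direct-removal amplitude of every eigenfunction of
  `H_{3,t}`, `0 ≤ t ≤ 1`, have continuous versions, so the fields `n`, `amp` of `AuxData` can always be filled;
* `n_smooth_of_eigenfunction`, `n_smooth_of_other_clauses` (deviation 7): the clause `n_smooth` of `IsRegular` follows
  from its clauses `ground`, `n_continuous`, `n_eq`, so it does not make regularity stronger than Definition 7.1;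
* `auxH_eq_of_isRegular` (deviation 5): for a regular `t` the number `H_t(j)`, defined as an infimum over all regular data,
  is the value computed from any regular data (for a nonregular `t` it is `+∞`: `auxH_eq_top`);
* `IsRegular.densityBasic`: the density of regular data satisfies the hypotheses of Proposition 4.1;
* `exists_C1_version_of_foldedMinimizer`, `IsRegular.exists_C1_version` (deviation 6): every folded minimizer of the angle
  problem (4.1) in the energy space `H¹(n; ℝ)`, folded almost everywhere, has a `C¹` version, and this version is a folded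
  minimizer in the sense of `Statement.lean`; the version is unique (`IsFoldedMinimizer.eq_of_ae_eq`).  So the tests (7.9),
  which `BadSet` applies to the `C¹` versions, reach every folded minimizing angle of the paper;
* `IsRegular.exists_test_data`: every folded minimizer of regular data has exactly one multiplier, and the strip solution
  `U_t(M, ·)` exists, so the witnesses `dθ, U, U'` in the third clause of `BadSet` are always there;
* `not_mem_badSet_iff`: "Thus `t ∉ 𝓑` means that the tests hold for *every* folded minimizing angle" (Section 7.2);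
* `IsExplicitCharge.reciprocal_passes`: the last assertion of Lemma 7.4, "`t_* = 1/Z` is regular and lies outside `𝓑`", spelled out;
* `IsSimpleIsolatedGround.eq_smul_of_univ`: an "isolated simple ground level" on all of `ℌ_m` (the ionic level of
  Definition 7.1(i)) is a simple eigenvalue.
-/

open MeasureTheory
open scoped ContDiff InnerProductSpace ComplexConjugate ENNReal Topology

noncomputable section

namespace Claimed.Open.R278

/-! ## Continuous versions (deviation 6) -/

/-- The density and the direct-removal amplitude of an eigenfunction of `H_{3,t}` have continuous versions. -/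
theorem exists_continuous_versions {t E : ℝ} (h0 : 0 ≤ t) (h1 : t ≤ 1) {Ψ : L2 3}
    (hΨ : Ψ ∈ Eigenspace (scaledPotential 3 t) E) (φ : L2 2) :
    (∃ n : Space → ℝ, Continuous n ∧ n =ᵐ[volume] density Ψ) ∧
    ∃ amp : Space → EuclideanSpace ℂ (Fin 2), Continuous amp ∧ amp =ᵐ[volume] removalAmplitude φ Ψ :=
  mr_versions h0 h1 hΨ φ

/-! ## The clause `n_smooth` (deviation 7) -/

/-- The exterior region `|x| > 10 D` does not contain the nuclei. -/
theorem exterior_subset_compl_nuclei : {x : Space | 10 * bigD < ‖x‖} ⊆ nucleiᶜ := by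
  intro x hx
  have hD : 0 < bigD := bigD_pos
  have hx' : 10 * bigD < ‖x‖ := hx
  exact gp_not_mem_nuclei_of_norm (by linarith)

/-- The continuous version of the density of any eigenfunction of `H_{3,t}`, `0 ≤ t ≤ 1`, is `C²` (even `C^∞`) on
`|x| > 10 D`. -/
theorem n_smooth_of_eigenfunction {t E : ℝ} (h0 : 0 ≤ t) (h1 : t ≤ 1) {Ψ : L2 3}
    (hΨ : Ψ ∈ Eigenspace (scaledPotential 3 t) E) {n : Space → ℝ} (hc : Continuous n)
    (hne : n =ᵐ[volume] density Ψ) : ContDiffOn ℝ 2 n {x | 10 * bigD < ‖x‖} :=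
  ((AG.density_smooth h0 h1 hΨ hc.continuousOn hne).of_le (by norm_cast)).mono
    exterior_subset_compl_nuclei

/-- The clause `n_smooth` of `IsRegular` follows from the clauses `ground`, `n_continuous`, `n_eq`. -/
theorem n_smooth_of_other_clauses {t : ℝ} (h0 : 0 ≤ t) (h1 : t ≤ 1) {d : AuxData}
    (ground : IsSimpleIsolatedGround (scaledPotential 3 t) {Ξ | InSpinSector (1 / 2) Ξ} d.E₃ d.Ψ)
    (n_continuous : Continuous d.n) (n_eq : d.n =ᵐ[volume] density d.Ψ) :
    ContDiffOn ℝ 2 d.n {x | 10 * bigD < ‖x‖} :=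
  n_smooth_of_eigenfunction h0 h1 ground.2.2.1 n_continuous n_eq

/-! ## `H_t(j)` (deviation 5) -/

/-- `H_t(j)` only depends on the density and on the rate. -/
theorem AuxData.H_congr {d d' : AuxData} (hn : d.n = d'.n) (hk : d.k = d'.k) (j : ℕ) : d.H j = d'.H j := by
  unfold AuxData.H AuxData.m
  rw [hn, hk]

/-- For a regular `t`, the infimum `auxH εb t j` is the number `H_t(j)` of (7.4) computed from any regular data. -/
theorem auxH_eq_of_isRegular {εb t : ℝ} {d : AuxData} (hd : IsRegular εb t d) (j : ℕ) :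
    auxH εb t j = d.H j := by
  refine le_antisymm
    (iInf₂_le (f := fun (d : AuxData) (_ : d ∈ {d : AuxData | IsRegular εb t d}) => d.H j) d hd) ?_
  unfold auxH
  refine le_iInf₂ fun d' hd' => ?_
  obtain ⟨hn, hk⟩ := hd.unique hd'
  exact (AuxData.H_congr hn hk j).le

/-! ## Folded minimizers (deviation 6) -/

/-- The density of regular data satisfies the hypotheses of Proposition 4.1 (Lemma 2.4, and smoothness off the nuclei). -/
theorem IsRegular.densityBasic {εb t : ℝ} (h0 : 0 ≤ t) (h1 : t ≤ 1) {d : AuxData} (hd : IsRegular εb t d) :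
    DensityBasic d.n :=
  mr_densityBasic h0 h1 hd.ground.2.2.1 hd.ground.1 hd.axisymmetric hd.odd hd.n_continuous hd.n_eq hd.n_pos
    ((AG.density_smooth h0 h1 hd.ground.2.2.1 hd.n_continuous.continuousOn hd.n_eq).of_le
      (by norm_cast))

/-- **No minimizer is lost.**  A folded minimizer of the angle problem (4.1) in the energy space: `(θ₀, G₀)` is admissible
(`θ₀ ∈ H¹(n; ℝ)` odd, `∫ n sin² θ₀ = 1`), `0 ≤ θ₀ ≤ π/2` almost everywhere on the upper half-space, and its energy is minimal
among all admissible angles.  It has a `C¹` version, which is a folded minimizer in the sense of `Statement.lean`. -/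
theorem exists_C1_version_of_foldedMinimizer {n : Space → ℝ} (hn : DensityBasic n) {θ₀ : Space → ℝ}
    {G₀ : Space → Space} (hadm : IsAdmissibleAngle n θ₀ G₀)
    (hfold : ∀ᵐ x : Space, 0 < x 2 → 0 ≤ θ₀ x ∧ θ₀ x ≤ Real.pi / 2)
    (hmin : ∀ ϑ G, IsAdmissibleAngle n ϑ G → (∫ x, n x * ‖G₀ x‖ ^ 2) ≤ ∫ x, n x * ‖G x‖ ^ 2) :
    ∃ θ : Space → ℝ, θ₀ =ᵐ[volume] θ ∧ IsFoldedMinimizer n θ := by
  have h : IsWeakFoldedMin n θ₀ G₀ := ⟨hadm, hfold, hmin⟩
  obtain ⟨d, hd⟩ := an_weak_multiplier hn h
  have hb := an_abs_le_of_folded h.2.1 h.1.2.2.1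
  have hf : ∀ᵐ x, |d * Real.sin (2 * θ₀ x)| ≤ max (Real.pi / 2) |d| := by
    refine Filter.Eventually.of_forall fun x => ?_
    rw [abs_mul]
    calc |d| * |Real.sin (2 * θ₀ x)| ≤ |d| * 1 :=
          mul_le_mul_of_nonneg_left (Real.abs_sin_le_one _) (abs_nonneg _)
      _ ≤ max (Real.pi / 2) |d| := by rw [mul_one]; exact le_max_right _ _
  have hu : ∀ᵐ x, |θ₀ x| ≤ max (Real.pi / 2) |d| := by
    filter_upwards [hb] with x hx using hx.trans (le_max_left _ _)
  obtain ⟨θ, hθ, he⟩ := an_C1_version hn (hd.driftEq hn h.1) hu hf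
  exact ⟨θ, he, (an_transfer hn h hd hθ he).1⟩

/-- The `C¹` version is unique. -/
theorem IsFoldedMinimizer.eq_of_ae_eq {n θ θ' : Space → ℝ} (h : IsFoldedMinimizer n θ)
    (h' : IsFoldedMinimizer n θ') (he : θ =ᵐ[volume] θ') : θ = θ' :=
  (Continuous.ae_eq_iff_eq volume h.1.continuous h'.1.continuous).1 he

/-- The same for the density `n_t` of a regular coupling. -/
theorem IsRegular.exists_C1_version {εb t : ℝ} (h0 : 0 ≤ t) (h1 : t ≤ 1) {d : AuxData}
    (hd : IsRegular εb t d) {θ₀ : Space → ℝ} {G₀ : Space → Space} (hadm : IsAdmissibleAngle d.n θ₀ G₀)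
    (hfold : ∀ᵐ x : Space, 0 < x 2 → 0 ≤ θ₀ x ∧ θ₀ x ≤ Real.pi / 2)
    (hmin : ∀ ϑ G, IsAdmissibleAngle d.n ϑ G → (∫ x, d.n x * ‖G₀ x‖ ^ 2) ≤ ∫ x, d.n x * ‖G x‖ ^ 2) :
    ∃ θ : Space → ℝ, θ₀ =ᵐ[volume] θ ∧ IsFoldedMinimizer d.n θ :=
  exists_C1_version_of_foldedMinimizer (hd.densityBasic h0 h1) hadm hfold hmin

/-- A regular coupling has a folded minimizing angle; each of them has exactly one multiplier, which is positive; the strip
solution `U_t(M, ·)` exists.  So the third clause of `BadSet` never fails for lack of a witness `dθ`, `U`, `U'`. -/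
theorem IsRegular.exists_test_data {εb t : ℝ} (h0 : 0 ≤ t) (h1 : t ≤ 1) {d : AuxData}
    (hd : IsRegular εb t d) (M : ℕ) :
    (∃ θ, IsFoldedMinimizer d.n θ) ∧
    (∀ θ, IsFoldedMinimizer d.n θ → ∃! dθ : ℝ, IsMultiplier d.n θ dθ) ∧
    (∀ θ dθ, IsFoldedMinimizer d.n θ → IsMultiplier d.n θ dθ → 0 < dθ) ∧
    ∃ U U' : ℝ → ℝ, IsStripSolution (fun z => d.n (cyl M z)) U U' := by
  have hn := hd.densityBasic h0 h1
  refine ⟨?_, fun θ hθ => ?_, fun θ dθ hθ hdθ => hθ.multiplier_pos hn hdθ, ?_⟩
  · obtain ⟨θ, -, hθ, -⟩ := exists_foldedMinimizer hn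
    exact ⟨θ, hθ⟩
  · obtain ⟨dθ, hdθ⟩ := hθ.exists_multiplier hn
    exact ⟨dθ, hdθ, fun d' hd' => hθ.multiplier_unique hn hd' hdθ⟩
  · exact exists_stripSolution ((hd.n_continuous.comp (ac_continuous_cyl M)).continuousOn)
      (fun z _ => hd.n_pos _)

/-! ## The bad set -/

/-- "Thus `t ∉ 𝓑` means that the tests hold for *every* folded minimizing angle" (Section 7.2): a coupling `t ∈ (0,1]` is
outside the bad set iff it is regular, `H_t(M) < 1`, and every folded minimizing angle of `n_t` passes the tests (7.9). -/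
theorem not_mem_badSet_iff {b e : Space → ℝ} {εb : ℝ} {M : ℕ} {α : ℝ} {U₀' : ℝ → ℝ} {t : ℝ}
    (ht : t ∈ Set.Ioc (0 : ℝ) 1) :
    t ∉ BadSet b e εb M α U₀' ↔
      ∃ d : AuxData, IsRegular εb t d ∧ d.H M < 1 ∧
        ∀ (θ : Space → ℝ) (dθ : ℝ) (U U' : ℝ → ℝ), IsFoldedMinimizer d.n θ → IsMultiplier d.n θ dθ →
          IsStripSolution (fun z => d.n (cyl M z)) U U' → PassesAngleTests b e M α U₀' d.n θ dθ U' := by
  constructor
  · intro hnot
    have hnot' : ¬ ((¬ ∃ d, IsRegular εb t d) ∨ 1 ≤ auxH εb t M ∨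
        ∃ (d : AuxData) (θ : Space → ℝ) (dθ : ℝ) (U U' : ℝ → ℝ),
          IsRegular εb t d ∧ IsFoldedMinimizer d.n θ ∧ IsMultiplier d.n θ dθ ∧
          IsStripSolution (fun z => d.n (cyl M z)) U U' ∧
          ¬ PassesAngleTests b e M α U₀' d.n θ dθ U') := fun hh => hnot ⟨ht, hh⟩
    rw [not_or, not_or, not_not] at hnot'
    obtain ⟨⟨d, hd⟩, hH, htest⟩ := hnot'
    refine ⟨d, hd, ?_, fun θ dθ U U' hθ hdθ hU => ?_⟩
    · rw [← auxH_eq_of_isRegular hd M]
      exact not_le.mp hH
    · by_contra hh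
      exact htest ⟨d, θ, dθ, U, U', hd, hθ, hdθ, hU, hh⟩
  · rintro ⟨d, hd, hH, htest⟩ ⟨-, hbad⟩
    rcases hbad with hb | hb | ⟨d', θ, dθ, U, U', hd', hθ, hdθ, hU, hfail⟩
    · exact hb ⟨d, hd⟩
    · rw [auxH_eq_of_isRegular hd M] at hb
      exact absurd hH (not_lt.mpr hb)
    · have hn : d'.n = d.n := (hd'.unique hd).1
      rw [hn] at hθ hdθ hU hfail
      exact hfail (htest θ dθ U U' hθ hdθ hU)

/-- The last assertion of Lemma 7.4 for the integer of (7.10): `t_* = 1/Z` is regular, `H_{t_*}(M) < 1`, and every folded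
minimizing angle of `n_{t_*}` passes the tests (7.9). -/
theorem IsExplicitCharge.reciprocal_passes {Z : ℕ} (h : IsExplicitCharge Z) :
    ∃ (b e : Space → ℝ) (εb εe : ℝ) (M : ℕ) (U₀ U₀' : ℝ → ℝ) (α : ℝ),
      IsTwoCentreData b e εb εe ∧ IsRadius b e εb M ∧
      IsStripSolution (fun z => refDensity b e (cyl M z)) U₀ U₀' ∧ IsMargin b e M U₀ α ∧
      ∃ d : AuxData, IsRegular εb (1 / (Z : ℝ)) d ∧ d.H M < 1 ∧
        ∀ (θ : Space → ℝ) (dθ : ℝ) (U U' : ℝ → ℝ), IsFoldedMinimizer d.n θ → IsMultiplier d.n θ dθ →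
          IsStripSolution (fun z => d.n (cyl M z)) U U' → PassesAngleTests b e M α U₀' d.n θ dθ U' := by
  obtain ⟨b, e, εb, εe, M, U₀, U₀', α, C, h1, h2, h3, h4, h5, rfl⟩ := h
  have hnot := not_mem_badSet_of_isLUB h5
  have hZ1 : (1 : ℝ) ≤ ((2 + ⌈C⌉₊ : ℕ) : ℝ) := by
    have : 1 ≤ 2 + ⌈C⌉₊ := by omega
    exact_mod_cast this
  have ht : (1 / ((2 + ⌈C⌉₊ : ℕ) : ℝ)) ∈ Set.Ioc (0 : ℝ) 1 :=
    ⟨by positivity, by rw [div_le_one (by linarith)]; exact hZ1⟩
  exact ⟨b, e, εb, εe, M, U₀, U₀', α, h1, h2, h3, h4, (not_mem_badSet_iff ht).1 hnot⟩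

/-! ## Simplicity of the ionic level -/

/-- An isolated simple ground level of `H(W)` on all of `ℌ_m` is a simple eigenvalue. -/
theorem IsSimpleIsolatedGround.eq_smul_of_univ {m : ℕ} {W : Config m → ℝ}
    (hW : AEStronglyMeasurable W volume) {E : ℝ} {Φ : L2 m} (h : IsSimpleIsolatedGround W Set.univ E Φ)
    {Ξ : L2 m} (hΞ : Ξ ∈ Eigenspace W E) : Ξ = ⟪Φ, Ξ⟫_ℂ • Φ :=
  h.eq_smul hW (fun _ _ _ => Set.mem_univ _) hΞ (Set.mem_univ _)

end Claimed.Open.R278
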