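import Claimed.Open.R278.SanityDensity

/-!
# Result 278, sanity: `HasTrace` is the textbook trace

`Statement.lean` calls a bounded operator `Γ` trace class with `Tr Γ = t` when `∑ₖ ⟨bₖ, Γ bₖ⟩ = t` (unconditionally) in EVERY orthonormal
basis (`HasDiagonalSum`, `HasTrace`).  `Statement` NEGATES the existence of a ground-state ensemble, so a clause that were too demanding
would weaken it.  It is not: for a positive operator the textbook definition (Reed-Simon I, Theorem VI.18: the diagonal sum is finite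
in ONE orthonormal basis) implies the clause for all bases, with the same value.

* (`sd_hasSum_diag`, `SanityDensity.lean` : for a symmetric `B`, bounded on an orthonormal eigenbasis of `Γ` with summable eigenvalues `w ≥ 0`,
  the diagonal sum of `B Γ` converges unconditionally in every orthonormal basis, to `∑ₗ wₗ ⟨bₗ, B bₗ⟩`;)
* `summable_eigenvalues_of_summable_diagonal` : if the diagonal of `Γ` is summable in one orthonormal basis, its eigenvalues are summable;
* **`hasTrace_of_hasSum`** : `Γ ≥ 0` and `∑ₖ ⟨cₖ, Γ cₖ⟩ = t` in ONE orthonormal basis `c`  ⟹  `HasTrace Γ t`;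
* `IsGroundStateEnsemble.apply_eq_zero` (deviation 3 of `CLAIM.md`): a ground-state ensemble, which acts on all of `L²(ℝ⁹; ℂ⁸)`, vanishes on
  the orthogonal complement of the antisymmetric space `ℌ₃`: it is the extension by zero of an operator on `ℌ₃`.
-/

open MeasureTheory
open scoped InnerProductSpace ComplexConjugate ENNReal Topology NNReal

noncomputable section

namespace Claimed.Open.R278

section Abstract

variable {H : Type*} [NormedAddCommGroup H] [InnerProductSpace ℂ H]

/-- If the diagonal of `Γ` is summable in ONE orthonormal basis `c`, the eigenvalues of `Γ` are summable. -/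
theorem summable_eigenvalues_of_summable_diagonal {ι κ : Type*} (b : HilbertBasis ι ℂ H) {w : ι → ℝ} (hw0 : ∀ l, 0 ≤ w l)
    {Γ : H → H} (hsa : ∀ x y, ⟪Γ x, y⟫_ℂ = ⟪x, Γ y⟫_ℂ) (hb : ∀ l, Γ (b l) = (w l : ℂ) • b l) (c : HilbertBasis κ ℂ H)
    (hs : Summable fun k => ⟪c k, Γ (c k)⟫_ℂ) : Summable w := by
  set G : κ × ι → ℝ := fun p => w p.2 * ‖⟪c p.1, b p.2⟫_ℂ‖ ^ 2 with hG
  have hG0 : 0 ≤ G := fun p => mul_nonneg (hw0 _) (by positivity)
  have hrow : ∀ k, HasSum (fun l => G (k, l)) (⟪c k, Γ (c k)⟫_ℂ).re := fun k => by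
    have h1 := Complex.reCLM.hasSum (b.hasSum_inner_mul_inner (c k) (Γ (c k)))
    refine h1.congr_fun fun l => ?_
    simp only [hG]
    rw [← hsa, hb, inner_smul_left, Complex.conj_ofReal, ← inner_conj_symm (b l) (c k)]
    have h2 : ⟪c k, b l⟫_ℂ * ((w l : ℂ) * (starRingEnd ℂ) ⟪c k, b l⟫_ℂ) = ((w l * ‖⟪c k, b l⟫_ℂ‖ ^ 2 : ℝ) : ℂ) := by
      rw [mul_left_comm, Complex.mul_conj']; push_cast; rfl
    rw [h2]
    exact (Complex.ofReal_re _).symm
  have hGs : Summable G := by
    rw [summable_prod_of_nonneg hG0]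
    refine ⟨fun k => (hrow k).summable, ?_⟩
    simp only [fun k => (hrow k).tsum_eq]
    exact Complex.reCLM.summable hs
  have hsw : Summable fun q : ι × κ => G q.swap := (Equiv.prodComm ι κ).summable_iff.2 hGs
  have h3 := ((summable_prod_of_nonneg fun q => hG0 q.swap).1 hsw).2
  refine h3.congr fun l => ?_
  have h4 : HasSum (fun k => G ((l, k) : ι × κ).swap) (w l * ‖b l‖ ^ 2) := (en_parseval c (b l)).mul_left (w l)
  rw [h4.tsum_eq, b.orthonormal.1 l]
  simp

end Abstract

/-! ## Traces: one basis is enough -/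

/-- **`HasTrace` is the textbook notion.**  For a positive operator it suffices that the diagonal sum converges to `t` in ONE
orthonormal basis (Reed–Simon I, Theorem VI.18): it then converges unconditionally to `t` in EVERY orthonormal basis.  So the clause
"for every basis" in `HasDiagonalSum` / `HasTrace` excludes no positive trace-class operator. -/
theorem hasTrace_of_hasSum {Γ : L2 3 →L[ℂ] L2 3} (hpos : Γ.IsPositive) {κ : Type*} (c : HilbertBasis κ ℂ (L2 3)) {t : ℂ}
    (h : HasSum (fun k => ⟪c k, Γ (c k)⟫_ℂ) t) : HasTrace Γ t := by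
  have hc : IsCompactOperator Γ := en_isCompact_of_summable c hpos h.summable
  obtain ⟨ι, b, w, hw0, hb⟩ := en_exists_eigenbasis hpos hc
  have hsa : ∀ x y, ⟪Γ x, y⟫_ℂ = ⟪x, Γ y⟫_ℂ := fun x y => hpos.isSymmetric x y
  have hw : Summable w := summable_eigenvalues_of_summable_diagonal b hw0 (Γ := Γ) hsa hb c h.summable
  have hid : ∀ l, ‖id (b l)‖ ≤ 1 := fun l => (b.orthonormal.1 l).le
  obtain ⟨a, ha1, ha2⟩ := sd_hasSum_diag b c hw0 hw hpos hb (Nf := id) (fun _ _ => rfl) hid
  have hat : a = t := ha2.unique h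
  intro κ' c'
  obtain ⟨a', ha1', ha2'⟩ := sd_hasSum_diag b c' hw0 hw hpos hb (Nf := id) (fun _ _ => rfl) hid
  rw [← hat, ha1.unique ha1']
  exact ha2'

/-! ## Ensembles live on the antisymmetric space -/

/-- A ground-state ensemble vanishes on every vector that is orthogonal to all antisymmetric vectors. -/
theorem IsGroundStateEnsemble.apply_eq_zero {W : Config 3 → ℝ} {Γ : L2 3 →L[ℂ] L2 3} (h : IsGroundStateEnsemble W Γ) {Φ : L2 3}
    (hΦ : ∀ Ξ : L2 3, IsAntisymmetric Ξ → ⟪Ξ, Φ⟫_ℂ = 0) : Γ Φ = 0 := by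
  obtain ⟨hpos, -, E, -, hran⟩ := h
  have h1 : ⟪Γ Φ, Γ Φ⟫_ℂ = ⟪Γ (Γ Φ), Φ⟫_ℂ := (hpos.isSymmetric (Γ Φ) Φ).symm
  rw [hΦ _ (hran _).1.1] at h1
  exact inner_self_eq_zero.1 h1

end Claimed.Open.R278
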