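import Claimed.Open.R278.Examples
import Claimed.Open.R278.ChargeLemmas
import Claimed.Open.R278.GroundState
import Claimed.Open.R278.ChargeUnique
import Claimed.Open.R278.SanityDensity
import Claimed.Open.R278.SanityTrace
import Claimed.Open.R278.SanityClosed
import Claimed.Open.R278.SanityRegular

/-!
# Sanity checks for the definitions of `Statement.lean`

Every item below is kernel-checked (the proofs are in `FormLemmas.lean`, `DensityLemmas.lean`,
`Examples.lean`, `ChargeLemmas.lean`, `ChargeUnique.lean`, and, for item 11, in the chain `Mollify`, `Variance`, `Tensor`,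
`PoschlTeller`, `FlatBound`, `Transfer`, `Closing`, `Excited`, `GroundState`, for items 12 to 15 in `SanityDensity`, `SanityTrace`, `SanityClosed`, `FSHardy`,
`FSSobolev`, `SanityRegular` of this folder).  They show that the definitions of `Statement.lean` behave as the
objects of the paper:

1. the weak gradient is unique, so `weakGrad`, `sesqForm`, `energy` are canonical; classical
   `C¹_c` functions are in `H¹` with their classical gradient;
2. the form domain is a subspace on which the form is sesquilinear and Hermitian;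
3. at the bottom of the spectrum the weak eigenvalue equation is equivalent to `q[Φ] = E‖Φ‖²`, and
   ground states are exactly the normalized minimisers of the energy;
4. the set over which the Coulomb energy is minimised is not empty, even in the sector `S_z = 1/2`
   (an explicit Slater determinant);
5. orthonormal bases exist, so traces are unique; `Tr |Φ⟩⟨Φ| = ‖Φ‖²`;
6. `∫ n_Ψ = 3 ‖Ψ‖²`, and any density of a trace-one ensemble has integral three;
7. the projector on a ground state is a ground-state ensemble whose density is `n_Φ`; ground-state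
   ensembles are convex and their densities are "defined by linearity"; the density of an ensemble
   is unique up to null sets;
8. the nuclear Coulomb potential of the theorem lies in `L^{3/2} + L^∞`;
9. non-examples: the zero operator is not an ensemble; a state lying in two different spin sectors
   vanishes; an unbounded confining potential `|r|` is not in `L^{3/2} + L^∞`;
10. Part II (the exact charge): the symmetry operations are measure preserving isometries that leave
   the scaled potentials invariant; singlets are the spatially symmetric antisymmetric states and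
   have `S_z = 0`; an "isolated simple ground level" is the bottom of the spectrum, its vector is a
   ground state, and every eigenvector is a multiple of it; classical gradients are weak gradients
   and weak gradients are unique; strip solutions exist for constant weights and are unique for
   positive weights; `H_t(j) = +∞` for nonregular `t`; the charge (7.10) is `≥ 2` and its
   reciprocal is outside the bad set; the data `b, e, ε_b, ε_e` of Proposition 2.2 are unique and
   **the relation `IsExplicitCharge` determines `Z`**;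
11. **a complete worked example of a Kohn–Sham system**: for the bounded potential
   `v(r) = -3 (sech² r₁ + sech² r₂ + sech² r₃) ∈ L^{3/2} + L^∞` the noninteracting three-electron
   Hamiltonian `H_s(v)` has `inf σ = 2ε₀ + ε₁ = -33/2`, attained by the Slater determinant of
   `φ₁↑, φ₁↓, φ₂↑` in the sector `S_z = 1/2`; its projector is a ground-state ensemble with
   density `n_Φ`.  So the existential statement that `Statement` negates ("there are `v`, `Γ`, `n`
   with …") is satisfiable: some densities *are* ensemble representable, and nonrepresentability is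
   not an artefact of the definitions;
12. **nothing is lost under the negation**: every ground-state ensemble, of finite or infinite rank, has a
   density in the sense of the relation `IsDensityOf` (`SanityDensity.lean`), so the triples `(v, Γ, n)`
   excluded by `Statement` cover *all* ground-state ensembles of *all* `H_s(v)`, as in the paper; and the
   integrability clause of `FormDomain` is automatic for `H_C`, `H_{m,t}` and every `H_s(v)`, `v ∈ 𝒱`
   (Hardy, Sobolev): their form domain is the antisymmetric part of `H¹`, and the form of `H_s(v)` is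
   semibounded;
13. **`HasTrace` is the textbook trace** (`SanityTrace.lean`): for a positive operator, convergence of the diagonal sum in ONE
   orthonormal basis gives `HasTrace` (every basis, same value), so the clause "in every orthonormal basis" excludes no
   positive trace-class operator from the negated existential; and a ground-state ensemble vanishes on the orthogonal complement of
   the antisymmetric space, i.e. it is the extension by zero of an operator on `ℌ₃`;
14. **the forms of `H_s(v)` (every `v ∈ 𝒱`) and of `H_C` are semibounded and closed on the form domain of `Statement.lean`**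
   (`SanityClosed.lean`): this is what the variational principle and the first representation theorem need, by which
   `IsSpectrumBottom` and `Eigenspace` are `inf σ(H)` and `ker (H - E)`; in particular `inf σ` is a real number;
15. **Part II loses nothing by its relational form** (`SanityRegular.lean`): the density and the removal amplitude of every eigenfunction of
   `H_{3,t}` have continuous versions; the clause `n_smooth` of `IsRegular` follows from its other clauses; all regular data of a coupling have the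
   same `n_t`, `k_t`, and `H_t(j)` (an infimum over them) is the number (7.4) computed from any of them; every folded minimizer of (4.1) in the
   energy space `H¹(n_t)` has a unique `C¹` version, which is a folded minimizer in the sense of `Statement.lean`, has exactly one multiplier, and
   the strip solution exists, so the tests (7.9) reach every minimizing angle of the paper; `t ∉ 𝓑` iff `t` is regular, `H_t(M) < 1` and every
   folded minimizing angle passes the tests; the last assertion of Lemma 7.4 for `t_* = 1/Z`.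
-/

open MeasureTheory InnerProductSpace Filter
open scoped ContDiff InnerProductSpace Topology

noncomputable section

namespace Claimed.Open.R278.Sanity

/-! ## 1. `H¹` -/

example {Ψ : L2 3} {G G' : Fin 3 × Fin 3 → L2 3} (h : IsWeakGradient Ψ G) (h' : IsWeakGradient Ψ G') :
    G = G' := h.unique h'

example {Ψ : L2 3} {G : Fin 3 × Fin 3 → L2 3} (h : IsWeakGradient Ψ G) : weakGrad Ψ = G := h.weakGrad_eq

example {F : Config 3 → SpinSpace 3} (hF : ContDiff ℝ 1 F) (hc : HasCompactSupport F) :
    IsWeakGradient ((memLp_of_contDiff hF hc).toLp F)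
      (fun j => (memLp_fderiv_of_contDiff hF hc (dir j)).toLp (fun x => fderiv ℝ F x (dir j))) :=
  isWeakGradient_of_contDiff hF hc

/-! ## 2. The form -/

example {W : Config 3 → ℝ} (hW : AEStronglyMeasurable W volume) :
    ((formSubmodule W hW : Submodule ℂ (L2 3)) : Set (L2 3)) = FormDomain W := rfl

example {W : Config 3 → ℝ} (Ξ Φ : L2 3) : sesqForm W Φ Ξ = starRingEnd ℂ (sesqForm W Ξ Φ) :=
  sesqForm_conj_symm Ξ Φ

/-! ## 3. Variational characterisation of ground states -/

example {W : Config 3 → ℝ} (hW : AEStronglyMeasurable W volume) {E : ℝ} (hE : IsSpectrumBottom W E)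
    {Φ : L2 3} : Φ ∈ Eigenspace W E ↔ Φ ∈ FormDomain W ∧ energy W Φ = E * ‖Φ‖ ^ 2 :=
  mem_eigenspace_iff_energy hW hE

example {W : Config 3 → ℝ} (hW : AEStronglyMeasurable W volume) {Ψ : L2 3} :
    IsGroundState W Ψ ↔ Ψ ∈ FormDomain W ∧ ‖Ψ‖ = 1 ∧
      ∀ Φ ∈ FormDomain W, ‖Φ‖ = 1 → energy W Ψ ≤ energy W Φ :=
  isGroundState_iff_minimizer hW

/-- The potentials of the theorem are measurable, so the two previous facts apply to them. -/
example (Z R : ℝ) : AEStronglyMeasurable (coulombPotential Z R) volume :=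
  (measurable_coulombPotential Z R).aestronglyMeasurable

/-! ## 4. The form domain of the Coulomb Hamiltonian contains normalized states with `S_z = 1/2` -/

example (Z : ℕ) : ∃ Φ : L2 3, Φ ∈ FormDomain (coulombPotential Z (bigD / Z)) ∧ ‖Φ‖ = 1 ∧
    InSpinSector (1 / 2) Φ :=
  exists_normalized_mem_formDomain _ _

/-! ## 5. Traces -/

example {a : L2 3 → ℂ} {t t' : ℂ} (h : HasDiagonalSum a t) (h' : HasDiagonalSum a t') : t = t' :=
  h.unique h'

example (Φ : L2 3) : HasTrace (rankOne ℂ Φ Φ) ((‖Φ‖ ^ 2 : ℝ) : ℂ) := hasTrace_rankOne Φ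

/-! ## 6. Densities have integral three -/

example (Ψ : L2 3) (h : ‖Ψ‖ = 1) : Integrable (density Ψ) ∧ ∫ r, density Ψ r = 3 :=
  ⟨integrable_density Ψ, by rw [integral_density, h]; norm_num⟩

example {Γ : L2 3 →L[ℂ] L2 3} {n : Space → ℝ} (h : IsDensityOf Γ n) (htr : HasTrace Γ 1) :
    ∫ r, n r = 3 := h.integral_eq htr

/-! ## 7. Pure states, mixtures, uniqueness of the density -/

/-- Whenever `H(W)` has a ground state `Φ`, the hypotheses on `(Γ, n)` in `Statement` are met by
`Γ = |Φ⟩⟨Φ|`, `n = n_Φ`. -/
example {W : Config 3 → ℝ} {Φ : L2 3} (h : IsGroundState W Φ) :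
    IsGroundStateEnsemble W (rankOne ℂ Φ Φ) ∧ IsDensityOf (rankOne ℂ Φ Φ) (density Φ) :=
  ⟨h.isGroundStateEnsemble_rankOne, isDensityOf_rankOne h.2.choose_spec.2.1.1⟩

example {W : Config 3 → ℝ} (hW : AEStronglyMeasurable W volume) {Γ₁ Γ₂ : L2 3 →L[ℂ] L2 3}
    {n₁ n₂ : Space → ℝ} (h₁ : IsGroundStateEnsemble W Γ₁) (h₂ : IsGroundStateEnsemble W Γ₂)
    (d₁ : IsDensityOf Γ₁ n₁) (d₂ : IsDensityOf Γ₂ n₂) {t : ℝ} (ht0 : 0 ≤ t) (ht1 : t ≤ 1) :
    IsGroundStateEnsemble W ((t : ℂ) • Γ₁ + ((1 - t : ℝ) : ℂ) • Γ₂) ∧
    IsDensityOf ((t : ℂ) • Γ₁ + ((1 - t : ℝ) : ℂ) • Γ₂) (fun r => t * n₁ r + (1 - t) * n₂ r) :=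
  ⟨h₁.convex hW h₂ ht0 ht1, d₁.convex d₂ t⟩

example {Γ : L2 3 →L[ℂ] L2 3} {n n' : Space → ℝ} (h : IsDensityOf Γ n) (h' : IsDensityOf Γ n') :
    n =ᵐ[volume] n' := h.ae_eq h'

/-! ## 8. The potential class -/

example (Z R : ℝ) : nuclearPotential Z R ∈ PotentialClass := nuclearPotential_mem_potentialClass Z R

/-! ## 9. Non-examples -/

/-- The zero operator is not an ensemble (its trace is `0`, not `1`). -/
example (W : Config 3 → ℝ) : ¬ IsGroundStateEnsemble W 0 := by
  rintro ⟨-, htr, -⟩
  have h0 : HasTrace (0 : L2 3 →L[ℂ] L2 3) 0 := HasDiagonalSum.zero.congr (by simp) rfl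
  exact one_ne_zero (htr.unique h0)

/-- Different spin sectors only meet in `0`. -/
example {Ψ : L2 3} {m m' : ℚ} (hm : m ≠ m') (h : InSpinSector m Ψ) (h' : InSpinSector m' Ψ) :
    Ψ = 0 := by
  apply Lp.ext
  filter_upwards [h, h', Lp.coeFn_zero (SpinSpace 3) 2 (volume : Measure (Config 3))] with x hx hx' h0
  rw [h0]
  ext s
  by_cases hs : spinZ s = m
  · exact hx' s (hs ▸ hm)
  · exact hx s hs

/-- A confining potential such as `|r|` is not in `L^{3/2} + L^∞`. -/
example : (fun r : Space => ‖r‖) ∉ PotentialClass := norm_notMem_potentialClass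

/-! ## 10. Part II: the definitions entering the exact charge -/

/-- The repulsion is the sum over pairs. -/
example (x : Config 3) : repulsion x = 1 / ‖x 0 - x 1‖ + 1 / ‖x 0 - x 2‖ + 1 / ‖x 1 - x 2‖ :=
  repulsion_three x

example (x : Config 2) : repulsion x = 1 / ‖x 0 - x 1‖ := repulsion_two x

/-- Rotations about the axis and the reflection are isometries fixing the pair of nuclei; the
simultaneous operations preserve Lebesgue measure and the potentials of `H_{m,t}`. -/
example (a : ℝ) (r : Space) : ‖rotZ a r‖ = ‖r‖ ∧ ‖reflZ r‖ = ‖r‖ ∧ reflZ (reflZ r) = r :=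
  ⟨norm_rotZ a r, norm_reflZ r, reflZ_reflZ r⟩

example (m : ℕ) (a : ℝ) :
    MeasurePreserving (fun (x : Config m) i => rotZ a (x i)) volume volume ∧
    MeasurePreserving (fun (x : Config m) i => reflZ (x i)) volume volume :=
  ⟨measurePreserving_config_rotZ a, measurePreserving_config_reflZ⟩

example (m : ℕ) (t a : ℝ) (x : Config m) :
    scaledPotential m t (fun i => rotZ a (x i)) = scaledPotential m t x ∧
    scaledPotential m t (fun i => reflZ (x i)) = scaledPotential m t x :=
  ⟨scaledPotential_rotZ t a x, scaledPotential_reflZ t x⟩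

/-- Every point is obtained by a rotation from the point `cyl p z` with its cylindrical coordinates,
so an axisymmetric function is determined by its profile `(p, z) ↦ n (cyl p z)`. -/
example (r : Space) : ∃ a, r = rotZ a (cyl (√(r 0 ^ 2 + r 1 ^ 2)) (r 2)) := exists_rotZ_cyl r

/-- Singlets. -/
example {φ : L2 2} (ha : IsAntisymmetric φ) :
    IsSinglet φ ↔ ∀ᵐ y : Config 2, φ (y ∘ Equiv.swap 0 1) = φ y := isSinglet_iff_symmetric ha

example {φ : L2 2} (h : IsSinglet φ) : InSpinSector 0 φ := h.inSpinSector

/-- An isolated simple ground level of `H(W)` on `ℌ_m` is `inf σ(H(W))` and its vector is a ground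
state in the sense of Part I. -/
example {m : ℕ} {W : Config m → ℝ} (hW : AEStronglyMeasurable W volume) {E : ℝ} {Φ : L2 m}
    (h : IsSimpleIsolatedGround W Set.univ E Φ) : IsSpectrumBottom W E ∧ IsGroundState W Φ :=
  h.isGroundState hW

/-- In a spin sector: `E` bounds the form from below on the sector and the level is simple. -/
example {m : ℕ} {W : Config m → ℝ} (hW : AEStronglyMeasurable W volume) {E : ℝ} {Φ : L2 m} {μ : ℚ}
    (h : IsSimpleIsolatedGround W {Ξ | InSpinSector μ Ξ} E Φ) :
    (∀ Ξ ∈ FormDomain W, InSpinSector μ Ξ → E * ‖Ξ‖ ^ 2 ≤ energy W Ξ) ∧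
    (∀ Ξ ∈ Eigenspace W E, InSpinSector μ Ξ → Ξ = ⟪Φ, Ξ⟫_ℂ • Φ) :=
  ⟨fun _ hΞ hs => h.le_energy hW (sector_closed h.2.1) hΞ hs,
   fun _ hΞ hs => h.eq_smul hW (sector_closed h.2.1) hΞ hs⟩

/-- Scalar weak gradients. -/
example {f : Space → ℝ} (hf : ContDiff ℝ 1 f) : IsWeakGrad f (gradient f) := isWeakGrad_gradient hf

example {f : Space → ℝ} {G G' : Space → Space} (h : IsWeakGrad f G) (h' : IsWeakGrad f G') :
    G =ᵐ[volume] G' := h.ae_eq h'

/-- Strip solutions (7.6): an explicit one, and uniqueness. -/
example (c : ℝ) : IsStripSolution (fun _ => c)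
    (fun z => Real.sinh (stripMu * (stripL - z)) / Real.sinh (stripMu * stripL))
    (fun z => -(stripMu * Real.cosh (stripMu * (stripL - z))) / Real.sinh (stripMu * stripL)) :=
  isStripSolution_const c

example {ν U₁ U₁' U₂ U₂' : ℝ → ℝ} (hν : ∀ z ∈ Set.Icc 0 stripL, 0 < ν z)
    (h₁ : IsStripSolution ν U₁ U₁') (h₂ : IsStripSolution ν U₂ U₂') :
    ∀ z ∈ Set.Icc 0 stripL, U₁ z = U₂ z ∧ U₁' z = U₂' z := h₁.unique hν h₂

/-- `H_t(j) = +∞` for nonregular `t`. -/
example {εb t : ℝ} (h : ¬ ∃ d, IsRegular εb t d) (j : ℕ) : auxH εb t j = ⊤ := auxH_eq_top h j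

/-- The charge (7.10) is at least two, and `1/Z` is not in the bad set. -/
example {Z : ℕ} (h : IsExplicitCharge Z) : 2 ≤ Z := h.two_le

example {B : Set ℝ} {C : ℝ}
    (hC : IsLUB ((fun t => B.indicator (fun t => 1 / t) t) '' Set.Ioc 0 1) C) :
    (1 / ((2 + ⌈C⌉₊ : ℕ) : ℝ)) ∉ B := not_mem_badSet_of_isLUB hC

/-- The data of Proposition 2.2 are unique (both levels are simple, the signs are fixed). -/
example {b e b' e' : Space → ℝ} {εb εe εb' εe' : ℝ} (h : IsTwoCentreData b e εb εe)
    (h' : IsTwoCentreData b' e' εb' εe') : b = b' ∧ e = e' ∧ εb = εb' ∧ εe = εe' := h.unique h'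

/-- "The integer `Z` specified by (7.10)" is unambiguous: the relation `IsExplicitCharge` has at
most one solution. -/
theorem the_charge_is_unique {Z Z' : ℕ} (h : IsExplicitCharge Z) (h' : IsExplicitCharge Z') : Z = Z' :=
  h.unique h'

/-- Hence `Statement` says: there is exactly one integer given by (7.10), and it has the property
of Theorem 1.1. -/
theorem statement_is_about_the_charge (h : Statement) :
    (∃! Z : ℕ, IsExplicitCharge Z) ∧ ∀ Z, IsExplicitCharge Z → HasUnrepresentableGroundState Z := by
  obtain ⟨Z, -, hZ, hu⟩ := h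
  exact ⟨⟨Z, hZ, fun Z' h' => h'.unique hZ⟩, fun Z' h' => (h'.unique hZ) ▸ hu⟩

/-! ## 11. A noninteracting system with a proved ground state -/

/-- The potential is admissible. -/
example : ptPotential ∈ PotentialClass := ptPotential_mem_potentialClass

example (r : Space) : ptPotential r = -3 * (sech (r 0) ^ 2 + sech (r 1) ^ 2 + sech (r 2) ^ 2) := by
  simp [ptPotential, Fin.sum_univ_three]

/-- The fermionic lower bound (Pauli principle: at most two electrons in the lowest orbital). -/
example {Ψ : L2 3} (h : Ψ ∈ FormDomain (oneBodyPotential ptPotential)) :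
    -(33 / 2) * ‖Ψ‖ ^ 2 ≤ energy (oneBodyPotential ptPotential) Ψ := le_energy_ptW h

/-- The bottom of the spectrum of `H_s(v)` and a ground state in the sector `S_z = 1/2`. -/
example : IsSpectrumBottom (m := 3) (oneBodyPotential ptPotential) (-(33 / 2)) ∧
    IsGroundState (oneBodyPotential ptPotential) gsState ∧ InSpinSector (1 / 2) gsState :=
  ⟨isSpectrumBottom_ptW, isGroundState_gsState, inSpinSector_gsState⟩

/-- The wave function is the Slater determinant of `φ₁↑, φ₁↓, φ₂↑` (expanded along `φ₂`), with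
`φ₁(r) = ∏ₐ sech² rₐ`, `φ₂(r) = φ₁(r) sinh r₃`. -/
example (x : Config 3) (s : SpinConfig 3) :
    gsWave x s = ∑ i, ((gsFun x * Real.sinh (x i 2) : ℝ) : ℂ) * ((cZ i s : ℤ) : ℂ) :=
  gsWave_apply x s

example (x : Config 3) : gsFun x = (∏ i, ∏ a, sech (x i a)) ^ 2 := gsFun_eq x

/-- The density of this state **is** Kohn–Sham ensemble representable: the proposition negated in
`HasUnrepresentableGroundState` holds for it. -/
theorem negated_existential_is_satisfiable : ∃ (v : Space → ℝ) (Γ : L2 3 →L[ℂ] L2 3) (n : Space → ℝ),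
    v ∈ PotentialClass ∧ IsGroundStateEnsemble (oneBodyPotential v) Γ ∧ IsDensityOf Γ n ∧
      n =ᵐ[volume] density gsState := exists_groundStateEnsemble

/-- `Statement` implies the plain existence statement. -/
theorem statement_implies_plain_existence (h : Statement) :
    ∃ Z : ℕ, 0 < Z ∧ HasUnrepresentableGroundState Z := by
  obtain ⟨Z, hZ, -, h⟩ := h
  exact ⟨Z, hZ, h⟩

/-! ## 12. Nothing is lost under the negation -/

/-- Every ground-state ensemble, whatever its rank, has a density in the sense of `IsDensityOf` (it is unique up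
to null sets by item 7).  So no ensemble drops out of the existential that `Statement` negates. -/
theorem every_groundStateEnsemble_has_a_density {W : Config 3 → ℝ} {Γ : L2 3 →L[ℂ] L2 3}
    (h : IsGroundStateEnsemble W Γ) : ∃ n : Space → ℝ, IsDensityOf Γ n := h.exists_isDensityOf

/-- More generally: positive, trace class, antisymmetric range (any rank); the density is nonnegative. -/
example {Γ : L2 3 →L[ℂ] L2 3} {t : ℂ} (hpos : Γ.IsPositive) (htr : HasTrace Γ t)
    (hanti : ∀ Φ, IsAntisymmetric (Γ Φ)) : ∃ n : Space → ℝ, IsDensityOf Γ n ∧ ∀ r, 0 ≤ n r :=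
  exists_isDensityOf hpos htr hanti

/-- "Ensemble densities are defined by linearity" (Section 2; (5.3)): a ground-state ensemble is a countable mixture of normalized ground states
`Φₖ` with weights `wₖ > 0`, `∑ wₖ = 1`, and its density is the mixture `∑ wₖ n_{Φₖ}` of their densities. -/
example {W : Config 3 → ℝ} {Γ : L2 3 →L[ℂ] L2 3} {n : Space → ℝ}
    (hΓ : IsGroundStateEnsemble W Γ) (hn : IsDensityOf Γ n) :
    ∃ E : ℝ, IsSpectrumBottom W E ∧ ∃ (ι : Type) (Φ : ι → L2 3) (w : ι → ℝ),
      (∀ k, 0 < w k) ∧ (∀ k, ‖Φ k‖ = 1) ∧ (∀ k, Φ k ∈ Eigenspace W E) ∧ HasSum w 1 ∧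
      ∀ A : Set Space, MeasurableSet A →
        HasSum (fun k => w k * ∫ r in A, density (Φ k) r) (∫ r in A, n r) :=
  en_ensemble_decomp hΓ hn

/-- The proposition negated in `HasUnrepresentableGroundState`, read with "the" density of the ensemble. -/
example (Ψ : L2 3) :
    (∃ (v : Space → ℝ) (Γ : L2 3 →L[ℂ] L2 3) (n : Space → ℝ), v ∈ PotentialClass ∧
        IsGroundStateEnsemble (oneBodyPotential v) Γ ∧ IsDensityOf Γ n ∧ n =ᵐ[volume] density Ψ) ↔
      ∃ (v : Space → ℝ) (Γ : L2 3 →L[ℂ] L2 3), v ∈ PotentialClass ∧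
        IsGroundStateEnsemble (oneBodyPotential v) Γ ∧ ∀ n, IsDensityOf Γ n → n =ᵐ[volume] density Ψ :=
  representable_iff_forall_density Ψ

/-- The assertion of Theorem 1.1 for the charge `Z`, with "the" density of the ensemble: for every `v ∈ 𝒱` and every
ground-state ensemble `Γ` of `H_s(v)`, the density `n_Γ` exists and differs from `n_Ψ` on a set of positive measure. -/
example (Z : ℕ) : HasUnrepresentableGroundState Z ↔
    ∃ Ψ : L2 3, IsGroundState (coulombPotential Z (bigD / Z)) Ψ ∧ InSpinSector (1 / 2) Ψ ∧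
      ∀ v ∈ PotentialClass, ∀ Γ : L2 3 →L[ℂ] L2 3, IsGroundStateEnsemble (oneBodyPotential v) Γ →
        (∃ n, IsDensityOf Γ n) ∧ ∀ n, IsDensityOf Γ n → ¬ n =ᵐ[volume] density Ψ :=
  hasUnrepresentableGroundState_iff Z

/-- The form domain of `H_C` is the antisymmetric part of `H¹` (Hardy). -/
example {Z R : ℝ} {Ψ : L2 3} :
    Ψ ∈ FormDomain (coulombPotential Z R) ↔ IsAntisymmetric Ψ ∧ MemH1 Ψ :=
  mem_formDomain_coulombPotential_iff

/-- The form domain of the scaled operators `H_{m,t}` is the antisymmetric part of `H¹` (Hardy). -/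
example {m : ℕ} {t : ℝ} {Ψ : L2 m} :
    Ψ ∈ FormDomain (scaledPotential m t) ↔ IsAntisymmetric Ψ ∧ MemH1 Ψ :=
  mem_formDomain_scaledPotential_iff

/-- The form domain of `H_s(v)` is the antisymmetric part of `H¹` for every `v ∈ L^{3/2} + L^∞` (Sobolev). -/
example {v : Space → ℝ} (hv : v ∈ PotentialClass) {Ψ : L2 3} :
    Ψ ∈ FormDomain (oneBodyPotential v) ↔ IsAntisymmetric Ψ ∧ MemH1 Ψ :=
  PotentialClass.mem_formDomain_iff hv

/-- `v ∈ L^{3/2} + L^∞` is infinitesimally form bounded with respect to the kinetic energy, so the form of `H_s(v)` is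
semibounded ("its realization is determined by its semibounded closed quadratic form"). -/
example {v : Space → ℝ} (hv : v ∈ PotentialClass) {ε : ℝ} (hε : 0 < ε) :
    ∃ C : ℝ, 0 ≤ C ∧ ∀ (m : ℕ) (Ψ : L2 m), MemH1 Ψ →
      Integrable (fun x => oneBodyPotential v x * ‖Ψ x‖ ^ 2) ∧
        ∫ x, |oneBodyPotential v x| * ‖Ψ x‖ ^ 2 ≤ ε * kin Ψ + C * (m : ℝ) * ‖Ψ‖ ^ 2 :=
  PotentialClass.form_bound_oneBody hv hε

/-! ## 13. `HasTrace` is the textbook trace; ensembles live on the antisymmetric space -/

/-- For a positive operator it suffices that the diagonal sum converges to `t` in ONE orthonormal basis (Reed–Simon I, Theorem VI.18): it then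
converges unconditionally to `t` in EVERY orthonormal basis, which is what `HasTrace` asks. -/
theorem trace_in_one_basis_suffices {Γ : L2 3 →L[ℂ] L2 3} (hpos : Γ.IsPositive) {κ : Type*} (c : HilbertBasis κ ℂ (L2 3)) {t : ℂ}
    (h : HasSum (fun k => ⟪c k, Γ (c k)⟫_ℂ) t) : HasTrace Γ t := hasTrace_of_hasSum hpos c h

/-- Deviation 3 of `CLAIM.md`: a ground-state ensemble vanishes on every vector orthogonal to the antisymmetric space `ℌ₃`. -/
example {W : Config 3 → ℝ} {Γ : L2 3 →L[ℂ] L2 3} (h : IsGroundStateEnsemble W Γ) {Φ : L2 3}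
    (hΦ : ∀ Ξ : L2 3, IsAntisymmetric Ξ → ⟪Ξ, Φ⟫_ℂ = 0) : Γ Φ = 0 := h.apply_eq_zero hΦ

/-! ## 14. The forms are semibounded and closed on the form domain that `Statement.lean` uses -/

/-- `H_s(v)`, every `v ∈ L^{3/2} + L^∞`, spelled out: `q[Ψ] + K ‖Ψ‖² ≥ ‖Ψ‖²` on the form domain, and a sequence of the form domain that is
Cauchy for this norm converges for this norm to an element of the form domain. -/
theorem form_of_Hs_is_semibounded_and_closed {v : Space → ℝ} (hv : v ∈ PotentialClass) : ∃ K : ℝ,
    (∀ Ψ ∈ FormDomain (m := 3) (oneBodyPotential v), ‖Ψ‖ ^ 2 ≤ energy (oneBodyPotential v) Ψ + K * ‖Ψ‖ ^ 2) ∧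
    ∀ u : ℕ → L2 3, (∀ n, u n ∈ FormDomain (oneBodyPotential v)) →
      (∀ ε > 0, ∃ N, ∀ n ≥ N, ∀ k ≥ N, energy (oneBodyPotential v) (u n - u k) + K * ‖u n - u k‖ ^ 2 < ε) →
      ∃ x ∈ FormDomain (m := 3) (oneBodyPotential v),
        Tendsto (fun n => energy (oneBodyPotential v) (u n - x) + K * ‖u n - x‖ ^ 2) atTop (𝓝 0) := by
  obtain ⟨K, hK⟩ := PotentialClass.exists_closedForm hv 3
  refine ⟨K, fun Ψ hΨ => hK.pos Ψ ((mem_H1A_iff_formDomain_oneBody hv).2 hΨ), fun u hu hC => ?_⟩
  obtain ⟨x, hx, hlim⟩ := hK.complete u (fun n => (mem_H1A_iff_formDomain_oneBody hv).2 (hu n)) hC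
  exact ⟨x, (mem_H1A_iff_formDomain_oneBody hv).1 hx, hlim⟩

/-- The same for `H_C`, all charges and positions of the nuclei. -/
theorem form_of_HC_is_semibounded_and_closed (Z R : ℝ) : ∃ K : ℝ,
    (∀ Ψ ∈ FormDomain (coulombPotential Z R), ‖Ψ‖ ^ 2 ≤ energy (coulombPotential Z R) Ψ + K * ‖Ψ‖ ^ 2) ∧
    ∀ u : ℕ → L2 3, (∀ n, u n ∈ FormDomain (coulombPotential Z R)) →
      (∀ ε > 0, ∃ N, ∀ n ≥ N, ∀ k ≥ N, energy (coulombPotential Z R) (u n - u k) + K * ‖u n - u k‖ ^ 2 < ε) →
      ∃ x ∈ FormDomain (coulombPotential Z R),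
        Tendsto (fun n => energy (coulombPotential Z R) (u n - x) + K * ‖u n - x‖ ^ 2) atTop (𝓝 0) := by
  obtain ⟨K, hK⟩ := exists_closedForm_coulombPotential Z R
  refine ⟨K, fun Ψ hΨ => hK.pos Ψ ((mem_H1A_iff_formDomain_coulomb Z R).2 hΨ), fun u hu hC => ?_⟩
  obtain ⟨x, hx, hlim⟩ := hK.complete u (fun n => (mem_H1A_iff_formDomain_coulomb Z R).2 (hu n)) hC
  exact ⟨x, (mem_H1A_iff_formDomain_coulomb Z R).1 hx, hlim⟩

/-- `inf σ(H_s(v))` and `inf σ(H_C)` are real numbers (the set of energies is nonempty and bounded below). -/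
example {v : Space → ℝ} (hv : v ∈ PotentialClass) : ∃ E : ℝ, IsSpectrumBottom (m := 3) (oneBodyPotential v) E :=
  PotentialClass.exists_isSpectrumBottom hv

example (Z R : ℝ) : ∃ E : ℝ, IsSpectrumBottom (coulombPotential Z R) E := exists_isSpectrumBottom_coulombPotential Z R

/-! ## 15. Part II loses nothing by its relational form (deviations 5, 6, 7) -/

/-- Deviation 6: the fields `n`, `amp` of `AuxData` can always be filled: the density and the direct-removal amplitude of every
eigenfunction of `H_{3,t}`, `0 ≤ t ≤ 1`, have continuous versions. -/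
example {t E : ℝ} (h0 : 0 ≤ t) (h1 : t ≤ 1) {Ψ : L2 3} (hΨ : Ψ ∈ Eigenspace (scaledPotential 3 t) E) (φ : L2 2) :
    (∃ n : Space → ℝ, Continuous n ∧ n =ᵐ[volume] density Ψ) ∧
    ∃ amp : Space → EuclideanSpace ℂ (Fin 2), Continuous amp ∧ amp =ᵐ[volume] removalAmplitude φ Ψ :=
  exists_continuous_versions h0 h1 hΨ φ

/-- Deviation 7: the clause `n_smooth` of `IsRegular` follows from its clauses `ground`, `n_continuous`, `n_eq`; it does not make
"regular" stronger than Definition 7.1. -/
theorem the_clause_n_smooth_is_redundant {t : ℝ} (h0 : 0 ≤ t) (h1 : t ≤ 1) {d : AuxData}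
    (ground : IsSimpleIsolatedGround (scaledPotential 3 t) {Ξ | InSpinSector (1 / 2) Ξ} d.E₃ d.Ψ)
    (n_continuous : Continuous d.n) (n_eq : d.n =ᵐ[volume] density d.Ψ) :
    ContDiffOn ℝ 2 d.n {x | 10 * bigD < ‖x‖} :=
  n_smooth_of_other_clauses h0 h1 ground n_continuous n_eq

/-- Deviation 5: all regular data of a coupling have the same density and the same rate, … -/
example {εb t : ℝ} {d d' : AuxData} (h : IsRegular εb t d) (h' : IsRegular εb t d') : d.n = d'.n ∧ d.k = d'.k :=
  h.unique h'

/-- … so that `H_t(j)`, an infimum over all regular data, is the number (7.4) computed from any of them. -/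
example {εb t : ℝ} {d : AuxData} (hd : IsRegular εb t d) (j : ℕ) : auxH εb t j = d.H j := auxH_eq_of_isRegular hd j

/-- Deviation 6: **no minimizing angle is lost by asking for `C¹`.**  Let `t ∈ [0,1]` be regular.  Every folded minimizer of the angle
problem (4.1) in the energy space (admissible, `0 ≤ θ₀ ≤ π/2` a.e. on the upper half-space, of minimal energy among all admissible
angles) has a `C¹` version, and this version is a folded minimizer in the sense of `Statement.lean`. -/
theorem every_folded_minimizer_has_a_C1_version {εb t : ℝ} (h0 : 0 ≤ t) (h1 : t ≤ 1) {d : AuxData}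
    (hd : IsRegular εb t d) {θ₀ : Space → ℝ} {G₀ : Space → Space} (hadm : IsAdmissibleAngle d.n θ₀ G₀)
    (hfold : ∀ᵐ x : Space, 0 < x 2 → 0 ≤ θ₀ x ∧ θ₀ x ≤ Real.pi / 2)
    (hmin : ∀ ϑ G, IsAdmissibleAngle d.n ϑ G → (∫ x, d.n x * ‖G₀ x‖ ^ 2) ≤ ∫ x, d.n x * ‖G x‖ ^ 2) :
    ∃ θ : Space → ℝ, θ₀ =ᵐ[volume] θ ∧ IsFoldedMinimizer d.n θ :=
  hd.exists_C1_version h0 h1 hadm hfold hmin

/-- The `C¹` version is unique. -/
example {n θ θ' : Space → ℝ} (h : IsFoldedMinimizer n θ) (h' : IsFoldedMinimizer n θ') (he : θ =ᵐ[volume] θ') : θ = θ' :=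
  h.eq_of_ae_eq h' he

/-- A regular coupling has a folded minimizing angle; each has exactly one multiplier, which is positive (Proposition 4.1); the strip
solution `U_t(M, ·)` exists: the third clause of `BadSet` never fails for lack of a witness. -/
example {εb t : ℝ} (h0 : 0 ≤ t) (h1 : t ≤ 1) {d : AuxData} (hd : IsRegular εb t d) (M : ℕ) :
    (∃ θ, IsFoldedMinimizer d.n θ) ∧
    (∀ θ, IsFoldedMinimizer d.n θ → ∃! dθ : ℝ, IsMultiplier d.n θ dθ) ∧
    (∀ θ dθ, IsFoldedMinimizer d.n θ → IsMultiplier d.n θ dθ → 0 < dθ) ∧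
    ∃ U U' : ℝ → ℝ, IsStripSolution (fun z => d.n (cyl M z)) U U' :=
  hd.exists_test_data h0 h1 M

/-- "Thus `t ∉ 𝓑` means that the tests hold for *every* folded minimizing angle" (Section 7.2). -/
theorem outside_the_bad_set_iff {b e : Space → ℝ} {εb : ℝ} {M : ℕ} {α : ℝ} {U₀' : ℝ → ℝ} {t : ℝ}
    (ht : t ∈ Set.Ioc (0 : ℝ) 1) :
    t ∉ BadSet b e εb M α U₀' ↔
      ∃ d : AuxData, IsRegular εb t d ∧ d.H M < 1 ∧
        ∀ (θ : Space → ℝ) (dθ : ℝ) (U U' : ℝ → ℝ), IsFoldedMinimizer d.n θ → IsMultiplier d.n θ dθ →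
          IsStripSolution (fun z => d.n (cyl M z)) U U' → PassesAngleTests b e M α U₀' d.n θ dθ U' :=
  not_mem_badSet_iff ht

/-- The last assertion of Lemma 7.4: for the integer `Z` of (7.10), `t_* = 1/Z` is regular, `H_{t_*}(M) < 1`, and every folded
minimizing angle of `n_{t_*}` passes the tests (7.9). -/
example {Z : ℕ} (h : IsExplicitCharge Z) :
    ∃ (b e : Space → ℝ) (εb εe : ℝ) (M : ℕ) (U₀ U₀' : ℝ → ℝ) (α : ℝ),
      IsTwoCentreData b e εb εe ∧ IsRadius b e εb M ∧
      IsStripSolution (fun z => refDensity b e (cyl M z)) U₀ U₀' ∧ IsMargin b e M U₀ α ∧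
      ∃ d : AuxData, IsRegular εb (1 / (Z : ℝ)) d ∧ d.H M < 1 ∧
        ∀ (θ : Space → ℝ) (dθ : ℝ) (U U' : ℝ → ℝ), IsFoldedMinimizer d.n θ → IsMultiplier d.n θ dθ →
          IsStripSolution (fun z => d.n (cyl M z)) U U' → PassesAngleTests b e M α U₀' d.n θ dθ U' :=
  h.reciprocal_passes

/-- The ionic level of Definition 7.1(i) (an isolated simple ground level on all of `ℌ_m`) is a simple eigenvalue. -/
example {m : ℕ} {W : Config m → ℝ} (hW : AEStronglyMeasurable W volume) {E : ℝ} {Φ : L2 m}
    (h : IsSimpleIsolatedGround W Set.univ E Φ) {Ξ : L2 m} (hΞ : Ξ ∈ Eigenspace W E) : Ξ = ⟪Φ, Ξ⟫_ℂ • Φ :=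
  h.eq_smul_of_univ hW hΞ

end Claimed.Open.R278.Sanity
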