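import Mathlib

/-!
# Result 278 — Failure of Kohn–Sham ensemble representation

Formal statement of Theorem 1.1 (label `thm:main`) of

  *A Coulomb ground-state density without Kohn–Sham ensemble representation*
  (OpenAI, September 25, 2026).

> Set `D = 10^200` and `e_z = (0,0,1)`.  There is a finite positive integer `Z`, specified by
> (7.10), for which the Coulomb Hamiltonian
> `H_C = ∑_{i=1}^3 (-½ Δ_i - Z/|r_i - (D/Z) e_z| - Z/|r_i + (D/Z) e_z|) + ∑_{i<j} 1/|r_i - r_j|`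
> has a normalizable absolute ground state `Ψ` in the sector `S_z = 1/2`, normalized by
> `‖Ψ‖₂ = 1`, but there is no `v ∈ 𝒱 = L^{3/2}(ℝ³;ℝ) + L^∞(ℝ³;ℝ)` and no ground-state ensemble `Γ`
> of `H_s(v) = ∑_{i=1}^3 (-½ Δ_i + v(r_i))` such that `n_Γ = n_Ψ` almost everywhere on `ℝ³`.

All `m`-electron operators act in the antisymmetric space `ℌ_m = ⋀^m L²(ℝ³; ℂ²)`, realised (as in
Section 2 of the paper) as the antisymmetric part of `L²(ℝ^{3m}; ℂ^{2^m})`.  As in the paper, the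
Hamiltonians are the self-adjoint operators determined by their closed semibounded quadratic forms
on the antisymmetric part of `H¹(ℝ^{3m}; ℂ^{2^m})`.

The file has two parts.  Part I contains everything that the displayed theorem needs except the
formula for `Z`.  Part II transcribes Section 7 of the paper (`sec:parameters`), which specifies
`Z` by the formula (7.10), `Z = 2 + ⌈sup_{0<t≤1} t⁻¹ 1_𝓑(t)⌉`.  See `CLAIM.md` for the dictionary.
-/

open MeasureTheory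
open scoped ContDiff InnerProductSpace ComplexConjugate ENNReal Topology

noncomputable section

namespace Claimed.Open.R278

/-! # Part I: Hamiltonians, ground states, ensembles, densities -/

/-! ## The `m`-electron Hilbert space -/

/-- Physical space `ℝ³`. -/
abbrev Space : Type := EuclideanSpace ℝ (Fin 3)

/-- Configuration space `(ℝ³)^m = ℝ^{3m}` of `m` electrons: `x i` is the position of electron `i`.
Its `volume` is the product of the Lebesgue measures, i.e. Lebesgue measure on `ℝ^{3m}`. -/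
abbrev Config (m : ℕ) : Type := Fin m → Space

/-- Spin configurations `(σ₁, …, σ_m)` of `m` electrons; `0` is `↑` and `1` is `↓`. -/
abbrev SpinConfig (m : ℕ) : Type := Fin m → Fin 2

/-- The spin space `(ℂ²)^{⊗m} = ℂ^{2^m}` with its standard Hermitian inner product: a vector is a
family of amplitudes indexed by the spin configurations. -/
abbrev SpinSpace (m : ℕ) : Type := EuclideanSpace ℂ (SpinConfig m)

/-- `L²(ℝ^{3m}; ℂ^{2^m}) = L²(ℝ³; ℂ²)^{⊗m}`.  For `Ψ : L2 m`, the number `Ψ x s` is the amplitude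
`Ψ(x₁,σ₁,…,x_m,σ_m)` with `xᵢ = x i`, `σᵢ = s i`. -/
abbrev L2 (m : ℕ) : Type := Lp (SpinSpace m) 2 (volume : Measure (Config m))

/-- Fermionic antisymmetry: `Ψ(x_{π1},σ_{π1},…,x_{πm},σ_{πm}) = sgn(π) Ψ(x₁,σ₁,…,x_m,σ_m)`
for every permutation `π` of the electrons.  The antisymmetric elements of `L2 m` form the
`m`-electron space `ℌ_m = ⋀^m L²(ℝ³; ℂ²)`. -/
def IsAntisymmetric {m : ℕ} (Ψ : L2 m) : Prop :=
  ∀ π : Equiv.Perm (Fin m), ∀ᵐ x : Config m, ∀ s : SpinConfig m,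
    Ψ (x ∘ π) (s ∘ π) = ((Equiv.Perm.sign π : ℤ) : ℂ) * Ψ x s

/-- The eigenvalue of `S_z = ∑ᵢ S_z^{(i)}` on a spin configuration: `+½` per `↑`, `-½` per `↓`. -/
def spinZ {m : ℕ} (s : SpinConfig m) : ℚ := ∑ i, if s i = 0 then 1 / 2 else -(1 / 2)

/-- `Ψ` lies in the sector `S_z = μ`: only spin configurations with `S_z = μ` carry amplitude. -/
def InSpinSector {m : ℕ} (μ : ℚ) (Ψ : L2 m) : Prop :=
  ∀ᵐ x : Config m, ∀ s : SpinConfig m, spinZ s ≠ μ → Ψ x s = 0

/-! ## The Sobolev space `H¹(ℝ^{3m}; ℂ^{2^m})` -/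

/-- The unit vector of `ℝ^{3m}` in the direction of the `a`-th Cartesian coordinate of electron
`i`, for `j = (i, a)`. -/
def dir {m : ℕ} (j : Fin m × Fin 3) : Config m :=
  Pi.single j.1 (EuclideanSpace.single j.2 (1 : ℝ))

/-- `G` is the weak (distributional) gradient of `Ψ`: `∫ (∂ⱼφ) Ψ = - ∫ φ Gⱼ` for each of the `3m`
coordinate directions `j` and every test function `φ ∈ C_c^∞(ℝ^{3m})`. -/
def IsWeakGradient {m : ℕ} (Ψ : L2 m) (G : Fin m × Fin 3 → L2 m) : Prop :=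
  ∀ (j : Fin m × Fin 3) (φ : Config m → ℝ), ContDiff ℝ ∞ φ → HasCompactSupport φ →
    (∫ x, (fderiv ℝ φ x (dir j)) • Ψ x) = - (∫ x, φ x • G j x)

/-- `Ψ ∈ H¹(ℝ^{3m}; ℂ^{2^m})`: `Ψ ∈ L²` has a weak gradient in `L²`. -/
def MemH1 {m : ℕ} (Ψ : L2 m) : Prop := ∃ G : Fin m × Fin 3 → L2 m, IsWeakGradient Ψ G

open Classical in
/-- The weak gradient `(∂ⱼΨ)ⱼ` of `Ψ ∈ H¹` (it is unique, see `Sanity.lean`); the value `0`
outside `H¹` is never used. -/
def weakGrad {m : ℕ} (Ψ : L2 m) : Fin m × Fin 3 → L2 m := if h : MemH1 Ψ then h.choose else 0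

/-! ## Schrödinger forms, ground energy, ground eigenspace

For a real multiplication potential `W` on configuration space, `H(W) = ∑ᵢ (-½ Δᵢ) + W` on `ℌ_m`
is the self-adjoint operator associated with the form sum below. -/

/-- The form domain of `H(W) = ∑ᵢ (-½Δᵢ) + W` in `ℌ_m`: antisymmetric `Ψ ∈ H¹` with
`∫ |W| |Ψ|² < ∞`.  (For the Coulomb potentials, and for `W(x) = ∑ᵢ v(xᵢ)` with
`v ∈ L^{3/2} + L^∞`, the last condition holds for every `Ψ ∈ H¹` by the Hardy and Sobolev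
inequalities, so the form domain is the antisymmetric part of `H¹`, as in the paper.) -/
def FormDomain {m : ℕ} (W : Config m → ℝ) : Set (L2 m) :=
  {Ψ | IsAntisymmetric Ψ ∧ MemH1 Ψ ∧ Integrable (fun x => W x * ‖Ψ x‖ ^ 2)}

/-- The sesquilinear form (linear in the second variable, as in the paper)
`q_W(Ξ, Φ) = ½ ∑ⱼ ⟨∂ⱼΞ, ∂ⱼΦ⟩ + ∫ W(x) ⟨Ξ(x), Φ(x)⟩ dx`. -/
def sesqForm {m : ℕ} (W : Config m → ℝ) (Ξ Φ : L2 m) : ℂ :=
  (1 / 2 : ℂ) * (∑ j, ⟪weakGrad Ξ j, weakGrad Φ j⟫_ℂ) + (∫ x, (W x : ℂ) * ⟪Ξ x, Φ x⟫_ℂ)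

/-- The energy expectation `q_W[Ψ] = ½ ∑ᵢ ‖∇ᵢΨ‖² + ∫ W |Ψ|²`. -/
def energy {m : ℕ} (W : Config m → ℝ) (Ψ : L2 m) : ℝ := (sesqForm W Ψ Ψ).re

/-- `E = inf σ(H(W))`: the bottom of the spectrum of the self-adjoint operator associated with a
closed semibounded form is the infimum of the form over the normalized vectors of the form domain. -/
def IsSpectrumBottom {m : ℕ} (W : Config m → ℝ) (E : ℝ) : Prop :=
  IsGLB (energy W '' {Φ | Φ ∈ FormDomain W ∧ ‖Φ‖ = 1}) E

/-- The eigenspace `ker (H(W) - E)`.  By the representation theorem for closed forms, `Φ` is in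
the domain of `H(W)` with `H(W) Φ = χ` iff `Φ` is in the form domain and `q_W(Ξ, Φ) = ⟨Ξ, χ⟩`
for all `Ξ` in the form domain; hence `H(W) Φ = E Φ` reads as follows. -/
def Eigenspace {m : ℕ} (W : Config m → ℝ) (E : ℝ) : Set (L2 m) :=
  {Φ | Φ ∈ FormDomain W ∧ ∀ Ξ ∈ FormDomain W, sesqForm W Ξ Φ = (E : ℂ) * ⟪Ξ, Φ⟫_ℂ}

/-- `Ψ` is a normalized (absolute) ground state of `H(W)` on `ℌ_m`: a unit eigenvector at
`inf σ(H(W))`, the infimum being over all of `ℌ_m` (all spin sectors). -/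
def IsGroundState {m : ℕ} (W : Config m → ℝ) (Ψ : L2 m) : Prop :=
  ‖Ψ‖ = 1 ∧ ∃ E : ℝ, IsSpectrumBottom W E ∧ Ψ ∈ Eigenspace W E

/-! ## Ensembles and densities (three electrons) -/

/-- `∑ₖ a(bₖ) = t` (unconditionally) for every orthonormal basis `(bₖ)` of `L2 3`.  For
`a(φ) = ⟨φ, A φ⟩` this says that the bounded operator `A` is trace class with `Tr A = t`. -/
def HasDiagonalSum (a : L2 3 → ℂ) (t : ℂ) : Prop :=
  ∀ (ι : Type) (b : HilbertBasis ι ℂ (L2 3)), HasSum (fun k => a (b k)) t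

/-- `Γ` is trace class with `Tr Γ = t`. -/
def HasTrace (Γ : L2 3 →L[ℂ] L2 3) (t : ℂ) : Prop := HasDiagonalSum (fun φ => ⟪φ, Γ φ⟫_ℂ) t

/-- A ground-state ensemble of `H(W)`: a positive trace-class operator of trace one whose range is
contained in the eigenspace at `inf σ(H(W))`.  (A positive operator with range in `ℌ₃` vanishes on
`ℌ₃^⊥`, so operators on `ℌ₃` are identified with their extensions by zero to `L2 3`.) -/
def IsGroundStateEnsemble (W : Config 3 → ℝ) (Γ : L2 3 →L[ℂ] L2 3) : Prop :=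
  Γ.IsPositive ∧ HasTrace Γ 1 ∧ ∃ E : ℝ, IsSpectrumBottom W E ∧ ∀ Φ : L2 3, Γ Φ ∈ Eigenspace W E

/-- `N_A(x) = ∑ᵢ 1_A(xᵢ)`: the number of electrons of the configuration `x` that lie in `A`. -/
def occupation (A : Set Space) (x : Config 3) : ℝ := ∑ i, A.indicator (fun _ => (1 : ℝ)) (x i)

/-- The matrix element `⟨Ξ, (∑ᵢ (1_A)ᵢ) Φ⟩ = ∫ N_A(x) ⟨Ξ(x), Φ(x)⟩_{ℂ⁸} dx` of the one-body operator
`∑ᵢ (1_A)ᵢ`, where `1_A` is multiplication by the indicator of `A` (acting trivially on spin). -/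
def occupationForm (A : Set Space) (Ξ Φ : L2 3) : ℂ := ∫ x, (occupation A x : ℂ) * ⟪Ξ x, Φ x⟫_ℂ

/-- `n` is (a version of) the spin-summed one-body density `n_Γ`: `n ∈ L¹(ℝ³)` and
`∫_A n = Tr((∑ᵢ (1_A)ᵢ) Γ)` for all measurable `A ⊆ ℝ³`.  This is the defining relation
`Tr(γ_Γ B) = Tr(Γ ∑ᵢ Bᵢ)`, `n_Γ(x) = γ_Γ(x,x)` (spin-summed) of the paper, tested on the
multiplication operators `B = 1_A`; it determines `n` up to a null set. -/
def IsDensityOf (Γ : L2 3 →L[ℂ] L2 3) (n : Space → ℝ) : Prop :=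
  Integrable n ∧ ∀ A : Set Space, MeasurableSet A →
    HasDiagonalSum (fun φ => occupationForm A φ (Γ φ)) ((∫ r in A, n r : ℝ) : ℂ)

/-- The spin-summed density (2.3) of a three-electron state,
`n_Ψ(r) = 3 ∑_{σ₁σ₂σ₃} ∫_{ℝ⁶} |Ψ(r,σ₁,y₁,σ₂,y₂,σ₃)|² dy₁ dy₂`. -/
def density (Ψ : L2 3) (r : Space) : ℝ :=
  3 * ∫ y : Config 2, ‖Ψ (Fin.cons r y : Config 3)‖ ^ 2

/-! ## The potentials -/

/-- The potential class `𝒱 = L^{3/2}(ℝ³; ℝ) + L^∞(ℝ³; ℝ)`. -/
def PotentialClass : Set (Space → ℝ) :=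
  {v | ∃ v₁ v₂ : Space → ℝ, MemLp v₁ (3 / 2) volume ∧ MemLp v₂ ⊤ volume ∧ v = v₁ + v₂}

/-- The multiplication potential `∑ᵢ v(rᵢ)` of the noninteracting Hamiltonian
`H_s(v) = ∑ᵢ (-½Δᵢ + v(rᵢ))`: the same real scalar potential for all electrons and both spins. -/
def oneBodyPotential {m : ℕ} (v : Space → ℝ) (x : Config m) : ℝ := ∑ i, v (x i)

/-- `e_z = (0,0,1)`. -/
def ez : Space := EuclideanSpace.single 2 1

/-- The attraction `-Z/|r - R e_z| - Z/|r + R e_z|` of two nuclei of charge `Z` at `± R e_z`. -/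
def nuclearPotential (Z R : ℝ) (r : Space) : ℝ := -(Z / ‖r - R • ez‖) - Z / ‖r + R • ez‖

/-- The electron repulsion `∑_{i<j} 1/|rᵢ - rⱼ|`. -/
def repulsion {m : ℕ} (x : Config m) : ℝ := ∑ i, ∑ j, if i < j then 1 / ‖x i - x j‖ else 0

/-- The total potential of the Coulomb Hamiltonian `H_C` with charges `Z, Z` at `± R e_z`. -/
def coulombPotential (Z R : ℝ) (x : Config 3) : ℝ :=
  oneBodyPotential (nuclearPotential Z R) x + repulsion x

/-- `D = 10^200`, (7.1). -/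
def bigD : ℝ := 10 ^ 200

/-- The assertion of Theorem 1.1 about a given charge `Z`: the three-electron Coulomb Hamiltonian
`H_C` with nuclear charges `Z, Z` at `±(D/Z) e_z` has a normalized absolute ground state `Ψ` in the
sector `S_z = 1/2`, but there are no `v ∈ L^{3/2} + L^∞` and no ground-state ensemble `Γ` of
`H_s(v)` with `n_Γ = n_Ψ` almost everywhere. -/
def HasUnrepresentableGroundState (Z : ℕ) : Prop :=
  ∃ Ψ : L2 3,
    IsGroundState (coulombPotential Z (bigD / Z)) Ψ ∧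
    InSpinSector (1 / 2) Ψ ∧
    ¬ ∃ (v : Space → ℝ) (Γ : L2 3 →L[ℂ] L2 3) (n : Space → ℝ),
        v ∈ PotentialClass ∧
        IsGroundStateEnsemble (oneBodyPotential v) Γ ∧
        IsDensityOf Γ n ∧
        n =ᵐ[volume] density Ψ

/-! # Part II: the exact charge (Section 7 of the paper)

Everything below refers to the *scaled* unit-charge problem with nuclei at `± D e_z` and electron
repulsion of strength `t ∈ [0,1]` ("auxiliary coupling"). -/

/-- `η₀ = 10^{-60}`, (7.1). -/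
def eta0 : ℝ := (10 ^ 60)⁻¹

/-- `L = 10`, (7.1). -/
def stripL : ℝ := 10

/-- `μ = 1/10`, (7.1). -/
def stripMu : ℝ := 1 / 10

/-- The potential of the scaled operator (2.2),
`H_{m,t} = ∑_{i≤m} h_D(xᵢ) + t ∑_{i<j} 1/|xᵢ-xⱼ|`, `h_D = -½Δ + u_D`,
`u_D(x) = -1/|x - D e_z| - 1/|x + D e_z|` (2.1). -/
def scaledPotential (m : ℕ) (t : ℝ) (x : Config m) : ℝ :=
  oneBodyPotential (nuclearPotential 1 bigD) x + t * repulsion x

/-! ## Symmetries -/

/-- Rotation by the angle `a` about the `z`-axis. -/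
def rotZ (a : ℝ) (r : Space) : Space :=
  !₂[Real.cos a * r 0 - Real.sin a * r 1, Real.sin a * r 0 + Real.cos a * r 1, r 2]

/-- Reflection in the median plane `z = 0`. -/
def reflZ (r : Space) : Space := !₂[r 0, r 1, -r 2]

/-- The point with cylindrical coordinates `(p, z)` (and azimuth `0`). -/
def cyl (p z : ℝ) : Space := !₂[p, 0, z]

/-- An `m`-electron state is axisymmetric: invariant under simultaneous rotation of all electron
coordinates about the `z`-axis (rotations act trivially on spin, Section 2). -/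
def IsAxisymmetric {m : ℕ} (Ψ : L2 m) : Prop :=
  ∀ a : ℝ, ∀ᵐ x : Config m, Ψ (fun i => rotZ a (x i)) = Ψ x

/-- Behaviour under simultaneous reflection of all electron coordinates in the median plane:
`ε = 1` is "reflection-even", `ε = -1` is "reflection-odd". -/
def HasReflectionParity {m : ℕ} (ε : ℂ) (Ψ : L2 m) : Prop :=
  ∀ᵐ x : Config m, Ψ (fun i => reflZ (x i)) = ε • Ψ x

/-- A two-electron spin singlet: the spin part is the antisymmetric vector of `ℂ² ⊗ ℂ²`, i.e. the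
state changes sign when the two spin variables alone are exchanged. -/
def IsSinglet (φ : L2 2) : Prop :=
  ∀ᵐ y : Config 2, ∀ s : SpinConfig 2, φ y (s ∘ Equiv.swap 0 1) = -φ y s

/-- The ground level `E` of `H(W)` in the reducing subspace `S` of `ℌ_m` is *isolated and simple*,
with normalized eigenvector `Φ`: `H(W) Φ = E Φ`, `Φ ∈ S`, and the form is `≥ E + c` (for some
`c > 0`) on the vectors of `S` orthogonal to `Φ`.  By the spectral theorem this says that `E` is the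
bottom of the spectrum of `H(W)|_S`, is a simple eigenvalue, and is an isolated point of it. -/
def IsSimpleIsolatedGround {m : ℕ} (W : Config m → ℝ) (S : Set (L2 m)) (E : ℝ) (Φ : L2 m) : Prop :=
  ‖Φ‖ = 1 ∧ Φ ∈ S ∧ Φ ∈ Eigenspace W E ∧
    ∃ c : ℝ, 0 < c ∧ ∀ Ξ ∈ FormDomain W, Ξ ∈ S → ⟪Φ, Ξ⟫_ℂ = 0 → (E + c) * ‖Ξ‖ ^ 2 ≤ energy W Ξ

/-! ## The two lowest spatial orbitals of `h_D` (Proposition 2.2) -/

/-- `G` is the weak gradient of the locally integrable real function `f` on `ℝ³`. -/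
def IsWeakGrad (f : Space → ℝ) (G : Space → Space) : Prop :=
  LocallyIntegrable f ∧ LocallyIntegrable G ∧
    ∀ φ : Space → ℝ, ContDiff ℝ ∞ φ → HasCompactSupport φ → ∀ v : Space,
      (∫ x, f x * fderiv ℝ φ x v) = - (∫ x, ⟪G x, v⟫_ℝ * φ x)

/-- `f ∈ H¹(ℝ³; ℝ)` with weak gradient `G`. -/
def IsH1 (f : Space → ℝ) (G : Space → Space) : Prop :=
  MemLp f 2 volume ∧ MemLp G 2 volume ∧ IsWeakGrad f G

/-- The bilinear form of `h_D = -½Δ + u_D` on real `H¹` functions `f, g` with gradients `F, G`: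
`½ ∫ ∇f·∇g + ∫ u_D f g`. -/
def orbitalForm (f g : Space → ℝ) (F G : Space → Space) : ℝ :=
  (1 / 2) * (∫ x, ⟪F x, G x⟫_ℝ) + (∫ x, nuclearPotential 1 bigD x * (f x * g x))

/-- `f` is (the continuous version of) a normalized real eigenfunction of `h_D` at energy `ε`. -/
def IsOrbital (f : Space → ℝ) (ε : ℝ) : Prop :=
  Continuous f ∧ (∫ x, f x ^ 2) = 1 ∧
    ∃ F, IsH1 f F ∧ ∀ g G, IsH1 g G → orbitalForm g f G F = ε * ∫ x, g x * f x

/-- The data of Proposition 2.2: `ε_b < ε_e` are the two lowest eigenvalues of `h_D` (min–max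
characterisation), with normalized real axisymmetric eigenfunctions `b, e`, where `b > 0` is even
and `e` is odd and strictly positive on `z > 0`. -/
structure IsTwoCentreData (b e : Space → ℝ) (εb εe : ℝ) : Prop where
  orbital_b : IsOrbital b εb
  orbital_e : IsOrbital e εe
  lowest : ∀ g G, IsH1 g G → εb * (∫ x, g x ^ 2) ≤ orbitalForm g g G G
  second : ∀ g G, IsH1 g G → (∫ x, g x * b x) = 0 → εe * (∫ x, g x ^ 2) ≤ orbitalForm g g G G
  lt : εb < εe
  axisymmetric_b : ∀ a x, b (rotZ a x) = b x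
  axisymmetric_e : ∀ a x, e (rotZ a x) = e x
  even_b : ∀ x, b (reflZ x) = b x
  odd_e : ∀ x, e (reflZ x) = -e x
  pos_b : ∀ x, 0 < b x
  pos_e : ∀ x, 0 < x 2 → 0 < e x

/-- The zero-coupling density `n₀ = 2b² + e²`. -/
def refDensity (b e : Space → ℝ) (x : Space) : ℝ := 2 * b x ^ 2 + e x ^ 2

/-- The reference angle `θ_* = arctan (e / (√2 b))`. -/
def refTheta (b e : Space → ℝ) (x : Space) : ℝ := Real.arctan (e x / (√2 * b x))

/-- `δ_* = π/2 - θ_*`. -/
def refDelta (b e : Space → ℝ) (x : Space) : ℝ := Real.pi / 2 - refTheta b e x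

/-! ## Regular auxiliary data (Definition 7.1) -/

/-- The direct-removal amplitude.  With `F_true(x) = √3 Ψ(x,·)` and the ionic ground projection
`P = 1_{ℂ²} ⊗ |φ⟩⟨φ|` in the distinguished-electron fiber space, `P F_true(x) = a(x) ⊗ φ` where
`a(x) ∈ ℂ²` has the components `a_σ(x) = √3 ∑_s ∫ conj φ(y,s) Ψ(x,σ,y,s) dy`.  Since `‖φ‖ = 1`,
`‖P F_true(x)‖ = ‖a(x)‖`. -/
def removalAmplitude (φ : L2 2) (Ψ : L2 3) (x : Space) : EuclideanSpace ℂ (Fin 2) :=
  WithLp.toLp 2 fun σ =>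
    (√3 : ℂ) * ∫ y : Config 2, ∑ s : SpinConfig 2,
      conj (φ y s) * Ψ (Fin.cons x y : Config 3) (Fin.cons σ s : SpinConfig 3)

/-- The objects attached to an auxiliary coupling `t`: the ionic and three-electron ground energies
`E₂(t), E₃(t)`, the ionic ground state `φ_t`, the three-electron ground state `Ψ_t` in `S_z = 1/2`,
the continuous version `n_t` of its density and the continuous version `amp` of its direct-removal
amplitude. -/
structure AuxData where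
  E₂ : ℝ
  E₃ : ℝ
  φ : L2 2
  Ψ : L2 3
  n : Space → ℝ
  amp : Space → EuclideanSpace ℂ (Fin 2)

/-- `k_t = √(2 (E₂(t) - E₃(t)))`, (7.2). -/
def AuxData.k (d : AuxData) : ℝ := √(2 * (d.E₂ - d.E₃))

/-- `A_t(r) = e^{-k_t r} r^{(2-2t)/k_t - 1}`. -/
def AuxData.A (d : AuxData) (t r : ℝ) : ℝ := Real.exp (-(d.k * r)) * r ^ ((2 - 2 * t) / d.k - 1)

/-- **Definition 7.1** (`def:regular-data`): the auxiliary coupling `t` is regular, with data `d`.
(`εb` is the lowest eigenvalue of `h_D`, and `γ = √(-2 εb)`.) -/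
structure IsRegular (εb t : ℝ) (d : AuxData) : Prop where
  /-- (i) the two-electron ground level is isolated and simple … -/
  ion_ground : IsSimpleIsolatedGround (scaledPotential 2 t) Set.univ d.E₂ d.φ
  /-- … and its ground state is an axisymmetric, reflection-even spin singlet. -/
  ion_axisymmetric : IsAxisymmetric d.φ
  ion_even : HasReflectionParity 1 d.φ
  ion_singlet : IsSinglet d.φ
  /-- The three-electron ground level in `S_z = 1/2` is isolated and simple, … -/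
  ground : IsSimpleIsolatedGround (scaledPotential 3 t) {Ξ | InSpinSector (1 / 2) Ξ} d.E₃ d.Ψ
  /-- … is an absolute ground level, … -/
  absolute : IsSpectrumBottom (scaledPotential 3 t) d.E₃
  /-- … and has an axisymmetric, reflection-odd ground state. -/
  axisymmetric : IsAxisymmetric d.Ψ
  odd : HasReflectionParity (-1) d.Ψ
  /-- `n_t` is the continuous version of the spin-summed density. -/
  n_continuous : Continuous d.n
  n_eq : d.n =ᵐ[volume] density d.Ψ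
  /-- (ii) the density is everywhere positive, and (7.2) holds. -/
  n_pos : ∀ x, 0 < d.n x
  energy_test : 0.49 < 2 * εb - d.E₃
  k_lower : 0.99 < d.k
  k_upper : d.k < √(-(2 * εb))
  /-- `amp` is the continuous version of the direct-removal amplitude. -/
  amp_continuous : Continuous d.amp
  amp_eq : d.amp =ᵐ[volume] removalAmplitude d.φ d.Ψ
  /-- (iii) the amplitude test (7.3):
  `inf_{ω_z>0} liminf_{r→∞} ‖P_t F_{true,t}(rω)‖ / (ω_z A_t(r)) > 0`. -/
  amplitude_test : 0 < ⨅ u ∈ {u : Space | ‖u‖ = 1 ∧ 0 < u 2},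
    Filter.liminf (fun r : ℝ => ENNReal.ofReal (‖d.amp (r • u)‖ / (u 2 * d.A t r))) Filter.atTop
  /-- "If any quantity required for these tests is undefined, the coupling is declared nonregular":
  the exterior density has the derivatives occurring in `H_t(j)`, `j > 10 D`.  (The paper proves
  that this follows from the other conditions.) -/
  n_smooth : ContDiffOn ℝ 2 d.n {x | 10 * bigD < ‖x‖}

/-! ## The radius `M` and the margin `α` -/

/-- `m_t(p,z) = e^{2 k_t p} n_t(p,z)`. -/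
def AuxData.m (d : AuxData) (p z : ℝ) : ℝ := Real.exp (2 * d.k * p) * d.n (cyl p z)

/-- The maximum (7.4) of the four numbers defining `H_t(j)`, computed from regular data.  The
density is axisymmetric and is written `n(p,z) = n (cyl p z)`; `∂_p` holds `z` fixed. -/
def AuxData.H (d : AuxData) (j : ℕ) : ℝ≥0∞ :=
  (⨆ x ∈ {x : Space | (j : ℝ) ≤ ‖x‖},
      ENNReal.ofReal (|fderiv ℝ (fun y => Real.log (d.n y)) x (‖x‖⁻¹ • x) + 2 * d.k| / eta0)) ⊔
  (⨆ q ∈ {q : ℝ × ℝ | (j : ℝ) ≤ ‖cyl q.1 q.2‖ ∧ 0 ≤ q.2 ∧ q.2 ≤ q.1 / 2},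
      ENNReal.ofReal (|deriv (fun p => Real.log (d.n (cyl p q.2))) q.1
        + 2 * d.k * q.1 / ‖cyl q.1 q.2‖| / eta0)) ⊔
  (⨆ q ∈ {q : ℝ × ℝ | (j : ℝ) ≤ q.1 ∧ 0 ≤ q.2 ∧ q.2 ≤ stripL},
      ENNReal.ofReal ((|deriv (fun p => d.m p q.2) q.1| + |iteratedDeriv 2 (fun p => d.m p q.2) q.1|)
        / d.m q.1 q.2 / eta0)) ⊔
  (⨆ q ∈ {q : ℝ × ℝ × ℝ | (j : ℝ) ≤ q.1 ∧ 0 ≤ q.2.1 ∧ q.2.1 ≤ q.2.2 ∧ q.2.2 ≤ stripL},
      ENNReal.ofReal (d.n (cyl q.1 q.2.1) / d.n (cyl q.1 q.2.2) / 100))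

/-- `H_t(j)`, (7.4).  For regular `t` all regular data have the same `n_t, k_t`, so the infimum is
the common value; for nonregular `t` it is the infimum of the empty family, `H_t(j) = +∞`. -/
def auxH (εb t : ℝ) (j : ℕ) : ℝ≥0∞ := ⨅ d ∈ {d : AuxData | IsRegular εb t d}, d.H j

/-- The quotient `∂_z (n₀(p,z) ∂_z δ_*(p,z)) / (n₀(p,z) δ_*(p,z))` of (7.5). -/
def refStripQuotient (b e : Space → ℝ) (p z : ℝ) : ℝ :=
  deriv (fun s => refDensity b e (cyl p s) * deriv (fun s' => refDelta b e (cyl p s')) s) z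
    / (refDensity b e (cyl p z) * refDelta b e (cyl p z))

/-- (7.5): `M` is the smallest integer `j > 10 D` with
`max {H₀(j), limsup_{t↓0} H_t(j)} < 1` and `sup_{0≤z≤L} ∂_z(n₀ ∂_z δ_*)/(n₀ δ_*) (j,z) < μ²`. -/
def IsRadius (b e : Space → ℝ) (εb : ℝ) (M : ℕ) : Prop :=
  IsLeast {j : ℕ | 10 * bigD < j ∧
    max (auxH εb 0 j) (Filter.limsup (fun t => auxH εb t j) (𝓝[>] 0)) < 1 ∧
    (⨆ z ∈ Set.Icc 0 stripL, (refStripQuotient b e j z : EReal)) < ((stripMu ^ 2 : ℝ) : EReal)} M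

/-- (7.6): `U` (with derivative `U'`) is the strip solution on `[0, L]` for the positive weight
`ν(z) = n(p,z)`: `ν⁻¹ (ν U')' = μ² U`, `U(0) = 1`, `U(L) = 0`. -/
def IsStripSolution (ν U U' : ℝ → ℝ) : Prop :=
  U 0 = 1 ∧ U stripL = 0 ∧ ∀ z ∈ Set.Icc 0 stripL,
    HasDerivWithinAt U (U' z) (Set.Icc 0 stripL) z ∧
    HasDerivWithinAt (fun s => ν s * U' s) (ν z * (stripMu ^ 2 * U z)) (Set.Icc 0 stripL) z

/-- (7.7): `α = inf_{0<z≤L} ((2/π) δ_*(M,z) - U₀(M,z)) / z`. -/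
def IsMargin (b e : Space → ℝ) (M : ℕ) (U₀ : ℝ → ℝ) (α : ℝ) : Prop :=
  IsGLB ((fun z => (2 / Real.pi * refDelta b e (cyl M z) - U₀ z) / z) '' Set.Ioc 0 stripL) α

/-! ## Folded minimizing angles (Proposition 4.1) -/

/-- `ϑ` (with weak gradient `G`) is admissible for the angle problem (4.1) of the density `n`:
`ϑ ∈ H¹(n; ℝ)`, i.e. `ϑ ∈ H¹_loc` and `∫ n (ϑ² + |∇ϑ|²) < ∞`; `ϑ` is odd under the reflection;
`∫ n sin² ϑ = 1`. -/
def IsAdmissibleAngle (n ϑ : Space → ℝ) (G : Space → Space) : Prop :=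
  IsWeakGrad ϑ G ∧ Integrable (fun x => n x * (ϑ x ^ 2 + ‖G x‖ ^ 2)) ∧
    (∀ᵐ x, ϑ (reflZ x) = -ϑ x) ∧ (∫ x, n x * Real.sin (ϑ x) ^ 2) = 1

/-- `θ` is (the `C¹` version of) a folded minimizing angle for `n`: a minimizer of
`∫ n |∇ϑ|²` over the admissible angles with `0 ≤ θ ≤ π/2` on the upper half-space.  (By
Proposition 4.1 every folded minimizer is locally `C^{1,α}`.) -/
def IsFoldedMinimizer (n θ : Space → ℝ) : Prop :=
  ContDiff ℝ 1 θ ∧ IsAdmissibleAngle n θ (gradient θ) ∧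
    (∀ x : Space, 0 < x 2 → 0 ≤ θ x ∧ θ x ≤ Real.pi / 2) ∧
    ∀ ϑ G, IsAdmissibleAngle n ϑ G →
      (∫ x, n x * ‖gradient θ x‖ ^ 2) ≤ ∫ x, n x * ‖G x‖ ^ 2

/-- `d` is the multiplier of `θ`: the weak form `∫ n ∇θ·∇φ = d ∫ n sin(2θ) φ` of the
Euler–Lagrange equation (4.2), `n⁻¹ div(n ∇θ) = -d sin(2θ)` on `ℝ³`. -/
def IsMultiplier (n θ : Space → ℝ) (d : ℝ) : Prop :=
  ∀ φ : Space → ℝ, ContDiff ℝ ∞ φ → HasCompactSupport φ →
    (∫ x, n x * ⟪gradient θ x, gradient φ x⟫_ℝ) = d * ∫ x, n x * Real.sin (2 * θ x) * φ x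

/-! ## The bad set and the charge -/

/-- The tests (7.9) for a folded minimizing angle `θ` of `n` with multiplier `d`, where `S = 100 M`
and `U', U₀'` are the `z`-derivatives of the strip solutions `U_t(M,·), U₀(M,·)`.  The supremum on
the cylinder `p = M` includes all azimuthal angles. -/
def PassesAngleTests (b e : Space → ℝ) (M : ℕ) (α : ℝ) (U₀' : ℝ → ℝ)
    (n θ : Space → ℝ) (d : ℝ) (U' : ℝ → ℝ) : Prop :=
  (0 < d ∧ d < 0.001) ∧
  (∀ x : Space, ‖x‖ ≤ 2 * (100 * M) →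
    1 / 2 ≤ n x * Real.cos (θ x) ^ 2 / (2 * b x ^ 2) ∧
    n x * Real.cos (θ x) ^ 2 / (2 * b x ^ 2) ≤ 2) ∧
  (⨆ x ∈ {x : Space | √(x 0 ^ 2 + x 1 ^ 2) = M ∧ 0 ≤ x 2 ∧ x 2 ≤ stripL},
    ENNReal.ofReal (|fderiv ℝ (fun y => θ y - refTheta b e y) x ez| + |U' (x 2) - U₀' (x 2)|))
    < ENNReal.ofReal (α / 2)

/-- The bad set `𝓑 ⊆ (0,1]`: it contains every nonregular `t`, every regular `t` with
`H_t(M) ≥ 1`, and every remaining `t` for which there exists a folded minimizing angle `θ`, with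
multiplier `d`, that fails at least one of the tests (7.9). -/
def BadSet (b e : Space → ℝ) (εb : ℝ) (M : ℕ) (α : ℝ) (U₀' : ℝ → ℝ) : Set ℝ :=
  {t | t ∈ Set.Ioc (0 : ℝ) 1 ∧
    ((¬ ∃ d, IsRegular εb t d) ∨ 1 ≤ auxH εb t M ∨
      ∃ (d : AuxData) (θ : Space → ℝ) (dθ : ℝ) (U U' : ℝ → ℝ),
        IsRegular εb t d ∧ IsFoldedMinimizer d.n θ ∧ IsMultiplier d.n θ dθ ∧
        IsStripSolution (fun z => d.n (cyl M z)) U U' ∧
        ¬ PassesAngleTests b e M α U₀' d.n θ dθ U')}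

/-- **Definition 7.3** (`def:explicit-charge`), formula (7.10): `Z` is the exact integer charge
`Z = 2 + ⌈sup_{0<t≤1} t⁻¹ 1_𝓑(t)⌉`, the supremum `C` being finite, where `𝓑` is built from the two
lowest orbitals `b, e` of `h_D`, the radius `M` (7.5), the strip solution `U₀(M,·)` (7.6) and the
margin `α` (7.7). -/
def IsExplicitCharge (Z : ℕ) : Prop :=
  ∃ (b e : Space → ℝ) (εb εe : ℝ) (M : ℕ) (U₀ U₀' : ℝ → ℝ) (α C : ℝ),
    IsTwoCentreData b e εb εe ∧
    IsRadius b e εb M ∧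
    IsStripSolution (fun z => refDensity b e (cyl M z)) U₀ U₀' ∧
    IsMargin b e M U₀ α ∧
    IsLUB ((fun t => (BadSet b e εb M α U₀').indicator (fun t => 1 / t) t) '' Set.Ioc 0 1) C ∧
    Z = 2 + ⌈C⌉₊

/-! # The theorem -/

/-- **Theorem 1.1.**  With `D = 10^200` there is a finite positive integer `Z`, specified by
(7.10), such that the three-electron Coulomb Hamiltonian `H_C` with nuclear charges `Z, Z` at
`±(D/Z) e_z` has a normalized absolute ground state `Ψ` in the sector `S_z = 1/2`, but there are no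
`v ∈ L^{3/2} + L^∞` and no ground-state ensemble `Γ` of `H_s(v)` with `n_Γ = n_Ψ` almost
everywhere. -/
def Statement : Prop :=
  ∃ Z : ℕ, 0 < Z ∧ IsExplicitCharge Z ∧ HasUnrepresentableGroundState Z

end Claimed.Open.R278
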