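import Mathlib

/-!
# Result 278, layer TC (Proposition 2.2, the two-centre problem), file 1: abstract linear algebra

`V` is a real vector space with two symmetric bilinear forms `q` ("energy") and `m` ("mass", the `L²` product).
Everything here is pure algebra; the instance is `V = h1Sub` (pairs `(f, ∇f)`, `TCForm.lean`).

* `tc_abs_euler`  : a minimiser of `q - E m` on a subspace satisfies the Euler–Lagrange equation on this subspace;
* `tc_abs_three`  : if `q ≥ B m` on the kernel of two functionals there are no three `q`- and `m`-orthogonal vectors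
                    with `q < B m` (min–max for the third level, without min–max);
* `tc_abs_second` : `q ≥ B m` on `{b,e}^⊥`, `e` eigenvector with `E ≤ B`  ⇒  `q ≥ E m` on `b^⊥`.
-/

namespace Claimed.Open.R278

variable {V : Type*} [AddCommGroup V] [Module ℝ V]

theorem tc_lin_zero {b c : ℝ} (h : ∀ t : ℝ, 0 ≤ 2 * b * t + c * t ^ 2) : b = 0 := by
  by_contra hb
  have hc : 0 ≤ |c| + 1 := by positivity
  have h1 := h (-b / (|c| + 1))
  have h3 : c ≤ |c| := le_abs_self c
  have hb2 : 0 < b ^ 2 := by positivity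
  have hpos : 0 < |c| + 1 := by positivity
  have h2 : 2 * b * (-b / (|c| + 1)) + c * (-b / (|c| + 1)) ^ 2
      = b ^ 2 * (c - 2 * (|c| + 1)) / (|c| + 1) ^ 2 := by
    field_simp
    ring
  rw [h2] at h1
  have h4 : b ^ 2 * (c - 2 * (|c| + 1)) < 0 := by
    apply mul_neg_of_pos_of_neg hb2
    have := abs_nonneg c
    linarith
  have h5 : b ^ 2 * (c - 2 * (|c| + 1)) / (|c| + 1) ^ 2 < 0 := div_neg_of_neg_of_pos h4 (by positivity)
  linarith

/-- Euler–Lagrange equation on a subspace. -/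
theorem tc_abs_euler (q m : LinearMap.BilinForm ℝ V) (hq : ∀ x y, q x y = q y x) (hm : ∀ x y, m x y = m y x)
    (S : Submodule ℝ V) {E : ℝ} {f : V} (hf : f ∈ S) (hE : q f f = E * m f f)
    (hmin : ∀ g ∈ S, E * m g g ≤ q g g) : ∀ g ∈ S, q g f = E * m g f := by
  intro g hg
  have key : ∀ t : ℝ, 0 ≤ 2 * (q g f - E * m g f) * t + (q g g - E * m g g) * t ^ 2 := by
    intro t
    have h1 := hmin (f + t • g) (S.add_mem hf (S.smul_mem t hg))
    simp only [map_add, map_smul, LinearMap.add_apply, LinearMap.smul_apply, smul_eq_mul] at h1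
    rw [hq f g, hm f g] at h1
    nlinarith [h1, hE]
  have := tc_lin_zero key
  linarith

/-- two homogeneous linear equations in three unknowns have a nontrivial solution. -/
theorem tc_exists_three (u w : Fin 3 → ℝ) :
    ∃ a : Fin 3 → ℝ, a ≠ 0 ∧ ∑ i, a i * u i = 0 ∧ ∑ i, a i * w i = 0 := by
  let L : (Fin 3 → ℝ) →ₗ[ℝ] (Fin 2 → ℝ) :=
    LinearMap.pi ![∑ i, u i • LinearMap.proj i, ∑ i, w i • LinearMap.proj i]
  have hL : LinearMap.ker L ≠ ⊥ := by
    apply LinearMap.ker_ne_bot_of_finrank_lt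
    simp
  obtain ⟨a, ha, ha0⟩ := (Submodule.ne_bot_iff _).1 hL
  refine ⟨a, ha0, ?_, ?_⟩
  · have := congrFun (LinearMap.mem_ker.1 ha) 0
    simp only [L, LinearMap.pi_apply, Matrix.cons_val_zero, LinearMap.sum_apply, LinearMap.smul_apply,
      LinearMap.proj_apply, smul_eq_mul, Pi.zero_apply] at this
    rw [← this]
    exact Finset.sum_congr rfl fun i _ => mul_comm _ _
  · have := congrFun (LinearMap.mem_ker.1 ha) 1
    simp only [L, LinearMap.pi_apply, Matrix.cons_val_one, Matrix.cons_val_zero, LinearMap.sum_apply,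
      LinearMap.smul_apply, LinearMap.proj_apply, smul_eq_mul, Pi.zero_apply] at this
    rw [← this]
    exact Finset.sum_congr rfl fun i _ => mul_comm _ _

/-- the three-dimensional argument. -/
theorem tc_abs_three (q m : LinearMap.BilinForm ℝ V) (hq : ∀ x y, q x y = q y x) (hm : ∀ x y, m x y = m y x)
    (T₁ T₂ : V →ₗ[ℝ] ℝ) {B : ℝ} (hB : ∀ g, T₁ g = 0 → T₂ g = 0 → B * m g g ≤ q g g)
    {f₁ f₂ f₃ : V} (q12 : q f₁ f₂ = 0) (q13 : q f₁ f₃ = 0) (q23 : q f₂ f₃ = 0)
    (m12 : m f₁ f₂ = 0) (m13 : m f₁ f₃ = 0) (m23 : m f₂ f₃ = 0)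
    (h1 : q f₁ f₁ < B * m f₁ f₁) (h2 : q f₂ f₂ < B * m f₂ f₂) (h3 : q f₃ f₃ < B * m f₃ f₃) : False := by
  obtain ⟨a, ha0, hu, hw⟩ := tc_exists_three ![T₁ f₁, T₁ f₂, T₁ f₃] ![T₂ f₁, T₂ f₂, T₂ f₃]
  simp only [Fin.sum_univ_three, Matrix.cons_val_zero, Matrix.cons_val_one, Matrix.cons_val] at hu hw
  have hv := hB (a 0 • f₁ + a 1 • f₂ + a 2 • f₃)
    (by simp only [map_add, map_smul, smul_eq_mul]; linarith)
    (by simp only [map_add, map_smul, smul_eq_mul]; linarith)
  simp only [map_add, map_smul, LinearMap.add_apply, LinearMap.smul_apply, smul_eq_mul] at hv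
  rw [hq f₂ f₁, hq f₃ f₁, hq f₃ f₂, hm f₂ f₁, hm f₃ f₁, hm f₃ f₂, q12, q13, q23, m12, m13, m23] at hv
  have hne : a 0 ≠ 0 ∨ a 1 ≠ 0 ∨ a 2 ≠ 0 := by
    by_contra hcon
    push Not at hcon
    apply ha0
    funext i
    fin_cases i
    · exact hcon.1
    · exact hcon.2.1
    · exact hcon.2.2
  have e0 : 0 ≤ a 0 ^ 2 * (B * m f₁ f₁ - q f₁ f₁) := mul_nonneg (sq_nonneg _) (by linarith)
  have e1 : 0 ≤ a 1 ^ 2 * (B * m f₂ f₂ - q f₂ f₂) := mul_nonneg (sq_nonneg _) (by linarith)
  have e2 : 0 ≤ a 2 ^ 2 * (B * m f₃ f₃ - q f₃ f₃) := mul_nonneg (sq_nonneg _) (by linarith)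
  rcases hne with h | h | h
  · have : 0 < a 0 ^ 2 * (B * m f₁ f₁ - q f₁ f₁) := mul_pos (by positivity) (by linarith)
    nlinarith
  · have : 0 < a 1 ^ 2 * (B * m f₂ f₂ - q f₂ f₂) := mul_pos (by positivity) (by linarith)
    nlinarith
  · have : 0 < a 2 ^ 2 * (B * m f₃ f₃ - q f₃ f₃) := mul_pos (by positivity) (by linarith)
    nlinarith

/-- from the third level to the second one. -/
theorem tc_abs_second (q m : LinearMap.BilinForm ℝ V) (hm : ∀ x y, m x y = m y x)
    (hm0 : ∀ x, 0 ≤ m x x) {b e : V} {E B : ℝ} (hEB : E ≤ B)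
    (he : ∀ g, q g e = E * m g e) (hq : ∀ x y, q x y = q y x) (hn : m e e = 1) (hbe : m e b = 0)
    (hB : ∀ g, m g b = 0 → m g e = 0 → B * m g g ≤ q g g) :
    ∀ g, m g b = 0 → E * m g g ≤ q g g := by
  intro g hg
  have h1 := hB (g - m g e • e)
    (by simp only [map_sub, map_smul, LinearMap.sub_apply, LinearMap.smul_apply, smul_eq_mul, hg, hbe]; ring)
    (by simp only [map_sub, map_smul, LinearMap.sub_apply, LinearMap.smul_apply, smul_eq_mul, hn]; ring)
  have h0 := hm0 (g - m g e • e)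
  simp only [map_sub, map_smul, LinearMap.sub_apply, LinearMap.smul_apply, smul_eq_mul] at h1 h0
  rw [hq e g, he g, he e, hm e g, hn] at h1
  rw [hm e g, hn] at h0
  nlinarith

end Claimed.Open.R278
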