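import Claimed.Open.R278.TCForm

/-!
# Result 278, layer TC (Proposition 2.2), file 3: the direct method

`tc_exists_minimizer`: on a homogeneous class `S` which is closed under (weak `L²` + a.e.) limits and contains a function of
negative energy, `nucForm Z R` has a normalised minimiser, at a negative level `E`.

PROOF.  `I = {q[g] : g ∈ S ∩ H¹, ∫ g² = 1}` is nonempty (normalise `g₀`) and bounded below by `-4 Z²`
(`IsH1.grad_le_nucForm`); `E = sInf I < 0`; `g_n` a minimising sequence (`exists_seq_tendsto_sInf`); it is bounded in `H¹`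
(`IsH1.grad_le_nucForm`); `IsH1.exists_subseq` gives `f`, with `∫ V g_n² → ∫ V f²` (`tendsto_integral_nuclear`),
`∫ |∇f|² ≤ liminf` and `∫ f² ≤ 1` (`WeakL2.integral_norm_sq_le`), `f ∈ S`.  So `q[f] ≤ E < 0`; by homogeneity
`q[f] ≥ E ∫ f²`, so `∫ f² ≥ 1`: `∫ f² = 1`, `q[f] = E`.  (If `∫ g² = 0` then `g = 0` a.e. and `q[g] = 0`.)
-/

open MeasureTheory Filter Topology Set
open scoped ContDiff InnerProductSpace

noncomputable section

namespace Claimed.Open.R278

variable {Z R : ℝ}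

/-! ## TC-M1 (proved): coercivity -/

section M1

/-- `∫ |∇f|² ≤ 4 q[f] + 16 Z² ∫ f²`  (`IsH1.coulomb` at the two nuclei, `2 Z √M √K ≤ K/4 + 4 Z² M`). -/
theorem IsH1.grad_le_nucForm (hZ : 0 ≤ Z) {f : Space → ℝ} {F : Space → Space} (h : IsH1 f F) :
    ∫ x, ‖F x‖ ^ 2 ≤ 4 * nucForm Z R f f F F + 16 * Z ^ 2 * ∫ x, f x ^ 2 := by
  obtain ⟨i1, b1⟩ := h.coulomb (R • ez)
  obtain ⟨i2, b2⟩ := h.coulomb (-(R • ez))
  simp only [sub_neg_eq_add] at i2 b2
  have e : ∫ x, nuclearPotential Z R x * (f x * f x)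
      = -(Z * ∫ x, f x ^ 2 / ‖x - R • ez‖) - Z * ∫ x, f x ^ 2 / ‖x + R • ez‖ := by
    have e1 := integral_sub (i1.const_mul Z).neg (i2.const_mul Z)
    simp only [Pi.neg_apply] at e1
    rw [integral_neg, integral_const_mul, integral_const_mul] at e1
    rw [← e1]
    refine integral_congr_ae (Eventually.of_forall fun x => ?_)
    simp only [nuclearPotential, div_eq_mul_inv]
    ring
  unfold nucForm
  simp only [real_inner_self_eq_norm_sq]
  rw [e]
  have hM : 0 ≤ ∫ x, f x ^ 2 := integral_nonneg fun x => sq_nonneg _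
  have hK : 0 ≤ ∫ x, ‖F x‖ ^ 2 := integral_nonneg fun x => sq_nonneg _
  set a := √(∫ x, f x ^ 2) with ha
  set b := √(∫ x, ‖F x‖ ^ 2) with hb
  have ha2 : a ^ 2 = ∫ x, f x ^ 2 := Real.sq_sqrt hM
  have hb2 : b ^ 2 = ∫ x, ‖F x‖ ^ 2 := Real.sq_sqrt hK
  rw [← ha2, ← hb2]
  have c1 := mul_le_mul_of_nonneg_left b1 hZ
  have c2 := mul_le_mul_of_nonneg_left b2 hZ
  nlinarith [sq_nonneg (b - 4 * Z * a)]

end M1

/-! ## TC-M2 (proved): existence of a minimiser -/

section M2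

theorem nucForm_smul_smul (c : ℝ) (g : Space → ℝ) (G : Space → Space) :
    nucForm Z R (fun x => c * g x) (fun x => c * g x) (fun x => c • G x) (fun x => c • G x)
      = c ^ 2 * nucForm Z R g g G G := by
  rw [nucForm_smul_left, nucForm_comm, nucForm_smul_left]
  ring

theorem tc_exists_minimizer (hZ : 0 ≤ Z) {S : (Space → ℝ) → Prop}
    (hsmul : ∀ (c : ℝ) f, S f → S (fun x => c * f x))
    (hclosed : ∀ (fn : ℕ → Space → ℝ) (f : Space → ℝ), (∀ n, S (fn n)) → (∀ n, MemLp (fn n) 2 volume) →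
      MemLp f 2 volume → WeakL2 ℝ volume fn f → (∀ᵐ x, Tendsto (fun n => fn n x) atTop (𝓝 (f x))) → S f)
    {g₀ : Space → ℝ} {G₀ : Space → Space} (h₀ : IsH1 g₀ G₀) (hS₀ : S g₀) (hneg : nucForm Z R g₀ g₀ G₀ G₀ < 0) :
    ∃ (E : ℝ) (f : Space → ℝ) (F : Space → Space), E < 0 ∧ IsH1 f F ∧ S f ∧ ∫ x, f x ^ 2 = 1 ∧
      nucForm Z R f f F F = E ∧ IsBelow Z R E S := by
  set I : Set ℝ := {q | ∃ (g : Space → ℝ) (G : Space → Space), IsH1 g G ∧ S g ∧ ∫ x, g x ^ 2 = 1 ∧
    q = nucForm Z R g g G G} with hI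
  have hKnn : ∀ G : Space → Space, 0 ≤ ∫ x, ‖G x‖ ^ 2 := fun G => integral_nonneg fun x => sq_nonneg _
  have hMnn : ∀ g : Space → ℝ, 0 ≤ ∫ x, g x ^ 2 := fun g => integral_nonneg fun x => sq_nonneg _
  -- normalisation
  have hnorm : ∀ (g : Space → ℝ) (G : Space → Space), IsH1 g G → S g → 0 < ∫ x, g x ^ 2 →
      nucForm Z R g g G G / (∫ x, g x ^ 2) ∈ I := by
    intro g G hg hSg hM
    set c := (√(∫ x, g x ^ 2))⁻¹ with hc
    have hc2 : c ^ 2 = (∫ x, g x ^ 2)⁻¹ := by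
      rw [hc, inv_pow, Real.sq_sqrt hM.le]
    refine ⟨fun x => c * g x, fun x => c • G x, hg.const_mul c, hsmul c g hSg, ?_, ?_⟩
    · simp only [mul_pow]
      rw [integral_const_mul, hc2, inv_mul_cancel₀ hM.ne']
    · rw [nucForm_smul_smul, hc2, div_eq_inv_mul]
  have hbdd : BddBelow I := by
    refine ⟨-(4 * Z ^ 2), ?_⟩
    rintro q ⟨g, G, hg, -, hn, rfl⟩
    have := hg.grad_le_nucForm (R := R) hZ
    rw [hn] at this
    have h2 := hKnn G
    linarith
  have hM₀ : 0 < ∫ x, g₀ x ^ 2 := by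
    refine lt_of_le_of_ne (hMnn g₀) fun h => ?_
    have := h₀.grad_le_nucForm (R := R) hZ
    rw [← h] at this
    have h2 := hKnn G₀
    linarith
  have hne : I.Nonempty := ⟨_, hnorm g₀ G₀ h₀ hS₀ hM₀⟩
  set E := sInf I with hE
  have hEneg : E < 0 :=
    lt_of_le_of_lt (csInf_le hbdd (hnorm g₀ G₀ h₀ hS₀ hM₀)) (div_neg_of_neg_of_pos hneg hM₀)
  have hbelow : IsBelow Z R E S := by
    intro g G hg hSg
    rcases (hMnn g).eq_or_lt with h | h
    · have := hg.grad_le_nucForm (R := R) hZ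
      rw [← h] at this ⊢
      have h2 := hKnn G
      linarith
    · have := csInf_le hbdd (hnorm g G hg hSg h)
      rwa [le_div_iff₀ h] at this
  obtain ⟨u, hanti, hlim, hmem⟩ := exists_seq_tendsto_sInf hne hbdd
  choose g G hg hSg hn hq using hmem
  have hC : ∀ n, (∫ x, g n x ^ 2) + ∫ x, ‖G n x‖ ^ 2 ≤ 1 + (4 * u 0 + 16 * Z ^ 2) := by
    intro n
    have h1 := (hg n).grad_le_nucForm (R := R) hZ
    rw [hn n, ← hq n] at h1
    rw [hn n]
    have h2 := hanti (Nat.zero_le n)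
    linarith
  obtain ⟨φ, f, F, hφ, hf, hloc, hae, hw1, hw2⟩ := IsH1.exists_subseq hg hC
  have hSf : S f := hclosed (g ∘ φ) f (fun n => hSg _) (fun n => (hg _).1) hf.1 hw1 hae
  have hV := tendsto_integral_nuclear (fun n => hg (φ n)) hf (fun n => hC (φ n)) hloc Z R
  have hM1 : ∫ x, f x ^ 2 ≤ 1 := by
    have := hw1.integral_norm_sq_le (fun n => (hg (φ n)).1) hf.1 (B := 1)
      (Eventually.of_forall fun n => by
        simp only [Function.comp_apply, Real.norm_eq_abs, sq_abs]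
        exact (hn (φ n)).le).frequently
    simpa only [Real.norm_eq_abs, sq_abs] using this
  have hu : Tendsto (fun n => u (φ n)) atTop (𝓝 E) := hlim.comp hφ.tendsto_atTop
  set v := ∫ x, nuclearPotential Z R x * (f x * f x) with hv
  have hK : Tendsto (fun n => ∫ x, ‖G (φ n) x‖ ^ 2) atTop (𝓝 (2 * (E - v))) := by
    have h1 := (hu.sub hV).const_mul 2
    refine h1.congr fun n => ?_
    rw [hq (φ n)]
    unfold nucForm
    simp only [real_inner_self_eq_norm_sq]
    ring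
  have hKF : ∫ x, ‖F x‖ ^ 2 ≤ 2 * (E - v) := by
    refine le_of_forall_pos_le_add fun ε hε => ?_
    refine hw2.integral_norm_sq_le (fun n => (hg (φ n)).2.1) hf.2.1 ?_
    have : ∀ᶠ n in atTop, ∫ x, ‖G (φ n) x‖ ^ 2 < 2 * (E - v) + ε := hK.eventually_lt_const (by linarith)
    exact (this.mono fun n hn => hn.le).frequently
  have hQ : nucForm Z R f f F F ≤ E := by
    unfold nucForm
    simp only [real_inner_self_eq_norm_sq]
    linarith
  have hge := hbelow f F hf hSf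
  have hM2 : ∫ x, f x ^ 2 = 1 := by
    refine le_antisymm hM1 ?_
    by_contra hcon
    push Not at hcon
    nlinarith
  refine ⟨E, f, F, hEneg, hf, hSf, hM2, le_antisymm hQ ?_, hbelow⟩
  rw [hM2, mul_one] at hge
  exact hge

end M2

/-! ## The three instances (proved from the leaves) -/

section M3

/-- the absolute ground state. -/
theorem tc_exists_ground (hZ : 0 ≤ Z) {g₀ : Space → ℝ} {G₀ : Space → Space} (h₀ : IsH1 g₀ G₀)
    (hneg : nucForm Z R g₀ g₀ G₀ G₀ < 0) :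
    ∃ (E : ℝ) (f : Space → ℝ) (F : Space → Space), E < 0 ∧ IsWeakEig Z R E f F ∧ ∫ x, f x ^ 2 = 1 ∧
      IsBelow Z R E (fun _ => True) := by
  obtain ⟨E, f, F, hE, hf, -, hn, hq, hmin⟩ := tc_exists_minimizer (S := fun _ => True) hZ
    (fun _ _ _ => trivial) (fun _ _ _ _ _ _ _ => trivial) h₀ trivial hneg
  refine ⟨E, f, F, hE, ⟨hf, fun g G hg => ?_⟩, hn, hmin⟩
  exact tc_euler_lagrange (S := fun _ => True) trivial (fun _ _ _ _ => trivial) (fun _ _ _ => trivial) hf trivial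
    (by rw [hq, hn, mul_one]) hmin g G hg trivial

/-- the ground state of the odd class. -/
theorem tc_exists_ground_odd (hZ : 0 ≤ Z) {g₀ : Space → ℝ} {G₀ : Space → Space} (h₀ : IsH1 g₀ G₀) (ho : OddZ g₀)
    (hneg : nucForm Z R g₀ g₀ G₀ G₀ < 0) :
    ∃ (E : ℝ) (f : Space → ℝ) (F : Space → Space), E < 0 ∧ IsWeakEig Z R E f F ∧ OddZ f ∧ ∫ x, f x ^ 2 = 1 ∧
      IsBelow Z R E OddZ := by
  obtain ⟨E, f, F, hE, hf, hodd, hn, hq, hmin⟩ := tc_exists_minimizer (S := OddZ) hZ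
    (fun c _ h => h.const_mul c) (fun _ _ h _ _ _ hl => OddZ.of_tendsto h hl) h₀ ho hneg
  refine ⟨E, f, F, hE, IsWeakEig.of_odd hf hodd ?_, hodd, hn, hmin⟩
  exact tc_euler_lagrange OddZ.zero (fun _ _ h h' => h.add h') (fun c _ h => h.const_mul c) hf hodd
    (by rw [hq, hn, mul_one]) hmin

/-- the ground state of the class `h^⊥`, `h` a normalised eigenfunction. -/
theorem tc_exists_ground_orth (hZ : 0 ≤ Z) {E' : ℝ} {h : Space → ℝ} {H : Space → Space} (hh : IsWeakEig Z R E' h H)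
    (hn' : ∫ x, h x ^ 2 = 1) {g₀ : Space → ℝ} {G₀ : Space → Space} (h₀ : IsH1 g₀ G₀) (ho : ∫ x, g₀ x * h x = 0)
    (hneg : nucForm Z R g₀ g₀ G₀ G₀ < 0) :
    ∃ (E : ℝ) (f : Space → ℝ) (F : Space → Space), E < 0 ∧ IsWeakEig Z R E f F ∧ ∫ x, f x * h x = 0 ∧
      ∫ x, f x ^ 2 = 1 ∧ IsBelow Z R E (fun g => ∫ x, g x * h x = 0) := by
  have hsmul : ∀ (c : ℝ) (f : Space → ℝ), ∫ x, f x * h x = 0 → ∫ x, c * f x * h x = 0 := by
    intro c f hf
    simp only [mul_assoc]
    rw [integral_const_mul, hf, mul_zero]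
  obtain ⟨E, f, F, hE, hf, horth, hn, hq, hmin⟩ := tc_exists_minimizer (S := fun g => ∫ x, g x * h x = 0) hZ
    hsmul (fun fn f hS _ _ hw _ => by
      have h1 := hw h hh.1.1
      have h2 : (fun n => ∫ x, ⟪h x, fn n x⟫_ℝ) = fun _ => 0 := by
        funext n
        rw [← hS n]
        refine integral_congr_ae (Eventually.of_forall fun x => ?_)
        simp [mul_comm]
      rw [h2] at h1
      have h3 := tendsto_nhds_unique h1 tendsto_const_nhds
      rw [← h3]
      refine integral_congr_ae (Eventually.of_forall fun x => ?_)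
      simp [mul_comm]) h₀ ho hneg
  refine ⟨E, f, F, hE, IsWeakEig.of_orth hh hn' hf horth ?_, horth, hn, hmin⟩
  intro g G hg hgo
  -- the class is linear on `H¹` only (integrability), so we use the abstract lemma directly
  have := tc_abs_euler (nucB Z R) l2B (nucB_symm Z R) l2B_symm (LinearMap.ker (l2F hh.1.1)) (E := E) (f := hf.mk)
    (by simpa [LinearMap.mem_ker] using horth)
    (by rw [l2B_self]; show nucForm Z R f f F F = E * ∫ x, f x ^ 2; rw [hq, hn, mul_one])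
    (fun p hp => by rw [l2B_self]; exact hmin _ _ p.2 (LinearMap.mem_ker.1 hp)) hg.mk
    (by simpa [LinearMap.mem_ker] using hgo)
  simpa using this

end M3

end Claimed.Open.R278
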