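import Claimed.Open.R278.TCVf
import Claimed.Open.R278.TCMin
import Claimed.Open.R278.TCReg

/-!
# Result 278, layer TC (Proposition 2.2), file 6: the hydrogen atom and its gap

`hyd = π^{-1/2} e^{-|x|}` is the normalised ground state of `-½Δ - 1/|x|` (level `-1/2`), and

  `hyd_gap : ∫ f hyd(· - c) = 0  →  -(1/8) ∫ f² ≤ hydQ c f F`.

PROOF OF THE GAP (`c = 0`).  Otherwise the form has, on `hyd^⊥`, a normalised minimiser `f` at a level `E < -1/8`
(`tc_exists_ground_orth`), a weak eigenfunction; take its continuous version, which tends to `0` at infinity.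
(a) for every `v ≠ 0`, with `A` the reflection in `v^⊥`: `g = f - f ∘ A` is a continuous eigenfunction at the level `E` which vanishes on the
    plane `v^⊥`, so `-(1/8) ∫ g² ≤ q_H[g] = E ∫ g²` (`IsH1.hydQ_ge_of_plane`), hence `g = 0`;
(b) so `f` is radial (`reflection_sub`);
(c) `g = f - α hyd`, `α = f(x₂)/hyd(x₂)`, `|x₂| = 2`, vanishes on the sphere `|x| = 2`, so `-(1/8) ∫ g² ≤ q_H[g]`
    (`IsH1.hydQ_ge_of_sphere`); `∫ g² = 1 + α²`, `q_H[g] = E - α²/2`:  `E ≥ -1/8 + 3α²/8`.  Contradiction.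

All sections are proved: this file has no `sorry` of its own.
-/

open MeasureTheory Filter Topology Set
open scoped ContDiff InnerProductSpace

noncomputable section

namespace Claimed.Open.R278

/-- the hydrogen ground state. -/
def hyd (x : Space) : ℝ := (√Real.pi)⁻¹ * Real.exp (-‖x‖)

/-- its gradient `- hyd x̂`. -/
def hydGrad (x : Space) : Space := -(hyd x) • (‖x‖⁻¹ • x)

theorem hyd_pos (x : Space) : 0 < hyd x := by
  unfold hyd
  positivity

theorem continuous_hyd : Continuous hyd := by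
  unfold hyd
  fun_prop

theorem hyd_eq_of_norm_eq {x y : Space} (h : ‖x‖ = ‖y‖) : hyd x = hyd y := by
  unfold hyd
  rw [h]

/-! ## TC-H1 (proved): radial integrals -/

section H1

theorem tc_integrableOn_pow_mul_exp (m : ℕ) : IntegrableOn (fun y : ℝ => y ^ m * Real.exp (-(2 * y))) (Ioi 0) := by
  have h := integrableOn_rpow_mul_exp_neg_mul_rpow (p := 1) (s := m) (b := 2) (by
    have : (0 : ℝ) ≤ m := Nat.cast_nonneg m
    linarith) one_pos two_pos
  refine h.congr_fun (fun x _ => ?_) measurableSet_Ioi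
  simp only [Real.rpow_natCast, Real.rpow_one, neg_mul]

theorem tc_integral_pow_mul_exp (m : ℕ) :
    ∫ y in Ioi (0 : ℝ), y ^ m * Real.exp (-(2 * y)) = m.factorial / 2 ^ (m + 1) := by
  have h := Real.integral_rpow_mul_exp_neg_mul_Ioi (a := (m : ℝ) + 1) (r := 2) (by positivity) two_pos
  simp only [add_sub_cancel_right, Real.rpow_natCast] at h
  rw [h, Real.Gamma_nat_eq_factorial]
  have : ((1 : ℝ) / 2) ^ ((m : ℝ) + 1) = (1 / 2) ^ (m + 1) := by
    rw [← Real.rpow_natCast]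
    push_cast
    rfl
  rw [this, one_div, inv_pow]
  field_simp

/-- `MeasureTheory.integral_fun_norm_addHaar` (`∫ g(‖x‖) = 3 vol(B₁) ∫_0^∞ r² g(r) dr`), `EuclideanSpace.volume_ball` (`vol(B₁) = 4π/3`,
`Real.Gamma (5/2) = 3√π/4`), `Real.integral_rpow_mul_exp_neg_mul_Ioi` (`∫_0^∞ r^{a-1} e^{-2r} = Γ(a)/2^a`). -/
theorem integral_norm_pow_mul_exp (k : ℕ) :
    ∫ x : Space, ‖x‖ ^ k * Real.exp (-(2 * ‖x‖)) = 4 * Real.pi * (k + 2).factorial / 2 ^ (k + 3) := by
  have h := integral_fun_norm_addHaar (E := Space) volume (fun y : ℝ => y ^ k * Real.exp (-(2 * y)))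
  have e : Module.finrank ℝ Space = 3 := by simp
  rw [e] at h
  rw [h]
  have e2 : ∫ y in Ioi (0 : ℝ), y ^ (3 - 1) • (y ^ k * Real.exp (-(2 * y))) = (k + 2).factorial / 2 ^ (k + 2 + 1) := by
    rw [← tc_integral_pow_mul_exp (k + 2)]
    refine setIntegral_congr_fun measurableSet_Ioi fun x _ => ?_
    simp only [smul_eq_mul]
    ring
  rw [e2]
  have e3 : (volume : Measure Space).real (Metric.ball 0 1) = Real.pi * 4 / 3 := by
    rw [Measure.real, EuclideanSpace.volume_ball_fin_three]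
    simp [ENNReal.toReal_ofReal (by positivity : (0:ℝ) ≤ Real.pi * 4 / 3)]
  rw [e3]
  simp only [smul_eq_mul, nsmul_eq_mul]
  push_cast
  ring

theorem integrable_norm_pow_mul_exp (k : ℕ) : Integrable (fun x : Space => ‖x‖ ^ k * Real.exp (-(2 * ‖x‖))) := by
  have h := (integrable_fun_norm_addHaar (E := Space) volume (f := fun y : ℝ => y ^ k * Real.exp (-(2 * y)))).2 ?_
  · exact h
  · have e : Module.finrank ℝ Space = 3 := by simp
    rw [e]
    refine (tc_integrableOn_pow_mul_exp (k + 2)).congr_fun (fun x _ => ?_) measurableSet_Ioi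
    simp only [smul_eq_mul]
    ring

theorem tc_hyd_sq (x : Space) : hyd x ^ 2 = Real.pi⁻¹ * Real.exp (-(2 * ‖x‖)) := by
  unfold hyd
  rw [mul_pow, inv_pow, Real.sq_sqrt Real.pi_pos.le, ← Real.exp_nat_mul]
  congr 2
  push_cast
  ring

theorem integral_hyd_sq : ∫ x, hyd x ^ 2 = 1 := by
  have h := integral_norm_pow_mul_exp 0
  simp only [pow_zero, one_mul] at h
  simp_rw [tc_hyd_sq]
  rw [integral_const_mul, h]
  have := Real.pi_pos
  simp [Nat.factorial]
  field_simp
  norm_num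

theorem integral_norm_sq_mul_hyd_sq : ∫ x, ‖x‖ ^ 2 * hyd x ^ 2 = 3 := by
  have h := integral_norm_pow_mul_exp 2
  have e : ∀ x : Space, ‖x‖ ^ 2 * hyd x ^ 2 = Real.pi⁻¹ * (‖x‖ ^ 2 * Real.exp (-(2 * ‖x‖))) := by
    intro x
    rw [tc_hyd_sq]
    ring
  simp_rw [e]
  rw [integral_const_mul, h]
  have := Real.pi_pos
  simp [Nat.factorial]
  field_simp
  norm_num

theorem integrable_norm_sq_mul_hyd_sq : Integrable (fun x => ‖x‖ ^ 2 * hyd x ^ 2) := by
  have e : (fun x : Space => ‖x‖ ^ 2 * hyd x ^ 2) = fun x => Real.pi⁻¹ * (‖x‖ ^ 2 * Real.exp (-(2 * ‖x‖))) := by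
    funext x
    rw [tc_hyd_sq]
    ring
  rw [e]
  exact (integrable_norm_pow_mul_exp 2).const_mul _

theorem memLp_hyd : MemLp hyd 2 volume := by
  rw [memLp_two_iff_integrable_sq continuous_hyd.aestronglyMeasurable]
  have e : (fun x : Space => hyd x ^ 2) = fun x => Real.pi⁻¹ * (‖x‖ ^ 0 * Real.exp (-(2 * ‖x‖))) := by
    funext x
    rw [tc_hyd_sq]
    ring
  rw [e]
  exact (integrable_norm_pow_mul_exp 0).const_mul _

theorem tendsto_hyd_cocompact : Tendsto hyd (cocompact Space) (𝓝 0) := by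
  unfold hyd
  have h1 : Tendsto (fun x : Space => ‖x‖) (cocompact Space) atTop := tendsto_norm_cocompact_atTop
  have h2 : Tendsto (fun x : Space => Real.exp (-‖x‖)) (cocompact Space) (𝓝 0) :=
    Real.tendsto_exp_neg_atTop_nhds_zero.comp h1
  simpa using h2.const_mul (√Real.pi)⁻¹

end H1

/-! ## TC-H2 (proved): `hyd ∈ H¹` -/

section H2

/-- the smooth approximants of `hyd`. -/
def tcU (δ : ℝ) (x : Space) : ℝ := (√Real.pi)⁻¹ * Real.exp (-tcT δ x)

theorem tcU_contDiff {δ : ℝ} (hδ : 0 < δ) : ContDiff ℝ ∞ (tcU δ) := by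
  unfold tcU
  exact contDiff_const.mul (Real.contDiff_exp.comp (tcT_contDiff hδ).neg)

theorem tcU_gradient {δ : ℝ} (hδ : 0 < δ) (x : Space) :
    gradient (tcU δ) x = -(tcU δ x) • ((tcT δ x)⁻¹ • x) := by
  set L : Space →L[ℝ] ℝ := (1 / (2 * tcT δ x)) • (2 • innerSL ℝ x) with hL
  have h1 : HasFDerivAt (tcU δ) ((√Real.pi)⁻¹ • (Real.exp (-tcT δ x) • (-L))) x :=
    ((tcT_hasFDerivAt hδ x).neg.exp).const_mul (√Real.pi)⁻¹
  refine HasGradientAt.gradient ?_
  rw [hasGradientAt_iff_hasFDerivAt]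
  have e : InnerProductSpace.toDual ℝ Space (-(tcU δ x) • ((tcT δ x)⁻¹ • x))
      = (√Real.pi)⁻¹ • (Real.exp (-tcT δ x) • (-L)) := by
    ext v
    have ht := tcT_pos hδ x
    simp only [hL, tcU, InnerProductSpace.toDual_apply_apply, inner_smul_left, smul_apply,
      neg_apply, innerSL_apply_apply, smul_eq_mul, nsmul_eq_mul, RCLike.conj_to_real]
    field_simp
    push_cast
    ring
  rw [e]
  exact h1

theorem tc_norm_le_tcT (δ : ℝ) (x : Space) : ‖x‖ ≤ tcT δ x := by
  unfold tcT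
  refine Real.le_sqrt_of_sq_le ?_
  nlinarith [sq_nonneg δ]

theorem tcU_pos (δ : ℝ) (x : Space) : 0 < tcU δ x := by
  unfold tcU
  positivity

theorem tcU_le_hyd (δ : ℝ) (x : Space) : tcU δ x ≤ hyd x := by
  unfold tcU hyd
  have := tc_norm_le_tcT δ x
  gcongr

theorem tc_norm_unit_le (t : ℝ) (x : Space) (h : ‖x‖ ≤ t) : ‖t⁻¹ • x‖ ≤ 1 := by
  rcases eq_or_lt_of_le ((norm_nonneg x).trans h) with h0 | h0
  · rw [← h0]; simp
  · rw [norm_smul, Real.norm_eq_abs, abs_of_pos (inv_pos.2 h0), inv_mul_le_iff₀ h0]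
    linarith

theorem tc_norm_tcU_grad_le (δ : ℝ) (x : Space) : ‖-(tcU δ x) • ((tcT δ x)⁻¹ • x)‖ ≤ hyd x := by
  rw [norm_smul, Real.norm_eq_abs, abs_neg, abs_of_pos (tcU_pos δ x)]
  calc tcU δ x * ‖(tcT δ x)⁻¹ • x‖ ≤ hyd x * 1 :=
        mul_le_mul (tcU_le_hyd δ x) (tc_norm_unit_le _ _ (tc_norm_le_tcT δ x)) (norm_nonneg _) (hyd_pos x).le
    _ = hyd x := mul_one _

theorem norm_hydGrad_le (x : Space) : ‖hydGrad x‖ ≤ hyd x := by
  unfold hydGrad
  rw [norm_smul, Real.norm_eq_abs, abs_neg, abs_of_pos (hyd_pos x)]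
  calc hyd x * ‖‖x‖⁻¹ • x‖ ≤ hyd x * 1 :=
        mul_le_mul le_rfl (tc_norm_unit_le _ _ le_rfl) (norm_nonneg _) (hyd_pos x).le
    _ = hyd x := mul_one _

theorem measurable_hydGrad : Measurable hydGrad := by
  unfold hydGrad
  exact continuous_hyd.measurable.neg.smul (measurable_norm.inv.smul measurable_id)

theorem memLp_hydGrad : MemLp hydGrad 2 volume :=
  memLp_hyd.mono measurable_hydGrad.aestronglyMeasurable (Eventually.of_forall fun x => by
    rw [Real.norm_eq_abs, abs_of_pos (hyd_pos x)]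
    exact norm_hydGrad_le x)

theorem isH1_tcU {δ : ℝ} (hδ : 0 < δ) : IsH1 (tcU δ) (fun x => -(tcU δ x) • ((tcT δ x)⁻¹ • x)) := by
  have e : gradient (tcU δ) = fun x => -(tcU δ x) • ((tcT δ x)⁻¹ • x) := funext (tcU_gradient hδ)
  have hc : ContDiff ℝ 1 (tcU δ) := (tcU_contDiff hδ).of_le (by norm_cast)
  rw [← e]
  refine isH1_of_contDiff_memLp hc ?_ ?_
  · refine tc_memLp_of_abs_le memLp_hyd hc.continuous.aestronglyMeasurable (Eventually.of_forall fun x => ?_)
    rw [abs_of_pos (tcU_pos δ x), abs_of_pos (hyd_pos x)]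
    exact tcU_le_hyd δ x
  · have hm : AEStronglyMeasurable (gradient (tcU δ)) volume := by
      rw [e]
      have h1 : Continuous (tcT δ) := (tcT_contDiff hδ).continuous
      have h2 : Continuous (fun x => (tcT δ x)⁻¹) := h1.inv₀ fun x => (tcT_pos hδ x).ne'
      exact (hc.continuous.neg.smul (h2.smul continuous_id)).aestronglyMeasurable
    refine memLp_hyd.mono hm (Eventually.of_forall fun x => ?_)
    rw [e, Real.norm_eq_abs, abs_of_pos (hyd_pos x)]
    exact tc_norm_tcU_grad_le δ x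

theorem tc_tendsto_tcT {d : ℕ → ℝ} (hd : Tendsto d atTop (𝓝 0)) (x : Space) :
    Tendsto (fun n => tcT (d n) x) atTop (𝓝 ‖x‖) := by
  unfold tcT
  have h1 : Tendsto (fun n => ‖x‖ ^ 2 + d n ^ 2) atTop (𝓝 (‖x‖ ^ 2 + 0 ^ 2)) := (hd.pow 2).const_add _
  have h2 := h1.sqrt
  simpa [Real.sqrt_sq (norm_nonneg x)] using h2

theorem tc_tendsto_tcU {d : ℕ → ℝ} (hd : Tendsto d atTop (𝓝 0)) (x : Space) :
    Tendsto (fun n => tcU (d n) x) atTop (𝓝 (hyd x)) := by
  unfold tcU hyd
  exact ((Real.continuous_exp.tendsto _).comp (tc_tendsto_tcT hd x).neg).const_mul _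

/-- `u_δ = π^{-1/2} exp(-√(|x|²+δ²))` is smooth, `|u_δ| ≤ hyd`, `∇u_δ = - u_δ x/√(|x|²+δ²)`, `‖∇u_δ‖ ≤ hyd`:
`isH1_of_contDiff_memLp`; then `IsH1.of_tendsto` along `δ = 1/(n+1)` (dominated convergence, dominating function `4 hyd²`;
pointwise convergence of the gradients for `x ≠ 0`). -/
theorem isH1_hyd : IsH1 hyd hydGrad := by
  set d : ℕ → ℝ := fun n => 1 / ((n : ℝ) + 1) with hd
  have hdpos : ∀ n, 0 < d n := fun n => by positivity
  have hdlim : Tendsto d atTop (𝓝 0) := tendsto_one_div_add_atTop_nhds_zero_nat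
  have ih : Integrable (fun x => hyd x ^ 2) := tc_integrable_sq memLp_hyd
  refine IsH1.of_tendsto (fun n => isH1_tcU (hdpos n)) memLp_hyd memLp_hydGrad ?_ ?_
  · have : Tendsto (fun n => ∫ x, (tcU (d n) x - hyd x) ^ 2) atTop (𝓝 (∫ _x : Space, (0 : ℝ))) := by
      refine tendsto_integral_of_dominated_convergence (fun x => hyd x ^ 2) (fun n => ?_) ih
        (fun n => Eventually.of_forall fun x => ?_) (Eventually.of_forall fun x => ?_)
      · exact (((isH1_tcU (hdpos n)).1.1.sub memLp_hyd.1).pow 2)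
      · rw [Real.norm_eq_abs, abs_of_nonneg (sq_nonneg _)]
        have h1 := tcU_pos (d n) x
        have h2 := tcU_le_hyd (d n) x
        nlinarith
      · have := ((tc_tendsto_tcU hdlim x).sub_const (hyd x)).pow 2
        simpa using this
    simpa using this
  · have : Tendsto (fun n => ∫ x, ‖-(tcU (d n) x) • ((tcT (d n) x)⁻¹ • x) - hydGrad x‖ ^ 2) atTop
        (𝓝 (∫ _x : Space, (0 : ℝ))) := by
      refine tendsto_integral_of_dominated_convergence (fun x => 4 * hyd x ^ 2) (fun n => ?_) (ih.const_mul 4)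
        (fun n => Eventually.of_forall fun x => ?_) ?_
      · exact (((isH1_tcU (hdpos n)).2.1.1.sub memLp_hydGrad.1).norm.pow 2)
      · rw [Real.norm_eq_abs, abs_of_nonneg (sq_nonneg _)]
        have h1 := tc_norm_tcU_grad_le (d n) x
        have h2 := norm_hydGrad_le x
        have h3 := norm_sub_le (-(tcU (d n) x) • ((tcT (d n) x)⁻¹ • x)) (hydGrad x)
        have h4 := norm_nonneg (-(tcU (d n) x) • ((tcT (d n) x)⁻¹ • x) - hydGrad x)
        have h5 : ‖-(tcU (d n) x) • ((tcT (d n) x)⁻¹ • x) - hydGrad x‖ ≤ 2 * hyd x := by linarith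
        calc _ ≤ (2 * hyd x) ^ 2 := pow_le_pow_left₀ h4 h5 2
          _ = 4 * hyd x ^ 2 := by ring
      · filter_upwards [tc_ae_ne 0] with x hx
        have hx' : ‖x‖ ≠ 0 := norm_ne_zero_iff.2 hx
        have h1 : Tendsto (fun n => -(tcU (d n) x) • ((tcT (d n) x)⁻¹ • x)) atTop (𝓝 (hydGrad x)) := by
          unfold hydGrad
          exact (tc_tendsto_tcU hdlim x).neg.smul (((tc_tendsto_tcT hdlim x).inv₀ hx').smul_const x)
        have h2 := ((h1.sub_const (hydGrad x)).norm).pow 2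
        simpa using h2
    simpa using this

end H2

/-! ## TC-H3 (proved): `hyd` is the ground state -/

section H3

theorem tc_norm_unit {x : Space} (hx : x ≠ 0) : ‖‖x‖⁻¹ • x‖ = 1 := by
  rw [norm_smul, norm_inv, norm_norm, inv_mul_cancel₀ (norm_ne_zero_iff.2 hx)]

/-- `‖hydGrad‖² = hyd²` for `x ≠ 0`, and `∫ hyd²/|x| = - ∫ hyd ⟪hydGrad, x̂⟫ = ∫ hyd²` (`IsH1.integral_coulomb_eq`). -/
theorem hydQ_hyd : hydQ 0 hyd hydGrad = -(1 / 2) := by
  unfold hydQ
  rw [isH1_hyd.integral_coulomb_eq 0]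
  have e1 : ∫ x, ‖hydGrad x‖ ^ 2 = ∫ x, hyd x ^ 2 := by
    refine integral_congr_ae ?_
    filter_upwards [tc_ae_ne 0] with x hx
    unfold hydGrad
    rw [norm_smul, tc_norm_unit hx, mul_one, Real.norm_eq_abs, abs_neg, sq_abs]
  have e2 : ∫ x, hyd x * ⟪hydGrad x, ‖x - 0‖⁻¹ • (x - 0)⟫_ℝ = ∫ x, -(hyd x ^ 2) := by
    refine integral_congr_ae ?_
    filter_upwards [tc_ae_ne 0] with x hx
    unfold hydGrad
    rw [sub_zero, inner_smul_left, real_inner_self_eq_norm_sq, tc_norm_unit hx]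
    simp only [RCLike.conj_to_real]
    ring
  rw [e1, e2, integral_neg, integral_hyd_sq]
  norm_num

/-- `hyd` minimises `q_H + ½ ∫ f²` (`IsH1.hydQ_ge`, `nucForm_half_zero`): `tc_euler_lagrange` with the trivial class. -/
theorem isWeakEig_hyd : IsWeakEig (1 / 2) 0 (-(1 / 2)) hyd hydGrad := by
  refine ⟨isH1_hyd, fun g G hg => ?_⟩
  refine tc_euler_lagrange (S := fun _ => True) trivial (fun _ _ _ _ => trivial) (fun _ _ _ => trivial) isH1_hyd trivial
    ?_ (fun g G hg _ => ?_) g G hg trivial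
  · rw [nucForm_half_zero, hydQ_hyd, integral_hyd_sq, mul_one]
  · rw [nucForm_half_zero]
    exact hg.hydQ_ge 0

end H3

/-! ## TC-H4 (proved): eigenfunctions below `-1/8` are radial -/

section H4

variable {E : ℝ} {f : Space → ℝ} {F : Space → Space}

/-- an eigenfunction of the hydrogen form at a level `E < B` on which the form is `≥ B ∫ f²` vanishes. -/
theorem IsWeakEig.eq_zero_of_hydQ_ge (h : IsWeakEig (1 / 2) 0 E f F) {B : ℝ} (hE : E < B) (hc : Continuous f)
    (hB : B * (∫ x, f x ^ 2) ≤ hydQ 0 f F) (x : Space) : f x = 0 := by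
  rw [← nucForm_half_zero, h.form_self] at hB
  have h0 : 0 ≤ ∫ x, f x ^ 2 := integral_nonneg fun x => sq_nonneg _
  have h1 : ∫ x, f x ^ 2 = 0 := by nlinarith
  exact tc_eq_zero_of_continuous hc (tc_ae_zero_of_integral_sq h.1.1 h1) x

/-- step (a) of the header.  `A = reflection (ℝ ∙ v)ᗮ : Space ≃ₗᵢ[ℝ] Space`; `A x = x` if `⟪v, x⟫ = 0`
(`Submodule.mem_orthogonal_singleton_iff_inner_right`, `reflection_mem_subspace_eq_self`); unit normal `‖v‖⁻¹ • v`. -/
theorem IsWeakEig.comp_reflection_eq (h : IsWeakEig (1 / 2) 0 E f F) (hE : E < -(1 / 8)) (hc : Continuous f)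
    (hinf : Tendsto f (cocompact Space) (𝓝 0)) {v : Space} (hv : v ≠ 0) (x : Space) :
    f ((ℝ ∙ v)ᗮ.reflection x) = f x := by
  set A : Space ≃ₗᵢ[ℝ] Space := (ℝ ∙ v)ᗮ.reflection with hA
  have hg := (h.comp_isometry A (nuclearPotential_zero_isometry _ A)).sub h
  have hgc : Continuous (fun x => f (A x) - f x) := (hc.comp A.continuous).sub hc
  have hginf : Tendsto (fun x => f (A x) - f x) (cocompact Space) (𝓝 0) := by
    have h1 : Tendsto (fun x => f (A x)) (cocompact Space) (𝓝 0) :=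
      hinf.comp A.toHomeomorph.isClosedEmbedding.tendsto_cocompact
    simpa using h1.sub hinf
  have hv' : ‖v‖ ≠ 0 := norm_ne_zero_iff.2 hv
  have hB := hg.1.hydQ_ge_of_plane hgc hginf (a := ‖v‖⁻¹ • v)
    (by rw [norm_smul, norm_inv, norm_norm, inv_mul_cancel₀ hv']) (fun y hy => by
      rw [real_inner_smul_left] at hy
      have hy' : ⟪v, y⟫_ℝ = 0 := by
        rcases mul_eq_zero.1 hy with h1 | h1
        · exact absurd (inv_eq_zero.1 h1) hv'
        · exact h1
      have : A y = y := Submodule.reflection_mem_subspace_eq_self (Submodule.mem_orthogonal_singleton_iff_inner_right.2 hy')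
      rw [this, sub_self])
  have := hg.eq_zero_of_hydQ_ge hE hgc hB x
  linarith

/-- step (b): `reflection_sub : ‖x‖ = ‖y‖ → reflection (ℝ ∙ (x - y))ᗮ x = y`. -/
theorem IsWeakEig.radial (h : IsWeakEig (1 / 2) 0 E f F) (hE : E < -(1 / 8)) (hc : Continuous f)
    (hinf : Tendsto f (cocompact Space) (𝓝 0)) {x y : Space} (hxy : ‖x‖ = ‖y‖) : f x = f y := by
  by_cases hv : x - y = 0
  · rw [sub_eq_zero.1 hv]
  · have := h.comp_reflection_eq hE hc hinf hv x
    rw [Submodule.reflection_sub hxy] at this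
    exact this.symm

end H4

/-! ## TC-H5 (proved): the gap -/

section H5

variable {f : Space → ℝ} {F : Space → Space}

/-- step (c) of the header. -/
theorem IsWeakEig.not_lt_of_orth {E : ℝ} (h : IsWeakEig (1 / 2) 0 E f F) (hE : E < -(1 / 8)) (hc : Continuous f)
    (hinf : Tendsto f (cocompact Space) (𝓝 0)) (hn : ∫ x, f x ^ 2 = 1) (ho : ∫ x, f x * hyd x = 0) : False := by
  obtain ⟨x₂, hx₂⟩ : ∃ x₂ : Space, ‖x₂‖ = 2 := by
    obtain ⟨x, hx⟩ := exists_norm_eq Space (c := 2) (by norm_num)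
    exact ⟨x, hx⟩
  set α : ℝ := f x₂ / hyd x₂ with hα
  have hg : IsH1 (fun x => f x + (-α) * hyd x) (fun x => F x + (-α) • hydGrad x) := h.1.add (isH1_hyd.const_mul (-α))
  have hgc : Continuous (fun x => f x + (-α) * hyd x) := hc.add (continuous_const.mul continuous_hyd)
  have hginf : Tendsto (fun x => f x + (-α) * hyd x) (cocompact Space) (𝓝 0) := by
    simpa using hinf.add (tendsto_hyd_cocompact.const_mul (-α))
  have hB := hg.hydQ_ge_of_sphere hgc hginf (fun x hx => by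
    have h1 : f x = f x₂ := h.radial hE hc hinf (hx.trans hx₂.symm)
    have h2 : hyd x = hyd x₂ := hyd_eq_of_norm_eq (hx.trans hx₂.symm)
    rw [h1, h2, hα]
    have := (hyd_pos x₂).ne'
    field_simp
    ring)
  -- the integrals
  have i1 : Integrable (fun x => f x ^ 2) := tc_integrable_sq h.1.1
  have i2 : Integrable (fun x => f x * hyd x) := tc_integrable_mul h.1.1 memLp_hyd
  have i3 : Integrable (fun x => hyd x ^ 2) := tc_integrable_sq memLp_hyd
  have e1 : ∫ x, (f x + (-α) * hyd x) * f x = 1 := by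
    have : ∀ x, (f x + (-α) * hyd x) * f x = f x ^ 2 + (-α) * (f x * hyd x) := fun x => by ring
    simp_rw [this]
    rw [integral_add i1 (i2.const_mul _), integral_const_mul, hn, ho]
    ring
  have e2 : ∫ x, (f x + (-α) * hyd x) * hyd x = -α := by
    have : ∀ x, (f x + (-α) * hyd x) * hyd x = f x * hyd x + (-α) * hyd x ^ 2 := fun x => by ring
    simp_rw [this]
    rw [integral_add i2 (i3.const_mul _), integral_const_mul, integral_hyd_sq, ho]
    ring
  have e3 : ∫ x, (f x + (-α) * hyd x) ^ 2 = 1 + α ^ 2 := by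
    have : ∀ x, (f x + (-α) * hyd x) ^ 2
        = (f x + (-α) * hyd x) * f x + (-α) * ((f x + (-α) * hyd x) * hyd x) := fun x => by ring
    simp_rw [this]
    rw [integral_add (tc_integrable_mul hg.1 h.1.1) ((tc_integrable_mul hg.1 memLp_hyd).const_mul _),
      integral_const_mul, e1, e2]
    ring
  have e4 : hydQ 0 (fun x => f x + (-α) * hyd x) (fun x => F x + (-α) • hydGrad x) = E - α ^ 2 / 2 := by
    rw [← nucForm_half_zero, nucForm_add_left _ _ h.1 (isH1_hyd.const_mul (-α)) hg, nucForm_smul_left,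
      nucForm_comm _ _ f, nucForm_comm _ _ hyd, h.2 _ _ hg, isWeakEig_hyd.2 _ _ hg, e1, e2]
    ring
  rw [e3, e4] at hB
  nlinarith [sq_nonneg α]

theorem hyd_gap_zero (hf : IsH1 f F) (ho : ∫ x, f x * hyd x = 0) : -(1 / 8) * (∫ x, f x ^ 2) ≤ hydQ 0 f F := by
  by_contra hcon
  rw [not_le] at hcon
  have h0 : 0 ≤ ∫ x, f x ^ 2 := integral_nonneg fun x => sq_nonneg _
  obtain ⟨E, u, U, -, hu, huo, hun, hmin⟩ := tc_exists_ground_orth (Z := 1 / 2) (R := 0) (by norm_num) isWeakEig_hyd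
    integral_hyd_sq hf ho (by rw [nucForm_half_zero]; linarith)
  have h1 := hmin f F hf ho
  rw [nucForm_half_zero] at h1
  have hE : E < -(1 / 8) := by
    by_contra hE
    rw [not_lt] at hE
    nlinarith
  obtain ⟨u', hc, hae, hinf, hu'⟩ := hu.exists_continuous_rep
  refine hu'.not_lt_of_orth hE hc hinf ?_ ?_
  · rw [← hun]
    refine integral_congr_ae ?_
    filter_upwards [hae] with x hx
    rw [hx]
  · rw [← huo]
    refine integral_congr_ae ?_
    filter_upwards [hae] with x hx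
    rw [hx]

/-- translation (`IsH1.translate`, `hydQ_translate`, `integral_add_right_eq_self`). -/
theorem hyd_gap (c : Space) (hf : IsH1 f F) (ho : ∫ x, f x * hyd (x - c) = 0) :
    -(1 / 8) * (∫ x, f x ^ 2) ≤ hydQ c f F := by
  have h1 := hyd_gap_zero (hf.translate c) (by
    rw [← ho, ← integral_add_right_eq_self (fun x => f x * hyd (x - c)) c]
    simp only [add_sub_cancel_right])
  rw [hydQ_translate, integral_add_right_eq_self (fun x => f x ^ 2) c] at h1
  exact h1

end H5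

end Claimed.Open.R278
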