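import Claimed.Open.R278.TCForm

/-!
# Result 278, layer TC (Proposition 2.2), file 5: the vector field method for the hydrogen form

`hydQ 0 f F = ½ ∫ |F|² - ∫ f²/|x|`.  For `a ∈ ℝ` and a bounded `C¹` field `Y` expand `0 ≤ ∫ |F + a x̂ f - Y f|²`, `x̂ = x/|x|`:

  `0 ≤ ∫|F|² + a² ∫ f² - 2a ∫ f²/|x| + ∫ (|Y|² + div Y - 2a x̂·Y) f²`                          (`IsH1.vf_coulomb`)

using `∫ f ⟪F, x̂⟫ = - ∫ f²/|x|` (`IsH1.integral_coulomb_eq`, the divergence identity for the singular field `x̂`) and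
`-2 ∫ f ⟪F, Y⟫ = ∫ (div Y) f²` (`integral_div_field`).

* plane: `ψ = s e^{-r/2}`, `s = ⟪a⃗,x⟫` (the `2p` state): `a = 1/2`, `Y = p_ε(s) a⃗`, `p_ε(s) = s/(s²+ε²)`;
  `|Y|² + div Y - x̂·Y = ε²/(s²+ε²)² - 1/r + ε²/((s²+ε²) r)`.
* sphere: `ψ = (1 - r/2) e^{-r/2}` (the `2s` state): `a = 1`, `Y = -(x/2) p_ε(2 - t)`, `t = √(r²+δ²)`.
  With `h = -p_ε(2-t)/2`, `m = 2 - t`:  `1 + t²h² + 3h + t h' - 2 t h = 1/4 + ε² (m²/2 + 1 + 3ε²/4)/(m²+ε²)²`  (exact identity).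
* functions vanishing ON the plane/sphere: soft thresholding `f ↦ (f-ε)₊ - (-f-ε)₊` (`IsH1.hydQ_ge_of_node`).

All sections are proved: this file has no `sorry` of its own.
-/

open MeasureTheory Filter Topology Set
open scoped ContDiff InnerProductSpace

noncomputable section

namespace Claimed.Open.R278

variable {f : Space → ℝ} {F : Space → Space}

/-! ## TC-V1 (proved): the divergence identity for the field `x̂` -/

section V1

/-- the divergence identity for scalar `H¹` functions. -/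
theorem IsH1.integral_div (h : IsH1 f F) (c : Space) {W : Fin 3 → Space → ℝ} (hW : ∀ a, ContDiff ℝ 1 (W a)) {C : ℝ}
    (hb : ∀ a y, |W a y| ≤ C) (hd : ∀ a y, |fderiv ℝ (W a) y (eA a)| ≤ C) :
    ∫ x, (∑ a, fderiv ℝ (W a) (x - c) (eA a)) * f x ^ 2 = -2 * ∑ a, ∫ x, W a (x - c) * (f x * F x a) := by
  have := integral_div_field ℝ (μ := (volume : Measure Space)) (ℓ := ContinuousLinearMap.id ℝ Space) (v := eA)
    (fun a => rfl) c (fun a => h.wd2_coord a) hW hb hd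
  simpa [mul_comm] using this

theorem tc_inner_eq_sum (u v : Space) : ⟪u, v⟫_ℝ = ∑ a, u a * v a := by
  simp [PiLp.inner_apply, mul_comm]

theorem tc_ae_ne (c : Space) : ∀ᵐ x : Space, x ≠ c := by
  have : (volume : Measure Space) {c} = 0 := measure_singleton c
  rw [measure_eq_zero_iff_ae_notMem] at this
  filter_upwards [this] with x hx h
  exact hx (by simp [h])

theorem IsH1.integrable_mul_coord (h : IsH1 f F) (a : Fin 3) : Integrable (fun x => f x * F x a) :=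
  tc_integrable_mul h.1 (h.wd2_coord a).memg

theorem tc_coord_sq_le (y : Space) (a : Fin 3) : y a ^ 2 ≤ ‖y‖ ^ 2 := by
  rw [norm_sq_space]
  fin_cases a <;> simp <;> nlinarith [sq_nonneg (y 0), sq_nonneg (y 1), sq_nonneg (y 2)]

/-- `integral_div_field` with `ℓ = id`, `v = eA`, `W_a(y) = y_a/√(|y|²+δ²)` (`IsH1.wd2_coord`):
`∫ (2|y|²+3δ²)/(|y|²+δ²)^{3/2} f² = - 2 ∫ f ⟪F, y⟫/√(|y|²+δ²)`, `y = x - c`; let `δ = 1/(n+1) → 0` by dominated convergence
(left: `≤ 3 f²/|y|`, integrable by `IsH1.coulomb`; right: `≤ |f| ‖F‖`). -/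
theorem IsH1.integral_coulomb_eq (h : IsH1 f F) (c : Space) :
    ∫ x, f x ^ 2 / ‖x - c‖ = - ∫ x, f x * ⟪F x, ‖x - c‖⁻¹ • (x - c)⟫_ℝ := by
  set ε : ℕ → ℝ := fun n => 1 / ((n : ℝ) + 1) with hεdef
  have hε : ∀ n, 0 < ε n := fun n => by positivity
  have hεlim : Tendsto ε atTop (𝓝 0) := tendsto_one_div_add_atTop_nhds_zero_nat
  have ht : ∀ n (y : Space), 0 < √(‖y‖ ^ 2 + ε n) := fun n y => Real.sqrt_pos.2 (by have := hε n; positivity)
  -- the identity for each `n`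
  have hid : ∀ n, ∫ x, (3 / √(‖x - c‖ ^ 2 + ε n) - ‖x - c‖ ^ 2 / (√(‖x - c‖ ^ 2 + ε n) * (‖x - c‖ ^ 2 + ε n))) * f x ^ 2
      = -2 * ∑ a, ∫ x, (x - c) a / √(‖x - c‖ ^ 2 + ε n) * (f x * F x a) := by
    intro n
    obtain ⟨k1, k2, k3, -⟩ := coulombField_facts (hε n)
    have hsε : 0 < √(ε n) := Real.sqrt_pos.2 (hε n)
    have hb : ∀ (a : Fin 3) (y : Space), |y a / √(‖y‖ ^ 2 + ε n)| ≤ 1 + 1 / √(ε n) := by
      intro a y
      have h1 : (y a / √(‖y‖ ^ 2 + ε n)) ^ 2 ≤ 1 :=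
        (Finset.single_le_sum (f := fun a => (y a / √(‖y‖ ^ 2 + ε n)) ^ 2) (fun i _ => sq_nonneg _)
          (Finset.mem_univ a)).trans (k3 y)
      have h2 : |y a / √(‖y‖ ^ 2 + ε n)| ≤ 1 := by
        rw [← sq_le_one_iff_abs_le_one]
        exact h1
      have : 0 ≤ 1 / √(ε n) := by positivity
      linarith
    have hd : ∀ (a : Fin 3) (y : Space), |fderiv ℝ (fun y : Space => y a / √(‖y‖ ^ 2 + ε n)) y (eA a)|
        ≤ 1 + 1 / √(ε n) := by
      intro a y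
      rw [k2 a y]
      have hty := ht n y
      have h1 : 0 ≤ y a ^ 2 / (√(‖y‖ ^ 2 + ε n) * (‖y‖ ^ 2 + ε n)) := by
        have := hε n
        positivity
      have h2 : y a ^ 2 / (√(‖y‖ ^ 2 + ε n) * (‖y‖ ^ 2 + ε n)) ≤ 1 / √(‖y‖ ^ 2 + ε n) := by
        have h3 : 0 < ‖y‖ ^ 2 + ε n := by have := hε n; positivity
        rw [div_le_div_iff₀ (by positivity) hty]
        have := tc_coord_sq_le y a
        have h4 := hε n
        nlinarith
      have h3 : 1 / √(‖y‖ ^ 2 + ε n) ≤ 1 / √(ε n) := by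
        apply one_div_le_one_div_of_le hsε
        apply Real.sqrt_le_sqrt
        have := sq_nonneg ‖y‖
        linarith
      rw [abs_le]
      constructor <;> linarith
    have := h.integral_div c k1 hb hd
    rw [← this]
    refine integral_congr_ae (Eventually.of_forall fun x => ?_)
    simp only [k2]
    have hs : ∑ a, (x - c) a ^ 2 = ‖x - c‖ ^ 2 := by rw [norm_sq_space, Fin.sum_univ_three]
    rw [Finset.sum_sub_distrib, ← Finset.sum_div, ← Finset.sum_div, hs]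
    simp only [Finset.sum_const, Finset.card_univ, Fintype.card_fin, nsmul_eq_mul]
    push_cast
    ring
  have htlim : ∀ y : Space, Tendsto (fun n => √(‖y‖ ^ 2 + ε n)) atTop (𝓝 ‖y‖) := by
    intro y
    have h1 : Tendsto (fun n => ‖y‖ ^ 2 + ε n) atTop (𝓝 (‖y‖ ^ 2 + 0)) := tendsto_const_nhds.add hεlim
    have h2 := (Real.continuous_sqrt.tendsto _).comp h1
    rw [add_zero, Real.sqrt_sq (norm_nonneg y)] at h2
    exact h2
  have hi := (h.coulomb c).1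
  have hc1 : ∀ n, Continuous (fun x : Space => √(‖x - c‖ ^ 2 + ε n)) := fun n => by fun_prop
  have hq : ∀ n (x : Space), 0 < ‖x - c‖ ^ 2 + ε n := fun n x => by have := hε n; positivity
  have hL : Tendsto (fun n => ∫ x, (3 / √(‖x - c‖ ^ 2 + ε n)
      - ‖x - c‖ ^ 2 / (√(‖x - c‖ ^ 2 + ε n) * (‖x - c‖ ^ 2 + ε n))) * f x ^ 2) atTop
      (𝓝 (∫ x, 2 * (f x ^ 2 / ‖x - c‖))) := by
    refine tendsto_integral_of_dominated_convergence (fun x => 3 * (f x ^ 2 / ‖x - c‖)) ?_ (hi.const_mul 3) ?_ ?_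
    · intro n
      refine AEStronglyMeasurable.mul (Continuous.aestronglyMeasurable ?_) (h.1.1.pow 2)
      exact (continuous_const.div (hc1 n) (fun x => (ht n _).ne')).sub
        ((by fun_prop : Continuous fun x : Space => ‖x - c‖ ^ 2).div ((hc1 n).mul (by fun_prop))
          (fun x => (mul_pos (ht n _) (hq n x)).ne'))
    · intro n
      filter_upwards [tc_ae_ne c] with x hx
      have hρ : 0 < ‖x - c‖ := norm_pos_iff.2 (sub_ne_zero.2 hx)
      have htx := ht n (x - c)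
      have hqx := hq n x
      have h1 : ‖x - c‖ ≤ √(‖x - c‖ ^ 2 + ε n) := by
        apply Real.le_sqrt_of_sq_le
        have := hε n
        linarith
      have h2 : 0 ≤ ‖x - c‖ ^ 2 / (√(‖x - c‖ ^ 2 + ε n) * (‖x - c‖ ^ 2 + ε n)) := by positivity
      have h3 : ‖x - c‖ ^ 2 / (√(‖x - c‖ ^ 2 + ε n) * (‖x - c‖ ^ 2 + ε n)) ≤ 1 / √(‖x - c‖ ^ 2 + ε n) := by
        rw [div_le_div_iff₀ (by positivity) htx]
        have := hε n
        nlinarith
      have h4 : 3 / √(‖x - c‖ ^ 2 + ε n) ≤ 3 / ‖x - c‖ := by gcongr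
      have h5 : 1 / √(‖x - c‖ ^ 2 + ε n) ≤ 3 / √(‖x - c‖ ^ 2 + ε n) := by gcongr; norm_num
      rw [Real.norm_eq_abs, abs_of_nonneg (mul_nonneg (by linarith) (sq_nonneg _))]
      have h6 : 3 * (f x ^ 2 / ‖x - c‖) = 3 / ‖x - c‖ * f x ^ 2 := by ring
      rw [h6]
      exact mul_le_mul_of_nonneg_right (by linarith) (sq_nonneg _)
    · filter_upwards [tc_ae_ne c] with x hx
      have hρ : 0 < ‖x - c‖ := norm_pos_iff.2 (sub_ne_zero.2 hx)
      have h1 : Tendsto (fun n => ‖x - c‖ ^ 2 + ε n) atTop (𝓝 (‖x - c‖ ^ 2 + 0)) := tendsto_const_nhds.add hεlim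
      have h2 := ((tendsto_const_nhds (x := (3 : ℝ))).div (htlim (x - c)) hρ.ne').sub
        ((tendsto_const_nhds (x := ‖x - c‖ ^ 2)).div ((htlim (x - c)).mul h1) (by positivity))
      have h3 := h2.mul_const (f x ^ 2)
      have h4 : (3 / ‖x - c‖ - ‖x - c‖ ^ 2 / (‖x - c‖ * (‖x - c‖ ^ 2 + 0))) * f x ^ 2 = 2 * (f x ^ 2 / ‖x - c‖) := by
        field_simp
        ring
      rw [h4] at h3
      exact h3
  have habs : ∀ (y : Space) (a : Fin 3) (e : ℝ), 0 ≤ e → |y a| ≤ √(‖y‖ ^ 2 + e) := by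
    intro y a e he
    apply Real.abs_le_sqrt
    have := tc_coord_sq_le y a
    linarith
  have hR : ∀ a, Tendsto (fun n => ∫ x, (x - c) a / √(‖x - c‖ ^ 2 + ε n) * (f x * F x a)) atTop
      (𝓝 (∫ x, (x - c) a / ‖x - c‖ * (f x * F x a))) := by
    intro a
    refine tendsto_integral_of_dominated_convergence (fun x => |f x * F x a|) ?_ (h.integrable_mul_coord a).abs ?_ ?_
    · intro n
      refine AEStronglyMeasurable.mul (Continuous.aestronglyMeasurable ?_) (h.integrable_mul_coord a).1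
      exact (by fun_prop : Continuous fun x : Space => (x - c) a).div (hc1 n) (fun x => (ht n _).ne')
    · intro n
      refine Eventually.of_forall fun x => ?_
      rw [norm_mul, Real.norm_eq_abs, Real.norm_eq_abs]
      refine mul_le_of_le_one_left (abs_nonneg _) ?_
      rw [abs_div, abs_of_pos (ht n _)]
      exact div_le_one_of_le₀ (habs _ _ _ (hε n).le) (ht n _).le
    · filter_upwards [tc_ae_ne c] with x hx
      exact (tendsto_const_nhds.div (htlim _) (norm_ne_zero_iff.2 (sub_ne_zero.2 hx))).mul_const _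
  have hlim2 := (tendsto_finsetSum Finset.univ (fun a _ => hR a)).const_mul (-2)
  have heq := tendsto_nhds_unique hL ((funext hid) ▸ hlim2)
  have hint : ∀ a : Fin 3, Integrable (fun x => (x - c) a / ‖x - c‖ * (f x * F x a)) := by
    intro a
    refine (h.integrable_mul_coord a).abs.mono' ?_ (Eventually.of_forall fun x => ?_)
    · refine AEStronglyMeasurable.mul (Measurable.aestronglyMeasurable ?_) (h.integrable_mul_coord a).1
      exact (by fun_prop : Measurable fun x : Space => (x - c) a).div (by fun_prop)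
    · rw [norm_mul, Real.norm_eq_abs, Real.norm_eq_abs]
      refine mul_le_of_le_one_left (abs_nonneg _) ?_
      rw [abs_div, abs_of_nonneg (norm_nonneg _)]
      have := habs (x - c) a 0 le_rfl
      rw [add_zero, Real.sqrt_sq (norm_nonneg _)] at this
      exact div_le_one_of_le₀ this (norm_nonneg _)
  rw [integral_const_mul, ← integral_finsetSum _ (fun a _ => hint a)] at heq
  have e2 : ∫ x, ∑ a, (x - c) a / ‖x - c‖ * (f x * F x a) = ∫ x, f x * ⟪F x, ‖x - c‖⁻¹ • (x - c)⟫_ℝ := by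
    refine integral_congr_ae (Eventually.of_forall fun x => ?_)
    simp only [tc_inner_eq_sum, Finset.mul_sum]
    refine Finset.sum_congr rfl fun a _ => ?_
    simp only [PiLp.smul_apply, smul_eq_mul, div_eq_mul_inv]
    ring
  rw [e2] at heq
  linarith

end V1

/-! ## TC-V2 (proved): the vector field inequality -/

section V2

theorem tc_abs_coord_div_le (x : Space) (i : Fin 3) : |x i / ‖x‖| ≤ 1 := by
  rw [abs_div, abs_of_nonneg (norm_nonneg _)]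
  have h1 : |x i| ≤ √(‖x‖ ^ 2) := Real.abs_le_sqrt (tc_coord_sq_le x i)
  rw [Real.sqrt_sq (norm_nonneg _)] at h1
  exact div_le_one_of_le₀ h1 (norm_nonneg _)

/-- see the header.  All integrands are integrable: `f², ‖F‖², f ‖F‖` and `f²/|x|` (`IsH1.coulomb`), `Y` and `div Y` bounded and
continuous.  The pointwise hypothesis is only needed where `f ≠ 0` and `x ≠ 0`. -/
theorem IsH1.vf_coulomb (h : IsH1 f F) (a : ℝ) {Y : Fin 3 → Space → ℝ} (hY : ∀ i, ContDiff ℝ 1 (Y i)) {C : ℝ}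
    (hb : ∀ i y, |Y i y| ≤ C) (hd : ∀ i y, |fderiv ℝ (Y i) y (eA i)| ≤ C) {c₀ c₁ : ℝ}
    (hpt : ∀ x, f x ≠ 0 → x ≠ 0 →
      ∑ i, Y i x ^ 2 + ∑ i, fderiv ℝ (Y i) x (eA i) - 2 * a * (∑ i, Y i x * x i) / ‖x‖ ≤ c₀ + c₁ / ‖x‖) :
    0 ≤ (∫ x, ‖F x‖ ^ 2) + (a ^ 2 + c₀) * (∫ x, f x ^ 2) - (2 * a - c₁) * ∫ x, f x ^ 2 / ‖x‖ := by
  have hC : 0 ≤ C := (abs_nonneg _).trans (hb 0 0)
  have iF := tc_integrable_norm_sq h.2.1
  have if2 := tc_integrable_sq h.1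
  have ic : Integrable (fun x => f x ^ 2 / ‖x‖) := by simpa using (h.coulomb 0).1
  have hYc : ∀ i, Continuous (Y i) := fun i => (hY i).continuous
  have hdc : ∀ i, Continuous (fun x => fderiv ℝ (Y i) x (eA i)) := fun i =>
    ((hY i).continuous_fderiv (by norm_num)).clm_apply continuous_const
  -- integrability of the pieces
  have i1 : ∀ i, Integrable (fun x => x i / ‖x‖ * (f x * F x i)) := by
    intro i
    refine (h.integrable_mul_coord i).bdd_mul (c := 1) (Measurable.aestronglyMeasurable ?_)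
      (Eventually.of_forall fun x => ?_)
    · exact (by fun_prop : Measurable fun x : Space => x i).div (by fun_prop)
    · rw [Real.norm_eq_abs]; exact tc_abs_coord_div_le x i
  have i2 : ∀ i, Integrable (fun x => Y i x * (f x * F x i)) := fun i =>
    (h.integrable_mul_coord i).bdd_mul (c := C) (hYc i).aestronglyMeasurable
      (Eventually.of_forall fun x => by rw [Real.norm_eq_abs]; exact hb i x)
  have i3 : ∀ i, Integrable (fun x => Y i x ^ 2 * f x ^ 2) := fun i =>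
    if2.bdd_mul (c := C ^ 2) ((hYc i).pow 2).aestronglyMeasurable
      (Eventually.of_forall fun x => by
        rw [Real.norm_eq_abs, abs_pow]
        exact pow_le_pow_left₀ (abs_nonneg _) (hb i x) 2)
  have i4 : ∀ i, Integrable (fun x => fderiv ℝ (Y i) x (eA i) * f x ^ 2) := fun i =>
    if2.bdd_mul (c := C) (hdc i).aestronglyMeasurable
      (Eventually.of_forall fun x => by rw [Real.norm_eq_abs]; exact hd i x)
  have i5 : ∀ i, Integrable (fun x => Y i x * (x i / ‖x‖) * f x ^ 2) := by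
    intro i
    refine if2.bdd_mul (c := C * 1) (AEStronglyMeasurable.mul (hYc i).aestronglyMeasurable
      (Measurable.aestronglyMeasurable ?_)) (Eventually.of_forall fun x => ?_)
    · exact (by fun_prop : Measurable fun x : Space => x i).div (by fun_prop)
    · rw [Real.norm_eq_abs, abs_mul]
      exact mul_le_mul (hb i x) (tc_abs_coord_div_le x i) (abs_nonneg _) hC
  -- the two identities
  have id1 : ∫ x, f x ^ 2 / ‖x‖ = -∑ i, ∫ x, x i / ‖x‖ * (f x * F x i) := by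
    have := h.integral_coulomb_eq 0
    simp only [sub_zero] at this
    rw [this, ← integral_finsetSum _ (fun i _ => i1 i)]
    congr 1
    refine integral_congr_ae (Eventually.of_forall fun x => ?_)
    simp only [tc_inner_eq_sum, Finset.mul_sum]
    refine Finset.sum_congr rfl fun i _ => ?_
    simp only [PiLp.smul_apply, smul_eq_mul, div_eq_mul_inv]
    ring
  have id2 : ∑ i, ∫ x, fderiv ℝ (Y i) x (eA i) * f x ^ 2 = -2 * ∑ i, ∫ x, Y i x * (f x * F x i) := by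
    have := h.integral_div 0 hY hb hd
    simp only [sub_zero] at this
    rw [← this, ← integral_finsetSum _ (fun i _ => i4 i)]
    refine integral_congr_ae (Eventually.of_forall fun x => ?_)
    simp only [Finset.sum_mul]
  -- the square
  have hsq : 0 ≤ ∫ x, (‖F x‖ ^ 2 + a ^ 2 * f x ^ 2 + 2 * a * ∑ i, x i / ‖x‖ * (f x * F x i)
      - 2 * ∑ i, Y i x * (f x * F x i) + ∑ i, Y i x ^ 2 * f x ^ 2
      - 2 * a * ∑ i, Y i x * (x i / ‖x‖) * f x ^ 2) := by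
    refine integral_nonneg_of_ae ?_
    filter_upwards [tc_ae_ne 0] with x hx
    have hρ : 0 < ‖x‖ := norm_pos_iff.2 hx
    have hx1 : (x 0 / ‖x‖) ^ 2 + (x 1 / ‖x‖) ^ 2 + (x 2 / ‖x‖) ^ 2 = 1 := by
      rw [div_pow, div_pow, div_pow, ← add_div, ← add_div, ← norm_sq_space, div_self (by positivity)]
    simp only [Pi.zero_apply, Fin.sum_univ_three, norm_sq_space (F x)]
    generalize x 0 / ‖x‖ = e0 at *
    generalize x 1 / ‖x‖ = e1 at *
    generalize x 2 / ‖x‖ = e2 at *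
    have : (F x 0) ^ 2 + (F x 1) ^ 2 + (F x 2) ^ 2 + a ^ 2 * f x ^ 2
        + 2 * a * (e0 * (f x * F x 0) + e1 * (f x * F x 1) + e2 * (f x * F x 2))
        - 2 * (Y 0 x * (f x * F x 0) + Y 1 x * (f x * F x 1) + Y 2 x * (f x * F x 2))
        + (Y 0 x ^ 2 * f x ^ 2 + Y 1 x ^ 2 * f x ^ 2 + Y 2 x ^ 2 * f x ^ 2)
        - 2 * a * (Y 0 x * e0 * f x ^ 2 + Y 1 x * e1 * f x ^ 2 + Y 2 x * e2 * f x ^ 2)
        = (F x 0 + a * f x * e0 - f x * Y 0 x) ^ 2 + (F x 1 + a * f x * e1 - f x * Y 1 x) ^ 2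
          + (F x 2 + a * f x * e2 - f x * Y 2 x) ^ 2 := by
      linear_combination (-(a ^ 2 * f x ^ 2)) * hx1
    rw [this]
    positivity
  have jA : Integrable (fun x => ∑ i, x i / ‖x‖ * (f x * F x i)) := integrable_finsetSum _ fun i _ => i1 i
  have jB : Integrable (fun x => ∑ i, Y i x * (f x * F x i)) := integrable_finsetSum _ fun i _ => i2 i
  have jC : Integrable (fun x => ∑ i, Y i x ^ 2 * f x ^ 2) := integrable_finsetSum _ fun i _ => i3 i
  have jD : Integrable (fun x => ∑ i, Y i x * (x i / ‖x‖) * f x ^ 2) := integrable_finsetSum _ fun i _ => i5 i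
  have jE : Integrable (fun x => ∑ i, fderiv ℝ (Y i) x (eA i) * f x ^ 2) := integrable_finsetSum _ fun i _ => i4 i
  have I2 : Integrable (fun x => ‖F x‖ ^ 2 + a ^ 2 * f x ^ 2) := iF.add (if2.const_mul (a ^ 2))
  have I3 : Integrable (fun x => ‖F x‖ ^ 2 + a ^ 2 * f x ^ 2 + 2 * a * ∑ i, x i / ‖x‖ * (f x * F x i)) :=
    I2.add (jA.const_mul (2 * a))
  have I4 : Integrable (fun x => ‖F x‖ ^ 2 + a ^ 2 * f x ^ 2 + 2 * a * ∑ i, x i / ‖x‖ * (f x * F x i)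
      - 2 * ∑ i, Y i x * (f x * F x i)) := I3.sub (jB.const_mul 2)
  have I5 : Integrable (fun x => ‖F x‖ ^ 2 + a ^ 2 * f x ^ 2 + 2 * a * ∑ i, x i / ‖x‖ * (f x * F x i)
      - 2 * ∑ i, Y i x * (f x * F x i) + ∑ i, Y i x ^ 2 * f x ^ 2) := I4.add jC
  have J2 : Integrable (fun x => ∑ i, Y i x ^ 2 * f x ^ 2 + ∑ i, fderiv ℝ (Y i) x (eA i) * f x ^ 2) := jC.add jE
  have J3 : Integrable (fun x => ∑ i, Y i x ^ 2 * f x ^ 2 + ∑ i, fderiv ℝ (Y i) x (eA i) * f x ^ 2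
      - 2 * a * ∑ i, Y i x * (x i / ‖x‖) * f x ^ 2) := J2.sub (jD.const_mul (2 * a))
  have J4 : Integrable (fun x => c₀ * f x ^ 2 + c₁ * (f x ^ 2 / ‖x‖)) := (if2.const_mul c₀).add (ic.const_mul c₁)
  have split : ∫ x, (‖F x‖ ^ 2 + a ^ 2 * f x ^ 2 + 2 * a * ∑ i, x i / ‖x‖ * (f x * F x i)
      - 2 * ∑ i, Y i x * (f x * F x i) + ∑ i, Y i x ^ 2 * f x ^ 2
      - 2 * a * ∑ i, Y i x * (x i / ‖x‖) * f x ^ 2)
      = (∫ x, ‖F x‖ ^ 2) + a ^ 2 * (∫ x, f x ^ 2) + 2 * a * (∫ x, ∑ i, x i / ‖x‖ * (f x * F x i))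
        - 2 * (∫ x, ∑ i, Y i x * (f x * F x i)) + (∫ x, ∑ i, Y i x ^ 2 * f x ^ 2)
        - 2 * a * ∫ x, ∑ i, Y i x * (x i / ‖x‖) * f x ^ 2 := by
    rw [integral_sub I5 (jD.const_mul (2 * a)), integral_add I4 jC, integral_sub I3 (jB.const_mul 2),
      integral_add I2 (jA.const_mul (2 * a)), integral_add iF (if2.const_mul (a ^ 2)), integral_const_mul,
      integral_const_mul, integral_const_mul, integral_const_mul]
  rw [split, integral_finsetSum _ (fun i _ => i1 i), integral_finsetSum _ (fun i _ => i2 i)] at hsq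
  -- the pointwise bound
  have hbound : (∫ x, ∑ i, Y i x ^ 2 * f x ^ 2) + (∫ x, ∑ i, fderiv ℝ (Y i) x (eA i) * f x ^ 2)
      - 2 * a * (∫ x, ∑ i, Y i x * (x i / ‖x‖) * f x ^ 2) ≤ c₀ * (∫ x, f x ^ 2) + c₁ * ∫ x, f x ^ 2 / ‖x‖ := by
    rw [← integral_const_mul, ← integral_const_mul, ← integral_const_mul, ← integral_add jC jE,
      ← integral_sub J2 (jD.const_mul (2 * a)), ← integral_add (if2.const_mul c₀) (ic.const_mul c₁)]
    refine integral_mono_ae J3 J4 ?_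
    filter_upwards [tc_ae_ne 0] with x hx
    by_cases hfx : f x = 0
    · simp [hfx]
    · have h1 := hpt x hfx hx
      have h2 := mul_le_mul_of_nonneg_right h1 (sq_nonneg (f x))
      simp only [← Finset.sum_mul]
      have e1 : ∑ i, Y i x * (x i / ‖x‖) = (∑ i, Y i x * x i) / ‖x‖ := by
        rw [Finset.sum_div]
        refine Finset.sum_congr rfl fun i _ => ?_
        ring
      rw [e1]
      calc (∑ i, Y i x ^ 2) * f x ^ 2 + (∑ i, fderiv ℝ (Y i) x (eA i)) * f x ^ 2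
            - 2 * a * ((∑ i, Y i x * x i) / ‖x‖ * f x ^ 2)
          = (∑ i, Y i x ^ 2 + ∑ i, fderiv ℝ (Y i) x (eA i) - 2 * a * (∑ i, Y i x * x i) / ‖x‖) * f x ^ 2 := by ring
        _ ≤ (c₀ + c₁ / ‖x‖) * f x ^ 2 := h2
        _ = c₀ * f x ^ 2 + c₁ * (f x ^ 2 / ‖x‖) := by ring
  rw [integral_finsetSum _ (fun i _ => i4 i), id2] at hbound
  have hA : ∑ i, ∫ x, x i / ‖x‖ * (f x * F x i) = -∫ x, f x ^ 2 / ‖x‖ := by linarith
  rw [hA] at hsq
  linarith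

end V2

/-! ## TC-V3 (proved): the regularised `1/s` -/

section V3

/-- `p_ε(s) = s/(s²+ε²)`. -/
def tcP (ε s : ℝ) : ℝ := s / (s ^ 2 + ε ^ 2)

/-- its derivative. -/
def tcP' (ε s : ℝ) : ℝ := (ε ^ 2 - s ^ 2) / (s ^ 2 + ε ^ 2) ^ 2

variable {ε : ℝ}

theorem tcP_den_pos (hε : 0 < ε) (s : ℝ) : 0 < s ^ 2 + ε ^ 2 := by positivity

theorem tcP_contDiff (hε : 0 < ε) : ContDiff ℝ ∞ (tcP ε) := by
  unfold tcP
  exact contDiff_id.div (by fun_prop) (fun s => (tcP_den_pos hε s).ne')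

theorem tcP_hasDerivAt (hε : 0 < ε) (s : ℝ) : HasDerivAt (tcP ε) (tcP' ε s) s := by
  have h1 : HasDerivAt (fun s : ℝ => s ^ 2 + ε ^ 2) (2 * s) s := by
    have := (hasDerivAt_pow 2 s).add_const (ε ^ 2)
    simpa using this
  have h2 := (hasDerivAt_id s).div h1 (tcP_den_pos hε s).ne'
  have e : (1 * (s ^ 2 + ε ^ 2) - id s * (2 * s)) / (s ^ 2 + ε ^ 2) ^ 2 = tcP' ε s := by
    unfold tcP'
    simp only [id]
    congr 1
    ring
  rw [e] at h2
  exact h2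

theorem abs_tcP_le (hε : 0 < ε) (s : ℝ) : |tcP ε s| ≤ 1 / (2 * ε) := by
  unfold tcP
  rw [abs_div, abs_of_pos (tcP_den_pos hε s), div_le_div_iff₀ (tcP_den_pos hε s) (by positivity)]
  nlinarith [sq_nonneg (|s| - ε), sq_abs s]

theorem abs_tcP_le_inv (hε : 0 < ε) (s : ℝ) : |tcP ε s| ≤ 1 / |s| := by
  unfold tcP
  rcases eq_or_ne s 0 with rfl | hs
  · simp
  · have hs' : 0 < |s| := abs_pos.2 hs
    rw [abs_div, abs_of_pos (tcP_den_pos hε s), div_le_div_iff₀ (tcP_den_pos hε s) hs']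
    nlinarith [sq_abs s, sq_nonneg ε]

theorem abs_tcP'_le (hε : 0 < ε) (s : ℝ) : |tcP' ε s| ≤ 1 / (s ^ 2 + ε ^ 2) := by
  unfold tcP'
  have hd := tcP_den_pos hε s
  rw [abs_div, abs_of_pos (by positivity : 0 < (s ^ 2 + ε ^ 2) ^ 2), div_le_div_iff₀ (by positivity) hd]
  have h1 : |ε ^ 2 - s ^ 2| ≤ s ^ 2 + ε ^ 2 := by
    rw [abs_le]
    constructor <;> nlinarith [sq_nonneg s, sq_nonneg ε]
  nlinarith

theorem tcP_riccati (_hε : 0 < ε) (s : ℝ) : tcP ε s ^ 2 + tcP' ε s = ε ^ 2 / (s ^ 2 + ε ^ 2) ^ 2 := by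
  unfold tcP tcP'
  rw [div_pow, ← add_div]
  congr 1
  ring

theorem tcP_mul_self (hε : 0 < ε) (s : ℝ) : tcP ε s * s = 1 - ε ^ 2 / (s ^ 2 + ε ^ 2) := by
  unfold tcP
  have hd := (tcP_den_pos hε s).ne'
  field_simp
  ring

end V3

/-! ## TC-V4 (proved): functions vanishing near a plane through the nucleus -/

section V4

theorem tc_nonneg_of_forall_small {X B e₀ : ℝ} (he₀ : 0 < e₀) (h : ∀ e, 0 < e → e ≤ e₀ → 0 ≤ X + e * B) :
    0 ≤ X := by
  by_contra hX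
  push Not at hX
  rcases le_or_gt B 0 with hB | hB
  · have := h e₀ he₀ le_rfl
    nlinarith
  · have h1 : 0 < -X / (2 * B) := by
      apply div_pos <;> linarith
    have h2 := h (min e₀ (-X / (2 * B))) (lt_min he₀ h1) (min_le_left _ _)
    have h3 : min e₀ (-X / (2 * B)) * B ≤ -X / (2 * B) * B := mul_le_mul_of_nonneg_right (min_le_right _ _) hB.le
    have h4 : -X / (2 * B) * B = -X / 2 := by
      field_simp
    linarith

theorem tc_sum_sq_coord (a : Space) : ∑ i, a i ^ 2 = ‖a‖ ^ 2 := by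
  rw [norm_sq_space, Fin.sum_univ_three]

theorem tc_abs_coord_le (a : Space) (i : Fin 3) : |a i| ≤ ‖a‖ := by
  have h1 : |a i| ≤ √(‖a‖ ^ 2) := Real.abs_le_sqrt (tc_coord_sq_le a i)
  rwa [Real.sqrt_sq (norm_nonneg _)] at h1

/-- `IsH1.vf_coulomb` with `a = 1/2`, `Y i x = tcP ε ⟪a,x⟫ * a i`, `c₀ = ε²/η⁴`, `c₁ = -1 + ε²/η²`:
`0 ≤ ∫|F|² + (1/4 + ε²/η⁴) ∫ f² - (2 - ε²/η²) ∫ f²/|x|` for every `ε > 0`; let `ε → 0`. -/
theorem IsH1.hydQ_ge_of_near_plane (h : IsH1 f F) {a : Space} (ha : ‖a‖ = 1) {η : ℝ} (hη : 0 < η)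
    (h0 : ∀ x, |⟪a, x⟫_ℝ| < η → f x = 0) : -(1 / 8) * (∫ x, f x ^ 2) ≤ hydQ 0 f F := by
  have key : ∀ e : ℝ, 0 < e → e ≤ 1 → 0 ≤ ((∫ x, ‖F x‖ ^ 2) + 1 / 4 * (∫ x, f x ^ 2) - 2 * ∫ x, f x ^ 2 / ‖x‖)
      + e * ((∫ x, f x ^ 2) / η ^ 4 + (∫ x, f x ^ 2 / ‖x‖) / η ^ 2) := by
    intro e he _
    obtain ⟨ε, hε, hεe⟩ : ∃ ε : ℝ, 0 < ε ∧ ε ^ 2 = e := ⟨√e, Real.sqrt_pos.2 he, Real.sq_sqrt he.le⟩
    have hder : ∀ (i : Fin 3) (x : Space), fderiv ℝ (fun x : Space => tcP ε ⟪a, x⟫_ℝ * a i) x (eA i)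
        = tcP' ε ⟪a, x⟫_ℝ * a i ^ 2 := by
      intro i x
      have hs : HasFDerivAt (fun x : Space => ⟪a, x⟫_ℝ) (innerSL ℝ a) x := (innerSL ℝ a).hasFDerivAt
      have h1 := ((tcP_hasDerivAt hε ⟪a, x⟫_ℝ).comp_hasFDerivAt x hs).mul_const (a i)
      have h2 : fderiv ℝ (fun x : Space => tcP ε ⟪a, x⟫_ℝ * a i) x = a i • tcP' ε ⟪a, x⟫_ℝ • innerSL ℝ a := h1.fderiv
      rw [h2]
      have h3 : ⟪a, eA i⟫_ℝ = a i := by
        rw [tc_inner_eq_sum]
        simp [eA]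
      simp only [smul_apply, innerSL_apply_apply, h3, smul_eq_mul]
      ring
    have hai : ∀ i, |a i| ≤ 1 := fun i => ha ▸ tc_abs_coord_le a i
    have := h.vf_coulomb (1 / 2) (Y := fun i x => tcP ε ⟪a, x⟫_ℝ * a i) (C := 1 / (2 * ε) + 1 / ε ^ 2)
      (c₀ := e / η ^ 4) (c₁ := -1 + e / η ^ 2)
      (fun i => (((tcP_contDiff hε).of_le (by exact_mod_cast le_top)).comp
        (contDiff_const.inner ℝ contDiff_id)).mul contDiff_const)
      (fun i y => by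
        rw [abs_mul]
        have h1 := abs_tcP_le hε ⟪a, y⟫_ℝ
        have h2 : 0 ≤ 1 / ε ^ 2 := by positivity
        have h3 : |tcP ε ⟪a, y⟫_ℝ| * |a i| ≤ 1 / (2 * ε) * 1 :=
          mul_le_mul h1 (hai i) (abs_nonneg _) (by positivity)
        linarith)
      (fun i y => by
        rw [hder, abs_mul, abs_pow]
        have h1 := abs_tcP'_le hε ⟪a, y⟫_ℝ
        have h2 : 1 / (⟪a, y⟫_ℝ ^ 2 + ε ^ 2) ≤ 1 / ε ^ 2 := by
          apply one_div_le_one_div_of_le (by positivity)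
          nlinarith [sq_nonneg ⟪a, y⟫_ℝ]
        have h3 : |a i| ^ 2 ≤ 1 := pow_le_one₀ (abs_nonneg _) (hai i)
        have h4 : |tcP' ε ⟪a, y⟫_ℝ| * |a i| ^ 2 ≤ 1 / ε ^ 2 * 1 :=
          mul_le_mul (h1.trans h2) h3 (by positivity) (by positivity)
        have h5 : 0 ≤ 1 / (2 * ε) := by positivity
        linarith)
      (fun x hfx hx => by
        have hρ : 0 < ‖x‖ := norm_pos_iff.2 hx
        have hs : η ≤ |⟪a, x⟫_ℝ| := by
          by_contra hcon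
          exact hfx (h0 x (not_le.1 hcon))
        simp only [hder, mul_pow, ← Finset.mul_sum, tc_sum_sq_coord, ha, one_pow, mul_one]
        have e1 : ∑ i, tcP ε ⟪a, x⟫_ℝ * a i * x i = tcP ε ⟪a, x⟫_ℝ * ⟪a, x⟫_ℝ := by
          rw [tc_inner_eq_sum, Finset.mul_sum]
          refine Finset.sum_congr rfl fun i _ => ?_
          ring
        rw [e1, tcP_mul_self hε, tcP_riccati hε, hεe]
        set s := ⟪a, x⟫_ℝ
        have hs2 : η ^ 2 ≤ s ^ 2 := by
          rw [← sq_abs s]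
          exact pow_le_pow_left₀ hη.le hs 2
        have b1 : e / (s ^ 2 + e) ^ 2 ≤ e / η ^ 4 := by
          apply div_le_div_of_nonneg_left he.le (by positivity)
          have : η ^ 4 = (η ^ 2) ^ 2 := by ring
          rw [this]
          apply pow_le_pow_left₀ (by positivity)
          linarith
        have b2 : e / (s ^ 2 + e) ≤ e / η ^ 2 := by
          apply div_le_div_of_nonneg_left he.le (by positivity)
          linarith
        have b3 : (e / (s ^ 2 + e)) / ‖x‖ ≤ (e / η ^ 2) / ‖x‖ := by gcongr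
        have e2 : 2 * (1 / 2) * (1 - e / (s ^ 2 + e)) / ‖x‖ = 1 / ‖x‖ - (e / (s ^ 2 + e)) / ‖x‖ := by ring
        have e3 : (-1 + e / η ^ 2) / ‖x‖ = -(1 / ‖x‖) + (e / η ^ 2) / ‖x‖ := by ring
        rw [e2, e3]
        linarith)
    have e4 : (∫ x, ‖F x‖ ^ 2) + ((1 / 2) ^ 2 + e / η ^ 4) * (∫ x, f x ^ 2)
        - (2 * (1 / 2) - (-1 + e / η ^ 2)) * ∫ x, f x ^ 2 / ‖x‖
        = ((∫ x, ‖F x‖ ^ 2) + 1 / 4 * (∫ x, f x ^ 2) - 2 * ∫ x, f x ^ 2 / ‖x‖)
      + e * ((∫ x, f x ^ 2) / η ^ 4 + (∫ x, f x ^ 2 / ‖x‖) / η ^ 2) := by ring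
    rw [← e4]
    exact this
  have := tc_nonneg_of_forall_small one_pos key
  unfold hydQ
  simp only [sub_zero]
  linarith

end V4

/-! ## TC-V5 (proved): the field for the sphere `|x| = 2` -/

section V5

/-- `t = √(|x|²+δ²)`. -/
def tcT (δ : ℝ) (x : Space) : ℝ := √(‖x‖ ^ 2 + δ ^ 2)

/-- `Y = -(x/2) p_ε(2 - t)`. -/
def tcY (ε δ : ℝ) (i : Fin 3) (x : Space) : ℝ := -(1 / 2) * tcP ε (2 - tcT δ x) * x i

variable {ε δ : ℝ}

theorem tcT_pos (hδ : 0 < δ) (x : Space) : 0 < tcT δ x := Real.sqrt_pos.2 (by positivity)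

theorem tcT_sq (δ : ℝ) (x : Space) : tcT δ x ^ 2 = ‖x‖ ^ 2 + δ ^ 2 := Real.sq_sqrt (by positivity)

theorem tcT_contDiff (hδ : 0 < δ) : ContDiff ℝ ∞ (tcT δ) := by
  unfold tcT
  exact ((contDiff_norm_sq ℝ).add contDiff_const).sqrt (fun x => by positivity)

theorem tcT_hasFDerivAt (hδ : 0 < δ) (x : Space) :
    HasFDerivAt (tcT δ) ((1 / (2 * tcT δ x)) • (2 • innerSL ℝ x)) x := by
  have h1 : HasFDerivAt (fun y : Space => ‖y‖ ^ 2 + δ ^ 2) (2 • innerSL ℝ x) x :=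
    (hasStrictFDerivAt_norm_sq x).hasFDerivAt.add_const _
  exact h1.sqrt (by positivity)

theorem tcY_contDiff (hε : 0 < ε) (hδ : 0 < δ) (i : Fin 3) : ContDiff ℝ 1 (tcY ε δ i) := by
  unfold tcY
  have h1 : ContDiff ℝ 1 (fun x : Space => tcP ε (2 - tcT δ x)) :=
    ((tcP_contDiff hε).comp (contDiff_const.sub (tcT_contDiff hδ))).of_le (by exact_mod_cast le_top)
  have h2 : ContDiff ℝ 1 (fun x : Space => x i) := (EuclideanSpace.proj i : Space →L[ℝ] ℝ).contDiff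
  exact (contDiff_const.mul h1).mul h2

theorem tcY_fderiv (hε : 0 < ε) (hδ : 0 < δ) (i : Fin 3) (x : Space) :
    fderiv ℝ (tcY ε δ i) x (eA i)
      = -(1 / 2) * tcP ε (2 - tcT δ x) + (1 / 2) * tcP' ε (2 - tcT δ x) * x i ^ 2 / tcT δ x := by
  have ht := tcT_pos hδ x
  have h1 : HasFDerivAt (fun y : Space => 2 - tcT δ y) (-((1 / (2 * tcT δ x)) • (2 • innerSL ℝ x))) x :=
    (tcT_hasFDerivAt hδ x).const_sub 2
  have h2 := (tcP_hasDerivAt hε (2 - tcT δ x)).comp_hasFDerivAt x h1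
  have h3 : HasFDerivAt (fun y : Space => y i) (EuclideanSpace.proj i : Space →L[ℝ] ℝ) x :=
    (EuclideanSpace.proj i : Space →L[ℝ] ℝ).hasFDerivAt
  have h4 := (h2.const_mul (-(1 / 2) : ℝ)).mul h3
  have h5 : fderiv ℝ (tcY ε δ i) x = _ := h4.fderiv
  rw [h5]
  have h6 : ⟪x, eA i⟫_ℝ = x i := by
    rw [tc_inner_eq_sum]
    simp [eA]
  have h7 : (EuclideanSpace.proj i : Space →L[ℝ] ℝ) (eA i) = 1 := by simp [eA]
  simp only [add_apply, smul_apply, neg_apply, innerSL_apply_apply, h6, smul_eq_mul,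
    h7, Function.comp_apply, nsmul_eq_mul]
  field_simp
  ring

theorem tc_abs_tcP_mul_le (hε : 0 < ε) {t : ℝ} (ht : 0 ≤ t) : |tcP ε (2 - t)| * t ≤ 1 / ε + 1 := by
  have h1 := abs_tcP_le hε (2 - t)
  have h2 : |tcP ε (2 - t)| * |2 - t| ≤ 1 := by
    rw [← abs_mul, tcP_mul_self hε]
    have h3 : 0 ≤ ε ^ 2 / ((2 - t) ^ 2 + ε ^ 2) := by positivity
    have h4 : ε ^ 2 / ((2 - t) ^ 2 + ε ^ 2) ≤ 1 := by
      rw [div_le_one (tcP_den_pos hε _)]
      nlinarith [sq_nonneg (2 - t)]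
    rw [abs_le]
    constructor <;> linarith
  have h5 : t ≤ 2 + |2 - t| := by
    have := neg_abs_le (2 - t)
    linarith
  have h6 : 0 ≤ |tcP ε (2 - t)| := abs_nonneg _
  have h7 : 1 / (2 * ε) * 2 = 1 / ε := by
    field_simp
  calc |tcP ε (2 - t)| * t ≤ |tcP ε (2 - t)| * (2 + |2 - t|) := mul_le_mul_of_nonneg_left h5 h6
    _ = |tcP ε (2 - t)| * 2 + |tcP ε (2 - t)| * |2 - t| := by ring
    _ ≤ 1 / (2 * ε) * 2 + 1 := by linarith
    _ = _ := by rw [h7]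

theorem tc_abs_tcP'_mul_le (hε : 0 < ε) {t : ℝ} (ht : 0 ≤ t) : |tcP' ε (2 - t)| * t ≤ 2 / ε ^ 2 + 1 / (2 * ε) := by
  have h1 := abs_tcP'_le hε (2 - t)
  have hN := tcP_den_pos hε (2 - t)
  have h5 : t ≤ 2 + |2 - t| := by
    have := neg_abs_le (2 - t)
    linarith
  have h2 : 1 / ((2 - t) ^ 2 + ε ^ 2) ≤ 1 / ε ^ 2 := by
    apply one_div_le_one_div_of_le (by positivity)
    nlinarith [sq_nonneg (2 - t)]
  have h3 : 1 / ((2 - t) ^ 2 + ε ^ 2) * |2 - t| ≤ 1 / (2 * ε) := by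
    have := abs_tcP_le hε (2 - t)
    unfold tcP at this
    rw [abs_div, abs_of_pos hN] at this
    calc 1 / ((2 - t) ^ 2 + ε ^ 2) * |2 - t| = |2 - t| / ((2 - t) ^ 2 + ε ^ 2) := by ring
      _ ≤ _ := this
  calc |tcP' ε (2 - t)| * t ≤ 1 / ((2 - t) ^ 2 + ε ^ 2) * (2 + |2 - t|) :=
        mul_le_mul h1 h5 ht (by positivity)
    _ = 1 / ((2 - t) ^ 2 + ε ^ 2) * 2 + 1 / ((2 - t) ^ 2 + ε ^ 2) * |2 - t| := by ring
    _ ≤ 1 / ε ^ 2 * 2 + 1 / (2 * ε) := by linarith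
    _ = _ := by ring

/-- `|x| |p_ε(2-t)| ≤ t (…)`: for `t ≥ 4`, `|2 - t| ≥ t/2` so `|p| ≤ 2/t`; for `t ≤ 4`, `|p| ≤ 1/(2ε)`.
`t |p'| ≤ t/((2-t)²+ε²) ≤ 2/ε² + 1/(2ε)`. -/
theorem tcY_bdd (hε : 0 < ε) (hδ : 0 < δ) :
    ∃ C : ℝ, (∀ i x, |tcY ε δ i x| ≤ C) ∧ ∀ i x, |fderiv ℝ (tcY ε δ i) x (eA i)| ≤ C := by
  have hxt : ∀ (i : Fin 3) (x : Space), |x i| ≤ tcT δ x := by
    intro i x
    apply Real.abs_le_sqrt
    have := tc_coord_sq_le x i
    nlinarith [sq_nonneg δ]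
  have e1 : 0 ≤ 1 / ε := by positivity
  have e2 : 0 ≤ 2 / ε ^ 2 := by positivity
  refine ⟨1 / ε + 1 + 2 / ε ^ 2, fun i x => ?_, fun i x => ?_⟩
  · unfold tcY
    have ht := tcT_pos hδ x
    have h1 := tc_abs_tcP_mul_le hε ht.le
    rw [abs_mul, abs_mul]
    have h2 : |(-(1 / 2) : ℝ)| = 1 / 2 := by norm_num
    rw [h2]
    have h3 : |tcP ε (2 - tcT δ x)| * |x i| ≤ |tcP ε (2 - tcT δ x)| * tcT δ x :=
      mul_le_mul_of_nonneg_left (hxt i x) (abs_nonneg _)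
    nlinarith
  · rw [tcY_fderiv hε hδ]
    have ht := tcT_pos hδ x
    have h1 := abs_tcP_le hε (2 - tcT δ x)
    have h2 := tc_abs_tcP'_mul_le hε ht.le
    have h3 : x i ^ 2 / tcT δ x ≤ tcT δ x := by
      rw [div_le_iff₀ ht, ← sq_abs]
      have := hxt i x
      nlinarith [abs_nonneg (x i)]
    have h4 : 0 ≤ x i ^ 2 / tcT δ x := by positivity
    have h5 : |(1 / 2) * tcP' ε (2 - tcT δ x) * x i ^ 2 / tcT δ x| ≤ (1 / 2) * (2 / ε ^ 2 + 1 / (2 * ε)) := by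
      have : (1 / 2) * tcP' ε (2 - tcT δ x) * x i ^ 2 / tcT δ x
          = (1 / 2) * (tcP' ε (2 - tcT δ x) * (x i ^ 2 / tcT δ x)) := by ring
      rw [this, abs_mul, abs_mul, abs_of_nonneg h4, abs_of_pos (by norm_num : (0 : ℝ) < 1 / 2)]
      have : |tcP' ε (2 - tcT δ x)| * (x i ^ 2 / tcT δ x) ≤ |tcP' ε (2 - tcT δ x)| * tcT δ x :=
        mul_le_mul_of_nonneg_left h3 (abs_nonneg _)
      linarith
    have h6 : |-(1 / 2) * tcP ε (2 - tcT δ x)| ≤ (1 / 2) * (1 / (2 * ε)) := by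
      rw [abs_mul]
      have h2 : |(-(1 / 2) : ℝ)| = 1 / 2 := by norm_num
      rw [h2]
      linarith
    have h7 : 1 / (2 * ε) = (1 / 2) * (1 / ε) := by
      field_simp
    refine (abs_add_le _ _).trans ?_
    rw [h7] at h5 h6
    linarith

theorem tc_sphere_bracket (hδ : 0 < δ) (t : ℝ) :
    t ^ 2 * ((1 / 2) * tcP δ (2 - t)) ^ 2 - (3 / 2) * tcP δ (2 - t) + (1 / 2) * tcP' δ (2 - t) * t + t * tcP δ (2 - t)
      = -(3 / 4) + δ ^ 2 * ((2 - t) ^ 2 / 2 + 1 + 3 * δ ^ 2 / 4) / ((2 - t) ^ 2 + δ ^ 2) ^ 2 := by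
  unfold tcP tcP'
  have hN : (2 - t) ^ 2 + δ ^ 2 ≠ 0 := (tcP_den_pos hδ _).ne'
  field_simp
  ring

theorem tc_sphere_aux1 {M D : ℝ} (hM : 0 < M) (hD : 0 ≤ D) :
    (M / 2 + 1 + 3 * D / 4) / (M + D) ^ 2 ≤ 1 / M + (1 / M) ^ 2 := by
  have e1 : 1 / M + (1 / M) ^ 2 = (M + 1) / M ^ 2 := by
    field_simp
  rw [e1, div_le_div_iff₀ (by positivity) (by positivity)]
  have h1 : 0 ≤ M * D := mul_nonneg hM.le hD
  have h2 : 0 ≤ M * M * D := mul_nonneg (mul_nonneg hM.le hM.le) hD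
  have h3 : 0 ≤ M * D * D := mul_nonneg h1 hD
  have h4 : 0 ≤ D * D := mul_nonneg hD hD
  have h5 : 0 ≤ M * M * M := mul_nonneg (mul_nonneg hM.le hM.le) hM.le
  nlinarith

theorem tc_sphere_b1 {η m : ℝ} (hη : 0 < η) (hδ : 0 < δ) (hδ1 : δ ≤ 1) (hm2pos : 0 < m ^ 2)
    (inv1 : 1 / m ^ 2 ≤ 4 / η ^ 2) :
    δ ^ 2 * (m ^ 2 / 2 + 1 + 3 * δ ^ 2 / 4) / (m ^ 2 + δ ^ 2) ^ 2 ≤ (4 / η ^ 2 + 16 / η ^ 4) * δ := by
  have c1 := tc_sphere_aux1 hm2pos (sq_nonneg δ)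
  have c2 : 1 / m ^ 2 + (1 / m ^ 2) ^ 2 ≤ 4 / η ^ 2 + 16 / η ^ 4 := by
    have h0 : 0 ≤ 1 / m ^ 2 := by positivity
    have : (1 / m ^ 2) ^ 2 ≤ (4 / η ^ 2) ^ 2 := pow_le_pow_left₀ h0 inv1 2
    have e : (4 / η ^ 2) ^ 2 = 16 / η ^ 4 := by
      field_simp
      ring
    linarith
  have c3 : δ ^ 2 ≤ δ := by nlinarith
  have c5 : 0 ≤ (m ^ 2 / 2 + 1 + 3 * δ ^ 2 / 4) / (m ^ 2 + δ ^ 2) ^ 2 := by positivity
  calc δ ^ 2 * (m ^ 2 / 2 + 1 + 3 * δ ^ 2 / 4) / (m ^ 2 + δ ^ 2) ^ 2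
      = δ ^ 2 * ((m ^ 2 / 2 + 1 + 3 * δ ^ 2 / 4) / (m ^ 2 + δ ^ 2) ^ 2) := by ring
    _ ≤ δ * (4 / η ^ 2 + 16 / η ^ 4) := mul_le_mul c3 (c1.trans c2) c5 hδ.le
    _ = _ := by ring

theorem tc_sphere_b3 {η t p' : ℝ} (hη : 0 < η) (hδ : 0 < δ) (ht0 : 0 < t) (hδt : δ ≤ t) (c2 : |p'| ≤ 4 / η ^ 2) :
    -((1 / 2) * p' * (δ ^ 2 / t)) ≤ 2 / η ^ 2 * δ := by
  have c1 : δ ^ 2 / t ≤ δ := by
    rw [div_le_iff₀ ht0]
    nlinarith
  have c0 : 0 ≤ δ ^ 2 / t := by positivity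
  have c3 : -p' ≤ 4 / η ^ 2 := (neg_le_abs p').trans c2
  have c4 : 0 ≤ 4 / η ^ 2 := by positivity
  have c5 : -p' * (δ ^ 2 / t) ≤ 4 / η ^ 2 * δ :=
    (mul_le_mul_of_nonneg_right c3 c0).trans (mul_le_mul_of_nonneg_left c1 c4)
  calc -((1 / 2) * p' * (δ ^ 2 / t)) = (1 / 2) * (-p' * (δ ^ 2 / t)) := by ring
    _ ≤ (1 / 2) * (4 / η ^ 2 * δ) := by linarith
    _ = _ := by ring

theorem tc_sphere_b4 {η t r p : ℝ} (hη : 0 < η) (hrt : r ≤ t) (htr : t - r ≤ δ) (c : |p| ≤ 2 / η) :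
    -((t - r) * p) ≤ 2 / η * δ := by
  have c1 : -p ≤ 2 / η := (neg_le_abs p).trans c
  have c2 : 0 ≤ t - r := by linarith
  have c3 : 0 ≤ 2 / η := by positivity
  calc -((t - r) * p) = (t - r) * (-p) := by ring
    _ ≤ (t - r) * (2 / η) := mul_le_mul_of_nonneg_left c1 c2
    _ ≤ δ * (2 / η) := mul_le_mul_of_nonneg_right htr c3
    _ = _ := by ring

theorem tc_sphere_dec {r t p p' : ℝ} (ht0 : 0 < t) (ht2 : t ^ 2 = r ^ 2 + δ ^ 2) :
    r ^ 2 * ((1 / 2) * p) ^ 2 - (3 / 2) * p + (1 / 2) * p' * r ^ 2 / t + r * p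
      = (t ^ 2 * ((1 / 2) * p) ^ 2 - (3 / 2) * p + (1 / 2) * p' * t + t * p)
        - δ ^ 2 * ((1 / 2) * p) ^ 2 - (1 / 2) * p' * (δ ^ 2 / t) - (t - r) * p := by
  have : r ^ 2 = t ^ 2 - δ ^ 2 := by linarith
  rw [this]
  field_simp
  ring

/-- the pointwise inequality (pure real analysis; checked numerically).  With `m = 2 - t`, `p = tcP δ m`, `p' = tcP' δ m`, `h = -p/2`:
`LHS = [t²h² + 3h + t h' - 2 t h] - δ² h² - δ² h'/t + 2 (t - r) h`, the bracket is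
`-3/4 + δ² (m²/2 + 1 + 3δ²/4)/(m²+δ²)² ≤ -3/4 + δ² (1/m² + 1/m⁴)`; `0 ≤ t - r ≤ δ ≤ t`, `|m| ≥ η - δ ≥ η/2`, `|h'| ≤ 1/(2m²)`, `|h| ≤ 1/(2|m|)`. -/
theorem tc_sphere_real {η r t : ℝ} (hη : 0 < η) (hδ : 0 < δ) (hδ1 : δ ≤ 1) (hδη : δ ≤ η / 2) (hr : 0 ≤ r)
    (ht : t = √(r ^ 2 + δ ^ 2)) (hrη : η ≤ |r - 2|) :
    r ^ 2 * ((1 / 2) * tcP δ (2 - t)) ^ 2 - (3 / 2) * tcP δ (2 - t) + (1 / 2) * tcP' δ (2 - t) * r ^ 2 / t
      + r * tcP δ (2 - t) ≤ -(3 / 4) + (6 / η ^ 2 + 16 / η ^ 4 + 2 / η) * δ := by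
  have ht2 : t ^ 2 = r ^ 2 + δ ^ 2 := by rw [ht, Real.sq_sqrt (by positivity)]
  have ht0 : 0 < t := by rw [ht]; exact Real.sqrt_pos.2 (by positivity)
  have hδt : δ ≤ t := by nlinarith
  have hrt : r ≤ t := by nlinarith
  have htr : t - r ≤ δ := by nlinarith
  have hm : η / 2 ≤ |2 - t| := by
    have h1 : |r - 2| ≤ |2 - t| + (t - r) := by
      have : r - 2 = -(2 - t) + -(t - r) := by ring
      rw [this]
      refine (abs_add_le _ _).trans ?_
      rw [abs_neg, abs_neg, abs_of_nonneg (by linarith : 0 ≤ t - r)]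
    linarith
  have hmpos : 0 < |2 - t| := by linarith
  have hm2 : η ^ 2 / 4 ≤ (2 - t) ^ 2 := by
    rw [← sq_abs (2 - t)]
    nlinarith
  have hm2pos : 0 < (2 - t) ^ 2 := by nlinarith
  have inv1 : 1 / (2 - t) ^ 2 ≤ 4 / η ^ 2 := by
    rw [div_le_div_iff₀ hm2pos (by positivity)]
    linarith
  have inv2 : 1 / |2 - t| ≤ 2 / η := by
    rw [div_le_div_iff₀ hmpos hη]
    linarith
  have hp := (abs_tcP_le_inv hδ (2 - t)).trans inv2
  have hp' : |tcP' δ (2 - t)| ≤ 4 / η ^ 2 := by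
    refine (abs_tcP'_le hδ (2 - t)).trans (le_trans ?_ inv1)
    apply one_div_le_one_div_of_le hm2pos
    linarith [sq_nonneg δ]
  rw [tc_sphere_dec ht0 ht2, tc_sphere_bracket hδ t]
  have b1 := tc_sphere_b1 hη hδ hδ1 hm2pos inv1
  have b2 : 0 ≤ δ ^ 2 * ((1 / 2) * tcP δ (2 - t)) ^ 2 := by positivity
  have b3 := tc_sphere_b3 hη hδ ht0 hδt hp'
  have b4 := tc_sphere_b4 hη hrt htr hp
  have e : (6 / η ^ 2 + 16 / η ^ 4 + 2 / η) * δ = (4 / η ^ 2 + 16 / η ^ 4) * δ + 2 / η ^ 2 * δ + 2 / η * δ := by ring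
  rw [e]
  linarith

end V5

/-! ## TC-V6 (proved): functions vanishing near the sphere `|x| = 2` -/

section V6

/-- `IsH1.vf_coulomb` with `a = 1`, `Y = tcY δ δ`, `c₀ = -3/4 + K δ`, `c₁ = 0` (`tcY_fderiv`, `tc_sphere_real` with `r = ‖x‖`,
`∑ x_i² = ‖x‖²`): `0 ≤ ∫|F|² + (1/4 + K δ) ∫ f² - 2 ∫ f²/|x|` for all small `δ > 0`; let `δ → 0`. -/
theorem IsH1.hydQ_ge_of_near_sphere (h : IsH1 f F) {η : ℝ} (hη : 0 < η)
    (h0 : ∀ x, |‖x‖ - 2| < η → f x = 0) : -(1 / 8) * (∫ x, f x ^ 2) ≤ hydQ 0 f F := by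
  have key : ∀ e : ℝ, 0 < e → e ≤ min 1 (η / 2) →
      0 ≤ ((∫ x, ‖F x‖ ^ 2) + 1 / 4 * (∫ x, f x ^ 2) - 2 * ∫ x, f x ^ 2 / ‖x‖)
        + e * ((6 / η ^ 2 + 16 / η ^ 4 + 2 / η) * ∫ x, f x ^ 2) := by
    intro δ hδ hδle
    obtain ⟨C, hb, hd⟩ := tcY_bdd hδ hδ
    have := h.vf_coulomb 1 (Y := tcY δ δ) (C := C) (c₀ := -(3 / 4) + (6 / η ^ 2 + 16 / η ^ 4 + 2 / η) * δ) (c₁ := 0)
      (tcY_contDiff hδ hδ) hb hd (fun x hfx hx => by
        have hρ : 0 < ‖x‖ := norm_pos_iff.2 hx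
        have hs : η ≤ |‖x‖ - 2| := by
          by_contra hcon
          exact hfx (h0 x (not_le.1 hcon))
        have hreal := tc_sphere_real hη hδ (hδle.trans (min_le_left _ _)) (hδle.trans (min_le_right _ _))
          (norm_nonneg x) (t := tcT δ x) rfl hs
        have ht : 0 < tcT δ x := Real.sqrt_pos.2 (by positivity)
        have hr2 := norm_sq_space x
        simp only [tcY_fderiv hδ hδ, tcY, Fin.sum_univ_three]
        rw [zero_div, add_zero]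
        refine le_trans (le_of_eq ?_) hreal
        generalize tcP δ (2 - tcT δ x) = P
        generalize tcP' δ (2 - tcT δ x) = P'
        generalize tcT δ x = t at ht
        calc _ = (x 0 ^ 2 + x 1 ^ 2 + x 2 ^ 2) * ((1 / 2) * P) ^ 2 - (3 / 2) * P
              + (1 / 2) * P' * (x 0 ^ 2 + x 1 ^ 2 + x 2 ^ 2) / t + P * (x 0 ^ 2 + x 1 ^ 2 + x 2 ^ 2) / ‖x‖ := by ring
          _ = _ := by
              rw [← hr2]
              field_simp)
    have e4 : (∫ x, ‖F x‖ ^ 2) + (1 ^ 2 + (-(3 / 4) + (6 / η ^ 2 + 16 / η ^ 4 + 2 / η) * δ)) * (∫ x, f x ^ 2)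
        - (2 * 1 - 0) * ∫ x, f x ^ 2 / ‖x‖
        = ((∫ x, ‖F x‖ ^ 2) + 1 / 4 * (∫ x, f x ^ 2) - 2 * ∫ x, f x ^ 2 / ‖x‖)
        + δ * ((6 / η ^ 2 + 16 / η ^ 4 + 2 / η) * ∫ x, f x ^ 2) := by ring
    rw [← e4]
    exact this
  have := tc_nonneg_of_forall_small (lt_min one_pos (half_pos hη)) key
  unfold hydQ
  simp only [sub_zero]
  linarith

end V6

/-! ## TC-V7 (proved): soft thresholding -/

section V7

theorem tc_soft_abs_le {ε : ℝ} (hε : 0 < ε) (t : ℝ) : |max (t - ε) 0 - max (-t - ε) 0| ≤ |t| := by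
  rcases le_total t 0 with h | h
  · rw [max_eq_right (by linarith : t - ε ≤ 0), abs_of_nonpos h, zero_sub, abs_neg, abs_of_nonneg (le_max_right _ _)]
    exact max_le (by linarith) (by linarith)
  · rw [max_eq_right (by linarith : -t - ε ≤ 0), abs_of_nonneg h, sub_zero, abs_of_nonneg (le_max_right _ _)]
    exact max_le (by linarith) h

theorem tc_soft_sub_le {ε : ℝ} (hε : 0 < ε) (t : ℝ) : |max (t - ε) 0 - max (-t - ε) 0 - t| ≤ ε := by
  rw [abs_le]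
  rcases le_total (t - ε) 0 with h1 | h1 <;> rcases le_total (-t - ε) 0 with h2 | h2
  · rw [max_eq_right h1, max_eq_right h2]; constructor <;> linarith
  · rw [max_eq_right h1, max_eq_left h2]; constructor <;> linarith
  · rw [max_eq_left h1, max_eq_right h2]; constructor <;> linarith
  · rw [max_eq_left h1, max_eq_left h2]; constructor <;> linarith

theorem tc_soft_eq_zero {ε t : ℝ} (h : |t| < ε) : max (t - ε) 0 - max (-t - ε) 0 = 0 := by
  rw [abs_lt] at h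
  rw [max_eq_right (by linarith), max_eq_right (by linarith), sub_zero]

/-- the soft threshold `(f-ε)₊ - (-f-ε)₊` is in `H¹`, with gradient `1_{|f|>ε} F`
(`IsWeakGrad.sub` with `isWeakGrad_const`, `IsWeakGrad.posPart`, `IsWeakGrad.neg`; `L²` by domination `tc_memLp_of_abs_le`). -/
theorem IsH1.softThreshold (h : IsH1 f F) {ε : ℝ} (hε : 0 < ε) :
    IsH1 (fun x => max (f x - ε) 0 - max (-f x - ε) 0) (fun x => if ε < |f x| then F x else 0) := by
  have w1 := (h.2.2.sub (isWeakGrad_const ε)).posPart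
  have w2 := (h.2.2.neg.sub (isWeakGrad_const ε)).posPart
  have w3 := w1.sub w2
  have e : (fun x => (if 0 < f x - ε then F x - 0 else 0) - (if 0 < -f x - ε then -F x - 0 else 0))
      = fun x => if ε < |f x| then F x else 0 := by
    funext x
    by_cases h1 : 0 < f x - ε
    · rw [if_pos h1, if_neg (by linarith), if_pos (lt_of_lt_of_le (by linarith) (le_abs_self _))]
      simp
    · by_cases h2 : 0 < -f x - ε
      · rw [if_neg h1, if_pos h2, if_pos (lt_of_lt_of_le (by linarith) (neg_le_abs _))]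
        simp
      · rw [if_neg h1, if_neg h2, if_neg]
        · simp
        · rw [not_lt, abs_le]
          constructor <;> linarith
  rw [e] at w3
  refine ⟨?_, ?_, w3⟩
  · exact tc_memLp_of_abs_le h.1 w3.1.aestronglyMeasurable (Eventually.of_forall fun x => tc_soft_abs_le hε _)
  · refine tc_memLp_of_norm_le h.2.1 w3.2.1.aestronglyMeasurable (Eventually.of_forall fun x => ?_)
    split_ifs
    · exact le_rfl
    · simp

/-- `v_ε` = soft threshold of `f`.  `K_ε = {|f| ≥ ε}` is compact (`f → 0` at infinity) and `|ν| > 0` on it, so `|ν| ≥ η > 0` on `K_ε`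
(if `K_ε = ∅` any `η` works) and `v_ε = 0` where `|ν| < η`.  By `H`: `-λ ∫ v_ε² + ∫ v_ε²/|x| ≤ ½ ∫ |∇v_ε|² ≤ ½ ∫ |F|²`; `|v_ε| ≤ |f|`,
`v_ε → f` pointwise: dominated convergence along `ε = 1/(n+1)`. -/
theorem IsH1.hydQ_ge_of_node (h : IsH1 f F) (hc : Continuous f) (hinf : Tendsto f (cocompact Space) (𝓝 0))
    {ν : Space → ℝ} (hν : Continuous ν) (h0 : ∀ x, ν x = 0 → f x = 0) {lam : ℝ}
    (H : ∀ (η : ℝ) (v : Space → ℝ) (V : Space → Space), 0 < η → IsH1 v V → (∀ x, |ν x| < η → v x = 0) →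
      -lam * (∫ x, v x ^ 2) ≤ hydQ 0 v V) :
    -lam * (∫ x, f x ^ 2) ≤ hydQ 0 f F := by
  -- one step
  have step : ∀ ε : ℝ, 0 < ε →
      -lam * (∫ x, (max (f x - ε) 0 - max (-f x - ε) 0) ^ 2) + (∫ x, (max (f x - ε) 0 - max (-f x - ε) 0) ^ 2 / ‖x‖)
        ≤ (1 / 2) * ∫ x, ‖F x‖ ^ 2 := by
    intro ε hε
    have hv := h.softThreshold hε
    have hK : IsCompact {x | ε ≤ |f x|} := by
      have h1 : ∀ᶠ x in cocompact Space, |f x| < ε := by
        have := hinf.eventually (Metric.ball_mem_nhds (0 : ℝ) hε)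
        filter_upwards [this] with x hx
        simpa using hx
      obtain ⟨K', hK', hsub⟩ := mem_cocompact.1 h1
      refine hK'.of_isClosed_subset (isClosed_le continuous_const hc.abs) fun x hx => ?_
      by_contra hcon
      have h3 : |f x| < ε := hsub hcon
      exact absurd h3 (not_lt.2 hx)
    obtain ⟨η, hη, hηv⟩ : ∃ η : ℝ, 0 < η ∧ ∀ x, |ν x| < η → max (f x - ε) 0 - max (-f x - ε) 0 = 0 := by
      rcases {x | ε ≤ |f x|}.eq_empty_or_nonempty with he | hne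
      · refine ⟨1, one_pos, fun x _ => tc_soft_eq_zero ?_⟩
        by_contra hcon
        have : x ∈ {x | ε ≤ |f x|} := not_lt.1 hcon
        rw [he] at this
        exact this
      · obtain ⟨x₀, hx₀, hmin⟩ := hK.exists_isMinOn hne hν.abs.continuousOn
        refine ⟨|ν x₀|, ?_, fun x hx => tc_soft_eq_zero ?_⟩
        · rw [abs_pos]
          intro hz
          have h1 := h0 x₀ hz
          have h2 : ε ≤ |f x₀| := hx₀
          rw [h1, abs_zero] at h2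
          linarith
        · by_contra hcon
          have h1 : x ∈ {x | ε ≤ |f x|} := not_lt.1 hcon
          have h2 : |ν x₀| ≤ |ν x| := hmin h1
          linarith
    have h1 := H η _ _ hη hv hηv
    unfold hydQ at h1
    simp only [sub_zero] at h1
    have h2 : ∫ x, ‖if ε < |f x| then F x else 0‖ ^ 2 ≤ ∫ x, ‖F x‖ ^ 2 := by
      refine integral_mono (tc_integrable_norm_sq hv.2.1) (tc_integrable_norm_sq h.2.1) fun x => ?_
      simp only
      split_ifs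
      · exact le_rfl
      · simp
    linarith
  -- the limit
  set ε : ℕ → ℝ := fun n => 1 / ((n : ℝ) + 1) with hεdef
  have hε : ∀ n, 0 < ε n := fun n => by positivity
  have hεlim : Tendsto ε atTop (𝓝 0) := tendsto_one_div_add_atTop_nhds_zero_nat
  have hpt : ∀ x, Tendsto (fun n => max (f x - ε n) 0 - max (-f x - ε n) 0) atTop (𝓝 (f x)) := by
    intro x
    rw [tendsto_iff_norm_sub_tendsto_zero]
    refine squeeze_zero (fun n => norm_nonneg _) (fun n => ?_) hεlim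
    rw [Real.norm_eq_abs]
    exact tc_soft_sub_le (hε n) _
  have hsq : ∀ n x, (max (f x - ε n) 0 - max (-f x - ε n) 0) ^ 2 ≤ f x ^ 2 := by
    intro n x
    rw [← sq_abs, ← sq_abs (f x)]
    exact pow_le_pow_left₀ (abs_nonneg _) (tc_soft_abs_le (hε n) _) 2
  have ic : Integrable (fun x => f x ^ 2 / ‖x‖) := by simpa using (h.coulomb 0).1
  have l1 : Tendsto (fun n => ∫ x, (max (f x - ε n) 0 - max (-f x - ε n) 0) ^ 2) atTop (𝓝 (∫ x, f x ^ 2)) := by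
    refine tendsto_integral_of_dominated_convergence (fun x => f x ^ 2) (fun n => ?_) (tc_integrable_sq h.1)
      (fun n => Eventually.of_forall fun x => ?_) (Eventually.of_forall fun x => (hpt x).pow 2)
    · exact ((h.softThreshold (hε n)).1.1.pow 2)
    · rw [Real.norm_eq_abs, abs_of_nonneg (sq_nonneg _)]
      exact hsq n x
  have l2 : Tendsto (fun n => ∫ x, (max (f x - ε n) 0 - max (-f x - ε n) 0) ^ 2 / ‖x‖) atTop
      (𝓝 (∫ x, f x ^ 2 / ‖x‖)) := by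
    refine tendsto_integral_of_dominated_convergence (fun x => f x ^ 2 / ‖x‖) (fun n => ?_) ic
      (fun n => Eventually.of_forall fun x => ?_) (Eventually.of_forall fun x => ((hpt x).pow 2).div_const _)
    · have := ((h.softThreshold (hε n)).coulomb 0).1.1
      simpa using this
    · rw [Real.norm_eq_abs, abs_of_nonneg (by positivity)]
      exact div_le_div_of_nonneg_right (hsq n x) (norm_nonneg _)
  have l3 := (l1.const_mul (-lam)).add l2
  have := le_of_tendsto' l3 (fun n => step (ε n) (hε n))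
  unfold hydQ
  simp only [sub_zero]
  linarith

end V7

/-! ## The two bounds used in `TCHyd` (proved from the leaves) -/

section V8

theorem IsH1.hydQ_ge_of_plane (h : IsH1 f F) (hc : Continuous f) (hinf : Tendsto f (cocompact Space) (𝓝 0))
    {a : Space} (ha : ‖a‖ = 1) (h0 : ∀ x, ⟪a, x⟫_ℝ = 0 → f x = 0) : -(1 / 8) * (∫ x, f x ^ 2) ≤ hydQ 0 f F :=
  h.hydQ_ge_of_node hc hinf (ν := fun x => ⟪a, x⟫_ℝ) (continuous_const.inner continuous_id) h0
    (fun _ _ _ hη hv hv0 => hv.hydQ_ge_of_near_plane ha hη hv0)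

theorem IsH1.hydQ_ge_of_sphere (h : IsH1 f F) (hc : Continuous f) (hinf : Tendsto f (cocompact Space) (𝓝 0))
    (h0 : ∀ x, ‖x‖ = 2 → f x = 0) : -(1 / 8) * (∫ x, f x ^ 2) ≤ hydQ 0 f F :=
  h.hydQ_ge_of_node hc hinf (ν := fun x => ‖x‖ - 2) (continuous_norm.sub continuous_const)
    (fun x hx => h0 x (by linarith)) (fun _ _ _ hη hv hv0 => hv.hydQ_ge_of_near_sphere hη hv0)

end V8

end Claimed.Open.R278
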