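import Claimed.Open.R278.ANDefs

/-!
# Toolkit, leaf TK-1: weighted integrals of `Statement.lean` versus `H1 (dm n)` of the R259 kit; `L²_loc`; the drift

All easy: `isWeakGrad_iff_weakGrad` (FSBridge), `ws_integral_dm`, `ws_integrable_dm_iff`, `ws_aesm_dm_iff`, `ws_memLp_restrict` (R259/WsBasic.lean),
`memLp_two_iff_integrable_sq_norm`.
-/

open MeasureTheory
open Claimed.Agent.R259 (WeakGrad H1 dm IsTest)
open scoped ContDiff InnerProductSpace ENNReal Topology

noncomputable section

namespace Claimed.Open.R278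

variable {n : Space → ℝ}

theorem tk1_finite_ball (R : ℝ) : IsFiniteMeasure (volume.restrict (Metric.ball (0 : Space) R)) :=
  ⟨by rw [Measure.restrict_apply_univ]; exact measure_ball_lt_top⟩

theorem memLp_dm_iff {F : Type*} [NormedAddCommGroup F] (hc : Continuous n) (hpos : ∀ x, 0 < n x) {f : Space → F}
    (hf : AEStronglyMeasurable f volume) :
    MemLp f 2 (dm n) ↔ Integrable (fun x => n x * ‖f x‖ ^ 2) := by
  rw [memLp_two_iff_integrable_sq_norm (hf.mono_ac (Claimed.Agent.R259.ws_dm_ac n)),
    Claimed.Agent.R259.ws_integrable_dm_iff hc.measurable fun x => (hpos x).le]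
  simp only [smul_eq_mul]

theorem integral_dm_eq (hc : Continuous n) (hpos : ∀ x, 0 < n x) (f : Space → ℝ) :
    ∫ x, f x ∂(dm n) = ∫ x, n x * f x := by
  rw [Claimed.Agent.R259.ws_integral_dm hc.measurable fun x => (hpos x).le]
  simp only [smul_eq_mul]

/-- the weighted form domain of `Statement.lean`/`Top.lean` is `H1 (dm n)`. -/
theorem h1_dm_iff (hc : Continuous n) (hpos : ∀ x, 0 < n x) {ξ : Space → ℝ} {G : Space → Space} :
    (IsWeakGrad ξ G ∧ Integrable (fun x => n x * (ξ x ^ 2 + ‖G x‖ ^ 2))) ↔ H1 (dm n) ξ G := by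
  constructor
  · rintro ⟨hw, hi⟩
    have hw' := isWeakGrad_iff_weakGrad.1 hw
    have hξm : AEStronglyMeasurable ξ volume := hw'.1.aestronglyMeasurable
    have hGm : AEStronglyMeasurable G volume := hw'.2.1.aestronglyMeasurable
    refine ⟨hw', (memLp_dm_iff hc hpos hξm).2 ?_, (memLp_dm_iff hc hpos hGm).2 ?_⟩
    · refine hi.mono' (hc.aestronglyMeasurable.mul (hξm.norm.pow 2)) ?_
      refine Filter.Eventually.of_forall fun x => ?_
      have h0 := (hpos x).le
      rw [Real.norm_of_nonneg (by positivity), Real.norm_eq_abs, sq_abs]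
      exact mul_le_mul_of_nonneg_left (le_add_of_nonneg_right (by positivity)) h0
    · refine hi.mono' (hc.aestronglyMeasurable.mul (hGm.norm.pow 2)) ?_
      refine Filter.Eventually.of_forall fun x => ?_
      have h0 := (hpos x).le
      rw [Real.norm_of_nonneg (by positivity)]
      exact mul_le_mul_of_nonneg_left (le_add_of_nonneg_left (by positivity)) h0
  · rintro ⟨hw, h1, h2⟩
    have hξm : AEStronglyMeasurable ξ volume := hw.1.aestronglyMeasurable
    have hGm : AEStronglyMeasurable G volume := hw.2.1.aestronglyMeasurable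
    refine ⟨isWeakGrad_iff_weakGrad.2 hw, ?_⟩
    have i1 := (memLp_dm_iff hc hpos hξm).1 h1
    have i2 := (memLp_dm_iff hc hpos hGm).1 h2
    refine (i1.add i2).congr (Filter.Eventually.of_forall fun x => ?_)
    simp only [Pi.add_apply, Real.norm_eq_abs, sq_abs]
    ring

theorem IsAdmissibleAngle.h1 (hn : DensityBasic n) {ϑ : Space → ℝ} {G : Space → Space}
    (h : IsAdmissibleAngle n ϑ G) : H1 (dm n) ϑ G :=
  (h1_dm_iff hn.continuous hn.pos).1 ⟨h.1, h.2.1⟩

theorem anL2loc_iff_l2Loc {F : Type*} [NormedAddCommGroup F] [NormedSpace ℝ F] [CompleteSpace F] {f : Space → F} :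
    AnL2loc f ↔ L2Loc volume f := by
  constructor
  · intro h K hK
    obtain ⟨R, hR⟩ := hK.isBounded.subset_ball (0 : Space)
    exact (h R).mono_measure (Measure.restrict_mono hR le_rfl)
  · intro h R
    exact (h _ (isCompact_closedBall (0 : Space) R)).mono_measure
      (Measure.restrict_mono Metric.ball_subset_closedBall le_rfl)

theorem anL2loc_of_memLp_dm {F : Type*} [NormedAddCommGroup F] (hc : Continuous n) (hpos : ∀ x, 0 < n x)
    {f : Space → F} (hf : MemLp f 2 (dm n)) : AnL2loc f := by
  intro R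
  obtain ⟨c, hc', hle⟩ := Claimed.Agent.R259.ws_restrict_le_dm hc hpos
    (isCompact_closedBall (0 : Space) R)
  exact (hf.of_measure_le_smul hc' hle).mono_measure
    (Measure.restrict_mono Metric.ball_subset_closedBall le_rfl)

theorem anL2loc_of_continuous {F : Type*} [NormedAddCommGroup F] {f : Space → F} (hf : Continuous f) :
    AnL2loc f := by
  intro R
  have := tk1_finite_ball R
  obtain ⟨M, hM⟩ := (isCompact_closedBall (0 : Space) R).exists_bound_of_continuousOn
    hf.continuousOn
  refine MemLp.of_bound hf.aestronglyMeasurable M ?_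
  exact ae_restrict_of_forall_mem measurableSet_ball fun x hx =>
    hM x (Metric.ball_subset_closedBall hx)

/-- `L²_loc` functions with compact support are in `L²`. -/
theorem AnL2loc.memLp_of_compactSupport {F : Type*} [NormedAddCommGroup F] {f : Space → F} (hf : AnL2loc f)
    (hc : HasCompactSupport f) : MemLp f 2 volume := by
  obtain ⟨R, hR⟩ := hc.isCompact.isBounded.subset_ball (0 : Space)
  have h1 := (memLp_indicator_iff_restrict (measurableSet_ball (x := (0 : Space)) (ε := R))).2 (hf R)
  have h2 : (Metric.ball (0 : Space) R).indicator f = f :=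
    Set.indicator_eq_self.2 ((subset_tsupport f).trans hR)
  rwa [h2] at h1

theorem tk1_memLp_smul {F : Type*} [NormedAddCommGroup F] [NormedSpace ℝ F] {f : Space → F}
    {p : ℝ≥0∞} {R : ℝ} (hf : MemLp f p (volume.restrict (Metric.ball 0 R))) {a : Space → ℝ}
    (ha : Continuous a) : MemLp (fun x => a x • f x) p (volume.restrict (Metric.ball 0 R)) := by
  obtain ⟨M, hM⟩ := (isCompact_closedBall (0 : Space) R).exists_bound_of_continuousOn
    ha.continuousOn
  refine hf.of_le_mul (c := M) (ha.aestronglyMeasurable.smul hf.1) ?_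
  refine ae_restrict_of_forall_mem measurableSet_ball fun x hx => ?_
  rw [norm_smul]
  exact mul_le_mul_of_nonneg_right (hM x (Metric.ball_subset_closedBall hx)) (norm_nonneg _)

/-- multiplication by a continuous function preserves `L²_loc`. -/
theorem AnL2loc.smul_continuous {F : Type*} [NormedAddCommGroup F] [NormedSpace ℝ F] {f : Space → F}
    (hf : AnL2loc f) {a : Space → ℝ} (ha : Continuous a) : AnL2loc (fun x => a x • f x) :=
  fun R => tk1_memLp_smul (hf R) ha

/-- the drift is in `L⁶_loc`. -/
theorem anDrift_memLp (hn : DensityBasic n) (R : ℝ) :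
    MemLp (anDrift n) 6 (volume.restrict (Metric.ball 0 R)) :=
  tk1_memLp_smul (hn.grad_L6 R) (hn.continuous.inv₀ fun x => (hn.pos x).ne')

/-- quantitative version. -/
theorem anDrift_eLpNorm_le (hn : DensityBasic n) {R c Λ : ℝ} (hc : 0 < c) (h : DensLoc n R c Λ) :
    eLpNorm (anDrift n) 6 (volume.restrict (Metric.ball 0 R)) ≤ ENNReal.ofReal (Λ / c) := by
  have h1 : eLpNorm (anDrift n) 6 (volume.restrict (Metric.ball 0 R))
      ≤ ENNReal.ofReal c⁻¹ * eLpNorm (gradient n) 6 (volume.restrict (Metric.ball 0 R)) := by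
    refine eLpNorm_le_mul_eLpNorm_of_ae_le_mul ?_ 6
    refine ae_restrict_of_forall_mem measurableSet_ball fun x hx => ?_
    rw [mem_ball_zero_iff] at hx
    unfold anDrift
    rw [norm_smul, Real.norm_of_nonneg (inv_nonneg.2 (hn.pos x).le)]
    exact mul_le_mul_of_nonneg_right (inv_anti₀ hc (h.lower x hx)) (norm_nonneg _)
  refine h1.trans ?_
  rw [div_eq_inv_mul, ENNReal.ofReal_mul (inv_nonneg.2 hc.le)]
  exact mul_le_mul_right h.grad6 _

/-- a continuous positive function is bounded below on balls. -/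
theorem exists_lower_bound_on_ball (hc : Continuous n) (hpos : ∀ x, 0 < n x) (R : ℝ) :
    ∃ c : ℝ, 0 < c ∧ ∀ x : Space, ‖x‖ ≤ R → c ≤ n x := by
  rcases (Metric.closedBall (0 : Space) R).eq_empty_or_nonempty with he | hne
  · refine ⟨1, one_pos, fun x hx => ?_⟩
    have : x ∈ Metric.closedBall (0 : Space) R := by simpa using hx
    rw [he] at this
    exact absurd this (Set.notMem_empty x)
  · obtain ⟨x₀, -, hx₀⟩ := (isCompact_closedBall (0 : Space) R).exists_isMinOn hne hc.continuousOn
    exact ⟨n x₀, hpos x₀, fun x hx => hx₀ (by simpa using hx)⟩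

end Claimed.Open.R278
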