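import Claimed.Open.R278.TXGrad

/-!
# Result 278, package TX, file 3: an exterior solution is a one-dimensional channel system

`f` with `TXSol f k` is the `F` of `txCore : ChannelCore ℂ (txConsts C)` with `lam = 0`, `φ = 1`, `Rr = 0`, `W = 2/r`, `Res = 0`.
`channel_leading` and `channel_amplitude` then give `TXExp f k R C` (real form).

Leaves: `TX-C1` (section C1: small facts needed by the structure), `TX-C2` (section C2: translation complex → real).
The definition `txCore` and the final theorem `TXSol.exp` are glue (proved).  No paper reading needed.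
-/

open MeasureTheory Filter
open scoped ContDiff InnerProductSpace ComplexConjugate ENNReal Topology Laplacian

noncomputable section

namespace Claimed.Open.R278

/-- `W = 2/r` on the one-dimensional fibre `ℂ`. -/
def txWop (x : Space) : ℂ →L[ℂ] ℂ := ((2 / ‖x‖ : ℝ) : ℂ) • ContinuousLinearMap.id ℂ ℂ

/-- the complexification of a real function. -/
def txC (f : Space → ℝ) (x : Space) : ℂ := (f x : ℂ)

/-! ## LEAF TX-C1 -/

section C1

/-- `x ↦ (2/|x|) • id` is smooth and homogeneous of degree `-1`: `isSym_of_homogeneous` (`m = 1`), `IsSym.wordBdd` (restrict `Ext 0` to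
`Ext (2D)`, `1 ≤ 2D`), `‖x‖ ^ (-1 : ℝ) = ‖x‖⁻¹`. -/
theorem tx_Wop_bdd : ∃ C : ℕ → ℝ, WordBdd (2 * bigD) C (fun x => ‖x‖⁻¹) txWop := by
  have hs : ContDiffOn ℝ ∞ txWop (Ext 0) := by
    have h1 : ContDiffOn ℝ ∞ (fun x : Space => (2 / ‖x‖ : ℝ)) (Ext 0) :=
      contDiffOn_const.div (contDiffOn_norm_Ext le_rfl) fun x hx => (norm_pos_of_mem_Ext le_rfl hx).ne'
    have h2 : ContDiffOn ℝ ∞ (fun x : Space => ((2 / ‖x‖ : ℝ) : ℂ)) (Ext 0) :=
      Complex.ofRealCLM.contDiff.comp_contDiffOn h1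
    exact h2.smul contDiffOn_const
  obtain ⟨C, hC⟩ := isSym_of_homogeneous (m := 1) hs (fun x hx ρ hρ => by
    unfold txWop
    rw [norm_smul, Real.norm_of_nonneg hρ.le, Real.rpow_neg_one, ← smul_assoc]
    congr 1
    rw [Complex.real_smul, ← Complex.ofReal_mul]
    congr 1
    have := (norm_pos_of_mem_Ext le_rfl hx).ne'
    field_simp)
  obtain ⟨C', hC'⟩ := IsSym.wordBdd (V := ℂ →L[ℂ] ℂ) 1 C
  have hD := tx_one_le_bigD
  have h2 : IsSym (2 * bigD) 1 C txWop :=
    ⟨hC.1.mono (Ext_mono (by linarith)), fun n x hx => hC.2 n x (Ext_mono (by linarith) hx)⟩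
  refine ⟨C', ?_⟩
  have := hC' (2 * bigD) (by linarith) txWop h2
  simpa [Real.rpow_neg_one] using this

/-- words of the zero function vanish (induction on `w`; `fderiv` of a constant). -/
theorem tx_dword_zero {V : Type*} [NormedAddCommGroup V] [NormedSpace ℝ V]
    (w : List (Fin 3 ⊕ Fin 3)) (x : Space) : dword w (fun _ : Space => (0 : V)) x = 0 := by
  have : dword w (fun _ : Space => (0 : V)) = fun _ => 0 := by
    induction w with
    | nil => rfl
    | cons a w ih =>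
      rw [dword_cons, ih]
      funext y
      simp [dfield]
  rw [this]

/-- `Δ (ofReal ∘ f) = ofReal (Δ f)` (`ContDiffAt.laplacian_CLM_comp_left` with `Complex.ofRealCLM`, or
`laplacian_eq_sum_dfield` + chain rule). -/
theorem tx_laplacian_txC {f : Space → ℝ} {x : Space} (hf : ContDiffAt ℝ 2 f x) :
    Δ (txC f) x = ((Δ f x : ℝ) : ℂ) := by
  have := hf.laplacian_CLM_comp_left (l := Complex.ofRealCLM)
  have e : txC f = fun y => (f y : ℂ) := rfl
  rw [e]
  simpa [Function.comp_def] using this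

/-- `dword_clm` with `Complex.ofRealCLM`. -/
theorem tx_dword_txC {R : ℝ} {f : Space → ℝ} (hf : ContDiffOn ℝ ∞ f (Ext R))
    (w : List (Fin 3 ⊕ Fin 3)) : ∀ x ∈ Ext R, dword w (txC f) x = ((dword w f x : ℝ) : ℂ) :=
  dword_clm hf Complex.ofRealCLM w

theorem tx_contDiffOn_txC {R : ℝ} {f : Space → ℝ} (hf : ContDiffOn ℝ ∞ f (Ext R)) :
    ContDiffOn ℝ ∞ (txC f) (Ext R) :=
  Complex.ofRealCLM.contDiff.comp_contDiffOn hf

/-- `dr (ofReal ∘ g) = ofReal (dr g)`. -/
theorem tx_dr_txC {g : Space → ℝ} {x : Space} (hg : DifferentiableAt ℝ g x) :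
    dr (txC g) x = ((dr g x : ℝ) : ℂ) := by
  have h : HasFDerivAt (fun y => Complex.ofRealCLM (g y)) (Complex.ofRealCLM.comp (fderiv ℝ g x)) x :=
    Complex.ofRealCLM.hasFDerivAt.comp x hg.hasFDerivAt
  have e : txC g = fun y => Complex.ofRealCLM (g y) := rfl
  simp only [dr, e, h.fderiv]; rfl

end C1

/-! ## The channel system (glue) -/

theorem tx_wordBdd_txC {R : ℝ} {C : ℕ → ℝ} {g : Space → ℝ} {f : Space → ℝ} (h : WordBdd R C g f) :
    WordBdd R C g (txC f) :=
  ⟨tx_contDiffOn_txC h.1, fun w x hx => by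
    rw [tx_dword_txC h.1 w x hx, Complex.norm_real]; exact h.2 w x hx⟩

theorem tx_wordBdd_of_txC {R : ℝ} {C : ℕ → ℝ} {g : Space → ℝ} {f : Space → ℝ}
    (hf : ContDiffOn ℝ ∞ f (Ext R)) (h : WordBdd R C g (txC f)) : WordBdd R C g f :=
  ⟨hf, fun w x hx => by
    have := h.2 w x hx
    rwa [tx_dword_txC hf w x hx, Complex.norm_real] at this⟩

theorem tx_wordBdd_zero {V : Type*} [NormedAddCommGroup V] [NormedSpace ℝ V] (R : ℝ) {C : ℕ → ℝ}
    (hC : ∀ n, 0 ≤ C n) {g : Space → ℝ} (hg : ∀ x ∈ Ext R, 0 ≤ g x) :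
    WordBdd R C g (fun _ : Space => (0 : V)) :=
  ⟨contDiffOn_const, fun w x hx => by
    rw [tx_dword_zero, norm_zero]; exact mul_nonneg (hC _) (hg x hx)⟩

/-- the constants of the one-dimensional channel systems. -/
def txConsts (C : ℕ → ℝ) : ChannelConsts where
  R₁ := 2 * bigD
  c := 1
  σ := 3
  τ := 1 / 4
  μ := 1
  C := C
  R₁_ge := le_rfl
  c_pos := one_pos
  τ_pos := by norm_num
  μ_pos := one_pos

/-- the one-dimensional channel system of an exterior solution. -/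
def txCore {f : Space → ℝ} {k : ℝ} (h : TXSol f k) (C : ℕ → ℝ) (hC : ∀ n, 0 ≤ C n)
    (hW : WordBdd (2 * bigD) C (fun x => ‖x‖⁻¹) txWop)
    (hF : WordBdd (2 * bigD) C (fun x => Real.exp (-(1 / 4 * ‖x‖))) f) :
    ChannelCore ℂ (txConsts C) where
  lam := 0
  k := k
  φ := 1
  Rr := 0
  W := txWop
  F := txC f
  Res := fun _ => 0
  lam_nonneg := le_rfl
  lam_le := zero_le_one
  k_lo := h.k_lo
  k_hi := h.k_hi
  sigma_gt := by
    have := h.k_hi
    show k + 1 ≤ 3
    linarith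
  φ_norm := norm_one
  Rr_symm := fun v w => by simp
  Rr_φ := by simp
  Rr_gap := fun v => by simp
  W_symm := fun x _ v w => by
    simp only [txWop, smul_apply, ContinuousLinearMap.id_apply, smul_eq_mul,
      RCLike.inner_apply, map_mul, Complex.conj_ofReal]
    ring
  W_nonneg := fun x _ v => by
    have h1 : (⟪v, txWop x v⟫_ℂ).re = 2 / ‖x‖ * ‖v‖ ^ 2 := by
      simp only [txWop, smul_apply, ContinuousLinearMap.id_apply, smul_eq_mul]
      rw [show ((2 / ‖x‖ : ℝ) : ℂ) * v = ((2 / ‖x‖ : ℝ) : ℂ) • v from rfl, inner_smul_right,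
        inner_self_eq_norm_sq_to_K]
      have e : (((2 / ‖x‖ : ℝ) : ℂ) * ((‖v‖ : ℝ) : ℂ) ^ 2) = ((2 / ‖x‖ * ‖v‖ ^ 2 : ℝ) : ℂ) := by
        push_cast; ring
      exact (congrArg Complex.re e).trans (Complex.ofReal_re _)
    rw [h1]
    positivity
  W_bdd := hW
  Wφ_bdd := by
    have e : (fun x : Space => txWop x (1 : ℂ) - (2 / ‖x‖) • (1 : ℂ)) = fun _ => 0 := by
      funext x
      simp [txWop]
    rw [e]
    exact tx_wordBdd_zero _ hC fun x _ => by positivity
  F_bdd := tx_wordBdd_txC hF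
  Res_bdd := tx_wordBdd_zero _ hC fun x _ => by simp
  eqP := fun x hx => by
    have hx' : x ∉ nuclei :=
      tx_Ext_subset (R := 2 * bigD) (by have := tx_bigD_pos; linarith) hx
    have hc : ContDiffAt ℝ 2 f x :=
      ((h.smooth x hx').contDiffAt (tx_isOpen_nuclei_compl.mem_nhds hx')).of_le (by norm_cast)
    have h1 := h.eq x hx'
    have h2 : chanG 0 k txWop (txC f) x = 0 := by
      unfold chanG
      rw [tx_laplacian_txC hc]
      simp only [txC, zero_smul, sub_zero, Complex.real_smul]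
      rw [← Complex.ofReal_mul, ← Complex.ofReal_mul, ← Complex.ofReal_sub, h1]
      have : (uD x + k ^ 2 / 2) * f x - (k ^ 2 / 2 + uD x) * f x = 0 := by ring
      rw [this]; simp
    rw [h2]; simp
  eqQ := fun x _ => by simp

/-! ## LEAF TX-C2: translation of `channel_amplitude` into real form

`S = txCore …`.  `S.β = 2/k - 1` (`lam = 0`), `S.A = txA k`, `S.f x = ⟪1, (f x : ℂ)⟫ = (f x : ℂ)`, `S.h = txC (txH f k)` (as functions);
`txH f k` is smooth on `Ext (2D)` (`tx_contDiffOn_radialA_norm`, `radialA_pos`); `tx_dword_txC`, `tx_dr_txC` (twice, with `contDiffOn_dword`,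
`contDiffOn_dr`, and locality of `dr`: `dr` only depends on the germ), `Complex.norm_real`. -/

section C2

theorem txCore_A {f : Space → ℝ} {k : ℝ} (h : TXSol f k) (C : ℕ → ℝ) (hC : ∀ n, 0 ≤ C n)
    (hW : WordBdd (2 * bigD) C (fun x => ‖x‖⁻¹) txWop)
    (hF : WordBdd (2 * bigD) C (fun x => Real.exp (-(1 / 4 * ‖x‖))) f) :
    (txCore h C hC hW hF).A = txA k := by
  funext x
  simp [ChannelCore.A, ChannelCore.β, txCore, txA]

theorem txCore_h {f : Space → ℝ} {k : ℝ} (h : TXSol f k) (C : ℕ → ℝ) (hC : ∀ n, 0 ≤ C n)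
    (hW : WordBdd (2 * bigD) C (fun x => ‖x‖⁻¹) txWop)
    (hF : WordBdd (2 * bigD) C (fun x => Real.exp (-(1 / 4 * ‖x‖))) f) :
    (txCore h C hC hW hF).h = txC (txH f k) := by
  funext x
  unfold ChannelCore.h
  rw [txCore_A h C hC hW hF]
  simp [ChannelCore.f, txCore, txC, txH]

theorem tx_contDiffOn_txA (k : ℝ) : ContDiffOn ℝ ∞ (txA k) (Ext 0) :=
  tx_contDiffOn_radialA_norm k _

theorem txA_pos (k : ℝ) {x : Space} (hx : x ≠ 0) : 0 < txA k x :=
  radialA_pos _ _ (norm_pos_iff.2 hx)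

theorem tx_contDiffOn_txH {f : Space → ℝ} {R : ℝ} (hR : 0 ≤ R) (hf : ContDiffOn ℝ ∞ f (Ext R))
    (k : ℝ) : ContDiffOn ℝ ∞ (txH f k) (Ext R) :=
  hf.div ((tx_contDiffOn_txA k).mono (Ext_mono hR))
    fun _ hx => (txA_pos k (ne_zero_of_mem_Ext hR hx)).ne'

/-- norms of `dword w`, `dr (dword w ·)`, `dr (dr (dword w ·))` of a complexified function. -/
theorem tx_norm_words_txC {R : ℝ} (hR : 0 ≤ R) {g : Space → ℝ} (hg : ContDiffOn ℝ ∞ g (Ext R))
    (w : List (Fin 3 ⊕ Fin 3)) : ∀ x ∈ Ext R,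
      ‖dword w (txC g) x‖ = |dword w g x| ∧
      ‖dr (dword w (txC g)) x‖ = |dr (dword w g) x| ∧
      ‖dr (dr (dword w (txC g))) x‖ = |dr (dr (dword w g)) x| := by
  intro x hx
  have hw := contDiffOn_dword hg w
  have e0 : ∀ y ∈ Ext R, dword w (txC g) y = txC (dword w g) y := tx_dword_txC hg w
  have e1 : ∀ y ∈ Ext R, dr (dword w (txC g)) y = txC (dr (dword w g)) y := by
    intro y hy
    rw [dr_congr e0 y hy, tx_dr_txC (differentiableAt_of_mem_Ext hw hy)]
    rfl
  have e2 : dr (dr (dword w (txC g))) x = txC (dr (dr (dword w g))) x := by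
    rw [dr_congr e1 x hx, tx_dr_txC (differentiableAt_of_mem_Ext (contDiffOn_dr hR hw) hx)]
    rfl
  rw [e0 x hx, e1 x hx, e2]
  simp only [txC, Complex.norm_real, Real.norm_eq_abs]
  exact ⟨trivial, trivial, trivial⟩

end C2

/-! ## The expansion (glue) -/

/-- **TX step 3.** -/
theorem TXSol.exp {f : Space → ℝ} {k : ℝ} (h : TXSol f k) : ∃ (R : ℝ) (C : ℕ → ℝ), TXExp f k R C := by
  obtain ⟨C₁, hC₁⟩ := tx_Wop_bdd
  obtain ⟨C₂, hC₂⟩ := h.apriori
  set C : ℕ → ℝ := fun n => max (max (C₁ n) (C₂ n)) 0 with hCdef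
  have hC : ∀ n, 0 ≤ C n := fun n => le_max_right _ _
  have hW : WordBdd (2 * bigD) C (fun x => ‖x‖⁻¹) txWop :=
    hC₁.mono le_rfl fun n x _ =>
      mul_le_mul_of_nonneg_right ((le_max_left _ _).trans (le_max_left _ _)) (by positivity)
  have hF : WordBdd (2 * bigD) C (fun x => Real.exp (-(1 / 4 * ‖x‖))) f :=
    hC₂.mono le_rfl fun n x _ =>
      mul_le_mul_of_nonneg_right ((le_max_right _ _).trans (le_max_left _ _)) (Real.exp_pos _).le
  obtain ⟨R₁, K₁, hR₁, H₁⟩ := channel_leading (𝒦 := ℂ) (txConsts C)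
  obtain ⟨R₂, K₂, hR₂, H₂⟩ := channel_amplitude (𝒦 := ℂ) (txConsts C)
  have hR₁' : 2 * bigD ≤ R₁ := hR₁
  have hR₂' : 2 * bigD ≤ R₂ := hR₂
  have hD := tx_bigD_pos
  set S := txCore h C hC hW hF with hS
  have hA : S.A = txA k := txCore_A h C hC hW hF
  have hh : S.h = txC (txH f k) := txCore_h h C hC hW hF
  set R := max R₁ R₂ with hRdef
  have hRR₁ : R₁ ≤ R := le_max_left _ _
  have hRR₂ : R₂ ≤ R := le_max_right _ _
  have hfR : ContDiffOn ℝ ∞ f (Ext R) := h.smooth.mono (tx_Ext_subset (by linarith))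
  have hHs : ContDiffOn ℝ ∞ (txH f k) (Ext R) := tx_contDiffOn_txH (by linarith) hfR k
  have hApos : ∀ x ∈ Ext R, 0 ≤ txA k x := fun x hx =>
    (radialA_pos _ _ (lt_of_le_of_lt (by linarith) hx)).le
  refine ⟨R, fun n => max (K₁ n) (K₂ n), ⟨by linarith, ?_, ?_, ?_, ?_⟩⟩
  · have h1 : WordBdd R₁ K₁ (txA k) (txC f) := by
      have := (H₁ S).1
      rwa [hA] at this
    exact tx_wordBdd_of_txC hfR (h1.mono hRR₁ fun n x hx =>
      mul_le_mul_of_nonneg_right (le_max_left _ _) (hApos x hx))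
  · intro w hw x hx
    have h1 := ((H₂ S).2.2.2 w hw x (Ext_mono hRR₂ hx)).1
    rw [hh, (tx_norm_words_txC (by linarith) hHs w x hx).1] at h1
    exact h1.trans (le_max_right _ _)
  · intro w hw x hx
    have h1 := ((H₂ S).2.2.2 w hw x (Ext_mono hRR₂ hx)).2.2.1
    rw [hh, (tx_norm_words_txC (by linarith) hHs w x hx).2.1] at h1
    exact h1.trans (mul_le_mul_of_nonneg_right (le_max_right _ _) (by positivity))
  · intro w hw x hx
    have h1 := ((H₂ S).2.2.2 w hw x (Ext_mono hRR₂ hx)).2.2.2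
    rw [hh, (tx_norm_words_txC (by linarith) hHs w x hx).2.2] at h1
    exact h1.trans (mul_le_mul_of_nonneg_right (le_max_right _ _) (by positivity))

end Claimed.Open.R278
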