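import Claimed.Open.R278.CHTools
import Claimed.Open.R278.CH1

/-!
# Result 278, layer L1b (prefix TX): exterior analysis of the two orbitals `b`, `e` at zero coupling

Sub-captain: helper277.  Definitions + the plan of the whole package.  NO PAPER READING IS NEEDED for any leaf.

## Exports (file `TXTop.lean`)
* `tx_refStrip_small`  (verbatim `refStrip_small` of `Top.lean`),
* `tx_fastOrbital`     (`FastOrbital b γ R₁ C c` for all `R₁ ≥ R_b`),
* `tx_slow_lower`      (`c t A_{k₀}(r) ≤ e` on `z ≥ 0`, i.e. `inf a₀⁰/ω_z > 0`),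
* `tx_apriori`, `tx_sol_b`, `tx_sol_e`.

## Notation
`γ = txRate εb = √(-2εb)`, `k₀ = txRate εe`, `u = uD`, `A_k(x) = txA k x = e^{-k r} r^{2/k-1}`, `r = |x|`, `t = tz x = z/r`,
`h = txH f k = f / A_k`, `∂₀ = dfield (inl 0)`, `Ω₁ = dfield (inr 1)`, `∂_r = dr`.

## Plan
0. `TXSol f k`: `f` is `C^∞` off the nuclei, `½Δf = (u + k²/2) f` there, `f → 0` at infinity, `0.9 < k < 1.1`.
   (`TXEq.lean`: weak form + smoothness ⇒ classical equation; decay from `SLEmbed`.)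
1. `|f| ≤ C e^{-r/2}` (`comparison_principle` with `Φ = C e^{-r/2}`), `TXEq.lean`.
2. interior gradient estimate `‖Dv(x)‖ ≤ C₀ sup_{B(x,2)} (|v| + |Δv|)` (R259 `Reg` kit: `v = ρ₁*v + T(-Δv)`),
   graded Leibniz bound for words, induction on the word length ⇒ `WordBdd (2D) C e^{-r/4} f` (`TXGrad.lean`).
3. `f` is the `F` of a `ChannelCore ℂ κ` (`lam = 0`, `φ = 1`, `Rr = 0`, `W = 2/r`, `Res = 0`): `channel_leading`, `channel_amplitude`
   give `TXExp f k R C` (`TXChan.lean`).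
4. lower bounds `c A_γ ≤ b`, `c t A_{k₀} ≤ e` (`z ≥ 0`) by the scalar maximum principle `tx_max_principle` with the subsolutions
   `A (1 + M/r)`, `A t (1 + M/r)`; the Hopf lemma at the equator is replaced by the explicit barrier
   `z + z² - (5/16)((x₀-p₀)² + x₁²)` on the box `(x₀-p₀)² + x₁² < 1`, `0 < z < 1/4` (`TXLow.lean`).
5. relative derivatives in the strip `0 ≤ z ≤ 10`, `p → ∞`: `|∂₀f + k f| ≤ C f/p`, `|∂₀²f - k² f| ≤ C f/p` (`TXStrip.lean`).
6. EXACT formula (PDE + axisymmetry), `x = cyl p z`: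
   `∂_z(n₀ ∂_z δ_*) = √2 [ 2(εe-εb) b e + (b ∂₀²e - e ∂₀²b) + (b ∂₀e - e ∂₀b)/p ]`,
   the leading terms cancel (`k₀² - γ² = -2(εe-εb)`), and `√2 b e ≤ n₀ δ_*`; so the quotient is `≤ C/p` (`TXCalc.lean`, `TXTop.lean`).
-/

open MeasureTheory Filter
open scoped ContDiff InnerProductSpace ComplexConjugate ENNReal Topology Laplacian

noncomputable section

namespace Claimed.Open.R278

/-- the exponential rate `√(-2ε)` of an orbital of energy `ε < 0`. -/
def txRate (ε : ℝ) : ℝ := √(-(2 * ε))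

/-- `A_k(|x|) = e^{-k r} r^{2/k - 1}`. -/
def txA (k : ℝ) (x : Space) : ℝ := radialA k (2 / k - 1) ‖x‖

/-- `h = f / A_k`. -/
def txH (f : Space → ℝ) (k : ℝ) (x : Space) : ℝ := f x / txA k x

/-- `f` is a classical solution of `(-½Δ + u_D + k²/2) f = 0` off the nuclei which tends to `0` at infinity. -/
structure TXSol (f : Space → ℝ) (k : ℝ) : Prop where
  k_lo : 0.9 < k
  k_hi : k < 1.1
  smooth : ContDiffOn ℝ ∞ f nucleiᶜ
  eq : ∀ x, x ∉ nuclei → (1 / 2) * Δ f x = (uD x + k ^ 2 / 2) * f x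
  decay : Tendsto f (cocompact Space) (𝓝 0)

/-- What TX uses from `channel_leading`, `channel_amplitude`, in real form. -/
structure TXExp (f : Space → ℝ) (k R : ℝ) (C : ℕ → ℝ) : Prop where
  R_ge : 2 * bigD ≤ R
  words : WordBdd R C (txA k) f
  rot : ∀ w, IsRotWord w → ∀ x ∈ Ext R, |dword w (txH f k) x| ≤ C w.length
  rot_dr : ∀ w, IsRotWord w → ∀ x ∈ Ext R, |dr (dword w (txH f k)) x| ≤ C w.length * (‖x‖ ^ 2)⁻¹
  rot_dr2 : ∀ w, IsRotWord w → ∀ x ∈ Ext R,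
    |dr (dr (dword w (txH f k))) x| ≤ C w.length * (‖x‖ ^ 2)⁻¹

/-- Relative derivative bounds in the strip `0 ≤ z ≤ L`, `p ≥ P`:
`|∂₀f + k f| ≤ (C/p) f`, `|∂₀²f - k² f| ≤ (C/p) f`. -/
def TXStrip (f : Space → ℝ) (k C P : ℝ) : Prop :=
  ∀ p z : ℝ, P ≤ p → 0 ≤ z → z ≤ stripL →
    |dfield (Sum.inl 0) f (cyl p z) + k * f (cyl p z)| ≤ C / p * f (cyl p z) ∧
    |dfield (Sum.inl 0) (dfield (Sum.inl 0) f) (cyl p z) - k ^ 2 * f (cyl p z)| ≤ C / p * f (cyl p z)

end Claimed.Open.R278
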