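import Claimed.Open.R278.TXDefs
import Claimed.Open.R278.SLEmbed
import Claimed.Open.R278.OBTest

/-!
# Result 278, package TX, file 1: the classical equation, decay at infinity, radial operator formulas

Leaves: `TX-A1` (section A1), `TX-R` (section R), `TX-B` (section B).  Section A2 is glue (proved).
No paper reading needed.  You may add auxiliary lemmas (prefix `tx_`); change a statement only after telling helper277.
-/

open MeasureTheory Filter
open scoped ContDiff InnerProductSpace ComplexConjugate ENNReal Topology Laplacian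

noncomputable section

namespace Claimed.Open.R278

/-! ## Geometry of the nuclei (part of leaf TX-R) -/

section geom

theorem tx_bigD_pos : 0 < bigD := by unfold bigD; positivity

theorem tx_norm_ez : ‖ez‖ = 1 := by
  unfold ez
  simp

/-- the nuclei lie on the sphere `|x| = D`. -/
theorem tx_not_mem_nuclei {x : Space} (hx : bigD < ‖x‖) : x ∉ nuclei := by
  intro h
  have hD := tx_bigD_pos
  have : ‖x‖ = bigD := by
    rcases h with rfl | h
    · rw [norm_smul, tx_norm_ez, mul_one, Real.norm_of_nonneg hD.le]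
    · rw [Set.mem_singleton_iff] at h
      rw [h, norm_neg, norm_smul, tx_norm_ez, mul_one, Real.norm_of_nonneg hD.le]
  linarith

theorem tx_Ext_subset {R : ℝ} (hR : bigD ≤ R) : Ext R ⊆ nucleiᶜ := fun _ hx =>
  tx_not_mem_nuclei (lt_of_le_of_lt hR hx)

/-- the nuclei lie on the `z`-axis. -/
theorem tx_cyl_not_mem_nuclei {p : ℝ} (hp : 0 < p) (z : ℝ) : cyl p z ∉ nuclei := by
  intro h
  have h0 : (cyl p z) 0 = 0 := by
    rcases h with h | h
    · rw [h]; simp [ez]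
    · rw [Set.mem_singleton_iff] at h
      rw [h]; simp [ez]
  simp [cyl] at h0
  linarith

theorem tx_isOpen_nuclei_compl : IsOpen (nucleiᶜ : Set Space) :=
  ((Set.finite_singleton _).insert _).isClosed.isOpen_compl

theorem tx_one_le_bigD : 1 ≤ bigD := by unfold bigD; exact one_le_pow₀ (by norm_num)

/-- `u_D` is smooth off the nuclei. -/
theorem tx_contDiffOn_uD : ContDiffOn ℝ ∞ uD nucleiᶜ := by
  intro x hx
  have h1 : x - bigD • ez ≠ 0 := by
    intro h
    exact hx (Or.inl (sub_eq_zero.1 h))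
  have h2 : x + bigD • ez ≠ 0 := by
    intro h
    exact hx (Or.inr (by rw [Set.mem_singleton_iff]; exact eq_neg_of_add_eq_zero_left h))
  have c1 : ContDiffAt ℝ ∞ (fun y : Space => ‖y - bigD • ez‖) x :=
    (contDiffAt_norm ℝ h1).comp x (contDiffAt_id.sub contDiffAt_const)
  have c2 : ContDiffAt ℝ ∞ (fun y : Space => ‖y + bigD • ez‖) x :=
    (contDiffAt_norm ℝ h2).comp x (contDiffAt_id.add contDiffAt_const)
  have : ContDiffAt ℝ ∞ uD x := by
    unfold uD nuclearPotential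
    exact ((contDiffAt_const.div c1 (norm_ne_zero_iff.2 h1)).neg).sub
      (contDiffAt_const.div c2 (norm_ne_zero_iff.2 h2))
  exact this.contDiffWithinAt

/-- `u_D ≤ 0` everywhere. -/
theorem tx_uD_nonpos (x : Space) : uD x ≤ 0 := by
  unfold uD nuclearPotential
  have h1 : 0 ≤ 1 / ‖x - bigD • ez‖ := by positivity
  have h2 : 0 ≤ 1 / ‖x + bigD • ez‖ := by positivity
  linarith

/-- `-4/r ≤ u_D ≤ 0` for `r ≥ 2D` (`|x ∓ D e_z| ≥ r - D ≥ r/2`). -/
theorem tx_uD_bounds {x : Space} (hx : 2 * bigD ≤ ‖x‖) : -(4 / ‖x‖) ≤ uD x ∧ uD x ≤ 0 := by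
  refine ⟨?_, tx_uD_nonpos x⟩
  have hD := tx_bigD_pos
  have hx0 : 0 < ‖x‖ := by linarith
  have hn : ‖bigD • ez‖ = bigD := by
    rw [norm_smul, tx_norm_ez, mul_one, Real.norm_of_nonneg hD.le]
  have h1 : ‖x‖ / 2 ≤ ‖x - bigD • ez‖ := by
    have := norm_sub_norm_le x (bigD • ez)
    rw [hn] at this
    linarith
  have h2 : ‖x‖ / 2 ≤ ‖x + bigD • ez‖ := by
    have := norm_sub_norm_le x (-(bigD • ez))
    rw [norm_neg, hn, sub_neg_eq_add] at this
    linarith
  have h3 : 1 / ‖x - bigD • ez‖ ≤ 2 / ‖x‖ := by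
    rw [div_le_div_iff₀ (by linarith) hx0]
    linarith
  have h4 : 1 / ‖x + bigD • ez‖ ≤ 2 / ‖x‖ := by
    rw [div_le_div_iff₀ (by linarith) hx0]
    linarith
  unfold uD nuclearPotential
  have : 4 / ‖x‖ = 2 / ‖x‖ + 2 / ‖x‖ := by ring
  linarith

end geom

/-! ## LEAF TX-A1: weak form + smoothness ⇒ classical equation

Route.  Let `φ ∈ C_c^∞` with `tsupport φ ⊆ nucleiᶜ`.
* `IsH1 φ (gradient φ)` (`isWeakGrad_gradient`, `ChargeLemmas`; `MemLp` by continuity + compact support; or `enH1_of_contDiff`, `ENH1.lean`).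
* `hf.2.2 = ⟨F, hF, heq⟩`; `heq φ (gradient φ) _ : ½∫⟪∇φ,F⟫ + ∫ u (φ f) = ε ∫ φ f`.
* `hF.2.2.2.2 (∂ⱼφ) _ _ eⱼ : ∫ f ∂ⱼ∂ⱼφ = -∫ ⟪F,eⱼ⟫ ∂ⱼφ`; sum over `j` (`laplacian_eq_sum_dfield`): `∫ f Δφ = -∫⟪F,∇φ⟫`.
* `tx_ibp`: replace `f` by `χ f` with `χ ∈ C_c^∞`, `χ = 1` near `tsupport φ`, `tsupport χ ⊆ nucleiᶜ` (`exists_contDiff_tsupport_subset` or
  `exists_smooth_one_nhds_of_subset_interior`), then twice `integral_mul_fderiv_eq_neg_fderiv_mul_of_integrable`-type integration by parts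
  (as in `isWeakGrad_gradient`).
* `IsOpen.ae_eq_zero_of_integral_contDiff_smul_eq_zero` on the open set `nucleiᶜ` + continuity. -/

section A1

/-- a function continuous off the nuclei times a continuous function supported off the nuclei. -/
theorem tx_continuous_mul_off {g φ : Space → ℝ} (hg : ContinuousOn g nucleiᶜ) (hφ : Continuous φ)
    (hs : tsupport φ ⊆ nucleiᶜ) : Continuous fun x => g x * φ x := by
  rw [continuous_iff_continuousAt]
  intro x
  by_cases hx : x ∈ tsupport φ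
  · exact (hg.continuousAt (tx_isOpen_nuclei_compl.mem_nhds (hs hx))).mul hφ.continuousAt
  · have : (fun y => g y * φ y) =ᶠ[𝓝 x] fun _ => 0 := by
      filter_upwards [notMem_tsupport_iff_eventuallyEq.1 hx] with y hy
      simp [hy]
    exact continuousAt_const.congr this.symm

theorem tx_contDiff_mul_off {g χ : Space → ℝ} (hg : ContDiffOn ℝ ∞ g nucleiᶜ) (hχ : ContDiff ℝ ∞ χ)
    (hs : tsupport χ ⊆ nucleiᶜ) : ContDiff ℝ ∞ fun x => g x * χ x := by
  rw [contDiff_iff_contDiffAt]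
  intro x
  by_cases hx : x ∈ tsupport χ
  · exact (hg.contDiffAt (tx_isOpen_nuclei_compl.mem_nhds (hs hx))).mul hχ.contDiffAt
  · have : (fun y => g y * χ y) =ᶠ[𝓝 x] fun _ => 0 := by
      filter_upwards [notMem_tsupport_iff_eventuallyEq.1 hx] with y hy
      simp [hy]
    exact contDiffAt_const.congr_of_eventuallyEq this

theorem tx_laplacian_eq_zero {φ : Space → ℝ} {x : Space} (hx : x ∉ tsupport φ) : Δ φ x = 0 := by
  have h : φ =ᶠ[𝓝 x] fun _ => (0 : ℝ) := notMem_tsupport_iff_eventuallyEq.1 hx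
  rw [(InnerProductSpace.laplacian_congr_nhds h).eq_of_nhds, laplacian_eq_sum_snd]
  simp

theorem tx_continuousOn_laplacian {f : Space → ℝ} (hf : ContDiffOn ℝ ∞ f nucleiᶜ) :
    ContinuousOn (Δ f) nucleiᶜ := by
  have h1 : ContDiffOn ℝ ∞ (fderiv ℝ f) nucleiᶜ := hf.fderiv_of_isOpen tx_isOpen_nuclei_compl (by simp)
  have h2 : ContDiffOn ℝ ∞ (fderiv ℝ (fderiv ℝ f)) nucleiᶜ :=
    h1.fderiv_of_isOpen tx_isOpen_nuclei_compl (by simp)
  have e : Δ f = fun x => ∑ j : Fin 3, fderiv ℝ (fderiv ℝ f) x (EuclideanSpace.single j 1)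
      (EuclideanSpace.single j 1) := funext fun x => laplacian_eq_sum_snd f x
  rw [e]
  exact continuousOn_finsetSum _ fun j _ =>
    (h2.continuousOn.clm_apply continuousOn_const).clm_apply continuousOn_const

theorem tx_very_weak {f : Space → ℝ} {ε : ℝ} (hf : IsOrbital f ε) {φ : Space → ℝ}
    (hφ : ContDiff ℝ ∞ φ) (hc : HasCompactSupport φ) (hs : tsupport φ ⊆ nucleiᶜ) :
    (1 / 2) * ∫ x, f x * Δ φ x = ∫ x, (uD x - ε) * f x * φ x := by
  obtain ⟨hcont, -, F, hF, heq⟩ := hf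
  have hφ1 : ContDiff ℝ 1 φ := hφ.of_le (by simp)
  have hφ2 : ContDiff ℝ 2 φ := hφ.of_le (by norm_cast)
  have h1 := heq φ (gradient φ) (enH1_of_contDiff hφ1 hc)
  have h2 := ob_ibp_laplacian hF.2.2 hφ2 hc
  unfold orbitalForm at h1
  have e1 : ∫ x, ⟪gradient φ x, F x⟫_ℝ = ∫ x, ⟪F x, gradient φ x⟫_ℝ := by
    simp only [real_inner_comm]
  have c1 : Continuous fun x => uD x * φ x :=
    tx_continuous_mul_off tx_contDiffOn_uD.continuousOn hφ.continuous hs
  have i1 : Integrable fun x => uD x * (φ x * f x) := by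
    have h3 : Continuous fun x => uD x * (φ x * f x) := by
      have : Continuous fun x => (uD x * φ x) * f x := c1.mul hcont
      simpa only [mul_assoc] using this
    exact h3.integrable_of_hasCompactSupport (HasCompactSupport.intro hc.isCompact fun x hx => by
      simp [image_eq_zero_of_notMem_tsupport hx])
  have i2 : Integrable fun x => φ x * f x :=
    (hφ.continuous.mul hcont).integrable_of_hasCompactSupport
      (HasCompactSupport.intro hc.isCompact fun x hx => by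
        simp [image_eq_zero_of_notMem_tsupport hx])
  have e2 : ∫ x, (uD x - ε) * f x * φ x = (∫ x, uD x * (φ x * f x)) - ε * ∫ x, φ x * f x := by
    rw [← integral_const_mul, ← integral_sub i1 (i2.const_mul ε)]
    refine integral_congr_ae (Eventually.of_forall fun x => ?_)
    simp only
    ring
  rw [e2]
  rw [e1, h2] at h1
  linarith

theorem tx_ibp {f : Space → ℝ} (hf : ContDiffOn ℝ ∞ f nucleiᶜ) {φ : Space → ℝ}
    (hφ : ContDiff ℝ ∞ φ) (hc : HasCompactSupport φ) (hs : tsupport φ ⊆ nucleiᶜ) :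
    ∫ x, f x * Δ φ x = ∫ x, Δ f x * φ x := by
  have hcl : IsClosed (nuclei : Set Space) := ((Set.finite_singleton _).insert _).isClosed
  obtain ⟨χ, h0, h1, -⟩ := exists_contMDiffMap_zero_one_nhds_of_isClosed (n := (⊤ : ℕ∞)) (modelWithCornersSelf ℝ Space) hcl
    (isClosed_tsupport φ) (Set.disjoint_left.2 fun x hx hx' => hs hx' hx)
  have hχ : ContDiff ℝ ∞ (χ : Space → ℝ) := χ.contMDiff.contDiff
  have hχs : tsupport (χ : Space → ℝ) ⊆ nucleiᶜ := by
    intro x hx hxn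
    have : ∀ᶠ y in 𝓝 x, χ y = 0 := (Filter.eventually_iff.1 h0 |> fun h => mem_nhdsSet_iff_forall.1 h x hxn)
    exact (notMem_tsupport_iff_eventuallyEq.2 this) hx
  have hχ1 : ∀ x ∈ tsupport φ, ∀ᶠ y in 𝓝 x, χ y = 1 := fun x hx =>
    mem_nhdsSet_iff_forall.1 (Filter.eventually_iff.1 h1) x hx
  have hg : ContDiff ℝ ∞ fun x => f x * χ x := tx_contDiff_mul_off hf hχ hχs
  have key := ob_green (hg.of_le (by norm_cast)) (hφ.of_le (by norm_cast) : ContDiff ℝ 2 φ) hc
  have e1 : ∫ x, f x * Δ φ x = ∫ x, (f x * χ x) * Δ φ x := by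
    refine integral_congr_ae (Eventually.of_forall fun x => ?_)
    simp only
    by_cases hx : x ∈ tsupport φ
    · rw [(hχ1 x hx).self_of_nhds, mul_one]
    · rw [tx_laplacian_eq_zero hx, mul_zero, mul_zero]
  have e2 : ∫ x, Δ (fun x => f x * χ x) x * φ x = ∫ x, Δ f x * φ x := by
    refine integral_congr_ae (Eventually.of_forall fun x => ?_)
    simp only
    by_cases hx : x ∈ tsupport φ
    · have : (fun y => f y * χ y) =ᶠ[𝓝 x] f := by
        filter_upwards [hχ1 x hx] with y hy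
        rw [hy, mul_one]
      rw [(InnerProductSpace.laplacian_congr_nhds this).eq_of_nhds]
    · rw [image_eq_zero_of_notMem_tsupport hx, mul_zero, mul_zero]
  rw [e1, key, e2]

theorem tx_classical_eq {f : Space → ℝ} {ε : ℝ} (hf : IsOrbital f ε)
    (hs : ContDiffOn ℝ ∞ f nucleiᶜ) :
    ∀ x, x ∉ nuclei → (1 / 2) * Δ f x = (uD x - ε) * f x := by
  set w : Space → ℝ := fun x => (1 / 2) * Δ f x - (uD x - ε) * f x with hw
  have hΔ := tx_continuousOn_laplacian hs
  have hu : ContinuousOn uD nucleiᶜ := tx_contDiffOn_uD.continuousOn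
  have hwc : ContinuousOn w nucleiᶜ :=
    (continuousOn_const.mul hΔ).sub ((hu.sub continuousOn_const).mul hs.continuousOn)
  have hae : ∀ᵐ x, x ∈ (nucleiᶜ : Set Space) → w x = 0 := by
    refine tx_isOpen_nuclei_compl.ae_eq_zero_of_integral_contDiff_smul_eq_zero
      (hwc.locallyIntegrableOn tx_isOpen_nuclei_compl.measurableSet) fun φ hφ hc hsφ => ?_
    have h1 := tx_very_weak hf hφ hc hsφ
    rw [tx_ibp hs hφ hc hsφ] at h1
    have cpt : ∀ g : Space → ℝ, ContinuousOn g nucleiᶜ → Integrable fun x => g x * φ x := fun g hg =>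
      (tx_continuous_mul_off hg hφ.continuous hsφ).integrable_of_hasCompactSupport
        (HasCompactSupport.intro hc.isCompact fun x hx => by
          simp [image_eq_zero_of_notMem_tsupport hx])
    have i1 := cpt _ hΔ
    have i2 := cpt (fun x => (uD x - ε) * f x) ((hu.sub continuousOn_const).mul hs.continuousOn)
    have : ∫ x, φ x • w x = (1 / 2) * (∫ x, Δ f x * φ x) - ∫ x, (uD x - ε) * f x * φ x := by
      rw [← integral_const_mul, ← integral_sub (i1.const_mul _) i2]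
      refine integral_congr_ae (Eventually.of_forall fun x => ?_)
      simp only [hw, smul_eq_mul]
      ring
    rw [this, h1, sub_self]
  have hEq : Set.EqOn w (fun _ => 0) nucleiᶜ := by
    refine Measure.eqOn_open_of_ae_eq (μ := volume) ?_ tx_isOpen_nuclei_compl hwc continuousOn_const
    exact (ae_restrict_iff' tx_isOpen_nuclei_compl.measurableSet).2 hae
  intro x hx
  have := hEq hx
  simp only [hw] at this
  linarith

end A1

/-! ## A2 (glue): decay at infinity, `TXSol` -/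

section A2

theorem tx_tendsto_zero {f : Space → ℝ} {ε : ℝ} (hf : IsOrbital f ε) :
    Tendsto f (cocompact Space) (𝓝 0) := by
  obtain ⟨hc, -, F, hF, heq⟩ := hf
  obtain ⟨f', hc', hae, ht⟩ := exists_continuous_rep_of_orbital_eq hF heq
  have : f' = f := eq_of_continuous_ae_eq hc' hc hae
  rwa [this] at ht

theorem txRate_sq {ε : ℝ} (h : 0 < txRate ε) : txRate ε ^ 2 = -(2 * ε) := by
  unfold txRate at *
  exact Real.sq_sqrt (Real.sqrt_pos.1 h).le

theorem txSol_of_orbital {f : Space → ℝ} {ε : ℝ} (hf : IsOrbital f ε)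
    (hs : ContDiffOn ℝ ∞ f nucleiᶜ) (h1 : 0.9 < txRate ε) (h2 : txRate ε < 1.1) :
    TXSol f (txRate ε) where
  k_lo := h1
  k_hi := h2
  smooth := hs
  eq := fun x hx => by
    rw [tx_classical_eq hf hs x hx, txRate_sq (by linarith)]
    ring
  decay := tx_tendsto_zero hf

end A2

/-! ## LEAF TX-R: radial operator formulas (with section `geom` above)

From `laplacian_radial_mul_height` (T10, `CHTB`) with `P = 1`, `P = z`, `deriv_radialA`, `iteratedDeriv_two_radialA`.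
`ψ = radialA κ a`: `ψ' = (-κ + a/r) ψ`, `ψ'' = ((-κ + a/r)² - a/r²) ψ`; `Δ(ψ(r)) = ψ'' + 2ψ'/r`, `Δ(ψ(r) z) = z (ψ'' + 4ψ'/r)`. -/

section R

theorem tx_contDiffAt_radialA (κ a : ℝ) {r : ℝ} (hr : 0 < r) : ContDiffAt ℝ ∞ (radialA κ a) r :=
  (contDiffOn_radialA κ a r hr).contDiffAt (Ioi_mem_nhds hr)

/-- `(-½Δ + κ²/2 - 2/r)(e^{-κ r} r^a) = e^{-κ r} r^a [ (κ(a+1) - 2)/r - a(a+1)/(2r²) ]`. -/
theorem tx_op_radial (κ a : ℝ) {x : Space} (hx : x ≠ 0) :
    -(1 / 2) * Δ (fun y : Space => radialA κ a ‖y‖) x + (κ ^ 2 / 2 - 2 / ‖x‖) * radialA κ a ‖x‖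
      = radialA κ a ‖x‖ * ((κ * (a + 1) - 2) / ‖x‖ - a * (a + 1) / (2 * ‖x‖ ^ 2)) := by
  have hr : 0 < ‖x‖ := norm_pos_iff.2 hx
  rw [laplacian_radial hx ((tx_contDiffAt_radialA κ a hr).of_le (by norm_cast)),
    iteratedDeriv_two_radialA κ a hr, deriv_radialA κ a hr]
  field_simp
  ring

/-- `(-½Δ + κ²/2 - 2/r)(e^{-κ r} r^a z) = e^{-κ r} r^a z [ (κ(a+2) - 2)/r - a(a+3)/(2r²) ]`. -/
theorem tx_op_radial_z (κ a : ℝ) {x : Space} (hx : x ≠ 0) :
    -(1 / 2) * Δ (fun y : Space => radialA κ a ‖y‖ * y 2) x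
        + (κ ^ 2 / 2 - 2 / ‖x‖) * (radialA κ a ‖x‖ * x 2)
      = radialA κ a ‖x‖ * x 2 * ((κ * (a + 2) - 2) / ‖x‖ - a * (a + 3) / (2 * ‖x‖ ^ 2)) := by
  have hr : 0 < ‖x‖ := norm_pos_iff.2 hx
  have h := laplacian_radial_mul_height (ψ := radialA κ a) (P := fun s => s) hx
    ((tx_contDiffAt_radialA κ a hr).of_le (by norm_cast)) contDiffAt_id
  have hP2 : iteratedDeriv 2 (fun s : ℝ => s) (x 2) = 0 := by
    rw [iteratedDeriv_succ, iteratedDeriv_one]
    have : deriv (fun s : ℝ => s) = fun _ => 1 := by funext s; simp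
    rw [this]; simp
  have hP1 : deriv (fun s : ℝ => s) (x 2) = 1 := by simp
  rw [h, hP2, hP1, iteratedDeriv_two_radialA κ a hr, deriv_radialA κ a hr]
  field_simp
  ring

theorem tx_contDiffOn_radialA_norm (κ a : ℝ) :
    ContDiffOn ℝ ∞ (fun y : Space => radialA κ a ‖y‖) (Ext 0) := by
  intro x hx
  have hx0 : x ≠ 0 := ne_zero_of_mem_Ext le_rfl hx
  exact ((tx_contDiffAt_radialA κ a (norm_pos_iff.2 hx0)).comp x
    (contDiffAt_norm ℝ hx0)).contDiffWithinAt

/-- `r^a / r = r^{a-1}`. -/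
theorem tx_radialA_div (κ a : ℝ) {r : ℝ} (hr : 0 < r) : radialA κ a r / r = radialA κ (a - 1) r := by
  unfold radialA
  rw [Real.rpow_sub_one hr.ne']
  ring

/-- `e^{-κ r} r^a → 0`. -/
theorem tx_tendsto_radialA {κ : ℝ} (hκ : 0 < κ) (a : ℝ) : Tendsto (radialA κ a) atTop (𝓝 0) := by
  have h := tendsto_rpow_mul_exp_neg_mul_atTop_nhds_zero a κ hκ
  refine h.congr fun r => ?_
  unfold radialA
  rw [mul_comm, neg_mul]

/-- `|u_D + 2/r| ≤ C r⁻³` (`uD_wordBdd` with the empty word). -/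
theorem tx_uD_add : ∃ C : ℝ, 0 ≤ C ∧ ∀ x ∈ Ext (2 * bigD), |uD x + 2 / ‖x‖| ≤ C * (‖x‖ ^ 3)⁻¹ := by
  obtain ⟨C, -, h, -⟩ := uD_wordBdd
  refine ⟨max (C 0) 0, le_max_right _ _, fun x hx => ?_⟩
  have := h.2 [] x hx
  simp only [dword_nil, List.length_nil, Real.norm_eq_abs] at this
  exact this.trans (mul_le_mul_of_nonneg_right (le_max_left _ _) (by positivity))

end R

/-! ## LEAF TX-B: exponential decay

`comparison_principle` (`CHTC`) with `𝒦 = ℂ`, `H = fun x => (f x : ℂ)`, `R₀ = 2D`, `q = u_D + k²/2`, `s = 0`,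
`Φ = C₁ radialA (1/2) 0 ‖x‖ = C₁ e^{-r/2}`, `C₁ = (1 + sup_{|x| = 2D} |f|) e^{D}`.
* `hq`: `q ≥ 0.405 - 4/r > 0` (`tx_uD_bounds`, `r ≥ 2D ≥ 2·10^200`).
* `hsub`: `½ Re⟪H,ΔH⟫ = ½ f Δf = q f²` (`Δ (ofReal ∘ f) = ofReal (Δ f)`: `laplacian_eq_sum_dfield` + `dword_clm`, or
  `ContinuousLinearMap` commutes with `Δ`: `ContDiffAt.laplacian_CLM_comp_left`).
* `hsup`: `tx_op_radial (1/2) 0`: `-½ΔΦ = Φ (-1/8 + 1/(2r))`, so `-½ΔΦ + qΦ ≥ Φ (0.28 - 4/r) ≥ 0`. -/

section B

theorem tx_hundred_le_bigD : (100 : ℝ) ≤ bigD := by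
  unfold bigD
  calc (100 : ℝ) = 10 ^ 2 := by norm_num
    _ ≤ 10 ^ 200 := pow_le_pow_right₀ (by norm_num) (by norm_num)

theorem TXSol.exp_decay {f : Space → ℝ} {k : ℝ} (h : TXSol f k) :
    ∃ C : ℝ, 0 ≤ C ∧ ∀ x : Space, 2 * bigD ≤ ‖x‖ → |f x| ≤ C * Real.exp (-(‖x‖ / 2)) := by
  have hD := tx_hundred_le_bigD
  have hR0 : (0 : ℝ) < 2 * bigD := by linarith
  have hat : ∀ x : Space, 2 * bigD ≤ ‖x‖ → ContDiffAt ℝ ∞ f x := fun x hx =>
    (h.smooth x (tx_not_mem_nuclei (by linarith))).contDiffAt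
      (tx_isOpen_nuclei_compl.mem_nhds (tx_not_mem_nuclei (by linarith)))
  -- the sphere
  have hS : IsCompact (Metric.sphere (0 : Space) (2 * bigD)) := isCompact_sphere _ _
  have hfS : ContinuousOn (fun x => |f x|) (Metric.sphere (0 : Space) (2 * bigD)) := fun x hx =>
    ((hat x (by rw [mem_sphere_zero_iff_norm] at hx; linarith)).continuousAt.abs).continuousWithinAt
  obtain ⟨M, hM⟩ := hS.bddAbove_image hfS
  have hM' : ∀ x : Space, ‖x‖ = 2 * bigD → |f x| ≤ M := fun x hx =>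
    hM ⟨x, by rw [mem_sphere_zero_iff_norm]; exact hx, rfl⟩
  set C₁ := (1 + |M|) * Real.exp bigD with hC₁
  have hC₁0 : 0 < C₁ := by positivity
  have hrad : ∀ r : ℝ, 0 < r → radialA (1 / 2) 0 r = Real.exp (-(r / 2)) := by
    intro r hr
    unfold radialA
    rw [Real.rpow_zero, mul_one]
    congr 1; ring
  have hq : ∀ x : Space, 2 * bigD ≤ ‖x‖ → 0 < uD x + k ^ 2 / 2 := by
    intro x hx
    obtain ⟨a1, a2⟩ := tx_uD_bounds hx
    have hr : 0 < ‖x‖ := by linarith
    have a3 : 4 / ‖x‖ ≤ 0.1 := by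
      rw [div_le_iff₀ hr]; linarith
    have := h.k_lo
    nlinarith
  have hΦs : ContDiffOn ℝ ∞ (fun x : Space => C₁ * radialA (1 / 2) 0 ‖x‖) (Ext 0) :=
    contDiffOn_const.mul (tx_contDiffOn_radialA_norm _ _)
  have key := comparison_principle (𝒦 := ℂ) (H := fun x => (f x : ℂ))
    (Φ := fun x => C₁ * radialA (1 / 2) 0 ‖x‖) (q := fun x => uD x + k ^ 2 / 2) (s := fun _ => 0)
    (R₀ := 2 * bigD)
    (fun x hx => (Complex.ofRealCLM.contDiff.contDiffAt.comp x
      ((hat x (le_of_lt hx)).of_le (by norm_cast))).contDiffWithinAt)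
    (fun x hx => (Complex.continuous_ofReal.continuousAt.comp (hat x hx).continuousAt).continuousWithinAt)
    (by
      have := h.decay.norm
      simpa using this)
    ((hΦs.of_le (by norm_cast)).mono (Ext_mono hR0.le))
    (fun x hx => (hΦs.continuousOn x (lt_of_lt_of_le hR0 hx)).mono
      (fun y hy => lt_of_lt_of_le hR0 hy))
    (fun x hx => mul_pos hC₁0 (radialA_pos _ _ (by linarith)))
    ?_ ?_ ?_ ?_
  · refine ⟨C₁, hC₁0.le, fun x hx => ?_⟩
    have := key x hx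
    rw [hrad _ (by linarith)] at this
    simpa using this
  · intro x hx
    exact hq x (le_of_lt hx)
  · intro x hx
    have hx' : 2 * bigD ≤ ‖x‖ := le_of_lt hx
    have hfx : ContDiffAt ℝ 2 f x := (hat x hx').of_le (by norm_cast)
    have e1 : Δ (fun y => (f y : ℂ)) x = ((Δ f x : ℝ) : ℂ) := by
      have := hfx.laplacian_CLM_comp_left (l := Complex.ofRealCLM)
      simpa [Function.comp_def] using this
    have e2 := h.eq x (tx_not_mem_nuclei (by linarith))
    rw [e1]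
    have e3 : (⟪(f x : ℂ), ((Δ f x : ℝ) : ℂ)⟫_ℂ).re = f x * Δ f x := by
      simp [mul_comm]
    rw [e3]
    have e4 : ‖(f x : ℂ)‖ ^ 2 = f x ^ 2 := by
      rw [Complex.norm_real, Real.norm_eq_abs, sq_abs]
    rw [e4]
    have e5 : 1 / 2 * (f x * Δ f x) = f x * (1 / 2 * Δ f x) := by ring
    rw [e5, e2]
    apply le_of_eq
    ring
  · intro x hx
    have hx' : 2 * bigD ≤ ‖x‖ := le_of_lt hx
    have hr : 0 < ‖x‖ := by linarith
    have hx0 : x ≠ 0 := norm_pos_iff.1 hr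
    have hc : ContDiffAt ℝ 2 (fun y : Space => radialA (1 / 2) 0 ‖y‖) x :=
      ((tx_contDiffOn_radialA_norm (1 / 2) 0).contDiffAt
        (Ext_mem_nhds (R := 0) hr)).of_le (by norm_cast)
    have e1 : Δ (fun y : Space => C₁ * radialA (1 / 2) 0 ‖y‖) x
        = C₁ * Δ (fun y : Space => radialA (1 / 2) 0 ‖y‖) x := by
      have := InnerProductSpace.laplacian_smul (𝕜 := ℝ) C₁ hc
      simp only [smul_eq_mul] at this
      have e : (fun y : Space => C₁ * radialA (1 / 2) 0 ‖y‖)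
          = C₁ • (fun y : Space => radialA (1 / 2) 0 ‖y‖) := by funext y; simp
      rw [e, this]
    rw [e1]
    have o := tx_op_radial (1 / 2) 0 hx0
    have hψ := radialA_pos (1 / 2) 0 hr
    set ψ := radialA (1 / 2) 0 ‖x‖ with hψdef
    set L := Δ (fun y : Space => radialA (1 / 2) 0 ‖y‖) x with hL
    obtain ⟨u1, u2⟩ := tx_uD_bounds hx'
    have a3 : 1 / ‖x‖ ≤ 0.005 := by
      rw [div_le_iff₀ hr]; linarith
    have a3' : 0 < 1 / ‖x‖ := by positivity
    set ρ := 1 / ‖x‖ with hρ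
    have e4 : 4 / ‖x‖ = 4 * ρ := by rw [hρ]; ring
    have e5 : 2 / ‖x‖ = 2 * ρ := by rw [hρ]; ring
    have e6 : ((1 / 2 : ℝ) * (0 + 1) - 2) / ‖x‖ = -(3 / 2) * ρ := by rw [hρ]; ring
    rw [e5, e6] at o
    rw [e4] at u1
    have o' : -(1 / 2) * L = ψ * (-(3 / 2) * ρ) - ((1 / 2 : ℝ) ^ 2 / 2 - 2 * ρ) * ψ := by
      have : (0 : ℝ) * (0 + 1) / (2 * ‖x‖ ^ 2) = 0 := by simp
      rw [this] at o
      linarith
    have hk := h.k_lo
    have : -(1 / 2) * (C₁ * L) + (uD x + k ^ 2 / 2) * (C₁ * ψ)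
        = C₁ * ψ * (ρ / 2 - 1 / 8 + uD x + k ^ 2 / 2) := by
      have : -(1 / 2) * (C₁ * L) = C₁ * (-(1 / 2) * L) := by ring
      rw [this, o']; ring
    rw [this]
    apply mul_nonneg (mul_nonneg hC₁0.le hψ.le)
    nlinarith
  · intro x hx
    have hr : 0 < ‖x‖ := by linarith
    rw [hrad _ hr, hx, Complex.norm_real, Real.norm_eq_abs]
    have e : C₁ * Real.exp (-(2 * bigD / 2)) = 1 + |M| := by
      rw [hC₁, mul_assoc, ← Real.exp_add]
      have : bigD + -(2 * bigD / 2) = 0 := by ring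
      rw [this, Real.exp_zero, mul_one]
    rw [e]
    have := hM' x hx
    have := le_abs_self M
    linarith

end B

end Claimed.Open.R278
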