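import Claimed.Open.R278.TXLow

/-!
# Result 278, package TX, file 2: a priori decay of all words of an exterior solution

Goal: `TXSol.apriori : ∃ C, WordBdd (2D) C (e^{-r/4}) f` (this is the field `F_bdd` of `ChannelCore`).

Leaves: `TX-G1` (interior gradient estimate), `TX-G2` (one step of the induction), `TX-G3` (annulus + absorption).
The assembly at the end is proved.  No paper reading needed.
-/

open MeasureTheory Filter
open scoped ContDiff InnerProductSpace ComplexConjugate ENNReal Topology Laplacian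

noncomputable section

namespace Claimed.Open.R278

/-! ## LEAF TX-G1: the interior gradient estimate

PROVED by Brandt's maximum principle argument (Gilbarg-Trudinger, Theorem 3.9), no potential theory:
translate to `x = 0`; `S` = reflection in the `j`-th coordinate, `φ = (v - v∘S)/2`, on the half ball `U = {|y| < 1, y_j > 0}` compare with the
barrier `M (|y|² + 4 y_j - 4 y_j²)` (`Δ = -2M`) by `tx_max_principle` (`q = 1/2`); `φ(s e_j) ≤ 4 M s` gives `∂_j v(0) ≤ 4M`.  `C₀ = 12`. -/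

section G1

/-- the Laplacian commutes with linear isometries. -/
theorem tx_laplacian_comp_isometry (L : Space ≃ₗᵢ[ℝ] Space) (H : Space → ℝ) (x : Space) :
    Δ (fun y => H (L y)) x = Δ H (L x) := by
  have h := L.toContinuousLinearEquiv.iteratedFDerivWithin_comp_right H uniqueDiffOn_univ
    (Set.mem_univ (L.toContinuousLinearEquiv x)) 2
  rw [Set.preimage_univ, iteratedFDerivWithin_univ, iteratedFDerivWithin_univ] at h
  have e : (fun y => H (L y)) = H ∘ L.toContinuousLinearEquiv := rfl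
  rw [InnerProductSpace.laplacian_eq_iteratedFDeriv_orthonormalBasis _
      (EuclideanSpace.basisFun (Fin 3) ℝ),
    InnerProductSpace.laplacian_eq_iteratedFDeriv_orthonormalBasis _
      ((EuclideanSpace.basisFun (Fin 3) ℝ).map L), e]
  simp only [h, ContinuousMultilinearMap.compContinuousLinearMap_apply]
  refine Finset.sum_congr rfl fun j _ => ?_
  congr 1
  funext i
  fin_cases i <;> simp

theorem tx_laplacian_comp_add (H : Space → ℝ) (a x : Space) :
    Δ (fun y => H (a + y)) x = Δ H (a + x) := by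
  simp only [InnerProductSpace.laplacian_eq_iteratedFDeriv_stdOrthonormalBasis,
    iteratedFDeriv_comp_add_left]

/-- reflection in the `j`-th coordinate. -/
def txRefl (j : Fin 3) : Space ≃ₗᵢ[ℝ] Space :=
  (ℝ ∙ (EuclideanSpace.single j (1 : ℝ) : Space))ᗮ.reflection

theorem txRefl_apply (j : Fin 3) (y : Space) :
    txRefl j y = y - (2 * y j) • (EuclideanSpace.single j (1 : ℝ) : Space) := by
  unfold txRefl
  rw [Submodule.reflection_orthogonal_apply, Submodule.reflection_singleton_apply]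
  simp only [PiLp.norm_single, norm_one, EuclideanSpace.inner_single_left]
  simp only [map_one, one_mul, one_pow, div_one, neg_sub]
  rw [two_smul, two_mul, add_smul]

theorem txRefl_coord (j : Fin 3) (y : Space) : txRefl j y j = -y j := by
  rw [txRefl_apply]
  simp
  ring

theorem txRefl_of_zero (j : Fin 3) {y : Space} (h : y j = 0) : txRefl j y = y := by
  rw [txRefl_apply, h]; simp

theorem txRefl_single (j : Fin 3) (s : ℝ) :
    txRefl j (s • (EuclideanSpace.single j (1 : ℝ) : Space))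
      = (-s) • (EuclideanSpace.single j (1 : ℝ) : Space) := by
  rw [txRefl_apply]
  simp only [PiLp.smul_apply, PiLp.single_apply, if_true, smul_eq_mul, mul_one]
  rw [← sub_smul]
  congr 1
  ring

theorem tx_laplacian_const_mul (c : ℝ) {f : Space → ℝ} {x : Space} (hf : ContDiffAt ℝ 2 f x) :
    Δ (fun y => c * f y) x = c * Δ f x := by
  have := InnerProductSpace.laplacian_smul (𝕜 := ℝ) c hf
  simp only [smul_eq_mul] at this
  have e : (fun y => c * f y) = c • f := by funext y; simp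
  rw [e, this]

/-- the barrier of Brandt's gradient estimate. -/
def txBr (j : Fin 3) (y : Space) : ℝ := (y 0 ^ 2 + y 1 ^ 2 + y 2 ^ 2) + 4 * y j - 4 * y j ^ 2

theorem tx_contDiff_txBr (j : Fin 3) : ContDiff ℝ ∞ (txBr j) := by
  unfold txBr
  exact (((((contDiff_coord 0).pow 2).add ((contDiff_coord 1).pow 2)).add
    ((contDiff_coord 2).pow 2)).add (contDiff_const.mul (contDiff_coord j))).sub
    (contDiff_const.mul ((contDiff_coord j).pow 2))

theorem tx_laplacian_txBr (j : Fin 3) (x : Space) : Δ (txBr j) x = -2 := by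
  have c : ∀ (i : Fin 3), ContDiffAt ℝ 2 (fun y : Space => (y i - 0) ^ 2) x := fun i =>
    ((((contDiff_coord i).of_le (by norm_cast)).contDiffAt).sub contDiffAt_const).pow 2
  have c2 : ContDiffAt ℝ 2 (fun y : Space => y j) x := ((contDiff_coord j).of_le (by norm_cast)).contDiffAt
  have e : txBr j = fun y : Space => (((y 0 - 0) ^ 2 + (y 1 - 0) ^ 2 + (y 2 - 0) ^ 2) + 4 * y j)
      - 4 * (y j - 0) ^ 2 := by
    funext y; simp [txBr]
  rw [e, laplacian_fun_sub ((((c 0).add (c 1)).add (c 2)).add (contDiffAt_const.mul c2))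
      (contDiffAt_const.mul (c j)),
    laplacian_fun_add (((c 0).add (c 1)).add (c 2)) (contDiffAt_const.mul c2),
    laplacian_fun_add ((c 0).add (c 1)) (c 2), laplacian_fun_add (c 0) (c 1),
    tx_laplacian_const_mul 4 c2, tx_laplacian_const_mul 4 (c j), laplacian_coord,
    tx_laplacian_sq, tx_laplacian_sq, tx_laplacian_sq, tx_laplacian_sq]
  norm_num

theorem tx_grad_core {v : Space → ℝ} {M : ℝ} (hM : 0 < M)
    (hv : ContDiffOn ℝ ∞ v (Metric.ball 0 2))
    (hb : ∀ y ∈ Metric.ball (0 : Space) 2, |v y| ≤ M ∧ |Δ v y| ≤ M) (j : Fin 3) :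
    fderiv ℝ v 0 (EuclideanSpace.single j (1 : ℝ)) ≤ 4 * M := by
  set S := txRefl j with hS
  set e : Space := EuclideanSpace.single j (1 : ℝ) with he
  have hSb : ∀ y ∈ Metric.ball (0 : Space) 2, S y ∈ Metric.ball (0 : Space) 2 := by
    intro y hy
    rw [mem_ball_zero_iff] at hy ⊢
    rwa [LinearIsometryEquiv.norm_map]
  have hvS : ContDiffOn ℝ ∞ (fun y => v (S y)) (Metric.ball 0 2) :=
    hv.comp S.contDiff.contDiffOn hSb
  set U : Set Space := {y | ‖y‖ < 1 ∧ 0 < y j} with hUdef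
  have cj := tx_continuous_coord j
  have hU : IsOpen U := (isOpen_lt continuous_norm continuous_const).inter (isOpen_lt continuous_const cj)
  have hcl : closure U ⊆ {y : Space | ‖y‖ ≤ 1 ∧ 0 ≤ y j} := by
    apply closure_minimal
    · rintro y ⟨h1, h2⟩
      exact ⟨h1.le, h2.le⟩
    · exact (isClosed_le continuous_norm continuous_const).inter (isClosed_le continuous_const cj)
  have hclb : ∀ y ∈ closure U, y ∈ Metric.ball (0 : Space) 2 := by
    intro y hy
    rw [mem_ball_zero_iff]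
    have := (hcl hy).1
    linarith
  have hob : IsOpen (Metric.ball (0 : Space) 2) := Metric.isOpen_ball
  set w : Space → ℝ := fun y => (1 / 2 * v y - 1 / 2 * v (S y)) - M * txBr j y with hw
  have hwsm : ContDiffOn ℝ ∞ w (Metric.ball 0 2) :=
    ((contDiffOn_const.mul hv).sub (contDiffOn_const.mul hvS)).sub
      (contDiffOn_const.mul (tx_contDiff_txBr j).contDiffOn)
  have hjle : ∀ y : Space, y j ≤ ‖y‖ := fun y => (le_abs_self _).trans (tx_abs_coord_le y j)
  have hBr : ∀ y : Space, txBr j y = ‖y‖ ^ 2 + 4 * y j * (1 - y j) := by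
    intro y
    rw [tx_norm_sq]; unfold txBr; ring
  have key := tx_max_principle hU (w := w) (q := fun _ => 1 / 2)
    ((hwsm.of_le (by norm_cast)).mono fun y hy => hclb y (subset_closure hy))
    (hwsm.continuousOn.mono hclb) (fun _ _ => by norm_num) ?_ ?_ ?_
  · -- the derivative
    have hd : DifferentiableAt ℝ v 0 :=
      ((hv.contDiffAt (hob.mem_nhds (by simp))).differentiableAt (by simp))
    have h1 : HasDerivAt (fun s : ℝ => s • e) e 0 := by
      have := (hasDerivAt_id (0 : ℝ)).smul_const e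
      simpa using this
    have h2 : HasDerivAt (fun s : ℝ => (-s) • e) (-e) 0 := by
      have := ((hasDerivAt_id (0 : ℝ)).neg).smul_const e
      simpa using this
    have hd1 : HasFDerivAt v (fderiv ℝ v 0) ((0 : ℝ) • e) := by rw [zero_smul]; exact hd.hasFDerivAt
    have hd2 : HasFDerivAt v (fderiv ℝ v 0) ((-(0 : ℝ)) • e) := by
      rw [neg_zero, zero_smul]; exact hd.hasFDerivAt
    have g1 := hd1.comp_hasDerivAt (0 : ℝ) h1
    have g2 := hd2.comp_hasDerivAt (0 : ℝ) h2
    have g3 := (g1.const_mul (1 / 2 : ℝ)).sub (g2.const_mul (1 / 2 : ℝ))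
    have e3 : 1 / 2 * (fderiv ℝ v 0) e - 1 / 2 * (fderiv ℝ v 0) (-e) = fderiv ℝ v 0 e := by
      rw [map_neg]; ring
    rw [e3] at g3
    have lim := g3.tendsto_slope_zero_right
    refine le_of_tendsto lim ?_
    filter_upwards [Ioo_mem_nhdsGT (zero_lt_one' ℝ)] with s hs
    have hsU : s • e ∈ U := by
      refine ⟨?_, ?_⟩
      · rw [norm_smul, he]
        simp [abs_of_pos hs.1, hs.2]
      · simp [he, hs.1]
    have := key _ hsU
    simp only [hw] at this
    rw [hS, he, txRefl_single, ← he, hBr, norm_smul] at this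
    have en : ‖e‖ = 1 := by rw [he]; simp
    have ej : (s • e) j = s := by simp [he]
    rw [en, ej, Real.norm_of_nonneg hs.1.le, mul_one] at this
    simp only [Function.comp, Pi.sub_apply, zero_add, neg_zero, zero_smul, sub_self, sub_zero,
      smul_eq_mul]
    rw [inv_mul_le_iff₀ hs.1]
    nlinarith [hs.1, hs.2, mul_pos hM hs.1, mul_pos (mul_pos hM hs.1) hs.1]
  · intro y hy
    have hyb := hclb y (subset_closure hy)
    have c1 : ContDiffAt ℝ 2 v y := (hv.contDiffAt (hob.mem_nhds hyb)).of_le (by norm_cast)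
    have c2 : ContDiffAt ℝ 2 (fun y => v (S y)) y := (hvS.contDiffAt (hob.mem_nhds hyb)).of_le (by norm_cast)
    have c3 : ContDiffAt ℝ 2 (txBr j) y := ((tx_contDiff_txBr j).of_le (by norm_cast)).contDiffAt
    have eΔ : Δ w y = (1 / 2 * Δ v y - 1 / 2 * Δ v (S y)) + 2 * M := by
      simp only [hw]
      rw [laplacian_fun_sub ((contDiffAt_const.mul c1).sub (contDiffAt_const.mul c2))
          (contDiffAt_const.mul c3),
        laplacian_fun_sub (contDiffAt_const.mul c1) (contDiffAt_const.mul c2),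
        tx_laplacian_const_mul _ c1, tx_laplacian_const_mul _ c2, tx_laplacian_const_mul _ c3,
        tx_laplacian_comp_isometry, tx_laplacian_txBr]
      ring
    rw [eΔ]
    obtain ⟨a1, a2⟩ := hb y hyb
    obtain ⟨a3, a4⟩ := hb (S y) (hSb y hyb)
    have hB0 : 0 ≤ txBr j y := by
      rw [hBr]
      have : y j ≤ 1 := (hjle y).trans hy.1.le
      have := mul_nonneg hy.2.le (sub_nonneg.2 this)
      nlinarith [sq_nonneg ‖y‖]
    have := mul_nonneg hM.le hB0
    simp only [hw]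
    have b1 := abs_le.1 a1
    have b2 := abs_le.1 a2
    have b3 := abs_le.1 a3
    have b4 := abs_le.1 a4
    linarith [b1.1, b1.2, b2.1, b2.2, b3.1, b3.2, b4.1, b4.2]
  · intro y hy hyU
    obtain ⟨b1, b2⟩ := hcl hy
    have hyb := hclb y hy
    simp only [hw]
    rcases eq_or_lt_of_le b2 with h0 | h0
    · rw [hS, txRefl_of_zero j h0.symm, hBr, ← h0]
      nlinarith [sq_nonneg ‖y‖]
    · have hy1 : ‖y‖ = 1 := le_antisymm b1 (not_lt.1 fun hlt => hyU ⟨hlt, h0⟩)
      rw [hBr, hy1]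
      obtain ⟨a1, -⟩ := hb y hyb
      obtain ⟨a3, -⟩ := hb (S y) (hSb y hyb)
      have : y j ≤ 1 := (hjle y).trans b1
      have := mul_nonneg (mul_nonneg hM.le h0.le) (sub_nonneg.2 this)
      have c1 := abs_le.1 a1
      have c3 := abs_le.1 a3
      nlinarith [c1.1, c1.2, c3.1, c3.2]
  · intro ε hε
    refine ⟨2, fun y hy hy2 => ?_⟩
    exfalso
    have := hy.1
    linarith

theorem tx_grad_core_abs {v : Space → ℝ} {M : ℝ} (hM : 0 < M)
    (hv : ContDiffOn ℝ ∞ v (Metric.ball 0 2))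
    (hb : ∀ y ∈ Metric.ball (0 : Space) 2, |v y| ≤ M ∧ |Δ v y| ≤ M) (j : Fin 3) :
    |fderiv ℝ v 0 (EuclideanSpace.single j (1 : ℝ))| ≤ 4 * M := by
  rw [abs_le]
  refine ⟨?_, tx_grad_core hM hv hb j⟩
  have h := tx_grad_core (v := fun y => -v y) hM hv.neg (fun y hy => by
    obtain ⟨a1, a2⟩ := hb y hy
    have e : Δ (fun y => -v y) y = -Δ v y := by
      have := InnerProductSpace.laplacian_neg (f := v) (E := Space)
      exact congrFun this y
    rw [e, abs_neg, abs_neg]
    exact ⟨a1, a2⟩) j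
  rw [fderiv_fun_neg] at h
  simp only [_root_.neg_apply] at h
  linarith

theorem tx_opNorm_le (L : Space →L[ℝ] ℝ) {B : ℝ}
    (h : ∀ j : Fin 3, |L (EuclideanSpace.single j (1 : ℝ))| ≤ B) : ‖L‖ ≤ 3 * B := by
  have hB : 0 ≤ B := (abs_nonneg _).trans (h 0)
  refine ContinuousLinearMap.opNorm_le_bound _ (by positivity) fun y => ?_
  conv_lhs => rw [space_eq_sum_single y]
  rw [map_sum, Fin.sum_univ_three]
  simp only [map_smul, smul_eq_mul, Real.norm_eq_abs]
  have t : ∀ j : Fin 3, |y j * L (EuclideanSpace.single j (1 : ℝ))| ≤ ‖y‖ * B := fun j => by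
    rw [abs_mul]
    exact mul_le_mul (tx_abs_coord_le y j) (h j) (abs_nonneg _) (norm_nonneg _)
  have := abs_add_three (y 0 * L (EuclideanSpace.single 0 (1 : ℝ)))
    (y 1 * L (EuclideanSpace.single 1 (1 : ℝ))) (y 2 * L (EuclideanSpace.single 2 (1 : ℝ)))
  linarith [t 0, t 1, t 2]

theorem tx_grad_est : ∃ C₀ : ℝ, 0 ≤ C₀ ∧ ∀ (v : Space → ℝ) (x : Space) (M : ℝ),
    ContDiffOn ℝ ∞ v (Metric.ball x 3) → (∀ y ∈ Metric.ball x 2, |v y| ≤ M ∧ |Δ v y| ≤ M) →
    ‖fderiv ℝ v x‖ ≤ C₀ * M := by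
  refine ⟨12, by norm_num, fun v x M hv hb => ?_⟩
  have hM : 0 ≤ M := (abs_nonneg _).trans (hb x (by simp)).1
  refine le_of_forall_pos_le_add fun ε hε => ?_
  have hmap : ∀ y ∈ Metric.ball (0 : Space) 2, x + y ∈ Metric.ball x 2 := by
    intro y hy
    rw [mem_ball_zero_iff] at hy
    rw [Metric.mem_ball, dist_eq_norm]
    simpa using hy
  have hv' : ContDiffOn ℝ ∞ (fun y => v (x + y)) (Metric.ball 0 2) :=
    (hv.mono (Metric.ball_subset_ball (by norm_num))).comp
      (contDiff_const.add contDiff_id).contDiffOn hmap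
  have key := tx_opNorm_le (fderiv ℝ (fun y => v (x + y)) 0) (B := 4 * (M + ε / 12)) (fun j =>
    tx_grad_core_abs (by positivity) hv' (fun y hy => by
      obtain ⟨a1, a2⟩ := hb _ (hmap y hy)
      rw [tx_laplacian_comp_add]
      constructor <;> linarith) j)
  rw [fderiv_comp_add_left, add_zero] at key
  linarith

end G1

/-- the weights of the induction: `(1+r)^n e^{-r/2}`. -/
def txW (n : ℕ) (x : Space) : ℝ := (1 + ‖x‖) ^ n * Real.exp (-(‖x‖ / 2))

/-! ## LEAF TX-G2: one step of the induction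

Let `c = 2 (u_D + k²/2)`, so `Δ f = c f` on `Ext (2D)`.  `c ∈ WordBdd (2D) C_c 1` (`uD_wordBdd`: `|𝔇_w u_D| ≤ C/r ≤ C`; words of a constant:
`dword [] = id`, nonempty words vanish).  By `WordBddN.smul`, `c f ∈ WordBddN n ρ C'' (1 · txW n)`.
Let `w' = a :: w`, `|w| = n`, `x ∈ Ext (ρ+3)`, `v = dword w f` (smooth on `Ext (2D) ⊇ ball x 3`, `contDiffOn_dword`).  On `ball x 2 ⊆ Ext ρ`:
`|v y| ≤ C n · txW n y`, `Δ v y = dword w (Δ f) y = dword w (c f) y` (`laplacian_dword`, `dword_congr`), `|Δ v y| ≤ C'' n · txW n y`, and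
`txW n y ≤ (3 + |x|)^n e^{1} e^{-|x|/2} ≤ 3^n e · txW n x`.  `tx_grad_est` and `‖vfield a x‖ ≤ 1 + |x|` (`norm_vfield_rot_le`, `norm_vfield_trans`) give
`|dword w' f x| = |fderiv v x (vfield a x)| ≤ C₀ M (1 + |x|)`.  Words of length `≤ n`: `txW n ≤ txW (n+1)`. -/

section G2

theorem txW_nonneg (n : ℕ) (x : Space) : 0 ≤ txW n x := by unfold txW; positivity

theorem txW_succ (n : ℕ) (x : Space) : txW (n + 1) x = txW n x * (1 + ‖x‖) := by
  unfold txW; ring

theorem txW_le_succ (n : ℕ) (x : Space) : txW n x ≤ txW (n + 1) x := by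
  rw [txW_succ]
  have := txW_nonneg n x
  nlinarith [norm_nonneg x]

/-- comparison of the weights on a ball of radius `2`. -/
theorem txW_le_of_mem_ball (n : ℕ) {x y : Space} (hy : y ∈ Metric.ball x 2) :
    txW n y ≤ 3 ^ n * Real.exp 1 * txW n x := by
  rw [Metric.mem_ball, dist_eq_norm] at hy
  have h1 : ‖y‖ ≤ ‖x‖ + 2 := by
    have := norm_le_insert' y x
    linarith
  have h2 : ‖x‖ - 2 ≤ ‖y‖ := by
    have := norm_le_insert y x
    linarith
  unfold txW
  have a1 : (1 + ‖y‖) ^ n ≤ 3 ^ n * (1 + ‖x‖) ^ n := by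
    rw [← mul_pow]
    apply pow_le_pow_left₀ (by positivity)
    nlinarith [norm_nonneg x]
  have a2 : Real.exp (-(‖y‖ / 2)) ≤ Real.exp 1 * Real.exp (-(‖x‖ / 2)) := by
    rw [← Real.exp_add]
    apply Real.exp_le_exp.2
    linarith
  calc (1 + ‖y‖) ^ n * Real.exp (-(‖y‖ / 2))
      ≤ (3 ^ n * (1 + ‖x‖) ^ n) * (Real.exp 1 * Real.exp (-(‖x‖ / 2))) :=
        mul_le_mul a1 a2 (Real.exp_pos _).le (by positivity)
    _ = _ := by ring

theorem tx_norm_vfield_le (a : Fin 3 ⊕ Fin 3) (x : Space) : ‖vfield a x‖ ≤ 1 + ‖x‖ := by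
  rcases a with j | i
  · rw [norm_vfield_trans]; linarith [norm_nonneg x]
  · have := norm_vfield_rot_le i x
    linarith

theorem tx_ball_subset_Ext {ρ : ℝ} {x : Space} (hx : x ∈ Ext (ρ + 3)) : Metric.ball x 3 ⊆ Ext ρ := by
  intro y hy
  rw [Metric.mem_ball, dist_eq_norm] at hy
  have hx' : ρ + 3 < ‖x‖ := hx
  have := norm_le_insert y x
  show ρ < ‖y‖
  linarith

theorem tx_word_step {f : Space → ℝ} {k : ℝ} (h : TXSol f k) (n : ℕ) {ρ : ℝ} (hρ : 2 * bigD ≤ ρ)
    {C : ℕ → ℝ} (hn : WordBddN n ρ C (txW n) f) :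
    ∃ C' : ℕ → ℝ, WordBddN (n + 1) (ρ + 3) C' (txW (n + 1)) f := by
  obtain ⟨C₀, hC₀, hgrad⟩ := tx_grad_est
  obtain ⟨Cu, hu, -, -⟩ := uD_wordBdd
  have hD := tx_one_le_bigD
  -- `Δ f = 2 u f + k² f`
  set L2 : ℝ →L[ℝ] ℝ := (2 : ℝ) • ContinuousLinearMap.id ℝ ℝ with hL2
  set Lk : ℝ →L[ℝ] ℝ := (k ^ 2) • ContinuousLinearMap.id ℝ ℝ with hLk
  have hu' : WordBddN n ρ Cu (fun x => ‖x‖⁻¹) uD := (hu.toN n).mono hρ fun _ _ _ _ => le_rfl
  have h1 := WordBddN.smul (fun x _ => by positivity) (fun x _ => txW_nonneg n x) hu' hn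
  have h2 : WordBddN n ρ (fun i => |mulC Cu C i|) (txW n) (fun x => uD x • f x) := by
    refine h1.mono le_rfl fun i _ x hx => ?_
    have hx1 : 1 ≤ ‖x‖ := by have : ρ < ‖x‖ := hx; linarith
    have a1 : ‖x‖⁻¹ ≤ 1 := inv_le_one_of_one_le₀ hx1
    have a2 := txW_nonneg n x
    have a3 : ‖x‖⁻¹ * txW n x ≤ txW n x := by nlinarith
    calc mulC Cu C i * (‖x‖⁻¹ * txW n x) ≤ |mulC Cu C i| * (‖x‖⁻¹ * txW n x) :=
          mul_le_mul_of_nonneg_right (le_abs_self _) (by positivity)
      _ ≤ |mulC Cu C i| * txW n x := mul_le_mul_of_nonneg_left a3 (abs_nonneg _)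
  have h3 := (h2.clm L2).add (hn.clm Lk)
  set CΔ : ℕ → ℝ := fun i => ‖L2‖ * |mulC Cu C i| + ‖Lk‖ * C i with hCΔ
  have hΔ : ∀ x ∈ Ext ρ, Δ f x = L2 (uD x • f x) + Lk (f x) := by
    intro x hx
    have hx' : x ∉ nuclei := tx_Ext_subset (R := ρ) (by linarith) hx
    have := h.eq x hx'
    simp only [hL2, hLk, _root_.smul_apply, ContinuousLinearMap.id_apply, smul_eq_mul]
    linarith
  have hf := hn.1
  set E : ℝ := 3 ^ n * Real.exp 1 with hE
  have hE0 : 0 ≤ E := by positivity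
  refine ⟨fun i => Nat.casesOn i |C 0| (fun m => C₀ * ((|C m| + |CΔ m|) * E)),
    hf.mono (Ext_mono (by linarith)), fun w hw x hx => ?_⟩
  have hxρ : x ∈ Ext ρ := Ext_mono (by linarith) hx
  rcases w with _ | ⟨a, w⟩
  · have := hn.2 [] (Nat.zero_le _) x hxρ
    simp only [List.length_nil] at this ⊢
    calc _ ≤ C 0 * txW n x := this
      _ ≤ |C 0| * txW (n + 1) x :=
        mul_le_mul (le_abs_self _) (txW_le_succ n x) (txW_nonneg n x) (abs_nonneg _)
  · have hwn : w.length ≤ n := by simpa using hw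
    simp only [List.length_cons]
    set m := w.length with hm
    have hsub := tx_ball_subset_Ext hx
    have hv : ContDiffOn ℝ ∞ (dword w f) (Metric.ball x 3) := (contDiffOn_dword hf w).mono hsub
    have hb : ∀ y ∈ Metric.ball x 2, |dword w f y| ≤ (|C m| + |CΔ m|) * E * txW n x ∧
        |Δ (dword w f) y| ≤ (|C m| + |CΔ m|) * E * txW n x := by
      intro y hy
      have hyρ : y ∈ Ext ρ := hsub (Metric.ball_subset_ball (by norm_num) hy)
      have hW := txW_le_of_mem_ball n hy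
      have hW0 := txW_nonneg n y
      have b1 : |dword w f y| ≤ C m * txW n y := hn.2 w hwn y hyρ
      have b2 : |Δ (dword w f) y| ≤ CΔ m * txW n y := by
        rw [laplacian_dword hf w y hyρ, dword_congr hΔ w y hyρ]
        exact h3.2 w hwn y hyρ
      have c1 : |C m| * txW n y ≤ (|C m| + |CΔ m|) * (E * txW n x) :=
        mul_le_mul (by linarith [abs_nonneg (CΔ m)]) hW hW0 (by positivity)
      have c2 : |CΔ m| * txW n y ≤ (|C m| + |CΔ m|) * (E * txW n x) :=
        mul_le_mul (by linarith [abs_nonneg (C m)]) hW hW0 (by positivity)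
      constructor
      · calc _ ≤ C m * txW n y := b1
          _ ≤ |C m| * txW n y := mul_le_mul_of_nonneg_right (le_abs_self _) hW0
          _ ≤ _ := c1
          _ = _ := by ring
      · calc _ ≤ CΔ m * txW n y := b2
          _ ≤ |CΔ m| * txW n y := mul_le_mul_of_nonneg_right (le_abs_self _) hW0
          _ ≤ _ := c2
          _ = _ := by ring
    have hg := hgrad _ x _ hv hb
    rw [dword_cons]
    calc ‖dfield a (dword w f) x‖ ≤ ‖fderiv ℝ (dword w f) x‖ * ‖vfield a x‖ :=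
          ContinuousLinearMap.le_opNorm _ _
      _ ≤ (C₀ * ((|C m| + |CΔ m|) * E * txW n x)) * (1 + ‖x‖) :=
          mul_le_mul hg (tx_norm_vfield_le a x) (norm_nonneg _)
            (by have := txW_nonneg n x; positivity)
      _ = _ := by rw [txW_succ]; ring

end G2

/-! ## LEAF TX-G3: from `Ext (2D + 3n)` back to `Ext (2D)`, absorption of the polynomial weight

* `dword w f` is continuous on the compact annulus `{2D ≤ |x| ≤ ρ} ⊆ Ext (3D/2)` (`contDiffOn_dword` on `Ext (3D/2) ⊆ nucleiᶜ`), hence bounded there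
  by some `B_w`; there are finitely many words of length `≤ n` (induction on `n`, or `List.finite_length_le`), and `e^{-r/4} ≥ e^{-ρ/4}` on the annulus.
* `(1+r)^n e^{-r/2} ≤ C e^{-r/4}`: `(1+r)^n e^{-r/4}` is bounded on `[0,∞)` (e.g. `(1+r)^n ≤ n! 4^n e^{(1+r)/4}` from `Real.pow_div_factorial_le_exp`). -/

section G3

/-- absorption of the polynomial weight. -/
theorem txW_le_exp (n : ℕ) (x : Space) :
    txW n x ≤ (4 ^ n * n.factorial * Real.exp (1 / 4)) * Real.exp (-(1 / 4 * ‖x‖)) := by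
  unfold txW
  have h := Real.pow_div_factorial_le_exp ((1 + ‖x‖) / 4) (by positivity) n
  have hf : (0 : ℝ) < n.factorial := by exact_mod_cast n.factorial_pos
  rw [div_le_iff₀ hf, div_pow, div_le_iff₀ (by positivity)] at h
  have e1 : Real.exp ((1 + ‖x‖) / 4) = Real.exp (1 / 4) * Real.exp (‖x‖ / 4) := by
    rw [← Real.exp_add]; congr 1; ring
  have e2 : Real.exp (‖x‖ / 4) * Real.exp (-(‖x‖ / 2)) = Real.exp (-(1 / 4 * ‖x‖)) := by
    rw [← Real.exp_add]; congr 1; ring
  calc (1 + ‖x‖) ^ n * Real.exp (-(‖x‖ / 2))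
      ≤ (Real.exp ((1 + ‖x‖) / 4) * n.factorial * 4 ^ n) * Real.exp (-(‖x‖ / 2)) :=
        mul_le_mul_of_nonneg_right h (Real.exp_pos _).le
    _ = (4 ^ n * n.factorial * Real.exp (1 / 4)) * (Real.exp (‖x‖ / 4) * Real.exp (-(‖x‖ / 2))) := by
        rw [e1]; ring
    _ = _ := by rw [e2]

theorem tx_word_extend {f : Space → ℝ} (hf : ContDiffOn ℝ ∞ f nucleiᶜ) (n : ℕ) {ρ : ℝ} {C : ℕ → ℝ}
    (hn : WordBddN n ρ C (txW n) f) :
    ∃ C' : ℕ → ℝ, WordBddN n (2 * bigD) C' (fun x => Real.exp (-(1 / 4 * ‖x‖))) f := by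
  have hD := tx_bigD_pos
  have hfD : ContDiffOn ℝ ∞ f (Ext bigD) := hf.mono (tx_Ext_subset le_rfl)
  set K : Set Space := {x | 2 * bigD ≤ ‖x‖} ∩ Metric.closedBall 0 ρ with hK
  have hKc : IsCompact K :=
    (isCompact_closedBall _ _).inter_left (isClosed_le continuous_const continuous_norm)
  have hKD : K ⊆ Ext bigD := fun x hx => by
    have : 2 * bigD ≤ ‖x‖ := hx.1
    show bigD < ‖x‖
    linarith
  have hB : ∀ w : List (Fin 3 ⊕ Fin 3), ∃ B : ℝ, ∀ x ∈ K, |dword w f x| ≤ B := by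
    intro w
    have hc : ContinuousOn (fun x => |dword w f x|) K :=
      ((contDiffOn_dword hfD w).continuousOn.mono hKD).abs
    obtain ⟨B, hB⟩ := hKc.bddAbove_image hc
    exact ⟨B, fun x hx => hB ⟨x, hx, rfl⟩⟩
  choose B hB using hB
  have hfin : {l : List (Fin 3 ⊕ Fin 3) | l.length ≤ n}.Finite := List.finite_length_le _ n
  set Bs : ℝ := ∑ w ∈ hfin.toFinset, |B w| with hBs
  have hBs0 : 0 ≤ Bs := Finset.sum_nonneg fun _ _ => abs_nonneg _
  have hBle : ∀ w : List (Fin 3 ⊕ Fin 3), w.length ≤ n → B w ≤ Bs := fun w hw =>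
    (le_abs_self _).trans (Finset.single_le_sum (f := fun w => |B w|) (fun _ _ => abs_nonneg _)
      (hfin.mem_toFinset.2 hw))
  set P : ℝ := 4 ^ n * n.factorial * Real.exp (1 / 4) with hP
  have hP0 : 0 ≤ P := by positivity
  refine ⟨fun i => Bs * Real.exp (1 / 4 * ρ) + |C i| * P,
    hfD.mono (Ext_mono (by linarith)), fun w hw x hx => ?_⟩
  have hx' : 2 * bigD < ‖x‖ := hx
  have hexp := Real.exp_pos (-(1 / 4 * ‖x‖))
  rw [Real.norm_eq_abs, add_mul]
  by_cases hxρ : ‖x‖ ≤ ρ
  · have hxK : x ∈ K := ⟨hx'.le, by rw [mem_closedBall_zero_iff]; exact hxρ⟩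
    have a1 : 1 ≤ Real.exp (1 / 4 * ρ) * Real.exp (-(1 / 4 * ‖x‖)) := by
      rw [← Real.exp_add]
      apply Real.one_le_exp
      linarith
    have a2 : 0 ≤ |C w.length| * P * Real.exp (-(1 / 4 * ‖x‖)) := by positivity
    calc |dword w f x| ≤ B w := hB w x hxK
      _ ≤ Bs := hBle w hw
      _ ≤ Bs * (Real.exp (1 / 4 * ρ) * Real.exp (-(1 / 4 * ‖x‖))) := le_mul_of_one_le_right hBs0 a1
      _ ≤ _ := by rw [← mul_assoc]; linarith
  · rw [not_le] at hxρ
    have a1 : |dword w f x| ≤ C w.length * txW n x := hn.2 w hw x hxρ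
    have a2 : 0 ≤ Bs * Real.exp (1 / 4 * ρ) * Real.exp (-(1 / 4 * ‖x‖)) := by positivity
    have a3 := txW_le_exp n x
    calc |dword w f x| ≤ C w.length * txW n x := a1
      _ ≤ |C w.length| * (P * Real.exp (-(1 / 4 * ‖x‖))) :=
          mul_le_mul (le_abs_self _) a3 (by unfold txW; positivity) (abs_nonneg _)
      _ ≤ _ := by rw [← mul_assoc]; linarith

end G3

/-! ## Assembly (proved) -/

theorem tx_word_all {f : Space → ℝ} {k : ℝ} (h : TXSol f k) (n : ℕ) :
    ∃ C : ℕ → ℝ, WordBddN n (2 * bigD + 3 * n) C (txW n) f := by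
  induction n with
  | zero =>
    obtain ⟨C, hC0, hC⟩ := h.exp_decay
    refine ⟨fun _ => C, h.smooth.mono (tx_Ext_subset ?_), fun w hw x hx => ?_⟩
    · have := tx_bigD_pos
      push_cast
      linarith
    · have hw' : w = [] := List.length_eq_zero_iff.1 (Nat.le_zero.1 hw)
      subst hw'
      have hx' : 2 * bigD ≤ ‖x‖ := by
        have : 2 * bigD + 3 * ((0 : ℕ) : ℝ) < ‖x‖ := hx
        push_cast at this
        linarith
      simpa [dword_nil, txW] using hC x hx'
  | succ n ih =>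
    obtain ⟨C, hC⟩ := ih
    obtain ⟨C', hC'⟩ := tx_word_step h n (by have : (0 : ℝ) ≤ n := Nat.cast_nonneg n; linarith) hC
    refine ⟨C', ?_⟩
    have e : 2 * bigD + 3 * ((n + 1 : ℕ) : ℝ) = 2 * bigD + 3 * (n : ℝ) + 3 := by push_cast; ring
    rw [e]
    exact hC'

/-- **A priori decay of all words.** -/
theorem TXSol.apriori {f : Space → ℝ} {k : ℝ} (h : TXSol f k) :
    ∃ C : ℕ → ℝ, WordBdd (2 * bigD) C (fun x => Real.exp (-(1 / 4 * ‖x‖))) f := by
  have H : ∀ n, ∃ C' : ℕ → ℝ, WordBddN n (2 * bigD) C' (fun x => Real.exp (-(1 / 4 * ‖x‖))) f := by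
    intro n
    obtain ⟨C, hC⟩ := tx_word_all h n
    exact tx_word_extend h.smooth n hC
  choose C hC using H
  exact ⟨fun n => C n n, wordBdd_of_forall hC⟩

end Claimed.Open.R278
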