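import Claimed.Open.R278.TXEq

/-!
# Result 278, package TX, file 4: lower bounds `c A_γ ≤ b`, `c t A_{k₀} ≤ e` (`z ≥ 0`)

All comparison arguments use the scalar maximum principle `tx_max_principle` (classical, `C²`).
Leaves: `TX-L1` … `TX-L6`, one section each.  No paper reading needed.
-/

open MeasureTheory Filter
open scoped ContDiff InnerProductSpace ComplexConjugate ENNReal Topology Laplacian

noncomputable section

namespace Claimed.Open.R278

/-! ## LEAF TX-L1: the scalar maximum principle on an open set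

Suppose `w x₁ > 0`, `x₁ ∈ U`; put `ε = w x₁ / 2`, take `R` from `hinf ε`, `R' = max R ‖x₁‖`.  `K = closure U ∩ closedBall 0 R'` is compact and
contains `x₁`; `w` attains its maximum over `K` at `x*` (`IsCompact.exists_isMaxOn`), `w x* ≥ w x₁ > 0`, so `x* ∈ U` (`hbd`).  For `y ∈ U`: either `y ∈ K`, or
`‖y‖ > R' ≥ R`, `w y ≤ ε < w x*`.  So `x*` is a maximum of `w` on the open set `U`, a local maximum; `laplacian_nonpos_of_isLocalMax` (`CHTC`) gives
`Δ w x* ≤ 0`, while `0 < q x* · w x* ≤ ½ Δ w x*`. -/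

section L1

theorem tx_max_principle {U : Set Space} (hU : IsOpen U) {w q : Space → ℝ}
    (hw : ContDiffOn ℝ 2 w U) (hwc : ContinuousOn w (closure U))
    (hq : ∀ x ∈ U, 0 < q x)
    (hsub : ∀ x ∈ U, q x * w x ≤ (1 / 2) * Δ w x)
    (hbd : ∀ x ∈ closure U, x ∉ U → w x ≤ 0)
    (hinf : ∀ ε > 0, ∃ R : ℝ, ∀ x ∈ U, R ≤ ‖x‖ → w x ≤ ε) :
    ∀ x ∈ U, w x ≤ 0 := by
  intro x₁ hx₁
  by_contra hcon
  rw [not_le] at hcon
  obtain ⟨R, hR⟩ := hinf (w x₁ / 2) (by linarith)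
  set R' := max R ‖x₁‖ with hR'
  have hK : IsCompact (closure U ∩ Metric.closedBall (0 : Space) R') :=
    (isCompact_closedBall _ _).inter_left isClosed_closure
  have hx₁K : x₁ ∈ closure U ∩ Metric.closedBall (0 : Space) R' :=
    ⟨subset_closure hx₁, by rw [mem_closedBall_zero_iff]; exact le_max_right R ‖x₁‖⟩
  obtain ⟨xs, hxsK, hmax⟩ := hK.exists_isMaxOn ⟨x₁, hx₁K⟩ (hwc.mono Set.inter_subset_left)
  have h1 : w x₁ ≤ w xs := hmax hx₁K
  have hxsU : xs ∈ U := by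
    by_contra hn
    have := hbd xs hxsK.1 hn
    linarith
  have hloc : IsLocalMax w xs := by
    filter_upwards [hU.mem_nhds hxsU] with y hy
    by_cases hyK : ‖y‖ ≤ R'
    · exact hmax ⟨subset_closure hy, by rw [mem_closedBall_zero_iff]; exact hyK⟩
    · rw [not_le] at hyK
      have : w y ≤ w x₁ / 2 := hR y hy ((le_max_left _ _).trans hyK.le)
      linarith
  have hlap : Δ w xs ≤ 0 :=
    laplacian_nonpos_of_isLocalMax ((hw xs hxsU).contDiffAt (hU.mem_nhds hxsU)) hloc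
  have h2 := hsub xs hxsU
  have h3 : 0 < q xs * w xs := mul_pos (hq xs hxsU) (by linarith)
  linarith

end L1

/-- the subsolution `A_k (1 + 1/r)`, written as a sum of two radial profiles. -/
def txSub (k : ℝ) (x : Space) : ℝ := radialA k (2 / k - 1) ‖x‖ + radialA k (2 / k - 2) ‖x‖

/-- the subsolution `A_k t (1 + 1/r) = (e^{-kr} r^{2/k-2} + e^{-kr} r^{2/k-3}) z`. -/
def txSubZ (k : ℝ) (x : Space) : ℝ := (radialA k (2 / k - 2) ‖x‖ + radialA k (2 / k - 3) ‖x‖) * x 2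

/-! ## LEAF TX-L2: the two subsolutions

`ψ_a = radialA k a`, `β = 2/k - 1 ∈ (0.81, 1.23)`, `ψ_{a-1} = ψ_a / r` (`tx_radialA_div`), `|u_D + 2/r| ≤ C_u r⁻³` (`tx_uD_add`).
`tx_op_radial k β`, `tx_op_radial k (β-1)` (`k(β+1) = 2`, `kβ - 2 = -k`) and linearity of `Δ` (`laplacian_add`-type lemma, both summands are smooth at `x ≠ 0`):
`(-½Δ + u_D + k²/2) txSub = ψ_β r⁻² [ -β(β+1)/2 - k - β(β-1)/(2r) ] + (u_D + 2/r) ψ_β (1 + 1/r) ≤ ψ_β r⁻² [ -k + (1 + 2 C_u)/r ] ≤ 0`.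
`tx_op_radial_z k a`, `tx_op_radial_z k (a-1)` with `a = β - 1 ∈ (-0.19, 0.23)` (`k(a+2) = 2`, `k(a+1) - 2 = -k`):
`(-½Δ + u_D + k²/2) txSubZ = ψ_a z r⁻² [ -a(a+3)/2 - k - (a-1)(a+2)/(2r) ] + (u_D + 2/r) ψ_a z (1 + 1/r) ≤ ψ_a z r⁻² [ 0.3 - 0.9 + (2 + 2 C_u)/r ] ≤ 0` for `z ≥ 0`. -/

section L2

theorem tx_contDiffOn_txSub (k : ℝ) : ContDiffOn ℝ ∞ (txSub k) (Ext 0) :=
  (tx_contDiffOn_radialA_norm k _).add (tx_contDiffOn_radialA_norm k _)

theorem tx_contDiffOn_txSubZ (k : ℝ) : ContDiffOn ℝ ∞ (txSubZ k) (Ext 0) :=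
  ((tx_contDiffOn_radialA_norm k _).add (tx_contDiffOn_radialA_norm k _)).mul
    (contDiff_coord 2).contDiffOn

theorem tx_contDiffAt_radialA_norm (κ a : ℝ) {x : Space} (hx : x ≠ 0) :
    ContDiffAt ℝ 2 (fun y : Space => radialA κ a ‖y‖) x :=
  ((tx_contDiffOn_radialA_norm κ a).contDiffAt
    (Ext_mem_nhds (R := 0) (norm_pos_iff.2 hx))).of_le (by norm_cast)

theorem tx_subsol {k : ℝ} (h1 : 0.9 < k) (_h2 : k < 1.1) : ∃ R₀ : ℝ, 2 * bigD ≤ R₀ ∧ ∀ x ∈ Ext R₀,
    (uD x + k ^ 2 / 2) * txSub k x ≤ (1 / 2) * Δ (txSub k) x := by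
  obtain ⟨C, hC, hu⟩ := tx_uD_add
  have hD := tx_one_le_bigD
  refine ⟨2 * bigD + 4 * (C + 1), by linarith, fun x hx => ?_⟩
  have hxr : 2 * bigD + 4 * (C + 1) < ‖x‖ := hx
  have hr : 0 < ‖x‖ := by linarith
  have hx0 : x ≠ 0 := norm_pos_iff.1 hr
  have hu' := hu x (Ext_mono (by linarith) hx)
  have hk0 : k ≠ 0 := by linarith
  set r := ‖x‖ with hrdef
  set β := 2 / k - 1 with hβ
  have hkβ : k * (β + 1) = 2 := by rw [hβ]; field_simp; ring
  have e2 : 2 / k - 2 = β - 1 := by rw [hβ]; ring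
  have hΔ : Δ (txSub k) x = Δ (fun y : Space => radialA k β ‖y‖) x
      + Δ (fun y : Space => radialA k (β - 1) ‖y‖) x := by
    have : txSub k = fun y : Space => radialA k β ‖y‖ + radialA k (β - 1) ‖y‖ := by
      funext y; unfold txSub; rw [e2]
    rw [this]
    exact laplacian_fun_add (tx_contDiffAt_radialA_norm k β hx0)
      (tx_contDiffAt_radialA_norm k (β - 1) hx0)
  have o1 := tx_op_radial k β hx0
  have o2 := tx_op_radial k (β - 1) hx0
  have hψ2 : radialA k (β - 1) r = radialA k β r / r := (tx_radialA_div k β hr).symm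
  have hψ : 0 < radialA k β r := radialA_pos k β hr
  rw [hΔ]
  unfold txSub
  rw [e2, ← hrdef]
  rw [← hrdef] at o1 o2
  set ψ := radialA k β r with hψdef
  rw [hψ2] at o2 ⊢
  set u := uD x + 2 / r with hudef
  -- the bracket
  have hρ : (2 * C + 2) / r ≤ 1 / 2 := by
    rw [div_le_div_iff₀ hr (by norm_num)]
    linarith
  have hr1 : 1 ≤ r := by linarith
  have key : u * (1 + 1 / r) - β * (β + 1) / (2 * r ^ 2) - k / r ^ 2 - β * (β - 1) / (2 * r ^ 3) ≤ 0 := by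
    have a1 : u * (1 + 1 / r) ≤ 2 * C / r ^ 3 := by
      have b1 : u ≤ C * (r ^ 3)⁻¹ := (le_abs_self _).trans hu'
      have b2 : 1 + 1 / r ≤ 2 := by
        have : 1 / r ≤ 1 := by rw [div_le_one hr]; exact hr1
        linarith
      have b3 : 0 ≤ 1 + 1 / r := by positivity
      have b4 : 0 ≤ C * (r ^ 3)⁻¹ := by positivity
      calc u * (1 + 1 / r) ≤ C * (r ^ 3)⁻¹ * (1 + 1 / r) := mul_le_mul_of_nonneg_right b1 b3
        _ ≤ C * (r ^ 3)⁻¹ * 2 := mul_le_mul_of_nonneg_left b2 b4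
        _ = 2 * C / r ^ 3 := by ring
    have a2 : -(β * (β + 1) / (2 * r ^ 2)) ≤ (1 / 8) / r ^ 2 := by
      rw [← neg_div, div_le_div_iff₀ (by positivity) (by positivity)]
      nlinarith [sq_nonneg (β + 1 / 2), sq_nonneg r, mul_nonneg (sq_nonneg (β + 1 / 2)) (sq_nonneg r)]
    have a3 : -(β * (β - 1) / (2 * r ^ 3)) ≤ 1 / r ^ 3 := by
      rw [← neg_div, div_le_div_iff₀ (by positivity) (by positivity)]
      have : 0 ≤ r ^ 3 := by positivity
      nlinarith [mul_nonneg (sq_nonneg (β - 1 / 2)) this]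
    have a4 : (2 * C + 1) / r ^ 3 ≤ (1 / 2) / r ^ 2 := by
      have : (2 * C + 1) / r ^ 3 = ((2 * C + 1) / r) / r ^ 2 := by field_simp
      rw [this]
      apply div_le_div_of_nonneg_right _ (by positivity)
      have : (2 * C + 1) / r ≤ (2 * C + 2) / r := div_le_div_of_nonneg_right (by linarith) hr.le
      linarith
    have a5 : (1 / 8) / r ^ 2 + (1 / 2) / r ^ 2 - k / r ^ 2 ≤ 0 := by
      have : (1 / 8) / r ^ 2 + (1 / 2) / r ^ 2 - k / r ^ 2 = (1 / 8 + 1 / 2 - k) / r ^ 2 := by ring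
      rw [this]
      apply div_nonpos_of_nonpos_of_nonneg (by linarith) (by positivity)
    have a6 : (2 * C + 1) / r ^ 3 = 2 * C / r ^ 3 + 1 / r ^ 3 := by ring
    linarith
  have fin : (uD x + k ^ 2 / 2) * (ψ + ψ / r)
      - (1 / 2) * (Δ (fun y : Space => radialA k β ‖y‖) x + Δ (fun y : Space => radialA k (β - 1) ‖y‖) x)
      = ψ * (u * (1 + 1 / r) - β * (β + 1) / (2 * r ^ 2) - k / r ^ 2 - β * (β - 1) / (2 * r ^ 3)) := by
    have hk2 : k * (β - 1 + 1) - 2 = -k := by linarith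
    rw [hkβ] at o1
    rw [hk2] at o2
    have e3 : (uD x + k ^ 2 / 2) = u + (k ^ 2 / 2 - 2 / r) := by rw [hudef]; ring
    rw [e3]
    have : (u + (k ^ 2 / 2 - 2 / r)) * (ψ + ψ / r)
      - (1 / 2) * (Δ (fun y : Space => radialA k β ‖y‖) x + Δ (fun y : Space => radialA k (β - 1) ‖y‖) x)
      = u * (ψ + ψ / r) + (-(1 / 2) * Δ (fun y : Space => radialA k β ‖y‖) x + (k ^ 2 / 2 - 2 / r) * ψ)
        + (-(1 / 2) * Δ (fun y : Space => radialA k (β - 1) ‖y‖) x + (k ^ 2 / 2 - 2 / r) * (ψ / r)) := by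
      ring
    rw [this, o1, o2]
    field_simp
    ring
  have := mul_nonpos_of_nonneg_of_nonpos hψ.le key
  linarith

theorem tx_contDiffAt_radialA_norm_z (κ a : ℝ) {x : Space} (hx : x ≠ 0) :
    ContDiffAt ℝ 2 (fun y : Space => radialA κ a ‖y‖ * y 2) x :=
  (tx_contDiffAt_radialA_norm κ a hx).mul
    (((contDiff_coord 2).of_le (by norm_cast)).contDiffAt)

theorem tx_subsolZ {k : ℝ} (h1 : 0.9 < k) (h2 : k < 1.1) : ∃ R₀ : ℝ, 2 * bigD ≤ R₀ ∧ ∀ x ∈ Ext R₀,
    0 ≤ x 2 → (uD x + k ^ 2 / 2) * txSubZ k x ≤ (1 / 2) * Δ (txSubZ k) x := by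
  obtain ⟨C, hC, hu⟩ := tx_uD_add
  have hD := tx_one_le_bigD
  refine ⟨2 * bigD + 4 * (C + 1), by linarith, fun x hx hz => ?_⟩
  have hxr : 2 * bigD + 4 * (C + 1) < ‖x‖ := hx
  have hr : 0 < ‖x‖ := by linarith
  have hx0 : x ≠ 0 := norm_pos_iff.1 hr
  have hu' := hu x (Ext_mono (by linarith) hx)
  have hk0 : k ≠ 0 := by linarith
  have hkpos : 0 < k := by linarith
  set r := ‖x‖ with hrdef
  set a := 2 / k - 2 with ha
  have hka : k * (a + 2) = 2 := by rw [ha]; field_simp; ring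
  have ha_lo : -0.2 ≤ a := by
    have : 1.8 ≤ 2 / k := by rw [le_div_iff₀ hkpos]; nlinarith
    rw [ha]; linarith
  have e2 : 2 / k - 3 = a - 1 := by rw [ha]; ring
  have hΔ : Δ (txSubZ k) x = Δ (fun y : Space => radialA k a ‖y‖ * y 2) x
      + Δ (fun y : Space => radialA k (a - 1) ‖y‖ * y 2) x := by
    have : txSubZ k = fun y : Space => radialA k a ‖y‖ * y 2 + radialA k (a - 1) ‖y‖ * y 2 := by
      funext y; unfold txSubZ; rw [e2]; ring
    rw [this]
    exact laplacian_fun_add (tx_contDiffAt_radialA_norm_z k a hx0)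
      (tx_contDiffAt_radialA_norm_z k (a - 1) hx0)
  have o1 := tx_op_radial_z k a hx0
  have o2 := tx_op_radial_z k (a - 1) hx0
  have hψ2 : radialA k (a - 1) r = radialA k a r / r := (tx_radialA_div k a hr).symm
  have hψ : 0 < radialA k a r := radialA_pos k a hr
  rw [hΔ]
  unfold txSubZ
  rw [e2, ← hrdef]
  rw [← hrdef] at o1 o2
  set ψ := radialA k a r with hψdef
  rw [hψ2] at o2 ⊢
  set u := uD x + 2 / r with hudef
  set z := x 2 with hzdef
  have hρ : (2 * C + 2) / r ≤ 1 / 2 := by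
    rw [div_le_div_iff₀ hr (by norm_num)]
    linarith
  have hr1 : 1 ≤ r := by linarith
  have key : u * (1 + 1 / r) - a * (a + 3) / (2 * r ^ 2) - k / r ^ 2
      - (a - 1) * (a + 2) / (2 * r ^ 3) ≤ 0 := by
    have a1 : u * (1 + 1 / r) ≤ 2 * C / r ^ 3 := by
      have b1 : u ≤ C * (r ^ 3)⁻¹ := (le_abs_self _).trans hu'
      have b2 : 1 + 1 / r ≤ 2 := by
        have : 1 / r ≤ 1 := by rw [div_le_one hr]; exact hr1
        linarith
      have b3 : 0 ≤ 1 + 1 / r := by positivity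
      have b4 : 0 ≤ C * (r ^ 3)⁻¹ := by positivity
      calc u * (1 + 1 / r) ≤ C * (r ^ 3)⁻¹ * (1 + 1 / r) := mul_le_mul_of_nonneg_right b1 b3
        _ ≤ C * (r ^ 3)⁻¹ * 2 := mul_le_mul_of_nonneg_left b2 b4
        _ = 2 * C / r ^ 3 := by ring
    have a2 : -(a * (a + 3) / (2 * r ^ 2)) ≤ (3 / 10) / r ^ 2 := by
      rw [← neg_div, div_le_div_iff₀ (by positivity) (by positivity)]
      have q : 0 ≤ a * (a + 3) + 3 / 5 := by nlinarith
      nlinarith [mul_nonneg q (sq_nonneg r)]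
    have a3 : -((a - 1) * (a + 2) / (2 * r ^ 3)) ≤ 2 / r ^ 3 := by
      rw [← neg_div, div_le_div_iff₀ (by positivity) (by positivity)]
      have : 0 ≤ r ^ 3 := by positivity
      nlinarith [mul_nonneg (sq_nonneg (a + 1 / 2)) this]
    have a4 : (2 * C + 2) / r ^ 3 ≤ (1 / 2) / r ^ 2 := by
      have : (2 * C + 2) / r ^ 3 = ((2 * C + 2) / r) / r ^ 2 := by field_simp
      rw [this]
      exact div_le_div_of_nonneg_right hρ (by positivity)
    have a5 : (3 / 10) / r ^ 2 + (1 / 2) / r ^ 2 - k / r ^ 2 ≤ 0 := by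
      have : (3 / 10) / r ^ 2 + (1 / 2) / r ^ 2 - k / r ^ 2 = (3 / 10 + 1 / 2 - k) / r ^ 2 := by ring
      rw [this]
      apply div_nonpos_of_nonpos_of_nonneg (by linarith) (by positivity)
    have a6 : (2 * C + 2) / r ^ 3 = 2 * C / r ^ 3 + 2 / r ^ 3 := by ring
    linarith
  have fin : (uD x + k ^ 2 / 2) * ((ψ + ψ / r) * z)
      - (1 / 2) * (Δ (fun y : Space => radialA k a ‖y‖ * y 2) x
          + Δ (fun y : Space => radialA k (a - 1) ‖y‖ * y 2) x)
      = ψ * z * (u * (1 + 1 / r) - a * (a + 3) / (2 * r ^ 2) - k / r ^ 2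
          - (a - 1) * (a + 2) / (2 * r ^ 3)) := by
    have hk2 : k * (a - 1 + 2) - 2 = -k := by linarith
    have hk3 : a - 1 + 3 = a + 2 := by ring
    rw [hka] at o1
    rw [hk2, hk3] at o2
    have e3 : (uD x + k ^ 2 / 2) = u + (k ^ 2 / 2 - 2 / r) := by rw [hudef]; ring
    rw [e3]
    have : (u + (k ^ 2 / 2 - 2 / r)) * ((ψ + ψ / r) * z)
      - (1 / 2) * (Δ (fun y : Space => radialA k a ‖y‖ * y 2) x
          + Δ (fun y : Space => radialA k (a - 1) ‖y‖ * y 2) x)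
      = u * ((ψ + ψ / r) * z)
        + (-(1 / 2) * Δ (fun y : Space => radialA k a ‖y‖ * y 2) x + (k ^ 2 / 2 - 2 / r) * (ψ * z))
        + (-(1 / 2) * Δ (fun y : Space => radialA k (a - 1) ‖y‖ * y 2) x
            + (k ^ 2 / 2 - 2 / r) * (ψ / r * z)) := by
      ring
    rw [this, o1, o2]
    field_simp
    ring
  have := mul_nonpos_of_nonneg_of_nonpos (mul_nonneg hψ.le hz) key
  linarith

/-- `A_k ≤ txSub`. -/
theorem txA_le_txSub (k : ℝ) {x : Space} (hx : x ≠ 0) : txA k x ≤ txSub k x := by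
  unfold txA txSub
  have := radialA_pos k (2 / k - 2) (norm_pos_iff.2 hx)
  linarith

/-- `t A_k ≤ txSubZ` for `z ≥ 0`. -/
theorem txA_le_txSubZ (k : ℝ) {x : Space} (hx : x ≠ 0) (hz : 0 ≤ x 2) :
    tz x * txA k x ≤ txSubZ k x := by
  have hr := norm_pos_iff.2 hx
  unfold txA txSubZ tz
  have e : radialA k (2 / k - 2) ‖x‖ = radialA k (2 / k - 1) ‖x‖ / ‖x‖ := by
    rw [tx_radialA_div k _ hr]; congr 1; ring
  have h3 := radialA_pos k (2 / k - 3) hr
  rw [e]
  have : x 2 / ‖x‖ * radialA k (2 / k - 1) ‖x‖ = radialA k (2 / k - 1) ‖x‖ / ‖x‖ * x 2 := by ring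
  rw [this, add_mul]
  have := mul_nonneg h3.le hz
  linarith

theorem tx_abs_coord_le (x : Space) (j : Fin 3) : |x j| ≤ ‖x‖ := by
  simpa using PiLp.norm_apply_le x j

/-- both subsolutions tend to `0` at infinity. -/
theorem tx_txSub_small {k : ℝ} (hk : 0 < k) : ∀ ε > 0, ∃ R : ℝ, ∀ x : Space, R ≤ ‖x‖ →
    txSub k x ≤ ε ∧ |txSubZ k x| ≤ ε := by
  intro ε hε
  have t1 := tx_tendsto_radialA hk (2 / k - 1)
  have t2 := tx_tendsto_radialA hk (2 / k - 2)
  have e1 := (t1.eventually (gt_mem_nhds (show (0 : ℝ) < ε / 2 by linarith)))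
  have e2 := (t2.eventually (gt_mem_nhds (show (0 : ℝ) < ε / 2 by linarith)))
  obtain ⟨R, hR⟩ := ((e1.and e2).and (eventually_gt_atTop (0 : ℝ))).exists_forall_of_atTop
  refine ⟨R, fun x hx => ?_⟩
  obtain ⟨⟨a1, a2⟩, hr⟩ := hR ‖x‖ hx
  refine ⟨by unfold txSub; linarith, ?_⟩
  unfold txSubZ
  have p2 := radialA_pos k (2 / k - 2) hr
  have p3 := radialA_pos k (2 / k - 3) hr
  rw [abs_mul, abs_of_pos (by linarith)]
  have c1 : radialA k (2 / k - 2) ‖x‖ * ‖x‖ = radialA k (2 / k - 1) ‖x‖ := by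
    have := tx_radialA_div k (2 / k - 1) hr
    rw [show 2 / k - 1 - 1 = 2 / k - 2 by ring] at this
    rw [← this]; field_simp
  have c2 : radialA k (2 / k - 3) ‖x‖ * ‖x‖ = radialA k (2 / k - 2) ‖x‖ := by
    have := tx_radialA_div k (2 / k - 2) hr
    rw [show 2 / k - 2 - 1 = 2 / k - 3 by ring] at this
    rw [← this]; field_simp
  calc (radialA k (2 / k - 2) ‖x‖ + radialA k (2 / k - 3) ‖x‖) * |x 2|
      ≤ (radialA k (2 / k - 2) ‖x‖ + radialA k (2 / k - 3) ‖x‖) * ‖x‖ :=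
        mul_le_mul_of_nonneg_left (tx_abs_coord_le x 2) (by linarith)
    _ = radialA k (2 / k - 1) ‖x‖ + radialA k (2 / k - 2) ‖x‖ := by rw [add_mul, c1, c2]
    _ ≤ ε := by linarith

/-- `q = u_D + k²/2 ∈ (0, 0.605]` for `r ≥ 2D`. -/
theorem tx_q_bounds {k : ℝ} (h1 : 0.9 < k) (h2 : k < 1.1) {x : Space} (hx : 2 * bigD ≤ ‖x‖) :
    0 < uD x + k ^ 2 / 2 ∧ uD x + k ^ 2 / 2 ≤ 0.605 := by
  obtain ⟨a1, a2⟩ := tx_uD_bounds hx
  have hD : (100 : ℝ) ≤ bigD := by
    unfold bigD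
    calc (100 : ℝ) = 10 ^ 2 := by norm_num
      _ ≤ 10 ^ 200 := pow_le_pow_right₀ (by norm_num) (by norm_num)
  have hr : 0 < ‖x‖ := by linarith
  have a3 : 4 / ‖x‖ ≤ 0.1 := by
    rw [div_le_iff₀ hr]; linarith
  constructor
  · nlinarith
  · nlinarith

end L2

/-! ## LEAF TX-L3: lower bound for a positive solution

`R₀` from `tx_subsol`, `R = R₀`.  `U = Ext R`, `closure U ⊆ {R ≤ |x|}`, so a point of `closure U \ U` has `|x| = R`.  On the compact sphere `f ≥ m > 0`,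
`txSub k ≤ B` (continuity); `c = m / (B + 1)`.  `w = c · txSub k - f`, `q = u_D + k²/2`:  `½Δw = c ½Δ txSub - q f ≥ q w`.
`hinf`: `w ≤ c · txSub → 0` (`tx_txSub_small`).  Conclusion with `txA_le_txSub`. -/

section L3

theorem tx_contDiffAt' {f : Space → ℝ} (hf : ContDiffOn ℝ ∞ f nucleiᶜ) {x : Space} (hx : x ∉ nuclei) :
    ContDiffAt ℝ ∞ f x := (hf x hx).contDiffAt (tx_isOpen_nuclei_compl.mem_nhds hx)

/-- comparison of an exterior solution with a subsolution on an open set far from the nuclei. -/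
theorem TXSol.compare {f : Space → ℝ} {k : ℝ} (h : TXSol f k) {U : Set Space} (hU : IsOpen U)
    {Φ : Space → ℝ} {c : ℝ} (hc : 0 ≤ c) (hUr : ∀ x ∈ closure U, 2 * bigD ≤ ‖x‖)
    (hΦ : ContDiffOn ℝ 2 Φ U) (hΦc : ContinuousOn Φ (closure U))
    (hsub : ∀ x ∈ U, (uD x + k ^ 2 / 2) * Φ x ≤ (1 / 2) * Δ Φ x)
    (hbd : ∀ x ∈ closure U, x ∉ U → c * Φ x ≤ f x)
    (hinf : ∀ ε > 0, ∃ R : ℝ, ∀ x ∈ U, R ≤ ‖x‖ → c * Φ x - f x ≤ ε) :
    ∀ x ∈ U, c * Φ x ≤ f x := by
  have hD := tx_bigD_pos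
  have hnuc : ∀ x ∈ closure U, x ∉ nuclei := fun x hx =>
    tx_not_mem_nuclei (by have := hUr x hx; linarith)
  have hf2 : ContDiffOn ℝ 2 f U := fun x hx =>
    ((tx_contDiffAt' h.smooth (hnuc x (subset_closure hx))).of_le (by norm_cast)).contDiffWithinAt
  have hfc : ContinuousOn f (closure U) := fun x hx =>
    (tx_contDiffAt' h.smooth (hnuc x hx)).continuousAt.continuousWithinAt
  have key := tx_max_principle hU (w := fun x => c * Φ x - f x) (q := fun x => uD x + k ^ 2 / 2)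
    ((contDiffOn_const.mul hΦ).sub hf2) ((continuousOn_const.mul hΦc).sub hfc)
    (fun x hx => (tx_q_bounds h.k_lo h.k_hi (hUr x (subset_closure hx))).1)
    (fun x hx => ?_) (fun x hx hxU => by have := hbd x hx hxU; linarith) hinf
  · intro x hx
    have := key x hx
    linarith
  · have hΦx : ContDiffAt ℝ 2 Φ x := (hΦ x hx).contDiffAt (hU.mem_nhds hx)
    have hfx : ContDiffAt ℝ 2 f x := (hf2 x hx).contDiffAt (hU.mem_nhds hx)
    have e1 : Δ (fun y => c * Φ y - f y) x = c * Δ Φ x - Δ f x := by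
      have a1 : ContDiffAt ℝ 2 (fun y => c * Φ y) x := contDiffAt_const.mul hΦx
      rw [laplacian_fun_sub a1 hfx]
      have := InnerProductSpace.laplacian_smul (𝕜 := ℝ) c hΦx
      simp only [smul_eq_mul] at this
      have e : (fun y => c * Φ y) = c • Φ := by funext y; simp
      rw [e, this]
    rw [e1]
    have e2 := h.eq x (hnuc x (subset_closure hx))
    have e3 := mul_le_mul_of_nonneg_left (hsub x hx) hc
    nlinarith

theorem tx_closure_Ext_subset (R : ℝ) : closure (Ext R) ⊆ {x : Space | R ≤ ‖x‖} :=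
  closure_minimal (fun x (hx : R < ‖x‖) => (le_of_lt hx : R ≤ ‖x‖)) (isClosed_le continuous_const continuous_norm)

theorem TXSol.lower {f : Space → ℝ} {k : ℝ} (h : TXSol f k) (hpos : ∀ x, 0 < f x) :
    ∃ R c : ℝ, 2 * bigD ≤ R ∧ 0 < c ∧ ∀ x ∈ Ext R, c * txA k x ≤ f x := by
  obtain ⟨R, hR, hsub⟩ := tx_subsol h.k_lo h.k_hi
  have hD := tx_bigD_pos
  have hR0 : 0 < R := by linarith
  have hk : 0 < k := by have := h.k_lo; linarith
  -- the sphere
  have hS : IsCompact (Metric.sphere (0 : Space) R) := isCompact_sphere _ _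
  have hSne : (Metric.sphere (0 : Space) R).Nonempty := (NormedSpace.sphere_nonempty (E := Space)).2 hR0.le
  have hSnuc : ∀ x ∈ Metric.sphere (0 : Space) R, x ∉ nuclei := fun x hx =>
    tx_not_mem_nuclei (by rw [mem_sphere_zero_iff_norm] at hx; linarith)
  have hfS : ContinuousOn f (Metric.sphere (0 : Space) R) := fun x hx =>
    (tx_contDiffAt' h.smooth (hSnuc x hx)).continuousAt.continuousWithinAt
  obtain ⟨x₁, hx₁, hmin⟩ := hS.exists_isMinOn hSne hfS
  set m := f x₁ with hm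
  have hm0 : 0 < m := hpos x₁
  set B := radialA k (2 / k - 1) R + radialA k (2 / k - 2) R with hB
  have hB0 : 0 < B := add_pos (radialA_pos _ _ hR0) (radialA_pos _ _ hR0)
  refine ⟨R, m / B, hR, by positivity, ?_⟩
  have hcl := tx_closure_Ext_subset R
  have key := h.compare (isOpen_Ext R) (Φ := txSub k) (c := m / B) (by positivity)
    (fun x hx => hR.trans (hcl hx))
    (((tx_contDiffOn_txSub k).of_le (by norm_cast)).mono (Ext_mono hR0.le))
    (fun x hx => ((tx_contDiffOn_txSub k).continuousOn x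
      (lt_of_lt_of_le hR0 (hcl hx))).mono (fun y hy => lt_of_lt_of_le hR0 (hcl hy)))
    hsub ?_ ?_
  · intro x hx
    have hx0 : x ≠ 0 := ne_zero_of_mem_Ext hR0.le hx
    calc m / B * txA k x ≤ m / B * txSub k x :=
          mul_le_mul_of_nonneg_left (txA_le_txSub k hx0) (by positivity)
      _ ≤ f x := key x hx
  · intro x hx hxU
    have hxR : ‖x‖ = R := le_antisymm (not_lt.1 hxU) (hcl hx)
    have e : txSub k x = B := by unfold txSub; rw [hxR]
    rw [e, div_mul_cancel₀ _ hB0.ne']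
    exact hmin (by rw [mem_sphere_zero_iff_norm]; exact hxR)
  · intro ε hε
    obtain ⟨R', hR'⟩ := tx_txSub_small hk (ε * B / m) (by positivity)
    refine ⟨R', fun x _ hx => ?_⟩
    have a1 := (hR' x hx).1
    have a2 : m / B * txSub k x ≤ m / B * (ε * B / m) :=
      mul_le_mul_of_nonneg_left a1 (by positivity)
    have a3 : m / B * (ε * B / m) = ε := by field_simp
    have := hpos x
    linarith

end L3

/-! ## LEAF TX-L4: the box barrier (replaces the Hopf boundary point lemma)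

`U = {x | (x 0 - p₀)² + (x 1)² < 1 ∧ 0 < x 2 ∧ x 2 < 1/4}` (open, bounded: `hinf` is trivial with `R = p₀ + 3`), `closure U ⊆` the closed box;
a point of the closed box which is not in `U` has `x 2 = 0`, or `x 2 = 1/4`, or `(x 0 - p₀)² + (x 1)² = 1`.  All points of the closed box have
`|x| ≥ x 0 ≥ p₀ - 1 ≥ 2D`.
`ψ x = x 2 + (x 2)² - (5/16)((x 0 - p₀)² + (x 1)²)`, `Δψ = 2 - 5/4 = 3/4` (`laplacian_eq_sum_dfield`, or `Δ` of a polynomial by `InnerProductSpace.laplacian_eq_iteratedFDeriv_orthonormalBasis`),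
`w = m ψ - f`, `q = u_D + k²/2 ∈ (0, 0.605]` (`tx_q_bounds`):  `½Δw = (3/8) m - q f`, `q w = m q ψ - q f`, and `q ψ ≤ 0.605 · 5/16 < 3/8` (`ψ ≤ 5/16` in the box).
Boundary: `x 2 = 0`: `f x = 0` (`reflZ x = x`, `hodd`), `ψ ≤ 0`.  `x 2 = 1/4`: `m ψ ≤ (5/16) m ≤ m ≤ f x`.  Side: `ψ ≤ 1/4 + 1/16 - 5/16 = 0`, `f ≥ 0`.
At `x = cyl p₀ z`, `0 < z < 1/4`: `f ≥ m (z + z²) ≥ m z`; `z = 0`, `z = 1/4` directly. -/

section L4

/-- `Δ (x_j - a)² = 2`. -/
theorem tx_laplacian_sq (j : Fin 3) (a : ℝ) (x : Space) :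
    Δ (fun y : Space => (y j - a) ^ 2) x = 2 := by
  have hc : ContDiffAt ℝ 2 (fun y : Space => y j - a) x :=
    (((contDiff_coord j).of_le (by norm_cast)).contDiffAt).sub contDiffAt_const
  have h := laplacian_smul_fun hc hc
  have e : (fun y : Space => (y j - a) • (y j - a)) = fun y : Space => (y j - a) ^ 2 := by
    funext y; simp [sq]
  rw [e] at h
  have hΔ : Δ (fun y : Space => y j - a) x = 0 := by
    rw [laplacian_fun_sub (((contDiff_coord j).of_le (by norm_cast)).contDiffAt) contDiffAt_const,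
      laplacian_coord]
    simp
  have hd : ∀ i : Fin 3, dfield (Sum.inl i) (fun y : Space => y j - a) x = if i = j then 1 else 0 := by
    intro i
    rw [dfield_sub ((contDiff_coord j).differentiable (by simp) x) (differentiableAt_const a),
      dfield_coord]
    simp [dfield, eq_comm]
  rw [h, hΔ]
  simp only [hd, smul_eq_mul]
  fin_cases j <;> simp

/-- the barrier. -/
def txBar (p₀ : ℝ) (x : Space) : ℝ := x 2 + x 2 ^ 2 - 5 / 16 * ((x 0 - p₀) ^ 2 + x 1 ^ 2)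

theorem tx_contDiff_txBar (p₀ : ℝ) : ContDiff ℝ ∞ (txBar p₀) := by
  unfold txBar
  exact ((contDiff_coord 2).add ((contDiff_coord 2).pow 2)).sub
    (contDiff_const.mul ((((contDiff_coord 0).sub contDiff_const).pow 2).add ((contDiff_coord 1).pow 2)))

theorem tx_laplacian_txBar (p₀ : ℝ) (x : Space) : Δ (txBar p₀) x = 3 / 4 := by
  have c : ∀ (j : Fin 3) (a : ℝ), ContDiffAt ℝ 2 (fun y : Space => (y j - a) ^ 2) x := fun j a =>
    ((((contDiff_coord j).of_le (by norm_cast)).contDiffAt).sub contDiffAt_const).pow 2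
  have c2 : ContDiffAt ℝ 2 (fun y : Space => y 2) x := ((contDiff_coord 2).of_le (by norm_cast)).contDiffAt
  have e : txBar p₀ = fun y : Space => (y 2 + (y 2 - 0) ^ 2)
      - (5 / 16 : ℝ) * ((y 0 - p₀) ^ 2 + (y 1 - 0) ^ 2) := by
    funext y; simp [txBar]
  have c3 : ContDiffAt ℝ 2 (fun y : Space => ((y 0 - p₀) ^ 2 + (y 1 - 0) ^ 2)) x := (c 0 p₀).add (c 1 0)
  have e5 : Δ (fun y : Space => (5 / 16 : ℝ) * ((y 0 - p₀) ^ 2 + (y 1 - 0) ^ 2) : Space → ℝ) x
      = 5 / 16 * Δ (fun y : Space => ((y 0 - p₀) ^ 2 + (y 1 - 0) ^ 2) : Space → ℝ) x := by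
    have := InnerProductSpace.laplacian_smul (𝕜 := ℝ) (5 / 16 : ℝ) c3
    simp only [smul_eq_mul] at this
    have e' : (fun y : Space => (5 / 16 : ℝ) * ((y 0 - p₀) ^ 2 + (y 1 - 0) ^ 2))
        = (5 / 16 : ℝ) • (fun y : Space => ((y 0 - p₀) ^ 2 + (y 1 - 0) ^ 2)) := by funext y; simp
    rw [e', this]
  rw [e, laplacian_fun_sub (c2.add (c 2 0)) (contDiffAt_const.mul c3),
    laplacian_fun_add c2 (c 2 0), laplacian_coord, tx_laplacian_sq, e5,
    laplacian_fun_add (c 0 p₀) (c 1 0), tx_laplacian_sq, tx_laplacian_sq]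
  norm_num

/-- the open box. -/
def txBox (p₀ : ℝ) : Set Space := {x | (x 0 - p₀) ^ 2 + x 1 ^ 2 < 1 ∧ 0 < x 2 ∧ x 2 < 1 / 4}

theorem tx_continuous_coord (j : Fin 3) : Continuous (fun y : Space => y j) :=
  (contDiff_coord j).continuous

theorem tx_isOpen_txBox (p₀ : ℝ) : IsOpen (txBox p₀) := by
  have c0 := tx_continuous_coord 0
  have c1 := tx_continuous_coord 1
  have c2 := tx_continuous_coord 2
  exact (isOpen_lt (((c0.sub continuous_const).pow 2).add (c1.pow 2)) continuous_const).inter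
    ((isOpen_lt continuous_const c2).inter (isOpen_lt c2 continuous_const))

theorem tx_closure_txBox (p₀ : ℝ) : closure (txBox p₀) ⊆
    {x | (x 0 - p₀) ^ 2 + x 1 ^ 2 ≤ 1 ∧ 0 ≤ x 2 ∧ x 2 ≤ 1 / 4} := by
  have c0 := tx_continuous_coord 0
  have c1 := tx_continuous_coord 1
  have c2 := tx_continuous_coord 2
  apply closure_minimal
  · rintro x ⟨h1, h2, h3⟩
    exact ⟨h1.le, h2.le, h3.le⟩
  · exact (isClosed_le (((c0.sub continuous_const).pow 2).add (c1.pow 2)) continuous_const).inter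
      ((isClosed_le continuous_const c2).inter (isClosed_le c2 continuous_const))

theorem TXSol.box_lower {f : Space → ℝ} {k : ℝ} (h : TXSol f k) (hodd : ∀ x, f (reflZ x) = -f x)
    (hpos : ∀ x : Space, 0 < x 2 → 0 < f x) {p₀ m : ℝ} (hp₀ : 2 * bigD + 1 ≤ p₀) (hm : 0 ≤ m)
    (htop : ∀ x : Space, (x 0 - p₀) ^ 2 + x 1 ^ 2 ≤ 1 → x 2 = 1 / 4 → m ≤ f x) :
    ∀ z ∈ Set.Icc (0 : ℝ) (1 / 4), m * z ≤ f (cyl p₀ z) := by
  have hcl := tx_closure_txBox p₀
  have hzero : ∀ x : Space, x 2 = 0 → f x = 0 := by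
    intro x hx
    have e : reflZ x = x := by apply space_ext <;> simp [hx]
    have := hodd x
    rw [e] at this
    linarith
  have hfar : ∀ x ∈ closure (txBox p₀), 2 * bigD ≤ ‖x‖ := by
    intro x hx
    obtain ⟨h1, -, -⟩ := hcl hx
    have a1 : |x 0| ≤ ‖x‖ := tx_abs_coord_le x 0
    have a2 : p₀ - 1 ≤ x 0 := by nlinarith [sq_nonneg (x 1), sq_nonneg (x 0 - p₀ + 1)]
    have a3 := le_abs_self (x 0)
    linarith
  have key := h.compare (tx_isOpen_txBox p₀) (Φ := txBar p₀) (c := m) hm hfar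
    ((tx_contDiff_txBar p₀).of_le (by norm_cast)).contDiffOn (tx_contDiff_txBar p₀).continuous.continuousOn
    ?_ ?_ ?_
  · intro z hz
    rcases eq_or_lt_of_le hz.1 with h0 | h0
    · rw [← h0, hzero _ (by simp)]; simp
    rcases eq_or_lt_of_le hz.2 with h1 | h1
    · have := htop (cyl p₀ z) (by simp) (by simp [h1])
      nlinarith
    · have := key (cyl p₀ z) ⟨by simp, by simpa using h0, by simpa using h1⟩
      simp only [txBar, cyl_apply_zero, cyl_apply_one, cyl_apply_two] at this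
      nlinarith [mul_nonneg hm (sq_nonneg z)]
  · intro x hx
    rw [tx_laplacian_txBar]
    obtain ⟨q1, q2⟩ := tx_q_bounds h.k_lo h.k_hi (hfar x (subset_closure hx))
    obtain ⟨b1, b2, b3⟩ := hx
    have : txBar p₀ x ≤ 5 / 16 := by
      unfold txBar
      nlinarith [sq_nonneg (x 0 - p₀), sq_nonneg (x 1)]
    nlinarith
  · intro x hx hxU
    obtain ⟨b1, b2, b3⟩ := hcl hx
    rcases eq_or_lt_of_le b2 with h0 | h0
    · rw [hzero x h0.symm]
      have : txBar p₀ x ≤ 0 := by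
        unfold txBar
        rw [← h0]
        nlinarith [sq_nonneg (x 0 - p₀), sq_nonneg (x 1)]
      exact mul_nonpos_of_nonneg_of_nonpos hm this
    rcases eq_or_lt_of_le b3 with h1 | h1
    · have a1 := htop x b1 h1
      have : txBar p₀ x ≤ 1 := by
        unfold txBar
        rw [h1]
        nlinarith [sq_nonneg (x 0 - p₀), sq_nonneg (x 1)]
      nlinarith
    · have b4 : (x 0 - p₀) ^ 2 + x 1 ^ 2 = 1 := by
        refine le_antisymm b1 (not_lt.1 fun hlt => hxU ⟨hlt, h0, h1⟩)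
      have : txBar p₀ x ≤ 0 := by
        unfold txBar
        rw [b4]
        nlinarith
      have a2 := hpos x h0
      have := mul_nonpos_of_nonneg_of_nonpos hm this
      linarith
  · intro ε hε
    refine ⟨p₀ + 3, fun x hx hxr => ?_⟩
    exfalso
    obtain ⟨b1, b2, b3⟩ := hx
    have n : ‖x‖ ^ 2 = x 0 ^ 2 + x 1 ^ 2 + x 2 ^ 2 := by
      rw [EuclideanSpace.norm_sq_eq]; simp [Fin.sum_univ_three]
    have hD := tx_bigD_pos
    have a2 : x 0 ≤ p₀ + 1 := by nlinarith [sq_nonneg (x 1), sq_nonneg (x 0 - p₀ - 1)]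
    have a2' : p₀ - 1 ≤ x 0 := by nlinarith [sq_nonneg (x 1), sq_nonneg (x 0 - p₀ + 1)]
    have a3 : x 1 ^ 2 ≤ 1 := by nlinarith [sq_nonneg (x 0 - p₀)]
    have a4 : (p₀ + 3) ^ 2 ≤ ‖x‖ ^ 2 := by
      apply pow_le_pow_left₀ (by linarith) hxr
    nlinarith

end L4

/-! ## LEAF TX-L5: linear lower bound on a hemisphere

`T = {x | x 2 = 1/4 ∧ |x| ≤ R + 2}` is compact, nonempty and contained in `nucleiᶜ` (the nuclei have `x 2 = ± D ≠ 1/4`), `f` is continuous and `> 0` on it, so `f ≥ m > 0` on `T`.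
Case `x 2 ≤ 1/4`: `p₀ = √((x 0)² + (x 1)²) = √(R² - z²) ≥ R - z ≥ 2D + 1`; the top face of the box at `p₀` lies in `T`
(`|y| ≤ |(p₀,0,0)| + |(y 0 - p₀, y 1, 1/4)| ≤ p₀ + 2 ≤ R + 2`); `TXSol.box_lower`; `f x = f (cyl p₀ (x 2))` (`exists_rotZ_cyl`, `haxi`).
Case `x 2 ≥ 1/4`: `{|x| = R, x 2 ≥ 1/4}` compact, `f ≥ m' > 0`, `x 2 ≤ R`.  `c = min m (m'/R)`. -/

section L5

theorem tx_not_mem_nuclei_of_coord {x : Space} (hx : |x 2| < bigD) : x ∉ nuclei := by
  intro h
  have hD := tx_bigD_pos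
  rcases h with h | h
  · rw [h] at hx
    simp [ez, abs_of_pos hD] at hx
  · rw [Set.mem_singleton_iff] at h
    rw [h] at hx
    simp [ez, abs_of_pos hD] at hx

theorem TXSol.exists_pos_lower {f : Space → ℝ} {k : ℝ} (h : TXSol f k) {K : Set Space}
    (hK : IsCompact K) (hKn : ∀ x ∈ K, x ∉ nuclei) (hpos : ∀ x ∈ K, 0 < f x) :
    ∃ m > 0, ∀ x ∈ K, m ≤ f x := by
  rcases K.eq_empty_or_nonempty with rfl | hne
  · exact ⟨1, one_pos, by simp⟩
  · obtain ⟨x₁, hx₁, hmin⟩ := hK.exists_isMinOn hne (fun x hx =>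
      (tx_contDiffAt' h.smooth (hKn x hx)).continuousAt.continuousWithinAt)
    exact ⟨f x₁, hpos x₁ hx₁, fun x hx => hmin hx⟩

theorem tx_norm_sq (x : Space) : ‖x‖ ^ 2 = x 0 ^ 2 + x 1 ^ 2 + x 2 ^ 2 := by
  rw [EuclideanSpace.norm_sq_eq]; simp [Fin.sum_univ_three]

theorem TXSol.hemisphere_lower {f : Space → ℝ} {k : ℝ} (h : TXSol f k)
    (hodd : ∀ x, f (reflZ x) = -f x) (haxi : ∀ a x, f (rotZ a x) = f x)
    (hpos : ∀ x : Space, 0 < x 2 → 0 < f x) {R : ℝ} (hR : 2 * bigD + 2 ≤ R) :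
    ∃ c : ℝ, 0 < c ∧ ∀ x : Space, ‖x‖ = R → 0 ≤ x 2 → c * x 2 ≤ f x := by
  have hD := tx_one_le_bigD
  have hR0 : 0 < R := by linarith
  have c2 := tx_continuous_coord 2
  obtain ⟨m, hm, hmT⟩ := h.exists_pos_lower
    (K := {x : Space | x 2 = 1 / 4} ∩ Metric.closedBall 0 (R + 2))
    ((isCompact_closedBall _ _).inter_left (isClosed_eq c2 continuous_const))
    (fun x hx => tx_not_mem_nuclei_of_coord (by
      have : x 2 = 1 / 4 := hx.1
      rw [this, abs_of_pos (by norm_num)]; linarith))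
    (fun x hx => hpos x (by have : x 2 = 1 / 4 := hx.1; rw [this]; norm_num))
  obtain ⟨m', hm', hmT'⟩ := h.exists_pos_lower
    (K := {x : Space | 1 / 4 ≤ x 2} ∩ Metric.sphere 0 R)
    ((isCompact_sphere _ _).inter_left (isClosed_le continuous_const c2))
    (fun x hx => tx_not_mem_nuclei (by
      have := hx.2; rw [mem_sphere_zero_iff_norm] at this; linarith))
    (fun x hx => hpos x (by have : 1 / 4 ≤ x 2 := hx.1; linarith))
  refine ⟨min m (m' / R), lt_min hm (by positivity), fun x hxR hz => ?_⟩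
  rcases le_total (x 2) (1 / 4) with hz4 | hz4
  · set p₀ := √(x 0 ^ 2 + x 1 ^ 2) with hp₀
    have hn := tx_norm_sq x
    rw [hxR] at hn
    have hp0 : 0 ≤ p₀ := Real.sqrt_nonneg _
    have hpsq : p₀ ^ 2 = x 0 ^ 2 + x 1 ^ 2 := Real.sq_sqrt (by positivity)
    have hp1 : R - 1 ≤ p₀ := by
      apply Real.le_sqrt_of_sq_le
      nlinarith
    have hp2 : p₀ ≤ R := by
      apply Real.sqrt_le_iff.2 ⟨hR0.le, by nlinarith [sq_nonneg (x 2)]⟩
    have key := h.box_lower hodd hpos (p₀ := p₀) (m := m) (by linarith) hm.le (fun y hy hy2 => by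
      apply hmT y ⟨hy2, ?_⟩
      rw [mem_closedBall_zero_iff]
      have hny := tx_norm_sq y
      have a2 : y 0 ≤ p₀ + 1 := by nlinarith [sq_nonneg (y 1), sq_nonneg (y 0 - p₀ - 1)]
      have a2' : p₀ - 1 ≤ y 0 := by nlinarith [sq_nonneg (y 1), sq_nonneg (y 0 - p₀ + 1)]
      have a3 : y 1 ^ 2 ≤ 1 := by nlinarith [sq_nonneg (y 0 - p₀)]
      rw [hy2] at hny
      apply abs_le_of_sq_le_sq' _ (by linarith) |>.2
      nlinarith) (x 2) ⟨hz, hz4⟩
    obtain ⟨a, ha⟩ := exists_rotZ_cyl x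
    have e : f x = f (cyl p₀ (x 2)) := by
      conv_lhs => rw [ha]
      rw [haxi]
    rw [e]
    exact (mul_le_mul_of_nonneg_right (min_le_left _ _) hz).trans key
  · have a1 := hmT' x ⟨hz4, by rw [mem_sphere_zero_iff_norm]; exact hxR⟩
    have a2 : x 2 ≤ R := by
      have := tx_abs_coord_le x 2
      rw [hxR] at this
      exact (le_abs_self _).trans this
    calc min m (m' / R) * x 2 ≤ m' / R * x 2 := mul_le_mul_of_nonneg_right (min_le_right _ _) hz
      _ ≤ m' / R * R := mul_le_mul_of_nonneg_left a2 (by positivity)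
      _ = m' := by field_simp
      _ ≤ f x := a1

end L5

/-! ## LEAF TX-L6: lower bound for the odd solution on the upper half space

`R₀` from `tx_subsolZ`, `R = max R₀ (2D + 2)`, `U = Ext R ∩ {x | 0 < x 2}` (open), `closure U ⊆ {R ≤ |x|} ∩ {0 ≤ x 2}`; a point of `closure U \ U` has `|x| = R` or `x 2 = 0`.
`c₁` from `TXSol.hemisphere_lower`; on the sphere `txSubZ k x = B z` with `B = ψ_a(R) + ψ_{a-1}(R) > 0`; `c = c₁ / B`.  `w = c · txSubZ k - f`.
`x 2 = 0`: `txSubZ = 0`, `f = 0`.  `hinf`: `w ≤ c |txSubZ| → 0` as `f > 0` in `U`.  Conclusion for `x 2 > 0` with `txA_le_txSubZ`; for `x 2 = 0` both sides vanish. -/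

section L6

theorem TXSol.lower_odd {f : Space → ℝ} {k : ℝ} (h : TXSol f k)
    (hodd : ∀ x, f (reflZ x) = -f x) (haxi : ∀ a x, f (rotZ a x) = f x)
    (hpos : ∀ x : Space, 0 < x 2 → 0 < f x) :
    ∃ R c : ℝ, 2 * bigD ≤ R ∧ 0 < c ∧ ∀ x ∈ Ext R, 0 ≤ x 2 → c * (tz x * txA k x) ≤ f x := by
  obtain ⟨R₀, hR₀, hsub⟩ := tx_subsolZ h.k_lo h.k_hi
  have hD := tx_bigD_pos
  have hk : 0 < k := by have := h.k_lo; linarith
  set R := max R₀ (2 * bigD + 2) with hRdef
  have hR1 : R₀ ≤ R := le_max_left _ _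
  have hR2 : 2 * bigD + 2 ≤ R := le_max_right _ _
  have hR0 : 0 < R := by linarith
  obtain ⟨c₁, hc₁, hhemi⟩ := h.hemisphere_lower hodd haxi hpos hR2
  have c2 := tx_continuous_coord 2
  have hzero : ∀ x : Space, x 2 = 0 → f x = 0 := by
    intro x hx
    have e : reflZ x = x := by apply space_ext <;> simp [hx]
    have := hodd x
    rw [e] at this
    linarith
  set B := radialA k (2 / k - 2) R + radialA k (2 / k - 3) R with hB
  have hB0 : 0 < B := add_pos (radialA_pos _ _ hR0) (radialA_pos _ _ hR0)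
  set U : Set Space := Ext R ∩ {x | 0 < x 2} with hUdef
  have hU : IsOpen U := (isOpen_Ext R).inter (isOpen_lt continuous_const c2)
  have hcl : closure U ⊆ {x : Space | R ≤ ‖x‖ ∧ 0 ≤ x 2} := by
    apply closure_minimal
    · rintro x ⟨h1, h2⟩
      exact ⟨le_of_lt h1, le_of_lt h2⟩
    · exact (isClosed_le continuous_const continuous_norm).inter (isClosed_le continuous_const c2)
  refine ⟨R, c₁ / B, by linarith, by positivity, ?_⟩
  have key := h.compare hU (Φ := txSubZ k) (c := c₁ / B) (by positivity)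
    (fun x hx => by have := (hcl hx).1; linarith)
    (((tx_contDiffOn_txSubZ k).of_le (by norm_cast)).mono
      (fun x hx => Ext_mono hR0.le hx.1))
    (fun x hx => ((tx_contDiffOn_txSubZ k).continuousOn x
      (lt_of_lt_of_le hR0 (hcl hx).1)).mono (fun y hy => lt_of_lt_of_le hR0 (hcl hy).1))
    (fun x hx => hsub x (Ext_mono hR1 hx.1) (le_of_lt hx.2)) ?_ ?_
  · intro x hx hz
    have hx0 : x ≠ 0 := ne_zero_of_mem_Ext hR0.le hx
    rcases eq_or_lt_of_le hz with h0 | h0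
    · rw [hzero x h0.symm]
      unfold tz
      rw [← h0]
      simp
    · calc c₁ / B * (tz x * txA k x) ≤ c₁ / B * txSubZ k x :=
          mul_le_mul_of_nonneg_left (txA_le_txSubZ k hx0 hz) (by positivity)
        _ ≤ f x := key x ⟨hx, h0⟩
  · intro x hx hxU
    obtain ⟨b1, b2⟩ := hcl hx
    rcases eq_or_lt_of_le b2 with h0 | h0
    · rw [hzero x h0.symm]
      unfold txSubZ
      rw [← h0]
      simp
    · have hxR : ‖x‖ = R := le_antisymm (not_lt.1 fun hlt => hxU ⟨hlt, h0⟩) b1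
      have e : txSubZ k x = B * x 2 := by unfold txSubZ; rw [hxR]
      rw [e, ← mul_assoc, div_mul_cancel₀ _ hB0.ne']
      exact hhemi x hxR b2
  · intro ε hε
    obtain ⟨R', hR'⟩ := tx_txSub_small hk (ε * B / c₁) (by positivity)
    refine ⟨R', fun x hxU hx => ?_⟩
    have a1 := (le_abs_self _).trans (hR' x hx).2
    have a2 : c₁ / B * txSubZ k x ≤ c₁ / B * (ε * B / c₁) :=
      mul_le_mul_of_nonneg_left a1 (by positivity)
    have a3 : c₁ / B * (ε * B / c₁) = ε := by field_simp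
    have := hpos x hxU.2
    linarith

end L6

end Claimed.Open.R278
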