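import Claimed.Open.R278.TXChan
import Claimed.Open.R278.TXLow

/-!
# Result 278, package TX, file 5: relative derivatives in the strip `0 ≤ z ≤ 10`, `p → ∞`

Notation: `A = txA k`, `β = 2/k - 1`, `h = txH f k = f/A`, `r = |x|`, `t = tz x = z/r`, `∂_r = dr`, `Ω₁ = dfield (inr 1)`, `∂₀ = dfield (inl 0)`, `ℓ = -k + β/r`.
Leaves: `TX-S1` (product rules with the radial factor), `TX-S2` (oddness), `TX-S3` (the strip estimate).  The rest is glue (proved).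
-/

open MeasureTheory Filter
open scoped ContDiff InnerProductSpace ComplexConjugate ENNReal Topology Laplacian

noncomputable section

namespace Claimed.Open.R278

/-! ## LEAF TX-S1: product rules with the radial factor `A`

`dr (A g) = ℓ A g + A dr g`: `dr H x = fderiv H x (x/r)`, product rule, `fderiv (fun y => radialA k β ‖y‖) x (x/r) = deriv (radialA k β) r = ℓ A` (`deriv_radialA`; chain rule with
`fderiv ‖·‖ x (x/r) = 1`, or `hasDerivAt_ray` along the ray `s ↦ s • (x/r)`).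
`dr` only depends on the germ (`Filter.EventuallyEq.fderiv_eq` on the open set `Ext R`).
(ii') `dr f = A g₂` on `Ext R` with `g₂ = ℓ h + dr h`, `dr g₂ = -(β/r²) h + ℓ dr h + dr (dr h)` (`dr (fun y => -k + β/‖y‖) x = -β/r²`).
Rotations: `dword_rot_radial_smul` (`CHTA2`) with `ρ = radialA k β`, words `[inr 1]`, `[inr 1, inr 1]`. -/

section S1

theorem tx_f_eq {f : Space → ℝ} {k : ℝ} {x : Space} (hx : x ≠ 0) : f x = txA k x * txH f k x := by
  unfold txH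
  have := (txA_pos k hx).ne'
  field_simp

theorem tx_dr_radial {ρ : ℝ → ℝ} {x : Space} (hx : x ≠ 0) (hρ : DifferentiableAt ℝ ρ ‖x‖) :
    dr (fun y : Space => ρ ‖y‖) x = deriv ρ ‖x‖ := by
  have h : HasFDerivAt (fun y : Space => ρ ‖y‖) (deriv ρ ‖x‖ • (‖x‖⁻¹ • innerSL ℝ x)) x :=
    hρ.hasDerivAt.comp_hasFDerivAt x (hasFDerivAt_norm_space hx)
  simp only [dr, h.fderiv]
  have hn : ‖x‖ ≠ 0 := norm_ne_zero_iff.2 hx
  simp only [smul_apply, innerSL_apply_apply, inner_smul_right, real_inner_self_eq_norm_sq,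
    smul_eq_mul]
  field_simp

theorem tx_dr_fun_mul {σ g : Space → ℝ} {x : Space} (hσ : DifferentiableAt ℝ σ x)
    (hg : DifferentiableAt ℝ g x) :
    dr (fun y => σ y * g y) x = dr σ x * g x + σ x * dr g x := by
  simp only [dr]
  rw [fderiv_fun_mul hσ hg]
  simp only [_root_.add_apply, _root_.smul_apply, smul_eq_mul]
  ring

theorem tx_dr_fun_add {σ g : Space → ℝ} {x : Space} (hσ : DifferentiableAt ℝ σ x)
    (hg : DifferentiableAt ℝ g x) :
    dr (fun y => σ y + g y) x = dr σ x + dr g x := by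
  simp only [dr]
  rw [fderiv_fun_add hσ hg]
  rfl

theorem tx_dr_txA (k : ℝ) {x : Space} (hx : x ≠ 0) :
    dr (txA k) x = (-k + (2 / k - 1) / ‖x‖) * txA k x := by
  have hr := norm_pos_iff.2 hx
  have := tx_dr_radial (ρ := radialA k (2 / k - 1)) hx (hasDerivAt_radialA k _ hr).differentiableAt
  rw [deriv_radialA k _ hr] at this
  exact this

theorem tx_differentiableAt_txA (k : ℝ) {x : Space} (hx : x ≠ 0) : DifferentiableAt ℝ (txA k) x :=
  differentiableAt_of_mem_Ext (tx_contDiffOn_txA k) (norm_pos_iff.2 hx)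

theorem tx_dr_mul {R : ℝ} (hR : 0 ≤ R) (k : ℝ) {g : Space → ℝ} (hg : ContDiffOn ℝ ∞ g (Ext R)) :
    ∀ x ∈ Ext R, dr (fun y => txA k y * g y) x
      = (-k + (2 / k - 1) / ‖x‖) * (txA k x * g x) + txA k x * dr g x := by
  intro x hx
  have hx0 := ne_zero_of_mem_Ext hR hx
  rw [tx_dr_fun_mul (tx_differentiableAt_txA k hx0) (differentiableAt_of_mem_Ext hg hx),
    tx_dr_txA k hx0]
  ring

theorem tx_dr_f {R : ℝ} (hR : 0 ≤ R) (k : ℝ) {f : Space → ℝ} (hf : ContDiffOn ℝ ∞ f (Ext R)) :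
    ∀ x ∈ Ext R, dr f x = (-k + (2 / k - 1) / ‖x‖) * f x + txA k x * dr (txH f k) x := by
  intro x hx
  have hx0 := ne_zero_of_mem_Ext hR hx
  have e : ∀ y ∈ Ext R, f y = txA k y * txH f k y := fun y hy =>
    tx_f_eq (ne_zero_of_mem_Ext hR hy)
  rw [dr_congr e x hx, tx_dr_mul hR k (tx_contDiffOn_txH hR hf k) x hx, ← e x hx]

/-- `ℓ = -k + β/r`. -/
theorem tx_dr_ell (k β : ℝ) {x : Space} (hx : x ≠ 0) :
    dr (fun y : Space => -k + β / ‖y‖) x = -(β / ‖x‖ ^ 2) := by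
  have hr := norm_pos_iff.2 hx
  have h1 : HasDerivAt (fun s : ℝ => -k + β / s) (-β / ‖x‖ ^ 2) ‖x‖ := by
    have := ((hasDerivAt_inv hr.ne').const_mul β).const_add (-k)
    refine (this.congr_deriv ?_)
    field_simp
  have := tx_dr_radial (ρ := fun s : ℝ => -k + β / s) hx h1.differentiableAt
  rw [h1.deriv] at this
  rw [this]; ring

theorem tx_contDiffOn_ell {R : ℝ} (hR : 0 ≤ R) (k β : ℝ) :
    ContDiffOn ℝ ∞ (fun y : Space => -k + β / ‖y‖) (Ext R) :=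
  contDiffOn_const.add (contDiffOn_const.div (contDiffOn_norm_Ext hR)
    fun _ hx => (norm_pos_of_mem_Ext hR hx).ne')

theorem tx_dr_dr_f {R : ℝ} (hR : 0 ≤ R) (k : ℝ) {f : Space → ℝ} (hf : ContDiffOn ℝ ∞ f (Ext R)) :
    ∀ x ∈ Ext R, dr (dr f) x
      = ((-k + (2 / k - 1) / ‖x‖) ^ 2 - (2 / k - 1) / ‖x‖ ^ 2) * f x
        + 2 * (-k + (2 / k - 1) / ‖x‖) * (txA k x * dr (txH f k) x)
        + txA k x * dr (dr (txH f k)) x := by
  intro x hx
  have hx0 := ne_zero_of_mem_Ext hR hx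
  have hH := tx_contDiffOn_txH hR hf k
  have hdH := contDiffOn_dr hR hH
  have hell := tx_contDiffOn_ell hR k (2 / k - 1)
  have e : ∀ y ∈ Ext R, dr f y = (fun y : Space => -k + (2 / k - 1) / ‖y‖) y * f y
      + txA k y * dr (txH f k) y := tx_dr_f hR k hf
  rw [dr_congr e x hx, tx_dr_fun_add
    (σ := fun y => (fun y : Space => -k + (2 / k - 1) / ‖y‖) y * f y)
    (g := fun y => txA k y * dr (txH f k) y)
    ((differentiableAt_of_mem_Ext hell hx).mul (differentiableAt_of_mem_Ext hf hx))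
    ((tx_differentiableAt_txA k hx0).mul (differentiableAt_of_mem_Ext hdH hx)),
    tx_dr_fun_mul (differentiableAt_of_mem_Ext hell hx) (differentiableAt_of_mem_Ext hf hx),
    tx_dr_ell k _ hx0, tx_dr_mul hR k hdH x hx, tx_dr_f hR k hf x hx]
  ring

theorem tx_rot_f {R : ℝ} (hR : 0 ≤ R) (k : ℝ) {f : Space → ℝ} (hf : ContDiffOn ℝ ∞ f (Ext R)) :
    ∀ x ∈ Ext R,
      dfield (Sum.inr 1) f x = txA k x * dfield (Sum.inr 1) (txH f k) x ∧
      dfield (Sum.inr 1) (dfield (Sum.inr 1) f) x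
        = txA k x * dfield (Sum.inr 1) (dfield (Sum.inr 1) (txH f k)) x ∧
      dr (dfield (Sum.inr 1) f) x
        = (-k + (2 / k - 1) / ‖x‖) * (txA k x * dfield (Sum.inr 1) (txH f k) x)
          + txA k x * dr (dfield (Sum.inr 1) (txH f k)) x := by
  have hH := tx_contDiffOn_txH hR hf k
  have e : ∀ y ∈ Ext R, f y = radialA k (2 / k - 1) ‖y‖ • txH f k y := fun y hy =>
    tx_f_eq (ne_zero_of_mem_Ext hR hy)
  have hρ : ContDiffOn ℝ ∞ (radialA k (2 / k - 1)) (Set.Ioi R) :=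
    (contDiffOn_radialA k _).mono (Set.Ioi_subset_Ioi hR)
  have w1 : IsRotWord [Sum.inr 1] := isRotWord_nil.cons 1
  have w2 : IsRotWord [Sum.inr 1, Sum.inr 1] := w1.cons 1
  have a1 : ∀ x ∈ Ext R, dfield (Sum.inr 1) f x = txA k x * dfield (Sum.inr 1) (txH f k) x := by
    intro x hx
    have := dword_rot_radial_smul hR hρ hH w1 x hx
    rw [← dword_congr e _ x hx] at this
    exact this
  have a2 : ∀ x ∈ Ext R, dfield (Sum.inr 1) (dfield (Sum.inr 1) f) x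
      = txA k x * dfield (Sum.inr 1) (dfield (Sum.inr 1) (txH f k)) x := by
    intro x hx
    have := dword_rot_radial_smul hR hρ hH w2 x hx
    rw [← dword_congr e _ x hx] at this
    exact this
  intro x hx
  refine ⟨a1 x hx, a2 x hx, ?_⟩
  rw [dr_congr a1 x hx, tx_dr_mul hR k (contDiffOn_dfield hH _) x hx]

end S1

/-! ## LEAF TX-S2: oddness gains a factor `|t|`

`h` is odd on `Ext R` (`‖reflZ x‖ = ‖x‖`), hence `dr h`, `dr (dr h)` are odd (`dr_comp_reflZ`, locality of `dr`, `reflZ_mem_Ext`).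
`odd_bound` (`CHTE`) for `H = dr h`, `H = dr (dr h)`:  `|H x| ≤ 3 M |t|`, `M ≥ |Ωᵢ H y|` on the sphere `|y| = |x|`;
`Ωᵢ dr h = dr Ωᵢ h`, `Ωᵢ dr dr h = dr dr Ωᵢ h` (`dfield_rot_dr`, once resp. twice + locality) and `hE.rot_dr [inr i]`, `hE.rot_dr2 [inr i]` give `M = C 1 (r²)⁻¹`. -/

section S2

theorem tx_dr_odd {H : Space → ℝ} (hodd : ∀ x, H (reflZ x) = -H x) (x : Space) :
    dr H (reflZ x) = -dr H x := by
  rw [← dr_comp_reflZ' H x]
  have : (fun y => H (reflZ y)) = fun y => -H y := funext hodd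
  rw [this]
  simp only [dr]
  rw [fderiv_fun_neg]
  rfl

theorem TXExp.odd_dr {f : Space → ℝ} {k R : ℝ} {C : ℕ → ℝ} (hE : TXExp f k R C)
    (hodd : ∀ x, f (reflZ x) = -f x) : ∀ x ∈ Ext R,
      |dr (txH f k) x| ≤ 3 * C 1 * |tz x| * (‖x‖ ^ 2)⁻¹ ∧
      |dr (dr (txH f k)) x| ≤ 3 * C 1 * |tz x| * (‖x‖ ^ 2)⁻¹ := by
  have hD := tx_bigD_pos
  have hR : 0 ≤ R := by have := hE.R_ge; linarith
  have hH := tx_contDiffOn_txH hR hE.words.1 k
  have hdH := contDiffOn_dr hR hH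
  have hddH := contDiffOn_dr hR hdH
  have o0 : ∀ x, txH f k (reflZ x) = -txH f k x := by
    intro x
    unfold txH txA
    rw [hodd, norm_reflZ, neg_div]
  have o1 := tx_dr_odd o0
  have o2 := tx_dr_odd o1
  intro x hx
  have c1 : ∀ i, ∀ y ∈ Ext R, dfield (Sum.inr i) (dr (txH f k)) y
      = dr (dword [Sum.inr i] (txH f k)) y := fun i => dfield_rot_dr hR hH i
  have c2 : ∀ i, ∀ y ∈ Ext R, dfield (Sum.inr i) (dr (dr (txH f k))) y
      = dr (dr (dword [Sum.inr i] (txH f k))) y := by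
    intro i y hy
    rw [dfield_rot_dr hR hdH i y hy, dr_congr (c1 i) y hy]
  have hw : ∀ i : Fin 3, IsRotWord [Sum.inr i] := fun i => isRotWord_nil.cons i
  have b1 := odd_bound hR (hdH.of_le (by norm_cast)) (fun y _ => o1 y) hx
    (M := C 1 * (‖x‖ ^ 2)⁻¹) (fun y hy i => by
      have hyR : y ∈ Ext R := by show R < ‖y‖; rw [hy]; exact hx
      rw [c1 i y hyR, Real.norm_eq_abs, ← hy]
      exact hE.rot_dr _ (hw i) y hyR)
  have b2 := odd_bound hR (hddH.of_le (by norm_cast)) (fun y _ => o2 y) hx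
    (M := C 1 * (‖x‖ ^ 2)⁻¹) (fun y hy i => by
      have hyR : y ∈ Ext R := by show R < ‖y‖; rw [hy]; exact hx
      rw [c2 i y hyR, Real.norm_eq_abs, ← hy]
      exact hE.rot_dr2 _ (hw i) y hyR)
  rw [Real.norm_eq_abs] at b1 b2
  constructor
  · calc _ ≤ _ := b1
      _ = _ := by ring
  · calc _ ≤ _ := b2
      _ = _ := by ring

end S2

/-! ## LEAF TX-S3: the strip estimate

`x = cyl p z`, `0 ≤ z ≤ 10`, `p ≥ P := max R 1 + 1`; `r = √(p²+z²) ≥ p ≥ 1`, `t = z/r ≤ ω := om x`, `f := f x ≥ c ω A`, i.e. `ω A ≤ f/c`.  `C₁ = C 1`, `C₂ = C 2` (`hE.rot`, `hE.rot_dr` for the words `[inr 1]`, `[inr 1, inr 1]`).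
**First derivative** (`dfield_zero_cyl`): `∂₀f = (p/r) ∂_r f + (z/r²) Ω₁f`, so with `tx_dr_f`, `tx_rot_f`
`∂₀f + k f = k (1 - p/r) f + (p/r)(β/r) f + (p/r) A ∂_r h + (z/r²) A Ω₁h`, and
`0 ≤ 1 - p/r = z²/(r(r+p)) ≤ 100/p`, `|β| ≤ 2`, `|(p/r) A ∂_r h| ≤ K ω A /r² ≤ (K/c) f/p`, `|(z/r²) A Ω₁h| = (t/r) A |Ω₁h| ≤ C₁ ω A/r ≤ (C₁/c) f/p`.
**Second derivative** (`dfield_zero_zero_cyl`):
`∂₀²f = (z²/r³) ∂_r f + (p/r)² ∂_r²f + (2pz/r³) ∂_rΩ₁f - (2pz/r⁴) Ω₁f + (z/r²)² Ω₁²f`, so with `ℓ = -k + β/r`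
`∂₀²f - k²f = k²((p/r)² - 1) f + (p/r)² [(-2kβ/r + β²/r² - β/r²) f + 2ℓ A ∂_r h + A ∂_r²h] + (z²/r³)[ℓ f + A ∂_r h]
              + (2pz/r³)[ℓ A Ω₁h + A ∂_rΩ₁h] - (2pz/r⁴) A Ω₁h + (z²/r⁴) A Ω₁²h`;
`|(p/r)² - 1| = z²/r² ≤ 100/p`; `|ℓ| ≤ 4`; `2pz/r³ = 2 (p/r)(t/r) ≤ 2ω/p`; `z²/r⁴ = t z/r³ ≤ 10 ω/p`; `z²/r³ ≤ 100/p`.
Every term is `≤ const · f/p` with a constant depending only on `K, c, C₁, C₂`.  (`f ≥ 0` follows from `hlow`, `0 ≤ t ≤ ω`.) -/

section S3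

/-- bookkeeping: `|x y| ≤ a b`. -/
theorem tx_abs_mul_le {x y a b : ℝ} (hx : |x| ≤ a) (hy : |y| ≤ b) : |x * y| ≤ a * b := by
  rw [abs_mul]
  exact mul_le_mul hx hy (abs_nonneg _) ((abs_nonneg _).trans hx)

theorem tx_strip_alg1 {F A om u v z k β h1 g1 K C1 : ℝ} (hF : 0 ≤ F) (hA : 0 ≤ A)
    (hu0 : 0 ≤ u) (hu1 : u ≤ 1) (hv0 : 0 ≤ v) (hv1 : v ≤ 1) (hz0 : 0 ≤ z) (hz1 : z ≤ 10)
    (huv : u ^ 2 + (z * v) ^ 2 = 1) (hom : z * v ≤ om) (hk1 : 0.9 < k) (hk2 : k < 1.1)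
    (hβ : |β| ≤ 2) (hK : 0 ≤ K) (hh1 : |h1| ≤ K * om * v ^ 2) (hg1 : |g1| ≤ C1) :
    |u * ((-k + β * v) * F + A * h1) + z * v ^ 2 * (A * g1) + k * F|
      ≤ v * (112 * F + (K + C1) * (om * A)) := by
  have hom0 : 0 ≤ om := (mul_nonneg hz0 hv0).trans hom
  have hC1 : 0 ≤ C1 := (abs_nonneg _).trans hg1
  have hvv : v ^ 2 ≤ v := by nlinarith
  have e : u * ((-k + β * v) * F + A * h1) + z * v ^ 2 * (A * g1) + k * F
      = F * (k * (1 - u) + u * β * v) + u * A * h1 + (z * v) * v * A * g1 := by ring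
  have hzv : (z * v) ^ 2 ≤ 100 * v := by
    have : z ^ 2 ≤ 100 := by nlinarith
    calc (z * v) ^ 2 = z ^ 2 * v ^ 2 := by ring
      _ ≤ 100 * v := mul_le_mul this hvv (by positivity) (by norm_num)
  have h1u : 1 - u ≤ 100 * v := by nlinarith
  have h1u0 : 0 ≤ 1 - u := by linarith
  have t1 : |F * (k * (1 - u) + u * β * v)| ≤ F * (112 * v) := by
    rw [abs_mul, abs_of_nonneg hF]
    apply mul_le_mul_of_nonneg_left _ hF
    have a1 : |k * (1 - u)| ≤ 1.1 * (100 * v) :=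
      tx_abs_mul_le (by rw [abs_of_pos (by linarith)]; exact hk2.le) (by rwa [abs_of_nonneg h1u0])
    have a2 : |u * β * v| ≤ 1 * 2 * v :=
      tx_abs_mul_le (tx_abs_mul_le (by rwa [abs_of_nonneg hu0]) hβ) (by rw [abs_of_nonneg hv0])
    calc _ ≤ |k * (1 - u)| + |u * β * v| := abs_add_le _ _
      _ ≤ 112 * v := by linarith
  have t2 : |u * A * h1| ≤ 1 * A * (K * om * v) := by
    refine tx_abs_mul_le (tx_abs_mul_le (by rwa [abs_of_nonneg hu0]) (by rw [abs_of_nonneg hA])) ?_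
    exact hh1.trans (mul_le_mul_of_nonneg_left hvv (by positivity))
  have t3 : |(z * v) * v * A * g1| ≤ om * v * A * C1 :=
    tx_abs_mul_le (tx_abs_mul_le (tx_abs_mul_le (by rwa [abs_of_nonneg (by positivity)])
      (by rw [abs_of_nonneg hv0])) (by rw [abs_of_nonneg hA])) hg1
  rw [e]
  calc _ ≤ |F * (k * (1 - u) + u * β * v) + u * A * h1| + |(z * v) * v * A * g1| := abs_add_le _ _
    _ ≤ |F * (k * (1 - u) + u * β * v)| + |u * A * h1| + |(z * v) * v * A * g1| := by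
        gcongr; exact abs_add_le _ _
    _ ≤ F * (112 * v) + 1 * A * (K * om * v) + om * v * A * C1 := by gcongr
    _ = _ := by ring

theorem tx_strip_alg2 {F A om u v z k β h1 h2 g1 g2 g3 K C1 C2 : ℝ} (hF : 0 ≤ F) (hA : 0 ≤ A)
    (hu0 : 0 ≤ u) (hu1 : u ≤ 1) (hv0 : 0 ≤ v) (hv1 : v ≤ 1) (hz0 : 0 ≤ z) (hz1 : z ≤ 10)
    (huv : u ^ 2 + (z * v) ^ 2 = 1) (hom : z * v ≤ om) (hk1 : 0.9 < k) (hk2 : k < 1.1)
    (hβ : |β| ≤ 2) (hK : 0 ≤ K) (hh1 : |h1| ≤ K * om * v ^ 2) (hh2 : |h2| ≤ K * om * v ^ 2)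
    (hg1 : |g1| ≤ C1) (hg2 : |g2| ≤ C2) (hg3 : |g3| ≤ C1 * v ^ 2) :
    |z ^ 2 * v ^ 3 * ((-k + β * v) * F + A * h1)
      + u ^ 2 * (((-k + β * v) ^ 2 - β * v ^ 2) * F + 2 * (-k + β * v) * (A * h1) + A * h2)
      + 2 * u * z * v ^ 2 * ((-k + β * v) * (A * g1) + A * g3)
      - 2 * u * z * v ^ 3 * (A * g1) + (z * v ^ 2) ^ 2 * (A * g2) - k ^ 2 * F|
      ≤ v * (540 * F + (109 * K + 12 * C1 + 10 * C2) * (om * A)) := by
  have hom0 : 0 ≤ om := (mul_nonneg hz0 hv0).trans hom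
  have hC1 : 0 ≤ C1 := (abs_nonneg _).trans hg1
  have hC2 : 0 ≤ C2 := (abs_nonneg _).trans hg2
  have hvv : v ^ 2 ≤ v := by nlinarith
  have hv2 : v ^ 2 ≤ 1 := by nlinarith
  have hv20 : 0 ≤ v ^ 2 := by positivity
  have hu2 : u ^ 2 ≤ 1 := by nlinarith
  have hz2 : z ^ 2 ≤ 100 := by nlinarith
  set l := -k + β * v with hl
  have hβv : |β * v| ≤ 2 * 1 := tx_abs_mul_le hβ (by rwa [abs_of_nonneg hv0])
  have hlabs : |l| ≤ 4 := by
    have := abs_le.1 hβv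
    rw [abs_le]; constructor <;> linarith [this.1, this.2]
  have au : |u| ≤ 1 := by rwa [abs_of_nonneg hu0]
  have au2 : |u ^ 2| ≤ 1 := by rwa [abs_of_nonneg (by positivity)]
  have av : |v| ≤ v := by rw [abs_of_nonneg hv0]
  have av1 : |v| ≤ 1 := by rwa [abs_of_nonneg hv0]
  have av2 : |v ^ 2| ≤ 1 := by rwa [abs_of_nonneg hv20]
  have aA : |A| ≤ A := by rw [abs_of_nonneg hA]
  have az : |z| ≤ 10 := by rwa [abs_of_nonneg hz0]
  have az2 : |z ^ 2| ≤ 100 := by rwa [abs_of_nonneg (by positivity)]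
  have azv : |z * v| ≤ om := by rwa [abs_of_nonneg (by positivity)]
  have ak : |k| ≤ 1.1 := by rw [abs_of_pos (by linarith)]; exact hk2.le
  have hh1' : |h1| ≤ K * om * v := hh1.trans (mul_le_mul_of_nonneg_left hvv (by positivity))
  have hh2' : |h2| ≤ K * om * v := hh2.trans (mul_le_mul_of_nonneg_left hvv (by positivity))
  have hg3' : |g3| ≤ C1 := hg3.trans (by nlinarith)
  have e : z ^ 2 * v ^ 3 * (l * F + A * h1)
      + u ^ 2 * ((l ^ 2 - β * v ^ 2) * F + 2 * l * (A * h1) + A * h2)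
      + 2 * u * z * v ^ 2 * (l * (A * g1) + A * g3)
      - 2 * u * z * v ^ 3 * (A * g1) + (z * v ^ 2) ^ 2 * (A * g2) - k ^ 2 * F
      = F * (v * (z ^ 2 * v ^ 2 * l - k ^ 2 * z ^ 2 * v
          + u ^ 2 * (-2 * k * β + β ^ 2 * v - β * v)))
        + (z ^ 2 * v ^ 2 * v + 2 * u ^ 2 * l) * A * h1
        + u ^ 2 * A * h2
        + 2 * u * l * (z * v) * v * A * g1
        + 2 * u * (z * v) * v * A * g3
        - 2 * u * v * (z * v) * v * A * g1
        + z * v ^ 2 * (z * v) * v * A * g2 := by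
    have : u ^ 2 = 1 - (z * v) ^ 2 := by linarith
    have e1 : u ^ 2 * (l ^ 2 * F) = (l ^ 2 - k ^ 2) * u ^ 2 * F + k ^ 2 * F - k ^ 2 * (z * v) ^ 2 * F := by
      rw [this]; ring
    have e2 : l ^ 2 - k ^ 2 = v * (-2 * k * β + β ^ 2 * v) := by rw [hl]; ring
    calc _ = z ^ 2 * v ^ 3 * (l * F + A * h1)
      + (u ^ 2 * (l ^ 2 * F) + u ^ 2 * ((- β * v ^ 2) * F + 2 * l * (A * h1) + A * h2))
      + 2 * u * z * v ^ 2 * (l * (A * g1) + A * g3)
      - 2 * u * z * v ^ 3 * (A * g1) + (z * v ^ 2) ^ 2 * (A * g2) - k ^ 2 * F := by ring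
      _ = _ := by rw [e1, e2]; ring
  have aβ2 : |β ^ 2| ≤ 2 * 2 := by rw [sq]; exact tx_abs_mul_le hβ hβ
  have ak2 : |k ^ 2| ≤ 1.1 * 1.1 := by rw [sq]; exact tx_abs_mul_le ak ak
  have t0 : |z ^ 2 * v ^ 2 * l - k ^ 2 * z ^ 2 * v + u ^ 2 * (-2 * k * β + β ^ 2 * v - β * v)| ≤ 540 := by
    have b1 : |z ^ 2 * v ^ 2 * l| ≤ 100 * 1 * 4 := tx_abs_mul_le (tx_abs_mul_le az2 av2) hlabs
    have b2 : |k ^ 2 * z ^ 2 * v| ≤ 1.1 * 1.1 * 100 * 1 := tx_abs_mul_le (tx_abs_mul_le ak2 az2) av1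
    have b3 : |-2 * k * β| ≤ 2 * 1.1 * 2 := tx_abs_mul_le (tx_abs_mul_le (by norm_num) ak) hβ
    have b4 : |β ^ 2 * v| ≤ 2 * 2 * 1 := tx_abs_mul_le aβ2 av1
    have b5 : |-2 * k * β + β ^ 2 * v - β * v| ≤ 2 * 1.1 * 2 + 2 * 2 * 1 + 2 * 1 :=
      (abs_sub _ _).trans (add_le_add ((abs_add_le _ _).trans (add_le_add b3 b4)) hβv)
    have b6 := tx_abs_mul_le au2 b5
    calc _ ≤ |z ^ 2 * v ^ 2 * l - k ^ 2 * z ^ 2 * v| + |u ^ 2 * (-2 * k * β + β ^ 2 * v - β * v)| :=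
          abs_add_le _ _
      _ ≤ |z ^ 2 * v ^ 2 * l| + |k ^ 2 * z ^ 2 * v| + |u ^ 2 * (-2 * k * β + β ^ 2 * v - β * v)| := by
          gcongr; exact abs_sub _ _
      _ ≤ 540 := by linarith
  have t1 : |F * (v * (z ^ 2 * v ^ 2 * l - k ^ 2 * z ^ 2 * v
          + u ^ 2 * (-2 * k * β + β ^ 2 * v - β * v)))| ≤ F * (v * 540) :=
    tx_abs_mul_le (by rw [abs_of_nonneg hF]) (tx_abs_mul_le av t0)
  have t2 : |(z ^ 2 * v ^ 2 * v + 2 * u ^ 2 * l) * A * h1| ≤ (100 * 1 * 1 + 2 * 1 * 4) * A * (K * om * v) := by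
    refine tx_abs_mul_le (tx_abs_mul_le ?_ aA) hh1'
    exact (abs_add_le _ _).trans (add_le_add (tx_abs_mul_le (tx_abs_mul_le az2 av2) av1)
      (tx_abs_mul_le (tx_abs_mul_le (by norm_num) au2) hlabs))
  have t3 : |u ^ 2 * A * h2| ≤ 1 * A * (K * om * v) := tx_abs_mul_le (tx_abs_mul_le au2 aA) hh2'
  have a2 : |(2 : ℝ)| ≤ 2 := by norm_num
  have t4 : |2 * u * l * (z * v) * v * A * g1| ≤ 2 * 1 * 4 * om * v * A * C1 :=
    tx_abs_mul_le (tx_abs_mul_le (tx_abs_mul_le (tx_abs_mul_le (tx_abs_mul_le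
      (tx_abs_mul_le a2 au) hlabs) azv) av) aA) hg1
  have t5 : |2 * u * (z * v) * v * A * g3| ≤ 2 * 1 * om * v * A * C1 :=
    tx_abs_mul_le (tx_abs_mul_le (tx_abs_mul_le (tx_abs_mul_le (tx_abs_mul_le a2 au) azv) av) aA) hg3'
  have t6 : |2 * u * v * (z * v) * v * A * g1| ≤ 2 * 1 * 1 * om * v * A * C1 :=
    tx_abs_mul_le (tx_abs_mul_le (tx_abs_mul_le (tx_abs_mul_le (tx_abs_mul_le
      (tx_abs_mul_le a2 au) av1) azv) av) aA) hg1
  have t7 : |z * v ^ 2 * (z * v) * v * A * g2| ≤ 10 * 1 * om * v * A * C2 :=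
    tx_abs_mul_le (tx_abs_mul_le (tx_abs_mul_le (tx_abs_mul_le (tx_abs_mul_le az av2) azv) av) aA) hg2
  rw [e]
  have tri : ∀ a b c d e f g : ℝ, |a + b + c + d + e - f + g| ≤ |a| + |b| + |c| + |d| + |e| + |f| + |g| := by
    intro a b c d e f g
    have s1 := abs_add_le (a + b + c + d + e - f) g
    have s2 := abs_sub (a + b + c + d + e) f
    have s3 := abs_add_le (a + b + c + d) e
    have s4 := abs_add_le (a + b + c) d
    have s5 := abs_add_le (a + b) c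
    have s6 := abs_add_le a b
    linarith
  refine (tri _ _ _ _ _ _ _).trans ?_
  calc _ ≤ F * (v * 540) + (100 * 1 * 1 + 2 * 1 * 4) * A * (K * om * v) + 1 * A * (K * om * v)
        + 2 * 1 * 4 * om * v * A * C1 + 2 * 1 * om * v * A * C1 + 2 * 1 * 1 * om * v * A * C1
        + 10 * 1 * om * v * A * C2 := by linarith
    _ = _ := by ring

theorem tx_strip_of {f : Space → ℝ} {k R : ℝ} {C : ℕ → ℝ} (h1 : 0.9 < k) (h2 : k < 1.1)
    (hE : TXExp f k R C) {om : Space → ℝ} {c K : ℝ} (hc : 0 < c)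
    (hom : ∀ x ∈ Ext R, 0 ≤ x 2 → tz x ≤ om x)
    (hlow : ∀ x ∈ Ext R, 0 ≤ x 2 → c * (om x * txA k x) ≤ f x)
    (hdr : ∀ x ∈ Ext R, 0 ≤ x 2 → |dr (txH f k) x| ≤ K * om x * (‖x‖ ^ 2)⁻¹ ∧
      |dr (dr (txH f k)) x| ≤ K * om x * (‖x‖ ^ 2)⁻¹) :
    ∃ C' P : ℝ, TXStrip f k C' P := by
  have hD := tx_bigD_pos
  have hR : 0 ≤ R := by have := hE.R_ge; linarith
  have hf := hE.words.1
  set M := 109 * |K| + 12 * |C 1| + 10 * |C 2| with hM
  have hM0 : 0 ≤ M := by positivity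
  have hmM : |K| + |C 1| ≤ M := by
    rw [hM]; linarith [abs_nonneg K, abs_nonneg (C 1), abs_nonneg (C 2)]
  refine ⟨540 + M / c, max R 1 + 1, fun p z hp hz0 hz1 => ?_⟩
  have hz1' : z ≤ 10 := hz1
  have hpR : R < p := lt_of_le_of_lt (le_max_left R 1) (by linarith)
  have hp1 : 1 ≤ p := (le_max_right R 1).trans (by linarith)
  have hp0 : 0 < p := by linarith
  set x := cyl p z with hx
  set r := ‖x‖ with hr
  have hrsq : r ^ 2 = p ^ 2 + z ^ 2 := by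
    rw [hr, hx, norm_cyl, Real.sq_sqrt (by positivity)]
  have hr0' : 0 ≤ r := norm_nonneg _
  have hpr : p ≤ r := by
    apply le_of_sq_le_sq _ hr0'
    nlinarith [sq_nonneg z]
  have hr0 : 0 < r := by linarith
  have hxR : x ∈ Ext R := lt_of_lt_of_le hpR hpr
  have hx0 : x ≠ 0 := ne_zero_of_mem_Ext hR hxR
  have hx2 : x 2 = z := by rw [hx]; simp
  have hx2' : 0 ≤ x 2 := by rw [hx2]; exact hz0
  set v := r⁻¹ with hv
  set u := p / r with hu
  set β := 2 / k - 1 with hβdef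
  have hv0 : 0 ≤ v := by positivity
  have hv1 : v ≤ 1 := inv_le_one_of_one_le₀ (by linarith)
  have hvp : v ≤ 1 / p := by rw [hv, one_div]; exact inv_anti₀ hp0 hpr
  have hu0 : 0 ≤ u := by positivity
  have hu1 : u ≤ 1 := by rw [hu, div_le_one hr0]; exact hpr
  have huv : u ^ 2 + (z * v) ^ 2 = 1 := by
    rw [hu, hv]
    field_simp
    linarith
  have hβ : |β| ≤ 2 := by
    have hk0 : 0 < k := by linarith
    have b1 : 0 ≤ 2 / k := by positivity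
    have b2 : 2 / k ≤ 3 := by rw [div_le_iff₀ hk0]; linarith
    rw [abs_le]; constructor <;> linarith
  have htz : z * v = tz x := by unfold tz; rw [hx2, hv, div_eq_mul_inv]
  have homx : z * v ≤ om x := by rw [htz]; exact hom x hxR hx2'
  have hom0 : 0 ≤ om x := (mul_nonneg hz0 hv0).trans homx
  have hA : 0 < txA k x := txA_pos k hx0
  have hlowx := hlow x hxR hx2'
  have hF : 0 ≤ f x := (by positivity : 0 ≤ c * (om x * txA k x)).trans hlowx
  have hoA : om x * txA k x ≤ f x / c := by rw [le_div_iff₀' hc]; exact hlowx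
  have einv : (r ^ 2)⁻¹ = v ^ 2 := by rw [hv, inv_pow]
  obtain ⟨d1, d2⟩ := hdr x hxR hx2'
  rw [← hr, einv] at d1 d2
  have hKK : ∀ y : ℝ, y ≤ K * om x * v ^ 2 → y ≤ |K| * om x * v ^ 2 := fun y hy =>
    hy.trans (by gcongr; exact le_abs_self K)
  have w1 : IsRotWord [Sum.inr 1] := isRotWord_nil.cons 1
  have w2 : IsRotWord [Sum.inr 1, Sum.inr 1] := w1.cons 1
  have g1 : |dfield (Sum.inr 1) (txH f k) x| ≤ |C 1| := (hE.rot _ w1 x hxR).trans (le_abs_self _)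
  have g2 : |dfield (Sum.inr 1) (dfield (Sum.inr 1) (txH f k)) x| ≤ |C 2| :=
    (hE.rot _ w2 x hxR).trans (le_abs_self _)
  have g3 : |dr (dfield (Sum.inr 1) (txH f k)) x| ≤ |C 1| * v ^ 2 := by
    have := hE.rot_dr _ w1 x hxR
    rw [← hr, einv] at this
    exact this.trans (by gcongr; exact le_abs_self _)
  -- the final step
  have fin : ∀ E n m : ℝ, E ≤ v * (n * f x + m * (om x * txA k x)) → n ≤ 540 → 0 ≤ m → m ≤ M →
      E ≤ (540 + M / c) / p * f x := by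
    intro E n m hE' hn hm0 hmM
    have s1 : n * f x + m * (om x * txA k x) ≤ 540 * f x + M * (f x / c) := by
      have a1 : n * f x ≤ 540 * f x := mul_le_mul_of_nonneg_right hn hF
      have a2 : m * (om x * txA k x) ≤ M * (f x / c) :=
        mul_le_mul hmM hoA (by positivity) hM0
      linarith
    have s2 : 0 ≤ 540 * f x + M * (f x / c) := by positivity
    calc E ≤ v * (n * f x + m * (om x * txA k x)) := hE'
      _ ≤ v * (540 * f x + M * (f x / c)) := mul_le_mul_of_nonneg_left s1 hv0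
      _ ≤ 1 / p * (540 * f x + M * (f x / c)) := mul_le_mul_of_nonneg_right hvp s2
      _ = _ := by field_simp
  have eβ : β / r = β * v := by rw [hv, div_eq_mul_inv]
  have eβ2 : β / r ^ 2 = β * v ^ 2 := by rw [← einv, div_eq_mul_inv]
  have q1 := tx_dr_f hR k hf x hxR
  have q2 := tx_dr_dr_f hR k hf x hxR
  obtain ⟨q3, q4, q5⟩ := tx_rot_f hR k hf x hxR
  rw [← hr, eβ] at q1 q5
  rw [← hr, eβ, eβ2] at q2
  constructor
  · have e0 := dfield_zero_cyl (H := f) (p := p) (z := z) hx0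
    rw [← hx, ← hr, q1, q3] at e0
    have ez : z / r ^ 2 = z * v ^ 2 := by rw [← einv, div_eq_mul_inv]
    rw [ez, ← hu] at e0
    simp only [smul_eq_mul] at e0
    rw [e0]
    have key := tx_strip_alg1 hF hA.le hu0 hu1 hv0 hv1 hz0 hz1' huv homx h1 h2 hβ
      (abs_nonneg K) (hKK _ d1) g1
    exact fin _ 112 (|K| + |C 1|) key (by norm_num) (by positivity) hmM
  · have e0 := dfield_zero_zero_cyl hR hf (p := p) (z := z) hxR
    rw [← hx, ← hr, q1, q2, q3, q4, q5] at e0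
    have ez1 : z ^ 2 / r ^ 3 = z ^ 2 * v ^ 3 := by rw [hv, inv_pow, div_eq_mul_inv]
    have ez2 : 2 * p * z / r ^ 3 = 2 * u * z * v ^ 2 := by rw [hv, hu]; field_simp
    have ez3 : 2 * p * z / r ^ 4 = 2 * u * z * v ^ 3 := by rw [hv, hu]; field_simp
    have ez4 : z / r ^ 2 = z * v ^ 2 := by rw [← einv, div_eq_mul_inv]
    rw [ez1, ez2, ez3, ez4, ← hu] at e0
    simp only [smul_eq_mul] at e0
    rw [e0]
    exact fin _ 540 M (tx_strip_alg2 hF hA.le hu0 hu1 hv0 hv1 hz0 hz1' huv homx h1 h2 hβ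
      (abs_nonneg K) (hKK _ d1) (hKK _ d2) g1 g2 g3) le_rfl hM0 le_rfl

end S3

/-! ## Glue -/

theorem TXExp.mono {f : Space → ℝ} {k R R' : ℝ} {C : ℕ → ℝ} (hE : TXExp f k R C) (hR : R ≤ R') :
    TXExp f k R' C where
  R_ge := hE.R_ge.trans hR
  words := hE.words.mono hR fun _ _ _ => le_rfl
  rot := fun w hw x hx => hE.rot w hw x (Ext_mono hR hx)
  rot_dr := fun w hw x hx => hE.rot_dr w hw x (Ext_mono hR hx)
  rot_dr2 := fun w hw x hx => hE.rot_dr2 w hw x (Ext_mono hR hx)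

theorem tx_tz_le_one (x : Space) : tz x ≤ 1 := by
  unfold tz
  rcases eq_or_ne x 0 with rfl | hx
  · simp
  · rw [div_le_one (norm_pos_iff.2 hx)]
    exact (le_abs_self _).trans (by simpa using PiLp.norm_apply_le x 2)

/-- strip bounds for a positive solution (`b`). -/
theorem TXSol.strip_pos {f : Space → ℝ} {k : ℝ} (h : TXSol f k) (hpos : ∀ x, 0 < f x) :
    ∃ C P : ℝ, TXStrip f k C P := by
  obtain ⟨R₁, C, hE⟩ := h.exp
  obtain ⟨R₂, c, -, hc, hlow⟩ := h.lower hpos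
  have hE' := hE.mono (le_max_left R₁ R₂)
  refine tx_strip_of h.k_lo h.k_hi hE' (om := fun _ => 1) (c := c) (K := C 0) hc
    (fun x _ _ => tx_tz_le_one x) (fun x hx _ => ?_) (fun x hx _ => ?_)
  · rw [one_mul]; exact hlow x (Ext_mono (le_max_right R₁ R₂) hx)
  · have hw : IsRotWord [] := fun a ha => by simp at ha
    have a1 := hE'.rot_dr [] hw x hx
    have a2 := hE'.rot_dr2 [] hw x hx
    simp only [dword_nil, List.length_nil] at a1 a2
    exact ⟨by simpa using a1, by simpa using a2⟩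

/-- strip bounds for the odd solution (`e`). -/
theorem TXSol.strip_odd {f : Space → ℝ} {k : ℝ} (h : TXSol f k)
    (hodd : ∀ x, f (reflZ x) = -f x) (haxi : ∀ a x, f (rotZ a x) = f x)
    (hpos : ∀ x : Space, 0 < x 2 → 0 < f x) : ∃ C P : ℝ, TXStrip f k C P := by
  obtain ⟨R₁, C, hE⟩ := h.exp
  obtain ⟨R₂, c, -, hc, hlow⟩ := h.lower_odd hodd haxi hpos
  have hE' := hE.mono (le_max_left R₁ R₂)
  refine tx_strip_of h.k_lo h.k_hi hE' (om := tz) (c := c) (K := 3 * C 1) hc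
    (fun x _ _ => le_rfl) (fun x hx hz => hlow x (Ext_mono (le_max_right R₁ R₂) hx) hz)
    (fun x hx hz => ?_)
  have ht : |tz x| = tz x := abs_of_nonneg (div_nonneg hz (norm_nonneg _))
  have := hE'.odd_dr hodd x hx
  rwa [ht] at this

end Claimed.Open.R278
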