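import Claimed.Open.R278.Variance

/-!
# Tensorisation of a one-dimensional Poincaré inequality; products of weighted measures
-/

open MeasureTheory Filter Topology Set
open scoped ContDiff InnerProductSpace ENNReal

noncomputable section

set_option linter.unusedSectionVars false

namespace Claimed.Open.R278

variable {E : Type*} [NormedAddCommGroup E] [InnerProductSpace ℂ E] [NormedSpace ℝ E]
  [CompleteSpace E]

/-- `(s, y) ↦ (s, y₀, …, y_{n-1})`. -/
def consE (n : ℕ) : ℝ × (Fin n → ℝ) ≃ᵐ (Fin (n + 1) → ℝ) :=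
  (MeasurableEquiv.piFinSuccAbove (fun _ : Fin (n + 1) => ℝ) 0).symm

theorem consE_apply (n : ℕ) (p : ℝ × (Fin n → ℝ)) :
    consE n p = (Fin.cons p.1 p.2 : Fin (n + 1) → ℝ) := by
  simp [consE, MeasurableEquiv.piFinSuccAbove, Fin.insertNthEquiv]

theorem measurePreserving_consE (ν : Measure ℝ) [SigmaFinite ν] (n : ℕ) :
    MeasurePreserving (consE n) (ν.prod (Measure.pi fun _ : Fin n => ν))
      (Measure.pi fun _ : Fin (n + 1) => ν) :=
  (measurePreserving_piFinSuccAbove (fun _ : Fin (n + 1) => ν) 0).symm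

/-- The same map as a continuous linear equivalence. -/
def consL (n : ℕ) : (ℝ × (Fin n → ℝ)) ≃L[ℝ] (Fin (n + 1) → ℝ) :=
  Fin.consEquivL ℝ (fun _ : Fin (n + 1) => ℝ)

@[simp] theorem consL_apply (n : ℕ) (p : ℝ × (Fin n → ℝ)) :
    consL n p = (Fin.cons p.1 p.2 : Fin (n + 1) → ℝ) := rfl

@[simp] theorem consL_coe_apply (n : ℕ) (p : ℝ × (Fin n → ℝ)) :
    ((consL n : (ℝ × (Fin n → ℝ)) ≃L[ℝ] (Fin (n + 1) → ℝ)) : (ℝ × (Fin n → ℝ)) →L[ℝ] (Fin (n + 1) → ℝ)) p
      = (Fin.cons p.1 p.2 : Fin (n + 1) → ℝ) := rfl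

theorem continuous_cons (n : ℕ) :
    Continuous fun p : ℝ × (Fin n → ℝ) => (Fin.cons p.1 p.2 : Fin (n + 1) → ℝ) :=
  (consL n).continuous

theorem cons_one_zero (n : ℕ) :
    (Fin.cons (1 : ℝ) (0 : Fin n → ℝ) : Fin (n + 1) → ℝ) = Pi.single 0 1 := by
  ext i
  refine Fin.cases ?_ (fun j => ?_) i
  · simp
  · simp [Fin.succ_ne_zero]

theorem cons_zero_single (n : ℕ) (k : Fin n) :
    (Fin.cons (0 : ℝ) (Pi.single k 1 : Fin n → ℝ) : Fin (n + 1) → ℝ) = Pi.single k.succ 1 := by
  ext i
  refine Fin.cases ?_ (fun j => ?_) i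
  · simp [(Fin.succ_ne_zero k).symm]
  · simp [Pi.single_apply]

section Slices

variable {n : ℕ} {ζ : (Fin (n + 1) → ℝ) → E}

theorem hasDerivAt_slice_left (hζ : ContDiff ℝ 1 ζ) (s : ℝ) (y : Fin n → ℝ) :
    HasDerivAt (fun s => ζ (Fin.cons s y)) (fderiv ℝ ζ (Fin.cons s y) (Pi.single 0 1)) s := by
  have h1 : HasFDerivAt ζ (fderiv ℝ ζ (Fin.cons s y)) (Fin.cons s y) :=
    (hζ.differentiable one_ne_zero _).hasFDerivAt
  have h2 : HasDerivAt (fun s : ℝ => consL n (s, y))
      (consL n (1, 0)) s :=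
    (consL n).hasFDerivAt.comp_hasDerivAt s
      ((hasDerivAt_id s).prodMk (hasDerivAt_const s y))
  have h3 := h1.comp_hasDerivAt s (by simpa using h2)
  simpa [cons_one_zero, Function.comp_def] using h3

theorem hasFDerivAt_slice_right (hζ : ContDiff ℝ 1 ζ) (s : ℝ) (y : Fin n → ℝ) :
    HasFDerivAt (fun y => ζ (Fin.cons s y))
      ((fderiv ℝ ζ (Fin.cons s y)).comp
        (((consL n) : _ →L[ℝ] _).comp
          (ContinuousLinearMap.inr ℝ ℝ (Fin n → ℝ)))) y := by
  have h1 : HasFDerivAt ζ (fderiv ℝ ζ (Fin.cons s y)) (Fin.cons s y) :=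
    (hζ.differentiable one_ne_zero _).hasFDerivAt
  have h2 : HasFDerivAt (fun y : Fin n → ℝ => consL n (s, y))
      (((consL n) : _ →L[ℝ] _).comp
          (ContinuousLinearMap.inr ℝ ℝ (Fin n → ℝ))) y :=
    (consL n).hasFDerivAt.comp y (hasFDerivAt_prodMk_right s y)
  exact h1.comp y (by simpa using h2)

theorem fderiv_slice_right (hζ : ContDiff ℝ 1 ζ) (s : ℝ) (y : Fin n → ℝ) (k : Fin n) :
    fderiv ℝ (fun y => ζ (Fin.cons s y)) y (Pi.single k 1) =
      fderiv ℝ ζ (Fin.cons s y) (Pi.single k.succ 1) := by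
  rw [(hasFDerivAt_slice_right hζ s y).fderiv]
  simp [cons_zero_single]

theorem contDiff_slice_left (hζ : ContDiff ℝ 1 ζ) (y : Fin n → ℝ) :
    ContDiff ℝ 1 fun s => ζ (Fin.cons s y) := by
  have : ContDiff ℝ 1 fun s : ℝ => consL n (s, y) :=
    (consL n).contDiff.comp (contDiff_id.prodMk contDiff_const)
  exact hζ.comp (by simpa using this)

theorem contDiff_slice_right (hζ : ContDiff ℝ 1 ζ) (s : ℝ) :
    ContDiff ℝ 1 fun y : Fin n → ℝ => ζ (Fin.cons s y) := by
  have : ContDiff ℝ 1 fun y : Fin n → ℝ => consL n (s, y) :=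
    (consL n).contDiff.comp (contDiff_const.prodMk contDiff_id)
  exact hζ.comp (by simpa using this)

theorem hasCompactSupport_slice_left (hc : HasCompactSupport ζ) (y : Fin n → ℝ) :
    HasCompactSupport fun s => ζ (Fin.cons s y) := by
  have hemb : IsClosedEmbedding fun s : ℝ => (Fin.cons s y : Fin (n + 1) → ℝ) :=
    Function.LeftInverse.isClosedEmbedding (f := fun x : Fin (n + 1) → ℝ => x 0)
      (fun s => by simp) (continuous_apply 0)
      ((continuous_cons n).comp (continuous_id.prodMk continuous_const))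
  exact hc.comp_isClosedEmbedding hemb

theorem hasCompactSupport_slice_right (hc : HasCompactSupport ζ) (s : ℝ) :
    HasCompactSupport fun y : Fin n → ℝ => ζ (Fin.cons s y) := by
  have hemb : IsClosedEmbedding fun y : Fin n → ℝ => (Fin.cons s y : Fin (n + 1) → ℝ) :=
    Function.LeftInverse.isClosedEmbedding (f := fun (x : Fin (n + 1) → ℝ) (k : Fin n) => x k.succ)
      (fun y => by simp) (continuous_pi fun k => continuous_apply _)
      ((continuous_cons n).comp (continuous_const.prodMk continuous_id))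
  exact hc.comp_isClosedEmbedding hemb

end Slices

section Induction

variable {ν : Measure ℝ} [IsProbabilityMeasure ν]

theorem vari_nonneg {α : Type*} [MeasurableSpace α] {ν : Measure α} [IsProbabilityMeasure ν]
    {f : α → E} (hf : StronglyMeasurable f) {B : ℝ} (hB : ∀ p, ‖f p‖ ≤ B) : 0 ≤ vari ν f := by
  have h1 : Integrable f ν := .of_bound hf.aestronglyMeasurable B (ae_of_all _ hB)
  have h2 : Integrable (fun p => ‖f p‖ ^ 2) ν :=
    .of_bound (hf.norm.pow 2).aestronglyMeasurable (B ^ 2) (ae_of_all _ fun p => by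
      rw [Real.norm_eq_abs, abs_of_nonneg (sq_nonneg _)]
      exact pow_le_pow_left₀ (norm_nonneg _) (hB p) 2)
  have := norm_integral_sq_le h1 h2
  unfold vari
  linarith

theorem integral_pi_succ_eq_prod {F : Type*} [NormedAddCommGroup F] [NormedSpace ℝ F] (n : ℕ)
    (h : (Fin (n + 1) → ℝ) → F) :
    ∫ x, h x ∂(Measure.pi fun _ : Fin (n + 1) => ν) =
      ∫ p : ℝ × (Fin n → ℝ), h (Fin.cons p.1 p.2) ∂(ν.prod (Measure.pi fun _ : Fin n => ν)) := by
  rw [← (measurePreserving_consE ν n).integral_comp']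
  simp only [consE_apply]

/-- Tensorisation: a Poincaré inequality for `ν` on `ℝ` implies the Poincaré inequality with the
same constant for `ν^{⊗ n}` on `ℝⁿ`. -/
theorem vari_pi_le {C : ℝ}
    (h1 : ∀ ζ : ℝ → E, ContDiff ℝ 1 ζ → HasCompactSupport ζ →
      vari ν ζ ≤ C * ∫ s, ‖deriv ζ s‖ ^ 2 ∂ν) (n : ℕ) :
    ∀ ζ : (Fin n → ℝ) → E, ContDiff ℝ 1 ζ → HasCompactSupport ζ →
      vari (Measure.pi fun _ : Fin n => ν) ζ ≤
        C * ∑ k, ∫ x, ‖fderiv ℝ ζ x (Pi.single k 1)‖ ^ 2 ∂(Measure.pi fun _ : Fin n => ν) := by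
  induction n with
  | zero =>
    intro ζ _ _
    simp [vari, integral_unique]
  | succ n ih =>
    intro ζ hζ hc
    obtain ⟨B, hB⟩ := hc.exists_bound_of_continuous hζ.continuous
    set π := Measure.pi fun _ : Fin n => ν with hπ
    set f : ℝ × (Fin n → ℝ) → E := fun p => ζ (Fin.cons p.1 p.2) with hf
    have hfm : StronglyMeasurable f := (hζ.continuous.comp (continuous_cons n)).stronglyMeasurable
    have hv : vari (Measure.pi fun _ : Fin (n + 1) => ν) ζ = vari (ν.prod π) f := by
      simp only [vari, integral_pi_succ_eq_prod]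
      rfl
    have key := vari_prod_le (ν := ν) (μ' := π) hfm (fun p => hB _)
    set D : Fin (n + 1) → (Fin (n + 1) → ℝ) → ℝ := fun k x => ‖fderiv ℝ ζ x (Pi.single k 1)‖ ^ 2
      with hD
    have hDi : ∀ k, Integrable (fun p : ℝ × (Fin n → ℝ) => D k (Fin.cons p.1 p.2)) (ν.prod π) := by
      intro k
      have c1 : Continuous fun x => fderiv ℝ ζ x (Pi.single k 1) :=
        (hζ.continuous_fderiv (by simp)).clm_apply continuous_const
      obtain ⟨B', hB'⟩ := (hc.fderiv_apply (𝕜 := ℝ) (Pi.single k 1)).exists_bound_of_continuous c1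
      refine .of_bound (((c1.norm.pow 2).comp (continuous_cons n)).aestronglyMeasurable) (B' ^ 2)
        (ae_of_all _ fun p => ?_)
      simp only [hD]
      rw [Real.norm_eq_abs, abs_of_nonneg (sq_nonneg _)]
      exact pow_le_pow_left₀ (norm_nonneg _) (hB' _) 2
    have T1 : ∫ y, vari ν (fun s => f (s, y)) ∂π ≤
        C * ∫ x, D 0 x ∂(Measure.pi fun _ : Fin (n + 1) => ν) := by
      rw [integral_pi_succ_eq_prod, integral_prod_symm _ (hDi 0), ← integral_const_mul]
      refine integral_mono_of_nonneg (ae_of_all _ fun y => ?_)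
        ((hDi 0).integral_prod_right.const_mul C) (ae_of_all _ fun y => ?_)
      · exact vari_nonneg (hfm.comp_measurable (measurable_id.prodMk measurable_const))
          (fun s => hB _)
      · have := h1 _ (contDiff_slice_left hζ y) (hasCompactSupport_slice_left hc y)
        simpa [hf, hD, (hasDerivAt_slice_left hζ _ y).deriv] using this
    have T2 : ∫ s, vari π (fun y => f (s, y)) ∂ν ≤
        C * ∑ k : Fin n, ∫ x, D k.succ x ∂(Measure.pi fun _ : Fin (n + 1) => ν) := by
      have e : ∀ k : Fin n, ∫ x, D k.succ x ∂(Measure.pi fun _ : Fin (n + 1) => ν) =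
          ∫ s, ∫ y, D k.succ (Fin.cons s y) ∂π ∂ν := fun k => by
        rw [integral_pi_succ_eq_prod, integral_prod _ (hDi k.succ)]
      simp only [e]
      rw [← integral_finsetSum _ (fun k _ => (hDi k.succ).integral_prod_left),
        ← integral_const_mul]
      refine integral_mono_of_nonneg (ae_of_all _ fun s => ?_)
        ((integrable_finsetSum _ (fun k _ => (hDi k.succ).integral_prod_left)).const_mul C)
        (ae_of_all _ fun s => ?_)
      · exact vari_nonneg (hfm.comp_measurable (measurable_const.prodMk measurable_id))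
          (fun y => hB _)
      · have := ih _ (contDiff_slice_right hζ s) (hasCompactSupport_slice_right hc s)
        simpa [hf, hD, fderiv_slice_right hζ s] using this
    rw [hv, Fin.sum_univ_succ, mul_add]
    exact key.trans (add_le_add T1 T2)

end Induction

/-- The product of weighted Lebesgue measures is Lebesgue measure weighted by the product. -/
theorem pi_withDensity_eq (g : ℝ → ℝ≥0∞) (hg : Measurable g)
    [SigmaFinite ((volume : Measure ℝ).withDensity g)] (n : ℕ) :
    Measure.pi (fun _ : Fin n => (volume : Measure ℝ).withDensity g) =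
      (volume : Measure (Fin n → ℝ)).withDensity (fun y => ∏ k, g (y k)) := by
  induction n with
  | zero =>
    simp only [Finset.univ_eq_empty, Finset.prod_empty, volume_pi]
    rw [Measure.pi_of_empty _ (0 : Fin 0 → ℝ), Measure.pi_of_empty _ (0 : Fin 0 → ℝ)]
    exact (withDensity_one (μ := Measure.dirac (0 : Fin 0 → ℝ))).symm
  | succ n ih =>
    have hG : Measurable fun y : Fin n → ℝ => ∏ k, g (y k) :=
      Finset.measurable_prod _ fun k _ => hg.comp (measurable_pi_apply k)
    have hG' : Measurable fun y : Fin (n + 1) → ℝ => ∏ k, g (y k) :=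
      Finset.measurable_prod _ fun k _ => hg.comp (measurable_pi_apply k)
    have mp1 := measurePreserving_consE ((volume : Measure ℝ).withDensity g) n
    have mp2 : MeasurePreserving (consE n) ((volume : Measure ℝ).prod volume) volume :=
      measurePreserving_consE (volume : Measure ℝ) n
    rw [← mp1.map_eq, ih, prod_withDensity hg hG]
    ext S hS
    rw [Measure.map_apply (consE n).measurable hS, withDensity_apply _ hS,
      withDensity_apply _ ((consE n).measurable hS),
      ← mp2.setLIntegral_comp_preimage_emb (consE n).measurableEmbedding]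
    simp [consE_apply, Fin.prod_univ_succ]

end Claimed.Open.R278
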