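import Claimed.Open.R278.FlatBound
import Claimed.Open.R278.Examples

/-!
# The spectral gap on configuration space

Transfer of `flat_lower_bound` from `ℝ⁹` to `Config 3 = (ℝ³)³`.
-/

open MeasureTheory Filter Topology Set
open scoped ContDiff InnerProductSpace ENNReal

noncomputable section

set_option linter.unusedSectionVars false

namespace Claimed.Open.R278

/-- Numbering of the nine coordinates. -/
def idx : Fin 3 × Fin 3 ≃ Fin 9 := finProdFinEquiv

/-- The coordinates of a configuration. -/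
def flatLin : Config 3 ≃ₗ[ℝ] (Fin 9 → ℝ) where
  toFun x k := x (idx.symm k).1 (idx.symm k).2
  invFun y i := WithLp.toLp 2 fun a => y (idx (i, a))
  map_add' x x' := by funext k; simp
  map_smul' c x := by funext k; simp
  left_inv x := by funext i; ext a; simp
  right_inv y := by funext k; simp

/-- The coordinates of a configuration, as a continuous linear equivalence. -/
def flatL : Config 3 ≃L[ℝ] (Fin 9 → ℝ) := flatLin.toContinuousLinearEquiv

theorem flatL_apply (x : Config 3) (k : Fin 9) : flatL x k = x (idx.symm k).1 (idx.symm k).2 := rfl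

theorem flatL_apply_idx (x : Config 3) (j : Fin 3 × Fin 3) : flatL x (idx j) = x j.1 j.2 := by
  rw [flatL_apply, Equiv.symm_apply_apply]

theorem flatL_symm_apply (y : Fin 9 → ℝ) (i a : Fin 3) : flatL.symm y i a = y (idx (i, a)) := rfl

theorem flatL_dir (j : Fin 3 × Fin 3) : flatL (dir j) = Pi.single (idx j) 1 := by
  funext k
  obtain ⟨j', rfl⟩ := idx.surjective k
  rw [flatL_apply_idx]
  obtain ⟨i, a⟩ := j
  obtain ⟨i', a'⟩ := j'
  by_cases hi : i' = i
  · subst hi
    by_cases ha : a' = a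
    · subst ha; simp [dir]
    · have : idx (i', a') ≠ idx (i', a) := fun h => ha (by simpa using idx.injective h)
      simp [dir, ha, this]
  · have : idx (i', a') ≠ idx (i, a) := fun h => hi (by simpa using congrArg Prod.fst (idx.injective h))
    simp [dir, hi, this]

theorem flatL_symm_single (k : Fin 9) : flatL.symm (Pi.single k 1) = dir (idx.symm k) := by
  rw [ContinuousLinearEquiv.symm_apply_eq, flatL_dir, Equiv.apply_symm_apply]

theorem volume_space_pi (t : Fin 3 → Set ℝ) (ht : ∀ a, MeasurableSet (t a)) :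
    volume {r : Space | ∀ a, r a ∈ t a} = ∏ a, volume (t a) := by
  have h := (PiLp.volume_preserving_ofLp (Fin 3)).measure_preimage
    (MeasurableSet.univ_pi ht).nullMeasurableSet
  rw [volume_pi_pi] at h
  rw [← h]
  congr 1
  ext r
  simp

theorem measurePreserving_flatL : MeasurePreserving flatL volume volume := by
  refine ⟨flatL.continuous.measurable, ?_⟩
  symm
  rw [volume_pi]
  refine Measure.pi_eq fun s hs => ?_
  rw [Measure.map_apply flatL.continuous.measurable (MeasurableSet.univ_pi hs)]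
  have e : flatL ⁻¹' (Set.pi univ s) =
      Set.pi univ fun i : Fin 3 => {r : Space | ∀ a, r a ∈ s (idx (i, a))} := by
    ext x
    constructor
    · intro h i _ a
      have := h (idx (i, a)) (mem_univ _)
      rwa [flatL_apply_idx] at this
    · intro h k _
      obtain ⟨⟨i, a⟩, rfl⟩ := idx.surjective k
      rw [flatL_apply_idx]
      exact h i (mem_univ _) a
  rw [e, volume_pi_pi]
  simp only [volume_space_pi _ (fun a => hs _)]
  rw [← Fintype.prod_prod_type' (f := fun i a => volume (s (idx (i, a))))]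
  exact Equiv.prod_comp idx fun k => volume (s k)

theorem integral_comp_flatL_symm {M : Type*} [NormedAddCommGroup M] [NormedSpace ℝ M]
    (h : Config 3 → M) : ∫ y, h (flatL.symm y) = ∫ x, h x :=
  (measurePreserving_flatL.symm flatL.toHomeomorph.toMeasurableEquiv).integral_comp
    flatL.symm.toHomeomorph.measurableEmbedding h

/-- The (unnormalised) product ground state `∏_{i,a} sech²(x_{i,a})` on configuration space. -/
def gsFun (x : Config 3) : ℝ := prodSech (flatL x) ^ 2

section C1c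

variable {F : Config 3 → SpinSpace 3}

/-- **Spectral gap on `C¹_c(ℝ⁹; ℂ⁸)`.** -/
theorem config_lower_bound (hF : ContDiff ℝ 1 F) (hc : HasCompactSupport F) :
    (3 / 2) * ((∫ x, ‖F x‖ ^ 2) - (kappa ^ 9)⁻¹ * ‖∫ x, gsFun x • F x‖ ^ 2) ≤
      ∑ j : Fin 3 × Fin 3, ((1 / 2) * (∫ x, ‖fderiv ℝ F x (dir j)‖ ^ 2) +
        ∫ x, (2 - 3 * sech (x j.1 j.2) ^ 2) * ‖F x‖ ^ 2) := by
  have hF' : ContDiff ℝ 1 (fun y => F (flatL.symm y)) := hF.comp flatL.symm.contDiff
  have hc' : HasCompactSupport (fun y => F (flatL.symm y)) :=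
    hc.comp_homeomorph flatL.symm.toHomeomorph
  have h := flat_lower_bound hF' hc'
  have hd : ∀ (k : Fin 9) (y : Fin 9 → ℝ), fderiv ℝ (fun y => F (flatL.symm y)) y (Pi.single k 1) =
      fderiv ℝ F (flatL.symm y) (dir (idx.symm k)) := by
    intro k y
    have h1 := (hF.differentiable (by simp) (flatL.symm y)).hasFDerivAt.comp y
      flatL.symm.hasFDerivAt
    have h3 : fderiv ℝ (fun y => F (flatL.symm y)) y = _ := h1.fderiv
    rw [h3]
    simp [flatL_symm_single]
  simp only [hd] at h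
  have e1 : ∫ y, ‖F (flatL.symm y)‖ ^ 2 = ∫ x, ‖F x‖ ^ 2 :=
    integral_comp_flatL_symm fun x => ‖F x‖ ^ 2
  have e2 : ∫ y, prodSech y ^ 2 • F (flatL.symm y) = ∫ x, gsFun x • F x := by
    rw [← integral_comp_flatL_symm fun x => gsFun x • F x]
    simp [gsFun]
  have e3 : ∀ k : Fin 9, ∫ y, ‖fderiv ℝ F (flatL.symm y) (dir (idx.symm k))‖ ^ 2 =
      ∫ x, ‖fderiv ℝ F x (dir (idx.symm k))‖ ^ 2 := fun k =>
    integral_comp_flatL_symm fun x => ‖fderiv ℝ F x (dir (idx.symm k))‖ ^ 2
  have e4 : ∀ k : Fin 9, ∫ y : Fin 9 → ℝ, (2 - 3 * sech (y k) ^ 2) * ‖F (flatL.symm y)‖ ^ 2 =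
      ∫ x, (2 - 3 * sech (x (idx.symm k).1 (idx.symm k).2) ^ 2) * ‖F x‖ ^ 2 := fun k => by
    rw [← integral_comp_flatL_symm
      fun x => (2 - 3 * sech (x (idx.symm k).1 (idx.symm k).2) ^ 2) * ‖F x‖ ^ 2]
    simp [flatL_symm_apply]
  rw [e1, e2] at h
  simp only [e3, e4] at h
  rw [Equiv.sum_comp idx.symm (fun j : Fin 3 × Fin 3 =>
    (1 / 2) * (∫ x, ‖fderiv ℝ F x (dir j)‖ ^ 2) +
        ∫ x, (2 - 3 * sech (x j.1 j.2) ^ 2) * ‖F x‖ ^ 2)] at h
  exact h

end C1c

end Claimed.Open.R278
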