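import Claimed.Open.R278.Mollify

/-!
# Variance of Hilbert-space valued functions and tensorisation of Poincaré inequalities
-/

open MeasureTheory Filter Topology Set
open scoped ContDiff InnerProductSpace

noncomputable section

set_option linter.unusedSectionVars false

namespace Claimed.Open.R278

variable {E : Type*} [NormedAddCommGroup E] [InnerProductSpace ℂ E] [NormedSpace ℝ E]
  [CompleteSpace E]

/-- `∫ ‖f‖² - ‖∫ f‖²`. -/
def vari {α : Type*} [MeasurableSpace α] (ν : Measure α) (f : α → E) : ℝ :=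
  (∫ x, ‖f x‖ ^ 2 ∂ν) - ‖∫ x, f x ∂ν‖ ^ 2

section Var

variable {α : Type*} [MeasurableSpace α] {ν : Measure α} [IsProbabilityMeasure ν]

theorem integral_norm_sub_sq {f : α → E} (hf : Integrable f ν)
    (hf2 : Integrable (fun x => ‖f x‖ ^ 2) ν) (c : E) :
    ∫ x, ‖f x - c‖ ^ 2 ∂ν = vari ν f + ‖(∫ x, f x ∂ν) - c‖ ^ 2 := by
  have h1 : ∀ x, ‖f x - c‖ ^ 2 = ‖f x‖ ^ 2 - 2 * RCLike.re ⟪c, f x⟫_ℂ + ‖c‖ ^ 2 := by
    intro x
    rw [@norm_sub_sq ℂ, ← inner_re_symm]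
  have hi : Integrable (fun x => ⟪c, f x⟫_ℂ) ν := hf.const_inner c
  have hre : Integrable (fun x => (RCLike.re ⟪c, f x⟫_ℂ : ℝ)) ν := hi.re
  have h2 : ∫ x, (RCLike.re ⟪c, f x⟫_ℂ : ℝ) ∂ν = RCLike.re ⟪c, ∫ x, f x ∂ν⟫_ℂ := by
    rw [integral_re hi, integral_inner hf]
  have j1 : Integrable (fun x => ‖f x‖ ^ 2 - 2 * RCLike.re ⟪c, f x⟫_ℂ) ν := hf2.sub (hre.const_mul 2)
  simp only [h1]
  rw [integral_add j1 (integrable_const _), integral_sub hf2 (hre.const_mul 2), integral_const_mul,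
    h2, @norm_sub_sq ℂ, ← inner_re_symm, vari]
  simp
  ring

theorem vari_le {f : α → E} (hf : Integrable f ν) (hf2 : Integrable (fun x => ‖f x‖ ^ 2) ν) (c : E) :
    vari ν f ≤ ∫ x, ‖f x - c‖ ^ 2 ∂ν := by
  rw [integral_norm_sub_sq hf hf2 c]
  nlinarith [sq_nonneg ‖(∫ x, f x ∂ν) - c‖]

theorem vari_eq {f : α → E} (hf : Integrable f ν) (hf2 : Integrable (fun x => ‖f x‖ ^ 2) ν) :
    vari ν f = ∫ x, ‖f x - ∫ y, f y ∂ν‖ ^ 2 ∂ν := by
  rw [integral_norm_sub_sq hf hf2]; simp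

/-- Jensen's inequality for the square of the norm. -/
theorem norm_integral_sq_le {f : α → E} (hf : Integrable f ν)
    (hf2 : Integrable (fun x => ‖f x‖ ^ 2) ν) : ‖∫ x, f x ∂ν‖ ^ 2 ≤ ∫ x, ‖f x‖ ^ 2 ∂ν := by
  have h1 : ‖∫ x, f x ∂ν‖ ≤ ∫ x, ‖f x‖ ∂ν := norm_integral_le_integral_norm _
  have h2 := sq_integral_mul_le (ν := ν) (ρ := fun _ => 1) (h := fun x => ‖f x‖)
    (fun _ => zero_le_one) (integrable_const _) (by simpa using hf.norm) (by simpa using hf2)
  simp only [one_mul, integral_const, probReal_univ, smul_eq_mul, mul_one] at h2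
  exact (pow_le_pow_left₀ (norm_nonneg _) h1 2).trans h2

end Var

section Prod

variable {α β : Type*} [MeasurableSpace α] [MeasurableSpace β] {ν : Measure α} {μ' : Measure β}
  [IsProbabilityMeasure ν] [IsProbabilityMeasure μ']

/-- Subadditivity of the variance on a product space (Efron–Stein inequality). -/
theorem vari_prod_le {f : α × β → E} (hf : StronglyMeasurable f) {B : ℝ} (hB : ∀ p, ‖f p‖ ≤ B) :
    vari (ν.prod μ') f ≤
      (∫ y, vari ν (fun s => f (s, y)) ∂μ') + ∫ s, vari μ' (fun y => f (s, y)) ∂ν := by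
  have hB0 : 0 ≤ B := by
    obtain ⟨p⟩ : Nonempty (α × β) := (ν.prod μ').nonempty_of_neZero
    exact (norm_nonneg _).trans (hB p)
  have sqB : ∀ {v : E}, ‖v‖ ≤ B → ‖‖v‖ ^ 2‖ ≤ B ^ 2 := fun {v} hv => by
    rw [Real.norm_eq_abs, abs_of_nonneg (sq_nonneg _)]
    exact pow_le_pow_left₀ (norm_nonneg _) hv 2
  have hfi : Integrable f (ν.prod μ') := .of_bound hf.aestronglyMeasurable B (ae_of_all _ hB)
  have hf2 : Integrable (fun p => ‖f p‖ ^ 2) (ν.prod μ') :=
    .of_bound (hf.norm.pow 2).aestronglyMeasurable (B ^ 2) (ae_of_all _ fun p => sqB (hB p))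
  set a : β → E := fun y => ∫ s, f (s, y) ∂ν with ha
  set b : α → E := fun s => ∫ y, f (s, y) ∂μ' with hb
  have ham : StronglyMeasurable a := hf.integral_prod_left'
  have hbm : StronglyMeasurable b := hf.integral_prod_right'
  have haB : ∀ y, ‖a y‖ ≤ B := fun y => by
    have := norm_integral_le_of_norm_le_const (μ := ν) (f := fun s => f (s, y)) (C := B)
      (ae_of_all _ fun s => hB (s, y))
    simpa using this
  have hbB : ∀ s, ‖b s‖ ≤ B := fun s => by
    have := norm_integral_le_of_norm_le_const (μ := μ') (f := fun y => f (s, y)) (C := B)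
      (ae_of_all _ fun y => hB (s, y))
    simpa using this
  have hai : Integrable a μ' := .of_bound ham.aestronglyMeasurable B (ae_of_all _ haB)
  have ha2 : Integrable (fun y => ‖a y‖ ^ 2) μ' :=
    .of_bound (ham.norm.pow 2).aestronglyMeasurable (B ^ 2) (ae_of_all _ fun y => sqB (haB y))
  have hb2 : Integrable (fun s => ‖b s‖ ^ 2) ν :=
    .of_bound (hbm.norm.pow 2).aestronglyMeasurable (B ^ 2) (ae_of_all _ fun s => sqB (hbB s))
  -- slices
  have hs1 : ∀ y, StronglyMeasurable fun s => f (s, y) := fun y =>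
    hf.comp_measurable (measurable_id.prodMk measurable_const)
  have hs2 : ∀ s, StronglyMeasurable fun y => f (s, y) := fun s =>
    hf.comp_measurable (measurable_const.prodMk measurable_id)
  have hs2i : ∀ s, Integrable (fun y => f (s, y)) μ' := fun s =>
    .of_bound (hs2 s).aestronglyMeasurable B (ae_of_all _ fun y => hB (s, y))
  have hs2q : ∀ s, Integrable (fun y => ‖f (s, y)‖ ^ 2) μ' := fun s =>
    .of_bound ((hs2 s).norm.pow 2).aestronglyMeasurable (B ^ 2) (ae_of_all _ fun y => sqB (hB (s, y)))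
  set I := ∫ p, ‖f p‖ ^ 2 ∂(ν.prod μ') with hI
  have e1 : ∫ y, vari ν (fun s => f (s, y)) ∂μ' = I - ∫ y, ‖a y‖ ^ 2 ∂μ' := by
    simp only [vari]
    rw [integral_sub hf2.integral_prod_right ha2, hI, integral_prod_symm _ hf2]
  have e2 : ∫ s, vari μ' (fun y => f (s, y)) ∂ν = I - ∫ s, ‖b s‖ ^ 2 ∂ν := by
    simp only [vari]
    rw [integral_sub hf2.integral_prod_left hb2, hI, integral_prod _ hf2]
  have ec : ∫ p, f p ∂(ν.prod μ') = ∫ y, a y ∂μ' := integral_prod_symm _ hfi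
  have ec' : ∫ p, f p ∂(ν.prod μ') = ∫ s, b s ∂ν := integral_prod _ hfi
  set c := ∫ p, f p ∂(ν.prod μ') with hc
  -- the function `f - b`
  set g : α × β → E := fun p => f p - b p.1 with hg
  have hgm : StronglyMeasurable g := hf.sub (hbm.comp_measurable measurable_fst)
  have hgB : ∀ p, ‖g p‖ ≤ 2 * B := fun p => by
    calc ‖g p‖ ≤ ‖f p‖ + ‖b p.1‖ := norm_sub_le _ _
      _ ≤ 2 * B := by linarith [hB p, hbB p.1]
  have hg2 : Integrable (fun p => ‖g p‖ ^ 2) (ν.prod μ') :=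
    .of_bound (hgm.norm.pow 2).aestronglyMeasurable ((2 * B) ^ 2) (ae_of_all _ fun p => by
      rw [Real.norm_eq_abs, abs_of_nonneg (sq_nonneg _)]
      exact pow_le_pow_left₀ (norm_nonneg _) (hgB p) 2)
  have hgs : ∀ y, StronglyMeasurable fun s => g (s, y) := fun y =>
    hgm.comp_measurable (measurable_id.prodMk measurable_const)
  have hgsi : ∀ y, Integrable (fun s => g (s, y)) ν := fun y =>
    .of_bound (hgs y).aestronglyMeasurable (2 * B) (ae_of_all _ fun s => hgB (s, y))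
  have hgsq : ∀ y, Integrable (fun s => ‖g (s, y)‖ ^ 2) ν := fun y =>
    .of_bound ((hgs y).norm.pow 2).aestronglyMeasurable ((2 * B) ^ 2) (ae_of_all _ fun s => by
      rw [Real.norm_eq_abs, abs_of_nonneg (sq_nonneg _)]
      exact pow_le_pow_left₀ (norm_nonneg _) (hgB (s, y)) 2)
  have hbi : Integrable b ν := .of_bound hbm.aestronglyMeasurable B (ae_of_all _ hbB)
  have e3 : ∀ y, a y - c = ∫ s, g (s, y) ∂ν := fun y => by
    have h1 : Integrable (fun s => f (s, y)) ν :=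
      .of_bound (hs1 y).aestronglyMeasurable B (ae_of_all _ fun s => hB (s, y))
    simp only [hg]
    rw [integral_sub h1 hbi, ← ec']
  have key : (∫ y, ‖a y‖ ^ 2 ∂μ') - ‖c‖ ^ 2 ≤ I - ∫ s, ‖b s‖ ^ 2 ∂ν := by
    have h1 : (∫ y, ‖a y‖ ^ 2 ∂μ') - ‖c‖ ^ 2 = ∫ y, ‖a y - c‖ ^ 2 ∂μ' := by
      have := vari_eq hai ha2
      rw [vari, ← ec] at this
      exact this
    have h2 : ∫ y, ‖a y - c‖ ^ 2 ∂μ' ≤ ∫ y, ∫ s, ‖g (s, y)‖ ^ 2 ∂ν ∂μ' := by
      refine integral_mono_of_nonneg (ae_of_all _ fun y => sq_nonneg _) hg2.integral_prod_right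
        (ae_of_all _ fun y => ?_)
      show ‖a y - c‖ ^ 2 ≤ ∫ s, ‖g (s, y)‖ ^ 2 ∂ν
      rw [e3 y]
      exact norm_integral_sq_le (hgsi y) (hgsq y)
    have h3 : ∫ y, ∫ s, ‖g (s, y)‖ ^ 2 ∂ν ∂μ' = ∫ s, ∫ y, ‖g (s, y)‖ ^ 2 ∂μ' ∂ν := by
      rw [← integral_prod_symm _ hg2, integral_prod _ hg2]
    have h4 : ∫ s, ∫ y, ‖g (s, y)‖ ^ 2 ∂μ' ∂ν = ∫ s, vari μ' (fun y => f (s, y)) ∂ν := by
      refine integral_congr_ae (ae_of_all _ fun s => ?_)
      exact (vari_eq (hs2i s) (hs2q s)).symm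
    rw [h1, ← e2, ← h4, ← h3]
    exact h2
  rw [e1, e2, vari]
  linarith

end Prod

end Claimed.Open.R278
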